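import Crest.Agent.R151.A565a
import Crest.Agent.R151.K1a

-- ▼ part R151/A565b
section

/-!
# R151, block A (helper565): i.i.d. stages

A stage of width `L` is a displacement `d : Environment → ℤ` depending only on the columns
`[0, L)`. Starting at height `0`, the heights `H k` are obtained by applying the stage to the
environment seen from `(k L, H k)`. For any function `φ` depending on the columns `[0, L)` the
values `Z φ k = φ (shift (k L, H k))` are pairwise independent and identically distributed.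
-/

set_option autoImplicit false

open MeasureTheory ProbabilityTheory Filter Topology
open Crest.ProbabilityR.FirstPassage
open scoped ENNReal

namespace Crest.Agent.R151.A

section Stage

variable (L : ℤ) (d : Environment → ℤ)

/-- the heights of the stage process -/
def hgt : ℕ → Environment → ℤ
  | 0, _ => 0
  | k + 1, t => hgt k t + d (shift ((k : ℤ) * L, hgt k t) t)

@[simp] lemma hgt_zero (t : Environment) : hgt L d 0 t = 0 := rfl

lemma hgt_succ (k : ℕ) (t : Environment) :
    hgt L d (k + 1) t = hgt L d k t + d (shift ((k : ℤ) * L, hgt L d k t) t) := rfl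

/-- the `k`-th value of the observable `φ` along the stage process -/
def stg {α : Type*} (φ : Environment → α) (k : ℕ) (t : Environment) : α :=
  φ (shift ((k : ℤ) * L, hgt L d k t) t)

variable {L d}

lemma measurable_eval_int {α : Type*} [MeasurableSpace α] {g : ℤ → Environment → α}
    (hg : ∀ h, Measurable (g h)) {H : Environment → ℤ} (hH : Measurable H) :
    Measurable (fun t => g (H t) t) := by
  have h1 : Measurable (fun p : ℤ × Environment => g p.1 p.2) :=
    measurable_from_prod_countable_right hg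
  exact h1.comp (hH.prodMk measurable_id)

lemma measurable_hgt (hd : Measurable d) (k : ℕ) : Measurable (hgt L d k) := by
  induction k with
  | zero => exact measurable_const
  | succ k ih =>
    refine ih.add ?_
    exact measurable_eval_int (g := fun h t => d (shift ((k : ℤ) * L, h) t))
      (fun h => hd.comp (measurable_shift _)) ih

lemma measurable_stg {α : Type*} [MeasurableSpace α] {φ : Environment → α}
    (hd : Measurable d) (hφ : Measurable φ) (k : ℕ) : Measurable (stg L d φ k) :=
  measurable_eval_int (g := fun h t => φ (shift ((k : ℤ) * L, h) t))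
    (fun _ => hφ.comp (measurable_shift _)) (measurable_hgt hd k)

lemma dependsOn_stg_aux {α : Type*} {φ : Environment → α} (hL : 0 ≤ L)
    (hφ : DependsOn φ (block 0 L)) {k : ℕ}
    (hH : DependsOn (hgt L d k) (block 0 (k * L))) :
    DependsOn (stg L d φ k) (block 0 ((k + 1 : ℕ) * L)) := by
  intro t t' htt
  have hle : (k : ℤ) * L ≤ ((k + 1 : ℕ) : ℤ) * L := by push_cast; nlinarith
  have h1 : hgt L d k t = hgt L d k t' :=
    hH fun e he => htt e (block_mono le_rfl hle he)
  unfold stg
  rw [← h1]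
  refine dependsOn_comp_shift hφ _ fun e he => htt e ?_
  refine block_mono ?_ ?_ he
  · simp only [zero_add]; positivity
  · simp only; push_cast; nlinarith

lemma dependsOn_hgt (hL : 0 ≤ L) (hd : DependsOn d (block 0 L)) (k : ℕ) :
    DependsOn (hgt L d k) (block 0 (k * L)) := by
  induction k with
  | zero => intro t t' _; rfl
  | succ k ih =>
    intro t t' htt
    have hle : (k : ℤ) * L ≤ ((k + 1 : ℕ) : ℤ) * L := by push_cast; nlinarith
    have h1 : hgt L d k t = hgt L d k t' := ih fun e he => htt e (block_mono le_rfl hle he)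
    have h2 := dependsOn_stg_aux hL hd ih htt
    unfold stg at h2
    rw [hgt_succ, hgt_succ, h2, h1]

lemma dependsOn_stg {α : Type*} {φ : Environment → α} (hL : 0 ≤ L)
    (hd : DependsOn d (block 0 L)) (hφ : DependsOn φ (block 0 L)) (k : ℕ) :
    DependsOn (stg L d φ k) (block 0 ((k + 1 : ℕ) * L)) :=
  dependsOn_stg_aux hL hφ (dependsOn_hgt hL hd k)

/-- the pairs with nonnegative left abscissa -/
def half : Set (Sym2 (ℤ × ℤ)) := {e | 0 ≤ eX e}

lemma block_subset_half {a b : ℤ} (ha : 0 ≤ a) : block a b ⊆ half := fun _ he => ha.trans he.1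

lemma dependsOn_comp_shift_half {α : Type*} {f : Environment → α} (hf : DependsOn f half)
    (z : ℤ × ℤ) : DependsOn (fun t => f (shift z t)) {e | z.1 ≤ eX e} := by
  intro t t' htt
  refine hf fun e he => ?_
  refine htt _ ?_
  simp only [half, Set.mem_ofPred_eq, eX_eShift] at he ⊢
  omega

/-- the basic factorisation: an event of the first `k` stages and the `k`-th stage; the
observable `φ` of the `k`-th stage may depend on the whole half plane to the right -/
lemma measure_inter_stg (G : Measure ℝ) [IsProbabilityMeasure G] {α β : Type*}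
    [MeasurableSpace α] [MeasurableSpace β] {φ : Environment → α} {ψ : Environment → β}
    (hL : 0 ≤ L) (hd : DependsOn d (block 0 L)) (hdm : Measurable d)
    (hφ : DependsOn φ half) (hφm : Measurable φ) (k : ℕ)
    (hψ : DependsOn ψ (block 0 (k * L))) (hψm : Measurable ψ)
    {A : Set β} (hA : MeasurableSet A) {B : Set α} (hB : MeasurableSet B) :
    iidLaw G (ψ ⁻¹' A ∩ (stg L d φ k) ⁻¹' B) = iidLaw G (ψ ⁻¹' A) * iidLaw G (φ ⁻¹' B) := by
  have hH := dependsOn_hgt (L := L) (d := d) hL hd k
  have hHm := measurable_hgt (L := L) hdm k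
  -- split according to the height
  have hsplit : ∀ C : Set Environment, MeasurableSet C →
      iidLaw G C = ∑' h : ℤ, iidLaw G (C ∩ (hgt L d k) ⁻¹' {h}) := by
    intro C hC
    rw [← measure_iUnion]
    · congr 1
      ext t
      simp
    · intro i j hij
      rw [Function.onFun, Set.disjoint_left]
      rintro t ⟨_, h1⟩ ⟨_, h2⟩
      exact hij (h1.symm.trans h2)
    · intro h
      exact hC.inter (hHm (measurableSet_singleton h))
  have hψA : MeasurableSet (ψ ⁻¹' A) := hψm hA
  rw [hsplit _ (hψA.inter (measurable_stg hdm hφm k hB)), hsplit _ hψA, ← ENNReal.tsum_mul_right]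
  refine tsum_congr fun h => ?_
  -- on `H = h`
  have e1 : ψ ⁻¹' A ∩ (stg L d φ k) ⁻¹' B ∩ (hgt L d k) ⁻¹' {h} =
      (fun t => (ψ t, hgt L d k t)) ⁻¹' (A ×ˢ {h}) ∩
        (fun t => φ (shift ((k : ℤ) * L, h) t)) ⁻¹' B := by
    ext t
    simp only [Set.mem_inter_iff, Set.mem_preimage, Set.mem_singleton_iff, Set.mem_prod, stg]
    constructor
    · rintro ⟨⟨h1, h2⟩, h3⟩
      rw [h3] at h2
      exact ⟨⟨h1, h3⟩, h2⟩
    · rintro ⟨⟨h1, h3⟩, h2⟩
      rw [← h3] at h2
      exact ⟨⟨h1, h2⟩, h3⟩
  have e2 : ψ ⁻¹' A ∩ (hgt L d k) ⁻¹' {h} =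
      (fun t => (ψ t, hgt L d k t)) ⁻¹' (A ×ˢ {h}) := by
    ext t; simp [Set.mem_prod]
  have hdep : DependsOn (fun t => (ψ t, hgt L d k t)) (block 0 (k * L)) := by
    intro t t' htt
    exact Prod.ext (hψ htt) (hH htt)
  have hdep2 : DependsOn (fun t => φ (shift ((k : ℤ) * L, h) t)) {e | (k : ℤ) * L ≤ eX e} :=
    dependsOn_comp_shift_half hφ ((k : ℤ) * L, h)
  have hdisj : Disjoint (block 0 ((k : ℤ) * L)) {e | (k : ℤ) * L ≤ eX e} := by
    rw [Set.disjoint_left]
    rintro e ⟨_, h1⟩ h2
    exact absurd h1 (not_lt.2 h2)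
  have hind := indepFun_of_dependsOn G (hψm.prodMk hHm) (hφm.comp (measurable_shift _)) hdep
    hdep2 hdisj
  rw [indepFun_iff_measure_inter_preimage_eq_mul] at hind
  rw [e1, e2]
  have h3 := hind (A ×ˢ {h}) B (hA.prod (measurableSet_singleton h)) hB
  rw [Function.comp_def] at h3
  rw [h3]
  congr 1
  have h4 := (mp_shift G ((k : ℤ) * L, h)).measure_preimage (hφm hB).nullMeasurableSet
  rw [← h4]
  rfl

lemma identDistrib_stg (G : Measure ℝ) [IsProbabilityMeasure G] {α : Type*}
    [MeasurableSpace α] {φ : Environment → α}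
    (hL : 0 ≤ L) (hd : DependsOn d (block 0 L)) (hdm : Measurable d)
    (hφ : DependsOn φ half) (hφm : Measurable φ) (k : ℕ) :
    IdentDistrib (stg L d φ k) φ (iidLaw G) (iidLaw G) := by
  refine ⟨(measurable_stg hdm hφm k).aemeasurable, hφm.aemeasurable, ?_⟩
  ext B hB
  rw [Measure.map_apply (measurable_stg hdm hφm k) hB, Measure.map_apply hφm hB]
  have h := measure_inter_stg (ψ := fun _ : Environment => ()) G hL hd hdm hφ hφm k
    (fun _ _ _ => rfl) measurable_const (MeasurableSet.univ) hB
  simpa using h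

lemma indepFun_stg_lt (G : Measure ℝ) [IsProbabilityMeasure G] {α : Type*}
    [MeasurableSpace α] {φ : Environment → α}
    (hL : 0 ≤ L) (hd : DependsOn d (block 0 L)) (hdm : Measurable d)
    (hφ : DependsOn φ (block 0 L)) (hφm : Measurable φ) {i k : ℕ} (hik : i < k) :
    IndepFun (stg L d φ i) (stg L d φ k) (iidLaw G) := by
  rw [indepFun_iff_measure_inter_preimage_eq_mul]
  intro s t hs ht
  have hdep : DependsOn (stg L d φ i) (block 0 (k * L)) := by
    have h1 := dependsOn_stg hL hd hφ i
    refine h1.mono (block_mono le_rfl ?_)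
    have : ((i + 1 : ℕ) : ℤ) ≤ k := by exact_mod_cast hik
    exact mul_le_mul_of_nonneg_right this hL
  have hφ' := hφ.mono (block_subset_half le_rfl)
  rw [measure_inter_stg G hL hd hdm hφ' hφm k hdep (measurable_stg hdm hφm i) hs ht]
  congr 1
  have := (identDistrib_stg G hL hd hdm hφ' hφm k).map_eq
  rw [← Measure.map_apply (measurable_stg hdm hφm k) ht, this, Measure.map_apply hφm ht]

lemma pairwise_indepFun_stg (G : Measure ℝ) [IsProbabilityMeasure G] {α : Type*}
    [MeasurableSpace α] {φ : Environment → α}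
    (hL : 0 ≤ L) (hd : DependsOn d (block 0 L)) (hdm : Measurable d)
    (hφ : DependsOn φ (block 0 L)) (hφm : Measurable φ) :
    Pairwise (Function.onFun (fun f g => IndepFun f g (iidLaw G)) (stg L d φ)) := by
  intro i j hij
  rcases lt_or_gt_of_ne hij with h | h
  · exact indepFun_stg_lt G hL hd hdm hφ hφm h
  · exact (indepFun_stg_lt G hL hd hdm hφ hφm h).symm

/-- the strong law for an integrable observable along the stage process -/
lemma strong_law_stg (G : Measure ℝ) [IsProbabilityMeasure G] {φ : Environment → ℝ}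
    (hL : 0 ≤ L) (hd : DependsOn d (block 0 L)) (hdm : Measurable d)
    (hφ : DependsOn φ (block 0 L)) (hφm : Measurable φ) (hφi : Integrable φ (iidLaw G)) :
    ∀ᵐ t ∂(iidLaw G), Tendsto (fun n : ℕ => (∑ i ∈ Finset.range n, stg L d φ i t) / n) atTop
      (𝓝 (∫ t, φ t ∂(iidLaw G))) := by
  have hid := fun k =>
    identDistrib_stg G hL hd hdm (hφ.mono (block_subset_half le_rfl)) hφm k
  have h0 : Integrable (stg L d φ 0) (iidLaw G) := (hid 0).integrable_iff.mpr hφi
  have h1 := strong_law_ae_real (stg L d φ) h0 (pairwise_indepFun_stg G hL hd hdm hφ hφm)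
    (fun i => (hid i).trans (hid 0).symm)
  rw [(hid 0).integral_eq] at h1
  exact h1

lemma hgt_eq_sum (n : ℕ) (t : Environment) :
    (hgt L d n t : ℝ) = ∑ i ∈ Finset.range n, stg L d (fun t => (d t : ℝ)) i t := by
  induction n with
  | zero => simp
  | succ n ih =>
    rw [Finset.sum_range_succ, ← ih, hgt_succ]
    push_cast
    rfl

end Stage

end Crest.Agent.R151.A
end

-- ▼ part R151/A565c

/-!
# R151, block A (helper565): the stage principle

For any law `G` on `[0,∞)` with `E T(0,e₁), E T(0,e₂) < ∞`: if `ρ = (p, q)` is a linear functional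
with `ρ(x) ≤ E T(0,x)` for all lattice points `x`, then `E[c - ρ(L, d)] ≥ 0` for every stage
`(c, d)` of width `L`: `d` depends on the columns `[0, L)`, `c` on the half plane to the right,
and `T(0,(L,d)) ≤ c` a.s.
-/

set_option autoImplicit false

open MeasureTheory ProbabilityTheory Filter Topology
open Crest.ProbabilityR.FirstPassage
open Crest.Agent.R151.K
open scoped ENNReal

namespace Crest.Agent.R151.A

/-! ## generalities on functions of two lattice points -/

lemma rel_of_edges {R : ℤ × ℤ → ℤ × ℤ → Prop} (hrefl : ∀ x, R x x)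
    (hsymm : ∀ x y, R x y → R y x) (htrans : ∀ x y z, R x y → R y z → R x z)
    (hH : ∀ a b, R (a, b) (a + 1, b)) (hV : ∀ a b, R (a, b) (a, b + 1)) (x y : ℤ × ℤ) :
    R x y := by
  obtain ⟨w⟩ := reachable x y
  induction w with
  | nil => exact hrefl _
  | @cons u v w h _ ih =>
    refine htrans _ _ _ ?_ ih
    obtain ⟨a, b⟩ := u
    obtain ⟨c, e⟩ := v
    rw [squareLattice, SimpleGraph.fromRel_adj] at h
    obtain ⟨-, h | h⟩ := h
    · rcases h with ⟨h1, h2⟩ | ⟨h1, h2⟩
      · simp only at h1 h2; subst h1; subst h2; exact hV _ _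
      · simp only at h1 h2; subst h1; subst h2; exact hH _ _
    · rcases h with ⟨h1, h2⟩ | ⟨h1, h2⟩
      · simp only at h1 h2; subst h1; subst h2; exact hsymm _ _ (hV _ _)
      · simp only at h1 h2; subst h1; subst h2; exact hsymm _ _ (hH _ _)

lemma le_n1_of_edges {F : ℤ × ℤ → ℤ × ℤ → ℝ} {D : ℝ} (hself : ∀ x, F x x ≤ 0)
    (hsymm : ∀ x y, F x y = F y x) (htri : ∀ x y z, F x z ≤ F x y + F y z)
    (hH : ∀ a b, F (a, b) (a + 1, b) ≤ D) (hV : ∀ a b, F (a, b) (a, b + 1) ≤ D) (x y : ℤ × ℤ) :
    F x y ≤ n1 (y - x) * D := by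
  have row : ∀ (n : ℕ) (a b : ℤ), F (a, b) (a + n, b) ≤ n * D := by
    intro n a b
    induction n with
    | zero => simpa using hself (a, b)
    | succ n ih =>
      have h1 := htri (a, b) (a + n, b) (a + n + 1, b)
      have h2 := hH (a + n) b
      push_cast
      rw [← add_assoc]
      linarith
  have col : ∀ (n : ℕ) (a b : ℤ), F (a, b) (a, b + n) ≤ n * D := by
    intro n a b
    induction n with
    | zero => simpa using hself (a, b)
    | succ n ih =>
      have h1 := htri (a, b) (a, b + n) (a, b + n + 1)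
      have h2 := hV a (b + n)
      push_cast
      rw [← add_assoc]
      linarith
  have row' : ∀ (a b c : ℤ), F (a, b) (c, b) ≤ (c - a).natAbs * D := by
    intro a b c
    rcases le_total a c with h | h
    · have := row (c - a).natAbs a b
      rwa [show a + ((c - a).natAbs : ℤ) = c by omega] at this
    · have := row (c - a).natAbs c b
      rwa [show c + ((c - a).natAbs : ℤ) = a by omega, hsymm] at this
  have col' : ∀ (a b c : ℤ), F (a, b) (a, c) ≤ (c - b).natAbs * D := by
    intro a b c
    rcases le_total b c with h | h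
    · have := col (c - b).natAbs a b
      rwa [show b + ((c - b).natAbs : ℤ) = c by omega] at this
    · have := col (c - b).natAbs a c
      rwa [show c + ((c - b).natAbs : ℤ) = b by omega, hsymm] at this
  obtain ⟨a, b⟩ := x
  obtain ⟨c, e⟩ := y
  have h1 := htri (a, b) (c, b) (c, e)
  have h2 := row' a b c
  have h3 := col' c b e
  simp only [n1, Prod.mk_sub_mk, Nat.cast_add]
  linarith

/-! ## passage times seen from a point -/

lemma pt_shift (z : ℤ × ℤ) (t : Environment) (x y : ℤ × ℤ) :
    passageTime (shift z t) x y = passageTime t (x + z) (y + z) := pt_iso t (tr z) x y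

lemma Nn_shift {t : Environment} (ht : Nn t) (z : ℤ × ℤ) : Nn (shift z t) := fun _ => ht _

section Stage

variable {G : Measure ℝ} [IsProbabilityMeasure G]

lemma integral_shift (z : ℤ × ℤ) {F : Environment → ℝ}
    (hF : AEStronglyMeasurable F (iidLaw G)) :
    ∫ t, F (shift z t) ∂(iidLaw G) = ∫ t, F t ∂(iidLaw G) := by
  have h := mp_shift G z
  conv_rhs => rw [← h.map_eq]
  rw [integral_map h.measurable.aemeasurable (by rw [h.map_eq]; exact hF)]

lemma integrable_pt_shift {x y : ℤ × ℤ} (h : Integrable (fun t => passageTime t x y) (iidLaw G))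
    (z : ℤ × ℤ) : Integrable (fun t => passageTime t (x + z) (y + z)) (iidLaw G) := by
  have := (mp_shift G z).integrable_comp_of_integrable h
  refine this.congr (ae_of_all _ fun t => ?_)
  simp [pt_shift]

lemma integrable_pt_of (h0 : G (Set.Iio 0) = 0)
    (hH : Integrable (fun t => passageTime t (0, 0) (1, 0)) (iidLaw G))
    (hV : Integrable (fun t => passageTime t (0, 0) (0, 1)) (iidLaw G)) (x y : ℤ × ℤ) :
    Integrable (fun t => passageTime t x y) (iidLaw G) := by
  refine rel_of_edges (R := fun x y => Integrable (fun t => passageTime t x y) (iidLaw G))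
    ?_ ?_ ?_ ?_ ?_ x y
  · intro x
    refine (integrable_zero _ _ _).congr ?_
    filter_upwards [ae_Nn h0] with t ht
    simp [pt_self ht]
  · intro x y h
    refine h.congr ?_
    filter_upwards [ae_Nn h0] with t ht using pt_symm ht x y
  · intro x y z h h'
    refine (h.add h').mono' (measurable_pt x z).aestronglyMeasurable ?_
    filter_upwards [ae_Nn h0] with t ht
    rw [Real.norm_of_nonneg (pt_nonneg ht _ _)]
    exact pt_triangle ht x y z
  · intro a b
    have := integrable_pt_shift hH (a, b)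
    simpa [add_comm] using this
  · intro a b
    have := integrable_pt_shift hV (a, b)
    simpa [add_comm] using this

/-- on a small event the passage time has small mean -/
lemma setIntegral_pt_le (h0 : G (Set.Iio 0) = 0)
    (hH : Integrable (fun t => passageTime t (0, 0) (1, 0)) (iidLaw G))
    (hV : Integrable (fun t => passageTime t (0, 0) (0, 1)) (iidLaw G))
    {M : ℝ} {R : ℝ}
    (hHR : ∫ t, max (passageTime t (0, 0) (1, 0) - M) 0 ∂(iidLaw G) ≤ R)
    (hVR : ∫ t, max (passageTime t (0, 0) (0, 1) - M) 0 ∂(iidLaw G) ≤ R)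
    (B : Set Environment) (x y : ℤ × ℤ) :
    ∫ t in B, passageTime t x y ∂(iidLaw G) ≤
      n1 (y - x) * (M * (iidLaw G).real B + R) := by
  have hint := integrable_pt_of h0 hH hV
  have key : ∀ u v z : ℤ × ℤ,
      ∫ t, max (passageTime t u v - M) 0 ∂(iidLaw G) ≤ R →
      ∫ t in B, passageTime t (u + z) (v + z) ∂(iidLaw G) ≤ M * (iidLaw G).real B + R := by
    intro u v z hR
    have h1 : ∀ t : Environment, passageTime t (u + z) (v + z) ≤
        M + max (passageTime t (u + z) (v + z) - M) 0 := by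
      intro t
      have := le_max_left (passageTime t (u + z) (v + z) - M) 0
      linarith
    have hi : Integrable (fun t => max (passageTime t (u + z) (v + z) - M) 0) (iidLaw G) :=
      ((hint (u + z) (v + z)).sub (integrable_const M)).pos_part
    have h2 : ∫ t, max (passageTime t (u + z) (v + z) - M) 0 ∂(iidLaw G) ≤ R := by
      have hm : AEStronglyMeasurable (fun t => max (passageTime t u v - M) 0) (iidLaw G) :=
        (((hint u v).sub (integrable_const M)).pos_part).aestronglyMeasurable
      have h3 := integral_shift z hm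
      simp only [pt_shift] at h3
      rw [h3]
      exact hR
    calc ∫ t in B, passageTime t (u + z) (v + z) ∂(iidLaw G)
        ≤ ∫ t in B, (M + max (passageTime t (u + z) (v + z) - M) 0) ∂(iidLaw G) := by
          refine setIntegral_mono (hint _ _).integrableOn ?_ h1
          exact ((integrable_const M).add hi).integrableOn
      _ = M * (iidLaw G).real B + ∫ t in B, max (passageTime t (u + z) (v + z) - M) 0
            ∂(iidLaw G) := by
          rw [integral_add (integrable_const M).integrableOn hi.integrableOn]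
          simp [mul_comm]
      _ ≤ M * (iidLaw G).real B + ∫ t, max (passageTime t (u + z) (v + z) - M) 0
            ∂(iidLaw G) := by
          refine add_le_add le_rfl (setIntegral_le_integral hi (ae_of_all _ fun t => ?_))
          exact le_max_right _ _
      _ ≤ _ := by gcongr
  refine le_n1_of_edges (F := fun x y => ∫ t in B, passageTime t x y ∂(iidLaw G)) ?_ ?_ ?_ ?_ ?_
    x y
  · intro x
    refine le_of_eq ?_
    refine integral_eq_zero_of_ae (ae_restrict_of_ae ?_)
    filter_upwards [ae_Nn h0] with t ht using pt_self ht x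
  · intro x y
    refine integral_congr_ae (ae_restrict_of_ae ?_)
    filter_upwards [ae_Nn h0] with t ht using pt_symm ht x y
  · intro x y z
    rw [← integral_add (hint x y).integrableOn (hint y z).integrableOn]
    refine integral_mono_ae (hint _ _).integrableOn
      ((hint x y).add (hint y z)).integrableOn (ae_restrict_of_ae ?_)
    filter_upwards [ae_Nn h0] with t ht using pt_triangle ht x y z
  · intro a b
    have := key (0, 0) (1, 0) (a, b) hHR
    simpa [add_comm] using this
  · intro a b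
    have := key (0, 0) (0, 1) (a, b) hVR
    simpa [add_comm] using this

/-- the concatenation of the stages -/
lemma pt_le_sum_stg (h0 : G (Set.Iio 0) = 0) {L : ℤ} {d : Environment → ℤ} {c : Environment → ℝ}
    (hle : ∀ᵐ t ∂(iidLaw G), passageTime t (0, 0) (L, d t) ≤ c t) :
    ∀ᵐ t ∂(iidLaw G), ∀ K : ℕ, passageTime t (0, 0) ((K : ℤ) * L, hgt L d K t) ≤
      ∑ k ∈ Finset.range K, stg L d c k t := by
  have h1 : ∀ᵐ t ∂(iidLaw G), ∀ z : ℤ × ℤ,
      passageTime (shift z t) (0, 0) (L, d (shift z t)) ≤ c (shift z t) := by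
    rw [ae_all_iff]
    intro z
    exact (mp_shift G z).quasiMeasurePreserving.ae hle
  filter_upwards [h1, ae_Nn h0] with t ht hn K
  induction K with
  | zero => simp [show ((0 : ℤ), (0 : ℤ)) = 0 from rfl, pt_self hn]
  | succ K ih =>
    rw [Finset.sum_range_succ]
    refine (pt_triangle hn _ ((K : ℤ) * L, hgt L d K t) _).trans (add_le_add ih ?_)
    have h2 := ht ((K : ℤ) * L, hgt L d K t)
    rw [pt_shift] at h2
    simp only [Prod.mk_add_mk, zero_add] at h2
    rw [hgt_succ]
    push_cast
    rw [show ((K : ℤ) + 1) * L = L + K * L by ring, add_comm (hgt L d K t)]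
    exact h2

/-- moving vertically inside a window -/
lemma pt_window (t : Environment) (hn : Nn t) (x : ℤ × ℤ) (J : ℕ) (h : ℤ) (hh : |h| ≤ J) :
    passageTime t x (x + (0, h)) ≤ ∑ j ∈ Finset.Ico (-(J : ℤ)) J,
      passageTime t (x + (0, j)) (x + (0, j + 1)) := by
  have key : ∀ (n : ℕ) (a : ℤ), passageTime t (x + (0, a)) (x + (0, a + n)) ≤
      ∑ j ∈ Finset.Ico a (a + n), passageTime t (x + (0, j)) (x + (0, j + 1)) := by
    intro n a
    induction n with
    | zero => simp [pt_self hn]
    | succ n ih =>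
      push_cast
      rw [← add_assoc, ← Finset.insert_Ico_right_eq_Ico_add_one (by omega),
        Finset.sum_insert (by simp)]
      have h3 := pt_triangle hn (x + (0, a)) (x + (0, a + n)) (x + (0, a + n + 1))
      linarith
  have hsub : ∀ a b : ℤ, -(J : ℤ) ≤ a → b ≤ J →
      ∑ j ∈ Finset.Ico a b, passageTime t (x + (0, j)) (x + (0, j + 1)) ≤
      ∑ j ∈ Finset.Ico (-(J : ℤ)) J, passageTime t (x + (0, j)) (x + (0, j + 1)) := by
    intro a b ha hb
    refine Finset.sum_le_sum_of_subset_of_nonneg (Finset.Ico_subset_Ico ha hb) ?_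
    intro j _ _
    exact pt_nonneg hn _ _
  rw [abs_le] at hh
  rcases le_total 0 h with h' | h'
  · have h1 := key h.toNat 0
    rw [show (0 : ℤ) + h.toNat = h by omega] at h1
    have h2 := hsub 0 h (by omega) hh.2
    rw [show x + ((0 : ℤ), (0 : ℤ)) = x by rw [show ((0 : ℤ), (0 : ℤ)) = 0 from rfl, add_zero]]
      at h1
    exact h1.trans h2
  · have h1 := key (-h).toNat h
    rw [show h + (-h).toNat = 0 by omega] at h1
    have h2 := hsub h 0 hh.1 (by omega)
    rw [show x + ((0 : ℤ), (0 : ℤ)) = x by rw [show ((0 : ℤ), (0 : ℤ)) = 0 from rfl, add_zero]]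
      at h1
    rw [pt_symm hn]
    exact h1.trans h2

/-- the uniformly integrable remainder of the edge passage times -/
noncomputable def rem (G : Measure ℝ) (M : ℝ) : ℝ :=
  (∫ t, max (passageTime t (0, 0) (1, 0) - M) 0 ∂(iidLaw G)) +
    ∫ t, max (passageTime t (0, 0) (0, 1) - M) 0 ∂(iidLaw G)

lemma rem_tendsto (h0 : G (Set.Iio 0) = 0)
    (hH : Integrable (fun t => passageTime t (0, 0) (1, 0)) (iidLaw G))
    (hV : Integrable (fun t => passageTime t (0, 0) (0, 1)) (iidLaw G)) :
    Tendsto (fun n : ℕ => rem G n) atTop (𝓝 0) := by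
  have key : ∀ x : ℤ × ℤ, Integrable (fun t => passageTime t (0, 0) x) (iidLaw G) →
      Tendsto (fun n : ℕ => ∫ t, max (passageTime t (0, 0) x - n) 0 ∂(iidLaw G)) atTop (𝓝 0) := by
    intro x hx
    have h1 : Tendsto (fun n : ℕ => ∫ t, max (passageTime t (0, 0) x - n) 0 ∂(iidLaw G)) atTop
        (𝓝 (∫ _, (0 : ℝ) ∂(iidLaw G))) := by
      refine tendsto_integral_of_dominated_convergence (fun t => |passageTime t (0, 0) x|)
        (fun n => ((hx.sub (integrable_const (n : ℝ))).pos_part).aestronglyMeasurable)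
        hx.abs ?_ ?_
      · intro n
        filter_upwards [ae_Nn h0] with t ht
        rw [Real.norm_of_nonneg (le_max_right _ _), abs_of_nonneg (pt_nonneg ht _ _)]
        exact max_le (by linarith [(Nat.cast_nonneg n : (0 : ℝ) ≤ n)]) (pt_nonneg ht _ _)
      · refine ae_of_all _ fun t => ?_
        obtain ⟨N, hN⟩ := exists_nat_ge (passageTime t (0, 0) x)
        refine tendsto_const_nhds.congr' ?_
        filter_upwards [eventually_ge_atTop N] with n hn
        have : (N : ℝ) ≤ n := by exact_mod_cast hn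
        rw [max_eq_right (by linarith)]
    simpa using h1
  have := (key (1, 0) hH).add (key (0, 1) hV)
  simpa [rem] using this

lemma hgt_div_tendsto {L : ℤ} (hL : 0 ≤ L) {d : Environment → ℤ}
    (hd : DependsOn d (block 0 L)) (hdm : Measurable d)
    (hdi : Integrable (fun t => (d t : ℝ)) (iidLaw G)) :
    ∀ᵐ t ∂(iidLaw G), Tendsto (fun n : ℕ => (hgt L d n t : ℝ) / n) atTop
      (𝓝 (∫ t, (d t : ℝ) ∂(iidLaw G))) := by
  have hφ : DependsOn (fun t => (d t : ℝ)) (block 0 L) := fun t t' h => by
    show (d t : ℝ) = d t'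
    rw [hd h]
  have h := strong_law_stg G hL hd hdm hφ (by fun_prop) hdi
  filter_upwards [h] with t ht
  simpa [← hgt_eq_sum] using ht

lemma hgt_prob_tendsto {L : ℤ} (hL : 0 ≤ L) {d : Environment → ℤ}
    (hd : DependsOn d (block 0 L)) (hdm : Measurable d)
    (hdi : Integrable (fun t => (d t : ℝ)) (iidLaw G)) {δ : ℝ} (hδ : 0 < δ) :
    Tendsto (fun n : ℕ => (iidLaw G).real
      {t | δ ≤ ‖(hgt L d n t : ℝ) / n - ∫ t, (d t : ℝ) ∂(iidLaw G)‖}) atTop (𝓝 0) := by
  have hm : ∀ n : ℕ, AEStronglyMeasurable (fun t => (hgt L d n t : ℝ) / n) (iidLaw G) := by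
    intro n
    have := measurable_hgt (L := L) hdm n
    exact (by fun_prop : Measurable fun t => (hgt L d n t : ℝ) / n).aestronglyMeasurable
  have h := tendstoInMeasure_of_tendsto_ae hm (hgt_div_tendsto hL hd hdm hdi)
  rw [tendstoInMeasure_iff_measureReal_norm] at h
  exact h δ hδ

/-- the stage inequality for `K` stages -/
lemma stage_ineq (h0 : G (Set.Iio 0) = 0)
    (hH : Integrable (fun t => passageTime t (0, 0) (1, 0)) (iidLaw G))
    (hV : Integrable (fun t => passageTime t (0, 0) (0, 1)) (iidLaw G))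
    {p q : ℝ} (hρ : ∀ x : ℤ × ℤ, 0 ≤ x.1 →
      p * x.1 + q * x.2 ≤ ∫ t, passageTime t (0, 0) x ∂(iidLaw G))
    {L : ℤ} (hL : 0 ≤ L) {d : Environment → ℤ} {c : Environment → ℝ}
    (hd : DependsOn d (block 0 L)) (hdm : Measurable d)
    (hc : DependsOn c half) (hcm : Measurable c) (hci : Integrable c (iidLaw G))
    (hle : ∀ᵐ t ∂(iidLaw G), passageTime t (0, 0) (L, d t) ≤ c t)
    {δ : ℝ} (hδ : 0 < δ) (m M : ℝ) {K : ℕ} (hK : 0 < K) :
    p * (K * L) + q * ⌊K * m⌋ ≤ K * ∫ t, c t ∂(iidLaw G)
      + 2 * (δ * K + 2) * ∫ t, passageTime t (0, 0) (0, 1) ∂(iidLaw G)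
      + (K * (L + |m|) + 1) * (M * (iidLaw G).real
        {t | δ ≤ ‖(hgt L d K t : ℝ) / K - m‖} + rem G M) := by
  have hint := integrable_pt_of h0 hH hV
  set B : Set Environment := {t | δ ≤ ‖(hgt L d K t : ℝ) / K - m‖} with hBdef
  have hBm : MeasurableSet B := by
    have := measurable_hgt (L := L) hdm K
    exact measurableSet_le measurable_const (by fun_prop)
  have hKr : (0 : ℝ) < K := by exact_mod_cast hK
  set x : ℤ × ℤ := ((K : ℤ) * L, ⌊K * m⌋) with hx
  set J : ℕ := ⌈δ * K + 1⌉₊ with hJ
  have hJ1 : δ * K + 1 ≤ J := Nat.le_ceil _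
  have hJ2 : (J : ℝ) ≤ δ * K + 2 := by
    have := Nat.ceil_lt_add_one (show 0 ≤ δ * K + 1 by positivity)
    linarith
  -- step 1: the lower bound
  have s1 : p * (K * L) + q * ⌊K * m⌋ ≤ ∫ t, passageTime t (0, 0) x ∂(iidLaw G) := by
    have h := hρ x (by rw [hx]; positivity)
    simpa [hx] using h
  -- step 2: the bad event
  have s2 : ∫ t in B, passageTime t (0, 0) x ∂(iidLaw G) ≤
      (K * (L + |m|) + 1) * (M * (iidLaw G).real B + rem G M) := by
    have nn : ∀ u : ℤ × ℤ, 0 ≤ ∫ t, max (passageTime t (0, 0) u - M) 0 ∂(iidLaw G) :=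
      fun u => integral_nonneg fun t => le_max_right _ _
    have hnn : 0 ≤ ∫ t in B, passageTime t (0, 0) (0, 1) ∂(iidLaw G) := by
      refine integral_nonneg_of_ae (ae_restrict_of_ae ?_)
      filter_upwards [ae_Nn h0] with t ht using pt_nonneg ht _ _
    have hb := fun x y => setIntegral_pt_le h0 hH hV (M := M) (R := rem G M)
      (by unfold rem; linarith [nn (0, 1)]) (by unfold rem; linarith [nn (1, 0)]) B x y
    have h1 := hb (0, 0) x
    have h2 := hb (0, 0) (0, 1)
    have h3 : 0 ≤ M * (iidLaw G).real B + rem G M := by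
      have : (n1 (((0 : ℤ), (1 : ℤ)) - (0, 0)) : ℝ) = 1 := by simp [n1]
      rw [this, one_mul] at h2
      linarith
    refine h1.trans (mul_le_mul_of_nonneg_right ?_ h3)
    have e1 : (n1 (x - (0, 0)) : ℝ) = |((K : ℤ) * L : ℤ)| + |(⌊K * m⌋ : ℝ)| := by
      simp [n1, hx, Nat.cast_natAbs]
    rw [e1]
    have e2 : |(((K : ℤ) * L : ℤ) : ℝ)| = K * L := by
      have hLr : (0 : ℝ) ≤ L := by exact_mod_cast hL
      push_cast
      rw [abs_of_nonneg (by positivity)]
    have e3 : |(⌊K * m⌋ : ℝ)| ≤ K * |m| + 1 := by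
      have a1 := Int.floor_le (K * m)
      have a2 := Int.lt_floor_add_one (K * m)
      have a3 : |K * m| = K * |m| := by rw [abs_mul, abs_of_pos hKr]
      rw [← a3]
      rw [abs_le]
      constructor
      · linarith [neg_abs_le (K * m)]
      · linarith [le_abs_self (K * m)]
    push_cast at e2 ⊢
    linarith
  -- step 3: the good event
  have s3 : ∫ t in Bᶜ, passageTime t (0, 0) x ∂(iidLaw G) ≤ K * ∫ t, c t ∂(iidLaw G)
      + 2 * (δ * K + 2) * ∫ t, passageTime t (0, 0) (0, 1) ∂(iidLaw G) := by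
    have hstg : ∀ k, IdentDistrib (stg L d c k) c (iidLaw G) (iidLaw G) :=
      fun k => identDistrib_stg G hL hd hdm hc hcm k
    have hstgi : ∀ k, Integrable (stg L d c k) (iidLaw G) :=
      fun k => (hstg k).integrable_iff.mpr hci
    have hS1i : Integrable (fun t => ∑ k ∈ Finset.range K, stg L d c k t) (iidLaw G) :=
      integrable_finsetSum _ fun k _ => hstgi k
    have hS2i : Integrable (fun t => ∑ j ∈ Finset.Ico (-(J : ℤ)) J,
        passageTime t (x + (0, j)) (x + (0, j + 1))) (iidLaw G) :=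
      integrable_finsetSum _ fun j _ => hint _ _
    have hτ : ∀ z : ℤ × ℤ, ∫ t, passageTime t z (z + (0, 1)) ∂(iidLaw G) =
        ∫ t, passageTime t (0, 0) (0, 1) ∂(iidLaw G) := by
      intro z
      have h := integral_shift (G := G) z (hint (0, 0) (0, 1)).aestronglyMeasurable
      simp only [pt_shift] at h
      rw [← h, show ((0 : ℤ), (0 : ℤ)) = 0 from rfl, zero_add, add_comm z]
    have hτ0 : 0 ≤ ∫ t, passageTime t (0, 0) (0, 1) ∂(iidLaw G) := by
      refine integral_nonneg_of_ae ?_
      filter_upwards [ae_Nn h0] with t ht using pt_nonneg ht _ _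
    have hc0 : ∀ᵐ t ∂(iidLaw G), 0 ≤ c t := by
      filter_upwards [hle, ae_Nn h0] with t h1 h2 using (pt_nonneg h2 _ _).trans h1
    have hstg0 : ∀ᵐ t ∂(iidLaw G), ∀ k, 0 ≤ stg L d c k t := by
      rw [ae_all_iff]
      intro k
      exact (hstg k).symm.ae_mem_snd (t := Set.Ici (0:ℝ)) measurableSet_Ici hc0
    -- pointwise bound
    have hpt : ∀ᵐ t ∂(iidLaw G), t ∈ Bᶜ → passageTime t (0, 0) x ≤
        (∑ k ∈ Finset.range K, stg L d c k t) + ∑ j ∈ Finset.Ico (-(J : ℤ)) J,
        passageTime t (x + (0, j)) (x + (0, j + 1)) := by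
      filter_upwards [pt_le_sum_stg h0 hle, ae_Nn h0] with t h1 hn htB
      have h2 := h1 K
      have htB' : ‖(hgt L d K t : ℝ) / K - m‖ < δ := by
        simpa [hBdef] using htB
      have h3 : |(hgt L d K t : ℝ) - K * m| < δ * K := by
        rw [Real.norm_eq_abs] at htB'
        have : (hgt L d K t : ℝ) - K * m = K * ((hgt L d K t : ℝ) / K - m) := by
          field_simp
        rw [this, abs_mul, abs_of_pos hKr, mul_comm δ]
        exact mul_lt_mul_of_pos_left htB' hKr
      have h4 : |hgt L d K t - ⌊K * m⌋| ≤ (J : ℤ) := by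
        have a1 := Int.floor_le (K * m)
        have a2 := Int.lt_floor_add_one (K * m)
        rw [abs_lt] at h3
        have : |((hgt L d K t - ⌊K * m⌋ : ℤ) : ℝ)| ≤ (J : ℝ) := by
          push_cast
          rw [abs_le]
          constructor <;> linarith
        exact_mod_cast this
      have h5 := pt_window t hn x J _ h4
      have h6 : x + (0, hgt L d K t - ⌊K * m⌋) = ((K : ℤ) * L, hgt L d K t) := by
        simp [hx]
      rw [h6] at h5
      have h7 := pt_triangle hn (0, 0) ((K : ℤ) * L, hgt L d K t) x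
      rw [pt_symm hn ((K : ℤ) * L, hgt L d K t) x] at h7
      linarith
    calc ∫ t in Bᶜ, passageTime t (0, 0) x ∂(iidLaw G)
        ≤ ∫ t in Bᶜ, ((∑ k ∈ Finset.range K, stg L d c k t) + ∑ j ∈ Finset.Ico (-(J : ℤ)) J,
          passageTime t (x + (0, j)) (x + (0, j + 1))) ∂(iidLaw G) := by
          refine setIntegral_mono_on_ae (hint _ _).integrableOn (hS1i.add hS2i).integrableOn
            hBm.compl hpt
      _ ≤ ∫ t, ((∑ k ∈ Finset.range K, stg L d c k t) + ∑ j ∈ Finset.Ico (-(J : ℤ)) J,
          passageTime t (x + (0, j)) (x + (0, j + 1))) ∂(iidLaw G) := by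
          refine setIntegral_le_integral (hS1i.add hS2i) ?_
          filter_upwards [hstg0, ae_Nn h0] with t h1 hn
          exact add_nonneg (Finset.sum_nonneg fun k _ => h1 k)
            (Finset.sum_nonneg fun j _ => pt_nonneg hn _ _)
      _ = K * ∫ t, c t ∂(iidLaw G) + (2 * J) * ∫ t, passageTime t (0, 0) (0, 1) ∂(iidLaw G) := by
          rw [integral_add hS1i hS2i, integral_finsetSum _ (fun k _ => hstgi k),
            integral_finsetSum _ (fun j _ => hint _ _)]
          congr 1
          · rw [Finset.sum_congr rfl (fun k _ => (hstg k).integral_eq)]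
            simp
          · rw [Finset.sum_congr rfl (fun j _ => ?_), Finset.sum_const, Int.card_Ico, nsmul_eq_mul]
            rotate_left
            · exact ∫ t, passageTime t (0, 0) (0, 1) ∂(iidLaw G)
            · rw [show ((0 : ℤ), j + 1) = (0, j) + (0, 1) by simp, ← add_assoc]
              exact hτ _
            · congr 1
              have : ((J : ℤ) - -(J : ℤ)).toNat = 2 * J := by omega
              rw [this]
              push_cast
              ring
      _ ≤ _ := by
          gcongr
  have s4 := integral_add_compl hBm (hint (0, 0) x)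
  linarith

/-- **The stage principle.** -/
theorem stage_principle (h0 : G (Set.Iio 0) = 0)
    (hH : Integrable (fun t => passageTime t (0, 0) (1, 0)) (iidLaw G))
    (hV : Integrable (fun t => passageTime t (0, 0) (0, 1)) (iidLaw G))
    {p q : ℝ} (hρ : ∀ x : ℤ × ℤ, 0 ≤ x.1 →
      p * x.1 + q * x.2 ≤ ∫ t, passageTime t (0, 0) x ∂(iidLaw G))
    {L : ℤ} (hL : 0 ≤ L) {d : Environment → ℤ} {c : Environment → ℝ}
    (hd : DependsOn d (block 0 L)) (hdm : Measurable d)
    (hc : DependsOn c half) (hcm : Measurable c)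
    (hdi : Integrable (fun t => (d t : ℝ)) (iidLaw G)) (hci : Integrable c (iidLaw G))
    (hle : ∀ᵐ t ∂(iidLaw G), passageTime t (0, 0) (L, d t) ≤ c t) :
    p * L + q * ∫ t, (d t : ℝ) ∂(iidLaw G) ≤ ∫ t, c t ∂(iidLaw G) := by
  set m := ∫ t, (d t : ℝ) ∂(iidLaw G) with hm
  set τ := ∫ t, passageTime t (0, 0) (0, 1) ∂(iidLaw G) with hτ
  -- first `K → ∞`
  have key : ∀ (δ : ℝ), 0 < δ → ∀ M : ℕ, p * L + q * m ≤ ∫ t, c t ∂(iidLaw G) + 2 * δ * τ
      + (L + |m|) * rem G M := by
    intro δ hδ M
    set pK : ℕ → ℝ := fun K => (iidLaw G).real {t | δ ≤ ‖(hgt L d K t : ℝ) / K - m‖} with hpK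
    have hpK0 : Tendsto pK atTop (𝓝 0) := hgt_prob_tendsto hL hd hdm hdi hδ
    have hinv : Tendsto (fun K : ℕ => ((K : ℝ))⁻¹) atTop (𝓝 0) :=
      tendsto_inv_atTop_nhds_zero_nat
    have hlim : Tendsto (fun K : ℕ => ∫ t, c t ∂(iidLaw G) + 2 * (δ + 2 * (K : ℝ)⁻¹) * τ
        + ((L + |m|) + (K : ℝ)⁻¹) * (M * pK K + rem G M) + |q| * (K : ℝ)⁻¹) atTop
        (𝓝 (∫ t, c t ∂(iidLaw G) + 2 * (δ + 2 * 0) * τ
        + ((L + |m|) + 0) * (M * 0 + rem G M) + |q| * 0)) := by
      refine ((tendsto_const_nhds.add (((tendsto_const_nhds.add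
        (hinv.const_mul 2)).const_mul 2).mul_const τ)).add
        ((tendsto_const_nhds.add hinv).mul ((hpK0.const_mul _).add tendsto_const_nhds))).add
        (hinv.const_mul _)
    simp only [mul_zero, add_zero, zero_add] at hlim
    refine ge_of_tendsto hlim ?_
    filter_upwards [eventually_ge_atTop 1] with K hK
    have hK' : 0 < K := hK
    have hKr : (0 : ℝ) < K := by exact_mod_cast hK'
    have h := stage_ineq h0 hH hV hρ hL hd hdm hc hcm hci hle hδ m (M : ℝ) hK'
    have hfl : q * (K * m) - |q| ≤ q * ⌊K * m⌋ := by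
      have a1 := Int.floor_le (K * m)
      have a2 := Int.lt_floor_add_one (K * m)
      have a3 : |q * (⌊K * m⌋ - K * m)| ≤ |q| := by
        rw [abs_mul]
        have : |(⌊K * m⌋ : ℝ) - K * m| ≤ 1 := by
          rw [abs_le]; constructor <;> linarith
        nlinarith [abs_nonneg q]
      have := neg_abs_le (q * (⌊K * m⌋ - K * m))
      nlinarith
    have h2 : (K : ℝ) * (p * L + q * m) ≤ K * (∫ t, c t ∂(iidLaw G)
        + 2 * (δ + 2 * (K : ℝ)⁻¹) * τ
        + ((L + |m|) + (K : ℝ)⁻¹) * (M * pK K + rem G M) + |q| * (K : ℝ)⁻¹) := by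
      have e1 : (K : ℝ) * (K : ℝ)⁻¹ = 1 := mul_inv_cancel₀ hKr.ne'
      have e2 : (K : ℝ) * (∫ t, c t ∂(iidLaw G)
        + 2 * (δ + 2 * (K : ℝ)⁻¹) * τ
        + ((L + |m|) + (K : ℝ)⁻¹) * (M * pK K + rem G M) + |q| * (K : ℝ)⁻¹) =
        K * ∫ t, c t ∂(iidLaw G) + 2 * (δ * K + 2 * (K * (K : ℝ)⁻¹)) * τ
        + (K * (L + |m|) + (K * (K : ℝ)⁻¹)) * (M * pK K + rem G M) + |q| * (K * (K : ℝ)⁻¹) := by
        ring
      rw [e2, e1]
      linarith
    exact le_of_mul_le_mul_left h2 hKr
  -- then `M → ∞` and `δ → 0`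
  have key2 : ∀ (δ : ℝ), 0 < δ → p * L + q * m ≤ ∫ t, c t ∂(iidLaw G) + 2 * δ * τ := by
    intro δ hδ
    have h1 : Tendsto (fun M : ℕ => ∫ t, c t ∂(iidLaw G) + 2 * δ * τ + (L + |m|) * rem G M) atTop
        (𝓝 (∫ t, c t ∂(iidLaw G) + 2 * δ * τ + (L + |m|) * 0)) :=
      tendsto_const_nhds.add ((rem_tendsto h0 hH hV).const_mul _)
    simp only [mul_zero, add_zero] at h1
    exact ge_of_tendsto h1 (Eventually.of_forall fun M => key δ hδ M)
  have h2 : Tendsto (fun n : ℕ => ∫ t, c t ∂(iidLaw G) + 2 * (((n : ℝ) + 1)⁻¹) * τ) atTop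
      (𝓝 (∫ t, c t ∂(iidLaw G) + 2 * 0 * τ)) := by
    refine tendsto_const_nhds.add ((Tendsto.const_mul 2 ?_).mul_const τ)
    simpa using tendsto_one_div_add_atTop_nhds_zero_nat (𝕜 := ℝ)
  simp only [mul_zero, zero_mul, add_zero] at h2
  exact ge_of_tendsto h2 (Eventually.of_forall fun n => key2 _ (by positivity))

end Stage

end Crest.Agent.R151.A
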