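import Crest.Agent.R151.A565c

-- ▼ part R151/A565d
section

/-!
# R151, block A (helper565): random selection and the free search `AStar`

`AStar G p q C` is the form fixed with helper792 (posts 9811). It is proved here from
* `GapUp G p q C`: mean costs of crossing a gap, ending at a fixed height;
* `LocK G`: the local cost of reaching a vertex has a finite second moment.
-/

set_option autoImplicit false

open MeasureTheory ProbabilityTheory Filter Topology
open Crest.ProbabilityR.FirstPassage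
open Crest.Agent.R151.K
open scoped ENNReal

namespace Crest.Agent.R151.A

/-! ## random selection -/

section Sel

variable {Ω : Type*} [MeasurableSpace Ω] {P : Measure Ω}

lemma lintegral_sel {f : ℕ → Ω → ℝ≥0∞} (hf : ∀ h, Measurable (f h)) {I : Ω → ℕ}
    (hI : Measurable I) :
    ∫⁻ ω, f (I ω) ω ∂P = ∑' h, ∫⁻ ω, (I ⁻¹' {h}).indicator (f h) ω ∂P := by
  rw [← lintegral_tsum]
  · refine lintegral_congr fun ω => ?_
    rw [tsum_eq_single (I ω)]
    · simp
    · intro h hh
      rw [Set.indicator_of_notMem]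
      simpa using hh.symm
  · intro h
    exact ((hf h).indicator (hI (measurableSet_singleton h))).aemeasurable

lemma measurable_sel {α : Type*} [MeasurableSpace α] {X : ℕ → Ω → α} (hX : ∀ h, Measurable (X h))
    {I : Ω → ℕ} (hI : Measurable I) : Measurable (fun ω => X (I ω) ω) := by
  have h1 : Measurable (fun p : ℕ × Ω => X p.1 p.2) := measurable_from_prod_countable_right hX
  exact h1.comp (hI.prodMk measurable_id)

/-- an independent selection -/
lemma sel_indep [IsProbabilityMeasure P] {X : ℕ → Ω → ℝ} (hX : ∀ h, Measurable (X h))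
    (hX0 : ∀ h, ∀ᵐ ω ∂P, 0 ≤ X h ω) (hXi : ∀ h, Integrable (X h) P) {I : Ω → ℕ}
    (hI : Measurable I) (hind : ∀ h, IndepFun (X h) I P) {F : ℕ → ℝ}
    (hF : ∀ h, ∫ ω, X h ω ∂P ≤ F h) (hFi : Integrable (fun ω => F (I ω)) P) :
    Integrable (fun ω => X (I ω) ω) P ∧ ∫ ω, X (I ω) ω ∂P ≤ ∫ ω, F (I ω) ∂P := by
  have hF0 : ∀ h, 0 ≤ F h := fun h => (integral_nonneg_of_ae (hX0 h)).trans (hF h)
  have hsel0 : ∀ᵐ ω ∂P, 0 ≤ X (I ω) ω := by
    filter_upwards [ae_all_iff.2 hX0] with ω h using h _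
  have hm : Measurable (fun ω => X (I ω) ω) := measurable_sel hX hI
  have key : ∫⁻ ω, ENNReal.ofReal (X (I ω) ω) ∂P ≤ ∫⁻ ω, ENNReal.ofReal (F (I ω)) ∂P := by
    rw [lintegral_sel (f := fun h ω => ENNReal.ofReal (X h ω)) (fun h => (hX h).ennreal_ofReal) hI,
      lintegral_sel (f := fun h _ => ENNReal.ofReal (F h)) (fun h => measurable_const) hI]
    refine ENNReal.tsum_le_tsum fun h => ?_
    have hS : MeasurableSet (I ⁻¹' {h}) := hI (measurableSet_singleton h)
    have e1 : ∫⁻ ω, (I ⁻¹' {h}).indicator (fun ω => ENNReal.ofReal (X h ω)) ω ∂P =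
        P (I ⁻¹' {h}) * ∫⁻ ω, ENNReal.ofReal (X h ω) ∂P := by
      have h1 : ∀ ω, (I ⁻¹' {h}).indicator (fun ω => ENNReal.ofReal (X h ω)) ω =
          ((({h} : Set ℕ).indicator (fun _ => (1 : ℝ≥0∞))) ∘ I) ω *
            (ENNReal.ofReal ∘ (X h)) ω := by
        intro ω
        by_cases hω : I ω = h
        · simp [Set.indicator, hω]
        · simp [Set.indicator, hω]
      simp_rw [h1]
      have h2 : IndepFun ((({h} : Set ℕ).indicator (fun _ => (1 : ℝ≥0∞))) ∘ I)
          (ENNReal.ofReal ∘ (X h)) P :=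
        (hind h).symm.comp (measurable_const.indicator (measurableSet_singleton h))
          ENNReal.measurable_ofReal
      have h4 := lintegral_mul_eq_lintegral_mul_lintegral_of_indepFun
        ((measurable_const.indicator (measurableSet_singleton h)).comp hI)
        (ENNReal.measurable_ofReal.comp (hX h)) h2
      refine (Eq.trans ?_ h4).trans ?_
      · rfl
      congr 1
      have h3 : ∀ ω, ((({h} : Set ℕ).indicator (fun _ => (1 : ℝ≥0∞))) ∘ I) ω =
          (I ⁻¹' {h}).indicator (fun _ => (1 : ℝ≥0∞)) ω := by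
        intro ω
        by_cases hω : I ω = h <;> simp [Set.indicator, hω]
      simp_rw [h3]
      rw [lintegral_indicator hS]
      simp
    rw [e1, lintegral_indicator hS, setLIntegral_const, mul_comm]
    gcongr
    rw [← ofReal_integral_eq_lintegral_ofReal (hXi h) (hX0 h)]
    exact ENNReal.ofReal_le_ofReal (hF h)
  have hFin : ∫⁻ ω, ENNReal.ofReal (F (I ω)) ∂P < ⊤ := by
    have := hFi.lintegral_lt_top
    exact this
  have hint : Integrable (fun ω => X (I ω) ω) P := by
    refine ⟨hm.aestronglyMeasurable, ?_⟩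
    rw [hasFiniteIntegral_iff_ofReal hsel0]
    exact key.trans_lt hFin
  refine ⟨hint, ?_⟩
  rw [integral_eq_lintegral_of_nonneg_ae hsel0 hm.aestronglyMeasurable,
    integral_eq_lintegral_of_nonneg_ae (ae_of_all _ fun ω => hF0 _) hFi.aestronglyMeasurable]
  exact ENNReal.toReal_mono hFin.ne key

/-- an arbitrary selection among identically distributed variables with second moment -/
lemma sel_dep [IsProbabilityMeasure P] {X : ℕ → Ω → ℝ} {Y : Ω → ℝ} (hX : ∀ h, Measurable (X h))
    (hX0 : ∀ h, ∀ᵐ ω ∂P, 0 ≤ X h ω) (hid : ∀ h, IdentDistrib (X h) Y P P)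
    (hY2 : Integrable (fun ω => Y ω ^ 2) P) (hY : Integrable Y P) {I : Ω → ℕ}
    (hI : Measurable I) (hIi : Integrable (fun ω => (I ω : ℝ)) P) {η : ℝ} (hη : 0 < η) :
    Integrable (fun ω => X (I ω) ω) P ∧ ∫ ω, X (I ω) ω ∂P ≤
      η * ∫ ω, (I ω : ℝ) ∂P + ∫ ω, (Y ω ^ 2 / η + Y ω) ∂P := by
  have hsel0 : ∀ᵐ ω ∂P, 0 ≤ X (I ω) ω := by
    filter_upwards [ae_all_iff.2 hX0] with ω h using h _
  have hY0 : ∀ᵐ ω ∂P, 0 ≤ Y ω := (hid 0).ae_mem_snd (t := Set.Ici (0:ℝ)) measurableSet_Ici (hX0 0)
  have hm : Measurable (fun ω => X (I ω) ω) := measurable_sel hX hI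
  have hZi : Integrable (fun ω => Y ω ^ 2 / η + Y ω) P := (hY2.div_const η).add hY
  have hZ0 : ∀ᵐ ω ∂P, 0 ≤ Y ω ^ 2 / η + Y ω := by
    filter_upwards [hY0] with ω h
    positivity
  have hRi : Integrable (fun ω => η * (I ω : ℝ)) P := hIi.const_mul η
  -- the key estimate
  have k1 : ∫⁻ ω, ENNReal.ofReal (X (I ω) ω) ∂P ≤
      ∫⁻ ω, ENNReal.ofReal (η * (I ω : ℝ)) ∂P +
        ∫⁻ ω, ENNReal.ofReal (Y ω ^ 2 / η + Y ω) ∂P := by
    calc ∫⁻ ω, ENNReal.ofReal (X (I ω) ω) ∂P
        ≤ ∫⁻ ω, (ENNReal.ofReal (η * (I ω : ℝ)) +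
            ∑' h : ℕ, ENNReal.ofReal (X h ω - η * h)) ∂P := by
          refine lintegral_mono fun ω => ?_
          calc ENNReal.ofReal (X (I ω) ω)
              ≤ ENNReal.ofReal (η * (I ω : ℝ) + (X (I ω) ω - η * (I ω : ℝ))) := by
                apply ENNReal.ofReal_le_ofReal; linarith
            _ ≤ ENNReal.ofReal (η * (I ω : ℝ)) + ENNReal.ofReal (X (I ω) ω - η * (I ω : ℝ)) :=
                ENNReal.ofReal_add_le
            _ ≤ _ := by
                gcongr
                exact ENNReal.le_tsum (f := fun h : ℕ => ENNReal.ofReal (X h ω - η * h)) (I ω)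
      _ = ∫⁻ ω, ENNReal.ofReal (η * (I ω : ℝ)) ∂P +
            ∑' h : ℕ, ∫⁻ ω, ENNReal.ofReal (X h ω - η * h) ∂P := by
          rw [lintegral_add_left (by fun_prop), lintegral_tsum]
          intro h
          exact ((hX h).sub_const _).ennreal_ofReal.aemeasurable
      _ = ∫⁻ ω, ENNReal.ofReal (η * (I ω : ℝ)) ∂P +
            ∑' h : ℕ, ∫⁻ ω, ENNReal.ofReal (Y ω - η * h) ∂P := by
          congr 1
          refine tsum_congr fun h => ?_
          have := (hid h).comp (u := fun x : ℝ => ENNReal.ofReal (x - η * h)) (by fun_prop)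
          exact this.lintegral_eq
      _ = ∫⁻ ω, ENNReal.ofReal (η * (I ω : ℝ)) ∂P +
            ∫⁻ ω, ∑' h : ℕ, ENNReal.ofReal (Y ω - η * h) ∂P := by
          rw [lintegral_tsum]
          intro h
          have : AEMeasurable Y P := hY.aemeasurable
          fun_prop
      _ ≤ _ := by
          refine add_le_add le_rfl (lintegral_mono_ae ?_)
          filter_upwards [hY0] with ω hω
          rw [tsum_eq_sum (s := Finset.range ⌈Y ω / η⌉₊)]
          · calc ∑ h ∈ Finset.range ⌈Y ω / η⌉₊, ENNReal.ofReal (Y ω - η * h)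
                ≤ ∑ h ∈ Finset.range ⌈Y ω / η⌉₊, ENNReal.ofReal (Y ω) := by
                  refine Finset.sum_le_sum fun h _ => ENNReal.ofReal_le_ofReal ?_
                  have : 0 ≤ η * h := by positivity
                  linarith
              _ = ENNReal.ofReal (⌈Y ω / η⌉₊ * Y ω) := by
                  rw [Finset.sum_const, Finset.card_range, nsmul_eq_mul,
                    ENNReal.ofReal_mul (by positivity), ENNReal.ofReal_natCast]
              _ ≤ _ := by
                  refine ENNReal.ofReal_le_ofReal ?_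
                  have h1 := (Nat.ceil_lt_add_one (show 0 ≤ Y ω / η by positivity)).le
                  calc (⌈Y ω / η⌉₊ : ℝ) * Y ω ≤ (Y ω / η + 1) * Y ω := by gcongr
                    _ = _ := by ring
          · intro h hh
            rw [Finset.mem_range, not_lt, Nat.ceil_le, div_le_iff₀ hη] at hh
            rw [ENNReal.ofReal_eq_zero]
            linarith
  have hFin : ∫⁻ ω, ENNReal.ofReal (η * (I ω : ℝ)) ∂P +
        ∫⁻ ω, ENNReal.ofReal (Y ω ^ 2 / η + Y ω) ∂P < ⊤ :=
    ENNReal.add_lt_top.2 ⟨hRi.lintegral_lt_top, hZi.lintegral_lt_top⟩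
  have hint : Integrable (fun ω => X (I ω) ω) P := by
    refine ⟨hm.aestronglyMeasurable, ?_⟩
    rw [hasFiniteIntegral_iff_ofReal hsel0]
    exact k1.trans_lt hFin
  refine ⟨hint, ?_⟩
  rw [← integral_const_mul, integral_eq_lintegral_of_nonneg_ae hsel0 hm.aestronglyMeasurable,
    integral_eq_lintegral_of_nonneg_ae (ae_of_all _ fun ω => by positivity)
      hRi.aestronglyMeasurable,
    integral_eq_lintegral_of_nonneg_ae hZ0 hZi.aestronglyMeasurable,
    ← ENNReal.toReal_add hRi.lintegral_lt_top.ne hZi.lintegral_lt_top.ne]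
  exact ENNReal.toReal_mono hFin.ne k1

end Sel

end Crest.Agent.R151.A
end

-- ▼ part R151/A565e

/-!
# R151, block A (helper565): the free search `AStar`, from gap crossings
-/

set_option autoImplicit false

open MeasureTheory ProbabilityTheory Filter Topology
open Crest.ProbabilityR.FirstPassage
open Crest.Agent.R151.K
open scoped ENNReal

namespace Crest.Agent.R151.A

/-- the free search (form fixed with helper792, post 9811) -/
def AStar (G : Measure ℝ) (p q C : ℝ) : Prop :=
  ∀ ε > 0, ∃ W0 : ℝ, ∀ n : ℤ, 1 ≤ n → ∀ W : ℝ, W0 ≤ W →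
    ∀ (i j : Environment → ℤ) (c : Environment → ℝ), Measurable i → Measurable j → Measurable c →
    DependsOn i (block 0 n) → DependsOn j (block 0 n) → DependsOn c (block 0 n) →
    Integrable (fun t => (i t : ℝ)) (iidLaw G) → Integrable (fun t => (j t : ℝ)) (iidLaw G) →
    Integrable c (iidLaw G) → (∀ᵐ t ∂(iidLaw G), 0 ≤ i t) →
    (∀ᵐ t ∂(iidLaw G), ∃ w : squareLattice.Walk (0, i t) (n, j t),
      (∀ e ∈ w.edges, e ∈ block 0 n) ∧ walkCost t w ≤ c t) →
    -(ε * W) - C * ∫ t, (if W < (i t : ℝ) then (i t : ℝ) else 0) ∂(iidLaw G) ≤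
      ∫ t, (c t - (p * n + q * ((j t : ℝ) - (i t : ℝ)))) ∂(iidLaw G)

/-- crossing a gap: mean cost at most `ρ(displacement) + ε W` for the end heights `b0 + h`,
`0 ≤ h ≤ W`, and at most `ρ(displacement) + ε W + C h` for all `h ≥ 0` -/
def GapUp (G : Measure ℝ) (p q C : ℝ) : Prop :=
  ∀ ε > 0, ∃ W0 : ℝ, ∀ W : ℝ, W0 ≤ W → ∃ (g b0 : ℤ) (X : ℕ → Environment → ℝ), 8 ≤ g ∧
    (∀ h, Measurable (X h)) ∧ (∀ h, DependsOn (X h) (block 0 g)) ∧
    (∀ h, Integrable (X h) (iidLaw G)) ∧
    (∀ h : ℕ, ∀ᵐ t ∂(iidLaw G), passageTime t (0, 0) (g - 4, b0 + h) ≤ X h t) ∧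
    ∀ h : ℕ, ∫ t, X h t ∂(iidLaw G) ≤
      p * g + q * (b0 + h) + ε * W + C * (if W < (h : ℝ) then (h : ℝ) else 0)

/-- the local cost has a second moment -/
def LocK (G : Measure ℝ) : Prop :=
  ∃ κ : Environment → ℝ, Measurable κ ∧ DependsOn κ {e | -8 ≤ eX e} ∧
    Integrable (fun t => κ t ^ 2) (iidLaw G) ∧
    ∀ᵐ t ∂(iidLaw G), passageTime t (-4, 0) (0, 0) ≤ κ t

variable {G : Measure ℝ} [IsProbabilityMeasure G]

lemma integral_lin {f g : Environment → ℝ} (hf : Integrable f (iidLaw G))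
    (hg : Integrable g (iidLaw G)) (a b c : ℝ) :
    Integrable (fun t => a + b * f t + c * g t) (iidLaw G) ∧
    ∫ t, (a + b * f t + c * g t) ∂(iidLaw G) =
      a + b * ∫ t, f t ∂(iidLaw G) + c * ∫ t, g t ∂(iidLaw G) := by
  have h1 : Integrable (fun t => a + b * f t) (iidLaw G) :=
    (integrable_const a).add (hf.const_mul b)
  have h2 : Integrable (fun t => c * g t) (iidLaw G) := hg.const_mul c
  refine ⟨h1.add h2, ?_⟩
  rw [integral_add h1 h2, integral_add (integrable_const a) (hf.const_mul b),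
    integral_const_mul, integral_const_mul]
  simp

theorem aStar_of_gapUp (h0 : G (Set.Iio 0) = 0)
    (hH : Integrable (fun t => passageTime t (0, 0) (1, 0)) (iidLaw G))
    (hV : Integrable (fun t => passageTime t (0, 0) (0, 1)) (iidLaw G))
    {p q C : ℝ} (hρ : ∀ x : ℤ × ℤ, 0 ≤ x.1 →
      p * x.1 + q * x.2 ≤ ∫ t, passageTime t (0, 0) x ∂(iidLaw G))
    (hgap : GapUp G p q C) (hloc : LocK G) : AStar G p q (C + 1) := by
  obtain ⟨κ, hκm, hκd, hκ2, hκ⟩ := hloc
  have hκ0 : ∀ᵐ t ∂(iidLaw G), 0 ≤ κ t := by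
    filter_upwards [hκ, ae_Nn h0] with t h1 h2 using (pt_nonneg h2 _ _).trans h1
  have hκi : Integrable κ (iidLaw G) := by
    have := (memLp_two_iff_integrable_sq hκm.aestronglyMeasurable).2 hκ2
    exact this.integrable (by norm_num)
  intro ε hε
  set η : ℝ := min (ε / 4) 1 with hη
  have hη0 : 0 < η := by positivity
  have hη1 : η ≤ 1 := min_le_right _ _
  have hη4 : η ≤ ε / 4 := min_le_left _ _
  obtain ⟨W1, hW1⟩ := hgap η hη0
  set Kη : ℝ := ∫ t, (κ t ^ 2 / η + κ t) ∂(iidLaw G) with hKη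
  refine ⟨max W1 (max 0 (Kη / η)), ?_⟩
  intro n hn W hW i j c him hjm hcm hid hjd hcd hii hji hci hi0 hwalk
  have hWW1 : W1 ≤ W := (le_max_left _ _).trans hW
  have hW0 : 0 ≤ W := (le_max_left _ _).trans ((le_max_right _ _).trans hW)
  have hWK : Kη / η ≤ W := (le_max_right _ _).trans ((le_max_right _ _).trans hW)
  obtain ⟨g, b0, X, hg, hXm, hXd, hXi, hXle, hXF⟩ := hW1 W hWW1
  set z0 : ℤ × ℤ := (g, b0) with hz0
  -- the selected index, as a natural number
  set I : Environment → ℕ := fun t => (i (shift z0 t)).toNat with hI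
  have hIm : Measurable I := (measurable_from_top (f := Int.toNat)).comp
    (him.comp (measurable_shift z0))
  have hq := (mp_shift G z0).quasiMeasurePreserving
  have hIeq : ∀ᵐ t ∂(iidLaw G), ((I t : ℕ) : ℤ) = i (shift z0 t) := by
    filter_upwards [hq.ae hi0] with t ht
    simp only [hI]
    exact Int.toNat_of_nonneg ht
  have hIeqR : ∀ᵐ t ∂(iidLaw G), (I t : ℝ) = (i (shift z0 t) : ℝ) := by
    filter_upwards [hIeq] with t ht
    rw [← ht]; simp
  have hdI : DependsOn I (block g (g + n)) := by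
    have h1 := dependsOn_comp_shift hid z0
    intro t t' htt
    have : i (shift z0 t) = i (shift z0 t') := by
      refine h1 fun e he => htt e ?_
      simpa [hz0, add_comm] using he
    simp only [hI, this]
  have hshi : Integrable (fun t => (i (shift z0 t) : ℝ)) (iidLaw G) :=
    (mp_shift G z0).integrable_comp_of_integrable hii
  have hIi : Integrable (fun t => (I t : ℝ)) (iidLaw G) :=
    hshi.congr (hIeqR.mono fun t ht => ht.symm)
  -- transfer of integrals
  have tr1 : ∫ t, (I t : ℝ) ∂(iidLaw G) = ∫ t, (i t : ℝ) ∂(iidLaw G) := by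
    rw [integral_congr_ae hIeqR]
    exact integral_shift z0 (F := fun t => (i t : ℝ)) hii.aestronglyMeasurable
  have hindm : Measurable (fun x : ℝ => if W < x then x else 0) :=
    Measurable.ite measurableSet_Ioi measurable_id measurable_const
  have hii' : Integrable (fun t => if W < (i t : ℝ) then (i t : ℝ) else 0) (iidLaw G) := by
    refine hii.mono (hindm.comp (by fun_prop)).aestronglyMeasurable (ae_of_all _ fun t => ?_)
    split_ifs
    · exact le_rfl
    · simp
  have tr2 : ∫ t, (if W < (I t : ℝ) then (I t : ℝ) else 0) ∂(iidLaw G) =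
      ∫ t, (if W < (i t : ℝ) then (i t : ℝ) else 0) ∂(iidLaw G) := by
    have h1 : (fun t => if W < (I t : ℝ) then (I t : ℝ) else 0) =ᵐ[iidLaw G]
        fun t => if W < (i (shift z0 t) : ℝ) then (i (shift z0 t) : ℝ) else 0 := by
      filter_upwards [hIeqR] with t ht
      rw [ht]
    rw [integral_congr_ae h1]
    exact integral_shift z0 (F := fun t => if W < (i t : ℝ) then (i t : ℝ) else 0)
      hii'.aestronglyMeasurable
  -- the three pieces of the cost
  have hX0 : ∀ h, ∀ᵐ t ∂(iidLaw G), 0 ≤ X h t := by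
    intro h
    filter_upwards [hXle h, ae_Nn h0] with t h1 h2 using (pt_nonneg h2 _ _).trans h1
  set F : ℕ → ℝ := fun h => p * g + q * (b0 + h) + η * W + C * (if W < (h : ℝ) then (h : ℝ) else 0)
    with hF
  have hIi' : Integrable (fun t => if W < (I t : ℝ) then (I t : ℝ) else 0) (iidLaw G) := by
    refine hIi.mono (hindm.comp (by fun_prop)).aestronglyMeasurable (ae_of_all _ fun t => ?_)
    split_ifs
    · exact le_rfl
    · simp
  have hFeq : (fun t => F (I t)) = fun t => (p * g + q * b0 + η * W) + q * (I t : ℝ) +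
      C * (if W < (I t : ℝ) then (I t : ℝ) else 0) := by
    funext t
    simp only [hF]
    ring
  obtain ⟨hFi, hFint0⟩ := integral_lin hIi hIi' (p * g + q * b0 + η * W) q C
  rw [← hFeq] at hFi
  have hA := sel_indep hXm hX0 hXi hIm (fun h => indepFun_of_dependsOn G (hXm h) hIm (hXd h) hdI
    (block_disjoint le_rfl)) hXF hFi
  obtain ⟨hA1, hA2⟩ := hA
  have hFint : ∫ t, F (I t) ∂(iidLaw G) = p * g + q * (b0 + ∫ t, (i t : ℝ) ∂(iidLaw G)) + η * W
      + C * ∫ t, (if W < (i t : ℝ) then (i t : ℝ) else 0) ∂(iidLaw G) := by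
    rw [hFeq, hFint0, tr1, tr2]
    ring
  -- local costs
  set Z : ℕ → Environment → ℝ := fun h t => κ (shift (g, b0 + h) t) with hZ
  have hZm : ∀ h, Measurable (Z h) := fun h => hκm.comp (measurable_shift _)
  have hZid : ∀ h, IdentDistrib (Z h) κ (iidLaw G) (iidLaw G) := fun h =>
    ⟨(hZm h).aemeasurable, hκm.aemeasurable, by
      have h1 := (mp_shift G (g, b0 + (h : ℤ))).map_eq
      conv_rhs => rw [← h1]
      rw [Measure.map_map hκm (measurable_shift _)]
      rfl⟩
  have hZ0 : ∀ h, ∀ᵐ t ∂(iidLaw G), 0 ≤ Z h t := fun h =>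
    (mp_shift G (g, b0 + (h : ℤ))).quasiMeasurePreserving.ae hκ0
  obtain ⟨hB1, hB2⟩ := sel_dep hZm hZ0 hZid hκ2 hκi hIm hIi hη0
  -- the slab cost
  have hC1 : Integrable (fun t => c (shift z0 t)) (iidLaw G) :=
    (mp_shift G z0).integrable_comp_of_integrable hci
  have hC2 : ∫ t, c (shift z0 t) ∂(iidLaw G) = ∫ t, c t ∂(iidLaw G) :=
    integral_shift z0 hci.aestronglyMeasurable
  -- the stage
  set ct : Environment → ℝ := fun t => X (I t) t + Z (I t) t + c (shift z0 t) with hct
  set d : Environment → ℤ := fun t => b0 + j (shift z0 t) with hd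
  have hgn : 0 ≤ g + n := by omega
  have hdd : DependsOn d (block 0 (g + n)) := by
    have h1 := dependsOn_comp_shift hjd z0
    intro t t' htt
    have : j (shift z0 t) = j (shift z0 t') := by
      refine h1 fun e he => htt e ?_
      simp only [hz0, block, Set.mem_ofPred_eq] at he ⊢
      omega
    simp only [hd, this]
  have hdm : Measurable d := measurable_const.add (hjm.comp (measurable_shift _))
  have hctd : DependsOn ct half := by
    intro t t' htt
    have hI' : I t = I t' := hdI fun e he => htt e (block_subset_half (by omega) he)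
    have h1 : X (I t) t = X (I t') t' := by
      rw [hI']
      exact hXd _ fun e he => htt e (block_subset_half le_rfl he)
    have h2 : Z (I t) t = Z (I t') t' := by
      rw [hI']
      simp only [hZ]
      refine hκd fun e he => htt _ ?_
      simp only [half, Set.mem_ofPred_eq, eX_eShift] at he ⊢
      omega
    have h3 : c (shift z0 t) = c (shift z0 t') := by
      refine hcd fun e he => htt _ ?_
      simp only [half, block, hz0, Set.mem_ofPred_eq, eX_eShift] at he ⊢
      omega
    simp only [hct, h1, h2, h3]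
  have hctm : Measurable ct :=
    ((measurable_sel hXm hIm).add (measurable_sel hZm hIm)).add (hcm.comp (measurable_shift _))
  have hcti : Integrable ct (iidLaw G) := (hA1.add hB1).add hC1
  have hdi : Integrable (fun t => (d t : ℝ)) (iidLaw G) := by
    simp only [hd]
    push_cast
    exact (integrable_const _).add ((mp_shift G z0).integrable_comp_of_integrable hji)
  have hdint : ∫ t, (d t : ℝ) ∂(iidLaw G) = b0 + ∫ t, (j t : ℝ) ∂(iidLaw G) := by
    simp only [hd]
    push_cast
    have h1 : Integrable (fun t => (j (shift z0 t) : ℝ)) (iidLaw G) :=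
      (mp_shift G z0).integrable_comp_of_integrable hji
    have h2 := integral_shift z0 (F := fun t => (j t : ℝ)) hji.aestronglyMeasurable
    rw [integral_add (integrable_const _) h1, h2]
    simp
  have hle : ∀ᵐ t ∂(iidLaw G), passageTime t (0, 0) (g + n, d t) ≤ ct t := by
    have e1 : ∀ᵐ t ∂(iidLaw G), ∀ z : ℤ × ℤ,
        passageTime (shift z t) (-4, 0) (0, 0) ≤ κ (shift z t) := by
      rw [ae_all_iff]
      intro z
      exact (mp_shift G z).quasiMeasurePreserving.ae hκ
    filter_upwards [e1, ae_Nn h0, hIeq, hq.ae hwalk, ae_all_iff.2 hXle] with t a1 a2 a3 a4 a5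
    obtain ⟨w, -, hw⟩ := a4
    have b1 := a5 (I t)
    have b2 := a1 (g, b0 + (I t : ℤ))
    rw [pt_shift] at b2
    have b3 := (pt_le (Nn_shift a2 z0) w).trans hw
    rw [pt_shift, ← a3] at b3
    simp only [hz0, Prod.mk_add_mk, zero_add] at b2 b3
    have b4 := pt_triangle a2 (0, 0) (g - 4, b0 + (I t : ℤ)) (g, b0 + (I t : ℤ))
    have b5 := pt_triangle a2 (0, 0) (g, b0 + (I t : ℤ)) (g + n, d t)
    rw [show (-4 : ℤ) + g = g - 4 by ring] at b2
    rw [show (I t : ℤ) + b0 = b0 + (I t : ℤ) by ring, show n + g = g + n by ring,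
      show j (shift (g, b0) t) + b0 = b0 + j (shift (g, b0) t) by ring] at b3
    simp only [hct, hZ, hd, hz0] at b5 ⊢
    linarith
  have hmain := stage_principle h0 hH hV hρ hgn hdd hdm hctd hctm hdi hcti hle
  have hctint : ∫ t, ct t ∂(iidLaw G) = ∫ t, X (I t) t ∂(iidLaw G) +
      ∫ t, Z (I t) t ∂(iidLaw G) + ∫ t, c t ∂(iidLaw G) := by
    have hAB : Integrable (fun t => X (I t) t + Z (I t) t) (iidLaw G) := hA1.add hB1
    simp only [hct]
    rw [integral_add hAB hC1, integral_add hA1 hB1, hC2]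
  -- the mean of the index
  have hEi : ∫ t, (i t : ℝ) ∂(iidLaw G) ≤
      W + ∫ t, (if W < (i t : ℝ) then (i t : ℝ) else 0) ∂(iidLaw G) := by
    have h1 : ∫ t, (i t : ℝ) ∂(iidLaw G) ≤
        ∫ t, (W + if W < (i t : ℝ) then (i t : ℝ) else 0) ∂(iidLaw G) := by
      refine integral_mono hii ((integrable_const _).add hii') fun t => ?_
      simp only
      split_ifs with h
      · linarith
      · linarith
    rw [integral_add (integrable_const _) hii'] at h1
    simpa using h1
  have hS0 : 0 ≤ ∫ t, (if W < (i t : ℝ) then (i t : ℝ) else 0) ∂(iidLaw G) := by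
    refine integral_nonneg fun t => ?_
    simp only [Pi.zero_apply]
    split_ifs with h
    · linarith
    · exact le_rfl
  have hfin : ∫ t, (c t - (p * n + q * ((j t : ℝ) - (i t : ℝ)))) ∂(iidLaw G) =
      ∫ t, c t ∂(iidLaw G) - (p * n + q * (∫ t, (j t : ℝ) ∂(iidLaw G) -
        ∫ t, (i t : ℝ) ∂(iidLaw G))) := by
    have e1 := (integral_lin hji hii (p * n) q (-q)).1
    have e2 := (integral_lin hji hii (p * n) q (-q)).2
    have e3 : (fun t => c t - (p * n + q * ((j t : ℝ) - (i t : ℝ)))) =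
        fun t => c t - (p * n + q * (j t : ℝ) + -q * (i t : ℝ)) := by
      funext t; ring
    rw [e3, integral_sub hci e1, e2]
    ring
  rw [hfin]
  rw [hctint, hdint] at hmain
  rw [hFint] at hA2
  rw [tr1] at hB2
  push_cast at hmain
  have hKW : Kη ≤ η * W := by
    rw [div_le_iff₀ hη0] at hWK
    linarith
  have hB3 : ∫ t, Z (I t) t ∂(iidLaw G) ≤ η * ∫ t, (i t : ℝ) ∂(iidLaw G) + Kη := hB2
  have hηi : η * ∫ t, (i t : ℝ) ∂(iidLaw G) ≤
      η * (W + ∫ t, (if W < (i t : ℝ) then (i t : ℝ) else 0) ∂(iidLaw G)) :=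
    mul_le_mul_of_nonneg_left hEi hη0.le
  have hηS : η * ∫ t, (if W < (i t : ℝ) then (i t : ℝ) else 0) ∂(iidLaw G) ≤
      1 * ∫ t, (if W < (i t : ℝ) then (i t : ℝ) else 0) ∂(iidLaw G) :=
    mul_le_mul_of_nonneg_right hη1 hS0
  have hηW : η * W ≤ ε / 4 * W := mul_le_mul_of_nonneg_right hη4 hW0
  have hεW : 0 ≤ ε * W := by positivity
  generalize ∫ t, (if W < (i t : ℝ) then (i t : ℝ) else 0) ∂(iidLaw G) = S at *
  generalize ∫ t, (i t : ℝ) ∂(iidLaw G) = Ei at *
  generalize ∫ t, (j t : ℝ) ∂(iidLaw G) = Ej at *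
  generalize ∫ t, c t ∂(iidLaw G) = Ec at *
  linarith

end Crest.Agent.R151.A
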