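import Crest.Agent.R151.K2b

/-!
# R151/K4a — passage times restricted to a region (owner helper507)

`pR t R x y` = infimum of the cost over the walks from `x` to `y` all of whose vertices are in `R`.
`Conn R x y` = there is such a walk.
-/

set_option autoImplicit false

open MeasureTheory Filter ProbabilityTheory
open Crest.ProbabilityR.FirstPassage

namespace Crest.Agent.R151.K

/-- Passage time along walks with all vertices in `R`. -/
noncomputable def pR (t : Environment) (R : Set (ℤ × ℤ)) (x y : ℤ × ℤ) : ℝ :=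
  ⨅ w : {w : squareLattice.Walk x y // ∀ z ∈ w.support, z ∈ R}, walkCost t w.1

/-- `x` and `y` are joined by a walk in `R`. -/
def Conn (R : Set (ℤ × ℤ)) (x y : ℤ × ℤ) : Prop :=
  ∃ w : squareLattice.Walk x y, ∀ z ∈ w.support, z ∈ R

variable {t : Environment} {R R' : Set (ℤ × ℤ)}

lemma Conn.nonempty {x y : ℤ × ℤ} (h : Conn R x y) :
    Nonempty {w : squareLattice.Walk x y // ∀ z ∈ w.support, z ∈ R} := by
  obtain ⟨w, hw⟩ := h
  exact ⟨⟨w, hw⟩⟩



lemma Conn.refl {x : ℤ × ℤ} (h : x ∈ R) : Conn R x x :=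
  ⟨SimpleGraph.Walk.nil, by simpa using h⟩

lemma Conn.symm {x y : ℤ × ℤ} (h : Conn R x y) : Conn R y x := by
  obtain ⟨w, hw⟩ := h
  refine ⟨w.reverse, fun z hz => hw z ?_⟩
  rwa [SimpleGraph.Walk.support_reverse, List.mem_reverse] at hz

lemma Conn.trans {x y z : ℤ × ℤ} (h : Conn R x y) (h' : Conn R y z) : Conn R x z := by
  obtain ⟨w, hw⟩ := h
  obtain ⟨w', hw'⟩ := h'
  refine ⟨w.append w', fun u hu => ?_⟩
  rw [SimpleGraph.Walk.mem_support_append_iff] at hu
  rcases hu with hu | hu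
  · exact hw u hu
  · exact hw' u hu

lemma Conn.mono {x y : ℤ × ℤ} (h : Conn R x y) (hR : R ⊆ R') : Conn R' x y := by
  obtain ⟨w, hw⟩ := h
  exact ⟨w, fun z hz => hR (hw z hz)⟩


lemma Conn.adj {x y : ℤ × ℤ} (h : squareLattice.Adj x y) (hx : x ∈ R) (hy : y ∈ R) :
    Conn R x y := by
  refine ⟨SimpleGraph.Walk.cons h SimpleGraph.Walk.nil, ?_⟩
  intro z hz
  simp only [SimpleGraph.Walk.support_cons, SimpleGraph.Walk.support_nil, List.mem_cons,
    List.not_mem_nil, or_false] at hz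
  rcases hz with rfl | rfl
  · exact hx
  · exact hy

lemma bddBelow_costR (ht : Nn t) (R : Set (ℤ × ℤ)) (x y : ℤ × ℤ) :
    BddBelow (Set.range fun w : {w : squareLattice.Walk x y // ∀ z ∈ w.support, z ∈ R} =>
      walkCost t w.1) :=
  ⟨0, by rintro _ ⟨w, rfl⟩; exact walkCost_nonneg ht w.1⟩

lemma pR_nonneg (ht : Nn t) (R : Set (ℤ × ℤ)) (x y : ℤ × ℤ) : 0 ≤ pR t R x y :=
  Real.iInf_nonneg fun w => walkCost_nonneg ht w.1

lemma pR_le (ht : Nn t) {x y : ℤ × ℤ} (w : squareLattice.Walk x y)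
    (hw : ∀ z ∈ w.support, z ∈ R) : pR t R x y ≤ walkCost t w :=
  ciInf_le (bddBelow_costR ht R x y) ⟨w, hw⟩

lemma le_pR {x y : ℤ × ℤ} {c : ℝ} (hc : Conn R x y)
    (h : ∀ w : squareLattice.Walk x y, (∀ z ∈ w.support, z ∈ R) → c ≤ walkCost t w) :
    c ≤ pR t R x y := by
  have := hc.nonempty
  exact le_ciInf fun w => h w.1 w.2

lemma exists_walk_lt_pR {x y : ℤ × ℤ} {c : ℝ} (hc : Conn R x y) (h : pR t R x y < c) :
    ∃ w : squareLattice.Walk x y, (∀ z ∈ w.support, z ∈ R) ∧ walkCost t w < c := by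
  have := hc.nonempty
  obtain ⟨w, hw⟩ := exists_lt_of_ciInf_lt h
  exact ⟨w.1, w.2, hw⟩

lemma pR_univ (t : Environment) (x y : ℤ × ℤ) : pR t Set.univ x y = passageTime t x y := by
  unfold pR passageTime
  exact Function.Surjective.iInf_congr (fun w => w.1)
    (fun w => ⟨⟨w, fun z _ => Set.mem_univ z⟩, rfl⟩) (fun w => rfl)

lemma pR_anti (ht : Nn t) (hR : R ⊆ R') {x y : ℤ × ℤ} (hc : Conn R x y) :
    pR t R' x y ≤ pR t R x y :=
  le_pR hc fun w hw => pR_le ht w fun z hz => hR (hw z hz)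

lemma pt_le_pR (ht : Nn t) {x y : ℤ × ℤ} (hc : Conn R x y) :
    passageTime t x y ≤ pR t R x y :=
  le_pR hc fun w _ => pt_le ht w

lemma pR_self (ht : Nn t) {x : ℤ × ℤ} (hx : x ∈ R) : pR t R x x = 0 :=
  le_antisymm ((pR_le ht SimpleGraph.Walk.nil (by simpa using hx)).trans_eq (walkCost_nil x))
    (pR_nonneg ht R x x)

lemma pR_symm_le (ht : Nn t) (R : Set (ℤ × ℤ)) (x y : ℤ × ℤ) : pR t R x y ≤ pR t R y x := by
  by_cases hc : Conn R y x
  · refine le_pR hc fun w hw => ?_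
    rw [← walkCost_reverse]
    refine pR_le ht _ fun z hz => hw z ?_
    rwa [SimpleGraph.Walk.support_reverse, List.mem_reverse] at hz
  · have : IsEmpty {w : squareLattice.Walk x y // ∀ z ∈ w.support, z ∈ R} :=
      ⟨fun w => hc (Conn.symm ⟨w.1, w.2⟩)⟩
    have e : pR t R x y = 0 := by unfold pR; exact Real.iInf_of_isEmpty _
    rw [e]
    exact pR_nonneg ht R y x

lemma pR_symm (ht : Nn t) (R : Set (ℤ × ℤ)) (x y : ℤ × ℤ) : pR t R x y = pR t R y x :=
  le_antisymm (pR_symm_le ht R x y) (pR_symm_le ht R y x)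

lemma pR_triangle (ht : Nn t) {x y z : ℤ × ℤ} (h : Conn R x y) (h' : Conn R y z) :
    pR t R x z ≤ pR t R x y + pR t R y z := by
  have h1 : ∀ w : squareLattice.Walk x y, (∀ u ∈ w.support, u ∈ R) →
      pR t R x z - walkCost t w ≤ pR t R y z := by
    intro w hw
    refine le_pR h' fun w' hw' => ?_
    have := pR_le (R := R) ht (w.append w') (fun u hu => by
      rw [SimpleGraph.Walk.mem_support_append_iff] at hu
      rcases hu with hu | hu
      · exact hw u hu
      · exact hw' u hu)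
    rw [walkCost_append] at this
    linarith
  have h2 : pR t R x z - pR t R y z ≤ pR t R x y := by
    refine le_pR h fun w hw => ?_
    linarith [h1 w hw]
  linarith

lemma pR_adj (ht : Nn t) {x y : ℤ × ℤ} (h : squareLattice.Adj x y) (hx : x ∈ R) (hy : y ∈ R) :
    pR t R x y ≤ t s(x, y) := by
  have := pR_le (R := R) ht (SimpleGraph.Walk.cons h SimpleGraph.Walk.nil) (by
    intro z hz
    simp only [SimpleGraph.Walk.support_cons, SimpleGraph.Walk.support_nil, List.mem_cons,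
      List.not_mem_nil, or_false] at hz
    rcases hz with rfl | rfl
    · exact hx
    · exact hy)
  simpa [walkCost] using this

/-- A chain of points gives an upper bound. -/
lemma pR_chain (ht : Nn t) (x : ℕ → ℤ × ℤ) (n : ℕ) (hx : x 0 ∈ R)
    (h : ∀ i < n, Conn R (x i) (x (i + 1))) :
    Conn R (x 0) (x n) ∧ pR t R (x 0) (x n) ≤ ∑ i ∈ Finset.range n, pR t R (x i) (x (i + 1)) := by
  induction n with
  | zero => simp [pR_self ht hx, Conn.refl hx]
  | succ n ih =>
    obtain ⟨h1, h2⟩ := ih fun i hi => h i (by omega)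
    have h3 := h n (by omega)
    refine ⟨h1.trans h3, ?_⟩
    rw [Finset.sum_range_succ]
    exact (pR_triangle ht h1 h3).trans (by linarith)

lemma measurable_pR (R : Set (ℤ × ℤ)) (x y : ℤ × ℤ) :
    Measurable fun t : Environment => pR t R x y := by
  unfold pR
  exact Measurable.iInf fun w => measurable_walkCost w.1

/-- Transport by a lattice automorphism. -/
lemma pR_act (t : Environment) (φ : squareLattice ≃g squareLattice) (R : Set (ℤ × ℤ))
    (x y : ℤ × ℤ) : pR (act φ t) (φ ⁻¹' R) x y = pR t R (φ x) (φ y) := by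
  unfold pR
  refine Function.Surjective.iInf_congr
    (fun w : {w : squareLattice.Walk x y // ∀ z ∈ w.support, z ∈ φ ⁻¹' R} =>
      (⟨w.1.map φ.toHom, by
        intro z hz
        rw [SimpleGraph.Walk.support_map, List.mem_map] at hz
        obtain ⟨u, hu, rfl⟩ := hz
        exact w.2 u hu⟩ :
        {w : squareLattice.Walk (φ x) (φ y) // ∀ z ∈ w.support, z ∈ R})) ?_
    (fun w => walkCost_map t φ.toHom w.1)
  rintro ⟨w, hw⟩
  refine ⟨⟨(w.map φ.symm.toHom).copy (φ.symm_apply_apply x) (φ.symm_apply_apply y), ?_⟩, ?_⟩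
  · intro z hz
    rw [SimpleGraph.Walk.support_copy, SimpleGraph.Walk.support_map, List.mem_map] at hz
    obtain ⟨u, hu, rfl⟩ := hz
    have : φ (φ.symm u) ∈ R := by rw [φ.apply_symm_apply]; exact hw u hu
    exact this
  · apply Subtype.ext
    apply SimpleGraph.Walk.ext_support
    simp only [SimpleGraph.Walk.support_map, SimpleGraph.Walk.support_copy, List.map_map]
    have : (⇑φ.toHom ∘ ⇑φ.symm.toHom) = id := by
      funext z
      exact φ.apply_symm_apply z
    rw [this, List.map_id]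

/-- Translation: `pR (act (tr z) t) R x y = pR t (R + z) (x + z) (y + z)`. -/
lemma pR_tr (t : Environment) (z : ℤ × ℤ) (R : Set (ℤ × ℤ)) (x y : ℤ × ℤ) :
    pR (act (tr z) t) ((fun u => u + z) ⁻¹' R) x y = pR t R (x + z) (y + z) :=
  pR_act t (tr z) R x y

/-- `pR t R` only depends on the edges with both endpoints in `R`. -/
lemma pR_congr {t t' : Environment} (h : ∀ x ∈ R, ∀ y ∈ R, t s(x, y) = t' s(x, y))
    (x y : ℤ × ℤ) : pR t R x y = pR t' R x y := by
  unfold pR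
  congr 1
  funext w
  unfold walkCost
  congr 1
  refine List.map_congr_left fun e he => ?_
  induction e with
  | h a b =>
    exact h a (w.2 a (SimpleGraph.Walk.fst_mem_support_of_mem_edges _ he)) b
      (w.2 b (SimpleGraph.Walk.snd_mem_support_of_mem_edges _ he))

/-- The edges with both endpoints in `R`. -/
def edgesIn (R : Set (ℤ × ℤ)) : Set (Sym2 (ℤ × ℤ)) := {e | ∀ z ∈ e, z ∈ R}

lemma mem_edgesIn {x y : ℤ × ℤ} : s(x, y) ∈ edgesIn R ↔ x ∈ R ∧ y ∈ R := by
  constructor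
  · intro h
    exact ⟨h x (Sym2.mem_mk_left x y), h y (Sym2.mem_mk_right x y)⟩
  · rintro ⟨hx, hy⟩ z hz
    rcases Sym2.mem_iff.1 hz with rfl | rfl
    · exact hx
    · exact hy


/-! ### Rows and columns -/

lemma conn_row (a b : ℤ) (n : ℕ) (h : ∀ i : ℕ, i ≤ n → (a + i, b) ∈ R) :
    Conn R (a, b) (a + n, b) ∧ ∀ t, Nn t →
      pR t R (a, b) (a + n, b) ≤ ∑ i ∈ Finset.range n, t (eH (a + i) b) := by
  induction n with
  | zero =>
    have h0 := h 0 le_rfl
    simp only [Nat.cast_zero, add_zero] at h0 ⊢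
    exact ⟨Conn.refl h0, fun t ht => by simp [pR_self ht h0]⟩
  | succ n ih =>
    obtain ⟨h1, h2⟩ := ih fun i hi => h i (by omega)
    have h3 := h n (by omega)
    have h4 := h (n + 1) le_rfl
    push_cast at h4 ⊢
    rw [← add_assoc] at h4 ⊢
    have h5 : Conn R (a + n, b) (a + n + 1, b) := Conn.adj (adj_right _ _) h3 h4
    refine ⟨h1.trans h5, fun t ht => ?_⟩
    rw [Finset.sum_range_succ]
    exact (pR_triangle ht h1 h5).trans (add_le_add (h2 t ht) (pR_adj ht (adj_right _ _) h3 h4))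

lemma conn_col (a b : ℤ) (n : ℕ) (h : ∀ i : ℕ, i ≤ n → (a, b + i) ∈ R) :
    Conn R (a, b) (a, b + n) ∧ ∀ t, Nn t →
      pR t R (a, b) (a, b + n) ≤ ∑ i ∈ Finset.range n, t (eV a (b + i)) := by
  induction n with
  | zero =>
    have h0 := h 0 le_rfl
    simp only [Nat.cast_zero, add_zero] at h0 ⊢
    exact ⟨Conn.refl h0, fun t ht => by simp [pR_self ht h0]⟩
  | succ n ih =>
    obtain ⟨h1, h2⟩ := ih fun i hi => h i (by omega)
    have h3 := h n (by omega)
    have h4 := h (n + 1) le_rfl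
    push_cast at h4 ⊢
    rw [← add_assoc] at h4 ⊢
    have h5 : Conn R (a, b + n) (a, b + n + 1) := Conn.adj (adj_up _ _) h3 h4
    refine ⟨h1.trans h5, fun t ht => ?_⟩
    rw [Finset.sum_range_succ]
    exact (pR_triangle ht h1 h5).trans (add_le_add (h2 t ht) (pR_adj ht (adj_up _ _) h3 h4))

/-- Row segments. -/
lemma exists_rowR (a b c : ℤ) (h : ∀ i : ℤ, (a ≤ i ∧ i ≤ c) ∨ (c ≤ i ∧ i ≤ a) → (i, b) ∈ R) :
    Conn R (a, b) (c, b) ∧ ∃ F : Finset (Sym2 (ℤ × ℤ)), F.card ≤ (c - a).natAbs ∧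
    (∀ e ∈ F, ∃ i, e = eH i b) ∧
    ∀ t, Nn t → pR t R (a, b) (c, b) ≤ ∑ e ∈ F, t e := by
  classical
  have key : ∀ a c : ℤ, a ≤ c → (∀ i : ℤ, a ≤ i ∧ i ≤ c → (i, b) ∈ R) →
      Conn R (a, b) (c, b) ∧ ∃ F : Finset (Sym2 (ℤ × ℤ)), F.card ≤ (c - a).natAbs ∧
      (∀ e ∈ F, ∃ i, e = eH i b) ∧
      ∀ t, Nn t → pR t R (a, b) (c, b) ≤ ∑ e ∈ F, t e := by
    intro a c hac hR
    obtain ⟨h1, h2⟩ := conn_row (R := R) a b (c - a).toNat (fun i hi => hR _ (by omega))
    rw [Int.toNat_of_nonneg (by omega), add_sub_cancel] at h1 h2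
    refine ⟨h1, (Finset.range (c - a).toNat).image fun i : ℕ => eH (a + i) b, ?_, ?_, ?_⟩
    · refine Finset.card_image_le.trans ?_
      rw [Finset.card_range]; omega
    · intro e he
      obtain ⟨i, -, rfl⟩ := Finset.mem_image.1 he
      exact ⟨_, rfl⟩
    · intro t ht
      rw [Finset.sum_image]
      · exact h2 t ht
      · intro i _ j _ hij
        have := eH_inj b hij
        omega
  rcases le_total a c with hac | hac
  · exact key a c hac fun i hi => h i (Or.inl hi)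
  · obtain ⟨h0, F, h1, h2, h3⟩ := key c a hac fun i hi => h i (Or.inr hi)
    refine ⟨h0.symm, F, by omega, h2, fun t ht => ?_⟩
    rw [pR_symm ht]
    exact h3 t ht

/-- Column segments. -/
lemma exists_colR (a b d : ℤ) (h : ∀ i : ℤ, (b ≤ i ∧ i ≤ d) ∨ (d ≤ i ∧ i ≤ b) → (a, i) ∈ R) :
    Conn R (a, b) (a, d) ∧ ∃ F : Finset (Sym2 (ℤ × ℤ)), F.card ≤ (d - b).natAbs ∧
    (∀ e ∈ F, ∃ i, e = eV a i) ∧
    ∀ t, Nn t → pR t R (a, b) (a, d) ≤ ∑ e ∈ F, t e := by
  classical
  have key : ∀ b d : ℤ, b ≤ d → (∀ i : ℤ, b ≤ i ∧ i ≤ d → (a, i) ∈ R) →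
      Conn R (a, b) (a, d) ∧ ∃ F : Finset (Sym2 (ℤ × ℤ)), F.card ≤ (d - b).natAbs ∧
      (∀ e ∈ F, ∃ i, e = eV a i) ∧
      ∀ t, Nn t → pR t R (a, b) (a, d) ≤ ∑ e ∈ F, t e := by
    intro b d hbd hR
    obtain ⟨h1, h2⟩ := conn_col (R := R) a b (d - b).toNat (fun i hi => hR _ (by omega))
    rw [Int.toNat_of_nonneg (by omega), add_sub_cancel] at h1 h2
    refine ⟨h1, (Finset.range (d - b).toNat).image fun i : ℕ => eV a (b + i), ?_, ?_, ?_⟩
    · refine Finset.card_image_le.trans ?_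
      rw [Finset.card_range]; omega
    · intro e he
      obtain ⟨i, -, rfl⟩ := Finset.mem_image.1 he
      exact ⟨_, rfl⟩
    · intro t ht
      rw [Finset.sum_image]
      · exact h2 t ht
      · intro i _ j _ hij
        have := eV_inj a hij
        omega
  rcases le_total b d with hbd | hbd
  · exact key b d hbd fun i hi => h i (Or.inl hi)
  · obtain ⟨h0, F, h1, h2, h3⟩ := key d b hbd fun i hi => h i (Or.inr hi)
    refine ⟨h0.symm, F, by omega, h2, fun t ht => ?_⟩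
    rw [pR_symm ht]
    exact h3 t ht

/-- A region is rectangle-convex if it contains, with `x` and `y`, the L-shaped path that first
follows the row of `x` and then the column of `y`. -/
def LIn (R : Set (ℤ × ℤ)) (x y : ℤ × ℤ) : Prop :=
  (∀ i : ℤ, (x.1 ≤ i ∧ i ≤ y.1) ∨ (y.1 ≤ i ∧ i ≤ x.1) → (i, x.2) ∈ R) ∧
  (∀ i : ℤ, (x.2 ≤ i ∧ i ≤ y.2) ∨ (y.2 ≤ i ∧ i ≤ x.2) → (y.1, i) ∈ R)

/-- A set of at most `|y - x|₁` edges whose total weight bounds the restricted passage time. -/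
lemma exists_path_edgesR {x y : ℤ × ℤ} (h : LIn R x y) :
    Conn R x y ∧ ∃ F : Finset (Sym2 (ℤ × ℤ)), F.card ≤ n1 (y - x) ∧
      ∀ t, Nn t → pR t R x y ≤ ∑ e ∈ F, t e := by
  classical
  obtain ⟨a, b⟩ := x
  obtain ⟨c, d⟩ := y
  obtain ⟨c1, F1, h1, h2, h3⟩ := exists_rowR a b c h.1
  obtain ⟨c2, F2, h4, h5, h6⟩ := exists_colR c b d h.2
  refine ⟨c1.trans c2, F1 ∪ F2, ?_, ?_⟩
  · refine (Finset.card_union_le _ _).trans ?_
    simp only [n1, Prod.mk_sub_mk]
    omega
  · intro t ht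
    rw [Finset.sum_union]
    · exact (pR_triangle ht c1 c2).trans (add_le_add (h3 t ht) (h6 t ht))
    · rw [Finset.disjoint_left]
      intro e he he'
      obtain ⟨i, rfl⟩ := h2 e he
      obtain ⟨j, hj⟩ := h5 _ he'
      exact eH_ne_eV _ _ _ _ hj

/-! ### Moments -/

variable {G : Measure ℝ} [IsProbabilityMeasure G]

/-- second moment of a restricted passage time -/
lemma pR_sq (h0 : G (Set.Iio 0) = 0) (h2 : Integrable (fun x : ℝ => x ^ 2) G) {x y : ℤ × ℤ}
    (h : LIn R x y) :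
    Integrable (fun t => pR t R x y ^ 2) (iidLaw G) ∧
    ∫ t, pR t R x y ^ 2 ∂(iidLaw G) ≤ (n1 (y - x) : ℝ) ^ 2 * ∫ z, z ^ 2 ∂G := by
  obtain ⟨-, F, hF, hle⟩ := exists_path_edgesR h
  have hb : ∀ᵐ t ∂(iidLaw G), pR t R x y ^ 2 ≤ (F.card : ℝ) * ∑ e ∈ F, t e ^ 2 := by
    filter_upwards [ae_Nn (G := G) h0] with t ht
    calc pR t R x y ^ 2 ≤ (∑ e ∈ F, t e) ^ 2 := by
          have := hle t ht
          have := pR_nonneg ht R x y
          gcongr
      _ ≤ (F.card : ℝ) * ∑ e ∈ F, t e ^ 2 := sq_sum_le_card_mul_sum_sq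
  have hint : Integrable (fun t : Environment => (F.card : ℝ) * ∑ e ∈ F, t e ^ 2) (iidLaw G) :=
    (integrable_finsetSum _ fun e _ => integrable_edge_sq h2 e).const_mul _
  have hi : Integrable (fun t => pR t R x y ^ 2) (iidLaw G) := by
    refine hint.mono' ((measurable_pR R x y).pow_const 2).aestronglyMeasurable ?_
    filter_upwards [hb] with t ht
    rwa [Real.norm_eq_abs, abs_of_nonneg (sq_nonneg _)]
  refine ⟨hi, (integral_mono_ae hi hint hb).trans ?_⟩
  rw [integral_const_mul, integral_finsetSum _ fun e _ => integrable_edge_sq h2 e]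
  simp only [integral_edge_sq h2, Finset.sum_const, nsmul_eq_mul]
  rw [← mul_assoc, ← sq]
  have : (0 : ℝ) ≤ ∫ z, z ^ 2 ∂G := integral_nonneg fun z => sq_nonneg z
  have : (F.card : ℝ) ≤ n1 (y - x) := by exact_mod_cast hF
  gcongr

lemma integrable_pR (h0 : G (Set.Iio 0) = 0) (h2 : Integrable (fun x : ℝ => x ^ 2) G)
    {x y : ℤ × ℤ} (h : LIn R x y) : Integrable (fun t => pR t R x y) (iidLaw G) := by
  have h := (pR_sq h0 h2 h).1
  have hm : MemLp (fun t => pR t R x y) 2 (iidLaw G) :=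
    (memLp_two_iff_integrable_sq (measurable_pR R x y).aestronglyMeasurable).2 h
  exact hm.integrable (by norm_num)

/-- First moment of a restricted passage time. -/
lemma integral_pR_le (h0 : G (Set.Iio 0) = 0) (h2 : Integrable (fun x : ℝ => x ^ 2) G)
    {x y : ℤ × ℤ} (h : LIn R x y) :
    ∫ t, pR t R x y ∂(iidLaw G) ≤ (n1 (y - x) : ℝ) * ∫ z, z ∂G := by
  obtain ⟨-, F, hF, hle⟩ := exists_path_edgesR h
  have h1 := integrable_id_of_sq h2
  have hie : ∀ e : Sym2 (ℤ × ℤ), Integrable (fun t : Environment => t e) (iidLaw G) :=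
    fun e => (mp_eval (G := G) e).integrable_comp_of_integrable h1
  have hint : Integrable (fun t : Environment => ∑ e ∈ F, t e) (iidLaw G) :=
    integrable_finsetSum _ fun e _ => hie e
  refine (integral_mono_ae (integrable_pR h0 h2 h) hint ?_).trans ?_
  · filter_upwards [ae_Nn (G := G) h0] with t ht using hle t ht
  · rw [integral_finsetSum _ fun e _ => hie e]
    have : ∀ e : Sym2 (ℤ × ℤ), ∫ t : Environment, t e ∂(iidLaw G) = ∫ z, z ∂G := by
      intro e
      have h := (mp_eval (G := G) e)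
      conv_rhs => rw [← h.map_eq]
      rw [integral_map h.measurable.aemeasurable (by rw [h.map_eq]; exact h1.1)]
    simp only [this, Finset.sum_const, nsmul_eq_mul]
    have h3 : (0 : ℝ) ≤ ∫ z, z ∂G := integral_nonneg_of_ae (ae_nonneg h0)
    have h4 : (F.card : ℝ) ≤ n1 (y - x) := by exact_mod_cast hF
    gcongr

/-- Invariance in law. -/
lemma integral_pR_act (φ : squareLattice ≃g squareLattice) (R : Set (ℤ × ℤ)) (x y : ℤ × ℤ) :
    ∫ t, pR t (φ ⁻¹' R) x y ∂(iidLaw G) = ∫ t, pR t R (φ x) (φ y) ∂(iidLaw G) := by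
  have h := integral_pt_iso (G := G) φ (fun t => pR t (φ ⁻¹' R) x y)
    (measurable_pR _ _ _).aestronglyMeasurable
  simp only [pR_act] at h
  exact h.symm

end Crest.Agent.R151.K
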