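import Mathlib
import Crest.Prelude.Def_PlanarFPP
import Crest.Agent.R151.K1a
import Crest.Agent.R151.K1b

-- ▼ part R151/M51A
section

/-!
# R151, block MOM (helper51): moments for the general law of S0213, part A

`mom G k p = ∫ (min of k independent weights)^p`, tail bound `G (Ioi s) ≤ C s^(-1/2)`, and the
`k` disjoint paths bound under `iidLaw G`.
-/

set_option autoImplicit false

open MeasureTheory ProbabilityTheory
open scoped ENNReal
open Crest.ProbabilityR.FirstPassage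

namespace Crest.Agent.R151.M51

/-- the `p`-th moment of the minimum of `k` independent weights -/
noncomputable def mom (G : Measure ℝ) (k : ℕ) (p : ℝ) : ℝ≥0∞ :=
  ∫⁻ x, (⨅ i, ENNReal.ofReal (x i)) ^ p ∂(Measure.pi fun _ : Fin k => G)

lemma measurable_min (k : ℕ) : Measurable fun x : Fin k → ℝ => ⨅ i, ENNReal.ofReal (x i) :=
  Measurable.iInf fun i => (measurable_pi_apply i).ennreal_ofReal

/-- the moment hypothesis of S0213 in the form `mom G 4 2 < ⊤` -/
theorem mom_four_two {G : Measure ℝ} [IsProbabilityMeasure G] (hG : G (Set.Iio 0) = 0)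
    (hmom : ∫⁻ x, ENNReal.ofReal ((⨅ i, x i) ^ 2) ∂(Measure.pi fun _ : Fin 4 => G) < ⊤) :
    mom G 4 2 < ⊤ := by
  have hae : ∀ᵐ x ∂(Measure.pi fun _ : Fin 4 => G), ∀ i, 0 ≤ x i := by
    rw [ae_all_iff]
    intro i
    have h1 : ∀ᵐ y ∂G, (0:ℝ) ≤ y := by
      rw [ae_iff]
      simp only [not_le]
      exact hG
    exact (Measure.tendsto_eval_ae_ae (μ := fun _ : Fin 4 => G) (i := i)).eventually h1
  have : mom G 4 2 = ∫⁻ x, ENNReal.ofReal ((⨅ i, x i) ^ 2) ∂(Measure.pi fun _ : Fin 4 => G) := by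
    unfold mom
    apply lintegral_congr_ae
    filter_upwards [hae] with x hx
    obtain ⟨j, hj⟩ := exists_eq_ciInf_of_finite (f := x)
    have h2 : (⨅ i, ENNReal.ofReal (x i)) = ENNReal.ofReal (⨅ i, x i) := by
      apply le_antisymm
      · rw [← hj]; exact iInf_le _ j
      · apply le_iInf
        intro i
        apply ENNReal.ofReal_le_ofReal
        exact ciInf_le (Set.finite_range x).bddBelow i
    rw [h2, ENNReal.rpow_two, ENNReal.ofReal_pow]
    rw [← hj]; exact hx j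
  rw [this]; exact hmom

lemma pi_Ioi (G : Measure ℝ) [IsProbabilityMeasure G] (k : ℕ) [NeZero k] {s : ℝ} (hs : 0 ≤ s) :
    (Measure.pi fun _ : Fin k => G) {x | ENNReal.ofReal s < ⨅ i, ENNReal.ofReal (x i)}
      = G (Set.Ioi s) ^ k := by
  have : {x : Fin k → ℝ | ENNReal.ofReal s < ⨅ i, ENNReal.ofReal (x i)}
      = Set.pi Set.univ fun _ => Set.Ioi s := by
    ext x
    simp only [Set.mem_ofPred_eq, Set.mem_pi, Set.mem_univ, true_imp_iff, Set.mem_Ioi]
    constructor
    · intro h i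
      have h1 : ENNReal.ofReal s < ENNReal.ofReal (x i) := lt_of_lt_of_le h (iInf_le _ i)
      exact (ENNReal.ofReal_lt_ofReal_iff_of_nonneg hs).1 h1
    · intro h
      obtain ⟨j, hj⟩ := exists_eq_ciInf_of_finite (f := fun i => ENNReal.ofReal (x i))
      rw [← hj]
      exact (ENNReal.ofReal_lt_ofReal_iff_of_nonneg hs).2 (h j)
  rw [this, Measure.pi_pi]
  simp

/-- Markov: `G(s,∞)^k s^p ≤ mom G k p` -/
theorem tail_mul_le (G : Measure ℝ) [IsProbabilityMeasure G] (k : ℕ) [NeZero k] {p : ℝ}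
    (hp : 0 < p) {s : ℝ} (hs : 0 ≤ s) :
    ENNReal.ofReal (s ^ p) * G (Set.Ioi s) ^ k ≤ mom G k p := by
  rw [← pi_Ioi G k hs]
  have h := mul_meas_ge_le_lintegral₀ (μ := Measure.pi fun _ : Fin k => G)
    (f := fun x => (⨅ i, ENNReal.ofReal (x i)) ^ p)
    (((measurable_min k).pow_const p).aemeasurable) (ENNReal.ofReal (s ^ p))
  refine le_trans (mul_le_mul' le_rfl (measure_mono ?_)) h
  intro x hx
  simp only [Set.mem_ofPred_eq] at hx ⊢
  rw [← ENNReal.ofReal_rpow_of_nonneg hs hp.le]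
  exact ENNReal.rpow_le_rpow hx.le hp.le

/-- the tail bound `G(s,∞) ≤ C s^(-1/2)` under the moment hypothesis of S0213 -/
theorem tail_le {G : Measure ℝ} [IsProbabilityMeasure G] (h : mom G 4 2 < ⊤) :
    ∃ C : ℝ, 0 < C ∧ ∀ s : ℝ, 0 < s → G (Set.Ioi s) ≤ ENNReal.ofReal (C * s ^ (-(1/2) : ℝ)) := by
  refine ⟨((mom G 4 2).toReal + 1) ^ (1/4 : ℝ), by positivity, ?_⟩
  intro s hs
  have h1 := tail_mul_le G 4 (p := 2) (by norm_num) hs.le
  set g : ℝ := (G (Set.Ioi s)).toReal with hg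
  have hgG : G (Set.Ioi s) = ENNReal.ofReal g := (ENNReal.ofReal_toReal (measure_ne_top _ _)).symm
  have hg0 : 0 ≤ g := ENNReal.toReal_nonneg
  have h2 : s ^ (2:ℝ) * g ^ 4 ≤ (mom G 4 2).toReal := by
    have h3 := ENNReal.toReal_mono h.ne h1
    rw [ENNReal.toReal_mul, ENNReal.toReal_ofReal (by positivity), ENNReal.toReal_pow] at h3
    exact h3
  rw [hgG]
  apply ENNReal.ofReal_le_ofReal
  have h4 : (s ^ (1/2 : ℝ) * g) ^ 4 ≤ (mom G 4 2).toReal + 1 := by
    have : (s ^ (1/2 : ℝ) * g) ^ 4 = s ^ (2:ℝ) * g ^ 4 := by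
      rw [mul_pow, ← Real.rpow_natCast (s ^ (1/2:ℝ)) 4, ← Real.rpow_mul hs.le]
      norm_num
    rw [this]; linarith
  have h5 : s ^ (1/2 : ℝ) * g ≤ ((mom G 4 2).toReal + 1) ^ (1/4 : ℝ) := by
    have h6 : ((s ^ (1/2 : ℝ) * g) ^ 4) ^ (1/4 : ℝ) ≤ ((mom G 4 2).toReal + 1) ^ (1/4 : ℝ) :=
      Real.rpow_le_rpow (by positivity) h4 (by norm_num)
    have h7 : ((s ^ (1/2 : ℝ) * g) ^ 4) ^ (1/4 : ℝ) = s ^ (1/2 : ℝ) * g := by
      rw [← Real.rpow_natCast (s ^ (1/2:ℝ) * g) 4, ← Real.rpow_mul (by positivity)]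
      norm_num
    rwa [h7] at h6
  have h8 : s ^ (1/2 : ℝ) * s ^ (-(1/2) : ℝ) = 1 := by
    rw [← Real.rpow_add hs]; norm_num
  calc g = (s ^ (1/2 : ℝ) * g) * s ^ (-(1/2) : ℝ) := by
        rw [mul_right_comm, h8, one_mul]
    _ ≤ _ := by gcongr

lemma dyadic_bound {p : ℝ} (hp : 0 < p) (y : ℝ≥0∞) (hy : y ≠ ⊤) :
    y ^ p ≤ 1 + ∑' n : ℕ, Set.indicator {z : ℝ≥0∞ | ENNReal.ofReal ((2:ℝ) ^ n) < z}
      (fun _ => ENNReal.ofReal (((2:ℝ) ^ (n + 1)) ^ p)) y := by
  by_cases h1 : y ≤ 1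
  · exact le_trans (ENNReal.rpow_le_one h1 hp.le) le_self_add
  · push Not at h1
    set r := y.toReal with hr
    have hyr : y = ENNReal.ofReal r := (ENNReal.ofReal_toReal hy).symm
    have hr1 : 1 < r := by
      rw [hyr] at h1
      rw [← ENNReal.ofReal_one] at h1
      exact (ENNReal.ofReal_lt_ofReal_iff_of_nonneg (by norm_num)).1 h1
    have hex : ∃ n : ℕ, r ≤ (2:ℝ) ^ n := by
      obtain ⟨n, hn⟩ := pow_unbounded_of_one_lt r (by norm_num : (1:ℝ) < 2)
      exact ⟨n, hn.le⟩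
    classical
    set N := Nat.find hex with hN
    have hN1 : r ≤ 2 ^ N := Nat.find_spec hex
    have hN0 : N ≠ 0 := by
      intro h0
      rw [h0, pow_zero] at hN1
      linarith
    obtain ⟨M, hM⟩ := Nat.exists_eq_succ_of_ne_zero hN0
    have hM1 : 2 ^ M < r := by
      have := Nat.find_min hex (show M < Nat.find hex by rw [← hN, hM]; omega)
      push Not at this
      exact this
    calc y ^ p ≤ ENNReal.ofReal (((2:ℝ) ^ (M + 1)) ^ p) := by
          rw [hyr, ENNReal.ofReal_rpow_of_nonneg (by linarith) hp.le]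
          apply ENNReal.ofReal_le_ofReal
          apply Real.rpow_le_rpow (by linarith) _ hp.le
          rw [hM] at hN1; exact hN1
      _ = Set.indicator {z : ℝ≥0∞ | ENNReal.ofReal ((2:ℝ) ^ M) < z}
            (fun _ => ENNReal.ofReal (((2:ℝ) ^ (M + 1)) ^ p)) y := by
          rw [Set.indicator_of_mem]
          simp only [Set.mem_ofPred_eq]
          rw [hyr]
          exact (ENNReal.ofReal_lt_ofReal_iff_of_nonneg (by positivity)).2 hM1
      _ ≤ ∑' n : ℕ, Set.indicator {z : ℝ≥0∞ | ENNReal.ofReal ((2:ℝ) ^ n) < z}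
            (fun _ => ENNReal.ofReal (((2:ℝ) ^ (n + 1)) ^ p)) y :=
          ENNReal.le_tsum M
      _ ≤ _ := le_add_self

/-- moments of the minimum of `k` weights from a power tail -/
theorem mom_lt_top_of_tail {G : Measure ℝ} [IsProbabilityMeasure G] {k : ℕ} [NeZero k]
    {p a C : ℝ} (hp : 0 < p) (hpk : p < a * k) (hC : 0 < C)
    (htail : ∀ s : ℝ, 0 < s → G (Set.Ioi s) ≤ ENNReal.ofReal (C * s ^ (-a))) :
    mom G k p < ⊤ := by
  have hb : mom G k p ≤ 1 + ∑' n : ℕ, ENNReal.ofReal (((2:ℝ) ^ (n + 1)) ^ p) *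
      G (Set.Ioi ((2:ℝ) ^ n)) ^ k := by
    unfold mom
    calc ∫⁻ x, (⨅ i, ENNReal.ofReal (x i)) ^ p ∂(Measure.pi fun _ : Fin k => G)
        ≤ ∫⁻ x, (1 + ∑' n : ℕ, Set.indicator {z : ℝ≥0∞ | ENNReal.ofReal ((2:ℝ) ^ n) < z}
            (fun _ => ENNReal.ofReal (((2:ℝ) ^ (n + 1)) ^ p)) (⨅ i, ENNReal.ofReal (x i)))
            ∂(Measure.pi fun _ : Fin k => G) := by
          apply lintegral_mono
          intro x
          apply dyadic_bound hp
          obtain ⟨j, hj⟩ := exists_eq_ciInf_of_finite (f := fun i => ENNReal.ofReal (x i))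
          rw [← hj]
          exact ENNReal.ofReal_ne_top
      _ = 1 + ∑' n : ℕ, ENNReal.ofReal (((2:ℝ) ^ (n + 1)) ^ p) *
            G (Set.Ioi ((2:ℝ) ^ n)) ^ k := by
          rw [lintegral_add_left measurable_const, lintegral_const, measure_univ, mul_one,
            lintegral_tsum]
          · congr 1
            congr 1
            ext n
            rw [← pi_Ioi G k (by positivity : (0:ℝ) ≤ 2 ^ n), ← lintegral_indicator_const]
            · rfl
            · exact (measurable_min k) measurableSet_Ioi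
          · intro n
            apply Measurable.aemeasurable
            exact (measurable_const.indicator measurableSet_Ioi).comp (measurable_min k)
  refine lt_of_le_of_lt hb ?_
  rw [ENNReal.add_lt_top]
  refine ⟨ENNReal.one_lt_top, ?_⟩
  -- compare with a geometric series
  set q : ℝ := (2:ℝ) ^ (p - a * k) with hq
  have hq0 : 0 < q := by positivity
  have hq1 : q < 1 := Real.rpow_lt_one_of_one_lt_of_neg (by norm_num) (by linarith)
  have hterm : ∀ n : ℕ, ENNReal.ofReal (((2:ℝ) ^ (n + 1)) ^ p) * G (Set.Ioi ((2:ℝ) ^ n)) ^ k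
      ≤ ENNReal.ofReal ((2:ℝ) ^ p * C ^ k * q ^ n) := by
    intro n
    have h1 := htail ((2:ℝ) ^ n) (by positivity)
    have h2 : ENNReal.ofReal (((2:ℝ) ^ (n + 1)) ^ p) * G (Set.Ioi ((2:ℝ) ^ n)) ^ k
        ≤ ENNReal.ofReal (((2:ℝ) ^ (n + 1)) ^ p) *
          ENNReal.ofReal (C * ((2:ℝ) ^ n) ^ (-a)) ^ k := by gcongr
    refine h2.trans (le_of_eq ?_)
    rw [← ENNReal.ofReal_pow (by positivity), ← ENNReal.ofReal_mul (by positivity)]
    congr 1
    have e1 : ((2:ℝ) ^ (n + 1)) ^ p = (2:ℝ) ^ p * (2:ℝ) ^ ((n:ℝ) * p) := by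
      rw [← Real.rpow_natCast, ← Real.rpow_mul (by norm_num), ← Real.rpow_add (by norm_num)]
      congr 1
      push_cast; ring
    have e2 : (((2:ℝ) ^ n) ^ (-a)) ^ k = (2:ℝ) ^ (-(a * k * n)) := by
      rw [← Real.rpow_natCast (2:ℝ) n, ← Real.rpow_mul (by norm_num),
        ← Real.rpow_natCast _ k, ← Real.rpow_mul (by norm_num)]
      congr 1; ring
    have e3 : q ^ n = (2:ℝ) ^ ((n:ℝ) * p) * (2:ℝ) ^ (-(a * k * n)) := by
      rw [hq, ← Real.rpow_natCast, ← Real.rpow_mul (by norm_num), ← Real.rpow_add (by norm_num)]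
      congr 1; ring
    rw [mul_pow, e1, e2, e3]; ring
  calc ∑' n : ℕ, ENNReal.ofReal (((2:ℝ) ^ (n + 1)) ^ p) * G (Set.Ioi ((2:ℝ) ^ n)) ^ k
      ≤ ∑' n : ℕ, ENNReal.ofReal ((2:ℝ) ^ p * C ^ k * q ^ n) := ENNReal.tsum_le_tsum hterm
    _ = ENNReal.ofReal (∑' n : ℕ, (2:ℝ) ^ p * C ^ k * q ^ n) := by
        rw [ENNReal.ofReal_tsum_of_nonneg]
        · intro n; positivity
        · exact (summable_geometric_of_lt_one hq0.le hq1).mul_left _
    _ < ⊤ := ENNReal.ofReal_lt_top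

/-- `E min_k^p < ∞` for `0 < p < k/2` under the moment hypothesis of S0213 -/
theorem mom_lt_top {G : Measure ℝ} [IsProbabilityMeasure G] (h : mom G 4 2 < ⊤) {k : ℕ} [NeZero k]
    {p : ℝ} (hp : 0 < p) (hpk : p < k / 2) : mom G k p < ⊤ := by
  obtain ⟨C, hC, ht⟩ := tail_le h
  refine mom_lt_top_of_tail (a := 1/2) hp (by linarith) hC ?_
  intro s hs
  simpa using ht s hs

/-- `k` distinct coordinates of an environment of law `iidLaw G` are i.i.d. -/
theorem map_coords (G : Measure ℝ) [IsProbabilityMeasure G] {k : ℕ}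
    {e : Fin k → Sym2 (ℤ × ℤ)} (he : Function.Injective e) :
    (iidLaw G).map (fun t j => t (e j)) = Measure.pi fun _ : Fin k => G := by
  have h0 : iIndepFun (fun (i : Sym2 (ℤ × ℤ)) (t : Environment) => t i) (iidLaw G) :=
    iIndepFun_infinitePi (P := fun _ : Sym2 (ℤ × ℤ) => G) (X := fun _ x => x)
      (fun _ => measurable_id)
  have h1 : iIndepFun (fun (j : Fin k) (t : Environment) => t (e j)) (iidLaw G) :=
    h0.precomp he
  have : IsProbabilityMeasure (iidLaw G) := by unfold iidLaw; infer_instance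
  rw [iIndepFun_iff_map_fun_eq_pi_map (fun j => (measurable_pi_apply (e j)).aemeasurable)] at h1
  rw [h1]
  congr 1
  ext1 j
  exact (measurePreserving_eval_infinitePi (fun _ : Sym2 (ℤ × ℤ) => G) (e j)).map_eq

lemma lintegral_min_coords (G : Measure ℝ) [IsProbabilityMeasure G] {k : ℕ} (p : ℝ)
    {e : Fin k → Sym2 (ℤ × ℤ)} (he : Function.Injective e) :
    ∫⁻ t, (⨅ j, ENNReal.ofReal (t (e j))) ^ p ∂(iidLaw G) = mom G k p := by
  unfold mom
  rw [← map_coords G he, lintegral_map]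
  · exact (measurable_min k).pow_const p
  · exact measurable_pi_iff.2 fun j => measurable_pi_apply (e j)

lemma ofReal_sum_list_le (t : Sym2 (ℤ × ℤ) → ℝ) (l : List (Sym2 (ℤ × ℤ))) (B : ℝ≥0∞)
    (hB : ∀ e ∈ l, ENNReal.ofReal (t e) ≤ B) :
    ENNReal.ofReal ((l.map t).sum) ≤ l.length * B := by
  induction l with
  | nil => simp
  | cons a l ih =>
    simp only [List.map_cons, List.sum_cons, List.length_cons, Nat.cast_add, Nat.cast_one]
    refine (ENNReal.ofReal_add_le).trans ?_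
    rw [add_mul, one_mul, add_comm]
    exact add_le_add (ih fun e he => hB e (List.mem_cons_of_mem _ he))
      (hB a List.mem_cons_self)

/-- **k disjoint paths**: the minimum of the costs of `k` pairwise disjoint lists of at most `m`
edges has a finite `p`-th moment as soon as `mom G k p < ⊤`. -/
theorem lintegral_min_lists_le (G : Measure ℝ) [IsProbabilityMeasure G] {k : ℕ} [NeZero k]
    {p : ℝ} (hp : 0 < p) (m : ℕ) (S : Fin k → List (Sym2 (ℤ × ℤ)))
    (hS : ∀ i j, i ≠ j → (S i).Disjoint (S j)) (hm : ∀ j, (S j).length ≤ m) :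
    ∫⁻ t, (⨅ j, ENNReal.ofReal (((S j).map t).sum)) ^ p ∂(iidLaw G)
      ≤ (m:ℝ≥0∞) ^ p * (m:ℝ≥0∞) ^ k * mom G k p := by
  classical
  by_cases hne : ∃ j, S j = []
  · obtain ⟨j, hj⟩ := hne
    have : ∀ t : Environment, (⨅ j, ENNReal.ofReal (((S j).map t).sum)) ^ p = 0 := by
      intro t
      have h0 : (⨅ j, ENNReal.ofReal (((S j).map t).sum)) = 0 := by
        apply le_antisymm _ (zero_le)
        refine (iInf_le _ j).trans ?_
        simp [hj]
      rw [h0, ENNReal.zero_rpow_of_pos hp]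
    simp only [this, lintegral_zero, zero_le]
  · push Not at hne
    have key : ∀ t : Environment, (⨅ j, ENNReal.ofReal (((S j).map t).sum)) ^ p ≤
        ∑ φ : (j : Fin k) → Fin (S j).length,
          (m:ℝ≥0∞) ^ p * (⨅ j, ENNReal.ofReal (t ((S j).get (φ j)))) ^ p := by
      intro t
      have hmax : ∀ j, ∃ a : Fin (S j).length,
          ∀ b, ENNReal.ofReal (t ((S j).get b)) ≤ ENNReal.ofReal (t ((S j).get a)) := by
        intro j
        have : Nonempty (Fin (S j).length) := by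
          rw [← Fin.pos_iff_nonempty]
          exact List.length_pos_iff.2 (hne j)
        exact Finite.exists_max (fun a => ENNReal.ofReal (t ((S j).get a)))
      choose φ hφ using hmax
      have h1 : ∀ j, ENNReal.ofReal (((S j).map t).sum) ≤
          (m:ℝ≥0∞) * ENNReal.ofReal (t ((S j).get (φ j))) := by
        intro j
        refine (ofReal_sum_list_le t (S j) (ENNReal.ofReal (t ((S j).get (φ j)))) ?_).trans ?_
        · intro e he
          obtain ⟨b, hb⟩ := List.get_of_mem he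
          rw [← hb]; exact hφ j b
        · gcongr; exact hm j
      have h2 : (⨅ j, ENNReal.ofReal (((S j).map t).sum)) ≤
          (m:ℝ≥0∞) * ⨅ j, ENNReal.ofReal (t ((S j).get (φ j))) := by
        obtain ⟨j, hj⟩ := exists_eq_ciInf_of_finite
          (f := fun j => ENNReal.ofReal (t ((S j).get (φ j))))
        rw [← hj]
        exact (iInf_le _ j).trans (h1 j)
      calc (⨅ j, ENNReal.ofReal (((S j).map t).sum)) ^ p
          ≤ ((m:ℝ≥0∞) * ⨅ j, ENNReal.ofReal (t ((S j).get (φ j)))) ^ p :=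
            ENNReal.rpow_le_rpow h2 hp.le
        _ = (m:ℝ≥0∞) ^ p * (⨅ j, ENNReal.ofReal (t ((S j).get (φ j)))) ^ p :=
            ENNReal.mul_rpow_of_nonneg _ _ hp.le
        _ ≤ _ := Finset.single_le_sum
            (f := fun φ : (j : Fin k) → Fin (S j).length =>
              (m:ℝ≥0∞) ^ p * (⨅ j, ENNReal.ofReal (t ((S j).get (φ j)))) ^ p)
            (fun _ _ => zero_le) (Finset.mem_univ φ)
    calc ∫⁻ t, (⨅ j, ENNReal.ofReal (((S j).map t).sum)) ^ p ∂(iidLaw G)
        ≤ ∫⁻ t, ∑ φ : (j : Fin k) → Fin (S j).length,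
          (m:ℝ≥0∞) ^ p * (⨅ j, ENNReal.ofReal (t ((S j).get (φ j)))) ^ p ∂(iidLaw G) :=
          lintegral_mono key
      _ = ∑ φ : (j : Fin k) → Fin (S j).length, (m:ℝ≥0∞) ^ p * mom G k p := by
          rw [lintegral_finsetSum]
          · apply Finset.sum_congr rfl
            intro φ _
            rw [lintegral_const_mul]
            · rw [lintegral_min_coords G p]
              intro i j hij
              by_contra hne'
              exact hS i j hne' (List.get_mem _ _) (by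
                have : (S i).get (φ i) = (S j).get (φ j) := hij
                rw [this]; exact List.get_mem _ _)
            · apply Measurable.pow_const
              exact Measurable.iInf fun j => (measurable_pi_apply _).ennreal_ofReal
          · intro φ _
            apply Measurable.const_mul
            apply Measurable.pow_const
            exact Measurable.iInf fun j => (measurable_pi_apply _).ennreal_ofReal
      _ = (Fintype.card ((j : Fin k) → Fin (S j).length) : ℝ≥0∞) * ((m:ℝ≥0∞) ^ p * mom G k p) := by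
          rw [Finset.sum_const, Finset.card_univ, nsmul_eq_mul]
      _ ≤ ((m:ℝ≥0∞) ^ k) * ((m:ℝ≥0∞) ^ p * mom G k p) := by
          gcongr
          rw [Fintype.card_pi]
          simp only [Fintype.card_fin]
          have : ∏ j : Fin k, (S j).length ≤ m ^ k := by
            calc ∏ j : Fin k, (S j).length ≤ ∏ _j : Fin k, m :=
                  Finset.prod_le_prod' fun j _ => hm j
              _ = m ^ k := by simp
          exact_mod_cast this
      _ = _ := by ring

end Crest.Agent.R151.M51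
end

-- ▼ part R151/M51B
section

/-!
# R151, block MOM (helper51), part B: explicit edge-disjoint walks between neighbours
-/

set_option autoImplicit false

open MeasureTheory ProbabilityTheory
open scoped ENNReal
open Crest.ProbabilityR.FirstPassage
open Crest.Agent.R151.K

namespace Crest.Agent.R151.M51

lemma adj_iff {a b c d : ℤ} : squareLattice.Adj (a, b) (c, d) ↔
    (a = c ∧ (d = b + 1 ∨ b = d + 1)) ∨ (b = d ∧ (c = a + 1 ∨ a = c + 1)) := by
  rw [squareLattice, SimpleGraph.fromRel_adj]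
  constructor
  · rintro ⟨-, h⟩
    rcases h with (h | h) | (h | h) <;> simp only at h <;> omega
  · intro h
    refine ⟨?_, ?_⟩
    · intro h'
      rw [Prod.mk.injEq] at h'
      omega
    · simp only
      omega

/-- direct walk -/
def wH0 (a b : ℤ) : squareLattice.Walk (a, b) (a + 1, b) :=
  .cons (adj_right a b) .nil

/-- above -/
def wHU (a b : ℤ) : squareLattice.Walk (a, b) (a + 1, b) :=
  .cons (v := (a, b + 1)) (adj_iff.2 (by omega)) <|
  .cons (v := (a + 1, b + 1)) (adj_iff.2 (by omega)) <|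
  .cons (adj_iff.2 (by omega)) .nil

/-- below -/
def wHD (a b : ℤ) : squareLattice.Walk (a, b) (a + 1, b) :=
  .cons (v := (a, b - 1)) (adj_iff.2 (by omega)) <|
  .cons (v := (a + 1, b - 1)) (adj_iff.2 (by omega)) <|
  .cons (adj_iff.2 (by omega)) .nil

/-- far above -/
def wHU2 (a b : ℤ) : squareLattice.Walk (a, b) (a + 1, b) :=
  .cons (v := (a - 1, b)) (adj_iff.2 (by omega)) <|
  .cons (v := (a - 1, b + 1)) (adj_iff.2 (by omega)) <|
  .cons (v := (a - 1, b + 2)) (adj_iff.2 (by omega)) <|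
  .cons (v := (a, b + 2)) (adj_iff.2 (by omega)) <|
  .cons (v := (a + 1, b + 2)) (adj_iff.2 (by omega)) <|
  .cons (v := (a + 2, b + 2)) (adj_iff.2 (by omega)) <|
  .cons (v := (a + 2, b + 1)) (adj_iff.2 (by omega)) <|
  .cons (v := (a + 2, b)) (adj_iff.2 (by omega)) <|
  .cons (adj_iff.2 (by omega)) .nil

/-- far below -/
def wHD2 (a b : ℤ) : squareLattice.Walk (a, b) (a + 1, b) :=
  .cons (v := (a - 1, b)) (adj_iff.2 (by omega)) <|
  .cons (v := (a - 1, b - 1)) (adj_iff.2 (by omega)) <|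
  .cons (v := (a - 1, b - 2)) (adj_iff.2 (by omega)) <|
  .cons (v := (a, b - 2)) (adj_iff.2 (by omega)) <|
  .cons (v := (a + 1, b - 2)) (adj_iff.2 (by omega)) <|
  .cons (v := (a + 2, b - 2)) (adj_iff.2 (by omega)) <|
  .cons (v := (a + 2, b - 1)) (adj_iff.2 (by omega)) <|
  .cons (v := (a + 2, b)) (adj_iff.2 (by omega)) <|
  .cons (adj_iff.2 (by omega)) .nil

/-- the mirror image (swap of the coordinates) of a walk -/
def wsw {x y : ℤ × ℤ} (w : squareLattice.Walk x y) :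
    squareLattice.Walk (x.2, x.1) (y.2, y.1) :=
  w.map sw.toHom

/-- four edge-disjoint walks from `(a,b)` to `(a+1,b)` -/
def w4 (a b : ℤ) : Fin 4 → squareLattice.Walk (a, b) (a + 1, b) :=
  ![wH0 a b, wHU a b, wHD a b, wHU2 a b]

/-- three edge-disjoint walks in the strip `b ≤ y ≤ b + 2` -/
def w3U (a b : ℤ) : Fin 3 → squareLattice.Walk (a, b) (a + 1, b) :=
  ![wH0 a b, wHU a b, wHU2 a b]

/-- three edge-disjoint walks in the strip `b - 2 ≤ y ≤ b` -/
def w3D (a b : ℤ) : Fin 3 → squareLattice.Walk (a, b) (a + 1, b) :=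
  ![wH0 a b, wHD a b, wHD2 a b]

/-- three edge-disjoint walks in the box `a ≤ x ≤ a + 1`, `b - 1 ≤ y ≤ b + 1` -/
def w3M (a b : ℤ) : Fin 3 → squareLattice.Walk (a, b) (a + 1, b) :=
  ![wH0 a b, wHU a b, wHD a b]

lemma w4_disj (a b : ℤ) : ∀ i j, i ≠ j → (w4 a b i).edges.Disjoint (w4 a b j).edges := by
  intro i j hij
  fin_cases i <;> fin_cases j <;>
    first
      | exact absurd rfl hij
      | (simp [w4, wH0, wHU, wHD, wHU2, List.Disjoint]
         try omega)

lemma w3U_disj (a b : ℤ) : ∀ i j, i ≠ j → (w3U a b i).edges.Disjoint (w3U a b j).edges := by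
  intro i j hij
  fin_cases i <;> fin_cases j <;>
    first
      | exact absurd rfl hij
      | (simp [w3U, wH0, wHU, wHU2, List.Disjoint]
         try omega)

lemma w3D_disj (a b : ℤ) : ∀ i j, i ≠ j → (w3D a b i).edges.Disjoint (w3D a b j).edges := by
  intro i j hij
  fin_cases i <;> fin_cases j <;>
    first
      | exact absurd rfl hij
      | (simp [w3D, wH0, wHD, wHD2, List.Disjoint]
         try omega)

lemma w3M_disj (a b : ℤ) : ∀ i j, i ≠ j → (w3M a b i).edges.Disjoint (w3M a b j).edges := by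
  intro i j hij
  fin_cases i <;> fin_cases j <;>
    first
      | exact absurd rfl hij
      | (simp [w3M, wH0, wHU, wHD, List.Disjoint]
         try omega)

lemma w4_supp (a b : ℤ) (i : Fin 4) : ∀ z ∈ (w4 a b i).support,
    (a - 1 ≤ z.1 ∧ z.1 ≤ a + 2) ∧ (b - 1 ≤ z.2 ∧ z.2 ≤ b + 2) := by
  rintro ⟨z1, z2⟩ hz
  fin_cases i <;> simp [w4, wH0, wHU, wHD, wHU2] at hz ⊢ <;> omega

lemma w3U_supp (a b : ℤ) (i : Fin 3) : ∀ z ∈ (w3U a b i).support,
    (a - 1 ≤ z.1 ∧ z.1 ≤ a + 2) ∧ (b ≤ z.2 ∧ z.2 ≤ b + 2) := by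
  rintro ⟨z1, z2⟩ hz
  fin_cases i <;> simp [w3U, wH0, wHU, wHU2] at hz ⊢ <;> omega

lemma w3D_supp (a b : ℤ) (i : Fin 3) : ∀ z ∈ (w3D a b i).support,
    (a - 1 ≤ z.1 ∧ z.1 ≤ a + 2) ∧ (b - 2 ≤ z.2 ∧ z.2 ≤ b) := by
  rintro ⟨z1, z2⟩ hz
  fin_cases i <;> simp [w3D, wH0, wHD, wHD2] at hz ⊢ <;> omega

lemma w3M_supp (a b : ℤ) (i : Fin 3) : ∀ z ∈ (w3M a b i).support,
    (a ≤ z.1 ∧ z.1 ≤ a + 1) ∧ (b - 1 ≤ z.2 ∧ z.2 ≤ b + 1) := by
  rintro ⟨z1, z2⟩ hz
  fin_cases i <;> simp [w3M, wH0, wHU, wHD] at hz ⊢ <;> omega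

lemma w4_len (a b : ℤ) (i : Fin 4) : (w4 a b i).length ≤ 9 := by
  fin_cases i <;> simp [w4, wH0, wHU, wHD, wHU2]

lemma w3U_len (a b : ℤ) (i : Fin 3) : (w3U a b i).length ≤ 9 := by
  fin_cases i <;> simp [w3U, wH0, wHU, wHU2]

lemma w3D_len (a b : ℤ) (i : Fin 3) : (w3D a b i).length ≤ 9 := by
  fin_cases i <;> simp [w3D, wH0, wHD, wHD2]

lemma w3M_len (a b : ℤ) (i : Fin 3) : (w3M a b i).length ≤ 9 := by
  fin_cases i <;> simp [w3M, wH0, wHU, wHD]

/-- `k` edge-disjoint walks of length at most `9` from `x` to `y` inside the region `R` -/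
def HasDetours (k : ℕ) (x y : ℤ × ℤ) (R : Set (ℤ × ℤ)) : Prop :=
  ∃ W : Fin k → squareLattice.Walk x y,
    (∀ i j, i ≠ j → (W i).edges.Disjoint (W j).edges) ∧ (∀ i, (W i).length ≤ 9) ∧
      ∀ i, ∀ z ∈ (W i).support, z ∈ R

lemma HasDetours.mono {k : ℕ} {x y : ℤ × ℤ} {R R' : Set (ℤ × ℤ)} (h : HasDetours k x y R)
    (hR : R ⊆ R') : HasDetours k x y R' := by
  obtain ⟨W, h1, h2, h3⟩ := h
  exact ⟨W, h1, h2, fun i z hz => hR (h3 i z hz)⟩

lemma HasDetours.symm {k : ℕ} {x y : ℤ × ℤ} {R : Set (ℤ × ℤ)} (h : HasDetours k x y R) :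
    HasDetours k y x R := by
  obtain ⟨W, h1, h2, h3⟩ := h
  refine ⟨fun i => (W i).reverse, ?_, ?_, ?_⟩
  · intro i j hij e he he'
    rw [SimpleGraph.Walk.edges_reverse, List.mem_reverse] at he he'
    exact h1 i j hij he he'
  · intro i; rw [SimpleGraph.Walk.length_reverse]; exact h2 i
  · intro i z hz
    rw [SimpleGraph.Walk.support_reverse, List.mem_reverse] at hz
    exact h3 i z hz

lemma HasDetours.map {k : ℕ} {x y : ℤ × ℤ} {R : Set (ℤ × ℤ)} (h : HasDetours k x y R)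
    (φ : squareLattice ≃g squareLattice) : HasDetours k (φ x) (φ y) (φ '' R) := by
  obtain ⟨W, h1, h2, h3⟩ := h
  refine ⟨fun i => (W i).map φ.toHom, ?_, ?_, ?_⟩
  · intro i j hij e he he'
    simp only [SimpleGraph.Walk.edges_map, List.mem_map] at he he'
    obtain ⟨f, hf, hfe⟩ := he
    obtain ⟨g, hg, hge⟩ := he'
    have : f = g := by
      apply Sym2.map.injective (f := φ.toHom) φ.injective
      rw [hfe]; exact hge.symm
    exact h1 i j hij hf (this ▸ hg)
  · intro i; rw [SimpleGraph.Walk.length_map]; exact h2 i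
  · intro i z hz
    rw [SimpleGraph.Walk.support_map, List.mem_map] at hz
    obtain ⟨z', hz', rfl⟩ := hz
    exact ⟨z', h3 i z' hz', rfl⟩

/-- the neighbours of a lattice point -/
lemma adj_cases {x y : ℤ × ℤ} (h : squareLattice.Adj x y) :
    y = (x.1 + 1, x.2) ∨ x = (y.1 + 1, y.2) ∨ y = (x.1, x.2 + 1) ∨ x = (y.1, y.2 + 1) := by
  obtain ⟨a, b⟩ := x
  obtain ⟨c, d⟩ := y
  rw [adj_iff] at h
  simp only [Prod.mk.injEq]
  omega

/-- sup-norm box of radius `r` around `x` -/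
def sbox (x : ℤ × ℤ) (r : ℤ) : Set (ℤ × ℤ) :=
  {z | |z.1 - x.1| ≤ r ∧ |z.2 - x.2| ≤ r}

/-- full plane: `4` detours -/
theorem detours_full {x y : ℤ × ℤ} (h : squareLattice.Adj x y) : HasDetours 4 x y (sbox x 3) := by
  have key : ∀ a b : ℤ, HasDetours 4 (a, b) (a + 1, b)
      {z | (a - 1 ≤ z.1 ∧ z.1 ≤ a + 2) ∧ (b - 1 ≤ z.2 ∧ z.2 ≤ b + 2)} :=
    fun a b => ⟨w4 a b, w4_disj a b, w4_len a b, w4_supp a b⟩
  rcases adj_cases h with h | h | h | h
  · rw [h]
    refine (key x.1 x.2).mono ?_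
    rintro ⟨z1, z2⟩ hz
    simp only [Set.mem_ofPred_eq, sbox, abs_le] at hz ⊢
    omega
  · rw [h]
    refine (key y.1 y.2).symm.mono ?_
    rintro ⟨z1, z2⟩ hz
    simp only [Set.mem_ofPred_eq, sbox, abs_le] at hz ⊢
    omega
  · rw [h]
    refine ((key x.2 x.1).map sw).mono ?_
    rintro _ ⟨⟨z1, z2⟩, hz, rfl⟩
    simp only [Set.mem_ofPred_eq, sbox, abs_le, sw_apply] at hz ⊢
    omega
  · rw [h]
    refine ((key y.2 y.1).map sw).symm.mono ?_
    rintro _ ⟨⟨z1, z2⟩, hz, rfl⟩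
    simp only [Set.mem_ofPred_eq, sbox, abs_le, sw_apply] at hz ⊢
    omega

/-- horizontal strips / half-planes `{z | z.2 ∈ B}`, `B` order connected with three
consecutive elements around each of its points: `3` detours -/
theorem detours_row {B : Set ℤ}
    (hB : ∀ b ∈ B, (b - 1 ∈ B ∧ b + 1 ∈ B) ∨ (b + 1 ∈ B ∧ b + 2 ∈ B) ∨ (b - 1 ∈ B ∧ b - 2 ∈ B))
    {x y : ℤ × ℤ} (h : squareLattice.Adj x y) (hx : x.2 ∈ B) (hy : y.2 ∈ B) :
    HasDetours 3 x y (sbox x 3 ∩ {z | z.2 ∈ B}) := by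
  have keyH : ∀ a b : ℤ, b ∈ B → HasDetours 3 (a, b) (a + 1, b)
      {z | ((a - 1 ≤ z.1 ∧ z.1 ≤ a + 2) ∧ (b - 2 ≤ z.2 ∧ z.2 ≤ b + 2)) ∧ z.2 ∈ B} := by
    intro a b hb
    rcases hB b hb with h | h | h
    · refine HasDetours.mono ⟨w3M a b, w3M_disj a b, w3M_len a b, w3M_supp a b⟩ ?_
      rintro ⟨z1, z2⟩ hz
      change (a ≤ z1 ∧ z1 ≤ a + 1) ∧ (b - 1 ≤ z2 ∧ z2 ≤ b + 1) at hz
      refine ⟨by simp only; omega, ?_⟩
      have : z2 = b - 1 ∨ z2 = b ∨ z2 = b + 1 := by omega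
      rcases this with h' | h' | h' <;> simp only [h'] <;> tauto
    · refine HasDetours.mono ⟨w3U a b, w3U_disj a b, w3U_len a b, w3U_supp a b⟩ ?_
      rintro ⟨z1, z2⟩ hz
      change (a - 1 ≤ z1 ∧ z1 ≤ a + 2) ∧ (b ≤ z2 ∧ z2 ≤ b + 2) at hz
      refine ⟨by simp only; omega, ?_⟩
      have : z2 = b ∨ z2 = b + 1 ∨ z2 = b + 2 := by omega
      rcases this with h' | h' | h' <;> simp only [h'] <;> tauto
    · refine HasDetours.mono ⟨w3D a b, w3D_disj a b, w3D_len a b, w3D_supp a b⟩ ?_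
      rintro ⟨z1, z2⟩ hz
      change (a - 1 ≤ z1 ∧ z1 ≤ a + 2) ∧ (b - 2 ≤ z2 ∧ z2 ≤ b) at hz
      refine ⟨by simp only; omega, ?_⟩
      have : z2 = b ∨ z2 = b - 1 ∨ z2 = b - 2 := by omega
      rcases this with h' | h' | h' <;> simp only [h'] <;> tauto
  have keyV : ∀ a b : ℤ, b ∈ B → b + 1 ∈ B → HasDetours 3 (a, b) (a, b + 1)
      {z | ((a - 1 ≤ z.1 ∧ z.1 ≤ a + 1) ∧ (b ≤ z.2 ∧ z.2 ≤ b + 1)) ∧ z.2 ∈ B} := by
    intro a b hb hb'
    have h0 : HasDetours 3 (b, a) (b + 1, a)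
      {z | (b ≤ z.1 ∧ z.1 ≤ b + 1) ∧ (a - 1 ≤ z.2 ∧ z.2 ≤ a + 1)} :=
      ⟨w3M b a, w3M_disj b a, w3M_len b a, w3M_supp b a⟩
    refine (h0.map sw).mono ?_
    rintro _ ⟨⟨z1, z2⟩, hz, rfl⟩
    change (b ≤ z1 ∧ z1 ≤ b + 1) ∧ (a - 1 ≤ z2 ∧ z2 ≤ a + 1) at hz
    simp only [sw_apply]
    refine ⟨by simp only; omega, ?_⟩
    have : z1 = b ∨ z1 = b + 1 := by omega
    rcases this with h' | h' <;> simp only [h'] <;> assumption
  rcases adj_cases h with h | h | h | h
  · rw [h]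
    refine (keyH x.1 x.2 hx).mono ?_
    rintro ⟨z1, z2⟩ ⟨hz, hz'⟩
    refine ⟨?_, hz'⟩
    simp only [sbox, Set.mem_ofPred_eq, abs_le] at hz ⊢
    omega
  · rw [h]
    refine (keyH y.1 y.2 hy).symm.mono ?_
    rintro ⟨z1, z2⟩ ⟨hz, hz'⟩
    refine ⟨?_, hz'⟩
    simp only [sbox, Set.mem_ofPred_eq, abs_le] at hz ⊢
    omega
  · rw [h]
    refine (keyV x.1 x.2 hx (by rw [h] at hy; exact hy)).mono ?_
    rintro ⟨z1, z2⟩ ⟨hz, hz'⟩
    refine ⟨?_, hz'⟩
    simp only [sbox, Set.mem_ofPred_eq, abs_le] at hz ⊢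
    omega
  · rw [h]
    refine (keyV y.1 y.2 hy (by rw [h] at hx; exact hx)).symm.mono ?_
    rintro ⟨z1, z2⟩ ⟨hz, hz'⟩
    refine ⟨?_, hz'⟩
    simp only [sbox, Set.mem_ofPred_eq, abs_le] at hz ⊢
    omega

/-- vertical strips / half-planes `{z | z.1 ∈ A}`: `3` detours -/
theorem detours_col {A : Set ℤ}
    (hA : ∀ b ∈ A, (b - 1 ∈ A ∧ b + 1 ∈ A) ∨ (b + 1 ∈ A ∧ b + 2 ∈ A) ∨ (b - 1 ∈ A ∧ b - 2 ∈ A))
    {x y : ℤ × ℤ} (h : squareLattice.Adj x y) (hx : x.1 ∈ A) (hy : y.1 ∈ A) :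
    HasDetours 3 x y (sbox x 3 ∩ {z | z.1 ∈ A}) := by
  have h1 : squareLattice.Adj (sw x) (sw y) := sw.map_adj_iff.2 h
  have h2 := (detours_row hA h1 hx hy).map sw
  have e1 : sw (sw x) = x := rfl
  have e2 : sw (sw y) = y := rfl
  rw [e1, e2] at h2
  refine h2.mono ?_
  rintro _ ⟨⟨z1, z2⟩, ⟨hz, hz'⟩, rfl⟩
  refine ⟨?_, hz'⟩
  simp only [sbox, Set.mem_ofPred_eq, sw_apply] at hz ⊢
  exact ⟨hz.2, hz.1⟩

/-- moment bound from detours: `f` is dominated by the cost of every walk inside `R` -/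
theorem lintegral_le_of_detours (G : Measure ℝ) [IsProbabilityMeasure G] {k : ℕ} [NeZero k]
    {p : ℝ} (hp : 0 < p) {x y : ℤ × ℤ} {R : Set (ℤ × ℤ)} (h : HasDetours k x y R)
    {f : Environment → ℝ}
    (hf : ∀ᵐ t ∂(iidLaw G), ∀ w : squareLattice.Walk x y, (∀ z ∈ w.support, z ∈ R) →
      f t ≤ walkCost t w) :
    ∫⁻ t, ENNReal.ofReal (f t) ^ p ∂(iidLaw G)
      ≤ (9:ℝ≥0∞) ^ p * (9:ℝ≥0∞) ^ k * mom G k p := by
  obtain ⟨W, h1, h2, h3⟩ := h
  have h4 := lintegral_min_lists_le G hp 9 (fun i => (W i).edges) h1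
    (fun i => by rw [SimpleGraph.Walk.length_edges]; exact h2 i)
  refine le_trans ?_ h4
  apply lintegral_mono_ae
  filter_upwards [hf] with t ht
  apply ENNReal.rpow_le_rpow _ hp.le
  apply le_iInf
  intro i
  apply ENNReal.ofReal_le_ofReal
  exact ht (W i) (h3 i)

end Crest.Agent.R151.M51
end

-- ▼ part R151/M51C

/-!
# R151, block MOM (helper51), part C: `L^p` bounds for (restricted) passage times, general law
-/

set_option autoImplicit false

open MeasureTheory ProbabilityTheory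
open scoped ENNReal
open Crest.ProbabilityR.FirstPassage
open Crest.Agent.R151.K

namespace Crest.Agent.R151.M51

/-- a random distance-like function on the region `R`, dominated by the cost of the walks
inside `R`: satisfied by `passageTime` (`R = univ`) and by all restricted passage times. -/
structure IsDist (G : Measure ℝ) (R : Set (ℤ × ℤ)) (D : Environment → ℤ × ℤ → ℤ × ℤ → ℝ) :
    Prop where
  meas : ∀ x y, AEStronglyMeasurable (fun t => D t x y) (iidLaw G)
  nonneg : ∀ᵐ t ∂(iidLaw G), ∀ x ∈ R, ∀ y ∈ R, 0 ≤ D t x y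
  tri : ∀ᵐ t ∂(iidLaw G), ∀ x ∈ R, ∀ y ∈ R, ∀ z ∈ R, D t x z ≤ D t x y + D t y z
  dom : ∀ᵐ t ∂(iidLaw G), ∀ x y, ∀ w : squareLattice.Walk x y, (∀ z ∈ w.support, z ∈ R) →
    D t x y ≤ walkCost t w

lemma isDist_pt {G : Measure ℝ} [IsProbabilityMeasure G] (h0 : G (Set.Iio 0) = 0) :
    IsDist G Set.univ passageTime where
  meas x y := (measurable_pt x y).aestronglyMeasurable
  nonneg := by
    filter_upwards [ae_Nn h0] with t ht x _ y _
    exact pt_nonneg ht x y
  tri := by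
    filter_upwards [ae_Nn h0] with t ht x _ y _ z _
    exact pt_triangle ht x y z
  dom := by
    filter_upwards [ae_Nn h0] with t ht x y w _
    exact pt_le ht w

/-- every pair of neighbours in `R` has `k` detours of length `≤ 9` inside `R` -/
def GoodRegion (k : ℕ) (R : Set (ℤ × ℤ)) : Prop :=
  ∀ x ∈ R, ∀ y ∈ R, squareLattice.Adj x y → HasDetours k x y R

lemma goodRegion_univ : GoodRegion 4 Set.univ :=
  fun _ _ _ _ h => (detours_full h).mono (Set.subset_univ _)

/-- three consecutive elements around every point -/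
def Thick (B : Set ℤ) : Prop :=
  ∀ b ∈ B, (b - 1 ∈ B ∧ b + 1 ∈ B) ∨ (b + 1 ∈ B ∧ b + 2 ∈ B) ∨ (b - 1 ∈ B ∧ b - 2 ∈ B)

lemma goodRegion_row {B : Set ℤ} (hB : Thick B) : GoodRegion 3 {z : ℤ × ℤ | z.2 ∈ B} :=
  fun _ hx _ hy h => (detours_row hB h hx hy).mono Set.inter_subset_right

lemma goodRegion_col {A : Set ℤ} (hA : Thick A) : GoodRegion 3 {z : ℤ × ℤ | z.1 ∈ A} :=
  fun _ hx _ hy h => (detours_col hA h hx hy).mono Set.inter_subset_right


lemma thick_Ici (a : ℤ) : Thick (Set.Ici a) := by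
  intro b hb
  refine Or.inr (Or.inl ⟨?_, ?_⟩) <;> simp only [Set.mem_Ici] at hb ⊢ <;> omega

lemma thick_Iic (a : ℤ) : Thick (Set.Iic a) := by
  intro b hb
  refine Or.inr (Or.inr ⟨?_, ?_⟩) <;> simp only [Set.mem_Iic] at hb ⊢ <;> omega

lemma thick_Icc {a c : ℤ} (h : a + 2 ≤ c) : Thick (Set.Icc a c) := by
  intro b hb
  simp only [Set.mem_Icc] at hb ⊢
  omega

/-- the constant of the bounds below -/
noncomputable def mC (G : Measure ℝ) (k : ℕ) (p : ℝ) : ℝ≥0∞ :=
  ((9:ℝ≥0∞) ^ p * (9:ℝ≥0∞) ^ k * mom G k p) ^ (1 / p)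

lemma mC_lt_top {G : Measure ℝ} {k : ℕ} {p : ℝ} (hp : 0 < p) (h : mom G k p < ⊤) :
    mC G k p < ⊤ := by
  unfold mC
  apply ENNReal.rpow_lt_top_of_nonneg (by positivity)
  apply ne_of_lt
  refine ENNReal.mul_lt_top (ENNReal.mul_lt_top ?_ ?_) h
  · exact ENNReal.rpow_lt_top_of_nonneg hp.le (by norm_num)
  · exact ENNReal.pow_lt_top (by norm_num)

variable {G : Measure ℝ} [IsProbabilityMeasure G] {k : ℕ} [NeZero k] {p : ℝ}
  {R : Set (ℤ × ℤ)} {D : Environment → ℤ × ℤ → ℤ × ℤ → ℝ}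

lemma eLpNorm_adj (hp : 0 < p) (hD : IsDist G R D) (hR : GoodRegion k R) {x y : ℤ × ℤ}
    (hx : x ∈ R) (hy : y ∈ R) (h : squareLattice.Adj x y) :
    eLpNorm (fun t => D t x y) (ENNReal.ofReal p) (iidLaw G) ≤ mC G k p := by
  have h1 := lintegral_le_of_detours G hp (hR x hx y hy h) (f := fun t => D t x y) (by
    filter_upwards [hD.dom] with t ht w hw
    exact ht x y w hw)
  rw [eLpNorm_eq_lintegral_rpow_enorm_toReal (by simpa using hp) ENNReal.ofReal_ne_top,
    ENNReal.toReal_ofReal hp.le]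
  unfold mC
  apply ENNReal.rpow_le_rpow _ (by positivity)
  refine le_trans (le_of_eq ?_) h1
  apply lintegral_congr_ae
  filter_upwards [hD.nonneg] with t ht
  rw [Real.enorm_eq_ofReal (ht x hx y hy)]

/-- `‖D x y‖_p ≤ C (length of a walk from x to y inside R)` -/
theorem eLpNorm_walk (hp : 1 ≤ p) (hD : IsDist G R D) (hR : GoodRegion k R) {x y : ℤ × ℤ}
    (w : squareLattice.Walk x y) (hw : ∀ z ∈ w.support, z ∈ R) (hw0 : x ≠ y ∨ 0 < w.length) :
    eLpNorm (fun t => D t x y) (ENNReal.ofReal p) (iidLaw G) ≤ w.length * mC G k p := by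
  have hp0 : 0 < p := by linarith
  have main : ∀ (n : ℕ) (x y : ℤ × ℤ) (w : squareLattice.Walk x y), w.length = n + 1 →
      (∀ z ∈ w.support, z ∈ R) →
      eLpNorm (fun t => D t x y) (ENNReal.ofReal p) (iidLaw G) ≤ (n + 1 : ℕ) * mC G k p := by
    intro n
    induction n with
    | zero =>
      intro x y w hn hw
      cases w with
      | nil => simp at hn
      | cons h w' =>
        cases w' with
        | nil =>
          rw [zero_add, Nat.cast_one, one_mul]
          exact eLpNorm_adj hp0 hD hR (hw _ (by simp)) (hw _ (by simp)) h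
        | cons h' w'' => simp at hn
    | succ n ih =>
      intro x y w hn hw
      cases w with
      | nil => simp at hn
      | @cons _ v _ h w' =>
        have hx : x ∈ R := hw _ (by simp)
        have hv : v ∈ R := hw _ (by simp)
        have hy : y ∈ R := hw _ (by simp)
        have h1 := ih v y w' (by simpa using hn) (fun z hz => hw z (by simp [hz]))
        have h2 := eLpNorm_adj hp0 hD hR hx hv h
        calc eLpNorm (fun t => D t x y) (ENNReal.ofReal p) (iidLaw G)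
            ≤ eLpNorm ((fun t => D t x v) + (fun t => D t v y)) (ENNReal.ofReal p) (iidLaw G) := by
              apply eLpNorm_mono_ae
              filter_upwards [hD.nonneg, hD.tri] with t ht ht'
              rw [Real.norm_of_nonneg (ht x hx y hy), Pi.add_apply]
              exact (ht' x hx v hv y hy).trans (le_abs_self _)
          _ ≤ eLpNorm (fun t => D t x v) (ENNReal.ofReal p) (iidLaw G) +
              eLpNorm (fun t => D t v y) (ENNReal.ofReal p) (iidLaw G) :=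
              eLpNorm_add_le (hD.meas x v) (hD.meas v y) (by
                rw [← ENNReal.ofReal_one]; exact ENNReal.ofReal_le_ofReal hp)
          _ ≤ mC G k p + (n + 1 : ℕ) * mC G k p := add_le_add h2 h1
          _ = _ := by push_cast; ring
  obtain ⟨n, hn⟩ : ∃ n, w.length = n + 1 := by
    cases w with
    | nil => simp at hw0
    | cons h w' => exact ⟨w'.length, by simp⟩
  rw [hn]
  exact main n x y w hn hw

/-- L-shaped walks -/
lemma exists_walk_row (a b c : ℤ) : ∃ w : squareLattice.Walk (a, b) (c, b),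
    w.length = (c - a).natAbs ∧ ∀ z ∈ w.support, z.2 = b ∧ min a c ≤ z.1 ∧ z.1 ≤ max a c := by
  have key : ∀ n : ℕ, ∀ a : ℤ, ∃ w : squareLattice.Walk (a, b) (a + n, b),
      w.length = n ∧ ∀ z ∈ w.support, z.2 = b ∧ a ≤ z.1 ∧ z.1 ≤ a + n := by
    intro n
    induction n with
    | zero =>
      intro a
      refine ⟨(SimpleGraph.Walk.nil : squareLattice.Walk (a, b) (a, b)).copy rfl (by simp), ?_, ?_⟩
      · simp
      · intro z hz
        simp only [SimpleGraph.Walk.support_copy, SimpleGraph.Walk.support_nil,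
          List.mem_singleton] at hz
        subst hz; simp
    | succ n ih =>
      intro a
      obtain ⟨w, hw, hs⟩ := ih (a + 1)
      refine ⟨(SimpleGraph.Walk.cons (adj_right a b) w).copy rfl (by
        rw [Prod.mk.injEq]; push_cast; constructor <;> [ring; rfl]), ?_, ?_⟩
      · simp [hw]
      · intro z hz
        simp only [SimpleGraph.Walk.support_copy, SimpleGraph.Walk.support_cons,
          List.mem_cons] at hz
        rcases hz with rfl | hz
        · simp; omega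
        · have := hs z hz
          push_cast
          omega
  rcases le_total a c with h | h
  · obtain ⟨w, hw, hs⟩ := key (c - a).toNat a
    have e : a + ((c - a).toNat : ℤ) = c := by omega
    refine ⟨w.copy rfl (by rw [e]), ?_, ?_⟩
    · simp only [SimpleGraph.Walk.length_copy, hw]; omega
    · intro z hz
      simp only [SimpleGraph.Walk.support_copy] at hz
      have := hs z hz
      omega
  · obtain ⟨w, hw, hs⟩ := key (a - c).toNat c
    have e : c + ((a - c).toNat : ℤ) = a := by omega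
    refine ⟨(w.copy rfl (by rw [e])).reverse, ?_, ?_⟩
    · simp only [SimpleGraph.Walk.length_reverse, SimpleGraph.Walk.length_copy, hw]; omega
    · intro z hz
      simp only [SimpleGraph.Walk.support_reverse, List.mem_reverse,
        SimpleGraph.Walk.support_copy] at hz
      have := hs z hz
      omega

lemma exists_walk_col (a b d : ℤ) : ∃ w : squareLattice.Walk (a, b) (a, d),
    w.length = (d - b).natAbs ∧ ∀ z ∈ w.support, z.1 = a ∧ min b d ≤ z.2 ∧ z.2 ≤ max b d := by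
  obtain ⟨w, hw, hs⟩ := exists_walk_row b a d
  have e1 : sw.toHom (b, a) = (a, b) := rfl
  have e2 : sw.toHom (d, a) = (a, d) := rfl
  refine ⟨(w.map sw.toHom).copy e1 e2, by
    rw [SimpleGraph.Walk.length_copy, SimpleGraph.Walk.length_map]; exact hw, ?_⟩
  intro z hz
  rw [SimpleGraph.Walk.support_copy, SimpleGraph.Walk.support_map, List.mem_map] at hz
  obtain ⟨z', hz', rfl⟩ := hz
  exact hs z' hz'

/-- a walk of length `|y - x|_1` inside every product of order connected sets -/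
lemma exists_walk_prod {A B : Set ℤ} (hA : A.OrdConnected) (hB : B.OrdConnected)
    {x y : ℤ × ℤ} (hx : x.1 ∈ A ∧ x.2 ∈ B) (hy : y.1 ∈ A ∧ y.2 ∈ B) :
    ∃ w : squareLattice.Walk x y, w.length = n1 (y - x) ∧
      ∀ z ∈ w.support, z.1 ∈ A ∧ z.2 ∈ B := by
  obtain ⟨w, hw, hs⟩ := exists_walk_row x.1 x.2 y.1
  obtain ⟨w', hw', hs'⟩ := exists_walk_col y.1 x.2 y.2
  refine ⟨w.append w', ?_, ?_⟩
  · rw [SimpleGraph.Walk.length_append, hw, hw', n1]; rfl
  · intro z hz
    rw [SimpleGraph.Walk.mem_support_append_iff] at hz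
    rcases hz with hz | hz
    · obtain ⟨h1, h2, h3⟩ := hs z hz
      refine ⟨?_, by rw [h1]; exact hx.2⟩
      rcases le_total x.1 y.1 with h | h
      · exact hA.out hx.1 hy.1 ⟨by omega, by omega⟩
      · exact hA.out hy.1 hx.1 ⟨by omega, by omega⟩
    · obtain ⟨h1, h2, h3⟩ := hs' z hz
      refine ⟨by rw [h1]; exact hy.1, ?_⟩
      rcases le_total x.2 y.2 with h | h
      · exact hB.out hx.2 hy.2 ⟨by omega, by omega⟩
      · exact hB.out hy.2 hx.2 ⟨by omega, by omega⟩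


/-- `L^p` bound in a half-plane or strip with horizontal boundary -/
theorem eLpNorm_row (hp : 1 ≤ p) {B : Set ℤ} (hB : Thick B) (hB' : B.OrdConnected)
    (hD : IsDist G {z : ℤ × ℤ | z.2 ∈ B} D) {x y : ℤ × ℤ} (hx : x.2 ∈ B) (hy : y.2 ∈ B)
    (hxy : x ≠ y) :
    eLpNorm (fun t => D t x y) (ENNReal.ofReal p) (iidLaw G) ≤ n1 (y - x) * mC G 3 p := by
  obtain ⟨w, hw, hs⟩ := exists_walk_prod (A := Set.univ) Set.ordConnected_univ hB'
    (x := x) (y := y) ⟨trivial, hx⟩ ⟨trivial, hy⟩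
  rw [← hw]
  exact eLpNorm_walk hp hD (goodRegion_row hB) w (fun z hz => (hs z hz).2) (Or.inl hxy)

/-- `L^p` bound in a half-plane or strip with vertical boundary -/
theorem eLpNorm_col (hp : 1 ≤ p) {A : Set ℤ} (hA : Thick A) (hA' : A.OrdConnected)
    (hD : IsDist G {z : ℤ × ℤ | z.1 ∈ A} D) {x y : ℤ × ℤ} (hx : x.1 ∈ A) (hy : y.1 ∈ A)
    (hxy : x ≠ y) :
    eLpNorm (fun t => D t x y) (ENNReal.ofReal p) (iidLaw G) ≤ n1 (y - x) * mC G 3 p := by
  obtain ⟨w, hw, hs⟩ := exists_walk_prod (B := Set.univ) hA' Set.ordConnected_univ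
    (x := x) (y := y) ⟨hx, trivial⟩ ⟨hy, trivial⟩
  rw [← hw]
  exact eLpNorm_walk hp hD (goodRegion_col hA) w (fun z hz => (hs z hz).1) (Or.inl hxy)

/-- `L^p` bound in the full plane (`p = 2`, `k = 4`) -/
theorem eLpNorm_full (hp : 1 ≤ p) (hD : IsDist G Set.univ D) {x y : ℤ × ℤ} (hxy : x ≠ y) :
    eLpNorm (fun t => D t x y) (ENNReal.ofReal p) (iidLaw G) ≤ n1 (y - x) * mC G 4 p := by
  obtain ⟨w, hw, hs⟩ := exists_walk_prod (A := Set.univ) (B := Set.univ)
    Set.ordConnected_univ Set.ordConnected_univ (x := x) (y := y)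
    ⟨trivial, trivial⟩ ⟨trivial, trivial⟩
  rw [← hw]
  exact eLpNorm_walk hp hD goodRegion_univ w (fun z _ => trivial) (Or.inl hxy)

/-! ### The passage time of the full plane under the moment hypothesis of S0213 -/

/-- the law of S0213: `hG` and the moment hypothesis -/
structure Law213 (G : Measure ℝ) : Prop where
  h0 : G (Set.Iio 0) = 0
  mom : ∫⁻ x, ENNReal.ofReal ((⨅ i, x i) ^ 2) ∂(Measure.pi fun _ : Fin 4 => G) < ⊤

theorem memLp_pt (hG : Law213 G) (x y : ℤ × ℤ) :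
    MemLp (fun t => passageTime t x y) 2 (iidLaw G) := by
  refine ⟨(measurable_pt x y).aestronglyMeasurable, ?_⟩
  rcases eq_or_ne x y with rfl | hxy
  · have : (fun t => passageTime t x x) =ᵐ[iidLaw G] 0 := by
      filter_upwards [ae_Nn hG.h0] with t ht
      rw [pt_self ht]; rfl
    rw [eLpNorm_congr_ae this]; simp
  · have h := eLpNorm_full (p := 2) (by norm_num) (isDist_pt hG.h0) hxy
    have e : ENNReal.ofReal 2 = 2 := by simp
    rw [e] at h
    refine lt_of_le_of_lt h (ENNReal.mul_lt_top (ENNReal.natCast_lt_top _) ?_)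
    exact mC_lt_top (by norm_num) (mom_four_two hG.h0 hG.mom)

theorem integrable_pt' (hG : Law213 G) (x y : ℤ × ℤ) :
    Integrable (fun t => passageTime t x y) (iidLaw G) := by
  have : IsProbabilityMeasure (iidLaw G) := by unfold iidLaw; infer_instance
  exact (memLp_pt hG x y).integrable (by norm_num)

/-- `E T(x,y)^2 ≤ C |y - x|_1^2` -/
theorem exists_integral_sq_le (hG : Law213 G) : ∃ C : ℝ, 0 ≤ C ∧ ∀ x y : ℤ × ℤ,
    ∫ t, passageTime t x y ^ 2 ∂(iidLaw G) ≤ C * (n1 (y - x) : ℝ) ^ 2 := by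
  refine ⟨(mC G 4 2).toReal ^ 2, by positivity, ?_⟩
  intro x y
  rcases eq_or_ne x y with rfl | hxy
  · have : (fun t => passageTime t x x ^ 2) =ᵐ[iidLaw G] 0 := by
      filter_upwards [ae_Nn hG.h0] with t ht
      rw [pt_self ht]; simp
    rw [integral_congr_ae this]
    simp [n1]
  · have h := eLpNorm_full (p := 2) (by norm_num) (isDist_pt hG.h0) hxy
    have e : ENNReal.ofReal 2 = 2 := by simp
    rw [e] at h
    have hm := memLp_pt hG x y
    have h1 : ∫ t, passageTime t x y ^ 2 ∂(iidLaw G) =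
        ((eLpNorm (fun t => passageTime t x y) 2 (iidLaw G)).toReal) ^ 2 := by
      have h2 := hm.eLpNorm_eq_integral_rpow_norm (by norm_num) (by norm_num)
      rw [h2]
      simp only [ENNReal.toReal_ofNat, Real.rpow_ofNat, Real.norm_eq_abs, sq_abs]
      have hnn : 0 ≤ ∫ t, passageTime t x y ^ 2 ∂(iidLaw G) := integral_nonneg fun _ => sq_nonneg _
      rw [ENNReal.toReal_ofReal (by positivity), ← Real.rpow_natCast, ← Real.rpow_mul hnn]
      norm_num
    rw [h1, ← mul_pow]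
    have h3 : (eLpNorm (fun t => passageTime t x y) 2 (iidLaw G)).toReal ≤
        (mC G 4 2).toReal * n1 (y - x) := by
      have hfin : (n1 (y - x) : ℝ≥0∞) * mC G 4 2 ≠ ⊤ :=
        (ENNReal.mul_lt_top (ENNReal.natCast_lt_top _)
          (mC_lt_top (by norm_num) (mom_four_two hG.h0 hG.mom))).ne
      have := ENNReal.toReal_mono hfin h
      rw [ENNReal.toReal_mul, ENNReal.toReal_natCast] at this
      linarith
    exact pow_le_pow_left₀ ENNReal.toReal_nonneg h3 2

end Crest.Agent.R151.M51
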