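import Crest.Agent.R151.A565e
import Crest.Agent.R151.K4a
import Crest.Agent.R151.M51C

-- ▼ part R151/A565f
section

/-!
# R151, block A (helper565): mean passage times in vertical slabs, general law
-/

set_option autoImplicit false

open MeasureTheory ProbabilityTheory Filter Topology
open Crest.ProbabilityR.FirstPassage
open Crest.Agent.R151.K Crest.Agent.R151.M51
open scoped ENNReal

namespace Crest.Agent.R151.A

/-- the slab `a ≤ x ≤ b` -/
def sl (a b : ℤ) : Set (ℤ × ℤ) := {z | z.1 ∈ Set.Icc a b}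

lemma mem_sl {a b : ℤ} {z : ℤ × ℤ} : z ∈ sl a b ↔ a ≤ z.1 ∧ z.1 ≤ b := Iff.rfl

lemma sl_mono {a b a' b' : ℤ} (ha : a' ≤ a) (hb : b ≤ b') : sl a b ⊆ sl a' b' :=
  fun _ hz => ⟨ha.trans hz.1, hz.2.trans hb⟩

lemma conn_sl {a b : ℤ} {x y : ℤ × ℤ} (hx : x ∈ sl a b) (hy : y ∈ sl a b) :
    Conn (sl a b) x y := by
  obtain ⟨w, -, hs⟩ := exists_walk_prod (A := Set.Icc a b) (B := Set.univ)
    Set.ordConnected_Icc Set.ordConnected_univ ⟨hx, trivial⟩ ⟨hy, trivial⟩
  exact ⟨w, fun z hz => (hs z hz).1⟩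

variable {G : Measure ℝ} [IsProbabilityMeasure G]

lemma isDist_sl (h0 : G (Set.Iio 0) = 0) (a b : ℤ) :
    IsDist G (sl a b) (fun t x y => pR t (sl a b) x y) where
  meas x y := (measurable_pR _ x y).aestronglyMeasurable
  nonneg := by
    filter_upwards [ae_Nn h0] with t ht x _ y _
    exact pR_nonneg ht _ _ _
  tri := by
    filter_upwards [ae_Nn h0] with t ht x hx y hy z hz
    exact pR_triangle ht (conn_sl hx hy) (conn_sl hy hz)
  dom := by
    filter_upwards [ae_Nn h0] with t ht x y w hw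
    exact pR_le ht w hw

/-- mean passage time in the slab -/
noncomputable def eD (G : Measure ℝ) (a b : ℤ) (x y : ℤ × ℤ) : ℝ :=
  ∫ t, pR t (sl a b) x y ∂(iidLaw G)

/-- the constant -/
noncomputable def C1 (G : Measure ℝ) : ℝ := (mC G 3 1).toReal

omit [IsProbabilityMeasure G] in
lemma C1_nonneg : 0 ≤ C1 G := ENNReal.toReal_nonneg

lemma sl_bound (hG : Law213 G) {a b : ℤ} (hab : a + 2 ≤ b) {x y : ℤ × ℤ} (hx : x ∈ sl a b)
    (hy : y ∈ sl a b) :
    Integrable (fun t => pR t (sl a b) x y) (iidLaw G) ∧ eD G a b x y ≤ n1 (y - x) * C1 G := by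
  have hfin : mC G 3 1 < ⊤ :=
    mC_lt_top (by norm_num) (mom_lt_top (mom_four_two hG.h0 hG.mom) (by norm_num) (by norm_num))
  rcases eq_or_ne x y with rfl | hxy
  · have h1 : (fun t => pR t (sl a b) x x) =ᵐ[iidLaw G] fun _ => 0 := by
      filter_upwards [ae_Nn hG.h0] with t ht using pR_self ht hx
    refine ⟨(integrable_zero _ _ _).congr h1.symm, ?_⟩
    unfold eD
    rw [integral_congr_ae h1]
    simp [n1]
  · have h1 := eLpNorm_col (p := 1) le_rfl (thick_Icc hab) Set.ordConnected_Icc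
      (isDist_sl hG.h0 a b) hx hy hxy
    rw [ENNReal.ofReal_one] at h1
    have hfin2 : (n1 (y - x) : ℝ≥0∞) * mC G 3 1 < ⊤ :=
      ENNReal.mul_lt_top (ENNReal.natCast_lt_top _) hfin
    have hi : Integrable (fun t => pR t (sl a b) x y) (iidLaw G) :=
      memLp_one_iff_integrable.1 ⟨(measurable_pR _ x y).aestronglyMeasurable, h1.trans_lt hfin2⟩
    refine ⟨hi, ?_⟩
    rw [eLpNorm_one_eq_lintegral_enorm] at h1
    have h2 := ENNReal.toReal_mono hfin2.ne h1
    rw [ENNReal.toReal_mul, ENNReal.toReal_natCast] at h2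
    refine le_trans ?_ h2
    unfold eD
    rw [← integral_norm_eq_lintegral_enorm hi.aestronglyMeasurable]
    exact integral_mono hi hi.norm fun t => le_abs_self _

lemma integrable_sl (hG : Law213 G) {a b : ℤ} (hab : a + 2 ≤ b) {x y : ℤ × ℤ} (hx : x ∈ sl a b)
    (hy : y ∈ sl a b) : Integrable (fun t => pR t (sl a b) x y) (iidLaw G) :=
  (sl_bound hG hab hx hy).1

lemma eD_le_n1 (hG : Law213 G) {a b : ℤ} (hab : a + 2 ≤ b) {x y : ℤ × ℤ} (hx : x ∈ sl a b)
    (hy : y ∈ sl a b) : eD G a b x y ≤ n1 (y - x) * C1 G := (sl_bound hG hab hx hy).2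


lemma eD_tri (hG : Law213 G) {a b : ℤ} (hab : a + 2 ≤ b) {x y z : ℤ × ℤ} (hx : x ∈ sl a b)
    (hy : y ∈ sl a b) (hz : z ∈ sl a b) : eD G a b x z ≤ eD G a b x y + eD G a b y z := by
  unfold eD
  rw [← integral_add (integrable_sl hG hab hx hy) (integrable_sl hG hab hy hz)]
  refine integral_mono_ae (integrable_sl hG hab hx hz)
    ((integrable_sl hG hab hx hy).add (integrable_sl hG hab hy hz)) ?_
  filter_upwards [ae_Nn hG.h0] with t ht
  exact pR_triangle ht (conn_sl hx hy) (conn_sl hy hz)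

lemma eD_mono (hG : Law213 G) {a b a' b' : ℤ} (hab : a + 2 ≤ b) (ha : a' ≤ a) (hb : b ≤ b')
    {x y : ℤ × ℤ} (hx : x ∈ sl a b) (hy : y ∈ sl a b) : eD G a' b' x y ≤ eD G a b x y := by
  unfold eD
  refine integral_mono_ae (integrable_sl hG (by omega) (sl_mono ha hb hx) (sl_mono ha hb hy))
    (integrable_sl hG hab hx hy) ?_
  filter_upwards [ae_Nn hG.h0] with t ht
  exact pR_anti ht (sl_mono ha hb) (conn_sl hx hy)

lemma eD_shift (a b : ℤ) (x y z : ℤ × ℤ) :
    eD G (a + z.1) (b + z.1) (x + z) (y + z) = eD G a b x y := by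
  unfold eD
  have h1 := integral_shift (G := G) z (measurable_pR (sl a b) x y).aestronglyMeasurable
  rw [← h1]
  congr 1
  funext t
  have h2 := pR_tr t z (sl (a + z.1) (b + z.1)) x y
  rw [← h2]
  have h3 : (fun u : ℤ × ℤ => u + z) ⁻¹' sl (a + z.1) (b + z.1) = sl a b := by
    ext u
    simp [sl]
  rw [h3]
  rfl

/-- the slab passage times decrease to the passage time when the slab grows -/
lemma eD_tendsto (hG : Law213 G) {b : ℤ} (hb : 0 ≤ b) {x y : ℤ × ℤ} (hx : x ∈ sl 0 b)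
    (hy : y ∈ sl 0 b) :
    Tendsto (fun R : ℕ => eD G (-((R : ℤ) + 1)) (b + (R + 1)) x y) atTop
      (𝓝 (∫ t, passageTime t x y ∂(iidLaw G))) := by
  have hin : ∀ R : ℕ, sl 0 b ⊆ sl (-((R : ℤ) + 1)) (b + (R + 1)) := fun R =>
    sl_mono (by omega) (by omega)
  unfold eD
  refine tendsto_integral_of_dominated_convergence
    (fun t => pR t (sl (-1) (b + 1)) x y)
    (fun R => (measurable_pR _ x y).aestronglyMeasurable)
    (integrable_sl hG (by omega) (sl_mono (by omega) (by omega) hx)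
      (sl_mono (by omega) (by omega) hy)) ?_ ?_
  · intro R
    filter_upwards [ae_Nn hG.h0] with t ht
    rw [Real.norm_of_nonneg (pR_nonneg ht _ _ _)]
    exact pR_anti ht (sl_mono (by omega) (by omega))
      (conn_sl (sl_mono (by omega) (by omega) hx) (sl_mono (by omega) (by omega) hy))
  · filter_upwards [ae_Nn hG.h0] with t ht
    rw [Metric.tendsto_atTop]
    intro ε hε
    obtain ⟨w, hw⟩ := exists_walk_lt t x y (show passageTime t x y < passageTime t x y + ε by
      linarith)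
    obtain ⟨N, hN⟩ : ∃ N : ℕ, ∀ z ∈ w.support, z.1.natAbs ≤ N := by
      refine ⟨w.support.toFinset.sup (fun z => z.1.natAbs), fun z hz => ?_⟩
      exact Finset.le_sup (f := fun z : ℤ × ℤ => z.1.natAbs) (List.mem_toFinset.2 hz)
    refine ⟨N, fun R hR => ?_⟩
    have h1 : pR t (sl (-((R : ℤ) + 1)) (b + (R + 1))) x y ≤ walkCost t w := by
      refine pR_le ht w fun z hz => ?_
      have := hN z hz
      constructor <;> omega
    have h2 : passageTime t x y ≤ pR t (sl (-((R : ℤ) + 1)) (b + (R + 1))) x y :=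
      pt_le_pR ht (conn_sl (hin R hx) (hin R hy))
    rw [Real.dist_eq, abs_of_nonneg (by linarith)]
    linarith

end Crest.Agent.R151.A
end

-- ▼ part R151/A565g

/-!
# R151, block A (helper565): gap crossings, general law
-/

set_option autoImplicit false

open MeasureTheory ProbabilityTheory Filter Topology
open Crest.ProbabilityR.FirstPassage
open Crest.Agent.R151.K Crest.Agent.R151.M51
open scoped ENNReal

namespace Crest.Agent.R151.A

variable {G : Measure ℝ} [IsProbabilityMeasure G]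

lemma eD_self (h0 : G (Set.Iio 0) = 0) {a b : ℤ} {x : ℤ × ℤ} (hx : x ∈ sl a b) :
    eD G a b x x = 0 := by
  unfold eD
  refine integral_eq_zero_of_ae ?_
  filter_upwards [ae_Nn h0] with t ht using pR_self ht hx

/-- a chain of `k` translates of one crossing -/
lemma eD_chain (hG : Law213 G) {a b : ℤ} (hab : a + 2 ≤ b) {u w : ℤ × ℤ} {B : ℝ} (hw : 0 ≤ w.1)
    (k : ℕ) (hu : a ≤ u.1) (hk : u.1 + k * w.1 ≤ b)
    (hB : ∀ v : ℤ × ℤ, u.1 ≤ v.1 → v.1 + w.1 ≤ u.1 + k * w.1 → eD G a b v (v + w) ≤ B) :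
    eD G a b u (u + (k * w.1, k * w.2)) ≤ k * B := by
  have key : ∀ i : ℕ, i ≤ k → eD G a b u (u + (i * w.1, i * w.2)) ≤ i * B := by
    intro i hi
    induction i with
    | zero =>
      have hu' : u ∈ sl a b := by
        have h0 : 0 ≤ (k : ℤ) * w.1 := by positivity
        constructor <;> omega
      simp only [Nat.cast_zero, zero_mul]
      rw [show u + ((0 : ℤ), (0 : ℤ)) = u by rw [show ((0 : ℤ), (0 : ℤ)) = 0 from rfl, add_zero],
        eD_self hG.h0 hu']
    | succ i ih =>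
      have h1 := ih (by omega)
      have m1 : (i : ℤ) * w.1 ≤ k * w.1 := by
        refine mul_le_mul_of_nonneg_right ?_ hw
        exact_mod_cast (by omega : i ≤ k)
      have m2 : ((i : ℤ) + 1) * w.1 ≤ k * w.1 := by
        refine mul_le_mul_of_nonneg_right ?_ hw
        exact_mod_cast (by omega : i + 1 ≤ k)
      have m0 : 0 ≤ (i : ℤ) * w.1 := by positivity
      have h2 := hB (u + (i * w.1, i * w.2)) (by simp [m0]) (by
        simp only [Prod.fst_add]; linarith)
      have e1 : u + (((i + 1 : ℕ) : ℤ) * w.1, ((i + 1 : ℕ) : ℤ) * w.2) =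
          u + (i * w.1, i * w.2) + w := by
        ext <;> simp <;> ring
      rw [e1]
      have hx : u ∈ sl a b := by constructor <;> linarith
      have hy : u + ((i : ℤ) * w.1, (i : ℤ) * w.2) ∈ sl a b := by
        constructor <;> simp only [Prod.fst_add] <;> linarith
      have hz : u + ((i : ℤ) * w.1, (i : ℤ) * w.2) + w ∈ sl a b := by
        constructor <;> simp only [Prod.fst_add] <;> linarith
      have h3 := eD_tri hG hab hx hy hz
      push_cast
      linarith
  exact key k le_rfl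

/-- **mean cost of crossing `m` columns of a slab in the direction `(1, s)`** -/
lemma strip_dir (hG : Law213 G) {s φ : ℝ}
    (hφ : Tendsto (fun n : ℕ => (∫ t, passageTime t (0, 0) ((n : ℤ), ⌊n * s⌋) ∂(iidLaw G)) / n)
      atTop (𝓝 φ)) {ε : ℝ} (hε : 0 < ε) :
    ∃ C0 : ℝ, 0 ≤ C0 ∧ ∀ (m : ℕ) (a b : ℤ), a + 2 ≤ b → ∀ u : ℤ × ℤ, a ≤ u.1 → u.1 + m ≤ b →
      eD G a b u (u + ((m : ℤ), ⌊m * s⌋)) ≤ m * (φ + ε) + C0 := by
  have hφ0 : 0 ≤ φ := by
    refine ge_of_tendsto hφ (Eventually.of_forall fun n => ?_)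
    refine div_nonneg (integral_nonneg_of_ae ?_) (by positivity)
    filter_upwards [ae_Nn hG.h0] with t ht using pt_nonneg ht _ _
  set C := C1 G with hC
  have hC0 : 0 ≤ C := C1_nonneg
  -- choose `K`
  obtain ⟨K, hK1, hKC, hKφ⟩ : ∃ K : ℕ, 1 ≤ K ∧ C ≤ K * (ε / 2) ∧
      ∫ t, passageTime t (0, 0) ((K : ℤ), ⌊K * s⌋) ∂(iidLaw G) ≤ K * (φ + ε / 4) := by
    have h1 : ∀ᶠ n : ℕ in atTop,
        (∫ t, passageTime t (0, 0) ((n : ℤ), ⌊n * s⌋) ∂(iidLaw G)) / n < φ + ε / 4 :=
      hφ.eventually_lt_const (by linarith)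
    have h2 : ∀ᶠ n : ℕ in atTop, C / (ε / 2) ≤ n := by
      obtain ⟨N, hN⟩ := exists_nat_ge (C / (ε / 2))
      filter_upwards [eventually_ge_atTop N] with n hn
      exact hN.trans (by exact_mod_cast hn)
    obtain ⟨K, h3, h4, h5⟩ := (h1.and (h2.and (eventually_ge_atTop 1))).exists
    have hKr : (0 : ℝ) < K := by exact_mod_cast h5
    refine ⟨K, h5, ?_, ?_⟩
    · rwa [div_le_iff₀ (by positivity)] at h4
    · rw [div_lt_iff₀ hKr] at h3
      linarith
  have hKr : (0 : ℝ) < K := by exact_mod_cast hK1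
  -- choose `R`
  set w : ℤ × ℤ := ((K : ℤ), ⌊K * s⌋) with hw
  obtain ⟨R, hR⟩ : ∃ R : ℕ, eD G (-((R : ℤ) + 1)) (K + (R + 1)) (0, 0) w ≤ K * (φ + ε / 2) := by
    have h1 := eD_tendsto hG (b := K) (by omega) (x := (0, 0)) (y := w)
      ⟨by simp, by simp⟩ ⟨by simp [hw], by simp [hw]⟩
    have h2 := h1.eventually_lt_const (u := K * (φ + ε / 2)) (by
      have : K * (φ + ε / 4) < K * (φ + ε / 2) := mul_lt_mul_of_pos_left (by linarith) hKr
      linarith)
    obtain ⟨R, hR⟩ := h2.exists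
    exact ⟨R, hR.le⟩
  set R' : ℕ := R + 1 with hR'
  have hR1 : eD G (-(R' : ℤ)) (K + R') (0, 0) w ≤ K * (φ + ε / 2) := by
    rw [hR']; push_cast; exact hR
  refine ⟨C * (2 * R' + K + |s| * (2 * R' + K) + 1 + R'), by positivity, ?_⟩
  intro m a b hab u hu hm
  have hfl : ∀ x : ℝ, |((⌊x⌋ : ℤ) : ℝ)| ≤ |x| + 1 := abs_floor_le
  have hus : u ∈ sl a b := ⟨hu, by omega⟩
  have hends : u + ((m : ℤ), ⌊m * s⌋) ∈ sl a b := by
    constructor <;> simp only [Prod.fst_add] <;> omega
  by_cases hmR : m < 2 * R'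
  · -- small `m`
    have h1 := eD_le_n1 hG hab hus hends
    rw [add_sub_cancel_left] at h1
    have h2 : (n1 ((m : ℤ), ⌊m * s⌋) : ℝ) = m + |((⌊m * s⌋ : ℤ) : ℝ)| := by
      simp [n1, Nat.cast_natAbs]
    have h3 := hfl (m * s)
    rw [abs_mul, abs_of_nonneg (by positivity : (0 : ℝ) ≤ m)] at h3
    have h4 : (m : ℝ) ≤ 2 * R' := by exact_mod_cast hmR.le
    have h5 : (m : ℝ) * |s| ≤ 2 * R' * |s| := mul_le_mul_of_nonneg_right h4 (abs_nonneg s)
    have h6 : 0 ≤ |s| * K := by positivity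
    calc eD G a b u (u + ((m : ℤ), ⌊m * s⌋)) ≤ _ := h1
      _ ≤ (2 * R' + (2 * R' * |s| + 1)) * C := by
          rw [h2]
          refine mul_le_mul_of_nonneg_right ?_ hC0
          linarith
      _ ≤ C * (2 * R' + K + |s| * (2 * R' + K) + 1 + R') := by
          have : (0 : ℝ) ≤ R' := by positivity
          nlinarith
      _ ≤ _ := by
          have : 0 ≤ (m : ℝ) * (φ + ε) := by positivity
          linarith
  · -- large `m`
    push Not at hmR
    set k : ℕ := (m - 2 * R') / K with hk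
    have hk1 : k * K ≤ m - 2 * R' := Nat.div_mul_le_self _ _
    have hk2 : m - 2 * R' < (k + 1) * K := by
      have := Nat.lt_div_mul_add (a := m - 2 * R') (b := K) (by omega)
      rw [add_mul, one_mul]
      exact this
    set x0 : ℤ × ℤ := u + ((R' : ℤ), 0) with hx0
    set xk : ℤ × ℤ := x0 + (k * w.1, k * w.2) with hxk
    have hkK : (k : ℤ) * K + 2 * R' ≤ m := by
      have : (k * K + 2 * R' : ℕ) ≤ m := by omega
      exact_mod_cast this
    have hkK2 : (m : ℤ) < (k + 1) * K + 2 * R' := by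
      have : m < (k + 1) * K + 2 * R' := by omega
      exact_mod_cast this
    have hx0s : x0 ∈ sl a b := by
      constructor <;> simp only [hx0, Prod.fst_add]
      · omega
      · have : (0 : ℤ) ≤ k * K := by positivity
        omega
    have hxks : xk ∈ sl a b := by
      have : (0 : ℤ) ≤ k * K := by positivity
      constructor <;> simp only [hxk, hx0, hw, Prod.fst_add] <;> omega
    -- three pieces
    have p1 : eD G a b u x0 ≤ R' * C := by
      have h1 := eD_le_n1 hG hab hus hx0s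
      have h2 : (n1 (x0 - u) : ℝ) = R' := by
        simp [n1, hx0]
      rwa [h2] at h1
    have p2 : eD G a b x0 xk ≤ k * (K * (φ + ε / 2)) := by
      refine eD_chain hG hab (by simp [hw]) k hx0s.1 (by simpa [hxk] using hxks.2) ?_
      intro v hv1 hv2
      have hv3 : x0.1 = u.1 + R' := by simp [hx0]
      have hv4 : w.1 = K := rfl
      rw [hv3] at hv1 hv2
      rw [hv4] at hv2
      have h1 : eD G a b v (v + w) ≤ eD G (-(R' : ℤ) + v.1) (K + R' + v.1) v (v + w) := by
        refine eD_mono hG (by omega) (by omega) (by omega) ⟨by omega, by omega⟩ ?_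
        constructor <;> simp only [Prod.fst_add, hv4] <;> omega
      have h2 := eD_shift (G := G) (-(R' : ℤ)) (K + R') (0, 0) w v
      rw [show ((0 : ℤ), (0 : ℤ)) + v = v by
        rw [show ((0 : ℤ), (0 : ℤ)) = 0 from rfl, zero_add], add_comm w v] at h2
      rw [h2] at h1
      exact h1.trans hR1
    have p3 : eD G a b xk (u + ((m : ℤ), ⌊m * s⌋)) ≤
        C * (R' + K + |s| * (2 * R' + K) + 1 + k) := by
      have h1 := eD_le_n1 hG hab hxks hends
      refine h1.trans ?_
      rw [mul_comm]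
      refine mul_le_mul_of_nonneg_left ?_ hC0
      have h2 : (n1 (u + ((m : ℤ), ⌊m * s⌋) - xk) : ℝ) =
          |((m : ℝ) - R' - k * K)| + |((⌊m * s⌋ : ℤ) : ℝ) - k * ⌊K * s⌋| := by
        have e1 : u + ((m : ℤ), ⌊m * s⌋) - xk =
            ((m : ℤ) - R' - k * K, ⌊m * s⌋ - k * ⌊K * s⌋) := by
          ext <;> simp [hxk, hx0, hw] <;> ring
        rw [e1]
        simp [n1, Nat.cast_natAbs]
      rw [h2]
      have q1 : (k : ℝ) * K + 2 * R' ≤ m := by exact_mod_cast hkK
      have q2 : (m : ℝ) < (k + 1) * K + 2 * R' := by exact_mod_cast hkK2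
      have q3 : |((m : ℝ) - R' - k * K)| ≤ R' + K := by
        rw [abs_le]
        constructor <;> nlinarith
      have q4 : |((⌊m * s⌋ : ℤ) : ℝ) - k * ⌊K * s⌋| ≤ |s| * (2 * R' + K) + 1 + k := by
        have a1 : |((⌊m * s⌋ : ℤ) : ℝ) - m * s| ≤ 1 := by
          rw [abs_le]
          constructor <;> linarith [Int.floor_le ((m : ℝ) * s), Int.lt_floor_add_one ((m : ℝ) * s)]
        have a2 : |(k : ℝ) * (K * s - ⌊K * s⌋)| ≤ k := by
          rw [abs_mul, abs_of_nonneg (by positivity : (0 : ℝ) ≤ k)]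
          have : |(K : ℝ) * s - ⌊K * s⌋| ≤ 1 := by
            rw [abs_le]
            constructor <;>
              linarith [Int.floor_le ((K : ℝ) * s), Int.lt_floor_add_one ((K : ℝ) * s)]
          nlinarith [(Nat.cast_nonneg k : (0 : ℝ) ≤ k)]
        have a3 : |((m : ℝ) - k * K) * s| ≤ |s| * (2 * R' + K) := by
          rw [abs_mul, mul_comm]
          refine mul_le_mul_of_nonneg_left ?_ (abs_nonneg s)
          rw [abs_le]
          constructor <;> nlinarith
        have e : ((⌊m * s⌋ : ℤ) : ℝ) - k * ⌊K * s⌋ =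
            (((⌊m * s⌋ : ℤ) : ℝ) - m * s) + (k : ℝ) * (K * s - ⌊K * s⌋) +
              ((m : ℝ) - k * K) * s := by ring
        rw [e]
        refine (abs_add_three _ _ _).trans ?_
        linarith
      linarith
    have t1 := eD_tri hG hab hus hx0s hxks
    have t2 := eD_tri hG hab hus hxks hends
    have hkC : (k : ℝ) * C ≤ k * (K * (ε / 2)) := by gcongr
    have hkm : (k : ℝ) * K ≤ m := by
      have : (k : ℝ) * K + 2 * R' ≤ m := by exact_mod_cast hkK
      have h0 : (0 : ℝ) ≤ R' := by positivity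
      linarith
    have hfin : (k : ℝ) * K * (φ + ε) ≤ m * (φ + ε) := by gcongr
    nlinarith

end Crest.Agent.R151.A
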