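import Crest.Agent.R151.G338h
import Crest.Agent.R151.K9d
import Crest.Agent.R151.Q5d

/-!
# R151 / S0214 part 2, block R6 — law of the deviation `devB`, gap costs (helper565)

`inv_devB`, `measurable_devB`, `mp_nr_shift`, `devB_prob`, `devB_mean` : law of 338's `devB`.
`Shape.hp_ge` : excess of a piece of highway; `psi_le_gp` : the normalised gap cost `gp` is at
least `ψ (displacement) - 4 D`; `gap_cost` : falls cost a positive fraction of their length, with
any ratio `K` between height and fall.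
-/

set_option autoImplicit false
set_option linter.unusedSectionVars false

open MeasureTheory Filter ProbabilityTheory Topology
open Crest.ProbabilityR.FirstPassage

namespace Crest.Agent.R151.R6

open K R78 B710 Q

variable {μ : ℝ × ℝ → ℝ}

/-! ### The deviation seen from the base point -/

lemma devB_nonneg (n : ℕ) (θ : ℝ × ℝ) (t : Environment) : 0 ≤ devB μ n θ t := dev_nonneg _ _ _

lemma act_tr_tr (a b : ℤ × ℤ) (t : Environment) : act (tr (a - b)) (act (tr b) t) = act (tr a) t := by
  funext e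
  unfold act
  congr 1
  rw [Sym2.map_map]
  congr 1
  funext x
  simp only [Function.comp_apply, tr_apply]
  abel

lemma inv_devB (n : ℕ) : Inv (devB μ n) := by
  intro m θ t
  unfold devB
  rw [nr_add, act_tr_tr]

lemma measurable_devB (n : ℕ) : Measurable (Function.uncurry (devB μ n)) := by
  have h : Measurable fun q : (ℝ × ℝ) × Environment => act (tr (nr q.1)) q.2 :=
    measurable_act_tr.comp ((measurable_nr.comp measurable_fst).prodMk measurable_snd)
  exact (measurable_dev μ n).comp h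






section prob

variable {G : Measure ℝ} [IsProbabilityMeasure G] {m : ℝ}

lemma mp_nr : MeasurePreserving (fun p : (ℝ × ℝ) × Environment => act (tr (nr p.1)) p.2) (P0 G)
    (iidLaw G) := by
  have h : MeasurePreserving (fun p : (ℝ × ℝ) × Environment => (p.1, act (tr (nr p.1)) p.2))
      (P0 G) (P0 G) := by
    unfold P0
    refine MeasurePreserving.skew_product (g := fun (x : ℝ × ℝ) (t : Environment) =>
      act (tr (nr x)) t) (MeasurePreserving.id UU2) ?_ ?_
    · exact measurable_act_tr.comp ((measurable_nr.comp measurable_fst).prodMk measurable_snd)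
    · exact ae_of_all _ fun x => (mp_act (G := G) _).map_eq
  have h2 : MeasurePreserving Prod.snd (P0 G) (iidLaw G) := by
    unfold P0; exact measurePreserving_snd
  exact h2.comp h

lemma mp_nr_shift (v : ℝ × ℝ) : MeasurePreserving
    (fun p : (ℝ × ℝ) × Environment => act (tr (nr (p.1 + v))) p.2) (P0 G) (iidLaw G) := by
  have h := (mp_nr (G := G)).comp (mp_S (G := G) v)
  have e : (fun p : (ℝ × ℝ) × Environment => act (tr (nr (p.1 + v))) p.2) =
      (fun p : (ℝ × ℝ) × Environment => act (tr (nr p.1)) p.2) ∘ S v := by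
    funext p
    simp only [Function.comp_apply, S]
    rw [frac2_eq, nr_add, act_tr_tr]
  rw [e]
  exact h

theorem devB_prob (hM : Mom G m) (hμ : IsTC1 G μ) (hL : LocCtl G) {ε : ℝ} (hε : 0 < ε) :
    ∃ n0 : ℕ, ∀ n ≥ n0, ∀ v : ℝ × ℝ,
      (P0 G).real {p | ε * n ≤ devB μ n (p.1 + v) p.2} ≤ ε := by
  obtain ⟨n0, hn0⟩ := hM.uniform_shape_prob hμ hL hε
  refine ⟨n0, fun n hn v => ?_⟩
  have h := (mp_nr_shift (G := G) v).measureReal_preimage
    (measurableSet_le measurable_const (measurable_dev μ n)).nullMeasurableSet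
      (s := {t | ε * n ≤ dev μ n t})
  refine le_trans (le_of_eq ?_) (hn0 n hn)
  rw [← h]
  rfl


end prob

/-! ### Deterministic lower bound for the gap costs -/

/-- the shape theorem holds in `S` with error `D` -/
def Shape (μ : ℝ × ℝ → ℝ) (t : Environment) (D : ℝ) (S : Set (ℤ × ℤ)) : Prop :=
  ∀ x ∈ S, ∀ y ∈ S, |passageTime t x y - μ (toR (y - x))| ≤ D

variable (F : FlatData μ) {t : Environment} {D : ℝ} {S : Set (ℤ × ℤ)}

lemma phi_sub (x y : ℤ × ℤ) : phi F y - phi F x = F.ρ (toR (y - x)) := by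
  unfold phi; rw [toR_sub, map_sub]

lemma Shape.ptY_ge (hS : Shape μ t D S) {x y : ℤ × ℤ} (hx : x ∈ S) (hy : y ∈ S) :
    F.ψ (toR (y - x)) - D ≤ ptY t (phi F) x y := by
  have h := (abs_le.1 (hS x hx y hy)).1
  unfold ptY FlatData.ψ
  rw [phi_sub]; linarith




/-- falls cost a positive fraction of their length -/
lemma psi_fall (hN : NormLike μ) {K : ℝ} (hK : 0 ≤ K) : ∃ c : ℝ, 0 < c ∧
    ∀ v : ℝ × ℝ, F.al v ≤ 0 → |F.be v| ≤ K * (-F.al v) → c * (-F.al v) ≤ F.ψ v := by
  set M : ℝ := ‖F.a‖ + K * ‖F.b‖ with hM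
  have hM0 : 0 ≤ M := by positivity
  obtain ⟨c, hc, h⟩ := F.ψ_lower_al hN (δ := 1 / (M + 1)) (by positivity)
  have hal : 0 ≤ ‖F.al‖ := norm_nonneg _
  refine ⟨c / (‖F.al‖ + 1), by positivity, fun v h1 h2 => ?_⟩
  have hn : ‖v‖ ≤ M * (-F.al v) := by
    refine (norm_le_of_coord F v).trans ?_
    rw [abs_of_nonpos h1, hM]
    have := norm_nonneg F.b
    nlinarith
  have h3 : F.al v ≤ -(1 / (M + 1) * ‖v‖) := by
    have h4 : 1 / (M + 1) * ‖v‖ ≤ -F.al v := by
      rw [one_div, inv_mul_le_iff₀ (by positivity)]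
      nlinarith
    linarith
  have h5 := h v h3
  have h6 : -F.al v ≤ ‖F.al‖ * ‖v‖ := (neg_le_abs _).trans (abs_al_le F v)
  have h7 : -F.al v ≤ (‖F.al‖ + 1) * ‖v‖ := by
    have := norm_nonneg v
    nlinarith
  calc c / (‖F.al‖ + 1) * (-F.al v) ≤ c / (‖F.al‖ + 1) * ((‖F.al‖ + 1) * ‖v‖) :=
        mul_le_mul_of_nonneg_left h7 (by positivity)
    _ = c * ‖v‖ := by field_simp
    _ ≤ F.ψ v := h5


end Crest.Agent.R151.R6
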