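import Crest.Agent.R151.Pl5
import Crest.Agent.R151.K4a

/-!
# R151, planarity toolkit, part 6: switching inequalities for restricted passage times
-/

set_option autoImplicit false

open Crest.ProbabilityR.FirstPassage

namespace Crest.Agent.R151.Pl

open K


/-- THE SWITCHING INEQUALITY -/
theorem pR_switch {t : Environment} (ht : Nn t) {R R' : Set Pt} {a b c d : Pt}
    (hmeet : ∀ (α : squareLattice.Walk a d) (β : squareLattice.Walk b c),
      (∀ z ∈ α.support, z ∈ R) → (∀ z ∈ β.support, z ∈ R') →
      ∃ x, x ∈ α.support ∧ x ∈ β.support)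
    (h1 : Conn R a d) (h2 : Conn R' b c) :
    pR t (R ∪ R') a c + pR t (R ∪ R') b d ≤ pR t R a d + pR t R' b c := by
  classical
  refine le_of_forall_pos_le_add fun ε hε => ?_
  obtain ⟨α, hα, hα'⟩ := exists_walk_lt_pR h1 (show pR t R a d < pR t R a d + ε / 2 by linarith)
  obtain ⟨β, hβ, hβ'⟩ := exists_walk_lt_pR h2 (show pR t R' b c < pR t R' b c + ε / 2 by linarith)
  obtain ⟨x, hxα, hxβ⟩ := hmeet α β hα hβ
  have eα := walkCost_append (t := t) (α.takeUntil x hxα) (α.dropUntil x hxα)
  have eβ := walkCost_append (t := t) (β.takeUntil x hxβ) (β.dropUntil x hxβ)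
  rw [SimpleGraph.Walk.take_spec] at eα eβ
  have m1 : pR t (R ∪ R') a c ≤ walkCost t ((α.takeUntil x hxα).append (β.dropUntil x hxβ)) :=
    pR_le ht _ (fun z hz => by
      rw [SimpleGraph.Walk.mem_support_append_iff] at hz
      rcases hz with hz | hz
      · exact Or.inl (hα z (SimpleGraph.Walk.support_takeUntil_subset_support _ _ hz))
      · exact Or.inr (hβ z (SimpleGraph.Walk.support_dropUntil_subset_support _ _ hz)))
  have m2 : pR t (R ∪ R') b d ≤ walkCost t ((β.takeUntil x hxβ).append (α.dropUntil x hxα)) :=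
    pR_le ht _ (fun z hz => by
      rw [SimpleGraph.Walk.mem_support_append_iff] at hz
      rcases hz with hz | hz
      · exact Or.inr (hβ z (SimpleGraph.Walk.support_takeUntil_subset_support _ _ hz))
      · exact Or.inl (hα z (SimpleGraph.Walk.support_dropUntil_subset_support _ _ hz)))
  rw [walkCost_append] at m1 m2
  linarith

theorem pR_switch_same {t : Environment} (ht : Nn t) {R : Set Pt} {a b c d : Pt}
    (hmeet : ∀ (α : squareLattice.Walk a d) (β : squareLattice.Walk b c),
      (∀ z ∈ α.support, z ∈ R) → (∀ z ∈ β.support, z ∈ R) →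
      ∃ x, x ∈ α.support ∧ x ∈ β.support)
    (h1 : Conn R a d) (h2 : Conn R b c) :
    pR t R a c + pR t R b d ≤ pR t R a d + pR t R b c := by
  have := pR_switch ht (R := R) (R' := R) hmeet h1 h2
  rwa [Set.union_self] at this

/-- horizontal strip: `a, b` on the bottom row, `c, d` on the top row, `a` left of `b` and `c` left
of `d`: the crossed pairing costs at least as much as the parallel one; `R` is any subset of the
strip -/
theorem strip_switch {t : Environment} (ht : Nn t) {R : Set Pt} {lo hi : ℤ}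
    (hR : ∀ z ∈ R, lo ≤ z.2 ∧ z.2 ≤ hi) {a b c d : Pt}
    (ha : a.2 = lo) (hb : b.2 = lo) (hd : d.2 = hi) (hc : c.2 = hi)
    (hab : a.1 ≤ b.1) (hcd : c.1 ≤ d.1) (h1 : Conn R a d) (h2 : Conn R b c) :
    pR t R a c + pR t R b d ≤ pR t R a d + pR t R b c :=
  pR_switch_same ht (fun α β hα hβ => strip_cross α β (fun x hx => hR x (hα x hx))
    (fun x hx => hR x (hβ x hx)) ha hb hd hc hab hcd) h1 h2



end Crest.Agent.R151.Pl
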