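import Crest.Agent.R151.K9e
import Crest.Agent.R151.Pl6

/-!
# R151, block BUS (helper469), part a: deterministic (planar) layer

Strips, the increments `D`, the Monge inequality, splitting of a walk at its first visit of
a line.
-/

set_option autoImplicit false

open MeasureTheory Filter ProbabilityTheory
open Crest.ProbabilityR.FirstPassage
open Crest.Agent.R151.K

namespace Crest.Agent.R151.BUS

/-- the horizontal strip `a ≤ y ≤ b` -/
def St (a b : ℤ) : Set (ℤ × ℤ) := {z | z.2 ∈ Set.Icc a b}

/-- the upper half plane -/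
def Hp : Set (ℤ × ℤ) := {z | z.2 ∈ Set.Ici (0 : ℤ)}

lemma mem_St {a b : ℤ} {z : ℤ × ℤ} : z ∈ St a b ↔ a ≤ z.2 ∧ z.2 ≤ b := Iff.rfl

lemma mem_Hp {z : ℤ × ℤ} : z ∈ Hp ↔ 0 ≤ z.2 := Iff.rfl

lemma St_subset {a b c d : ℤ} (h1 : c ≤ a) (h2 : b ≤ d) : St a b ⊆ St c d := by
  intro z hz
  rw [mem_St] at hz ⊢
  omega

lemma St_subset_Hp {N : ℤ} : St 0 N ⊆ Hp := by
  intro z hz
  rw [mem_St] at hz
  rw [mem_Hp]
  omega

lemma conn_row_set {B : Set ℤ} (hB : B.OrdConnected) {x y : ℤ × ℤ} (hx : x.2 ∈ B)
    (hy : y.2 ∈ B) : Conn {z : ℤ × ℤ | z.2 ∈ B} x y := by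
  obtain ⟨w, -, hs⟩ := M51.exists_walk_prod (A := Set.univ) Set.ordConnected_univ hB
    (x := x) (y := y) ⟨trivial, hx⟩ ⟨trivial, hy⟩
  exact ⟨w, fun z hz => (hs z hz).2⟩

lemma conn_St {a b : ℤ} {x y : ℤ × ℤ} (hx : x ∈ St a b) (hy : y ∈ St a b) :
    Conn (St a b) x y := conn_row_set Set.ordConnected_Icc hx hy


variable {t : Environment}

/-! ### splitting walks -/

lemma cost_split {x y u : ℤ × ℤ} (w : squareLattice.Walk x y) (h : u ∈ w.support) :
    walkCost t (w.takeUntil u h) + walkCost t (w.dropUntil u h) = walkCost t w := by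
  rw [← walkCost_append, SimpleGraph.Walk.take_spec]

lemma le_split_left (ht : Nn t) {R : Set (ℤ × ℤ)} {x y u : ℤ × ℤ} (w : squareLattice.Walk x y)
    (hw : ∀ z ∈ w.support, z ∈ R) (h : u ∈ w.support) :
    pR t R x u ≤ walkCost t (w.takeUntil u h) :=
  pR_le ht _ fun z hz => hw z (SimpleGraph.Walk.support_takeUntil_subset_support w h hz)

lemma le_split_right (ht : Nn t) {R : Set (ℤ × ℤ)} {x y u : ℤ × ℤ} (w : squareLattice.Walk x y)
    (hw : ∀ z ∈ w.support, z ∈ R) (h : u ∈ w.support) :
    pR t R u y ≤ walkCost t (w.dropUntil u h) :=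
  pR_le ht _ fun z hz => hw z (SimpleGraph.Walk.support_dropUntil_subset_support w h hz)

/-- a walk through `u` costs at least the sum of the restricted times -/
lemma pR_through (ht : Nn t) {R : Set (ℤ × ℤ)} {x y u : ℤ × ℤ} (w : squareLattice.Walk x y)
    (hw : ∀ z ∈ w.support, z ∈ R) (h : u ∈ w.support) :
    pR t R x u + pR t R u y ≤ walkCost t w := by
  rw [← cost_split w h]
  exact add_le_add (le_split_left ht w hw h) (le_split_right ht w hw h)


/-! ### the increments -/

/-- the strip passage time from `(x,0)` to `(z,N)` -/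
noncomputable def f (t : Environment) (N z x : ℤ) : ℝ := pR t (St 0 N) (x, 0) (z, N)

/-- the increment of `f` -/
noncomputable def D (t : Environment) (N z x : ℤ) : ℝ := f t N z (x + 1) - f t N z x

lemma zero_mem_St {N x : ℤ} (hN : 0 ≤ N) : ((x, 0) : ℤ × ℤ) ∈ St 0 N := by
  rw [mem_St]; simp only; omega

lemma top_mem_St {N z : ℤ} (hN : 0 ≤ N) : ((z, N) : ℤ × ℤ) ∈ St 0 N := by
  rw [mem_St]; simp only; omega

/-- the Monge inequality -/
lemma f_monge (ht : Nn t) {N x x' z w : ℤ} (hN : 0 ≤ N) (hx : x ≤ x')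
    (hz : z ≤ w) : f t N z x + f t N w x' ≤ f t N w x + f t N z x' :=
  Pl.strip_switch (a := (x, 0)) (b := (x', 0)) (c := (z, N)) (d := (w, N)) ht
    (fun _ hu => hu) rfl rfl rfl rfl hx hz
    (conn_St (zero_mem_St hN) (top_mem_St hN)) (conn_St (zero_mem_St hN) (top_mem_St hN))

lemma D_anti (ht : Nn t) {N x z w : ℤ} (hN : 0 ≤ N) (hz : z ≤ w) :
    D t N w x ≤ D t N z x := by
  have := f_monge ht hN (show x ≤ x + 1 by omega) hz
  unfold D
  linarith

lemma abs_D_le (ht : Nn t) {N z x : ℤ} (hN : 0 ≤ N) :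
    |D t N z x| ≤ pR t (St 0 N) (x, 0) (x + 1, 0) := by
  have h1 := pR_triangle ht (conn_St (zero_mem_St hN) (zero_mem_St hN) :
    Conn (St 0 N) (x, 0) (x + 1, 0)) (conn_St (zero_mem_St hN) (top_mem_St hN) :
    Conn (St 0 N) (x + 1, 0) (z, N))
  have h2 := pR_triangle ht (conn_St (zero_mem_St hN) (zero_mem_St hN) :
    Conn (St 0 N) (x + 1, 0) (x, 0)) (conn_St (zero_mem_St hN) (top_mem_St hN) :
    Conn (St 0 N) (x, 0) (z, N))
  rw [pR_symm ht (St 0 N) (x + 1, 0) (x, 0)] at h2
  unfold D f
  rw [abs_le]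
  constructor <;> linarith

/-! ### first hit of a line -/

/-- a walk from below to above the line `N` is split at its first visit of the line -/
lemma exists_first_hit (N : ℤ) {a b : ℤ × ℤ} (γ : squareLattice.Walk a b) (ha : a.2 ≤ N)
    (hb : N ≤ b.2) : ∃ (w : ℤ) (α : squareLattice.Walk a (w, N)) (ρ : squareLattice.Walk (w, N) b),
      (∀ u ∈ α.support, u.2 ≤ N) ∧ (∀ u ∈ α.support, u ∈ γ.support) ∧
      (∀ u ∈ ρ.support, u ∈ γ.support) ∧ ∀ t : Environment,
        walkCost t α + walkCost t ρ = walkCost t γ := by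
  induction γ with
  | @nil a =>
    have : a = (a.1, N) := Prod.ext rfl (by simp only; omega)
    refine ⟨a.1, (SimpleGraph.Walk.nil : squareLattice.Walk a a).copy rfl this,
      (SimpleGraph.Walk.nil : squareLattice.Walk a a).copy this rfl, ?_, ?_, ?_, ?_⟩
    · intro u hu
      simp only [SimpleGraph.Walk.support_copy, SimpleGraph.Walk.support_nil,
        List.mem_singleton] at hu
      subst hu; exact ha
    · intro u hu; simpa using hu
    · intro u hu; simpa using hu
    · intro t; simp [walkCost]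
  | @cons a a' b h γ ih =>
    rcases ha.eq_or_lt with ha' | ha'
    · have : a = (a.1, N) := Prod.ext rfl (by simp only; omega)
      refine ⟨a.1, (SimpleGraph.Walk.nil : squareLattice.Walk a a).copy rfl this,
        (SimpleGraph.Walk.cons h γ).copy this rfl, ?_, ?_, ?_, ?_⟩
      · intro u hu
        simp only [SimpleGraph.Walk.support_copy, SimpleGraph.Walk.support_nil,
          List.mem_singleton] at hu
        subst hu; exact ha
      · intro u hu
        simp only [SimpleGraph.Walk.support_copy, SimpleGraph.Walk.support_nil,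
          List.mem_singleton] at hu
        subst hu; simp
      · intro u hu
        simpa using hu
      · intro t; simp [walkCost]
    · have h' : a'.2 ≤ N := by
        have := M51.adj_iff.1 h
        omega
      obtain ⟨w, α, ρ, h1, h2, h3, h4⟩ := ih h' hb
      refine ⟨w, SimpleGraph.Walk.cons h α, ρ, ?_, ?_, ?_, ?_⟩
      · intro u hu
        rw [SimpleGraph.Walk.support_cons, List.mem_cons] at hu
        rcases hu with rfl | hu
        · exact ha
        · exact h1 u hu
      · intro u hu
        rw [SimpleGraph.Walk.support_cons, List.mem_cons] at hu ⊢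
        rcases hu with rfl | hu
        · exact Or.inl rfl
        · exact Or.inr (h2 u hu)
      · intro u hu
        rw [SimpleGraph.Walk.support_cons, List.mem_cons]
        exact Or.inr (h3 u hu)
      · intro t
        have := h4 t
        simp only [walkCost, SimpleGraph.Walk.edges_cons, List.map_cons, List.sum_cons] at this ⊢
        linarith

end Crest.Agent.R151.BUS
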