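import Crest.Agent.R151.K2b

/-!
# R151 / S0214 part 2, module C1 (rate), the grid lemma (helper710)

From a variance bound `Var T(0,y) ≤ Cv |y|` and exponential moments: all the passage times between
points of a box at distance `≤ r` are within `δ + O(g)` of their means, `g` the mesh of a grid, up
to a probability given explicitly.
-/

set_option autoImplicit false

open MeasureTheory Filter ProbabilityTheory
open Crest.ProbabilityR.FirstPassage

namespace Crest.Agent.R151.C710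

open Crest.Agent.R151.K

variable {G : Measure ℝ} [IsProbabilityMeasure G] {lam : ℝ}

/-- the variance hypothesis -/
def VarB (G : Measure ℝ) (Cv : ℝ) : Prop :=
  ∀ y : ℤ × ℤ, ∫ t, (passageTime t 0 y - ET G y) ^ 2 ∂(iidLaw G) ≤ Cv * n1 y

lemma integrable_dev_sq (h0 : G (Set.Iio 0) = 0) (h2 : Integrable (fun x : ℝ => x ^ 2) G)
    (x y : ℤ × ℤ) (c : ℝ) :
    Integrable (fun t => (passageTime t x y - c) ^ 2) (iidLaw G) := by
  have h1 := (pt_sq h0 h2 x y).1
  have h3 := (integrable_pt h0 h2 x y).const_mul (2 * c)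
  have : (fun t => (passageTime t x y - c) ^ 2)
      = fun t => passageTime t x y ^ 2 - 2 * c * passageTime t x y + c ^ 2 := by
    funext t; ring
  rw [this]
  exact (h1.sub h3).add (integrable_const _)

/-- Chebyshev -/
lemma cheb (h0 : G (Set.Iio 0) = 0) (h2 : Integrable (fun x : ℝ => x ^ 2) G) {Cv : ℝ}
    (hv : VarB G Cv) (x y : ℤ × ℤ) {δ : ℝ} (hδ : 0 < δ) :
    (iidLaw G).real {t | δ < |passageTime t x y - ET G (y - x)|} ≤ Cv * n1 (y - x) / δ ^ 2 := by
  have h1 : ∫ t, (passageTime t x y - ET G (y - x)) ^ 2 ∂(iidLaw G) ≤ Cv * n1 (y - x) := by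
    have := integral_comp_pt (G := G) (fun s => (s - ET G (y - x)) ^ 2) (by fun_prop) x y
    rw [this]
    exact hv _
  have h3 := mul_meas_ge_le_integral_of_nonneg (μ := iidLaw G)
    (f := fun t => (passageTime t x y - ET G (y - x)) ^ 2)
    (Filter.Eventually.of_forall fun t => sq_nonneg _) (integrable_dev_sq h0 h2 x y _) (δ ^ 2)
  have h4 : (iidLaw G).real {t | δ < |passageTime t x y - ET G (y - x)|}
      ≤ (iidLaw G).real {t | δ ^ 2 ≤ (passageTime t x y - ET G (y - x)) ^ 2} := by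
    refine measureReal_mono ?_ (measure_ne_top _ _)
    · intro t ht
      have ht' : δ < |passageTime t x y - ET G (y - x)| := ht
      show δ ^ 2 ≤ (passageTime t x y - ET G (y - x)) ^ 2
      rw [← sq_abs (passageTime t x y - ET G (y - x))]
      exact pow_le_pow_left₀ hδ.le ht'.le 2
  rw [le_div_iff₀ (by positivity)]
  calc (iidLaw G).real {t | δ < |passageTime t x y - ET G (y - x)|} * δ ^ 2
      ≤ (iidLaw G).real {t | δ ^ 2 ≤ (passageTime t x y - ET G (y - x)) ^ 2} * δ ^ 2 := by gcongr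
    _ = δ ^ 2 * (iidLaw G).real {t | δ ^ 2 ≤ (passageTime t x y - ET G (y - x)) ^ 2} := by ring
    _ ≤ _ := h3
    _ ≤ _ := h1

/-- exponential upper tail -/
lemma exp_tail (h0 : G (Set.Iio 0) = 0) (hlam : 0 < lam)
    (hexp : Integrable (fun x => Real.exp (lam * x)) G) (x y : ℤ × ℤ) (s : ℝ) :
    (iidLaw G).real {t | s < passageTime t x y}
      ≤ Real.exp (-(lam * s)) * (∫ z, Real.exp (lam * z) ∂G) ^ (n1 (y - x)) := by
  obtain ⟨hi, hle⟩ := exp_pt h0 hlam hexp x y
  have h3 := mul_meas_ge_le_integral_of_nonneg (μ := iidLaw G)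
    (f := fun t => Real.exp (lam * passageTime t x y))
    (Filter.Eventually.of_forall fun t => (Real.exp_nonneg _)) hi (Real.exp (lam * s))
  have h4 : (iidLaw G).real {t | s < passageTime t x y}
      ≤ (iidLaw G).real {t | Real.exp (lam * s) ≤ Real.exp (lam * passageTime t x y)} := by
    refine measureReal_mono ?_ (measure_ne_top _ _)
    · intro t ht
      have ht' : s < passageTime t x y := ht
      show Real.exp (lam * s) ≤ Real.exp (lam * passageTime t x y)
      exact Real.exp_le_exp.mpr (mul_le_mul_of_nonneg_left ht'.le hlam.le)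
  have h5 : Real.exp (lam * s) * (iidLaw G).real {t | s < passageTime t x y}
      ≤ (∫ z, Real.exp (lam * z) ∂G) ^ (n1 (y - x)) := by
    refine le_trans (mul_le_mul_of_nonneg_left h4 (Real.exp_nonneg _)) (h3.trans hle)
  rw [Real.exp_neg, inv_mul_eq_div, le_div_iff₀ (Real.exp_pos _)]
  linarith

/-! ### the grid -/

/-- index of the grid cell -/
def gidx (g : ℕ) (x : ℤ × ℤ) : ℤ × ℤ := (x.1 / g, x.2 / g)

/-- grid point -/
def gpt (g : ℕ) (j : ℤ × ℤ) : ℤ × ℤ := (g * j.1, g * j.2)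

lemma gpt_add (g : ℕ) (i j : ℤ × ℤ) : gpt g (i + j) = gpt g i + gpt g j := by
  simp [gpt, mul_add]


lemma n1_gpt (g : ℕ) (j : ℤ × ℤ) : n1 (gpt g j) = g * n1 j := by
  simp [n1, gpt, Int.natAbs_mul, mul_add]

lemma n1_sub_grid {g : ℕ} (hg : 0 < g) (x : ℤ × ℤ) : n1 (x - gpt g (gidx g x)) ≤ 2 * g := by
  have hg' : (0 : ℤ) < g := by exact_mod_cast hg
  have key : ∀ a : ℤ, (a - g * (a / g)).natAbs ≤ g := by
    intro a
    have h1 : a - g * (a / g) = a % g := by
      have := Int.emod_add_mul_ediv a g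
      linarith
    rw [h1]
    have h2 := Int.emod_nonneg a hg'.ne'
    have h3 := Int.emod_lt_of_pos a hg'
    omega
  have h1 := key x.1
  have h2 := key x.2
  simp only [n1, gpt, gidx, Prod.fst_sub, Prod.snd_sub]
  omega

lemma gidx_mem {g : ℕ} (hg : 0 < g) {R : ℕ} {x : ℤ × ℤ} (hx : x ∈ box R) :
    gidx g x ∈ box (R / g + 1) := by
  have hg' : (0 : ℤ) < g := by exact_mod_cast hg
  rw [mem_box] at hx ⊢
  have key : ∀ a : ℤ, -(R : ℤ) ≤ a → a ≤ R →
      -((R / g + 1 : ℕ) : ℤ) ≤ a / g ∧ a / g ≤ ((R / g + 1 : ℕ) : ℤ) := by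
    intro a h1 h2
    constructor
    · have h3 : (R : ℤ) < (R / g + 1) * g := by
        have := Int.lt_ediv_add_one_mul_self (R : ℤ) hg'
        exact this
      rw [Int.le_ediv_iff_mul_le hg']
      push_cast
      linarith
    · have h3 : a / g ≤ (R : ℤ) / g := Int.ediv_le_ediv hg' h2
      push_cast
      linarith
  exact ⟨key _ hx.1.1 hx.1.2, key _ hx.2.1 hx.2.2⟩

lemma gidx_sub_mem {g : ℕ} (hg : 0 < g) {r : ℕ} {x y : ℤ × ℤ} (hxy : n1 (y - x) ≤ r) :
    gidx g y - gidx g x ∈ box (r / g + 1) := by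
  have hg' : (0 : ℤ) < g := by exact_mod_cast hg
  rw [mem_box]
  have key : ∀ a b : ℤ, (b - a).natAbs ≤ r →
      -((r / g + 1 : ℕ) : ℤ) ≤ b / g - a / g ∧ b / g - a / g ≤ ((r / g + 1 : ℕ) : ℤ) := by
    intro a b hab
    have e1 := Int.emod_add_mul_ediv a g
    have e2 := Int.emod_add_mul_ediv b g
    have e3 := Int.emod_nonneg a hg'.ne'
    have e4 := Int.emod_lt_of_pos a hg'
    have e5 := Int.emod_nonneg b hg'.ne'
    have e6 := Int.emod_lt_of_pos b hg'
    have h3 : (r : ℤ) < (r / g + 1) * g := Int.lt_ediv_add_one_mul_self (r : ℤ) hg'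
    have h4 : b - a ≤ r := by omega
    have h5 : -(r : ℤ) ≤ b - a := by omega
    push_cast
    set qa := a / (g : ℤ) with hqa
    set qb := b / (g : ℤ) with hqb
    set qr := (r : ℤ) / (g : ℤ) with hqr
    constructor
    · by_contra hcon
      push Not at hcon
      have h6 : qb - qa ≤ -(qr + 1) - 1 := by linarith [Int.lt_iff_add_one_le.mp hcon]
      have h7 : (g : ℤ) * (qb - qa) ≤ g * (-(qr + 1) - 1) := mul_le_mul_of_nonneg_left h6 hg'.le
      nlinarith
    · by_contra hcon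
      push Not at hcon
      have h6 : qr + 1 + 1 ≤ qb - qa := by linarith [Int.lt_iff_add_one_le.mp hcon]
      have h7 : (g : ℤ) * (qr + 1 + 1) ≤ g * (qb - qa) := mul_le_mul_of_nonneg_left h6 hg'.le
      nlinarith
  simp only [n1, Prod.fst_sub, Prod.snd_sub] at hxy
  exact ⟨key _ _ (by omega), key _ _ (by omega)⟩

/-- deterministic part of the grid lemma -/
lemma good_of_grid (h0 : G (Set.Iio 0) = 0) (h2 : Integrable (fun x : ℝ => x ^ 2) G)
    {t : Environment} (ht : Nn t) {g R r : ℕ} (hg : 0 < g) {δ A : ℝ}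
    (hA : ∀ j ∈ box (R / g + 1), ∀ i ∈ box (r / g + 1),
      |passageTime t (gpt g j) (gpt g (j + i)) - ET G (gpt g (j + i) - gpt g j)| ≤ δ)
    (hB : ∀ x ∈ box R, passageTime t x (gpt g (gidx g x)) ≤ A * g) :
    ∀ x ∈ box R, ∀ y ∈ box R, n1 (y - x) ≤ r →
      |passageTime t x y - ET G (y - x)| ≤ δ + (2 * A + 4 * ∫ z, z ∂G) * g := by
  intro x hx y hy hxy
  set x' := gpt g (gidx g x) with hx'
  set y' := gpt g (gidx g y) with hy'
  have h1 := hA _ (gidx_mem hg hx) _ (gidx_sub_mem hg hxy)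
  rw [add_sub_cancel, ← hx', ← hy'] at h1
  have h3 := hB x hx
  have h4 := hB y hy
  rw [← hx'] at h3
  rw [← hy'] at h4
  have t1 := pt_triangle ht x x' y
  have t2 := pt_triangle ht x' y' y
  have t3 := pt_triangle ht x' x y'
  have t4 := pt_triangle ht x y y'
  have s1 := pt_symm ht x x'
  have s2 := pt_symm ht y y'
  have hd := abs_ET_sub_le h0 h2 (y' - x') (y - x)
  have hn : (n1 (y' - x' - (y - x)) : ℝ) ≤ 4 * g := by
    have e1 : y' - x' - (y - x) = (x - x') + -(y - y') := by abel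
    rw [e1]
    have e2 := n1_add_le (x - x') (-(y - y'))
    rw [n1_neg] at e2
    have e3 := n1_sub_grid hg x
    have e4 := n1_sub_grid hg y
    rw [← hx'] at e3
    rw [← hy'] at e4
    have : n1 ((x - x') + -(y - y')) ≤ 4 * g := by omega
    exact_mod_cast this
  have hm : (0 : ℝ) ≤ ∫ z, z ∂G := integral_nonneg_of_ae (ae_nonneg h0)
  have hd2 : (n1 (y' - x' - (y - x)) : ℝ) * ∫ z, z ∂G ≤ 4 * g * ∫ z, z ∂G := by gcongr
  rw [abs_le] at h1 hd ⊢
  constructor <;> nlinarith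

/-- **Grid lemma.** -/
theorem grid_lemma (h0 : G (Set.Iio 0) = 0) (hlam : 0 < lam)
    (hexp : Integrable (fun x => Real.exp (lam * x)) G) {Cv : ℝ} (hv : VarB G Cv) :
    ∃ A : ℝ, 0 < A ∧ ∀ (g R r : ℕ) (_ : 0 < g) (δ : ℝ) (_ : 0 < δ),
      (iidLaw G).real {t | ¬ ∀ x ∈ box R, ∀ y ∈ box R, n1 (y - x) ≤ r →
        |passageTime t x y - ET G (y - x)| ≤ δ + A * g}
      ≤ (2 * ((R / g + 1 : ℕ) : ℝ) + 1) ^ 2 * (2 * ((r / g + 1 : ℕ) : ℝ) + 1) ^ 2
          * (Cv * (2 * r + 2 * g) / δ ^ 2) + (2 * (R : ℝ) + 1) ^ 2 * Real.exp (-(g : ℝ)) := by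
  have h2 : Integrable (fun x : ℝ => x ^ 2) G := integrable_sq h0 hlam hexp
  set M : ℝ := ∫ z, Real.exp (lam * z) ∂G with hM
  have hM1 : 1 ≤ M := one_le_M h0 hlam hexp
  have hMpos : 0 < M := by linarith
  have hCv : 0 ≤ Cv := by
    have h1 := hv (1, 0)
    have h3 : (0 : ℝ) ≤ ∫ t, (passageTime t 0 (1, 0) - ET G (1, 0)) ^ 2 ∂(iidLaw G) :=
      integral_nonneg fun t => sq_nonneg _
    have h4 : (n1 ((1 : ℤ), (0 : ℤ)) : ℝ) = 1 := by simp [n1]
    rw [h4] at h1
    linarith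
  have hm : (0 : ℝ) ≤ ∫ z, z ∂G := integral_nonneg_of_ae (ae_nonneg h0)
  set A0 : ℝ := (2 * Real.log M + 1) / lam with hA0
  have hlogM : 0 ≤ Real.log M := Real.log_nonneg hM1
  have hA0pos : 0 < A0 := by positivity
  refine ⟨2 * A0 + 4 * ∫ z, z ∂G, by positivity, fun g R r hg δ hδ => ?_⟩
  have hgR : (0 : ℝ) < g := by exact_mod_cast hg
  -- the bad events
  set BA : (ℤ × ℤ) → (ℤ × ℤ) → Set Environment := fun j i =>
    {t | δ < |passageTime t (gpt g j) (gpt g (j + i)) - ET G (gpt g (j + i) - gpt g j)|} with hBA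
  set BB : (ℤ × ℤ) → Set Environment := fun x =>
    {t | A0 * g < passageTime t x (gpt g (gidx g x))} with hBB
  have hsub : {t | ¬ ∀ x ∈ box R, ∀ y ∈ box R, n1 (y - x) ≤ r →
        |passageTime t x y - ET G (y - x)| ≤ δ + (2 * A0 + 4 * ∫ z, z ∂G) * g}
      ⊆ {t | ¬ Nn t} ∪ ((⋃ j ∈ box (R / g + 1), ⋃ i ∈ box (r / g + 1), BA j i)
        ∪ ⋃ x ∈ box R, BB x) := by
    intro t ht
    by_contra hcon
    simp only [Set.mem_union, Set.mem_iUnion, not_or, not_exists, hBA, hBB, Set.mem_ofPred_eq,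
      not_not, not_lt] at hcon
    obtain ⟨c1, c2, c3⟩ := hcon
    exact ht (good_of_grid h0 h2 c1 hg (fun j hj i hi => c2 j hj i hi) (fun x hx => c3 x hx))
  have hN : (iidLaw G).real {t | ¬ Nn t} = 0 := by
    have := ae_Nn (G := G) h0
    rw [ae_iff] at this
    rw [measureReal_def, this]; rfl
  have hbA : ∀ j ∈ box (R / g + 1), ∀ i ∈ box (r / g + 1),
      (iidLaw G).real (BA j i) ≤ Cv * (2 * r + 2 * g) / δ ^ 2 := by
    intro j _ i hi
    refine (cheb h0 h2 hv _ _ hδ).trans ?_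
    have e1 : gpt g (j + i) - gpt g j = gpt g i := by rw [gpt_add]; abel
    rw [e1, n1_gpt]
    have e2 : n1 i ≤ 2 * (r / g + 1) := by
      rw [mem_box] at hi
      unfold n1
      omega
    have e3 : g * n1 i ≤ 2 * r + 2 * g := by
      calc g * n1 i ≤ g * (2 * (r / g + 1)) := Nat.mul_le_mul_left g e2
        _ = 2 * (g * (r / g)) + 2 * g := by ring
        _ ≤ 2 * r + 2 * g := by
            have := Nat.mul_div_le r g
            omega
    have e4 : ((g * n1 i : ℕ) : ℝ) ≤ 2 * r + 2 * g := by exact_mod_cast e3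
    gcongr
  have hbB : ∀ x ∈ box R, (iidLaw G).real (BB x) ≤ Real.exp (-(g : ℝ)) := by
    intro x _
    refine (exp_tail h0 hlam hexp _ _ _).trans ?_
    have e1 : n1 (gpt g (gidx g x) - x) ≤ 2 * g := by
      have := n1_sub_grid hg x
      rwa [← n1_neg, neg_sub] at this
    rw [← hM]
    have e2 : M ^ (n1 (gpt g (gidx g x) - x)) ≤ M ^ (2 * g) := pow_le_pow_right₀ hM1 e1
    have e3 : M ^ (2 * g) = Real.exp (2 * g * Real.log M) := by
      rw [← Real.rpow_natCast, Real.rpow_def_of_pos hMpos]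
      congr 1; push_cast; ring
    calc Real.exp (-(lam * (A0 * g))) * M ^ (n1 (gpt g (gidx g x) - x))
        ≤ Real.exp (-(lam * (A0 * g))) * M ^ (2 * g) := by gcongr
      _ = Real.exp (-(g : ℝ)) := by
          rw [e3, ← Real.exp_add]
          congr 1
          rw [hA0]
          field_simp
          ring
  have hcardA : ((box (R / g + 1)).card : ℝ) = (2 * ((R / g + 1 : ℕ) : ℝ) + 1) ^ 2 := by
    rw [card_box]; push_cast; ring
  have hcardI : ((box (r / g + 1)).card : ℝ) = (2 * ((r / g + 1 : ℕ) : ℝ) + 1) ^ 2 := by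
    rw [card_box]; push_cast; ring
  have hcardR : ((box R).card : ℝ) = (2 * (R : ℝ) + 1) ^ 2 := by
    rw [card_box]; push_cast; ring
  calc (iidLaw G).real {t | ¬ ∀ x ∈ box R, ∀ y ∈ box R, n1 (y - x) ≤ r →
        |passageTime t x y - ET G (y - x)| ≤ δ + (2 * A0 + 4 * ∫ z, z ∂G) * g}
      ≤ (iidLaw G).real ({t | ¬ Nn t} ∪ ((⋃ j ∈ box (R / g + 1), ⋃ i ∈ box (r / g + 1), BA j i)
        ∪ ⋃ x ∈ box R, BB x)) := measureReal_mono hsub
    _ ≤ (iidLaw G).real {t | ¬ Nn t} + (iidLaw G).real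
          ((⋃ j ∈ box (R / g + 1), ⋃ i ∈ box (r / g + 1), BA j i) ∪ ⋃ x ∈ box R, BB x) :=
        measureReal_union_le _ _
    _ ≤ 0 + ((iidLaw G).real (⋃ j ∈ box (R / g + 1), ⋃ i ∈ box (r / g + 1), BA j i)
          + (iidLaw G).real (⋃ x ∈ box R, BB x)) := by
        rw [hN]
        gcongr
        exact measureReal_union_le _ _
    _ ≤ 0 + ((∑ j ∈ box (R / g + 1), ∑ i ∈ box (r / g + 1), (iidLaw G).real (BA j i))
          + ∑ x ∈ box R, (iidLaw G).real (BB x)) := by
        gcongr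
        · refine (measureReal_biUnion_finset_le _ _).trans ?_
          gcongr with j hj
          exact measureReal_biUnion_finset_le _ _
        · exact measureReal_biUnion_finset_le _ _
    _ ≤ 0 + ((∑ j ∈ box (R / g + 1), ∑ i ∈ box (r / g + 1), Cv * (2 * r + 2 * g) / δ ^ 2)
          + ∑ x ∈ box R, Real.exp (-(g : ℝ))) := by
        gcongr with j hj i hi x hx
        · exact hbA j hj i hi
        · exact hbB x hx
    _ = _ := by
        simp only [Finset.sum_const, nsmul_eq_mul, hcardA, hcardI, hcardR]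
        ring

end Crest.Agent.R151.C710
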