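import Crest.Agent.R151.K1c

-- ▼ part R151/K2
section

/-!
# R151/K2 — the uniform shape theorem (owner helper507)
-/

set_option autoImplicit false

open MeasureTheory Filter ProbabilityTheory
open Crest.ProbabilityR.FirstPassage

namespace Crest.Agent.R151.K

/-- The lattice box of radius `n`. -/
noncomputable def box (n : ℕ) : Finset (ℤ × ℤ) := Finset.Icc (-(n : ℤ)) n ×ˢ Finset.Icc (-(n : ℤ)) n

lemma mem_box {n : ℕ} {x : ℤ × ℤ} :
    x ∈ box n ↔ (-(n : ℤ) ≤ x.1 ∧ x.1 ≤ n) ∧ (-(n : ℤ) ≤ x.2 ∧ x.2 ≤ n) := by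
  simp [box, Finset.mem_product, Finset.mem_Icc]

lemma card_box (n : ℕ) : (box n).card = (2 * n + 1) ^ 2 := by
  simp only [box, Finset.card_product, Int.card_Icc]
  have : ((n : ℤ) + 1 - -(n : ℤ)).toNat = 2 * n + 1 := by omega
  rw [this, sq]

lemma zero_mem_box (n : ℕ) : (0 : ℤ × ℤ) ∈ box n := by
  rw [mem_box]; simp

variable {G : Measure ℝ} [IsProbabilityMeasure G] {μ : ℝ × ℝ → ℝ} {lam : ℝ}

/-- the soft maximum of `pt x (z x)`, `x ∈ S` -/
noncomputable def soft (lam A : ℝ) (S : Finset (ℤ × ℤ)) (z : ℤ × ℤ → ℤ × ℤ)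
    (t : Environment) : ℝ :=
  A + (1 / lam) * ∑ x ∈ S, Real.exp (lam * passageTime t x (z x)) * Real.exp (-(lam * A))

lemma le_soft (hlam : 0 < lam) {A : ℝ} {S : Finset (ℤ × ℤ)} {z : ℤ × ℤ → ℤ × ℤ}
    (t : Environment) {x : ℤ × ℤ} (hx : x ∈ S) :
    passageTime t x (z x) ≤ soft lam A S z t := by
  unfold soft
  have h1 : Real.exp (lam * passageTime t x (z x)) * Real.exp (-(lam * A))
      ≤ ∑ x ∈ S, Real.exp (lam * passageTime t x (z x)) * Real.exp (-(lam * A)) :=
    Finset.single_le_sum (f := fun x => Real.exp (lam * passageTime t x (z x)) *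
      Real.exp (-(lam * A))) (fun i _ => by positivity) hx
  have h2 : lam * (passageTime t x (z x) - A) ≤
      Real.exp (lam * passageTime t x (z x)) * Real.exp (-(lam * A)) := by
    rw [← Real.exp_add]
    have := Real.add_one_le_exp (lam * passageTime t x (z x) + -(lam * A))
    linarith
  have h3 : passageTime t x (z x) - A ≤
      (1 / lam) * ∑ x ∈ S, Real.exp (lam * passageTime t x (z x)) * Real.exp (-(lam * A)) := by
    rw [one_div, ← div_eq_inv_mul, le_div_iff₀ hlam]
    linarith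
  linarith

lemma integral_soft (h0 : G (Set.Iio 0) = 0) (hlam : 0 < lam)
    (hexp : Integrable (fun x => Real.exp (lam * x)) G) (A : ℝ) (S : Finset (ℤ × ℤ))
    (z : ℤ × ℤ → ℤ × ℤ) (L : ℕ) (hz : ∀ x ∈ S, n1 (z x - x) ≤ L) :
    Integrable (soft lam A S z) (iidLaw G) ∧
    ∫ t, soft lam A S z t ∂(iidLaw G)
      ≤ A + (1 / lam) * (S.card * (∫ x, Real.exp (lam * x) ∂G) ^ L * Real.exp (-(lam * A))) := by
  have hi : ∀ x, Integrable (fun t => Real.exp (lam * passageTime t x (z x)) *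
      Real.exp (-(lam * A))) (iidLaw G) := fun x => (exp_pt h0 hlam hexp x (z x)).1.mul_const _
  have hsum : Integrable (fun t => ∑ x ∈ S, Real.exp (lam * passageTime t x (z x)) *
      Real.exp (-(lam * A))) (iidLaw G) := integrable_finsetSum _ fun x _ => hi x
  constructor
  · unfold soft
    exact (integrable_const A).add (hsum.const_mul _)
  · unfold soft
    rw [integral_add (integrable_const A) (hsum.const_mul _), integral_const_mul,
      integral_finsetSum _ fun x _ => hi x]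
    simp only [integral_const, probReal_univ, smul_eq_mul, one_mul]
    have : ∑ x ∈ S, ∫ t, Real.exp (lam * passageTime t x (z x)) * Real.exp (-(lam * A))
        ∂(iidLaw G) ≤ S.card * (∫ x, Real.exp (lam * x) ∂G) ^ L * Real.exp (-(lam * A)) := by
      rw [mul_assoc, ← nsmul_eq_mul]
      refine Finset.sum_le_card_nsmul _ _ _ fun x hx => ?_
      rw [integral_mul_const]
      have h1 := (exp_pt h0 hlam hexp x (z x)).2
      have h3 := one_le_M h0 hlam hexp
      have h2 := pow_le_pow_right₀ h3 (hz x hx)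
      gcongr
      exact h1.trans h2
    gcongr

/-- with the optimal constant -/
lemma integral_soft' (h0 : G (Set.Iio 0) = 0) (hlam : 0 < lam)
    (hexp : Integrable (fun x => Real.exp (lam * x)) G) (S : Finset (ℤ × ℤ)) (hS : S.Nonempty)
    (z : ℤ × ℤ → ℤ × ℤ) (L : ℕ) (hz : ∀ x ∈ S, n1 (z x - x) ≤ L) :
    ∃ A : ℝ, Integrable (soft lam A S z) (iidLaw G) ∧
    ∫ t, soft lam A S z t ∂(iidLaw G)
      ≤ (Real.log S.card + L * Real.log (∫ x, Real.exp (lam * x) ∂G) + 1) / lam := by
  set M := ∫ x, Real.exp (lam * x) ∂G with hM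
  have hM1 : 1 ≤ M := one_le_M h0 hlam hexp
  have hc : (0 : ℝ) < S.card := by exact_mod_cast hS.card_pos
  refine ⟨(Real.log S.card + L * Real.log M) / lam, ?_⟩
  obtain ⟨h1, h2⟩ := integral_soft h0 hlam hexp ((Real.log S.card + L * Real.log M) / lam) S z L hz
  refine ⟨h1, h2.trans (le_of_eq ?_)⟩
  have h3 : Real.exp (-(lam * ((Real.log S.card + L * Real.log M) / lam)))
      = (S.card * M ^ L)⁻¹ := by
    rw [mul_div_cancel₀ _ hlam.ne', Real.exp_neg, Real.exp_add, Real.exp_log hc, mul_comm (L : ℝ),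
      Real.exp_mul, Real.exp_log (by linarith), Real.rpow_natCast]
  rw [h3, ← hM, mul_inv_cancel₀ (by positivity)]
  field_simp

/-! ### The grid -/

/-- The grid point of index `j`. -/
noncomputable def gp (K n : ℕ) (j : ℤ × ℤ) : ℤ × ℤ :=
  fl ((j.1 : ℝ) / K, (j.2 : ℝ) / K) n

/-- The index of the grid cell of `x`. -/
def gi (K n : ℕ) (x : ℤ × ℤ) : ℤ × ℤ := (x.1 * K / n, x.2 * K / n)

lemma gi_mem {K n : ℕ} (hn : 0 < n) {x : ℤ × ℤ} (hx : x ∈ box n) : gi K n x ∈ box K := by
  rw [mem_box] at hx ⊢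
  have hn' : (0 : ℤ) < n := by exact_mod_cast hn
  have hK : (0 : ℤ) ≤ K := by positivity
  have key : ∀ a : ℤ, -(n : ℤ) ≤ a → a ≤ n → -(K : ℤ) ≤ a * K / n ∧ a * K / n ≤ K := by
    intro a h1 h2
    constructor
    · rw [Int.le_ediv_iff_mul_le hn']
      nlinarith
    · have : a * K / n ≤ (n * K) / n := Int.ediv_le_ediv hn' (by nlinarith)
      rwa [Int.mul_ediv_cancel_left _ hn'.ne'] at this
  exact ⟨key _ hx.1.1 hx.1.2, key _ hx.2.1 hx.2.2⟩

lemma gp_gi_close {K n : ℕ} (hK : 0 < K) (hn : 0 < n) (x : ℤ × ℤ) :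
    n1 (gp K n (gi K n x) - x) ≤ 2 * (n / K + 1) := by
  have hn' : (0 : ℤ) < n := by exact_mod_cast hn
  have hnR : (0 : ℝ) < n := by exact_mod_cast hn
  have hKR : (0 : ℝ) < K := by exact_mod_cast hK
  have key : ∀ a : ℤ, (⌊(n : ℝ) * (((a * K / n : ℤ) : ℝ) / K)⌋ - a).natAbs ≤ n / K + 1 := by
    intro a
    set q : ℤ := a * K / n with hq
    have h1 : q * n ≤ a * K := Int.ediv_mul_le _ hn'.ne'
    have h2 : a * K < (q + 1) * n := Int.lt_ediv_add_one_mul_self _ hn'
    have h1' : (q : ℝ) * n ≤ a * K := by exact_mod_cast h1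
    have h2' : (a : ℝ) * K < (q + 1) * n := by exact_mod_cast h2
    have h3 : (n : ℝ) * ((q : ℝ) / K) ≤ a := by
      rw [mul_div_assoc', div_le_iff₀ hKR]; linarith
    have h4 : (a : ℝ) < (n : ℝ) * ((q : ℝ) / K) + n / K := by
      rw [mul_div_assoc', ← add_div, lt_div_iff₀ hKR]; linarith
    have h5 : ⌊(n : ℝ) * ((q : ℝ) / K)⌋ ≤ a := by
      have := (Int.floor_le ((n : ℝ) * ((q : ℝ) / K))).trans h3
      exact_mod_cast this
    have h6 : (a : ℝ) - ⌊(n : ℝ) * ((q : ℝ) / K)⌋ < n / K + 1 := by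
      have := Int.lt_floor_add_one ((n : ℝ) * ((q : ℝ) / K))
      linarith
    obtain ⟨m, hm⟩ : ∃ m, m = n / K := ⟨_, rfl⟩
    have h7 : ((n : ℝ) / K) < (m : ℝ) + 1 := by
      rw [div_lt_iff₀ hKR, hm]
      have : n < (n / K + 1) * K := by
        have := Nat.lt_div_mul_add (a := n) hK
        linarith [add_mul (n / K) 1 K]
      exact_mod_cast this
    obtain ⟨f, hf⟩ : ∃ f : ℤ, f = ⌊(n : ℝ) * ((q : ℝ) / K)⌋ := ⟨_, rfl⟩
    rw [← hf] at h5 h6 ⊢
    have h8 : (a : ℝ) - f < (m : ℝ) + 2 := by linarith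
    have h9 : a - f < m + 2 := by exact_mod_cast h8
    rw [← hm]
    omega
  have h1 := key x.1
  have h2 := key x.2
  simp only [n1, gp, gi, fl, Prod.fst_sub, Prod.snd_sub]
  omega

end Crest.Agent.R151.K
end

-- ▼ part R151/K2b

/-!
# R151/K2b — the uniform shape theorem, proof (owner helper507)
-/

set_option autoImplicit false

open MeasureTheory Filter ProbabilityTheory
open Crest.ProbabilityR.FirstPassage

namespace Crest.Agent.R151.K

variable {G : Measure ℝ} [IsProbabilityMeasure G] {μ : ℝ × ℝ → ℝ} {lam : ℝ}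

/-- error at a pair of grid points -/
noncomputable def pairErr (μ : ℝ × ℝ → ℝ) (K n : ℕ) (p : (ℤ × ℤ) × (ℤ × ℤ))
    (t : Environment) : ℝ :=
  |passageTime t (gp K n p.1) (gp K n p.2) - μ (toR (gp K n p.2 - gp K n p.1))|

lemma l1_fl (w : ℝ × ℝ) (s : ℝ) : l1 (s • w - toR (fl w s)) ≤ 2 := by
  have key : ∀ a : ℝ, |a - ((⌊a⌋ : ℤ) : ℝ)| ≤ 1 := by
    intro a
    rw [abs_of_nonneg (by linarith [Int.floor_le a])]
    linarith [Int.lt_floor_add_one a]
  simp only [l1, toR, fl, Prod.fst_sub, Prod.snd_sub, Prod.smul_fst, Prod.smul_snd, smul_eq_mul]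
  linarith [key (s * w.1), key (s * w.2)]

lemma toR_sub (x y : ℤ × ℤ) : toR (x - y) = toR x - toR y := by
  simp [toR]

lemma toR_add (x y : ℤ × ℤ) : toR (x + y) = toR x + toR y := by
  simp [toR]

lemma integral_add3 {Ω : Type*} [MeasurableSpace Ω] {P : Measure Ω} [IsProbabilityMeasure P]
    {f g : Ω → ℝ} (c : ℝ) (hf : Integrable f P) (hg : Integrable g P) :
    ∫ t, (f t + g t + c) ∂P = ∫ t, f t ∂P + ∫ t, g t ∂P + c := by
  have h1 : Integrable (fun t => f t + g t) P := hf.add hg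
  rw [integral_add h1 (integrable_const c), integral_add hf hg]
  simp

lemma pairErr_le (h0 : G (Set.Iio 0) = 0) (h2 : Integrable (fun x : ℝ => x ^ 2) G)
    (hμ : IsTC G μ) (v w : ℝ × ℝ) {s : ℝ} (hs : 0 < s) (x : ℤ × ℤ)
    (hx : x = fl (v + w) s - fl v s) :
    ∫ t, |passageTime t 0 x - μ (toR x)| ∂(iidLaw G) ≤
      s * (∫ t, |passageTime t 0 (fl w s) / s - μ w| ∂(iidLaw G)) + 6 * ∫ z, z ∂G := by
  have hm : (0 : ℝ) ≤ ∫ z, z ∂G := integral_nonneg_of_ae (ae_nonneg h0)
  have hclose : n1 (x - fl w s) ≤ 2 := by rw [hx]; exact n1_fl_sub_le v w s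
  have hI1 : Integrable (fun t => |passageTime t 0 (fl w s) / s - μ w|) (iidLaw G) :=
    (((integrable_pt h0 h2 0 (fl w s)).div_const s).sub (integrable_const _)).abs
  have hI2 : Integrable (fun t => passageTime t x (fl w s)) (iidLaw G) := integrable_pt h0 h2 _ _
  have hI3 : Integrable (fun t => |passageTime t 0 x - μ (toR x)|) (iidLaw G) :=
    ((integrable_pt h0 h2 0 x).sub (integrable_const _)).abs
  have hc : |s * μ w - μ (toR x)| ≤ 4 * ∫ z, z ∂G := by
    rw [← mu_smul h0 h2 hμ hs.le]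
    refine (abs_mu_sub_le h0 h2 hμ _ _).trans ?_
    have h1 : l1 (s • w - toR x) ≤ 4 := by
      have h3 : s • w - toR x = (s • w - toR (fl w s)) + toR (fl w s - x) := by
        rw [toR_sub]; abel
      rw [h3]
      refine (l1_add_le _ _).trans ?_
      rw [l1_toR]
      have h4 : n1 (fl w s - x) ≤ 2 := by rwa [← neg_sub, n1_neg]
      have h5 : (n1 (fl w s - x) : ℝ) ≤ 2 := by exact_mod_cast h4
      linarith [l1_fl w s]
    nlinarith
  have hb : ∀ᵐ t ∂(iidLaw G), |passageTime t 0 x - μ (toR x)| ≤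
      s * |passageTime t 0 (fl w s) / s - μ w| + passageTime t x (fl w s)
        + 4 * ∫ z, z ∂G := by
    filter_upwards [ae_Nn (G := G) h0] with t ht
    have e1 : s * |passageTime t 0 (fl w s) / s - μ w| = |passageTime t 0 (fl w s) - s * μ w| := by
      rw [← abs_of_pos hs, ← abs_mul, abs_of_pos hs]
      congr 1
      field_simp
    rw [e1]
    have t1 := pt_triangle ht 0 x (fl w s)
    have t2 := pt_triangle ht 0 (fl w s) x
    rw [pt_symm ht (fl w s) x] at t2
    have e2 : |passageTime t 0 x - passageTime t 0 (fl w s)| ≤ passageTime t x (fl w s) := by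
      rw [abs_le]; constructor <;> linarith
    calc |passageTime t 0 x - μ (toR x)|
        = |(passageTime t 0 x - passageTime t 0 (fl w s)) +
            (passageTime t 0 (fl w s) - s * μ w) + (s * μ w - μ (toR x))| := by congr 1; ring
      _ ≤ |passageTime t 0 x - passageTime t 0 (fl w s)| +
            |passageTime t 0 (fl w s) - s * μ w| + |s * μ w - μ (toR x)| := abs_add_three _ _ _
      _ ≤ _ := by linarith
  refine (integral_mono_ae hI3 (((hI1.const_mul s).add hI2).add (integrable_const _)) hb).trans ?_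
  have e9 := integral_add3 (4 * ∫ z, z ∂G) (hI1.const_mul s) hI2
  refine e9.le.trans ?_
  rw [integral_const_mul]
  have h6 := integral_pt_le h0 h2 x (fl w s)
  have h4 : n1 (fl w s - x) ≤ 2 := by rwa [← neg_sub, n1_neg]
  have h5 : (n1 (fl w s - x) : ℝ) ≤ 2 := by exact_mod_cast h4
  nlinarith

lemma pairErr_tendsto (h0 : G (Set.Iio 0) = 0) (h2 : Integrable (fun x : ℝ => x ^ 2) G)
    (hμ : IsTC G μ) (K : ℕ) (p : (ℤ × ℤ) × (ℤ × ℤ)) :
    Tendsto (fun n : ℕ => (∫ t, pairErr μ K n p t ∂(iidLaw G)) / n) atTop (nhds 0) := by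
  set v : ℝ × ℝ := ((p.1.1 : ℝ) / K, (p.1.2 : ℝ) / K) with hv
  set w : ℝ × ℝ := ((p.2.1 : ℝ) / K, (p.2.2 : ℝ) / K) - v with hw
  have hvw : v + w = ((p.2.1 : ℝ) / K, (p.2.2 : ℝ) / K) := by rw [hw]; abel
  have h1 := (l1conv h0 h2 hμ w).comp tendsto_natCast_atTop_atTop
  have h3 : Tendsto (fun n : ℕ => (6 * ∫ z, z ∂G) / (n : ℝ)) atTop (nhds 0) :=
    tendsto_const_div_atTop_nhds_zero_nat _
  have h4 := h1.add h3
  rw [add_zero] at h4
  refine squeeze_zero' ?_ ?_ h4
  · filter_upwards with n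
    exact div_nonneg (integral_nonneg fun t => abs_nonneg _) (Nat.cast_nonneg _)
  · filter_upwards [eventually_gt_atTop 0] with n hn
    have hn' : (0 : ℝ) < n := by exact_mod_cast hn
    have h5 : ∫ t, pairErr μ K n p t ∂(iidLaw G)
        = ∫ t, |passageTime t 0 (gp K n p.2 - gp K n p.1)
            - μ (toR (gp K n p.2 - gp K n p.1))| ∂(iidLaw G) := by
      unfold pairErr
      exact integral_comp_pt (G := G) (fun r => |r - μ (toR (gp K n p.2 - gp K n p.1))|)
        ((measurable_id.sub_const _).abs) _ _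
    have h6 := pairErr_le h0 h2 hμ v w hn' (gp K n p.2 - gp K n p.1) (by
      rw [hvw]; rfl)
    rw [h5, div_le_iff₀ hn']
    refine h6.trans (le_of_eq ?_)
    simp only [Function.comp_apply]
    field_simp

/-- **Uniform shape theorem** (dominated form). -/
theorem uniform_shape_dom (h0 : G (Set.Iio 0) = 0) (hlam : 0 < lam)
    (hexp : Integrable (fun x => Real.exp (lam * x)) G) (hμ : IsTC G μ) {ε : ℝ} (hε : 0 < ε) :
    ∃ n0 : ℕ, ∀ n ≥ n0, ∃ D : Environment → ℝ, Integrable D (iidLaw G) ∧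
      ∫ t, D t ∂(iidLaw G) ≤ ε * n ∧
      ∀ t, Nn t → ∀ x ∈ box n, ∀ y ∈ box n,
        |passageTime t x y - μ (toR (y - x))| ≤ D t := by
  have h2 := integrable_sq h0 hlam hexp
  have hm : (0 : ℝ) ≤ ∫ z, z ∂G := integral_nonneg_of_ae (ae_nonneg h0)
  have hM1 := one_le_M h0 hlam hexp
  obtain ⟨M, hM⟩ : ∃ M, M = ∫ x, Real.exp (lam * x) ∂G := ⟨_, rfl⟩
  rw [← hM] at hM1
  have hlogM : 0 ≤ Real.log M := Real.log_nonneg hM1
  obtain ⟨m1, hm1⟩ : ∃ m1, m1 = ∫ z, z ∂G := ⟨_, rfl⟩
  rw [← hm1] at hm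
  -- the constant in front of `L`
  set c : ℝ := 2 * Real.log M / lam + 2 * m1 with hc
  have hc0 : 0 ≤ c := by positivity
  obtain ⟨K, hK0, hK⟩ : ∃ K : ℕ, 0 < K ∧ 4 * c / K ≤ ε := by
    obtain ⟨K, hK⟩ := exists_nat_gt (4 * c / ε)
    refine ⟨K + 1, Nat.succ_pos _, ?_⟩
    rw [div_le_iff₀ (by positivity)]
    rw [div_lt_iff₀ hε] at hK
    push_cast
    nlinarith
  have hKR : (0 : ℝ) < K := by exact_mod_cast hK0
  -- the remainder
  have hrem : Tendsto (fun n : ℕ => (∑ p ∈ box K ×ˢ box K, ∫ t, pairErr μ K n p t ∂(iidLaw G)) / n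
      + ((4 * Real.log (2 * n + 1)) / lam + 2 / lam + 2 * c) / n) atTop (nhds 0) := by
    have e1 : Tendsto (fun n : ℕ => (∑ p ∈ box K ×ˢ box K,
        ∫ t, pairErr μ K n p t ∂(iidLaw G)) / n) atTop (nhds 0) := by
      have := tendsto_finsetSum (box K ×ˢ box K) fun p _ => pairErr_tendsto h0 h2 hμ K p
      simpa [Finset.sum_div] using this
    have e2 : Tendsto (fun n : ℕ => ((4 * Real.log (2 * n + 1)) / lam + 2 / lam + 2 * c) / (n : ℝ))
        atTop (nhds 0) := by
      have l1 : Tendsto (fun x : ℝ => Real.log x / x) atTop (nhds 0) := by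
        have := Real.isLittleO_log_id_atTop.tendsto_div_nhds_zero
        simpa using this
      have l2 : Tendsto (fun n : ℕ => (2 * (n : ℝ) + 1)) atTop atTop :=
        tendsto_atTop_add_const_right _ _
          (tendsto_natCast_atTop_atTop.const_mul_atTop (by norm_num))
      have l3 := l1.comp l2
      have l4 : Tendsto (fun n : ℕ => (2 * (n : ℝ) + 1) / n) atTop (nhds 2) := by
        have : Tendsto (fun n : ℕ => 2 + 1 / (n : ℝ)) atTop (nhds (2 + 0)) :=
          tendsto_const_nhds.add tendsto_one_div_atTop_nhds_zero_nat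
        rw [add_zero] at this
        refine this.congr' ?_
        filter_upwards [eventually_gt_atTop 0] with n hn
        have : (0 : ℝ) < n := by exact_mod_cast hn
        field_simp
      have l5 := l3.mul l4
      have l6 : Tendsto (fun n : ℕ => Real.log (2 * (n : ℝ) + 1) / n) atTop (nhds 0) := by
        rw [zero_mul] at l5
        refine l5.congr' ?_
        filter_upwards [eventually_gt_atTop 0] with n hn
        have h1 : (0 : ℝ) < n := by exact_mod_cast hn
        have h2 : (0 : ℝ) < 2 * (n : ℝ) + 1 := by positivity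
        simp only [Function.comp_apply]
        field_simp
      have l7 := (l6.const_mul (4 / lam)).add
        ((tendsto_const_div_atTop_nhds_zero_nat (2 / lam + 2 * c)))
      rw [mul_zero, add_zero] at l7
      refine l7.congr fun n => ?_
      ring
    simpa using e1.add e2
  have hev := (hrem.eventually_le_const (show (0 : ℝ) < ε / 2 by positivity))
  rw [eventually_atTop] at hev
  obtain ⟨n1', hn1'⟩ := hev
  refine ⟨max n1' 1, fun n hn => ?_⟩
  have hn1 : n1' ≤ n := (le_max_left _ _).trans hn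
  have hnpos : 0 < n := (le_max_right _ _).trans hn
  have hnR : (0 : ℝ) < n := by exact_mod_cast hnpos
  set L : ℕ := 2 * (n / K + 1) with hL
  obtain ⟨A, hA1, hA2⟩ := integral_soft' h0 hlam hexp (box n) ⟨0, zero_mem_box n⟩
    (fun x => gp K n (gi K n x)) L (fun x _ => gp_gi_close hK0 hnpos x)
  refine ⟨fun t => ∑ p ∈ box K ×ˢ box K, pairErr μ K n p t
    + 2 * soft lam A (box n) (fun x => gp K n (gi K n x)) t + 2 * (m1 * L), ?_, ?_, ?_⟩
  · have hp : ∀ p, Integrable (pairErr μ K n p) (iidLaw G) := fun p =>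
      ((integrable_pt h0 h2 _ _).sub (integrable_const _)).abs
    exact ((integrable_finsetSum _ fun p _ => hp p).add (hA1.const_mul 2)).add
      (integrable_const _)
  · have hp : ∀ p, Integrable (pairErr μ K n p) (iidLaw G) := fun p =>
      ((integrable_pt h0 h2 _ _).sub (integrable_const _)).abs
    have hsum : Integrable (fun t => ∑ p ∈ box K ×ˢ box K, pairErr μ K n p t) (iidLaw G) :=
      integrable_finsetSum _ fun p _ => hp p
    refine (integral_add3 (2 * (m1 * L)) hsum (hA1.const_mul 2)).le.trans ?_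
    rw [integral_finsetSum _ fun p _ => hp p, integral_const_mul]
    have h5 := hn1' n hn1
    rw [← add_div, div_le_iff₀ hnR] at h5
    have hcard : Real.log ((box n).card : ℝ) = 2 * Real.log (2 * n + 1) := by
      rw [card_box]; push_cast
      rw [Real.log_pow]; norm_num
    rw [hcard, ← hM] at hA2
    have hLR : (L : ℝ) ≤ 2 * n / K + 2 := by
      rw [hL]
      push_cast
      rw [mul_div_assoc]
      have h9 : ((n / K : ℕ) : ℝ) ≤ (n : ℝ) / K := Nat.cast_div_le
      linarith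
    have h6 : c * (2 * n / K + 2) ≤ ε / 2 * n + 2 * c := by
      have h7 : 4 * c ≤ ε * K := by rwa [div_le_iff₀ hKR] at hK
      have h8 : c * (2 * n / K) ≤ ε / 2 * n := by
        rw [mul_div_assoc', div_le_iff₀ hKR]
        nlinarith
      linarith
    have h7 : 2 * ((2 * Real.log (2 * n + 1) + L * Real.log M + 1) / lam) + 2 * (m1 * L)
        = c * L + (4 * Real.log (2 * n + 1)) / lam + 2 / lam := by
      rw [hc]; ring
    have h8 : c * L ≤ c * (2 * n / K + 2) := by gcongr
    linarith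
  · intro t ht x hx y hy
    set zx := gp K n (gi K n x) with hzx
    set zy := gp K n (gi K n y) with hzy
    have a1 := le_soft hlam (A := A) (z := fun x => gp K n (gi K n x)) t hx
    have a2 := le_soft hlam (A := A) (z := fun x => gp K n (gi K n x)) t hy
    simp only [← hzx, ← hzy] at a1 a2
    have a3 : pairErr μ K n (gi K n x, gi K n y) t ≤ ∑ p ∈ box K ×ˢ box K, pairErr μ K n p t := by
      refine Finset.single_le_sum (f := fun p => pairErr μ K n p t)
        (fun p _ => abs_nonneg _) ?_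
      rw [Finset.mem_product]
      exact ⟨gi_mem hnpos hx, gi_mem hnpos hy⟩
    have a4 : |passageTime t x y - passageTime t zx zy|
        ≤ passageTime t x zx + passageTime t y zy := by
      have t1 := pt_triangle ht x zx y
      have t2 := pt_triangle ht zx zy y
      have t3 := pt_triangle ht zx x zy
      have t4 := pt_triangle ht x y zy
      rw [pt_symm ht zy y] at t2
      rw [pt_symm ht zx x] at t3
      rw [abs_le]; constructor <;> linarith
    have a5 : |μ (toR (zy - zx)) - μ (toR (y - x))| ≤ 2 * (m1 * L) := by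
      refine (abs_mu_sub_le h0 h2 hμ _ _).trans ?_
      have b1 : toR (zy - zx) - toR (y - x) = toR (zy - y) + -toR (zx - x) := by
        simp only [toR_sub]; abel
      rw [b1]
      have b2 := l1_add_le (toR (zy - y)) (-toR (zx - x))
      have b3 : l1 (-toR (zx - x)) = l1 (toR (zx - x)) := by simp [l1]
      rw [b3, l1_toR, l1_toR] at b2
      have b4 : (n1 (zy - y) : ℝ) ≤ L := by exact_mod_cast gp_gi_close hK0 hnpos y
      have b5 : (n1 (zx - x) : ℝ) ≤ L := by exact_mod_cast gp_gi_close hK0 hnpos x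
      rw [← hm1]
      nlinarith
    have a6 : pairErr μ K n (gi K n x, gi K n y) t
        = |passageTime t zx zy - μ (toR (zy - zx))| := rfl
    calc |passageTime t x y - μ (toR (y - x))|
        = |(passageTime t x y - passageTime t zx zy) + (passageTime t zx zy - μ (toR (zy - zx)))
            + (μ (toR (zy - zx)) - μ (toR (y - x)))| := by congr 1; ring
      _ ≤ |passageTime t x y - passageTime t zx zy| + |passageTime t zx zy - μ (toR (zy - zx))|
            + |μ (toR (zy - zx)) - μ (toR (y - x))| := abs_add_three _ _ _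
      _ ≤ _ := by rw [← a6]; linarith

/-- The largest deviation from the time constant between points of the box of radius `n`. -/
noncomputable def dev (μ : ℝ × ℝ → ℝ) (n : ℕ) (t : Environment) : ℝ :=
  (box n ×ˢ box n).sup' ⟨(0, 0), Finset.mem_product.2 ⟨zero_mem_box n, zero_mem_box n⟩⟩
    fun p => |passageTime t p.1 p.2 - μ (toR (p.2 - p.1))|

lemma le_dev (μ : ℝ × ℝ → ℝ) {n : ℕ} (t : Environment) {x y : ℤ × ℤ} (hx : x ∈ box n)
    (hy : y ∈ box n) : |passageTime t x y - μ (toR (y - x))| ≤ dev μ n t :=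
  Finset.le_sup' (fun p : (ℤ × ℤ) × (ℤ × ℤ) => |passageTime t p.1 p.2 - μ (toR (p.2 - p.1))|)
    (Finset.mem_product.2 ⟨hx, hy⟩ : (x, y) ∈ box n ×ˢ box n)

lemma dev_nonneg (μ : ℝ × ℝ → ℝ) (n : ℕ) (t : Environment) : 0 ≤ dev μ n t :=
  (abs_nonneg _).trans (le_dev μ t (zero_mem_box n) (zero_mem_box n))

lemma measurable_dev (μ : ℝ × ℝ → ℝ) (n : ℕ) : Measurable (dev μ n) := by
  have h : dev μ n = (box n ×ˢ box n).sup'
      ⟨(0, 0), Finset.mem_product.2 ⟨zero_mem_box n, zero_mem_box n⟩⟩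
      (fun p t => |passageTime t p.1 p.2 - μ (toR (p.2 - p.1))|) := by
    funext t
    exact (Finset.sup'_apply (C := fun _ : Environment => ℝ) (s := box n ×ˢ box n)
      ⟨(0, 0), Finset.mem_product.2 ⟨zero_mem_box n, zero_mem_box n⟩⟩
      (fun p t => |passageTime t p.1 p.2 - μ (toR (p.2 - p.1))|) t).symm
  rw [h]
  refine Finset.measurable_sup' _ fun p _ => ?_
  exact ((measurable_pt p.1 p.2).sub_const _).abs

/-- **Uniform shape theorem**: `E sup_{x, y ∈ box n} |T(x,y) - μ(y-x)| ≤ ε n`. -/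
theorem uniform_shape (h0 : G (Set.Iio 0) = 0) (hlam : 0 < lam)
    (hexp : Integrable (fun x => Real.exp (lam * x)) G) (hμ : IsTC G μ) {ε : ℝ} (hε : 0 < ε) :
    ∃ n0 : ℕ, ∀ n ≥ n0, Integrable (dev μ n) (iidLaw G) ∧
      ∫ t, dev μ n t ∂(iidLaw G) ≤ ε * n := by
  obtain ⟨n0, hn0⟩ := uniform_shape_dom h0 hlam hexp hμ hε
  refine ⟨n0, fun n hn => ?_⟩
  obtain ⟨D, hD1, hD2, hD3⟩ := hn0 n hn
  have hle : ∀ᵐ t ∂(iidLaw G), dev μ n t ≤ D t := by
    filter_upwards [ae_Nn (G := G) h0] with t ht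
    refine Finset.sup'_le _ _ fun p hp => ?_
    rw [Finset.mem_product] at hp
    exact hD3 t ht p.1 hp.1 p.2 hp.2
  have hi : Integrable (dev μ n) (iidLaw G) := by
    refine hD1.mono' (measurable_dev μ n).aestronglyMeasurable ?_
    filter_upwards [hle] with t ht
    rwa [Real.norm_eq_abs, abs_of_nonneg (dev_nonneg μ n t)]
  exact ⟨hi, (integral_mono_ae hi hD1 hle).trans hD2⟩

/-- Probability form. -/
theorem uniform_shape_prob (h0 : G (Set.Iio 0) = 0) (hlam : 0 < lam)
    (hexp : Integrable (fun x => Real.exp (lam * x)) G) (hμ : IsTC G μ) {ε : ℝ} (hε : 0 < ε) :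
    ∃ n0 : ℕ, ∀ n ≥ n0, (iidLaw G).real {t | ε * n ≤ dev μ n t} ≤ ε := by
  obtain ⟨n0, hn0⟩ := uniform_shape h0 hlam hexp hμ (ε := ε ^ 2) (by positivity)
  refine ⟨max n0 1, fun n hn => ?_⟩
  obtain ⟨h1, h2⟩ := hn0 n ((le_max_left _ _).trans hn)
  have hn1 : 0 < n := (le_max_right _ _).trans hn
  have hn' : (0 : ℝ) < n := by exact_mod_cast hn1
  have h3 := mul_meas_ge_le_integral_of_nonneg
    (Filter.Eventually.of_forall fun t => dev_nonneg μ n t) h1 (ε * n)
  have h4 : ε * n * (iidLaw G).real {t | ε * n ≤ dev μ n t} ≤ ε ^ 2 * n := h3.trans h2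
  have h5 : (0 : ℝ) < ε * n := by positivity
  have h6 : ε * n * (iidLaw G).real {t | ε * n ≤ dev μ n t} ≤ ε * n * ε := by
    calc _ ≤ ε ^ 2 * n := h4
      _ = ε * n * ε := by ring
  exact le_of_mul_le_mul_left h6 h5

/-! ### The Gamma law -/

lemma gamma_Iio (κ r : ℝ) : gammaMeasure κ r (Set.Iio 0) = 0 := by
  unfold gammaMeasure
  rw [withDensity_apply _ measurableSet_Iio]
  exact lintegral_gammaPDF_of_nonpos le_rfl

lemma gamma_exp {κ r : ℝ} (hκ : 0 < κ) (hr : 0 < r) :
    Integrable (fun x => Real.exp (r / 2 * x)) (gammaMeasure κ r) := by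
  have hmeas : Measurable fun x : ℝ => Real.exp (r / 2 * x) := by fun_prop
  refine ⟨hmeas.aestronglyMeasurable, ?_⟩
  rw [hasFiniteIntegral_iff_ofReal (Filter.Eventually.of_forall fun x => Real.exp_nonneg _)]
  unfold gammaMeasure
  rw [lintegral_withDensity_eq_lintegral_mul _
    (show Measurable (gammaPDF κ r) from (measurable_gammaPDFReal κ r).ennreal_ofReal)
    hmeas.ennreal_ofReal]
  have key : ∀ x : ℝ, (gammaPDF κ r * fun x => ENNReal.ofReal (Real.exp (r / 2 * x))) x
      = ENNReal.ofReal ((2 : ℝ) ^ κ) * gammaPDF κ (r / 2) x := by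
    intro x
    simp only [Pi.mul_apply]
    rcases lt_or_ge x 0 with hx | hx
    · rw [gammaPDF_of_neg hx, gammaPDF_of_neg hx]; simp
    · rw [gammaPDF_of_nonneg hx, gammaPDF_of_nonneg hx,
        ← ENNReal.ofReal_mul (by
          have := Real.Gamma_pos_of_pos hκ
          positivity), ← ENNReal.ofReal_mul (by positivity)]
      congr 1
      have e1 : r ^ κ = 2 ^ κ * (r / 2) ^ κ := by
        rw [← Real.mul_rpow (by norm_num) (by positivity)]
        congr 1; ring
      have e2 : Real.exp (-(r * x)) * Real.exp (r / 2 * x) = Real.exp (-(r / 2 * x)) := by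
        rw [← Real.exp_add]; congr 1; ring
      rw [e1, ← e2]
      ring
  have hcongr : ∀ᵐ x ∂(volume : Measure ℝ),
      (gammaPDF κ r * fun x => ENNReal.ofReal (Real.exp (r / 2 * x))) x
      = ENNReal.ofReal ((2 : ℝ) ^ κ) * gammaPDF κ (r / 2) x := Filter.Eventually.of_forall key
  rw [lintegral_congr_ae hcongr, lintegral_const_mul' _ _ ENNReal.ofReal_ne_top,
    lintegral_gammaPDF_eq_one hκ (by positivity), mul_one]
  exact ENNReal.ofReal_lt_top

end Crest.Agent.R151.K
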