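import Crest.Agent.R151.K6

/-!
# R151/K7 — the almost sure shape theorem (owner helper507)
-/

set_option autoImplicit false

open MeasureTheory Filter ProbabilityTheory
open Crest.ProbabilityR.FirstPassage

namespace Crest.Agent.R151.K

variable {μ : ℝ × ℝ → ℝ} {G : Measure ℝ} [IsProbabilityMeasure G] {lam : ℝ}

/-- Chernoff bound from above for one passage time. -/
lemma chernoff_up (h0 : G (Set.Iio 0) = 0) (hlam : 0 < lam)
    (hexp : Integrable (fun x => Real.exp (lam * x)) G) {A : ℝ}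
    (hA : Real.log (∫ x, Real.exp (lam * x) ∂G) + 1 ≤ lam * A) (x y : ℤ × ℤ) (L : ℕ)
    (hL : n1 (y - x) ≤ L) :
    (iidLaw G).real {t | A * L ≤ passageTime t x y} ≤ Real.exp (-(L : ℝ)) := by
  obtain ⟨h1, h2⟩ := exp_pt h0 hlam hexp x y
  have hM := one_le_M h0 hlam hexp
  set M := ∫ x, Real.exp (lam * x) ∂G with hMdef
  have h3 := mul_meas_ge_le_integral_of_nonneg (μ := iidLaw G)
    (f := fun t : Environment => Real.exp (lam * passageTime t x y))
    (Filter.Eventually.of_forall fun t => Real.exp_nonneg _) h1 (Real.exp (lam * (A * L)))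
  have h4 : (iidLaw G).real {t : Environment | A * L ≤ passageTime t x y} ≤
      (iidLaw G).real {t | Real.exp (lam * (A * L)) ≤ Real.exp (lam * passageTime t x y)} := by
    refine measureReal_mono ?_
    intro t ht
    simp only [Set.mem_ofPred_eq] at ht ⊢
    exact Real.exp_le_exp.2 (mul_le_mul_of_nonneg_left ht hlam.le)
  have h5 : M ^ (n1 (y - x)) ≤ M ^ L := pow_le_pow_right₀ hM hL
  have hpos : 0 < Real.exp (lam * (A * L)) := Real.exp_pos _
  have h6 : Real.exp (lam * (A * L)) * (iidLaw G).real {t : Environment | A * L ≤ passageTime t x y}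
      ≤ M ^ L := (mul_le_mul_of_nonneg_left h4 hpos.le).trans (h3.trans (h2.trans h5))
  have h7 : M ^ L * Real.exp L ≤ Real.exp (lam * (A * L)) := by
    have e1 : M ^ L = Real.exp (L * Real.log M) := by
      rw [mul_comm, Real.exp_mul, Real.exp_log (by linarith), Real.rpow_natCast]
    rw [e1, ← Real.exp_add, Real.exp_le_exp]
    have : (0 : ℝ) ≤ L := Nat.cast_nonneg L
    nlinarith
  have h8 : (iidLaw G).real {t : Environment | A * L ≤ passageTime t x y}
      ≤ M ^ L / Real.exp (lam * (A * L)) := by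
    rw [le_div_iff₀ hpos, mul_comm]
    exact h6
  refine h8.trans ?_
  rw [div_le_iff₀ hpos, Real.exp_neg, ← div_eq_inv_mul, le_div_iff₀ (Real.exp_pos _)]
  exact h7

/-- Borel–Cantelli in real form. -/
lemma borel_cantelli {Ω : Type*} [MeasurableSpace Ω] {P : Measure Ω} [IsProbabilityMeasure P]
    {s : ℕ → Set Ω} {b : ℕ → ℝ} (hb : Summable b) (h : ∀ n, P.real (s n) ≤ b n) :
    ∀ᵐ ω ∂P, ∀ᶠ n in atTop, ω ∉ s n := by
  refine ae_eventually_notMem ?_
  have h1 : ∀ n, P (s n) ≤ ENNReal.ofReal (b n) := by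
    intro n
    rw [← ofReal_measureReal]
    exact ENNReal.ofReal_le_ofReal (h n)
  have hb0 : ∀ n, 0 ≤ b n := fun n => measureReal_nonneg.trans (h n)
  refine ne_top_of_le_ne_top ?_ (ENNReal.tsum_le_tsum h1)
  rw [← ENNReal.ofReal_tsum_of_nonneg hb0 hb]
  exact ENNReal.ofReal_ne_top




end Crest.Agent.R151.K
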