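import Crest.Agent.R151.K1c
import Crest.Agent.R151.K2b
import Crest.Agent.R151.C710c
import Crest.Agent.R151.K7
import Crest.Agent.R151.K4a

-- ▼ part R151/C710a
section

/-!
# R151 / S0214 part 2, module C1 (rate), deterministic part (helper710)

`e : ℤ² → ℝ≥0` subadditive, `e y ≤ C |y|`.  `Comb e u x c`: the real vector `u` is a conic
combination of two lattice vectors of size `≤ x`, of total `e`-cost `≤ c`.
-/

set_option autoImplicit false

namespace Crest.Agent.R151.C710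

open Crest.Agent.R151.K Finset

/-! ### Carathéodory for conic combinations with a cost -/

/-- three vectors of the plane are linearly dependent -/
lemma exists_dependence (v1 v2 v3 : ℝ × ℝ) :
    ∃ c1 c2 c3 : ℝ, (c1 ≠ 0 ∨ c2 ≠ 0 ∨ c3 ≠ 0) ∧ c1 • v1 + c2 • v2 + c3 • v3 = 0 := by
  by_cases h12 : v1.1 * v2.2 - v1.2 * v2.1 = 0
  · -- v1, v2 dependent
    by_cases h1 : v1 = 0
    · exact ⟨1, 0, 0, Or.inl one_ne_zero, by simp [h1]⟩
    · by_cases hx : v1.1 = 0
      · have hy : v1.2 ≠ 0 := fun hy => h1 (Prod.ext hx hy)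
        refine ⟨v2.2, -v1.2, 0, Or.inr (Or.inl (neg_ne_zero.mpr hy)), ?_⟩
        apply Prod.ext
        · simp only [Prod.fst_add, Prod.smul_fst, smul_eq_mul, Prod.fst_zero]
          rw [hx] at h12 ⊢
          linarith
        · simp only [Prod.snd_add, Prod.smul_snd, smul_eq_mul, Prod.snd_zero]; ring
      · refine ⟨v2.1, -v1.1, 0, Or.inr (Or.inl (neg_ne_zero.mpr hx)), ?_⟩
        apply Prod.ext
        · simp only [Prod.fst_add, Prod.smul_fst, smul_eq_mul, Prod.fst_zero]; ring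
        · simp only [Prod.snd_add, Prod.smul_snd, smul_eq_mul, Prod.snd_zero]; linarith
  · refine ⟨v2.1 * v3.2 - v2.2 * v3.1, v3.1 * v1.2 - v3.2 * v1.1, v1.1 * v2.2 - v1.2 * v2.1,
      Or.inr (Or.inr h12), ?_⟩
    apply Prod.ext
    · simp only [Prod.fst_add, Prod.smul_fst, smul_eq_mul, Prod.fst_zero]; ring
    · simp only [Prod.snd_add, Prod.smul_snd, smul_eq_mul, Prod.snd_zero]; ring

variable {ι : Type*} [DecidableEq ι]

/-- one reduction step -/
lemma reduce_step (s : Finset ι) (hs : 2 < s.card) (v : ι → ℝ × ℝ) (e : ι → ℝ)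
    (he : ∀ i, 0 ≤ e i) (t : ι → ℝ) (ht : ∀ i, 0 ≤ t i) :
    ∃ i ∈ s, ∃ t' : ι → ℝ, (∀ i, 0 ≤ t' i) ∧ ∑ j ∈ s.erase i, t' j • v j = ∑ j ∈ s, t j • v j ∧
      ∑ j ∈ s.erase i, t' j * e j ≤ ∑ j ∈ s, t j * e j := by
  classical
  obtain ⟨i1, i2, i3, h1, h2, h3, h12, h13, h23⟩ := Finset.two_lt_card_iff.mp hs
  obtain ⟨c1, c2, c3, hc, hdep⟩ := exists_dependence (v i1) (v i2) (v i3)
  -- the coefficient function of the dependence, with the right sign
  obtain ⟨c, hcv, hce, hneg⟩ : ∃ c : ι → ℝ, (∑ j ∈ s, c j • v j = 0) ∧ (∑ j ∈ s, c j * e j ≤ 0) ∧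
      ∃ j ∈ s, c j < 0 := by
    set d : ι → ℝ := fun j => (if j = i1 then c1 else 0) + (if j = i2 then c2 else 0) +
      (if j = i3 then c3 else 0) with hd
    have hdv : ∑ j ∈ s, d j • v j = 0 := by
      simp only [hd, add_smul, ite_smul, zero_smul, Finset.sum_add_distrib,
        Finset.sum_ite_eq', h1, h2, h3, if_true]
      exact hdep
    have hdne : ∃ j ∈ s, d j ≠ 0 := by
      rcases hc with hc | hc | hc
      · exact ⟨i1, h1, by simp [hd, h12, h13, hc]⟩
      · exact ⟨i2, h2, by simp [hd, Ne.symm h12, h23, hc]⟩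
      · exact ⟨i3, h3, by simp [hd, Ne.symm h13, Ne.symm h23, hc]⟩
    have key : ∀ d : ι → ℝ, (∑ j ∈ s, d j • v j = 0) → (∃ j ∈ s, d j ≠ 0) →
        (∑ j ∈ s, d j * e j ≤ 0) → ∃ c : ι → ℝ, (∑ j ∈ s, c j • v j = 0) ∧
          (∑ j ∈ s, c j * e j ≤ 0) ∧ ∃ j ∈ s, c j < 0 := by
      intro d hdv hdne hde
      by_cases hn : ∃ j ∈ s, d j < 0
      · exact ⟨d, hdv, hde, hn⟩
      · push Not at hn
        have h0 : ∑ j ∈ s, d j * e j = 0 :=
          le_antisymm hde (Finset.sum_nonneg fun j hj => mul_nonneg (hn j hj) (he j))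
        obtain ⟨j, hj, hdj⟩ := hdne
        refine ⟨fun j => - d j, ?_, ?_, j, hj, ?_⟩
        · simp only [neg_smul, Finset.sum_neg_distrib, hdv, neg_zero]
        · simp only [neg_mul, Finset.sum_neg_distrib, h0, neg_zero, le_refl]
        · have := lt_of_le_of_ne (hn j hj) (Ne.symm hdj)
          linarith
    rcases le_total (∑ j ∈ s, d j * e j) 0 with h0 | h0
    · exact key d hdv hdne h0
    · refine key (fun j => - d j) ?_ ?_ ?_
      · simp only [neg_smul, Finset.sum_neg_distrib, hdv, neg_zero]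
      · obtain ⟨j, hj, hdj⟩ := hdne
        exact ⟨j, hj, neg_ne_zero.mpr hdj⟩
      · simp only [neg_mul, Finset.sum_neg_distrib]
        linarith
  -- the first index to vanish
  set s' := s.filter fun j => c j < 0 with hs'
  have hs'ne : s'.Nonempty := by
    obtain ⟨j, hj, hcj⟩ := hneg
    exact ⟨j, Finset.mem_filter.mpr ⟨hj, hcj⟩⟩
  obtain ⟨i, hi, hmin⟩ := Finset.exists_min_image s' (fun j => t j / (- c j)) hs'ne
  obtain ⟨his, hci⟩ := Finset.mem_filter.mp hi
  set σ := t i / (- c i) with hσ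
  have hσ0 : 0 ≤ σ := div_nonneg (ht i) (by linarith)
  have hti : t i + σ * c i = 0 := by
    rw [hσ]; field_simp [hci.ne]; ring
  have hnn : ∀ j ∈ s, 0 ≤ t j + σ * c j := by
    intro j hj
    by_cases hcj : c j < 0
    · have := hmin j (Finset.mem_filter.mpr ⟨hj, hcj⟩)
      have h4 : σ ≤ t j / (- c j) := this
      rw [le_div_iff₀ (by linarith)] at h4
      linarith
    · push Not at hcj
      have := ht j
      positivity
  refine ⟨i, his, fun j => if j ∈ s then t j + σ * c j else 0, ?_, ?_, ?_⟩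
  · intro j
    by_cases hj : j ∈ s
    · simp only [hj, if_true]; exact hnn j hj
    · simp [hj]
  · have e1 : ∑ j ∈ s.erase i, (if j ∈ s then t j + σ * c j else 0) • v j
        = ∑ j ∈ s, (t j + σ * c j) • v j := by
      rw [← Finset.add_sum_erase s _ his, hti, zero_smul, zero_add]
      apply Finset.sum_congr rfl
      intro j hj
      rw [if_pos (Finset.mem_of_mem_erase hj)]
    rw [e1]
    simp only [add_smul, mul_smul, Finset.sum_add_distrib, ← Finset.smul_sum, hcv, smul_zero,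
      add_zero]
  · have e1 : ∑ j ∈ s.erase i, (if j ∈ s then t j + σ * c j else 0) * e j
        = ∑ j ∈ s, (t j + σ * c j) * e j := by
      rw [← Finset.add_sum_erase s _ his, hti, zero_mul, zero_add]
      apply Finset.sum_congr rfl
      intro j hj
      rw [if_pos (Finset.mem_of_mem_erase hj)]
    rw [e1]
    have e2 : ∑ j ∈ s, (t j + σ * c j) * e j = ∑ j ∈ s, t j * e j + σ * ∑ j ∈ s, c j * e j := by
      rw [Finset.mul_sum, ← Finset.sum_add_distrib]
      apply Finset.sum_congr rfl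
      intro j _
      ring
    rw [e2]
    nlinarith

/-- **Conic Carathéodory with a cost**: two generators suffice. -/
theorem conic_two (s : Finset ι) (hs : s.Nonempty) (v : ι → ℝ × ℝ) (e : ι → ℝ)
    (he : ∀ i, 0 ≤ e i) (t : ι → ℝ) (ht : ∀ i, 0 ≤ t i) :
    ∃ i ∈ s, ∃ j ∈ s, ∃ p q : ℝ, 0 ≤ p ∧ 0 ≤ q ∧ p • v i + q • v j = ∑ k ∈ s, t k • v k ∧
      p * e i + q * e j ≤ ∑ k ∈ s, t k * e k := by
  induction hn : s.card using Nat.strong_induction_on generalizing s t with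
  | _ n ih =>
    by_cases hc : 2 < s.card
    · obtain ⟨i, hi, t', ht', h1, h2⟩ := reduce_step s hc v e he t ht
      have hcard : (s.erase i).card = s.card - 1 := Finset.card_erase_of_mem hi
      have hne : (s.erase i).Nonempty := by
        rw [← Finset.card_pos]; omega
      obtain ⟨a, ha, b, hb, p, q, hp, hq, h3, h4⟩ :=
        ih (s.erase i).card (by omega) (s.erase i) hne t' ht' rfl
      exact ⟨a, Finset.mem_of_mem_erase ha, b, Finset.mem_of_mem_erase hb, p, q, hp, hq,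
        h3.trans h1, h4.trans h2⟩
    · have hpos : 0 < s.card := Finset.card_pos.mpr hs
      have hc' : s.card = 1 ∨ s.card = 2 := by omega
      rcases hc' with h1 | h2
      · obtain ⟨i, rfl⟩ := Finset.card_eq_one.mp h1
        exact ⟨i, by simp, i, by simp, t i, 0, ht i, le_rfl, by simp, by simp⟩
      · obtain ⟨i, j, hij, rfl⟩ := Finset.card_eq_two.mp h2
        refine ⟨i, by simp, j, by simp, t i, t j, ht i, ht j, ?_, ?_⟩
        · rw [Finset.sum_pair hij]
        · rw [Finset.sum_pair hij]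

/-! ### The predicate `Comb` -/

/-- `u` is a conic combination of two lattice vectors of size `≤ x` with cost `≤ c` -/
def Comb (e : ℤ × ℤ → ℝ) (u : ℝ × ℝ) (x c : ℝ) : Prop :=
  ∃ y1 y2 : ℤ × ℤ, ∃ t1 t2 : ℝ, (n1 y1 : ℝ) ≤ x ∧ (n1 y2 : ℝ) ≤ x ∧ 0 ≤ t1 ∧ 0 ≤ t2 ∧
    t1 • toR y1 + t2 • toR y2 = u ∧ t1 * e y1 + t2 * e y2 ≤ c

lemma Comb.mono {e : ℤ × ℤ → ℝ} {u : ℝ × ℝ} {x x' c c' : ℝ} (h : Comb e u x c) (hx : x ≤ x')
    (hc : c ≤ c') : Comb e u x' c' := by
  obtain ⟨y1, y2, t1, t2, h1, h2, h3, h4, h5, h6⟩ := h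
  exact ⟨y1, y2, t1, t2, h1.trans hx, h2.trans hx, h3, h4, h5, h6.trans hc⟩

/-- the standing hypotheses on the excess `e` -/
structure Exc (e : ℤ × ℤ → ℝ) (C : ℝ) : Prop where
  nonneg : ∀ y, 0 ≤ e y
  add : ∀ y z, e (y + z) ≤ e y + e z
  le : ∀ y, e y ≤ C * n1 y

namespace Exc

variable {e : ℤ × ℤ → ℝ} {C : ℝ} (h : Exc e C)
include h

lemma C_nonneg : 0 ≤ C := by
  have := (h.nonneg (1, 0)).trans (h.le (1, 0))
  simpa [n1] using this

lemma zero : e 0 = 0 := by
  apply le_antisymm _ (h.nonneg 0)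
  simpa [n1] using h.le 0

lemma nsmul (k : ℕ) (y : ℤ × ℤ) : e (k • y) ≤ k * e y := by
  induction k with
  | zero => simp [h.zero]
  | succ k ih =>
    rw [succ_nsmul]
    refine (h.add _ _).trans ?_
    push_cast
    linarith

end Exc

lemma toR_add' (x y : ℤ × ℤ) : toR (x + y) = toR x + toR y := by
  simp [toR]

lemma toR_sub' (x y : ℤ × ℤ) : toR (x - y) = toR x - toR y := by
  simp [toR]

lemma toR_nsmul (k : ℕ) (y : ℤ × ℤ) : toR (k • y) = (k : ℝ) • toR y := by
  simp [toR]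

lemma toR_zero : toR 0 = 0 := by simp [toR]

lemma toR_sum {κ : Type*} (s : Finset κ) (f : κ → ℤ × ℤ) :
    toR (∑ i ∈ s, f i) = ∑ i ∈ s, toR (f i) := by
  classical
  induction s using Finset.induction_on with
  | empty => simp [toR_zero]
  | insert a s ha ih => rw [Finset.sum_insert ha, Finset.sum_insert ha, toR_add', ih]

lemma l1_smul (s : ℝ) (v : ℝ × ℝ) : l1 (s • v) = |s| * l1 v := by
  simp [l1, abs_mul]; ring

lemma n1_le_of_l1 {y : ℤ × ℤ} {D : ℝ} (h : l1 (toR y) ≤ D) : (n1 y : ℝ) ≤ D := by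
  rwa [l1_toR] at h

/-- step (i) -/
theorem Comb.upper {e : ℤ × ℤ → ℝ} {C : ℝ} (h : Exc e C) {u : ℝ × ℝ} {x c : ℝ}
    (hc : Comb e u x c) {M : ℝ} (hM : 0 ≤ M) {D : ℝ} {y : ℤ × ℤ}
    (hy : l1 (toR y - M • u) ≤ D) : e y ≤ M * c + C * (D + 2 * x) := by
  obtain ⟨y1, y2, t1, t2, h1, h2, h3, h4, h5, h6⟩ := hc
  set k1 := ⌊M * t1⌋₊ with hk1
  set k2 := ⌊M * t2⌋₊ with hk2
  have hx0 : 0 ≤ x := le_trans (by positivity) h1
  have hM1 : 0 ≤ M * t1 := by positivity
  have hM2 : 0 ≤ M * t2 := by positivity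
  have hk1' : (k1 : ℝ) ≤ M * t1 := Nat.floor_le hM1
  have hk2' : (k2 : ℝ) ≤ M * t2 := Nat.floor_le hM2
  have hk1'' : M * t1 < k1 + 1 := Nat.lt_floor_add_one _
  have hk2'' : M * t2 < k2 + 1 := Nat.lt_floor_add_one _
  set z := y - k1 • y1 - k2 • y2 with hz
  have hzR : toR z = (toR y - M • u) + ((M * t1 - k1) • toR y1 + (M * t2 - k2) • toR y2) := by
    rw [hz, toR_sub', toR_sub', toR_nsmul, toR_nsmul, ← h5]
    simp only [smul_add, smul_smul, sub_smul]
    abel
  have hzl : l1 (toR z) ≤ D + 2 * x := by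
    rw [hzR]
    refine (l1_add_le _ _).trans ?_
    have e1 : l1 ((M * t1 - k1) • toR y1) ≤ x := by
      rw [l1_smul, l1_toR, abs_of_nonneg (by linarith)]
      calc (M * t1 - k1) * (n1 y1 : ℝ) ≤ 1 * x := by
            apply mul_le_mul (by linarith) h1 (by positivity) zero_le_one
        _ = x := one_mul x
    have e2 : l1 ((M * t2 - k2) • toR y2) ≤ x := by
      rw [l1_smul, l1_toR, abs_of_nonneg (by linarith)]
      calc (M * t2 - k2) * (n1 y2 : ℝ) ≤ 1 * x := by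
            apply mul_le_mul (by linarith) h2 (by positivity) zero_le_one
        _ = x := one_mul x
    have := l1_add_le ((M * t1 - k1) • toR y1) ((M * t2 - k2) • toR y2)
    linarith
  have hyz : y = k1 • y1 + k2 • y2 + z := by rw [hz]; abel
  have a1 : e y ≤ e (k1 • y1) + e (k2 • y2) + e z := by
    conv_lhs => rw [hyz]
    refine (h.add _ _).trans ?_
    have := h.add (k1 • y1) (k2 • y2)
    linarith
  have a2 : e z ≤ C * (D + 2 * x) :=
    (h.le z).trans (mul_le_mul_of_nonneg_left (n1_le_of_l1 hzl) h.C_nonneg)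
  have a3 := h.nsmul k1 y1
  have a4 := h.nsmul k2 y2
  have a5 : (k1 : ℝ) * e y1 ≤ M * t1 * e y1 := mul_le_mul_of_nonneg_right hk1' (h.nonneg _)
  have a6 : (k2 : ℝ) * e y2 ≤ M * t2 * e y2 := mul_le_mul_of_nonneg_right hk2' (h.nonneg _)
  have a7 : M * (t1 * e y1 + t2 * e y2) ≤ M * c := mul_le_mul_of_nonneg_left h6 hM
  linarith

/-- the remainder vector as a conic combination of the four unit vectors -/
lemma unit_comb {e : ℤ × ℤ → ℝ} {C : ℝ} (h : Exc e C) (r : ℝ × ℝ) :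
    ∃ c : Fin 4 → ℝ, (∀ i, 0 ≤ c i) ∧
      ∑ i, c i • toR (![((1 : ℤ), (0 : ℤ)), (-1, 0), (0, 1), (0, -1)] i) = r ∧
      ∑ i, c i * e (![((1 : ℤ), (0 : ℤ)), (-1, 0), (0, 1), (0, -1)] i) ≤ C * l1 r := by
  refine ⟨![max r.1 0, max (-r.1) 0, max r.2 0, max (-r.2) 0], ?_, ?_, ?_⟩
  · intro i; fin_cases i <;> simp
  · rw [Fin.sum_univ_four]
    simp only [Matrix.cons_val_zero, Matrix.cons_val_one, Matrix.cons_val, toR]
    apply Prod.ext
    · simp only [Prod.fst_add, Prod.smul_fst, smul_eq_mul]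
      rcases le_total 0 r.1 with h1 | h1
      · rw [max_eq_left h1, max_eq_right (by linarith)]; push_cast; ring
      · rw [max_eq_right h1, max_eq_left (by linarith)]; push_cast; ring
    · simp only [Prod.snd_add, Prod.smul_snd, smul_eq_mul]
      rcases le_total 0 r.2 with h1 | h1
      · rw [max_eq_left h1, max_eq_right (show -r.2 ≤ 0 by linarith)]; push_cast; ring
      · rw [max_eq_right h1, max_eq_left (show 0 ≤ -r.2 by linarith)]; push_cast; ring
  · rw [Fin.sum_univ_four]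
    simp only [Matrix.cons_val_zero, Matrix.cons_val_one, Matrix.cons_val]
    have hC := h.C_nonneg
    have b1 : e (1, 0) ≤ C := by simpa [n1] using h.le (1, 0)
    have b2 : e (-1, 0) ≤ C := by simpa [n1] using h.le (-1, 0)
    have b3 : e (0, 1) ≤ C := by simpa [n1] using h.le (0, 1)
    have b4 : e (0, -1) ≤ C := by simpa [n1] using h.le (0, -1)
    have c1 : max r.1 0 * e (1, 0) ≤ max r.1 0 * C := mul_le_mul_of_nonneg_left b1 (le_max_right _ _)
    have c2 : max (-r.1) 0 * e (-1, 0) ≤ max (-r.1) 0 * C :=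
      mul_le_mul_of_nonneg_left b2 (le_max_right _ _)
    have c3 : max r.2 0 * e (0, 1) ≤ max r.2 0 * C := mul_le_mul_of_nonneg_left b3 (le_max_right _ _)
    have c4 : max (-r.2) 0 * e (0, -1) ≤ max (-r.2) 0 * C :=
      mul_le_mul_of_nonneg_left b4 (le_max_right _ _)
    have d1 : max r.1 0 + max (-r.1) 0 = |r.1| := by
      rcases le_total 0 r.1 with h1 | h1
      · rw [max_eq_left h1, max_eq_right (by linarith), abs_of_nonneg h1]; ring
      · rw [max_eq_right h1, max_eq_left (by linarith), abs_of_nonpos h1]; ring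
    have d2 : max r.2 0 + max (-r.2) 0 = |r.2| := by
      rcases le_total 0 r.2 with h1 | h1
      · rw [max_eq_left h1, max_eq_right (by linarith), abs_of_nonneg h1]; ring
      · rw [max_eq_right h1, max_eq_left (by linarith), abs_of_nonpos h1]; ring
    have : C * l1 r = (max r.1 0 + max (-r.1) 0) * C + (max r.2 0 + max (-r.2) 0) * C := by
      rw [d1, d2, l1]; ring
    rw [this]
    linarith

/-- step (ii), deterministic part: a skeleton gives a combination -/
theorem Comb.of_skeleton {e : ℤ × ℤ → ℝ} {C : ℝ} (h : Exc e C) {u : ℝ × ℝ} {x : ℝ} (hx : 1 ≤ x)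
    {m : ℕ} (inc : Fin m → ℤ × ℤ) (hinc : ∀ i, (n1 (inc i) : ℝ) ≤ x) {M : ℝ} (hM : 0 < M)
    {D : ℝ} (hsum : l1 (toR (∑ i, inc i) - M • u) ≤ D) {S : ℝ} (hS : ∑ i, e (inc i) ≤ S) :
    Comb e u x ((S + C * D) / M) := by
  classical
  set r : ℝ × ℝ := u - M⁻¹ • toR (∑ i, inc i) with hr
  have hrl : l1 r ≤ D / M := by
    have : r = (-M⁻¹) • (toR (∑ i, inc i) - M • u) := by
      rw [hr, smul_sub, smul_smul, neg_mul, inv_mul_cancel₀ hM.ne', neg_smul, neg_smul, one_smul]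
      abel
    rw [this, l1_smul, abs_neg, abs_of_pos (inv_pos.mpr hM)]
    rw [inv_mul_eq_div]
    gcongr
  obtain ⟨c, hc0, hcv, hce⟩ := unit_comb h r
  set U : Fin 4 → ℤ × ℤ := ![((1 : ℤ), (0 : ℤ)), (-1, 0), (0, 1), (0, -1)] with hU
  set Y : Fin m ⊕ Fin 4 → ℤ × ℤ := Sum.elim inc U with hY
  set t : Fin m ⊕ Fin 4 → ℝ := Sum.elim (fun _ => M⁻¹) c with ht
  have ht0 : ∀ i, 0 ≤ t i := by
    rintro (i | i)
    · simp only [ht, Sum.elim_inl]; positivity
    · simp only [ht, Sum.elim_inr]; exact hc0 i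
  obtain ⟨i, _, j, _, p, q, hp, hq, h1, h2⟩ := conic_two (Finset.univ : Finset (Fin m ⊕ Fin 4))
    ⟨Sum.inr 0, Finset.mem_univ _⟩ (fun k => toR (Y k)) (fun k => e (Y k)) (fun k => h.nonneg _) t ht0
  have hYn : ∀ k, (n1 (Y k) : ℝ) ≤ x := by
    rintro (k | k)
    · exact hinc k
    · refine le_trans ?_ hx
      simp only [hY, Sum.elim_inr, hU]
      fin_cases k <;> simp [n1]
  refine ⟨Y i, Y j, p, q, hYn i, hYn j, hp, hq, ?_, ?_⟩
  · rw [h1, Fintype.sum_sum_type]
    simp only [ht, hY, Sum.elim_inl, Sum.elim_inr]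
    rw [hcv, ← Finset.smul_sum, ← toR_sum, hr]
    abel
  · refine h2.trans ?_
    rw [Fintype.sum_sum_type]
    simp only [ht, hY, Sum.elim_inl, Sum.elim_inr]
    rw [← Finset.mul_sum, add_div, inv_mul_eq_div]
    apply add_le_add
    · gcongr
    · refine hce.trans ?_
      rw [mul_div_assoc]
      exact mul_le_mul_of_nonneg_left hrl h.C_nonneg

end Crest.Agent.R151.C710
end

-- ▼ part R151/C710b
section

/-!
# R151 / S0214 part 2, module C1 (rate), the iteration (helper710)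
-/

set_option autoImplicit false

namespace Crest.Agent.R151.C710

open Crest.Agent.R151.K Finset Filter Topology

/-- one step of (iii) -/
lemma comb_step {e : ℤ × ℤ → ℝ} {C : ℝ} (h : Exc e C) {u : ℝ × ℝ} {C1 x : ℝ} (hx : 1 ≤ x)
    (hii : ∀ X : ℤ × ℤ, l1 (toR X - x ^ (1.1 : ℝ) • u) ≤ 2 →
      Comb e u x (e X / x ^ (1.1 : ℝ) + C1 * x ^ (-0.06 : ℝ))) {c : ℝ}
    (hc : Comb e u (x ^ (1.04 : ℝ)) c) : Comb e u x (c + (4 * C + C1) * x ^ (-0.06 : ℝ)) := by
  have hx0 : 0 < x := by linarith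
  have hM : 0 < x ^ (1.1 : ℝ) := Real.rpow_pos_of_pos hx0 _
  set X : ℤ × ℤ := fl u (x ^ (1.1 : ℝ)) with hX
  have hXl : l1 (toR X - x ^ (1.1 : ℝ) • u) ≤ 2 := by
    have h1 := l1_fl u (x ^ (1.1 : ℝ))
    have h2 : toR X - x ^ (1.1 : ℝ) • u = (-1 : ℝ) • (x ^ (1.1 : ℝ) • u - toR X) := by
      simp
    rw [h2, l1_smul]
    simpa using h1
  have h3 := hc.upper h hM.le hXl
  refine (hii X hXl).mono le_rfl ?_
  have h4 : e X / x ^ (1.1 : ℝ) ≤ c + 4 * C * x ^ (-0.06 : ℝ) := by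
    rw [div_le_iff₀ hM]
    have h5 : x ^ (-0.06 : ℝ) * x ^ (1.1 : ℝ) = x ^ (1.04 : ℝ) := by
      rw [← Real.rpow_add hx0]; norm_num
    have h6 : (c + 4 * C * x ^ (-0.06 : ℝ)) * x ^ (1.1 : ℝ)
        = x ^ (1.1 : ℝ) * c + 4 * C * x ^ (1.04 : ℝ) := by
      rw [add_mul, mul_assoc (4 * C), h5]; ring
    rw [h6]
    have h7 : 1 ≤ x ^ (1.04 : ℝ) := Real.one_le_rpow hx (by norm_num)
    have := h.C_nonneg
    nlinarith
  linarith

/-- **(iii)**: the rate. -/
theorem comb_rate {e : ℤ × ℤ → ℝ} {C : ℝ} (h : Exc e C) {u : ℝ × ℝ} {x0 C1 : ℝ} (hx0 : 2 ≤ x0)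
    (hC1 : 0 ≤ C1)
    (hii : ∀ x, x0 ≤ x → ∀ X : ℤ × ℤ, l1 (toR X - x ^ (1.1 : ℝ) • u) ≤ 2 →
      Comb e u x (e X / x ^ (1.1 : ℝ) + C1 * x ^ (-0.06 : ℝ)))
    (hlim : ∀ δ : ℝ, 0 < δ → ∃ x1 : ℝ, ∀ x, x1 ≤ x → Comb e u x δ) :
    ∃ K, 0 ≤ K ∧ ∀ x, x0 ≤ x → Comb e u x (K * x ^ (-0.06 : ℝ)) := by
  set q : ℝ := (2 : ℝ) ^ (-0.0024 : ℝ) with hq
  have hq1 : q < 1 := Real.rpow_lt_one_of_one_lt_of_neg (by norm_num) (by norm_num)
  have hq0 : 0 < q := Real.rpow_pos_of_pos (by norm_num) _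
  set C2 : ℝ := 4 * C + C1 with hC2
  have hC20 : 0 ≤ C2 := by have := h.C_nonneg; positivity
  set K : ℝ := C2 / (1 - q) with hK
  have hK0 : 0 ≤ K := div_nonneg hC20 (by linarith)
  have hKeq : K * q + C2 = K := by
    rw [hK]
    have : (1 - q) ≠ 0 := by linarith
    field_simp
    ring
  have key : ∀ k : ℕ, ∀ x, x0 ≤ x → ∀ c, Comb e u (x ^ ((1.04 : ℝ) ^ k)) c →
      Comb e u x (c + K * x ^ (-0.06 : ℝ)) := by
    intro k
    induction k with
    | zero =>
      intro x hx c hc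
      rw [pow_zero, Real.rpow_one] at hc
      refine hc.mono le_rfl ?_
      have : 0 ≤ x ^ (-0.06 : ℝ) := Real.rpow_nonneg (by linarith) _
      nlinarith
    | succ k ih =>
      intro x hx c hc
      have hxpos : 0 < x := by linarith
      have e1 : x ^ ((1.04 : ℝ) ^ (k + 1)) = (x ^ (1.04 : ℝ)) ^ ((1.04 : ℝ) ^ k) := by
        rw [← Real.rpow_mul hxpos.le, pow_succ, mul_comm]
      rw [e1] at hc
      have hx' : x0 ≤ x ^ (1.04 : ℝ) := by
        refine hx.trans ?_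
        conv_lhs => rw [← Real.rpow_one x]
        exact Real.rpow_le_rpow_of_exponent_le (by linarith) (by norm_num)
      have h1 := ih _ hx' c hc
      have h2 := comb_step h (by linarith) (hii x hx) h1
      refine h2.mono le_rfl ?_
      have e2 : (x ^ (1.04 : ℝ)) ^ (-0.06 : ℝ) = x ^ (-0.06 : ℝ) * x ^ (-0.0024 : ℝ) := by
        rw [← Real.rpow_mul hxpos.le, ← Real.rpow_add hxpos]; norm_num
      have e3 : x ^ (-0.0024 : ℝ) ≤ q := by
        rw [hq]
        exact Real.rpow_le_rpow_of_nonpos (by norm_num) (by linarith) (by norm_num)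
      have e4 : 0 ≤ x ^ (-0.06 : ℝ) := Real.rpow_nonneg hxpos.le _
      rw [e2]
      have e5 : K * (x ^ (-0.06 : ℝ) * x ^ (-0.0024 : ℝ)) ≤ K * (x ^ (-0.06 : ℝ) * q) := by gcongr
      have e6 : K * (x ^ (-0.06 : ℝ) * q) + C2 * x ^ (-0.06 : ℝ) = K * x ^ (-0.06 : ℝ) := by
        linear_combination (x ^ (-0.06 : ℝ)) * hKeq
      linarith
  refine ⟨1 + K, by positivity, fun x hx => ?_⟩
  have hxpos : 0 < x := by linarith
  obtain ⟨x1, hx1⟩ := hlim (x ^ (-0.06 : ℝ)) (Real.rpow_pos_of_pos hxpos _)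
  have ht : Tendsto (fun k : ℕ => x ^ ((1.04 : ℝ) ^ k)) atTop atTop := by
    have h1 : Tendsto (fun k : ℕ => (1.04 : ℝ) ^ k) atTop atTop :=
      tendsto_pow_atTop_atTop_of_one_lt (by norm_num)
    exact (tendsto_rpow_atTop_of_base_gt_one x (by linarith)).comp h1
  obtain ⟨k, hk⟩ := (ht.eventually_ge_atTop x1).exists
  refine (key k x hx _ (hx1 _ hk)).mono le_rfl ?_
  linarith

end Crest.Agent.R151.C710
end

-- ▼ part R151/C710d
section

/-!
# R151 / S0214 part 2, module C1 (rate): walks and skeletons (helper710)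
-/

set_option autoImplicit false

open MeasureTheory Filter ProbabilityTheory
open Crest.ProbabilityR.FirstPassage

namespace Crest.Agent.R151.C710

open Crest.Agent.R151.K

lemma n1_adj {x y : ℤ × ℤ} (h : squareLattice.Adj x y) (z : ℤ × ℤ) :
    n1 (y - z) ≤ n1 (x - z) + 1 := by
  unfold squareLattice at h
  rw [SimpleGraph.fromRel_adj] at h
  obtain ⟨_, h⟩ := h
  simp only [n1, Prod.fst_sub, Prod.snd_sub]
  rcases h with (⟨h1, h2⟩ | ⟨h1, h2⟩) | (⟨h1, h2⟩ | ⟨h1, h2⟩) <;> omega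

/-- discrete intermediate values along a walk -/
lemma exists_mem_support_n1 {x y : ℤ × ℤ} (w : squareLattice.Walk x y) (z : ℤ × ℤ) (k : ℕ)
    (h1 : n1 (x - z) ≤ k) (h2 : k ≤ n1 (y - z)) : ∃ v ∈ w.support, n1 (v - z) = k := by
  induction w with
  | @nil a => exact ⟨a, by simp, by omega⟩
  | @cons a b c hab p ih =>
    by_cases hk : n1 (a - z) = k
    · exact ⟨a, by simp, hk⟩
    · have h3 := n1_adj hab z
      obtain ⟨v, hv, hvk⟩ := ih (by omega) h2
      exact ⟨v, by simp [hv], hvk⟩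

/-- the end part of a walk also contains intermediate values, for any vertex of the support -/
lemma exists_mem_support_n1' {x y : ℤ × ℤ} (w : squareLattice.Walk x y) (z : ℤ × ℤ) (k : ℕ)
    (h1 : n1 (x - z) ≤ k) {v : ℤ × ℤ} (hv : v ∈ w.support) (h2 : k ≤ n1 (v - z)) :
    ∃ v' ∈ w.support, n1 (v' - z) = k := by
  obtain ⟨v', hv', h3⟩ := exists_mem_support_n1 (w.takeUntil v hv) z k h1 h2
  exact ⟨v', SimpleGraph.Walk.support_takeUntil_subset_support w hv hv', h3⟩

lemma walkCost_take_le {t : Environment} (ht : Nn t) {x y v : ℤ × ℤ} (w : squareLattice.Walk x y)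
    (hv : v ∈ w.support) : walkCost t (w.takeUntil v hv) ≤ walkCost t w := by
  have h1 := congrArg (walkCost t) (w.take_spec hv)
  rw [walkCost_append] at h1
  have := walkCost_nonneg ht (w.dropUntil v hv)
  linarith

/-- passage times to the vertices of a walk -/
lemma pt_le_of_mem {t : Environment} (ht : Nn t) {x y v : ℤ × ℤ} (w : squareLattice.Walk x y)
    (hv : v ∈ w.support) : passageTime t x v ≤ walkCost t w :=
  (pt_le ht _).trans (walkCost_take_le ht w hv)

/-- **Skeleton** of a walk with steps of size `r`. -/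
theorem exists_skeleton {t : Environment} (ht : Nn t) {r : ℕ} (hr : 1 ≤ r) {x y : ℤ × ℤ}
    (w : squareLattice.Walk x y) :
    ∃ m : ℕ, ∃ p : ℕ → ℤ × ℤ, p 0 = x ∧ p m = y ∧ (∀ i, i ≤ m → p i ∈ w.support) ∧
      (∀ i, i < m → n1 (p (i + 1) - p i) ≤ r) ∧ (∀ i, i + 1 < m → n1 (p (i + 1) - p i) = r) ∧
      ∑ i ∈ Finset.range m, passageTime t (p i) (p (i + 1)) ≤ walkCost t w := by
  induction hn : w.length using Nat.strong_induction_on generalizing x w with
  | _ n ih =>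
    by_cases hlt : n1 (y - x) < r
    · refine ⟨1, fun i => if i = 0 then x else y, by simp, by simp, ?_, ?_, ?_, ?_⟩
      · intro i hi
        by_cases h0 : i = 0
        · simp [h0]
        · simp [h0]
      · intro i hi
        have : i = 0 := by omega
        subst this
        simp only [zero_add, one_ne_zero, if_false, if_true]
        exact hlt.le
      · intro i hi
        omega
      · simp only [Finset.sum_range_one, zero_add, one_ne_zero, if_false, if_true]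
        exact pt_le ht w
    · push Not at hlt
      obtain ⟨v, hv, hvr⟩ := exists_mem_support_n1 w x r (by simp [n1]) hlt
      have hspec := w.take_spec hv
      have hvx : v ≠ x := by
        rintro rfl
        rw [sub_self] at hvr
        simp [n1] at hvr
        omega
      have hlen : (w.takeUntil v hv).length + (w.dropUntil v hv).length = w.length := by
        rw [← SimpleGraph.Walk.length_append, hspec]
      have hlen1 : 0 < (w.takeUntil v hv).length := by
        rw [Nat.pos_iff_ne_zero]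
        intro h0
        exact hvx (SimpleGraph.Walk.eq_of_length_eq_zero h0).symm
      obtain ⟨m, p, hp0, hpm, hps, hp1, hp2, hp3⟩ :=
        ih (w.dropUntil v hv).length (by omega) (w.dropUntil v hv) rfl
      refine ⟨m + 1, fun i => if i = 0 then x else p (i - 1), by simp, by simp [hpm], ?_, ?_, ?_, ?_⟩
      · intro i hi
        by_cases h0 : i = 0
        · simp [h0]
        · simp only [h0, if_false]
          exact SimpleGraph.Walk.support_dropUntil_subset_support w hv (hps (i - 1) (by omega))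
      · intro i hi
        by_cases h0 : i = 0
        · subst h0
          simp only [zero_add, one_ne_zero, if_false, if_true, Nat.sub_self, hp0]
          exact hvr.le
        · have e1 : i + 1 - 1 = (i - 1) + 1 := by omega
          simp only [h0, Nat.succ_ne_zero, if_false, e1]
          exact hp1 (i - 1) (by omega)
      · intro i hi
        by_cases h0 : i = 0
        · subst h0
          simp only [zero_add, one_ne_zero, if_false, if_true, Nat.sub_self, hp0]
          exact hvr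
        · have e1 : i + 1 - 1 = (i - 1) + 1 := by omega
          simp only [h0, Nat.succ_ne_zero, if_false, e1]
          exact hp2 (i - 1) (by omega)
      · rw [Finset.sum_range_succ']
        simp only [Nat.succ_ne_zero, if_false, if_true, Nat.add_sub_cancel, zero_add, hp0]
        have h1 := congrArg (walkCost t) hspec
        rw [walkCost_append] at h1
        have h2 := pt_le ht (w.takeUntil v hv)
        have h3 : ∑ x ∈ Finset.range m, passageTime t (p x) (p (x + 1))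
            ≤ walkCost t (w.dropUntil v hv) := hp3
        linarith

end Crest.Agent.R151.C710
end

-- ▼ part R151/C710e
section

/-!
# R151 / S0214 part 2, module C1 (rate): the skeleton inequality (ii) (helper710)
-/

set_option autoImplicit false

open MeasureTheory Filter ProbabilityTheory Topology
open Crest.ProbabilityR.FirstPassage

namespace Crest.Agent.R151.C710

open Crest.Agent.R151.K

variable {G : Measure ℝ} [IsProbabilityMeasure G] {lam : ℝ} {μ : ℝ × ℝ → ℝ}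

/-- the mean excess of a lattice vector over the linear functional `ρ` -/
noncomputable def exc (G : Measure ℝ) (ρ : ℝ × ℝ →L[ℝ] ℝ) (y : ℤ × ℤ) : ℝ := ET G y - ρ (toR y)

lemma exc_Exc (h0 : G (Set.Iio 0) = 0) (h2 : Integrable (fun x : ℝ => x ^ 2) G) (hμ : IsTC G μ)
    {ρ : ℝ × ℝ →L[ℝ] ℝ} (hρ : ∀ v, ρ v ≤ μ v) : Exc (exc G ρ) (2 * ∫ z, z ∂G) where
  nonneg y := by
    have h1 := mu_le_ET h0 h2 hμ y
    have h3 := hρ (toR y)
    unfold exc
    linarith
  add y z := by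
    have h1 := ET_add_le h0 h2 y z
    unfold exc
    rw [toR_add', map_add]
    linarith
  le y := by
    have h1 := ET_le h0 h2 y
    have h3 := hρ (-(toR y))
    have h4 := mu_le h0 h2 hμ (-(toR y))
    have h5 : l1 (-(toR y)) = n1 y := by
      rw [← l1_toR]; simp [l1]
    rw [h5] at h4
    rw [map_neg] at h3
    unfold exc
    linarith

lemma mem_box_of_n1 {n : ℕ} {x : ℤ × ℤ} (h : n1 x ≤ n) : x ∈ box n := by
  rw [mem_box]
  unfold n1 at h
  omega

/-- deterministic part of (ii) -/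
theorem skeleton_of_good {t : Environment} (ht : Nn t) {c : ℝ} (hc : 0 < c)
    (hlow : ∀ v, c * l1 v ≤ μ v) {ρ : ℝ × ℝ →L[ℝ] ℝ} {r R : ℕ} (hr : 1 ≤ r) {X : ℤ × ℤ} {B δ' : ℝ}
    (hμET : ∀ y : ℤ × ℤ, μ (toR y) ≤ ET G y)
    (hδ' : 2 * δ' ≤ c * r) (hδ0 : 0 ≤ δ') (hdev : dev μ R t < c / 2 * R)
    (hgrid : ∀ x ∈ box R, ∀ y ∈ box R, n1 (y - x) ≤ r →
      |passageTime t x y - ET G (y - x)| ≤ δ')
    (hX : passageTime t 0 X ≤ ET G X + B) (hR : ET G X + B + 1 < c / 2 * R) :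
    ∃ m : ℕ, ∃ inc : Fin m → ℤ × ℤ, (∀ i, n1 (inc i) ≤ r) ∧ ∑ i, inc i = X ∧
      ∑ i, exc G ρ (inc i) ≤ exc G ρ X + B + 1 + m * δ' ∧
      (m : ℝ) ≤ 1 + 2 * (ET G X + B + 1) / (c * r) := by
  obtain ⟨w, hw⟩ := exists_walk_lt t 0 X (c := ET G X + B + 1) (by linarith)
  have hbox : ∀ v ∈ w.support, v ∈ box R := by
    intro v hv
    by_contra hcon
    have h1 : R ≤ n1 (v - 0) := by
      by_contra h2
      push Not at h2
      rw [sub_zero] at h2
      exact hcon (mem_box_of_n1 h2.le)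
    obtain ⟨v', hv', hn⟩ := exists_mem_support_n1' w 0 R (by simp [n1]) hv h1
    rw [sub_zero] at hn
    have h3 := pt_le_of_mem ht w hv'
    have h4 := le_dev μ t (zero_mem_box R) (mem_box_of_n1 hn.le)
    rw [sub_zero, abs_le] at h4
    have h5 := hlow (toR v')
    rw [l1_toR, hn] at h5
    linarith [h4.1]
  obtain ⟨m, p, hp0, hpm, hps, hp1, hp2, hp3⟩ := exists_skeleton ht hr w
  have hinc : ∀ i, i < m → |passageTime t (p i) (p (i + 1)) - ET G (p (i + 1) - p i)| ≤ δ' :=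
    fun i hi => hgrid _ (hbox _ (hps i hi.le)) _ (hbox _ (hps (i + 1) hi)) (hp1 i hi)
  have hsum : ∀ k, ∑ i ∈ Finset.range k, (p (i + 1) - p i) = p k - p 0 :=
    fun k => Finset.sum_range_sub p k
  refine ⟨m, fun i => p (i + 1) - p i, fun i => hp1 i i.2, ?_, ?_, ?_⟩
  · rw [Finset.sum_fin_eq_sum_range]
    have : ∑ i ∈ Finset.range m, (if h : i < m then p ((⟨i, h⟩ : Fin m) + 1) - p (⟨i, h⟩ : Fin m)
        else 0) = ∑ i ∈ Finset.range m, (p (i + 1) - p i) := by
      apply Finset.sum_congr rfl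
      intro i hi
      rw [dif_pos (Finset.mem_range.mp hi)]
    rw [this, hsum, hpm, hp0, sub_zero]
  · have e1 : ∑ i : Fin m, exc G ρ (p (i + 1) - p i)
        = ∑ i ∈ Finset.range m, exc G ρ (p (i + 1) - p i) :=
      Fin.sum_univ_eq_sum_range (fun i => exc G ρ (p (i + 1) - p i)) m
    rw [e1]
    have e2 : ∑ i ∈ Finset.range m, exc G ρ (p (i + 1) - p i)
        ≤ ∑ i ∈ Finset.range m, ((passageTime t (p i) (p (i + 1)) + δ')
            - ρ (toR (p (i + 1) - p i))) := by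
      apply Finset.sum_le_sum
      intro i hi
      have := abs_le.mp (hinc i (Finset.mem_range.mp hi))
      unfold exc
      linarith [this.1]
    refine e2.trans ?_
    rw [Finset.sum_sub_distrib, Finset.sum_add_distrib, ← map_sum, ← toR_sum, hsum, hpm, hp0,
      sub_zero, Finset.sum_const, Finset.card_range, nsmul_eq_mul]
    unfold exc
    linarith
  · -- the number of increments
    have hrpos : (0 : ℝ) < r := by exact_mod_cast hr
    have hcr : 0 < c * r := by positivity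
    rcases Nat.eq_zero_or_pos m with h0 | hpos
    · rw [h0]
      have h1 : 0 ≤ passageTime t 0 X := pt_nonneg ht _ _
      have h2 : 0 ≤ 2 * (ET G X + B + 1) / (c * r) := by
        apply div_nonneg _ hcr.le
        linarith
      push_cast
      linarith
    · obtain ⟨m', rfl⟩ : ∃ m', m = m' + 1 := ⟨m - 1, by omega⟩
      have h1 : ∑ i ∈ Finset.range m', (c * r / 2) ≤
          ∑ i ∈ Finset.range m', passageTime t (p i) (p (i + 1)) := by
        apply Finset.sum_le_sum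
        intro i hi
        have hi' := Finset.mem_range.mp hi
        have h2 := abs_le.mp (hinc i (by omega))
        have h3 := hμET (p (i + 1) - p i)
        have h4 := hlow (toR (p (i + 1) - p i))
        rw [l1_toR, hp2 i (by omega)] at h4
        linarith [h2.1]
      have h2 : ∑ i ∈ Finset.range m', passageTime t (p i) (p (i + 1)) ≤
          ∑ i ∈ Finset.range (m' + 1), passageTime t (p i) (p (i + 1)) := by
        rw [Finset.sum_range_succ]
        have := pt_nonneg ht (p m') (p (m' + 1))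
        linarith
      rw [Finset.sum_const, Finset.card_range, nsmul_eq_mul] at h1
      have h3 : (m' : ℝ) ≤ 2 * (ET G X + B + 1) / (c * r) := by
        rw [le_div_iff₀ hcr]
        linarith
      push_cast
      linarith

end Crest.Agent.R151.C710
end

-- ▼ part R151/C710f
section

/-!
# R151 / S0214 part 2, module C1 (rate): probabilities in (ii) (helper710)
-/

set_option autoImplicit false

open MeasureTheory Filter ProbabilityTheory Topology
open Crest.ProbabilityR.FirstPassage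

namespace Crest.Agent.R151.C710

open Crest.Agent.R151.K

lemma tendsto_pow_exp : Tendsto (fun x : ℝ => x ^ (2.2 : ℝ) * Real.exp (-(x ^ (0.9 : ℝ)))) atTop
    (𝓝 0) := by
  have h1 := tendsto_rpow_mul_exp_neg_mul_atTop_nhds_zero (2.2 / 0.9) 1 one_pos
  have h2 : Tendsto (fun x : ℝ => x ^ (0.9 : ℝ)) atTop atTop := tendsto_rpow_atTop (by norm_num)
  refine (h1.comp h2).congr' ?_
  filter_upwards [eventually_gt_atTop 0] with x hx
  simp only [Function.comp]
  rw [← Real.rpow_mul hx.le]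
  norm_num

/-- the probability of the bad grid event is small -/
lemma grid_small (K Cv : ℝ) (hK : 1 ≤ K) (hCv : 0 ≤ Cv) {ε : ℝ} (hε : 0 < ε) :
    ∀ᶠ x : ℝ in atTop, ∀ R r g : ℕ, (R : ℝ) ≤ K * x ^ (1.1 : ℝ) → (r : ℝ) ≤ x →
      x ^ (0.9 : ℝ) ≤ g → (g : ℝ) ≤ x ^ (0.9 : ℝ) + 1 →
      (2 * ((R / g + 1 : ℕ) : ℝ) + 1) ^ 2 * (2 * ((r / g + 1 : ℕ) : ℝ) + 1) ^ 2
          * (Cv * (2 * r + 2 * g) / (x ^ (0.9 : ℝ)) ^ 2)
          + (2 * (R : ℝ) + 1) ^ 2 * Real.exp (-(g : ℝ)) ≤ ε := by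
  have t1 : Tendsto (fun x : ℝ => 150 * Cv * (2 * K + 3) ^ 2 * x ^ (-0.2 : ℝ)) atTop (𝓝 0) := by
    have := (tendsto_rpow_neg_atTop (y := 0.2) (by norm_num)).const_mul (150 * Cv * (2 * K + 3) ^ 2)
    simpa using this
  have t2 : Tendsto (fun x : ℝ => 9 * K ^ 2 * (x ^ (2.2 : ℝ) * Real.exp (-(x ^ (0.9 : ℝ))))) atTop
      (𝓝 0) := by
    have := tendsto_pow_exp.const_mul (9 * K ^ 2)
    simpa using this
  filter_upwards [t1.eventually_le_const (half_pos hε), t2.eventually_le_const (half_pos hε),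
    eventually_ge_atTop 1] with x h1 h2 hx1 R r g hR hr hg1 hg2
  have hx0 : 0 < x := by linarith
  have p09 : 0 < x ^ (0.9 : ℝ) := Real.rpow_pos_of_pos hx0 _
  have o09 : 1 ≤ x ^ (0.9 : ℝ) := Real.one_le_rpow hx1 (by norm_num)
  have o01 : 1 ≤ x ^ (0.1 : ℝ) := Real.one_le_rpow hx1 (by norm_num)
  have o02 : 1 ≤ x ^ (0.2 : ℝ) := Real.one_le_rpow hx1 (by norm_num)
  have o11 : 1 ≤ x ^ (1.1 : ℝ) := Real.one_le_rpow hx1 (by norm_num)
  have hgpos : (0 : ℝ) < g := lt_of_lt_of_le p09 hg1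
  have a1 : ((R / g : ℕ) : ℝ) ≤ K * x ^ (0.2 : ℝ) := by
    refine Nat.cast_div_le.trans ?_
    rw [div_le_iff₀ hgpos]
    calc (R : ℝ) ≤ K * x ^ (1.1 : ℝ) := hR
      _ = K * x ^ (0.2 : ℝ) * x ^ (0.9 : ℝ) := by
          rw [mul_assoc, ← Real.rpow_add hx0]; norm_num
      _ ≤ K * x ^ (0.2 : ℝ) * g := by gcongr
  have a2 : ((r / g : ℕ) : ℝ) ≤ x ^ (0.1 : ℝ) := by
    refine Nat.cast_div_le.trans ?_
    rw [div_le_iff₀ hgpos]
    calc (r : ℝ) ≤ x := hr
      _ = x ^ (0.1 : ℝ) * x ^ (0.9 : ℝ) := by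
          rw [← Real.rpow_add hx0]; norm_num
      _ ≤ x ^ (0.1 : ℝ) * g := by gcongr
  have b1 : (2 * ((R / g + 1 : ℕ) : ℝ) + 1) ≤ (2 * K + 3) * x ^ (0.2 : ℝ) := by
    push_cast
    nlinarith
  have b2 : (2 * ((r / g + 1 : ℕ) : ℝ) + 1) ≤ 5 * x ^ (0.1 : ℝ) := by
    push_cast
    nlinarith
  have hx09 : x ^ (0.9 : ℝ) ≤ x := by
    conv_rhs => rw [← Real.rpow_one x]
    exact Real.rpow_le_rpow_of_exponent_le hx1 (by norm_num)
  have b3 : (2 * (r : ℝ) + 2 * g) ≤ 6 * x := by linarith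
  have b4 : (2 * (R : ℝ) + 1) ≤ 3 * K * x ^ (1.1 : ℝ) := by nlinarith
  have c1 : (2 * ((R / g + 1 : ℕ) : ℝ) + 1) ^ 2 * (2 * ((r / g + 1 : ℕ) : ℝ) + 1) ^ 2
          * (Cv * (2 * r + 2 * g) / (x ^ (0.9 : ℝ)) ^ 2)
        ≤ ((2 * K + 3) * x ^ (0.2 : ℝ)) ^ 2 * (5 * x ^ (0.1 : ℝ)) ^ 2
          * (Cv * (6 * x) / (x ^ (0.9 : ℝ)) ^ 2) := by gcongr
  have c2 : ((2 * K + 3) * x ^ (0.2 : ℝ)) ^ 2 * (5 * x ^ (0.1 : ℝ)) ^ 2
          * (Cv * (6 * x) / (x ^ (0.9 : ℝ)) ^ 2) = 150 * Cv * (2 * K + 3) ^ 2 * x ^ (-0.2 : ℝ) := by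
    have e1 : x ^ (-0.2 : ℝ) = (x ^ (0.2 : ℝ)) ^ 2 * (x ^ (0.1 : ℝ)) ^ 2 * x
        / (x ^ (0.9 : ℝ)) ^ 2 := by
      rw [eq_div_iff (by positivity)]
      simp only [← Real.rpow_natCast, ← Real.rpow_mul hx0.le]
      conv_rhs => rw [← Real.rpow_one x]
      simp only [← Real.rpow_mul hx0.le, ← Real.rpow_add hx0]
      norm_num
    rw [e1]
    ring
  have c3 : (2 * (R : ℝ) + 1) ^ 2 * Real.exp (-(g : ℝ))
      ≤ 9 * K ^ 2 * (x ^ (2.2 : ℝ) * Real.exp (-(x ^ (0.9 : ℝ)))) := by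
    calc (2 * (R : ℝ) + 1) ^ 2 * Real.exp (-(g : ℝ))
        ≤ (3 * K * x ^ (1.1 : ℝ)) ^ 2 * Real.exp (-(x ^ (0.9 : ℝ))) := by gcongr
      _ = 9 * K ^ 2 * (x ^ (2.2 : ℝ) * Real.exp (-(x ^ (0.9 : ℝ)))) := by
          have e1 : x ^ (2.2 : ℝ) = (x ^ (1.1 : ℝ)) ^ 2 := by
            rw [← Real.rpow_natCast, ← Real.rpow_mul hx0.le]; norm_num
          rw [e1]; ring
  rw [c2] at c1
  linarith

variable {G : Measure ℝ} [IsProbabilityMeasure G] {lam : ℝ} {μ : ℝ × ℝ → ℝ}

lemma exists_good (h0 : G (Set.Iio 0) = 0) {S1 S2 S3 : Set Environment}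
    (h1 : (iidLaw G).real S1 ≤ 1 / 4) (h2 : (iidLaw G).real S2 ≤ 1 / 4)
    (h3 : (iidLaw G).real S3 ≤ 1 / 4) : ∃ t : Environment, Nn t ∧ t ∉ S1 ∧ t ∉ S2 ∧ t ∉ S3 := by
  by_contra hcon
  push Not at hcon
  have hcov : (Set.univ : Set Environment) ⊆ {t | ¬ Nn t} ∪ (S1 ∪ (S2 ∪ S3)) := by
    intro t _
    by_contra h4
    simp only [Set.mem_union, not_or, Set.mem_ofPred_eq, not_not] at h4
    exact h4.2.2.2 (hcon t h4.1 h4.2.1 h4.2.2.1)
  have hN : (iidLaw G).real {t | ¬ Nn t} = 0 := by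
    have := ae_Nn (G := G) h0
    rw [ae_iff] at this
    rw [measureReal_def, this]; rfl
  have h5 : (iidLaw G).real Set.univ ≤ (iidLaw G).real ({t | ¬ Nn t} ∪ (S1 ∪ (S2 ∪ S3))) :=
    measureReal_mono hcov
  have h6 := measureReal_union_le (μ := iidLaw G) {t | ¬ Nn t} (S1 ∪ (S2 ∪ S3))
  have h7 := measureReal_union_le (μ := iidLaw G) S1 (S2 ∪ S3)
  have h8 := measureReal_union_le (μ := iidLaw G) S2 S3
  rw [probReal_univ] at h5
  linarith

lemma final_est {x M y B mG L A c δ' S1 : ℝ} {m r : ℕ} (hx1 : 1 ≤ x) (hM : M = x ^ (1.1 : ℝ))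
    (hy : y = x ^ (0.9 : ℝ)) (hB : B = M ^ (0.6 : ℝ)) (hmG : 0 ≤ mG) (hL : 0 ≤ L) (hc : 0 < c)
    (hA : 0 < A) (hr : x / 2 ≤ r) (hr1 : 1 ≤ r) (_hS0 : 0 ≤ S1) (hS : S1 ≤ L * M)
    (hm : (m : ℝ) ≤ 1 + 2 * S1 / (c * r)) (hδ0 : 0 ≤ δ') (hδ : δ' ≤ (1 + 2 * A) * y) :
    B + 1 + m * δ' + 4 * mG
      ≤ (1 + (1 + 2 * (2 * mG)) + (1 + 4 * L / c) * (1 + 2 * A)) * x ^ (1.04 : ℝ) := by
  have hxpos : 0 < x := by linarith
  have hM1 : 1 ≤ M := by rw [hM]; exact Real.one_le_rpow hx1 (by norm_num)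
  have hMpos : 0 < M := by linarith
  have hy0 : 0 < y := by rw [hy]; exact Real.rpow_pos_of_pos hxpos _
  have hm : (m : ℝ) ≤ (1 + 4 * L / c) * (M / x) := by
    have hMx : 1 ≤ M / x := by
      rw [le_div_iff₀ hxpos, one_mul, hM]
      conv_lhs => rw [← Real.rpow_one x]
      exact Real.rpow_le_rpow_of_exponent_le hx1 (by norm_num)
    have h3 : 2 * S1 / (c * r) ≤ 4 * L / c * (M / x) := by
      have hrpos : (0 : ℝ) < r := by exact_mod_cast hr1
      rw [div_le_iff₀ (by positivity)]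
      have h4 : 4 * L / c * (M / x) * (c * (x / 2)) = 2 * (L * M) := by field_simp; ring
      have h5 : 4 * L / c * (M / x) * (c * (x / 2)) ≤ 4 * L / c * (M / x) * (c * r) := by gcongr
      linarith
    linarith
  have hmδ : m * δ' ≤ (1 + 4 * L / c) * (1 + 2 * A) * x ^ (1.04 : ℝ) := by
    have h3 : M / x * y = x ^ (1.0 : ℝ) := by
      rw [hM, hy, div_mul_eq_mul_div, div_eq_iff hxpos.ne', ← Real.rpow_add hxpos,
        ← Real.rpow_add_one hxpos.ne']
      norm_num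
    have h4 : x ^ (1.0 : ℝ) ≤ x ^ (1.04 : ℝ) :=
      Real.rpow_le_rpow_of_exponent_le hx1 (by norm_num)
    calc (m : ℝ) * δ' ≤ ((1 + 4 * L / c) * (M / x)) * ((1 + 2 * A) * y) := by gcongr
      _ = (1 + 4 * L / c) * (1 + 2 * A) * (M / x * y) := by ring
      _ = (1 + 4 * L / c) * (1 + 2 * A) * x ^ (1.0 : ℝ) := by rw [h3]
      _ ≤ _ := by gcongr
  have hBx : B ≤ x ^ (1.04 : ℝ) := by
    rw [hB, hM, ← Real.rpow_mul hxpos.le]
    exact Real.rpow_le_rpow_of_exponent_le hx1 (by norm_num)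
  have h1x : 1 ≤ x ^ (1.04 : ℝ) := Real.one_le_rpow hx1 (by norm_num)
  have h2x : 1 + 4 * mG ≤ (1 + 2 * (2 * mG)) * x ^ (1.04 : ℝ) := by nlinarith
  nlinarith

set_option maxHeartbeats 2000000 in
/-- **(ii)** -/
theorem comb_ii (h0 : G (Set.Iio 0) = 0) (hlam : 0 < lam)
    (hexp : Integrable (fun x => Real.exp (lam * x)) G) (hμ : IsTC G μ)
    (hlow : ∃ c, 0 < c ∧ ∀ v, c * l1 v ≤ μ v) {Cv : ℝ} (hv : VarB G Cv)
    {ρ : ℝ × ℝ →L[ℝ] ℝ} (hρ : ∀ v, ρ v ≤ μ v) (u : ℝ × ℝ) :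
    ∃ x0 C1 : ℝ, 2 ≤ x0 ∧ 0 ≤ C1 ∧ ∀ x, x0 ≤ x → ∀ X : ℤ × ℤ,
      l1 (toR X - x ^ (1.1 : ℝ) • u) ≤ 2 →
      Comb (exc G ρ) u x (exc G ρ X / x ^ (1.1 : ℝ) + C1 * x ^ (-0.06 : ℝ)) := by
  have h2 : Integrable (fun x : ℝ => x ^ 2) G := integrable_sq h0 hlam hexp
  obtain ⟨c, hc, hlow⟩ := hlow
  obtain ⟨A, hA, hgrid⟩ := grid_lemma h0 hlam hexp hv
  have hm0 : (0 : ℝ) ≤ ∫ z, z ∂G := integral_nonneg_of_ae (ae_nonneg h0)
  obtain ⟨mG, hmG⟩ : ∃ mG, mG = ∫ z, z ∂G := ⟨_, rfl⟩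
  rw [← hmG] at hm0
  have hE : Exc (exc G ρ) (2 * mG) := by rw [hmG]; exact exc_Exc h0 h2 hμ hρ
  have hCv : 0 ≤ Cv := by
    have h1 := hv (1, 0)
    have h3 : (0 : ℝ) ≤ ∫ t, (passageTime t 0 (1, 0) - ET G (1, 0)) ^ 2 ∂(iidLaw G) :=
      integral_nonneg fun t => sq_nonneg _
    have h4 : (n1 ((1 : ℤ), (0 : ℤ)) : ℝ) = 1 := by simp [n1]
    rw [h4] at h1
    linarith
  set L : ℝ := mG * (l1 u + 2) + 2 with hL
  have hlu : 0 ≤ l1 u := l1_nonneg u
  have hL2 : 2 ≤ L := by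
    have : 0 ≤ mG * (l1 u + 2) := by positivity
    linarith
  set K : ℝ := 2 * L / c + 2 with hK
  have hK1 : 1 ≤ K := by
    have : 0 ≤ 2 * L / c := by positivity
    linarith
  -- the uniform shape theorem
  set ε1 : ℝ := min (c / 2) (1 / 4) with hε1
  have hε1pos : 0 < ε1 := lt_min (by positivity) (by norm_num)
  obtain ⟨n0, hn0⟩ := uniform_shape_prob h0 hlam hexp hμ hε1pos
  have ev1 := grid_small K Cv hK1 hCv (ε := 1 / 4) (by norm_num)
  have ev2 : ∀ᶠ x : ℝ in atTop, Cv * (l1 u + 2) * x ^ (-0.22 : ℝ) ≤ 1 / 4 := by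
    have := (tendsto_rpow_neg_atTop (y := 0.22) (by norm_num)).const_mul (Cv * (l1 u + 2))
    rw [mul_zero] at this
    exact this.eventually_le_const (by norm_num)
  have ev3 : ∀ᶠ x : ℝ in atTop, (n0 : ℝ) ≤ x ^ (1.1 : ℝ) :=
    (tendsto_rpow_atTop (by norm_num)).eventually_ge_atTop _
  have ev4 : ∀ᶠ x : ℝ in atTop, 4 * (1 + 2 * A) * x ^ (-0.1 : ℝ) ≤ c := by
    have := (tendsto_rpow_neg_atTop (y := 0.1) (by norm_num)).const_mul (4 * (1 + 2 * A))
    rw [mul_zero] at this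
    exact this.eventually_le_const hc
  set C1 : ℝ := 1 + (1 + 2 * (2 * mG)) + (1 + 4 * L / c) * (1 + 2 * A) with hC1
  have hC1' : 0 ≤ C1 := by positivity
  obtain ⟨x0, hx0⟩ := (ev1.and (ev2.and (ev3.and (ev4.and (eventually_ge_atTop 2))))).exists_forall_of_atTop
  refine ⟨max x0 2, C1, le_max_right _ _, hC1', fun x hx X hX => ?_⟩
  obtain ⟨e1, e2, e3, e4, hx2⟩ := hx0 x ((le_max_left _ _).trans hx)
  have hxpos : 0 < x := by linarith
  have hx1 : 1 ≤ x := by linarith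
  obtain ⟨M, hM⟩ : ∃ M, M = x ^ (1.1 : ℝ) := ⟨_, rfl⟩
  have hM1 : 1 ≤ M := by rw [hM]; exact Real.one_le_rpow hx1 (by norm_num)
  have hMpos : 0 < M := by linarith
  obtain ⟨y, hy⟩ : ∃ y, y = x ^ (0.9 : ℝ) := ⟨_, rfl⟩
  have hy1 : 1 ≤ y := by rw [hy]; exact Real.one_le_rpow hx1 (by norm_num)
  have hypos : 0 < y := by linarith
  rw [← hM] at e3 hX ⊢
  -- choices
  set r : ℕ := ⌊x⌋₊ with hr
  set g : ℕ := ⌈y⌉₊ with hg
  set R : ℕ := ⌈(2 * L / c + 1) * M⌉₊ with hR
  set B : ℝ := M ^ (0.6 : ℝ) with hB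
  have hrle : (r : ℝ) ≤ x := Nat.floor_le hxpos.le
  have hrge : x / 2 ≤ r := by
    have := Nat.lt_floor_add_one x
    rw [← hr] at this
    linarith
  have hr1 : 1 ≤ r := by
    have : (1 : ℝ) ≤ r := by linarith
    exact_mod_cast this
  have hgge : y ≤ g := Nat.le_ceil _
  have hgle : (g : ℝ) ≤ y + 1 := (Nat.ceil_lt_add_one hypos.le).le
  have hgpos : 0 < g := Nat.ceil_pos.mpr hypos
  have hRge : (2 * L / c + 1) * M ≤ R := Nat.le_ceil _
  have hRle : (R : ℝ) ≤ K * M := by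
    have h3 : (R : ℝ) < (2 * L / c + 1) * M + 1 := Nat.ceil_lt_add_one (by positivity)
    rw [hK]
    nlinarith
  have hB0 : 0 ≤ B := by positivity
  have hBM : B ≤ M := by
    rw [hB]
    conv_rhs => rw [← Real.rpow_one M]
    exact Real.rpow_le_rpow_of_exponent_le hM1 (by norm_num)
  have hXn : (n1 X : ℝ) ≤ M * (l1 u + 2) := by
    have h3 : toR X = (toR X - M • u) + M • u := by abel
    have h4 : l1 (toR X) ≤ l1 (toR X - M • u) + l1 (M • u) := by
      conv_lhs => rw [h3]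
      exact l1_add_le _ _
    rw [l1_toR, l1_smul, abs_of_pos hMpos] at h4
    nlinarith
  have hETX : ET G X ≤ mG * (M * (l1 u + 2)) := by
    have h3 := ET_le h0 h2 X
    rw [← hmG] at h3
    calc ET G X ≤ n1 X * mG := h3
      _ ≤ (M * (l1 u + 2)) * mG := by gcongr
      _ = _ := by ring
  have hTot : ET G X + B + 1 ≤ L * M := by
    rw [hL]; nlinarith
  have hETX0 : 0 ≤ ET G X := ET_nonneg h0 X
  have hRbig : ET G X + B + 1 < c / 2 * R := by
    have h3 : c / 2 * ((2 * L / c + 1) * M) ≤ c / 2 * R := by gcongr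
    have h4 : c / 2 * ((2 * L / c + 1) * M) = L * M + c / 2 * M := by field_simp
    have h5 : 0 < c / 2 * M := by positivity
    linarith
  -- the error of the grid
  set δ' : ℝ := y + A * g with hδ'
  have hδ'le : δ' ≤ (1 + 2 * A) * y := by
    rw [hδ']
    nlinarith
  have hδ'0 : 0 ≤ δ' := by positivity
  have hyx : x ^ (-0.1 : ℝ) * x = y := by
    rw [hy]
    conv_lhs => rw [← Real.rpow_one x]
    rw [← Real.rpow_mul hxpos.le, ← Real.rpow_add hxpos]; norm_num
  have h2δ : 2 * δ' ≤ c * r := by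
    have h3 : 4 * (1 + 2 * A) * y ≤ c * x := by
      rw [← hyx]
      calc 4 * (1 + 2 * A) * (x ^ (-0.1 : ℝ) * x) = (4 * (1 + 2 * A) * x ^ (-0.1 : ℝ)) * x := by ring
        _ ≤ c * x := by gcongr
    have h4 : c * (x / 2) ≤ c * r := by gcongr
    nlinarith
  -- a good environment
  have hP1 : (iidLaw G).real {t | ε1 * R ≤ dev μ R t} ≤ 1 / 4 := by
    have hRn : n0 ≤ R := by
      have h3 : M ≤ (2 * L / c + 1) * M := by
        have : 0 ≤ 2 * L / c := by positivity
        nlinarith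
      have : (n0 : ℝ) ≤ R := by linarith
      exact_mod_cast this
    exact (hn0 R hRn).trans (min_le_right _ _)
  have hP2' : (2 * ((R / g + 1 : ℕ) : ℝ) + 1) ^ 2 * (2 * ((r / g + 1 : ℕ) : ℝ) + 1) ^ 2
          * (Cv * (2 * r + 2 * g) / y ^ 2)
          + (2 * (R : ℝ) + 1) ^ 2 * Real.exp (-(g : ℝ)) ≤ 1 / 4 := by
    rw [hy] at hgge hgle ⊢
    exact e1 R r g (by rw [← hM]; exact hRle) hrle hgge hgle
  have hP2 := (hgrid g R r hgpos y hypos).trans hP2'
  have hP3 : (iidLaw G).real {t | B < |passageTime t 0 X - ET G (X - 0)|} ≤ 1 / 4 := by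
    refine (cheb h0 h2 hv 0 X (by positivity)).trans (le_trans ?_ e2)
    rw [sub_zero, div_le_iff₀ (by positivity)]
    have h3 : x ^ (-0.22 : ℝ) * B ^ 2 = M := by
      rw [hB, hM]
      simp only [← Real.rpow_natCast, ← Real.rpow_mul hxpos.le, ← Real.rpow_add hxpos]
      norm_num
    calc Cv * (n1 X : ℝ) ≤ Cv * (M * (l1 u + 2)) := by gcongr
      _ = Cv * (l1 u + 2) * (x ^ (-0.22 : ℝ) * B ^ 2) := by rw [h3]; ring
      _ = Cv * (l1 u + 2) * x ^ (-0.22 : ℝ) * B ^ 2 := by ring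
  obtain ⟨t, ht, ht1, ht2, ht3⟩ := exists_good h0 hP1 hP2 hP3
  have hdev : dev μ R t < c / 2 * R := by
    have h3 : dev μ R t < ε1 * R := not_le.mp ht1
    have h4 : ε1 * (R : ℝ) ≤ c / 2 * R := by gcongr; exact min_le_left _ _
    linarith
  have hgr : ∀ x ∈ box R, ∀ y ∈ box R, n1 (y - x) ≤ r →
      |passageTime t x y - ET G (y - x)| ≤ δ' := not_not.mp ht2
  have hXt : passageTime t 0 X ≤ ET G X + B := by
    have h3 : |passageTime t 0 X - ET G (X - 0)| ≤ B := not_lt.mp ht3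
    rw [sub_zero] at h3
    linarith [(abs_le.mp h3).2]
  obtain ⟨m, inc, hi1, hi2, hi3, hi4⟩ := skeleton_of_good (ρ := ρ) ht hc hlow hr1
    (mu_le_ET h0 h2 hμ) h2δ hδ'0 hdev hgr hXt hRbig
  have hsk := Comb.of_skeleton (D := 2) hE hx1 inc
    (fun i => le_trans (by exact_mod_cast hi1 i) hrle) hMpos (by rw [hi2]; exact hX) hi3
  refine hsk.mono le_rfl ?_
  -- the final estimate
  have hq : x ^ (-0.06 : ℝ) * M = x ^ (1.04 : ℝ) := by
    rw [hM, ← Real.rpow_add hxpos]; norm_num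
  rw [div_le_iff₀ hMpos, add_mul, div_mul_cancel₀ _ hMpos.ne', mul_assoc C1, hq]
  have := final_est hx1 hM hy hB hm0 (by linarith) hc hA hrge hr1 (by positivity) hTot hi4 hδ'0 hδ'le
  rw [hC1]
  linarith

end Crest.Agent.R151.C710
end

-- ▼ part R151/C710g
section

/-!
# R151 / S0214 part 2, module C1 (rate): the rate of `Comb`, and localisation in balls (helper710)
-/

set_option autoImplicit false

open MeasureTheory Filter ProbabilityTheory Topology
open Crest.ProbabilityR.FirstPassage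

namespace Crest.Agent.R151.C710

open Crest.Agent.R151.K

variable {G : Measure ℝ} [IsProbabilityMeasure G] {lam : ℝ} {μ : ℝ × ℝ → ℝ}

/-- at a contact direction `λ(x) → 0` -/
lemma comb_lim (h0 : G (Set.Iio 0) = 0) (h2 : Integrable (fun x : ℝ => x ^ 2) G) (hμ : IsTC G μ)
    {ρ : ℝ × ℝ →L[ℝ] ℝ} (hρ : ∀ v, ρ v ≤ μ v) {u : ℝ × ℝ} (hu : ρ u = μ u) {δ : ℝ} (hδ : 0 < δ) :
    ∃ x1 : ℝ, ∀ x, x1 ≤ x → Comb (exc G ρ) u x δ := by
  have hE : Exc (exc G ρ) (2 * ∫ z, z ∂G) := exc_Exc h0 h2 hμ hρ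
  obtain ⟨C, hC⟩ : ∃ C, C = 2 * ∫ z, z ∂G := ⟨_, rfl⟩
  rw [← hC] at hE
  have hC0 := hE.C_nonneg
  have t1 : Tendsto (fun N : ℝ => ET G (fl u N) / N - ρ (toR (fl u N)) / N + C * 2 / N) atTop
      (𝓝 0) := by
    have a1 := ET_tendsto h0 h2 hμ u
    have a2 : Tendsto (fun N : ℝ => ρ (toR (fl u N)) / N) atTop (𝓝 (ρ u)) := by
      have b1 : Tendsto (fun N : ℝ => ρ (N • u - toR (fl u N)) / N) atTop (𝓝 0) := by
        have b3 : Tendsto (fun N : ℝ => (‖ρ‖ * 2) / N) atTop (𝓝 0) :=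
          tendsto_const_nhds.div_atTop tendsto_id
        refine squeeze_zero_norm' ?_ b3
        filter_upwards [eventually_gt_atTop 0] with N hN
        rw [norm_div, Real.norm_of_nonneg hN.le]
        gcongr
        refine (ρ.le_opNorm _).trans ?_
        gcongr
        have b4 := l1_fl u N
        rw [Prod.norm_def]
        unfold l1 at b4
        rw [Real.norm_eq_abs, Real.norm_eq_abs]
        have := abs_nonneg (N • u - toR (fl u N)).1
        have := abs_nonneg (N • u - toR (fl u N)).2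
        exact max_le (by linarith) (by linarith)
      have b2 : Tendsto (fun N : ℝ => ρ u - ρ (N • u - toR (fl u N)) / N) atTop (𝓝 (ρ u - 0)) :=
        tendsto_const_nhds.sub b1
      rw [sub_zero] at b2
      refine b2.congr' ?_
      filter_upwards [eventually_gt_atTop 0] with N hN
      rw [map_sub, map_smul, smul_eq_mul]
      field_simp
      ring
    have a3 : Tendsto (fun N : ℝ => C * 2 / N) atTop (𝓝 0) :=
      tendsto_const_nhds.div_atTop tendsto_id
    have := (a1.sub a2).add a3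
    rw [hu, sub_self, add_zero] at this
    exact this
  obtain ⟨N, hN1, hN2⟩ := ((t1.eventually_le_const hδ).and (eventually_ge_atTop 1)).exists
  have hNpos : 0 < N := by linarith
  refine ⟨max 1 (n1 (fl u N)), fun x hx => ?_⟩
  have hx1 : 1 ≤ x := (le_max_left _ _).trans hx
  have hx2 : (n1 (fl u N) : ℝ) ≤ x := (le_max_right _ _).trans hx
  have hl : l1 (toR (∑ i : Fin 1, (fun _ : Fin 1 => fl u N) i) - N • u) ≤ 2 := by
    have h3 : toR (∑ i : Fin 1, (fun _ : Fin 1 => fl u N) i) - N • u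
        = (-1 : ℝ) • (N • u - toR (fl u N)) := by simp
    rw [h3, l1_smul]
    simpa using l1_fl u N
  have := Comb.of_skeleton (D := 2) (S := exc G ρ (fl u N)) hE hx1 (m := 1) (fun _ => fl u N)
    (fun _ => hx2) hNpos hl (by simp)
  refine this.mono le_rfl (le_trans (le_of_eq ?_) hN1)
  unfold exc
  field_simp

/-- **the rate of `Comb`** -/
theorem comb_final (h0 : G (Set.Iio 0) = 0) (hlam : 0 < lam)
    (hexp : Integrable (fun x => Real.exp (lam * x)) G) (hμ : IsTC G μ)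
    (hlow : ∃ c, 0 < c ∧ ∀ v, c * l1 v ≤ μ v) {Cv : ℝ} (hv : VarB G Cv)
    {ρ : ℝ × ℝ →L[ℝ] ℝ} (hρ : ∀ v, ρ v ≤ μ v) {u : ℝ × ℝ} (hu : ρ u = μ u) :
    ∃ x0 K : ℝ, 2 ≤ x0 ∧ 0 ≤ K ∧ ∀ x, x0 ≤ x → Comb (exc G ρ) u x (K * x ^ (-0.06 : ℝ)) := by
  have h2 : Integrable (fun x : ℝ => x ^ 2) G := integrable_sq h0 hlam hexp
  obtain ⟨x0, C1, hx0, hC1, hii⟩ := comb_ii h0 hlam hexp hμ hlow hv hρ u
  obtain ⟨K, hK, hfin⟩ := comb_rate (exc_Exc h0 h2 hμ hρ) hx0 hC1 hii
    (fun δ hδ => comb_lim h0 h2 hμ hρ hu hδ)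
  exact ⟨x0, K, hx0, hK, hfin⟩

/-! ### localisation in balls -/

/-- `ℓ¹`-ball -/
def ball (x : ℤ × ℤ) (L : ℕ) : Set (ℤ × ℤ) := {z | n1 (z - x) ≤ L}

lemma LIn_ball {x y : ℤ × ℤ} {L : ℕ} (h : n1 (y - x) ≤ L) : LIn (ball x L) x y := by
  simp only [n1, Prod.fst_sub, Prod.snd_sub] at h
  constructor
  · intro i hi
    show n1 ((i, x.2) - x) ≤ L
    simp only [n1, Prod.fst_sub, Prod.snd_sub]
    omega
  · intro i hi
    show n1 ((y.1, i) - x) ≤ L
    simp only [n1, Prod.fst_sub, Prod.snd_sub]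
    omega

lemma ball_le {t : Environment} (ht : Nn t) {c : ℝ} {L : ℕ} {x y : ℤ × ℤ}
    (hb : t ∉ Bad c L x) (hT : passageTime t x y < c * L) :
    pR t (ball x L) x y ≤ passageTime t x y := by
  have key : ∀ w : squareLattice.Walk x y, walkCost t w < c * L → ∀ z ∈ w.support,
      z ∈ ball x L := by
    intro w hw z hz
    by_contra hcon
    have h1 : L ≤ n1 (z - x) := le_of_lt (not_le.mp hcon)
    have h2 := pt_ge_of_not_Bad ht hb h1
    have h3 := pt_le_cost_of_mem ht w hz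
    linarith
  refine le_of_forall_pos_lt_add fun δ hδ => ?_
  obtain ⟨w, hw⟩ := exists_walk_lt t x y (c := min (c * L) (passageTime t x y + δ))
    (lt_min hT (by linarith))
  have h1 := pR_le ht w (key w (hw.trans_le (min_le_left _ _)))
  exact lt_of_le_of_lt h1 (hw.trans_le (min_le_right _ _))

/-- **Localisation**: restricting to a ball of radius `K n` costs almost nothing. -/
theorem ball_upper (h0 : G (Set.Iio 0) = 0) (hz : G {0} = 0) (hlam : 0 < lam)
    (hexp : Integrable (fun x => Real.exp (lam * x)) G) :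
    ∃ K' : ℕ, ∃ C : ℝ, 1 ≤ K' ∧ 0 ≤ C ∧ ∀ n : ℕ, 1 ≤ n → ∀ x y : ℤ × ℤ, n1 (y - x) ≤ n →
      ∫ t, pR t (ball x (K' * n)) x y ∂(iidLaw G)
        ≤ ET G (y - x) + C * n1 (y - x) * Real.exp (-((n : ℝ) / 2)) := by
  have h2 : Integrable (fun x : ℝ => x ^ 2) G := integrable_sq h0 hlam hexp
  obtain ⟨c, hc, hbad⟩ := prob_Bad_le (G := G) h0 hz
  set A : ℝ := (Real.log (∫ x, Real.exp (lam * x) ∂G) + 1) / lam with hA
  have hA0 : 0 ≤ A := by
    have := Real.log_nonneg (one_le_M h0 hlam hexp)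
    positivity
  have hAl : Real.log (∫ x, Real.exp (lam * x) ∂G) + 1 ≤ lam * A := by
    rw [hA, mul_div_cancel₀ _ hlam.ne']
  set K' : ℕ := ⌈A / c⌉₊ + 2 with hK'
  have hK'c : A ≤ c * K' := by
    have h3 : A / c ≤ K' := by
      have := Nat.le_ceil (A / c)
      rw [hK']; push_cast; linarith
    rw [div_le_iff₀ hc] at h3
    linarith
  set m2 : ℝ := ∫ z, z ^ 2 ∂G with hm2
  have hm20 : 0 ≤ m2 := integral_nonneg fun z => sq_nonneg z
  refine ⟨K', m2 / 2 + 1, by omega, by positivity, fun n hn x y hxy => ?_⟩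
  have hnR : (1 : ℝ) ≤ n := by exact_mod_cast hn
  by_cases hyx : y = x
  · subst hyx
    have e1 : ∫ t, pR t (ball y (K' * n)) y y ∂(iidLaw G) = 0 := by
      rw [integral_eq_zero_of_ae]
      filter_upwards [ae_Nn (G := G) h0] with t ht
      exact pR_self ht (by show n1 (y - y) ≤ _; simp [n1])
    rw [e1]
    have := ET_nonneg (G := G) h0 (y - y)
    positivity
  have hn1 : 1 ≤ n1 (y - x) := by
    by_contra hcon
    have h3 : n1 (y - x) = 0 := by omega
    apply hyx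
    simp only [n1, Prod.fst_sub, Prod.snd_sub] at h3
    apply Prod.ext <;> omega
  have hn1R : (1 : ℝ) ≤ n1 (y - x) := by exact_mod_cast hn1
  have hLn : n ≤ K' * n := by nlinarith
  have hLIn : LIn (ball x (K' * n)) x y := LIn_ball (hxy.trans hLn)
  obtain ⟨hsqI, hsq⟩ := pR_sq h0 h2 hLIn
  have hI := integrable_pR h0 h2 hLIn
  set B : Set Environment := Bad c (K' * n) x ∪ {t | A * n ≤ passageTime t x y} with hB
  have hBm : MeasurableSet B :=
    (measurableSet_Bad _ _ _).union (measurableSet_le measurable_const (measurable_pt _ _))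
  have hPB : (iidLaw G).real B ≤ 2 * Real.exp (-(n : ℝ)) := by
    have h3 : (iidLaw G).real (Bad c (K' * n) x) ≤ Real.exp (-(n : ℝ)) := by
      refine (hbad _ _).trans ?_
      have h4 : ((1 : ℝ) / 2) ^ (K' * n) ≤ (1 / 2) ^ (2 * n) :=
        pow_le_pow_of_le_one (by norm_num) (by norm_num) (by nlinarith)
      refine h4.trans ?_
      rw [pow_mul]
      have h5 : Real.exp (-(n : ℝ)) = (Real.exp (-1)) ^ n := by
        rw [← Real.exp_nat_mul]; congr 1; ring
      rw [h5]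
      apply pow_le_pow_left₀ (by norm_num)
      have := Real.exp_neg_one_gt_d9
      norm_num
      linarith
    have h4 := chernoff_up h0 hlam hexp hAl x y n hxy
    calc (iidLaw G).real B ≤ _ := measureReal_union_le _ _
      _ ≤ Real.exp (-(n : ℝ)) + Real.exp (-(n : ℝ)) := add_le_add h3 h4
      _ = _ := by ring
  set N1 : ℝ := (n1 (y - x) : ℝ) with hN1
  set s : ℝ := Real.exp (-((n : ℝ) / 2)) / N1 with hs
  have hN1pos : 0 < N1 := by linarith
  have hspos : 0 < s := by positivity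
  have hpt : ∀ᵐ t ∂(iidLaw G), pR t (ball x (K' * n)) x y ≤ passageTime t x y +
      (s / 2 * pR t (ball x (K' * n)) x y ^ 2 + B.indicator (fun _ => 1 / (2 * s)) t) := by
    filter_upwards [ae_Nn (G := G) h0] with t ht
    by_cases htB : t ∈ B
    · rw [Set.indicator_of_mem htB]
      have h3 := pt_nonneg ht x y
      have h4 : pR t (ball x (K' * n)) x y
          ≤ s / 2 * pR t (ball x (K' * n)) x y ^ 2 + 1 / (2 * s) := by
        have h5 : 0 ≤ (s * pR t (ball x (K' * n)) x y - 1) ^ 2 / (2 * s) := by positivity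
        have h6 : (s * pR t (ball x (K' * n)) x y - 1) ^ 2 / (2 * s)
            = s / 2 * pR t (ball x (K' * n)) x y ^ 2 + 1 / (2 * s)
              - pR t (ball x (K' * n)) x y := by
          field_simp; ring
        linarith
      linarith
    · rw [Set.indicator_of_notMem htB]
      simp only [hB, Set.mem_union, not_or] at htB
      have h3 : passageTime t x y < c * ((K' * n : ℕ) : ℝ) := by
        have h4 : passageTime t x y < A * n := not_le.mp htB.2
        push_cast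
        nlinarith
      have h5 := ball_le ht htB.1 h3
      have : 0 ≤ s / 2 * pR t (ball x (K' * n)) x y ^ 2 := by positivity
      linarith
  have hind : Integrable (B.indicator (fun _ : Environment => 1 / (2 * s))) (iidLaw G) :=
    (integrable_const _).indicator hBm
  have hint : Integrable (fun t => passageTime t x y +
      (s / 2 * pR t (ball x (K' * n)) x y ^ 2 + B.indicator (fun _ => 1 / (2 * s)) t))
      (iidLaw G) :=
    (integrable_pt h0 h2 x y).add ((hsqI.const_mul _).add hind)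
  refine (integral_mono_ae hI hint hpt).trans ?_
  have e1 : ∫ t, (passageTime t x y +
      (s / 2 * pR t (ball x (K' * n)) x y ^ 2 + B.indicator (fun _ => 1 / (2 * s)) t)) ∂(iidLaw G)
      = ET G (y - x) + (s / 2 * ∫ t, pR t (ball x (K' * n)) x y ^ 2 ∂(iidLaw G)
        + (iidLaw G).real B * (1 / (2 * s))) := by
    have hi2 : Integrable (fun t => s / 2 * pR t (ball x (K' * n)) x y ^ 2) (iidLaw G) :=
      hsqI.const_mul _
    have hi3 : Integrable (fun t => s / 2 * pR t (ball x (K' * n)) x y ^ 2 +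
        B.indicator (fun _ => 1 / (2 * s)) t) (iidLaw G) := hi2.add hind
    rw [integral_add (integrable_pt h0 h2 x y) hi3,
      integral_add hi2 hind, integral_const_mul, integral_pt,
      integral_indicator hBm, setIntegral_const, smul_eq_mul]
  rw [e1]
  have e2 : s / 2 * ∫ t, pR t (ball x (K' * n)) x y ^ 2 ∂(iidLaw G)
      ≤ m2 / 2 * N1 * Real.exp (-((n : ℝ) / 2)) := by
    calc s / 2 * ∫ t, pR t (ball x (K' * n)) x y ^ 2 ∂(iidLaw G)
        ≤ s / 2 * (N1 ^ 2 * m2) := by gcongr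
      _ = m2 / 2 * N1 * Real.exp (-((n : ℝ) / 2)) := by rw [hs]; field_simp
  have e3 : (iidLaw G).real B * (1 / (2 * s)) ≤ N1 * Real.exp (-((n : ℝ) / 2)) := by
    calc (iidLaw G).real B * (1 / (2 * s)) ≤ (2 * Real.exp (-(n : ℝ))) * (1 / (2 * s)) := by gcongr
      _ = N1 * Real.exp (-((n : ℝ) / 2)) := by
          have e4 : Real.exp (-(n : ℝ)) = Real.exp (-((n : ℝ) / 2)) * Real.exp (-((n : ℝ) / 2)) := by
            rw [← Real.exp_add]; congr 1; ring
          rw [hs, e4]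
          have := (Real.exp_pos (-((n : ℝ) / 2))).ne'
          field_simp
  have e5 : (m2 / 2 + 1) * N1 * Real.exp (-((n : ℝ) / 2))
      = m2 / 2 * N1 * Real.exp (-((n : ℝ) / 2)) + N1 * Real.exp (-((n : ℝ) / 2)) := by ring
  rw [e5]
  linarith

end Crest.Agent.R151.C710
end

-- ▼ part R151/C710h

/-!
# R151 / S0214 part 2, module C1 (rate): lanes (helper710)

`Lane f c0 w = {z : |f z - c0| ≤ w/2}`, `f` a linear functional.  Two points of a lane (of width
at least `|f e1| + |f e2|`) are joined by a staircase in the lane.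
-/

set_option autoImplicit false

open MeasureTheory Filter ProbabilityTheory Topology
open Crest.ProbabilityR.FirstPassage

namespace Crest.Agent.R151.C710

open Crest.Agent.R151.K

/-- a lane -/
def Lane (f : ℝ × ℝ →L[ℝ] ℝ) (c0 w : ℝ) : Set (ℤ × ℤ) := {z | |f (toR z) - c0| ≤ w / 2}

lemma f_toR (f : ℝ × ℝ →L[ℝ] ℝ) (z : ℤ × ℤ) : f (toR z) = z.1 * f (1, 0) + z.2 * f (0, 1) := by
  have : toR z = (z.1 : ℝ) • ((1 : ℝ), (0 : ℝ)) + (z.2 : ℝ) • ((0 : ℝ), (1 : ℝ)) := by
    simp [toR]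
  rw [this, map_add, map_smul, map_smul]; rfl

/-- `‖f‖` with respect to `ℓ¹` -/
noncomputable def fn (f : ℝ × ℝ →L[ℝ] ℝ) : ℝ := |f (1, 0)| + |f (0, 1)|

lemma fn_nonneg (f : ℝ × ℝ →L[ℝ] ℝ) : 0 ≤ fn f := by unfold fn; positivity

lemma abs_f_le (f : ℝ × ℝ →L[ℝ] ℝ) (v : ℝ × ℝ) : |f v| ≤ fn f * l1 v := by
  have h1 : f v = v.1 * f (1, 0) + v.2 * f (0, 1) := by
    have : v = (v.1 : ℝ) • ((1 : ℝ), (0 : ℝ)) + (v.2 : ℝ) • ((0 : ℝ), (1 : ℝ)) := by
      simp
    conv_lhs => rw [this]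
    rw [map_add, map_smul, map_smul]; rfl
  rw [h1]
  refine (abs_add_le _ _).trans ?_
  rw [abs_mul, abs_mul]
  unfold fn l1
  have a1 := abs_nonneg v.1
  have a2 := abs_nonneg v.2
  have a3 := abs_nonneg (f (1, 0))
  have a4 := abs_nonneg (f (0, 1))
  nlinarith [mul_nonneg a1 a4, mul_nonneg a2 a3]

/-- one direction only -/
lemma step_one {lo hi x A : ℝ} {p : ℕ} (hp : 1 ≤ p) (hx1 : lo ≤ x) (hx2 : x ≤ hi)
    (hy1 : lo ≤ x + p * A) (hy2 : x + p * A ≤ hi) : lo ≤ x + A ∧ x + A ≤ hi := by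
  have hp1 : (1 : ℝ) ≤ p := by exact_mod_cast hp
  rcases le_total 0 A with hA | hA
  · have : A ≤ p * A := by nlinarith
    constructor <;> linarith
  · have : p * A ≤ A := by nlinarith
    constructor <;> linarith

/-- a real lemma for the choice of the next step of a staircase -/
lemma step_choice {lo hi x A B : ℝ} {p q : ℕ} (hpq : 1 ≤ p ∨ 1 ≤ q)
    (hw : |A| + |B| ≤ hi - lo) (hx1 : lo ≤ x) (hx2 : x ≤ hi)
    (hy1 : lo ≤ x + p * A + q * B) (hy2 : x + p * A + q * B ≤ hi) :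
    (1 ≤ p ∧ lo ≤ x + A ∧ x + A ≤ hi) ∨ (1 ≤ q ∧ lo ≤ x + B ∧ x + B ≤ hi) := by
  rcases Nat.eq_zero_or_pos p with hp | hp
  · right
    subst hp
    have hq : 1 ≤ q := by omega
    simp only [Nat.cast_zero, zero_mul, add_zero] at hy1 hy2
    exact ⟨hq, step_one hq hx1 hx2 hy1 hy2⟩
  rcases Nat.eq_zero_or_pos q with hq | hq
  · left
    subst hq
    simp only [Nat.cast_zero, zero_mul, add_zero] at hy1 hy2
    exact ⟨hp, step_one hp hx1 hx2 hy1 hy2⟩
  have hp1 : (1 : ℝ) ≤ p := by exact_mod_cast hp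
  have hq1 : (1 : ℝ) ≤ q := by exact_mod_cast hq
  rcases le_total 0 A with hA | hA <;> rcases le_total 0 B with hB | hB
  · left
    have h1 : A ≤ p * A := by nlinarith
    have h2 : 0 ≤ q * B := by positivity
    exact ⟨hp, by linarith, by linarith⟩
  · rw [abs_of_nonneg hA, abs_of_nonpos hB] at hw
    by_cases h : x + A ≤ hi
    · left; exact ⟨hp, by linarith, h⟩
    · right; push Not at h; exact ⟨hq, by linarith, by linarith⟩
  · rw [abs_of_nonpos hA, abs_of_nonneg hB] at hw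
    by_cases h : lo ≤ x + A
    · left; exact ⟨hp, h, by linarith⟩
    · right; push Not at h; exact ⟨hq, by linarith, by linarith⟩
  · left
    have e1 : p * A ≤ A := by nlinarith
    have e2 : q * B ≤ 0 := mul_nonpos_of_nonneg_of_nonpos (by linarith) hB
    exact ⟨hp, by linarith, by linarith⟩

/-- next step of a staircase in a lane -/
lemma exists_step {f : ℝ × ℝ →L[ℝ] ℝ} {c0 w : ℝ} (hw : fn f ≤ w) {x y : ℤ × ℤ}
    (hx : x ∈ Lane f c0 w) (hy : y ∈ Lane f c0 w) (hne : x ≠ y) :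
    ∃ z ∈ Lane f c0 w, squareLattice.Adj x z ∧ n1 (y - z) + 1 = n1 (y - x) := by
  have hx' := abs_le.mp (show |f (toR x) - c0| ≤ w / 2 from hx)
  have hy' := abs_le.mp (show |f (toR y) - c0| ≤ w / 2 from hy)
  rw [f_toR] at hx' hy'
  have hw' : |f (1, 0)| + |f (0, 1)| ≤ w := hw
  obtain ⟨F1, hF1⟩ : ∃ F1, F1 = f (1, 0) := ⟨_, rfl⟩
  obtain ⟨F2, hF2⟩ : ∃ F2, F2 = f (0, 1) := ⟨_, rfl⟩
  rw [← hF1, ← hF2] at hx' hy' hw'
  -- the two candidates
  set s1 := (y.1 - x.1).sign with hs1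
  set s2 := (y.2 - x.2).sign with hs2
  have hsgn : ∀ d : ℤ, ((d : ℤ) : ℝ) = (d.natAbs : ℝ) * ((d.sign : ℤ) : ℝ) := by
    intro d
    have h1 : (d.natAbs : ℤ) * d.sign = d := by
      rw [mul_comm]; exact Int.sign_mul_natAbs d
    have h2 : (((d.natAbs : ℤ) * d.sign : ℤ) : ℝ) = (d : ℝ) := by rw [h1]
    rw [← h2]
    push_cast
    simp
  have habs : ∀ d : ℤ, |((d.sign : ℤ) : ℝ)| ≤ 1 := by
    intro d
    rcases lt_trichotomy d 0 with h | h | h
    · simp [Int.sign_eq_neg_one_of_neg h]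
    · simp [h]
    · simp [Int.sign_eq_one_of_pos h]
  have e1 := hsgn (y.1 - x.1)
  have e2 := hsgn (y.2 - x.2)
  push_cast at e1 e2
  have hch := step_choice (lo := c0 - w / 2) (hi := c0 + w / 2)
    (x := x.1 * F1 + x.2 * F2) (A := (s1 : ℝ) * F1) (B := (s2 : ℝ) * F2)
    (p := (y.1 - x.1).natAbs) (q := (y.2 - x.2).natAbs)
    (by
      by_contra hcon
      exact hne (Prod.ext (by omega) (by omega)))
    (by
      have a1 := habs (y.1 - x.1)
      have a2 := habs (y.2 - x.2)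
      rw [abs_mul, abs_mul]
      nlinarith [abs_nonneg F1, abs_nonneg F2])
    (by linarith) (by linarith)
    (by rw [← mul_assoc, ← mul_assoc, ← e1, ← e2]; linarith)
    (by rw [← mul_assoc, ← mul_assoc, ← e1, ← e2]; linarith)
  -- the two candidate moves, when available
  have move1 : y.1 - x.1 ≠ 0 → c0 - w / 2 ≤ x.1 * F1 + x.2 * F2 + s1 * F1 →
      x.1 * F1 + x.2 * F2 + s1 * F1 ≤ c0 + w / 2 →
      ∃ z ∈ Lane f c0 w, squareLattice.Adj x z ∧ n1 (y - z) + 1 = n1 (y - x) := by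
    intro h h1 h2
    refine ⟨(x.1 + s1, x.2), ?_, ?_, ?_⟩
    · show |f (toR (x.1 + s1, x.2)) - c0| ≤ w / 2
      rw [f_toR, ← hF1, ← hF2, abs_le]
      push_cast
      constructor <;> linarith
    · unfold squareLattice
      rw [SimpleGraph.fromRel_adj]
      rcases lt_or_gt_of_ne h with h3 | h3
      · have : s1 = -1 := Int.sign_eq_neg_one_of_neg h3
        rw [this]
        refine ⟨?_, Or.inr (Or.inr ⟨rfl, ?_⟩)⟩
        · intro h4
          have := congrArg Prod.fst h4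
          simp at this
        · simp
      · have : s1 = 1 := Int.sign_eq_one_of_pos h3
        rw [this]
        refine ⟨?_, Or.inl (Or.inr ⟨rfl, rfl⟩)⟩
        intro h4
        have := congrArg Prod.fst h4
        simp at this
    · simp only [n1, Prod.fst_sub, Prod.snd_sub]
      rcases lt_or_gt_of_ne h with h3 | h3
      · have : s1 = -1 := Int.sign_eq_neg_one_of_neg h3
        rw [this]; omega
      · have : s1 = 1 := Int.sign_eq_one_of_pos h3
        rw [this]; omega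
  have move2 : y.2 - x.2 ≠ 0 → c0 - w / 2 ≤ x.1 * F1 + x.2 * F2 + s2 * F2 →
      x.1 * F1 + x.2 * F2 + s2 * F2 ≤ c0 + w / 2 →
      ∃ z ∈ Lane f c0 w, squareLattice.Adj x z ∧ n1 (y - z) + 1 = n1 (y - x) := by
    intro h h1 h2
    refine ⟨(x.1, x.2 + s2), ?_, ?_, ?_⟩
    · show |f (toR (x.1, x.2 + s2)) - c0| ≤ w / 2
      rw [f_toR, ← hF1, ← hF2, abs_le]
      push_cast
      constructor <;> linarith
    · unfold squareLattice
      rw [SimpleGraph.fromRel_adj]
      rcases lt_or_gt_of_ne h with h3 | h3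
      · have : s2 = -1 := Int.sign_eq_neg_one_of_neg h3
        rw [this]
        refine ⟨?_, Or.inr (Or.inl ⟨rfl, ?_⟩)⟩
        · intro h4
          have := congrArg Prod.snd h4
          simp at this
        · simp
      · have : s2 = 1 := Int.sign_eq_one_of_pos h3
        rw [this]
        refine ⟨?_, Or.inl (Or.inl ⟨rfl, rfl⟩)⟩
        intro h4
        have := congrArg Prod.snd h4
        simp at this
    · simp only [n1, Prod.fst_sub, Prod.snd_sub]
      rcases lt_or_gt_of_ne h with h3 | h3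
      · have : s2 = -1 := Int.sign_eq_neg_one_of_neg h3
        rw [this]; omega
      · have : s2 = 1 := Int.sign_eq_one_of_pos h3
        rw [this]; omega
  rcases hch with ⟨h1, h2, h3⟩ | ⟨h1, h2, h3⟩
  · exact move1 (by omega) h2 h3
  · exact move2 (by omega) h2 h3

/-- **connections in lanes** -/
theorem lane_conn {G : Measure ℝ} [IsProbabilityMeasure G] (h0 : G (Set.Iio 0) = 0)
    (h2 : Integrable (fun x : ℝ => x ^ 2) G) {f : ℝ × ℝ →L[ℝ] ℝ} {c0 w : ℝ} (hw : fn f ≤ w)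
    {x y : ℤ × ℤ} (hx : x ∈ Lane f c0 w) (hy : y ∈ Lane f c0 w) :
    Conn (Lane f c0 w) x y ∧ Integrable (fun t => pR t (Lane f c0 w) x y) (iidLaw G) ∧
      ∫ t, pR t (Lane f c0 w) x y ∂(iidLaw G) ≤ n1 (y - x) * ∫ z, z ∂G := by
  induction hn : n1 (y - x) generalizing x with
  | zero =>
    have hxy : x = y := by
      simp only [n1, Prod.fst_sub, Prod.snd_sub] at hn
      exact Prod.ext (by omega) (by omega)
    subst hxy
    have hae : ∀ᵐ t ∂(iidLaw G), pR t (Lane f c0 w) x x = 0 := by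
      filter_upwards [ae_Nn (G := G) h0] with t ht
      exact pR_self ht hx
    refine ⟨Conn.refl hx, (integrable_congr hae).mpr (integrable_zero _ _ _), ?_⟩
    rw [integral_eq_zero_of_ae hae]
    simp
  | succ k ih =>
    have hne : x ≠ y := by
      rintro rfl
      simp [n1] at hn
    obtain ⟨z, hz, hadj, hzn⟩ := exists_step hw hx hy hne
    obtain ⟨c1, i1, l1'⟩ := ih hz (by omega)
    have hc : Conn (Lane f c0 w) x z := Conn.adj hadj hx hz
    have h1 := integrable_id_of_sq h2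
    have hie : Integrable (fun t : Environment => t s(x, z)) (iidLaw G) :=
      (mp_eval (G := G) _).integrable_comp_of_integrable h1
    have hle : ∀ᵐ t ∂(iidLaw G), pR t (Lane f c0 w) x y
        ≤ t s(x, z) + pR t (Lane f c0 w) z y := by
      filter_upwards [ae_Nn (G := G) h0] with t ht
      exact (pR_triangle ht hc c1).trans (add_le_add (pR_adj ht hadj hx hz) le_rfl)
    have hI : Integrable (fun t => pR t (Lane f c0 w) x y) (iidLaw G) := by
      refine (hie.add i1).mono' (measurable_pR _ _ _).aestronglyMeasurable ?_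
      filter_upwards [ae_Nn (G := G) h0, hle] with t ht h3
      rw [Real.norm_of_nonneg (pR_nonneg ht _ _ _)]
      exact h3
    refine ⟨hc.trans c1, hI, ?_⟩
    refine (integral_mono_ae hI (hie.add i1) hle).trans ?_
    have h3 : ∫ t, ((fun t : Environment => t s(x, z)) + fun t => pR t (Lane f c0 w) z y) t
        ∂(iidLaw G) = ∫ z, z ∂G + ∫ t, pR t (Lane f c0 w) z y ∂(iidLaw G) := by
      simp only [Pi.add_apply]
      rw [integral_add hie i1]
      congr 1
      have h := (mp_eval (G := G) s(x, z))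
      conv_rhs => rw [← h.map_eq]
      rw [integral_map h.measurable.aemeasurable (by rw [h.map_eq]; exact h1.1)]
    rw [h3]
    push_cast
    linarith

end Crest.Agent.R151.C710
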