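import Mathlib

/-!
R151, S0214 part 2: the pure probability layer of sections 3, 6 and 7 of `P2_v2`.
-/

set_option autoImplicit false

open MeasureTheory ProbabilityTheory Set

namespace Crest.Agent.R151.G338

section min

variable {Ω : Type*} [MeasurableSpace Ω] {μ : Measure Ω}




/-- `E |X - E Y| ≤ E |X - Y|` for independent `X`, `Y`. -/
theorem integral_abs_sub_integral_le [IsProbabilityMeasure μ] {X Y : Ω → ℝ}
    (hXm : Measurable X) (hYm : Measurable Y) (hX : Integrable X μ) (hY : Integrable Y μ)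
    (hind : IndepFun X Y μ) :
    ∫ ω, |X ω - ∫ ω', Y ω' ∂μ| ∂μ ≤ ∫ ω, |X ω - Y ω| ∂μ := by
  have hmap := (indepFun_iff_map_prod_eq_prod_map_map hXm.aemeasurable hYm.aemeasurable).1 hind
  have : IsProbabilityMeasure (μ.map X) := Measure.isProbabilityMeasure_map hXm.aemeasurable
  have : IsProbabilityMeasure (μ.map Y) := Measure.isProbabilityMeasure_map hYm.aemeasurable
  have hYi : Integrable (fun y : ℝ => y) (μ.map Y) :=
    (integrable_map_measure (by fun_prop) hYm.aemeasurable).2 hY
  have hXi : Integrable (fun y : ℝ => y) (μ.map X) :=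
    (integrable_map_measure (by fun_prop) hXm.aemeasurable).2 hX
  have e1 : ∫ ω', Y ω' ∂μ = ∫ y, y ∂(μ.map Y) :=
    (integral_map hYm.aemeasurable (f := fun y : ℝ => y) (by fun_prop)).symm
  have e2 : ∫ ω, |X ω - ∫ ω', Y ω' ∂μ| ∂μ = ∫ x, |x - ∫ y, y ∂(μ.map Y)| ∂(μ.map X) := by
    rw [e1]
    exact (integral_map hXm.aemeasurable (f := fun x : ℝ => |x - ∫ y, y ∂(μ.map Y)|)
      (by fun_prop)).symm
  have e3 : ∫ ω, |X ω - Y ω| ∂μ = ∫ z : ℝ × ℝ, |z.1 - z.2| ∂((μ.map X).prod (μ.map Y)) := by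
    rw [← hmap]
    exact (integral_map (hXm.prodMk hYm).aemeasurable (f := fun z : ℝ × ℝ => |z.1 - z.2|)
      (by fun_prop)).symm
  have hint : Integrable (fun z : ℝ × ℝ => |z.1 - z.2|) ((μ.map X).prod (μ.map Y)) := by
    rw [← hmap, integrable_map_measure (by fun_prop) (hXm.prodMk hYm).aemeasurable]
    exact (hX.sub hY).abs
  rw [e2, e3, integral_prod _ hint]
  refine integral_mono_of_nonneg (Filter.Eventually.of_forall fun _ => abs_nonneg _)
    hint.integral_prod_left (Filter.Eventually.of_forall fun x => ?_)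
  have : x - ∫ y, y ∂(μ.map Y) = ∫ y, (x - y) ∂(μ.map Y) := by
    rw [integral_sub (integrable_const x) hYi]; simp
  simp only
  rw [this]
  simpa [Real.norm_eq_abs] using norm_integral_le_integral_norm (μ := μ.map Y) (fun y : ℝ => x - y)

end min

section shift

variable {Ω : Type*} [MeasurableSpace Ω] {μ : Measure Ω} [IsProbabilityMeasure μ]




end shift

section ball

/-! ### Section 7: log-concave survival functions -/

/-- `G` is log-concave (multiplicative form). -/
def LogConc (G : ℝ → ℝ) : Prop :=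
  ∀ x y θ : ℝ, 0 ≤ θ → θ ≤ 1 → G x ^ (1 - θ) * G y ^ θ ≤ G ((1 - θ) * x + θ * y)

theorem LogConc.comp_add {G : ℝ → ℝ} (h : LogConc G) (c : ℝ) : LogConc fun x => G (x + c) := by
  intro x y θ h0 h1
  have := h (x + c) (y + c) θ h0 h1
  have e : (1 - θ) * (x + c) + θ * (y + c) = (1 - θ) * x + θ * y + c := by ring
  rw [e] at this
  exact this



end ball

end Crest.Agent.R151.G338
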