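import Mathlib
import Crest.Agent.R151.K0

/-!
# R151/R78A — deterministic row layer, part A: excess, splitting of walks, highways
(owner helper78)
-/

set_option autoImplicit false

open Crest.ProbabilityR.FirstPassage

namespace Crest.Agent.R151.R78

open Crest.Agent.R151.K

abbrev V : Type := ℤ × ℤ

abbrev Wk (x y : V) : Type := squareLattice.Walk x y

/-! ### Excess of a walk -/

/-- the excess `Y` of a walk with respect to the potential `φ` -/
def exc (t : Environment) (φ : V → ℝ) {x y : V} (w : Wk x y) : ℝ :=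
  walkCost t w - (φ y - φ x)

variable {t : Environment} {φ : V → ℝ}





/-! ### Splitting walks -/

lemma exists_split {x y v : V} (g : Wk x y) (hv : v ∈ g.support) :
    ∃ (a : Wk x v) (b : Wk v y), g = a.append b := by
  classical
  exact ⟨g.takeUntil v hv, g.dropUntil v hv, (g.take_spec hv).symm⟩

lemma mem_support_append {x y z v : V} (a : Wk x y) (b : Wk y z) :
    v ∈ (a.append b).support ↔ v ∈ a.support ∨ v ∈ b.support :=
  SimpleGraph.Walk.mem_support_append_iff a b

lemma mem_tail_append {x y z v : V} (a : Wk x y) (b : Wk y z) :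
    v ∈ (a.append b).support.tail ↔ v ∈ a.support.tail ∨ v ∈ b.support.tail := by
  rw [SimpleGraph.Walk.tail_support_append, List.mem_append]

lemma mem_dropLast_append {x y z v : V} (a : Wk x y) (b : Wk y z) :
    v ∈ (a.append b).support.dropLast ↔ v ∈ a.support.dropLast ∨ v ∈ b.support.dropLast := by
  rw [SimpleGraph.Walk.support_append_eq_support_dropLast_append,
    List.dropLast_append_of_ne_nil b.support_ne_nil, List.mem_append]

lemma mem_support_iff_tail {x y v : V} (g : Wk x y) :
    v ∈ g.support ↔ v = x ∨ v ∈ g.support.tail := by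
  have := SimpleGraph.Walk.cons_tail_support g
  constructor
  · intro h; rw [← this] at h; exact List.mem_cons.1 h
  · intro h; rw [← this]; exact List.mem_cons.2 h

lemma mem_support_iff_dropLast {x y v : V} (g : Wk x y) :
    v ∈ g.support ↔ v ∈ g.support.dropLast ∨ v = y := by
  have := SimpleGraph.Walk.dropLast_support_concat g
  constructor
  · intro h
    rw [← this] at h
    exact (List.mem_append.1 h).imp id List.mem_singleton.1
  · intro h
    rw [← this]
    exact List.mem_append.2 (h.imp id List.mem_singleton.2)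

/-- first hit of `S` -/
lemma exists_first {x y : V} (g : Wk x y) (S : Set V) (h : ∃ v ∈ g.support, v ∈ S) :
    ∃ (u : V) (a : Wk x u) (b : Wk u y), g = a.append b ∧ u ∈ S ∧
      ∀ v ∈ a.support.dropLast, v ∉ S := by
  induction g with
  | nil =>
    obtain ⟨v, hv, hvS⟩ := h
    simp only [SimpleGraph.Walk.support_nil, List.mem_singleton] at hv
    subst hv
    exact ⟨v, SimpleGraph.Walk.nil, SimpleGraph.Walk.nil, rfl, hvS, by simp⟩
  | @cons x x' y hadj g ih =>
    by_cases hx : x ∈ S
    · refine ⟨x, SimpleGraph.Walk.nil, SimpleGraph.Walk.cons hadj g, rfl, hx, by simp⟩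
    · have h' : ∃ v ∈ g.support, v ∈ S := by
        obtain ⟨v, hv, hvS⟩ := h
        rw [SimpleGraph.Walk.support_cons, List.mem_cons] at hv
        rcases hv with rfl | hv
        · exact absurd hvS hx
        · exact ⟨v, hv, hvS⟩
      obtain ⟨u, a, b, e, hu, ha⟩ := ih h'
      refine ⟨u, SimpleGraph.Walk.cons hadj a, b, by rw [e]; rfl, hu, ?_⟩
      intro v hv
      rw [SimpleGraph.Walk.support_cons, List.dropLast_cons_of_ne_nil a.support_ne_nil,
        List.mem_cons] at hv
      rcases hv with rfl | hv
      · exact hx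
      · exact ha v hv

/-- last visit of `S` -/
lemma exists_last {x y : V} (g : Wk x y) (S : Set V) (h : ∃ v ∈ g.support, v ∈ S) :
    ∃ (u : V) (a : Wk x u) (b : Wk u y), g = a.append b ∧ u ∈ S ∧
      ∀ v ∈ b.support.tail, v ∉ S := by
  obtain ⟨u, a, b, e, hu, ha⟩ := exists_first g.reverse S (by simpa using h)
  refine ⟨u, b.reverse, a.reverse, ?_, hu, ?_⟩
  · have := congrArg SimpleGraph.Walk.reverse e
    rw [SimpleGraph.Walk.reverse_reverse, SimpleGraph.Walk.reverse_append] at this
    exact this
  · intro v hv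
    rw [SimpleGraph.Walk.support_reverse, List.tail_reverse, List.mem_reverse] at hv
    exact ha v hv

/-- decomposition at the first hit of `S'` and the last visit of `S` before it -/
lemma exists_last_first {x y : V} (g : Wk x y) (S S' : Set V) (hx : x ∈ S)
    (h : ∃ v ∈ g.support, v ∈ S') :
    ∃ (u v : V) (a : Wk x u) (o : Wk u v) (b : Wk v y),
      g = (a.append o).append b ∧ u ∈ S ∧ v ∈ S' ∧
      (∀ w ∈ a.support.dropLast, w ∉ S') ∧ (∀ w ∈ o.support.dropLast, w ∉ S') ∧
      (∀ w ∈ o.support.tail, w ∉ S) := by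
  obtain ⟨v, c, b, e, hv, hc⟩ := exists_first g S' h
  obtain ⟨u, a, o, e', hu, ho⟩ := exists_last c S ⟨x, c.start_mem_support, hx⟩
  refine ⟨u, v, a, o, b, by rw [e, e'], hu, hv, ?_, ?_, ho⟩
  · intro w hw; exact hc w (by rw [e', mem_dropLast_append]; exact Or.inl hw)
  · intro w hw; exact hc w (by rw [e', mem_dropLast_append]; exact Or.inr hw)

/-! ### Highways -/

/-- a bi-infinite simple lattice path -/
structure IsHwy (H : ℤ → V) : Prop where
  inj : Function.Injective H
  adj : ∀ i, squareLattice.Adj (H i) (H (i + 1))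

/-- the cost of one step of the highway -/
def stepc (t : Environment) (H : ℤ → V) (i : ℤ) : ℝ := t s(H i, H (i + 1))

/-- signed cost potential `hc`, with `hc (i+1) - hc i = t s(H i, H (i+1))` and `hc 0 = 0` -/
def hc (t : Environment) (H : ℤ → V) : ℤ → ℝ
  | Int.ofNat n => ∑ k ∈ Finset.range n, stepc t H k
  | Int.negSucc n => -∑ k ∈ Finset.range (n + 1), stepc t H (-(k : ℤ) - 1)

lemma hc_zero (t : Environment) (H : ℤ → V) : hc t H 0 = 0 := by
  change hc t H (Int.ofNat 0) = 0
  simp [hc]

lemma hc_succ (t : Environment) (H : ℤ → V) (i : ℤ) :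
    hc t H (i + 1) = hc t H i + stepc t H i := by
  rcases i with n | n
  · change hc t H (Int.ofNat (n + 1)) = hc t H (Int.ofNat n) + stepc t H (Int.ofNat n)
    simp only [hc, Finset.sum_range_succ]
    rfl
  · rcases n with _ | n
    · change hc t H (Int.ofNat 0) = _
      simp only [hc, Finset.sum_range_succ, Finset.sum_range_zero]
      have : (-((0 : ℕ) : ℤ) - 1) = Int.negSucc 0 := rfl
      rw [this]; ring
    · have e : Int.negSucc (n + 1) + 1 = Int.negSucc n := by
        simp only [Int.negSucc_eq]; push_cast; ring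
      rw [e]
      simp only [hc, Finset.sum_range_succ _ (n + 1)]
      have : (-((n + 1 : ℕ) : ℤ) - 1) = Int.negSucc (n + 1) := by
        simp only [Int.negSucc_eq]; push_cast; ring
      rw [this]; ring

lemma hc_sub_eq_sum (t : Environment) (H : ℤ → V) {i j : ℤ} (h : i ≤ j) :
    hc t H j - hc t H i = ∑ k ∈ Finset.Ico i j, stepc t H k := by
  obtain ⟨n, rfl⟩ := Int.le.dest h
  clear h
  induction n with
  | zero => simp
  | succ n ih =>
    have e : i + ((n + 1 : ℕ) : ℤ) = i + n + 1 := by push_cast; ring
    have e2 : Finset.Ico i (i + n + 1) = insert (i + n) (Finset.Ico i (i + n)) := by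
      ext k; simp only [Finset.mem_Ico, Finset.mem_insert]; omega
    rw [e, hc_succ, e2, Finset.sum_insert (by simp), ← ih]; ring

lemma hc_mono (ht : Nn t) (H : ℤ → V) {i j : ℤ} (h : i ≤ j) : hc t H i ≤ hc t H j := by
  have := hc_sub_eq_sum t H h
  have h2 : 0 ≤ ∑ k ∈ Finset.Ico i j, stepc t H k := Finset.sum_nonneg fun k _ => ht _
  linarith

/-- the excess potential `p` of a highway: `Y_H (i → j) = p j - p i` (signed) -/
def hp (t : Environment) (φ : V → ℝ) (H : ℤ → V) (i : ℤ) : ℝ := hc t H i - φ (H i)

/-- the forward walk along the highway -/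
lemma IsHwy.exists_seg {H : ℤ → V} (hH : IsHwy H) {i j : ℤ} (h : i ≤ j) :
    ∃ w : Wk (H i) (H j), (∀ t : Environment, walkCost t w = hc t H j - hc t H i) ∧
      ∀ v, v ∈ w.support ↔ ∃ k, i ≤ k ∧ k ≤ j ∧ v = H k := by
  obtain ⟨n, rfl⟩ := Int.le.dest h
  clear h
  induction n with
  | zero =>
    refine ⟨(SimpleGraph.Walk.nil : Wk (H i) (H i)).copy rfl (by simp), ?_, ?_⟩
    · intro t; simp [walkCost]
    · intro v
      simp only [SimpleGraph.Walk.support_copy, SimpleGraph.Walk.support_nil, List.mem_singleton]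
      constructor
      · rintro rfl; exact ⟨i, le_rfl, by simp, rfl⟩
      · rintro ⟨k, h1, h2, rfl⟩
        have : k = i := by simp at h2; omega
        rw [this]
  | succ n ih =>
    obtain ⟨w, hw, hs⟩ := ih
    have e : i + ((n + 1 : ℕ) : ℤ) = i + n + 1 := by push_cast; ring
    refine ⟨(w.append (SimpleGraph.Walk.cons (hH.adj (i + n)) SimpleGraph.Walk.nil)).copy rfl
      (by rw [e]), ?_, ?_⟩
    · intro t
      have : walkCost t ((w.append (SimpleGraph.Walk.cons (hH.adj (i + n))
        SimpleGraph.Walk.nil)).copy rfl (by rw [e]) : Wk (H i) (H (i + ((n + 1 : ℕ) : ℤ)))) =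
          walkCost t (w.append (SimpleGraph.Walk.cons (hH.adj (i + n)) SimpleGraph.Walk.nil)) := by
        simp [walkCost]
      rw [this, walkCost_append, hw, e, hc_succ]
      have : walkCost t (SimpleGraph.Walk.cons (hH.adj (i + n)) SimpleGraph.Walk.nil) =
        stepc t H (i + n) := by simp [walkCost, stepc]
      rw [this]; ring
    · intro v
      rw [SimpleGraph.Walk.support_copy, mem_support_append, hs]
      simp only [SimpleGraph.Walk.support_cons, SimpleGraph.Walk.support_nil, List.mem_cons,
        List.not_mem_nil, or_false]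
      constructor
      · rintro (⟨k, h1, h2, rfl⟩ | rfl | rfl)
        · exact ⟨k, h1, by push_cast; omega, rfl⟩
        · exact ⟨_, by omega, by push_cast; omega, rfl⟩
        · exact ⟨_, by omega, by push_cast; omega, rfl⟩
      · rintro ⟨k, h1, h2, rfl⟩
        by_cases hk : k ≤ i + n
        · exact Or.inl ⟨k, h1, hk, rfl⟩
        · have : k = i + n + 1 := by push_cast at h2; omega
          exact Or.inr (Or.inr (by rw [this]))


/-- the defect of a highway segment (nonnegative, monotone in the segment) -/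
noncomputable def defect (t : Environment) (H : ℤ → V) (i j : ℤ) : ℝ :=
  hc t H j - hc t H i - passageTime t (H i) (H j)

lemma IsHwy.pt_le {H : ℤ → V} (hH : IsHwy H) (ht : Nn t) {i j : ℤ} (h : i ≤ j) :
    passageTime t (H i) (H j) ≤ hc t H j - hc t H i := by
  obtain ⟨w, hw, -⟩ := hH.exists_seg h
  rw [← hw t]; exact K.pt_le ht w

lemma IsHwy.defect_nonneg {H : ℤ → V} (hH : IsHwy H) (ht : Nn t) {i j : ℤ} (h : i ≤ j) :
    0 ≤ defect t H i j := by
  have := hH.pt_le ht h; unfold defect; linarith

lemma IsHwy.defect_mono {H : ℤ → V} (hH : IsHwy H) (ht : Nn t) {i' i j j' : ℤ}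
    (h1 : i' ≤ i) (h3 : j ≤ j') : defect t H i j ≤ defect t H i' j' := by
  have a1 := hH.pt_le ht h1
  have a2 := hH.pt_le ht h3
  have b1 := pt_triangle ht (H i') (H i) (H j)
  have b2 := pt_triangle ht (H i') (H j) (H j')
  unfold defect; linarith






end Crest.Agent.R151.R78
private theorem rz_6607b1d7fa : type_of% @_root_.Crest.Agent.R151.R78.hc.eq_1 := @_root_.Crest.Agent.R151.R78.hc.eq_1 -- L146
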