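import Mathlib
import Crest.Agent.R151.R78B
import Crest.Agent.R151.Pl4

-- ▼ part R151/R78D
section

/-!
# R151/R78D — deterministic row layer, part D: private rows (777's architecture `PR`)
(owner helper78)

Rows `k ≤ N` between the private highways `L k` (lower) and `U k` (upper); gaps between `U k` and
`L (k+1)`.
-/

set_option autoImplicit false

open Crest.ProbabilityR.FirstPassage

namespace Crest.Agent.R151.R78

open Crest.Agent.R151.K

variable {t : Environment} {φ : V → ℝ}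

/-- `S` separates `X` from `Y`: every walk from `X` to `Y` meets `S` -/
def Sep (X S Y : Set V) : Prop :=
  ∀ x ∈ X, ∀ y ∈ Y, ∀ g : Wk x y, ∃ v ∈ g.support, v ∈ S

lemma Sep.symm {X S Y : Set V} (h : Sep X S Y) : Sep Y S X := by
  intro y hy x hx g
  obtain ⟨v, hv, hvS⟩ := h x hx y hy g.reverse
  exact ⟨v, by simpa using hv, hvS⟩

lemma Sep.mono {X X' S S' Y Y' : Set V} (h : Sep X S Y) (hX : X' ⊆ X) (hS : S ⊆ S')
    (hY : Y' ⊆ Y) : Sep X' S' Y' := by
  intro x hx y hy g
  obtain ⟨v, hv, hvS⟩ := h x (hX hx) y (hY hy) g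
  exact ⟨v, hv, hS hvS⟩

/-! ### Open crossings avoid everything beyond the two highways -/

section avoid
variable {H H' : ℤ → V} {A : Set V} {z w : ℤ}

lemma IsOpen.avoid_below {g : Wk (H z) (H' w)} (h : IsOpen H H' A g) {X : Set V}
    (hX : ∀ k, H k ∉ X) (hS : Sep X (Set.range H) (Set.range H')) :
    ∀ v ∈ g.support, v ∉ X := by
  intro v hv hvX
  obtain ⟨a, b, e⟩ := exists_split g hv
  obtain ⟨u, hu, ⟨m, rfl⟩⟩ := hS v hvX _ ⟨w, rfl⟩ b
  rw [mem_support_iff_tail] at hu
  rcases hu with hu | hu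
  · exact hX m (hu ▸ hvX)
  · exact h.fst m (by rw [e, mem_tail_append]; exact Or.inr hu)

lemma IsOpen.avoid_above {g : Wk (H z) (H' w)} (h : IsOpen H H' A g) {X : Set V}
    (hX : ∀ k, H' k ∉ X) (hS : Sep (Set.range H) (Set.range H') X) :
    ∀ v ∈ g.support, v ∉ X := by
  intro v hv hvX
  obtain ⟨a, b, e⟩ := exists_split g hv
  obtain ⟨u, hu, ⟨m, rfl⟩⟩ := hS _ ⟨z, rfl⟩ v hvX a
  rw [mem_support_iff_dropLast] at hu
  rcases hu with hu | hu
  · exact h.snd m (by rw [e, mem_dropLast_append]; exact Or.inl hu)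
  · exact hX m (hu ▸ hvX)

/-- intersection of regions -/
lemma IsOpen.inter {B : Set V} {g : Wk (H z) (H' w)} (h : IsOpen H H' A g)
    (hB : ∀ v ∈ g.support, v ∈ B) : IsOpen H H' (A ∩ B) g :=
  ⟨fun v hv => ⟨h.sub v hv, hB v hv⟩, h.fst, h.snd⟩

end avoid

/-! ### Gap kernels -/

/-- normalised full-plane passage kernel between two highways -/
noncomputable def gapK (t : Environment) (U L : ℤ → V) (w z : ℤ) : ℝ :=
  hc t U w + passageTime t (U w) (L z) - hc t L z

lemma gapK_mono (ht : Nn t) {U L : ℤ → V} (hU : IsHwy U) (hL : IsHwy L) {a w z b : ℤ}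
    (ha : a ≤ w) (hb : z ≤ b) : gapK t U L a b ≤ gapK t U L w z := by
  have h1 := hU.pt_le ht ha
  have h2 := hL.pt_le ht hb
  have h3 := pt_triangle ht (U a) (U w) (L b)
  have h4 := pt_triangle ht (U w) (L z) (L b)
  unfold gapK; linarith

/-- `gapK` is below every walk: lower bound for the value of a walk between two highways -/
lemma gapK_le (ht : Nn t) {U L : ℤ → V} {w z : ℤ} (g : Wk (U w) (L z)) :
    gapK t U L w z ≤ hc t U w + walkCost t g - hc t L z := by
  have := K.pt_le ht g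
  unfold gapK; linarith

lemma gapK_le_hull (ht : Nn t) {U L : ℤ → V} (hU : IsHwy U) (hL : IsHwy L) {A : Set V} {i j : ℤ}
    (hne : (routes t U L A i j).Nonempty) : gapK t U L i j ≤ hull t U L A i j :=
  le_hull hne fun _ _ hz hw g _ => (gapK_mono ht hU hL hz hw).trans (gapK_le ht g)

/-- excess form of `gapK` -/
lemma gapK_eq (t : Environment) (φ : V → ℝ) (U L : ℤ → V) (w z : ℤ) :
    gapK t U L w z = hp t φ U w + (passageTime t (U w) (L z) - (φ (L z) - φ (U w))) -
      hp t φ L z := by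
  unfold gapK hp; ring

/-! ### The chain -/

/-- structural decomposition of a walk crossing `N` private rows -/
theorem exists_chain' (N : ℕ) : ∀ (L U : ℕ → ℤ → V) (x y : V)
    (_ : 0 < N → Sep {x} (Set.range (L 0)) (Set.range (U 0)))
    (_ : 0 < N → Sep {x} (Set.range (U 0)) {y})
    (_ : ∀ k, k + 1 < N → Sep (Set.range (U k)) (Set.range (L (k + 1))) (Set.range (U (k + 1))))
    (_ : ∀ k, k + 1 < N → Sep (Set.range (U k)) (Set.range (U (k + 1))) {y})
    (g : Wk x y),
    ∃ (z w : ℕ → ℤ) (P : ℕ → V) (C O : ℕ → Environment → ℝ) (E : Environment → ℝ),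
      P 0 = x ∧ (∀ k < N, P (k + 1) = U k (w k)) ∧
      (∀ k < N, ∃ c : Wk (P k) (L k (z k)), (∀ t, walkCost t c = C k t) ∧
        ∀ v ∈ c.support, v ∈ g.support) ∧
      (∀ k < N, ∃ o : Wk (L k (z k)) (U k (w k)), (∀ t, walkCost t o = O k t) ∧
        IsOpen (L k) (U k) {v | v ∈ g.support} o) ∧
      (∃ e : Wk (P N) y, (∀ t, walkCost t e = E t) ∧ ∀ v ∈ e.support, v ∈ g.support) ∧
      ∀ t, walkCost t g = ∑ k ∈ Finset.range N, (C k t + O k t) + E t := by
  induction N with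
  | zero =>
    intro L U x y _ _ _ _ g
    refine ⟨fun _ => 0, fun _ => 0, fun _ => x, fun _ _ => 0, fun _ _ => 0,
      fun t => walkCost t g, rfl, by simp, by simp, by simp, ⟨g, fun _ => rfl, fun v hv => hv⟩,
      by simp⟩
  | succ N ih =>
    intro L U x y hL0 hU0 hL hU g
    obtain ⟨u, c, b, e, ⟨w0, rfl⟩, hc⟩ := exists_first g (Set.range (U 0))
      (hU0 (by omega) x rfl y rfl g)
    obtain ⟨v, a, o, e', ⟨z0, rfl⟩, ho⟩ := exists_last c (Set.range (L 0))
      (hL0 (by omega) x rfl _ ⟨w0, rfl⟩ c)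
    obtain ⟨z, w, P, C, O, E, hP0, hP, hC, hO, ⟨f, hf, hf'⟩, hsum⟩ := ih (fun k => L (k + 1))
      (fun k => U (k + 1)) (U 0 w0) y
      (fun h => (hL 0 (by omega)).mono (by rintro _ rfl; exact ⟨w0, rfl⟩) subset_rfl subset_rfl)
      (fun h => (hU 0 (by omega)).mono (by rintro _ rfl; exact ⟨w0, rfl⟩) subset_rfl subset_rfl)
      (fun k hk => hL (k + 1) (by omega)) (fun k hk => hU (k + 1) (by omega)) b
    have hb : ∀ v ∈ b.support, v ∈ g.support := fun v hv => by
      rw [e, mem_support_append]; exact Or.inr hv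
    have hoo : ∀ v ∈ o.support, v ∈ g.support := fun v hv => by
      rw [e, e', mem_support_append, mem_support_append]; exact Or.inl (Or.inr hv)
    have haa : ∀ v ∈ a.support, v ∈ g.support := fun v hv => by
      rw [e, e', mem_support_append, mem_support_append]; exact Or.inl (Or.inl hv)
    let C' : ℕ → Environment → ℝ := fun k => Nat.casesOn k (fun t => walkCost t a) C
    let O' : ℕ → Environment → ℝ := fun k => Nat.casesOn k (fun t => walkCost t o) O
    let P' : ℕ → V := fun k => Nat.casesOn k x P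
    refine ⟨fun k => Nat.casesOn k z0 z, fun k => Nat.casesOn k w0 w, P', C', O', E, rfl,
      ?_, ?_, ?_, ⟨f, hf, fun v hv => hb v (hf' v hv)⟩, ?_⟩
    · intro k hk
      rcases k with _ | k
      · exact hP0
      · exact hP k (by omega)
    · intro k hk
      rcases k with _ | k
      · exact ⟨a, fun _ => rfl, haa⟩
      · obtain ⟨c, hc, hc'⟩ := hC k (by omega)
        exact ⟨c, hc, fun v hv => hb v (hc' v hv)⟩
    · intro k hk
      rcases k with _ | k
      · refine ⟨o, fun _ => rfl, hoo, ?_, ?_⟩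
        · intro k hk; exact ho _ hk ⟨k, rfl⟩
        · intro k hk
          exact hc _ (by rw [e', mem_dropLast_append]; exact Or.inr hk) ⟨k, rfl⟩
      · obtain ⟨c, hc, hc'⟩ := hO k (by omega)
        exact ⟨c, hc, hc'.mono fun v hv => hb v hv⟩
    · intro t
      rw [e, e', walkCost_append, walkCost_append, hsum t,
        Finset.sum_range_succ' (fun k => C' k t + O' k t) N]
      change _ = ∑ k ∈ Finset.range N, (C k t + O k t) + (walkCost t a + walkCost t o) + E t
      ring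

/-- data of a stack of private rows `0, …, N` crossed by walks from `X` to `Y` -/
structure IsStack (N : ℕ) (L U : ℕ → ℤ → V) (X Y : Set V) : Prop where
  hL : ∀ k ≤ N, IsHwy (L k)
  hU : ∀ k ≤ N, IsHwy (U k)
  sepL0 : Sep X (Set.range (L 0)) (Set.range (U 0))
  sepU0 : Sep X (Set.range (U 0)) Y
  sepL : ∀ k < N, Sep (Set.range (U k)) (Set.range (L (k + 1))) (Set.range (U (k + 1)))
  sepU : ∀ k < N, Sep (Set.range (U k)) (Set.range (U (k + 1))) Y

/-- **chain inequality** (777's (*)), cost form, any region `A k` of row `k` containing the open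
pieces of the walk. -/
theorem chain_pr (ht : Nn t) {N : ℕ} {L U : ℕ → ℤ → V} {X Y : Set V} (hS : IsStack N L U X Y)
    {A : ℕ → Set V} {x y : V} (hx : x ∈ X) (hy : y ∈ Y) (g : Wk x y)
    (hb : ∀ k ≤ N, ∀ i j, L k i ∈ g.support → U k j ∈ g.support →
      BddBelow (routes t (L k) (U k) (A k) i j))
    (hA : ∀ k ≤ N, ∀ i j (o : Wk (L k i) (U k j)), IsOpen (L k) (U k) {v | v ∈ g.support} o →
      ∀ v ∈ o.support, v ∈ A k) :
    ∃ z w : ℕ → ℤ,
      (∀ k ≤ N, ∃ o : Wk (L k (z k)) (U k (w k)), IsOpen (L k) (U k) {v | v ∈ g.support} o) ∧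
      (passageTime t x (L 0 (z 0)) - hc t (L 0) (z 0)) +
        ∑ k ∈ Finset.range (N + 1), hull t (L k) (U k) (A k) (z k) (w k) +
        ∑ k ∈ Finset.range N, gapK t (U k) (L (k + 1)) (w k) (z (k + 1)) +
        (hc t (U N) (w N) + passageTime t (U N (w N)) y) ≤ walkCost t g := by
  obtain ⟨z, w, P, C, O, E, hP0, hP, hC, hO, ⟨e, he, -⟩, hsum⟩ := exists_chain' (N + 1) L U x y
    (fun _ => hS.sepL0.mono (by rintro _ rfl; exact hx) subset_rfl subset_rfl)
    (fun _ => hS.sepU0.mono (by rintro _ rfl; exact hx) subset_rfl (by rintro _ rfl; exact hy))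
    (fun k hk => hS.sepL k (by omega))
    (fun k hk => (hS.sepU k (by omega)).mono subset_rfl subset_rfl (by rintro _ rfl; exact hy)) g
  refine ⟨z, w, fun k hk => ?_, ?_⟩
  · obtain ⟨o, -, ho⟩ := hO k (by omega)
    exact ⟨o, ho⟩
  have hOk : ∀ k ≤ N, hull t (L k) (U k) (A k) (z k) (w k) - hc t (L k) (z k) +
      hc t (U k) (w k) ≤ O k t := by
    intro k hk
    obtain ⟨o, ho, ho'⟩ := hO k (by omega)
    have h1 : L k (z k) ∈ g.support := ho'.sub _ o.start_mem_support
    have h2 : U k (w k) ∈ g.support := ho'.sub _ o.end_mem_support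
    have h3 : IsOpen (L k) (U k) (A k) o := ⟨hA k hk _ _ o ho', ho'.fst, ho'.snd⟩
    have := hull_le (hb k hk _ _ h1 h2) le_rfl le_rfl o h3
    rw [← ho t]; linarith
  have hC0 : passageTime t x (L 0 (z 0)) ≤ C 0 t := by
    obtain ⟨c, hc, -⟩ := hC 0 (by omega)
    rw [← hc t, ← hP0]; exact K.pt_le ht c
  have hCk : ∀ k < N, passageTime t (U k (w k)) (L (k + 1) (z (k + 1))) ≤ C (k + 1) t := by
    intro k hk
    obtain ⟨c, hc, -⟩ := hC (k + 1) (by omega)
    rw [← hc t, ← hP k (by omega)]; exact K.pt_le ht c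
  have hE : passageTime t (U N (w N)) y ≤ E t := by
    rw [← he t, ← hP N (by omega)]; exact K.pt_le ht e
  have s1 : ∑ k ∈ Finset.range (N + 1), (hull t (L k) (U k) (A k) (z k) (w k) -
      hc t (L k) (z k) + hc t (U k) (w k)) ≤ ∑ k ∈ Finset.range (N + 1), O k t :=
    Finset.sum_le_sum fun k hk => hOk k (by rw [Finset.mem_range] at hk; omega)
  have s2 : ∑ k ∈ Finset.range N, passageTime t (U k (w k)) (L (k + 1) (z (k + 1))) ≤
      ∑ k ∈ Finset.range N, C (k + 1) t :=
    Finset.sum_le_sum fun k hk => hCk k (Finset.mem_range.1 hk)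
  rw [hsum t]
  have s3 : ∑ k ∈ Finset.range (N + 1), (C k t + O k t) =
      ∑ k ∈ Finset.range N, C (k + 1) t + C 0 t + ∑ k ∈ Finset.range (N + 1), O k t := by
    rw [Finset.sum_add_distrib, Finset.sum_range_succ' (fun k => C k t)]
  have s4 : ∑ k ∈ Finset.range (N + 1), (hull t (L k) (U k) (A k) (z k) (w k) -
      hc t (L k) (z k) + hc t (U k) (w k)) =
      ∑ k ∈ Finset.range (N + 1), hull t (L k) (U k) (A k) (z k) (w k) -
      (∑ k ∈ Finset.range N, hc t (L (k + 1)) (z (k + 1)) + hc t (L 0) (z 0)) +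
      (∑ k ∈ Finset.range N, hc t (U k) (w k) + hc t (U N) (w N)) := by
    rw [Finset.sum_add_distrib, Finset.sum_sub_distrib,
      Finset.sum_range_succ' (fun k => hc t (L k) (z k)),
      Finset.sum_range_succ (fun k => hc t (U k) (w k))]
  have s5 : ∑ k ∈ Finset.range N, gapK t (U k) (L (k + 1)) (w k) (z (k + 1)) =
      ∑ k ∈ Finset.range N, hc t (U k) (w k) +
      ∑ k ∈ Finset.range N, passageTime t (U k (w k)) (L (k + 1) (z (k + 1))) -
      ∑ k ∈ Finset.range N, hc t (L (k + 1)) (z (k + 1)) := by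
    simp only [gapK, Finset.sum_add_distrib, Finset.sum_sub_distrib]
  rw [s3, s5]
  linarith

end Crest.Agent.R151.R78
end

-- ▼ part R151/R78E
section

/-!
# R151/R78E — deterministic row layer, part E: gauge forms of the chain inequality, outer rows
(owner helper78)
-/

set_option autoImplicit false

open Crest.ProbabilityR.FirstPassage

namespace Crest.Agent.R151.R78

open Crest.Agent.R151.K

variable {t : Environment} {φ : V → ℝ}

/-- gap cost relative to the gauge points (nonnegative inside the gauge window) -/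
noncomputable def gp (t : Environment) (U L : ℤ → V) (a b w z : ℤ) : ℝ :=
  gapK t U L w z - gapK t U L a b

lemma gp_nonneg (ht : Nn t) {U L : ℤ → V} (hU : IsHwy U) (hL : IsHwy L) {a w z b : ℤ}
    (ha : a ≤ w) (hb : z ≤ b) : 0 ≤ gp t U L a b w z := by
  have := gapK_mono ht hU hL ha hb
  unfold gp; linarith

/-- the gap cost in terms of excesses: `Y(w → z) + Y_U(a → w) + Y_L(z → b) - Y(a → b)` -/
lemma gp_eq (t : Environment) (φ : V → ℝ) (U L : ℤ → V) (a b w z : ℤ) :
    gp t U L a b w z = (passageTime t (U w) (L z) - (φ (L z) - φ (U w))) +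
      (hp t φ U w - hp t φ U a) + (hp t φ L b - hp t φ L z) -
      (passageTime t (U a) (L b) - (φ (L b) - φ (U a))) := by
  unfold gp gapK hp; ring

/-- excess of the optimal route `i → j` -/
noncomputable def hullY (t : Environment) (φ : V → ℝ) (H H' : ℤ → V) (A : Set V) (i j : ℤ) : ℝ :=
  hull t H H' A i j - hp t φ H i + hp t φ H' j

/-- excess of the geodesic -/
noncomputable def ptY (t : Environment) (φ : V → ℝ) (x y : V) : ℝ :=
  passageTime t x y - (φ y - φ x)

/-- the path independent sum, in terms of excesses -/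
noncomputable def SUMY (t : Environment) (φ : V → ℝ) (N : ℕ) (L U : ℕ → ℤ → V) (B : ℕ → Set V)
    (aL bL aU bU : ℕ → ℤ) : ℝ :=
  ∑ k ∈ Finset.range (N + 1), hullY t φ (L k) (U k) (B k) (aL k) (bU k) +
    ∑ k ∈ Finset.range N, ptY t φ (U k (aU k)) (L (k + 1) (bL (k + 1))) -
    ∑ k ∈ Finset.range N, (hp t φ (U k) (bU k) - hp t φ (U k) (aU k)) -
    ∑ k ∈ Finset.range N, (hp t φ (L (k + 1)) (bL (k + 1)) - hp t φ (L (k + 1)) (aL (k + 1)))

/-- the path independent sum, normalised form -/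
noncomputable def SUMK (t : Environment) (N : ℕ) (L U : ℕ → ℤ → V) (B : ℕ → Set V)
    (aL bL aU bU : ℕ → ℤ) : ℝ :=
  ∑ k ∈ Finset.range (N + 1), hull t (L k) (U k) (B k) (aL k) (bU k) +
    ∑ k ∈ Finset.range N, gapK t (U k) (L (k + 1)) (aU k) (bL (k + 1))

lemma SUMK_eq (t : Environment) (φ : V → ℝ) (N : ℕ) (L U : ℕ → ℤ → V) (B : ℕ → Set V)
    (aL bL aU bU : ℕ → ℤ) : SUMK t N L U B aL bL aU bU =
      SUMY t φ N L U B aL bL aU bU + hp t φ (L 0) (aL 0) - hp t φ (U N) (bU N) := by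
  unfold SUMK SUMY
  have e1 : ∀ k, hullY t φ (L k) (U k) (B k) (aL k) (bU k) =
      hull t (L k) (U k) (B k) (aL k) (bU k) - hp t φ (L k) (aL k) + hp t φ (U k) (bU k) :=
    fun k => rfl
  have e2 : ∀ k, ptY t φ (U k (aU k)) (L (k + 1) (bL (k + 1))) =
      gapK t (U k) (L (k + 1)) (aU k) (bL (k + 1)) - hp t φ (U k) (aU k) +
        hp t φ (L (k + 1)) (bL (k + 1)) := by
    intro k; unfold ptY gapK hp; ring
  rw [Finset.sum_congr rfl fun k _ => e1 k, Finset.sum_congr rfl fun k _ => e2 k]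
  simp only [Finset.sum_add_distrib, Finset.sum_sub_distrib]
  rw [Finset.sum_range_succ' (fun k => hp t φ (L k) (aL k)),
    Finset.sum_range_succ (fun k => hp t φ (U k) (bU k))]
  ring

/-- gauge window conditions: every point of a highway in `B` lies between its gauge points -/
structure Win (N : ℕ) (L U : ℕ → ℤ → V) (B : Set V) (aL bL aU bU : ℕ → ℤ) : Prop where
  L_ge : ∀ k ≤ N, ∀ m, L k m ∈ B → aL k ≤ m
  L_le : ∀ k ≤ N, ∀ m, L k m ∈ B → m ≤ bL k
  U_ge : ∀ k ≤ N, ∀ m, U k m ∈ B → aU k ≤ m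
  U_le : ∀ k ≤ N, ∀ m, U k m ∈ B → m ≤ bU k

/-- **chain inequality (777's (*)), gauge form.** `A k` = region in which the row cost is evaluated
(it must contain the open pieces), `B k` = gauge region. -/
theorem chain_pr_gauge (ht : Nn t) {N : ℕ} {L U : ℕ → ℤ → V} {X Y : Set V}
    (hS : IsStack N L U X Y) {A B : ℕ → Set V} {aL bL aU bU : ℕ → ℤ}
    {x y : V} (hx : x ∈ X) (hy : y ∈ Y) (g : Wk x y)
    (hb : ∀ k ≤ N, ∀ i j, L k i ∈ g.support → U k j ∈ g.support →
      BddBelow (routes t (L k) (U k) (A k) i j))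
    (hA : ∀ k ≤ N, ∀ i j (o : Wk (L k i) (U k j)), IsOpen (L k) (U k) {v | v ∈ g.support} o →
      ∀ v ∈ o.support, v ∈ A k) :
    ∃ z w : ℕ → ℤ,
      (∀ k ≤ N, ∃ o : Wk (L k (z k)) (U k (w k)), IsOpen (L k) (U k) {v | v ∈ g.support} o) ∧
      ∑ k ∈ Finset.range (N + 1), shp t (L k) (U k) (B k) (aL k) (bU k) (A k) (z k) (w k) +
        ∑ k ∈ Finset.range N, gp t (U k) (L (k + 1)) (aU k) (bL (k + 1)) (w k) (z (k + 1)) +
        SUMY t φ N L U B aL bL aU bU +
        (ptY t φ x (L 0 (z 0)) - (hp t φ (L 0) (z 0) - hp t φ (L 0) (aL 0))) +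
        (ptY t φ (U N (w N)) y - (hp t φ (U N) (bU N) - hp t φ (U N) (w N))) ≤ exc t φ g := by
  obtain ⟨z, w, hzw, h⟩ := chain_pr ht hS hx hy g hb hA
  refine ⟨z, w, hzw, ?_⟩
  have e1 : ∑ k ∈ Finset.range (N + 1), shp t (L k) (U k) (B k) (aL k) (bU k) (A k) (z k) (w k) +
        ∑ k ∈ Finset.range N, gp t (U k) (L (k + 1)) (aU k) (bL (k + 1)) (w k) (z (k + 1)) +
        SUMK t N L U B aL bL aU bU =
      ∑ k ∈ Finset.range (N + 1), hull t (L k) (U k) (A k) (z k) (w k) +
        ∑ k ∈ Finset.range N, gapK t (U k) (L (k + 1)) (w k) (z (k + 1)) := by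
    unfold SUMK shp gp
    simp only [Finset.sum_sub_distrib]
    ring
  have e2 := SUMK_eq t φ N L U B aL bL aU bU
  have e3 : ptY t φ x (L 0 (z 0)) - (hp t φ (L 0) (z 0) - hp t φ (L 0) (aL 0)) =
    (passageTime t x (L 0 (z 0)) - hc t (L 0) (z 0)) + φ x + hp t φ (L 0) (aL 0) := by
    unfold ptY hp; ring
  have e4 : ptY t φ (U N (w N)) y - (hp t φ (U N) (bU N) - hp t φ (U N) (w N)) =
    (hc t (U N) (w N) + passageTime t (U N (w N)) y) - φ y - hp t φ (U N) (bU N) := by
    unfold ptY hp; ring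
  have e5 : exc t φ g = walkCost t g - (φ y - φ x) := rfl
  rw [e3, e4, e5]
  linarith

/-! ### Outer rows: (6.1), (6.2), section 11 -/

/-- **outer row, value form**: the value of every route of the outer row `H, H'` is at least the
sum of the hull costs of the inner rows and of the gap kernels. -/
theorem outer_value (ht : Nn t) {N : ℕ} {L U : ℕ → ℤ → V} {H H' : ℤ → V}
    (hH : IsHwy H) (hH' : IsHwy H')
    (hS : IsStack N L U (Set.range H) (Set.range H')) {A : Set V} {A' : ℕ → Set V}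
    (hb : ∀ k ≤ N, ∀ i j, BddBelow (routes t (L k) (U k) (A' k) i j))
    (hA : ∀ k ≤ N, ∀ i j (o : Wk (L k i) (U k j)), IsOpen (L k) (U k) A o →
      ∀ v ∈ o.support, v ∈ A' k) {i j : ℤ} {c : ℝ} (hc : c ∈ routes t H H' A i j) :
    ∃ z w : ℕ → ℤ,
      (∀ k ≤ N, ∃ o : Wk (L k (z k)) (U k (w k)), IsOpen (L k) (U k) A o) ∧
      gapK t H (L 0) i (z 0) +
        ∑ k ∈ Finset.range (N + 1), hull t (L k) (U k) (A' k) (z k) (w k) +
        ∑ k ∈ Finset.range N, gapK t (U k) (L (k + 1)) (w k) (z (k + 1)) +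
        gapK t (U N) H' (w N) j ≤ c := by
  obtain ⟨i', j', hi, hj, g, hg, rfl⟩ := hc
  obtain ⟨z, w, hzw, h⟩ := chain_pr (A := A') ht hS ⟨i', rfl⟩ ⟨j', rfl⟩ g
    (fun k hk i j _ _ => hb k hk i j)
    (fun k hk i j o ho => hA k hk i j o (ho.mono fun v hv => hg.sub v hv))
  refine ⟨z, w, fun k hk => ?_, ?_⟩
  · obtain ⟨o, ho⟩ := hzw k hk
    exact ⟨o, ho.mono fun v hv => hg.sub v hv⟩
  have h1 := gapK_mono ht hH (hS.hL 0 (by omega)) hi (le_refl (z 0))
  have h2 := gapK_mono ht (hS.hU N le_rfl) hH' (le_refl (w N)) hj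
  generalize ∑ k ∈ Finset.range N, gapK t (U k) (L (k + 1)) (w k) (z (k + 1)) = S at h ⊢
  unfold gapK at h1 h2 ⊢
  linarith

/-- the constant `K` of an outer row (section 6, (6.1); section 11) -/
noncomputable def outK (t : Environment) (N : ℕ) (L U : ℕ → ℤ → V) (H H' : ℤ → V)
    (B' : ℕ → Set V) (B : Set V) (aL bL aU bU : ℕ → ℤ) (a b : ℤ) : ℝ :=
  gapK t H (L 0) a (bL 0) + SUMK t N L U B' aL bL aU bU + gapK t (U N) H' (aU N) b -
    hull t H H' B a b

/-- the sum of all gauged costs of a path through the inner rows of an outer row -/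
noncomputable def inSum (t : Environment) (N : ℕ) (L U : ℕ → ℤ → V) (H H' : ℤ → V)
    (B' A' : ℕ → Set V) (aL bL aU bU : ℕ → ℤ) (a b i j : ℤ) (z w : ℕ → ℤ) : ℝ :=
  gp t H (L 0) a (bL 0) i (z 0) +
    ∑ k ∈ Finset.range (N + 1), shp t (L k) (U k) (B' k) (aL k) (bU k) (A' k) (z k) (w k) +
    ∑ k ∈ Finset.range N, gp t (U k) (L (k + 1)) (aU k) (bL (k + 1)) (w k) (z (k + 1)) +
    gp t (U N) H' (aU N) b (w N) j

lemma inSum_add_outK (t : Environment) (N : ℕ) (L U : ℕ → ℤ → V) (H H' : ℤ → V)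
    (B' A' : ℕ → Set V) (B : Set V) (aL bL aU bU : ℕ → ℤ) (a b i j : ℤ) (z w : ℕ → ℤ) :
    inSum t N L U H H' B' A' aL bL aU bU a b i j z w + outK t N L U H H' B' B aL bL aU bU a b =
      gapK t H (L 0) i (z 0) +
        ∑ k ∈ Finset.range (N + 1), hull t (L k) (U k) (A' k) (z k) (w k) +
        ∑ k ∈ Finset.range N, gapK t (U k) (L (k + 1)) (w k) (z (k + 1)) +
        gapK t (U N) H' (w N) j - hull t H H' B a b := by
  unfold inSum outK SUMK gp shp
  simp only [Finset.sum_sub_distrib]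
  ring

/-- (6.2) and its analogue for several inner rows -/
theorem outer_shp (ht : Nn t) {N : ℕ} {L U : ℕ → ℤ → V} {H H' : ℤ → V}
    (hH : IsHwy H) (hH' : IsHwy H')
    (hS : IsStack N L U (Set.range H) (Set.range H')) {A B : Set V} {A' B' : ℕ → Set V}
    (hb : ∀ k ≤ N, ∀ i j, BddBelow (routes t (L k) (U k) (A' k) i j))
    (hA : ∀ k ≤ N, ∀ i j (o : Wk (L k i) (U k j)), IsOpen (L k) (U k) A o →
      ∀ v ∈ o.support, v ∈ A' k) (aL bL aU bU : ℕ → ℤ) (a b : ℤ)
    {i j : ℤ} {c : ℝ} (hc : c ∈ routes t H H' A i j) :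
    ∃ z w : ℕ → ℤ,
      (∀ k ≤ N, ∃ o : Wk (L k (z k)) (U k (w k)), IsOpen (L k) (U k) A o) ∧
      inSum t N L U H H' B' A' aL bL aU bU a b i j z w + outK t N L U H H' B' B aL bL aU bU a b ≤
        c - hull t H H' B a b := by
  obtain ⟨z, w, hzw, h⟩ := outer_value ht hH hH' hS hb hA hc
  refine ⟨z, w, hzw, ?_⟩
  rw [inSum_add_outK]
  linarith

lemma inSum_nonneg (ht : Nn t) {N : ℕ} {L U : ℕ → ℤ → V} {H H' : ℤ → V}
    (hH : IsHwy H) (hH' : IsHwy H') (hS : IsStack N L U (Set.range H) (Set.range H'))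
    {A' B' : ℕ → Set V} {A W : Set V} {aL bL aU bU : ℕ → ℤ} (hW : Win N L U W aL bL aU bU)
    (hAW : A ⊆ W) {a b i j : ℤ} (hi : a ≤ i) (hj : j ≤ b)
    (hAB : ∀ k ≤ N, A' k ⊆ B' k)
    (hb : ∀ k ≤ N, BddBelow (routes t (L k) (U k) (B' k) (aL k) (bU k)))
    (hA : ∀ k ≤ N, ∀ i j (o : Wk (L k i) (U k j)), IsOpen (L k) (U k) A o →
      ∀ v ∈ o.support, v ∈ A' k)
    {z w : ℕ → ℤ} (hzw : ∀ k ≤ N, ∃ o : Wk (L k (z k)) (U k (w k)), IsOpen (L k) (U k) A o) :
    0 ≤ inSum t N L U H H' B' A' aL bL aU bU a b i j z w := by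
  have hz : ∀ k ≤ N, L k (z k) ∈ W := fun k hk => by
    obtain ⟨o, ho⟩ := hzw k hk
    exact hAW (ho.sub _ o.start_mem_support)
  have hw : ∀ k ≤ N, U k (w k) ∈ W := fun k hk => by
    obtain ⟨o, ho⟩ := hzw k hk
    exact hAW (ho.sub _ o.end_mem_support)
  have h1 := gp_nonneg ht hH (hS.hL 0 (by omega)) hi (hW.L_le 0 (by omega) _ (hz 0 (by omega)))
  have h2 := gp_nonneg ht (hS.hU N le_rfl) hH' (hW.U_ge N le_rfl _ (hw N le_rfl)) hj
  have h3 : 0 ≤ ∑ k ∈ Finset.range (N + 1),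
      shp t (L k) (U k) (B' k) (aL k) (bU k) (A' k) (z k) (w k) := by
    refine Finset.sum_nonneg fun k hk => ?_
    have hk : k ≤ N := by rw [Finset.mem_range] at hk; omega
    obtain ⟨o, ho⟩ := hzw k hk
    exact shp_nonneg (hb k hk) ⟨_, z k, w k, le_rfl, le_rfl, o,
      ⟨hA k hk _ _ o ho, ho.fst, ho.snd⟩, rfl⟩ (hAB k hk) (hW.L_ge k hk _ (hz k hk))
      (hW.U_le k hk _ (hw k hk))
  have h4 : 0 ≤ ∑ k ∈ Finset.range N,
      gp t (U k) (L (k + 1)) (aU k) (bL (k + 1)) (w k) (z (k + 1)) := by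
    refine Finset.sum_nonneg fun k hk => ?_
    rw [Finset.mem_range] at hk
    exact gp_nonneg ht (hS.hU k hk.le) (hS.hL (k + 1) hk) (hW.U_ge k hk.le _ (hw k hk.le))
      (hW.L_le (k + 1) hk _ (hz (k + 1) hk))
  unfold inSum
  linarith

/-- (6.1): `K ≤ 0` surely -/
theorem outK_nonpos (ht : Nn t) {N : ℕ} {L U : ℕ → ℤ → V} {H H' : ℤ → V}
    (hH : IsHwy H) (hH' : IsHwy H') (hS : IsStack N L U (Set.range H) (Set.range H'))
    {B W : Set V} {B' : ℕ → Set V} {aL bL aU bU : ℕ → ℤ} (hW : Win N L U W aL bL aU bU)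
    (hBW : B ⊆ W) (hb : ∀ k ≤ N, ∀ i j, BddBelow (routes t (L k) (U k) (B' k) i j))
    (hB : ∀ k ≤ N, ∀ i j (o : Wk (L k i) (U k j)), IsOpen (L k) (U k) B o →
      ∀ v ∈ o.support, v ∈ B' k) {a b : ℤ} (hne : (routes t H H' B a b).Nonempty) :
    outK t N L U H H' B' B aL bL aU bU a b ≤ 0 := by
  have key : ∀ c ∈ routes t H H' B a b,
      gapK t H (L 0) a (bL 0) + SUMK t N L U B' aL bL aU bU + gapK t (U N) H' (aU N) b ≤ c := by
    intro c hc
    obtain ⟨z, w, hzw, h⟩ := outer_shp (B := B) (B' := B') ht hH hH' hS hb hB aL bL aU bU a b hc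
    have h2 := inSum_nonneg (B' := B') (A' := B') ht hH hH' hS hW hBW (le_refl a) (le_refl b)
      (fun k _ => subset_rfl) (fun k hk => hb k hk _ _) hB hzw
    unfold outK at h
    linarith
  have := le_csInf hne key
  unfold outK hull
  linarith

end Crest.Agent.R151.R78
end

-- ▼ part R151/R78F
section

/-!
# R151/R78F — deterministic row layer, part F: attainment, concatenation of routes (F4, (6.3))
(owner helper78)
-/

set_option autoImplicit false

open Crest.ProbabilityR.FirstPassage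

namespace Crest.Agent.R151.R78

open Crest.Agent.R151.K

variable {t : Environment} {φ : V → ℝ}

/-! ### Attainment of the hull cost in a finite region -/

lemma finite_nodup_lists {A : Set V} (hA : A.Finite) :
    {l : List V | l.Nodup ∧ ∀ v ∈ l, v ∈ A}.Finite := by
  classical
  have : Fintype A := hA.fintype
  have : {l : List V | l.Nodup ∧ ∀ v ∈ l, v ∈ A} ⊆
      Set.range (fun l : {l : List A // l.Nodup} => l.1.map Subtype.val) := by
    rintro l ⟨hl, hl'⟩
    refine ⟨⟨l.attach.map fun x => ⟨x.1, hl' x.1 x.2⟩, ?_⟩, ?_⟩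
    · refine List.Nodup.map ?_ (List.nodup_attach.2 hl)
      intro x y hxy
      simp only [Subtype.mk.injEq] at hxy
      exact Subtype.ext hxy
    · simp only [List.map_map, Function.comp_def]
      exact List.attach_map_subtype_val l
  exact (Set.finite_range _).subset this

lemma finite_paths {A : Set V} (hA : A.Finite) (x y : V) :
    {g : Wk x y | g.IsPath ∧ ∀ v ∈ g.support, v ∈ A}.Finite := by
  refine Set.Finite.of_finite_image (f := fun g => g.support)
    ((finite_nodup_lists hA).subset ?_) ?_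
  · rintro _ ⟨g, ⟨hg, hg'⟩, rfl⟩
    exact ⟨hg.support_nodup, hg'⟩
  · intro g _ g' _ h
    exact SimpleGraph.Walk.ext_support h

/-- a simple path with the same ends, smaller support and smaller cost -/
lemma exists_path_le (ht : Nn t) {x y : V} (g : Wk x y) :
    ∃ g' : Wk x y, g'.IsPath ∧ (∀ v ∈ g'.support, v ∈ g.support) ∧
      (∀ v ∈ g'.support.tail, v ∈ g.support.tail) ∧
      (∀ v ∈ g'.support.dropLast, v ∈ g.support.dropLast) ∧ walkCost t g' ≤ walkCost t g := by
  classical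
  have hpath := g.bypass_isPath
  have hsub : ∀ v ∈ g.bypass.support, v ∈ g.support := fun v hv => g.support_bypass_subset_support hv
  refine ⟨g.bypass, hpath, hsub, ?_, ?_, ?_⟩
  · intro v hv
    have hnd := hpath.support_nodup
    have hvs : v ∈ g.bypass.support := List.mem_of_mem_tail hv
    rw [← SimpleGraph.Walk.cons_tail_support g.bypass, List.nodup_cons] at hnd
    have hvx : v ≠ x := fun h => hnd.1 (h ▸ hv)
    have := (mem_support_iff_tail g).1 (hsub v hvs)
    exact this.resolve_left hvx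
  · intro v hv
    have hnd := hpath.support_nodup
    have hvs : v ∈ g.bypass.support := List.mem_of_mem_dropLast hv
    rw [← SimpleGraph.Walk.dropLast_support_concat g.bypass] at hnd
    have hvy : v ≠ y := by
      rintro rfl
      rw [List.nodup_append] at hnd
      exact hnd.2.2 v hv v (by simp) rfl
    have := (mem_support_iff_dropLast g).1 (hsub v hvs)
    exact this.resolve_right hvy
  · have hsl : (g.bypass.edges).Sublist g.edges := g.edges_bypass_sublist_edges
    unfold walkCost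
    exact List.Sublist.sum_le_sum (hsl.map t) (by
      intro a ha
      obtain ⟨e, -, rfl⟩ := List.mem_map.1 ha
      exact ht e)

variable {H H' : ℤ → V} {A B : Set V} {i j z w : ℤ}

lemma IsOpen.exists_path (ht : Nn t) {g : Wk (H z) (H' w)} (hg : IsOpen H H' A g) :
    ∃ g' : Wk (H z) (H' w), g'.IsPath ∧ IsOpen H H' A g' ∧ walkCost t g' ≤ walkCost t g := by
  obtain ⟨g', h1, h2, h3, h4, h5⟩ := exists_path_le ht g
  exact ⟨g', h1, ⟨fun v hv => hg.sub v (h2 v hv), fun k hk => hg.fst k (h3 _ hk),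
    fun k hk => hg.snd k (h4 _ hk)⟩, h5⟩

/-- in a finite region the hull cost is attained by a simple open crossing -/
theorem exists_hull_eq (ht : Nn t) (hH : IsHwy H) (hH' : IsHwy H') (hA : A.Finite)
    (hne : (routes t H H' A i j).Nonempty) :
    ∃ z w : ℤ, i ≤ z ∧ w ≤ j ∧ ∃ g : Wk (H z) (H' w), g.IsPath ∧ IsOpen H H' A g ∧
      hull t H H' A i j = hc t H z + walkCost t g - hc t H' w := by
  classical
  -- finite set of path values
  let S : Set ℝ := {c | ∃ z w : ℤ, i ≤ z ∧ w ≤ j ∧ ∃ g : Wk (H z) (H' w), g.IsPath ∧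
    IsOpen H H' A g ∧ c = hc t H z + walkCost t g - hc t H' w}
  have hSsub : S ⊆ routes t H H' A i j := by
    rintro _ ⟨z, w, hz, hw, g, -, hg, rfl⟩
    exact ⟨z, w, hz, hw, g, hg, rfl⟩
  have hSfin : S.Finite := by
    have h1 : {z : ℤ | H z ∈ A}.Finite := hA.preimage hH.inj.injOn
    have h2 : {z : ℤ | H' z ∈ A}.Finite := hA.preimage hH'.inj.injOn
    have : S ⊆ ⋃ z ∈ {z : ℤ | H z ∈ A}, ⋃ w ∈ {w : ℤ | H' w ∈ A},
        (fun g : Wk (H z) (H' w) => hc t H z + walkCost t g - hc t H' w) ''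
          {g : Wk (H z) (H' w) | g.IsPath ∧ ∀ v ∈ g.support, v ∈ A} := by
      rintro _ ⟨z, w, hz, hw, g, hp, hg, rfl⟩
      simp only [Set.mem_iUnion]
      exact ⟨z, hg.sub _ g.start_mem_support, w, hg.sub _ g.end_mem_support, g, ⟨hp, hg.sub⟩, rfl⟩
    refine Set.Finite.subset ?_ this
    exact h1.biUnion fun z _ => h2.biUnion fun w _ => (finite_paths hA _ _).image _
  have hdom : ∀ c ∈ routes t H H' A i j, ∃ c' ∈ S, c' ≤ c := by
    rintro _ ⟨z, w, hz, hw, g, hg, rfl⟩
    obtain ⟨g', hp, hg', hle⟩ := hg.exists_path ht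
    exact ⟨_, ⟨z, w, hz, hw, g', hp, hg', rfl⟩, by linarith⟩
  have hSne : S.Nonempty := by
    obtain ⟨c, hc⟩ := hne
    obtain ⟨c', hc', -⟩ := hdom c hc
    exact ⟨c', hc'⟩
  obtain ⟨c0, hc0, hmin⟩ := hSfin.exists_minimal hSne
  have hmin' : ∀ c ∈ S, c0 ≤ c := fun c hc => by
    rcases le_total c0 c with h | h
    · exact h
    · exact hmin hc h
  have heq : hull t H H' A i j = c0 := by
    apply le_antisymm
    · exact csInf_le (bddBelow_of_finite ht hH hH' hA i j) (hSsub hc0)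
    · refine le_csInf hne fun c hc => ?_
      obtain ⟨c', hc', hle⟩ := hdom c hc
      exact (hmin' c' hc').trans hle
  obtain ⟨z, w, hz, hw, g, hp, hg, e⟩ := hc0
  exact ⟨z, w, hz, hw, g, hp, hg, heq.trans e⟩

/-! ### Towers of highways -/

/-- `H 0, …, H n`: disjoint highways, each separating the lower ones from the upper ones -/
structure IsTower (n : ℕ) (H : ℕ → ℤ → V) : Prop where
  hwy : ∀ k ≤ n, IsHwy (H k)
  disj : ∀ a b, a < b → b ≤ n → ∀ k l, H a k ≠ H b l
  sep : ∀ a b c, a < b → b < c → c ≤ n → Sep (Set.range (H a)) (Set.range (H b)) (Set.range (H c))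


/-- **Concatenation of routes (F4)**: routes through the consecutive strips of a tower are glued
along the highways; values add up. -/
theorem IsTower.exists_concat {H : ℕ → ℤ → V} {A A' : Set V} (hAA' : A ⊆ A') (n : ℕ)
    (hT : IsTower (n + 1) H) (i : ℕ → ℤ) (v : ℕ → ℝ)
    (hseg : ∀ k, 1 ≤ k → k ≤ n → ∀ w m z, w ≤ m → m ≤ z → H k w ∈ A → H k z ∈ A → H k m ∈ A')
    (hv : ∀ k ≤ n, v k ∈ routes t (H k) (H (k + 1)) A (i k) (i (k + 1))) :
    ∃ z w : ℤ, i 0 ≤ z ∧ w ≤ i (n + 1) ∧ ∃ g : Wk (H 0 z) (H (n + 1) w),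
      IsOpen (H 0) (H (n + 1)) A' g ∧ H 0 z ∈ A ∧ H (n + 1) w ∈ A ∧
      hc t (H 0) z + walkCost t g - hc t (H (n + 1)) w = ∑ k ∈ Finset.range (n + 1), v k := by
  induction n with
  | zero =>
    obtain ⟨z, w, hz, hw, g, hg, e⟩ := hv 0 le_rfl
    exact ⟨z, w, hz, hw, g, hg.mono hAA', hg.sub _ g.start_mem_support,
      hg.sub _ g.end_mem_support, by simp [e]⟩
  | succ n ih =>
    have hT' : IsTower (n + 1) H := ⟨fun k hk => hT.hwy k (by omega),
      fun a b hab hb => hT.disj a b hab (by omega), fun a b c h1 h2 h3 => hT.sep a b c h1 h2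
        (by omega)⟩
    obtain ⟨z, w, hz, hw, g, hg, hzA, hwA, e⟩ := ih hT' (fun k h1 h2 => hseg k h1 (by omega))
      (fun k hk => hv k (by omega))
    obtain ⟨z', w', hz', hw', g', hg', e'⟩ := hv (n + 1) le_rfl
    have hz'A := hg'.sub _ g'.start_mem_support
    obtain ⟨s, hs, hs'⟩ := (hT.hwy (n + 1) (by omega)).exists_seg (hw.trans hz')
    have hsA : ∀ u ∈ s.support, u ∈ A' := by
      intro u hu
      obtain ⟨k, h1, h2, rfl⟩ := (hs' u).1 hu
      exact hseg (n + 1) (by omega) le_rfl w k z' h1 h2 hwA hz'A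
    -- avoidance
    have av1 : ∀ u ∈ g.support, ∀ m, u ≠ H (n + 2) m := by
      intro u hu m hum
      exact hg.avoid_above (X := Set.range (H (n + 2)))
        (fun k ⟨l, hl⟩ => hT.disj (n + 1) (n + 2) (by omega) le_rfl k l hl.symm)
        (hT.sep 0 (n + 1) (n + 2) (by omega) (by omega) le_rfl) u hu ⟨m, hum.symm⟩
    have av2 : ∀ u ∈ g'.support, ∀ m, u ≠ H 0 m := by
      intro u hu m hum
      exact hg'.avoid_below (X := Set.range (H 0))
        (fun k ⟨l, hl⟩ => hT.disj 0 (n + 1) (by omega) (by omega) l k hl)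
        (hT.sep 0 (n + 1) (n + 2) (by omega) (by omega) le_rfl) u hu ⟨m, hum.symm⟩
    refine ⟨z, w', hz, hw', (g.append s).append g', ⟨?_, ?_, ?_⟩, hzA,
      hg'.sub _ g'.end_mem_support, ?_⟩
    · intro u hu
      rw [mem_support_append, mem_support_append] at hu
      rcases hu with (hu | hu) | hu
      · exact hg.sub u hu
      · exact hsA u hu
      · exact hAA' (hg'.sub u hu)
    · intro m hm
      rw [mem_tail_append, mem_tail_append] at hm
      rcases hm with (hm | hm) | hm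
      · exact hg.fst m hm
      · obtain ⟨k, -, -, hk⟩ := (hs' _).1 (List.mem_of_mem_tail hm)
        exact hT.disj 0 (n + 1) (by omega) (by omega) m k hk
      · exact av2 _ (List.mem_of_mem_tail hm) m rfl
    · intro m hm
      rw [mem_dropLast_append, mem_dropLast_append] at hm
      rcases hm with (hm | hm) | hm
      · exact av1 _ (List.mem_of_mem_dropLast hm) m rfl
      · obtain ⟨k, -, -, hk⟩ := (hs' _).1 (List.mem_of_mem_dropLast hm)
        exact hT.disj (n + 1) (n + 2) (by omega) le_rfl k m hk.symm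
      · exact hg'.snd m hm
    · rw [walkCost_append, walkCost_append, hs t, Finset.sum_range_succ, ← e, e']
      ring

/-- concatenation for the hull costs: `R^_{0,n+1}(i_0 → i_{n+1}) ≤ Σ R^_{k,k+1}(i_k → i_{k+1})` -/
theorem IsTower.hull_le_sum {H : ℕ → ℤ → V} {A A' : Set V} (hAA' : A ⊆ A') (n : ℕ)
    (hT : IsTower (n + 1) H) (i : ℕ → ℤ)
    (hseg : ∀ k, 1 ≤ k → k ≤ n → ∀ w m z, w ≤ m → m ≤ z → H k w ∈ A → H k z ∈ A → H k m ∈ A')
    (hne : ∀ k ≤ n, (routes t (H k) (H (k + 1)) A (i k) (i (k + 1))).Nonempty)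
    (hb : BddBelow (routes t (H 0) (H (n + 1)) A' (i 0) (i (n + 1)))) :
    hull t (H 0) (H (n + 1)) A' (i 0) (i (n + 1)) ≤
      ∑ k ∈ Finset.range (n + 1), hull t (H k) (H (k + 1)) A (i k) (i (k + 1)) := by
  refine le_of_forall_pos_le_add fun ε hε => ?_
  have hε' : 0 < ε / (n + 1) := by positivity
  have hex : ∀ k, ∃ c, k ≤ n → c ∈ routes t (H k) (H (k + 1)) A (i k) (i (k + 1)) ∧
      c < hull t (H k) (H (k + 1)) A (i k) (i (k + 1)) + ε / (n + 1) := by
    intro k
    by_cases hk : k ≤ n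
    · obtain ⟨c, hc, hc'⟩ := exists_lt_of_csInf_lt (hne k hk)
        (show sInf (routes t (H k) (H (k + 1)) A (i k) (i (k + 1))) <
          hull t (H k) (H (k + 1)) A (i k) (i (k + 1)) + ε / (n + 1) by
            change hull t (H k) (H (k + 1)) A (i k) (i (k + 1)) < _; linarith)
      exact ⟨c, fun _ => ⟨hc, hc'⟩⟩
    · exact ⟨0, fun h => absurd h hk⟩
  choose v hv using hex
  obtain ⟨z, w, hz, hw, g, hg, -, -, e⟩ := hT.exists_concat (t := t) hAA' n i v hseg
    (fun k hk => (hv k hk).1)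
  have h1 := hull_le hb hz hw g hg
  rw [e] at h1
  refine h1.trans ?_
  have h2 : ∑ k ∈ Finset.range (n + 1), v k ≤ ∑ k ∈ Finset.range (n + 1),
      (hull t (H k) (H (k + 1)) A (i k) (i (k + 1)) + ε / (n + 1)) :=
    Finset.sum_le_sum fun k hk => ((hv k (by rw [Finset.mem_range] at hk; omega)).2).le
  rw [Finset.sum_add_distrib, Finset.sum_const, Finset.card_range, nsmul_eq_mul] at h2
  have h3 : ((n + 1 : ℕ) : ℝ) * (ε / (n + 1)) = ε := by
    push_cast; field_simp
  linarith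

end Crest.Agent.R151.R78
end

-- ▼ part R151/R78P

/-!
# R151/R78P — deterministic row layer: planarity for highways in strips (on helper56's Pl4)
(owner helper78)
-/

set_option autoImplicit false

open Crest.ProbabilityR.FirstPassage Filter

namespace Crest.Agent.R151.R78

open Crest.Agent.R151.K Crest.Agent.R151.Pl

variable {t : Environment}

/-- two transversal functionals: `al = lin a₁ a₂` along the highways, `be = lin b₁ b₂` across -/
structure Frame where
  a₁ : ℝ
  a₂ : ℝ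
  b₁ : ℝ
  b₂ : ℝ
  det : a₁ * b₂ - a₂ * b₁ ≠ 0

namespace Frame

variable (F : Frame)

/-- coordinate along the highways -/
noncomputable def al (v : V) : ℝ := lin F.a₁ F.a₂ v

/-- coordinate across the highways -/
noncomputable def be (v : V) : ℝ := lin F.b₁ F.b₂ v

end Frame

variable (F : Frame)

/-- a highway in the strip `lo ≤ be ≤ hi` -/
structure IsStrip (lo hi : ℝ) (H : ℤ → V) : Prop where
  hwy : IsHwy H
  bot : Tendsto (fun k => F.al (H k)) atBot atBot
  top : Tendsto (fun k => F.al (H k)) atTop atTop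
  lo : ∀ k, lo ≤ F.be (H k)
  hi : ∀ k, F.be (H k) ≤ hi

variable {F} {lo hi lo' hi' : ℝ} {H H' : ℤ → V}

lemma IsStrip.sep (h : IsStrip F lo hi H) :
    Sep {v | F.be v < lo} (Set.range H) {v | hi < F.be v} := by
  intro x hx y hy g
  obtain ⟨k, hk⟩ := hits F.det H h.hwy.adj h.bot h.top g
    (fun k => lt_of_lt_of_le hx (h.lo k)) (fun k => lt_of_le_of_lt (h.hi k) hy)
  exact ⟨H k, hk, ⟨k, rfl⟩⟩

/-- three highways in increasing strips -/
lemma IsStrip.sep_range {lo₀ hi₀ lo₂ hi₂ : ℝ} {H₀ H₂ : ℤ → V} (h : IsStrip F lo hi H)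
    (h₀ : IsStrip F lo₀ hi₀ H₀) (h₂ : IsStrip F lo₂ hi₂ H₂) (h1 : hi₀ < lo) (h2 : hi < lo₂) :
    Sep (Set.range H₀) (Set.range H) (Set.range H₂) :=
  h.sep.mono (by rintro _ ⟨k, rfl⟩; exact lt_of_le_of_lt (h₀.hi k) h1) subset_rfl
    (by rintro _ ⟨k, rfl⟩; exact lt_of_lt_of_le h2 (h₂.lo k))

lemma IsStrip.disj (h : IsStrip F lo hi H) (h' : IsStrip F lo' hi' H') (hlt : hi < lo') (k l : ℤ) :
    H k ≠ H' l := by
  intro e
  have h1 := h.hi k
  have h2 := h'.lo l
  rw [← e] at h2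
  linarith

/-- an open crossing stays between the outer sides of the two strips -/
lemma IsStrip.open_in_row (h : IsStrip F lo hi H) (h' : IsStrip F lo' hi' H') (hlt : hi < lo')
    {A : Set V} {z w : ℤ} {g : Wk (H z) (H' w)} (hg : IsOpen H H' A g) :
    ∀ v ∈ g.support, lo ≤ F.be v ∧ F.be v ≤ hi' := by
  intro v hv
  constructor
  · by_contra hc
    push Not at hc
    exact hg.avoid_below (X := {v | F.be v < lo}) (fun k hk => absurd (h.lo k) (not_le.2 hk))
      (h.sep.mono subset_rfl subset_rfl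
        (by rintro _ ⟨k, rfl⟩; exact lt_of_lt_of_le hlt (h'.lo k))) v hv hc
  · by_contra hc
    push Not at hc
    exact hg.avoid_above (X := {v | hi' < F.be v}) (fun k hk => absurd (h'.hi k) (not_le.2 hk))
      (h'.sep.mono (by rintro _ ⟨k, rfl⟩; exact lt_of_le_of_lt (h.hi k) hlt) subset_rfl
        subset_rfl) v hv hc

/-- the row between two strips -/
def Frame.row (F : Frame) (lo hi' : ℝ) : Set V := {v | lo ≤ F.be v ∧ F.be v ≤ hi'}

lemma IsStrip.routes_inter (h : IsStrip F lo hi H) (h' : IsStrip F lo' hi' H') (hlt : hi < lo')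
    (t : Environment) (A : Set V) (i j : ℤ) :
    routes t H H' (A ∩ F.row lo hi') i j = routes t H H' A i j := by
  apply Set.Subset.antisymm (routes_mono Set.inter_subset_left le_rfl le_rfl)
  rintro _ ⟨z, w, hz, hw, g, hg, rfl⟩
  exact ⟨z, w, hz, hw, g, hg.inter (fun v hv => h.open_in_row h' hlt hg v hv), rfl⟩

lemma IsStrip.hull_inter (h : IsStrip F lo hi H) (h' : IsStrip F lo' hi' H') (hlt : hi < lo')
    (t : Environment) (A : Set V) (i j : ℤ) :
    hull t H H' (A ∩ F.row lo hi') i j = hull t H H' A i j := by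
  unfold hull; rw [h.routes_inter h' hlt]

/-- (Pl-b) for highways in disjoint strips -/
theorem IsStrip.crosses (h : IsStrip F lo hi H) (h' : IsStrip F lo' hi' H') (hlt : hi < lo') :
    Crosses H H' := by
  intro z₁ z₂ w₁ w₂ hz hw g₁ g₂ h₁ h₂
  exact open_crossings_meet F.det H H' h.hwy.adj h'.hwy.adj h.hwy.inj h'.hwy.inj h.bot h.top
    h'.bot h'.top (lo := lo) (mid := lo') (hi := hi' + 1)
    (fun k => ⟨h.lo k, lt_of_le_of_lt (h.hi k) hlt⟩)
    (fun k => ⟨h'.lo k, lt_of_le_of_lt (h'.hi k) (by linarith)⟩) hz hw g₁ g₂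
    (fun k hk => h₁.eq_fst h.hwy.inj hk) (fun k hk => h₁.eq_snd h'.hwy.inj hk)
    (fun k hk => h₂.eq_fst h.hwy.inj hk) (fun k hk => h₂.eq_snd h'.hwy.inj hk)

/-- a tower of highways in increasing strips -/
theorem isTower_of_strips {n : ℕ} {H : ℕ → ℤ → V} {lo hi : ℕ → ℝ}
    (h : ∀ k ≤ n, IsStrip F (lo k) (hi k) (H k)) (hlt : ∀ a b, a < b → b ≤ n → hi a < lo b) :
    IsTower n H where
  hwy k hk := (h k hk).hwy
  disj a b hab hb k l := (h a (by omega)).disj (h b hb) (hlt a b hab hb) k l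
  sep a b c hab hbc hc := (h b (by omega)).sep_range (h a (by omega)) (h c hc)
    (hlt a b hab (by omega)) (hlt b c hbc hc)

/-- a stack of private rows in increasing strips, crossed by walks from `{be < loL 0}` to
`{be > hiU N}` -/
theorem isStack_of_strips {N : ℕ} {L U : ℕ → ℤ → V} {loL hiL loU hiU : ℕ → ℝ}
    (hL : ∀ k ≤ N, IsStrip F (loL k) (hiL k) (L k))
    (hU : ∀ k ≤ N, IsStrip F (loU k) (hiU k) (U k))
    (hLU : ∀ k ≤ N, hiL k < loU k) (hUL : ∀ k < N, hiU k < loL (k + 1))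
    (hmono : ∀ k < N, hiU k ≤ hiU N)
    {X Y : Set V} (hX : ∀ v ∈ X, F.be v < loL 0) (hX' : ∀ v ∈ X, F.be v < loU 0)
    (hY : ∀ v ∈ Y, hiU N < F.be v) : IsStack N L U X Y where
  hL k hk := (hL k hk).hwy
  hU k hk := (hU k hk).hwy
  sepL0 := (hL 0 (by omega)).sep.mono hX subset_rfl
    (by rintro _ ⟨k, rfl⟩; exact lt_of_lt_of_le (hLU 0 (by omega)) ((hU 0 (by omega)).lo k))
  sepU0 := (hU 0 (by omega)).sep.mono hX' subset_rfl
    (fun v hv => by
      rcases Nat.eq_zero_or_pos N with h | h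
      · subst h; exact hY v hv
      · exact lt_of_le_of_lt (hmono 0 h) (hY v hv))
  sepL k hk := (hL (k + 1) (by omega)).sep.mono
    (by rintro _ ⟨m, rfl⟩; exact lt_of_le_of_lt ((hU k (by omega)).hi m) (hUL k hk)) subset_rfl
    (by rintro _ ⟨m, rfl⟩
        exact lt_of_lt_of_le (hLU (k + 1) (by omega)) ((hU (k + 1) (by omega)).lo m))
  sepU k hk := (hU (k + 1) (by omega)).sep.mono
    (by
      rintro _ ⟨m, rfl⟩
      have h1 := (hU k (by omega)).hi m
      have h2 := hUL k hk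
      have h3 := (hL (k + 1) (by omega)).lo 0
      have h4 := (hL (k + 1) (by omega)).hi 0
      have h5 := hLU (k + 1) (by omega)
      simp only [Set.mem_ofPred_eq]
      linarith) subset_rfl
    (fun v hv => by
      rcases Nat.lt_or_ge (k + 1) N with h | h
      · exact lt_of_le_of_lt (hmono (k + 1) h) (hY v hv)
      · have : k + 1 = N := by omega
        rw [this]; exact hY v hv)

end Crest.Agent.R151.R78
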