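import Crest.Agent.R151.Q4
import Crest.Agent.R151.R78P

/-!
# R151 / S0214 part 2, M192a — measurability, covariance and locality of hull costs
(owner helper192)
-/

set_option autoImplicit false

open MeasureTheory Filter ProbabilityTheory Topology
open Crest.ProbabilityR.FirstPassage

namespace Crest.Agent.R151.M192

open Crest.Agent.R151.K
open R78 (V Wk IsHwy hc hp stepc hull routes IsOpen)

/-! ### Infima of countable families with membership conditions -/

section sInf

variable {Ω ι : Type*} [MeasurableSpace Ω] [Countable ι]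

omit [Countable ι] in
/-- the real infimum of a countable family restricted by a predicate, through `EReal` -/
lemma sInf_eq_toReal (P : ι → Prop) (f : ι → ℝ) :
    sInf {c | ∃ i, P i ∧ c = f i} = (⨅ i, ⨅ _ : P i, (f i : EReal)).toReal := by
  set S : Set ℝ := {c | ∃ i, P i ∧ c = f i} with hS
  set I : EReal := ⨅ i, ⨅ _ : P i, (f i : EReal) with hI
  by_cases hne : S.Nonempty
  · by_cases hb : BddBelow S
    · have h1 : I = ((sInf S : ℝ) : EReal) := by
        apply le_antisymm
        · rw [hI]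
          refine EReal.le_of_forall_lt_iff_le.1 fun z hz => ?_
          rw [EReal.coe_lt_coe_iff] at hz
          obtain ⟨c, ⟨i, hi, rfl⟩, hc⟩ := exists_lt_of_csInf_lt hne hz
          exact (iInf₂_le i hi).trans (EReal.coe_le_coe_iff.2 hc.le)
        · refine le_iInf₂ fun i hi => ?_
          exact EReal.coe_le_coe_iff.2 (csInf_le hb ⟨i, hi, rfl⟩)
      rw [h1, EReal.toReal_coe]
    · rw [Real.sInf_of_not_bddBelow hb]
      have h1 : I = ⊥ := by
        rw [EReal.eq_bot_iff_forall_lt]
        intro y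
        rw [not_bddBelow_iff] at hb
        obtain ⟨c, ⟨i, hi, rfl⟩, hc⟩ := hb y
        exact lt_of_le_of_lt (iInf₂_le i hi) (EReal.coe_lt_coe_iff.2 hc)
      rw [h1, EReal.toReal_bot]
  · rw [Set.not_nonempty_iff_eq_empty] at hne
    rw [hne, Real.sInf_empty]
    have h1 : I = ⊤ := by
      rw [hI]
      refine le_antisymm le_top (le_iInf₂ fun i hi => ?_)
      exact absurd (show f i ∈ S from ⟨i, hi, rfl⟩) (by rw [hne]; exact Set.notMem_empty _)
    rw [h1, EReal.toReal_top]

lemma measurable_sInf_family {P : ι → Ω → Prop} {f : ι → Ω → ℝ}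
    (hP : ∀ i, MeasurableSet {ω | P i ω}) (hf : ∀ i, Measurable (f i)) :
    Measurable fun ω => sInf {c | ∃ i, P i ω ∧ c = f i ω} := by
  have h : (fun ω => sInf {c | ∃ i, P i ω ∧ c = f i ω}) =
      fun ω => (⨅ i, ⨅ _ : P i ω, (f i ω : EReal)).toReal := by
    funext ω
    exact sInf_eq_toReal _ _
  rw [h]
  refine measurable_ereal_toReal.comp (Measurable.iInf fun i => ?_)
  classical
  have h2 : (fun ω => ⨅ _ : P i ω, (f i ω : EReal)) =
      fun ω => if P i ω then (f i ω : EReal) else ⊤ := by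
    funext ω
    by_cases hi : P i ω
    · simp [hi]
    · simp [hi]
  rw [h2]
  exact Measurable.ite (hP i) (hf i).coe_real_ereal measurable_const

end sInf

/-! ### Measurability of costs along random highways -/

section meas

variable {Ω : Type*} [MeasurableSpace Ω] {T : Ω → Environment} {L U : Ω → ℤ → V}

lemma measurable_edge (hT : Measurable T) {e : Ω → Sym2 (ℤ × ℤ)}
    (he : ∀ e0, MeasurableSet {ω | e ω = e0}) : Measurable fun ω => T ω (e ω) := by
  intro s hs
  have : (fun ω => T ω (e ω)) ⁻¹' s = ⋃ e0, {ω | e ω = e0} ∩ (fun ω => T ω e0) ⁻¹' s := by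
    ext ω
    simp only [Set.mem_preimage, Set.mem_iUnion, Set.mem_inter_iff, Set.mem_ofPred_eq]
    constructor
    · intro h; exact ⟨e ω, rfl, h⟩
    · rintro ⟨e0, h, h'⟩; rw [h]; exact h'
  rw [this]
  exact MeasurableSet.iUnion fun e0 => (he e0).inter (((measurable_pi_apply e0).comp hT) hs)

lemma measurable_stepc (hT : Measurable T) (hL : ∀ k, Measurable fun ω => L ω k) (k : ℤ) :
    Measurable fun ω => stepc (T ω) (L ω) k := by
  unfold stepc
  refine measurable_edge hT fun e0 => ?_
  have : {ω | s(L ω k, L ω (k + 1)) = e0} =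
      (fun ω => (L ω k, L ω (k + 1))) ⁻¹' {p | s(p.1, p.2) = e0} := rfl
  rw [this]
  exact ((hL k).prodMk (hL (k + 1))) (Set.Countable.measurableSet (Set.to_countable _))

lemma measurable_hc (hT : Measurable T) (hL : ∀ k, Measurable fun ω => L ω k) (k : ℤ) :
    Measurable fun ω => hc (T ω) (L ω) k := by
  rcases k with n | n
  · unfold hc
    exact Finset.measurable_sum _ fun i _ => measurable_stepc hT hL i
  · unfold hc
    exact (Finset.measurable_sum _ fun i _ => measurable_stepc hT hL _).neg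


lemma measurable_at (hL : ∀ k, Measurable fun ω => L ω k) {i : Ω → ℤ}
    (hi : Measurable i) : Measurable fun ω => L ω (i ω) := by
  have h : Measurable fun q : ℤ × Ω => L q.2 q.1 :=
    measurable_from_prod_countable_right fun k => hL k
  exact h.comp (hi.prodMk measurable_id)

/-- index set of the routes -/
abbrev RI : Type := Σ p : (ℤ × ℤ) × (V × V), Wk p.2.1 p.2.2

lemma routes_eq (t : Environment) (H H' : ℤ → V) (A : Set V) (i j : ℤ) :
    routes t H H' A i j = {c | ∃ p : RI, (i ≤ p.1.1.1 ∧ p.1.1.2 ≤ j ∧ H p.1.1.1 = p.1.2.1 ∧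
      H' p.1.1.2 = p.1.2.2 ∧ (∀ v ∈ p.2.support, v ∈ A) ∧ (∀ k, H k ∉ p.2.support.tail) ∧
      (∀ k, H' k ∉ p.2.support.dropLast)) ∧
      c = hc t H p.1.1.1 + walkCost t p.2 - hc t H' p.1.1.2} := by
  ext c
  constructor
  · rintro ⟨z, w, hz, hw, g, hg, rfl⟩
    exact ⟨⟨((z, w), (H z, H' w)), g⟩, ⟨hz, hw, rfl, rfl, hg.sub, hg.fst, hg.snd⟩, rfl⟩
  · rintro ⟨⟨⟨⟨z, w⟩, ⟨x, y⟩⟩, g⟩, ⟨hz, hw, h1, h2, h3, h4, h5⟩, rfl⟩
    dsimp only at g hz hw h1 h2 h3 h4 h5 ⊢
    subst h1 h2
    exact ⟨z, w, hz, hw, g, ⟨h3, h4, h5⟩, rfl⟩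

/-- **measurability of the hull costs** -/
theorem measurable_hull (hT : Measurable T) (hL : ∀ k, Measurable fun ω => L ω k)
    (hU : ∀ k, Measurable fun ω => U ω k) {A : Ω → Set V} (hA : ∀ v, MeasurableSet {ω | v ∈ A ω})
    {i j : Ω → ℤ} (hi : Measurable i) (hj : Measurable j) :
    Measurable fun ω => hull (T ω) (L ω) (U ω) (A ω) (i ω) (j ω) := by
  have h : (fun ω => hull (T ω) (L ω) (U ω) (A ω) (i ω) (j ω)) = fun ω =>
      sInf {c | ∃ p : RI, (i ω ≤ p.1.1.1 ∧ p.1.1.2 ≤ j ω ∧ L ω p.1.1.1 = p.1.2.1 ∧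
      U ω p.1.1.2 = p.1.2.2 ∧ (∀ v ∈ p.2.support, v ∈ A ω) ∧ (∀ k, L ω k ∉ p.2.support.tail) ∧
      (∀ k, U ω k ∉ p.2.support.dropLast)) ∧
      c = hc (T ω) (L ω) p.1.1.1 + walkCost (T ω) p.2 - hc (T ω) (U ω) p.1.1.2} := by
    funext ω
    unfold hull
    rw [routes_eq]
  rw [h]
  refine measurable_sInf_family (fun p => ?_) (fun p => ?_)
  · have m1 : MeasurableSet {ω | i ω ≤ p.1.1.1} := measurableSet_le hi measurable_const
    have m2 : MeasurableSet {ω | p.1.1.2 ≤ j ω} := measurableSet_le measurable_const hj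
    have m3 : MeasurableSet {ω | L ω p.1.1.1 = p.1.2.1} :=
      (hL _) (measurableSet_singleton _)
    have m4 : MeasurableSet {ω | U ω p.1.1.2 = p.1.2.2} :=
      (hU _) (measurableSet_singleton _)
    have m5 : MeasurableSet {ω | ∀ v ∈ p.2.support, v ∈ A ω} := by
      have : {ω | ∀ v ∈ p.2.support, v ∈ A ω} = ⋂ v : V, {ω | v ∈ p.2.support → v ∈ A ω} := by
        ext ω; simp
      rw [this]
      refine MeasurableSet.iInter fun v => ?_
      by_cases hv : v ∈ p.2.support
      · simpa [hv] using hA v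
      · simp [hv]
    have m6 : MeasurableSet {ω | ∀ k, L ω k ∉ p.2.support.tail} := by
      rw [Set.ofPred_forall]
      refine MeasurableSet.iInter fun k => ?_
      exact (hL k) (Set.Countable.measurableSet (Set.to_countable {v | v ∉ p.2.support.tail}))
    have m7 : MeasurableSet {ω | ∀ k, U ω k ∉ p.2.support.dropLast} := by
      rw [Set.ofPred_forall]
      refine MeasurableSet.iInter fun k => ?_
      exact (hU k) (Set.Countable.measurableSet (Set.to_countable {v | v ∉ p.2.support.dropLast}))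
    exact m1.inter (m2.inter (m3.inter (m4.inter (m5.inter (m6.inter m7)))))
  · exact ((measurable_hc hT hL _).add ((measurable_walkCost p.2).comp hT)).sub
      (measurable_hc hT hU _)

end meas

end Crest.Agent.R151.M192
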