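import Crest.Agent.R151.R78A
import Crest.Agent.R151.Q3

-- ▼ part R151/Q5a
section

/-!
# R151 / S0214 part 2, Q5a — concatenation of finite lattice paths into a bi-infinite one
(owner helper777)
-/

set_option autoImplicit false

open Crest.ProbabilityR.FirstPassage

namespace Crest.Agent.R151.Q

/-- cumulative sums over `ℤ`, `cum ℓ 0 = 0`, `cum ℓ (j+1) = cum ℓ j + ℓ j` -/
noncomputable def cum (ℓ : ℤ → ℤ) (j : ℤ) : ℤ := ∑ i ∈ Finset.Ico 0 j, ℓ i - ∑ i ∈ Finset.Ico j 0, ℓ i

lemma cum_zero (ℓ : ℤ → ℤ) : cum ℓ 0 = 0 := by simp [cum]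

lemma cum_succ (ℓ : ℤ → ℤ) (j : ℤ) : cum ℓ (j + 1) = cum ℓ j + ℓ j := by
  unfold cum
  rcases le_or_gt 0 j with h | h
  · have e1 : Finset.Ico 0 (j + 1) = insert j (Finset.Ico 0 j) := by
      ext k; simp only [Finset.mem_Ico, Finset.mem_insert]; omega
    have e2 : Finset.Ico (j + 1) 0 = ∅ := by ext k; simp; omega
    have e3 : Finset.Ico j 0 = ∅ := by ext k; simp; omega
    rw [e1, e2, e3, Finset.sum_insert (by simp)]
    simp; ring
  · have e1 : Finset.Ico j 0 = insert j (Finset.Ico (j + 1) 0) := by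
      ext k; simp only [Finset.mem_Ico, Finset.mem_insert]; omega
    have e2 : Finset.Ico 0 (j + 1) = ∅ := by ext k; simp; omega
    have e3 : Finset.Ico 0 j = ∅ := by ext k; simp; omega
    rw [e1, e2, e3, Finset.sum_insert (by simp)]
    simp

lemma cum_mono_add {ℓ : ℤ → ℤ} (h : ∀ j, 1 ≤ ℓ j) (j : ℤ) (n : ℕ) :
    cum ℓ j + n ≤ cum ℓ (j + n) := by
  induction n with
  | zero => simp
  | succ n ih =>
    have e : j + ((n + 1 : ℕ) : ℤ) = (j + n) + 1 := by push_cast; ring
    rw [e, cum_succ]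
    have := h (j + n)
    push_cast
    linarith

lemma cum_add_le {ℓ : ℤ → ℤ} (h : ∀ j, 1 ≤ ℓ j) {i j : ℤ} (hij : i ≤ j) :
    cum ℓ i + (j - i) ≤ cum ℓ j := by
  obtain ⟨n, rfl⟩ := Int.le.dest hij
  have := cum_mono_add h i n
  linarith

lemma cum_le {ℓ : ℤ → ℤ} (h : ∀ j, 1 ≤ ℓ j) {i j : ℤ} (hij : i ≤ j) : cum ℓ i ≤ cum ℓ j := by
  have := cum_add_le h hij; linarith

/-- block index of `k` -/
noncomputable def bix (ℓ : ℤ → ℤ) (k : ℤ) : ℤ := sSup {j | cum ℓ j ≤ k}

lemma bix_spec {ℓ : ℤ → ℤ} (h : ∀ j, 1 ≤ ℓ j) (k : ℤ) :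
    cum ℓ (bix ℓ k) ≤ k ∧ k < cum ℓ (bix ℓ k + 1) := by
  have hne : {j | cum ℓ j ≤ k}.Nonempty := by
    refine ⟨min 0 k, ?_⟩
    have := cum_add_le h (min_le_left 0 k)
    rw [cum_zero] at this
    show cum ℓ (min 0 k) ≤ k
    have h2 := min_le_right 0 k
    linarith
  have hb : BddAbove {j | cum ℓ j ≤ k} := by
    refine ⟨max 0 k, fun j (hj : cum ℓ j ≤ k) => ?_⟩
    rcases le_or_gt j 0 with h0 | h0
    · exact h0.trans (le_max_left _ _)
    · have := cum_add_le h h0.le
      rw [cum_zero] at this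
      exact le_trans (by linarith) (le_max_right 0 k)
  refine ⟨Int.csSup_mem hne hb, ?_⟩
  by_contra hcon
  push Not at hcon
  have := le_csSup hb (show bix ℓ k + 1 ∈ {j | cum ℓ j ≤ k} from hcon)
  unfold bix at this
  omega

lemma bix_unique {ℓ : ℤ → ℤ} (h : ∀ j, 1 ≤ ℓ j) {k j : ℤ} (h1 : cum ℓ j ≤ k)
    (h2 : k < cum ℓ (j + 1)) : bix ℓ k = j := by
  obtain ⟨h3, h4⟩ := bix_spec h k
  rcases lt_trichotomy (bix ℓ k) j with hlt | heq | hgt
  · have := cum_le h (show bix ℓ k + 1 ≤ j by omega)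
    omega
  · exact heq
  · have := cum_le h (show j + 1 ≤ bix ℓ k by omega)
    omega

lemma bix_iff {ℓ : ℤ → ℤ} (h : ∀ j, 1 ≤ ℓ j) {k j : ℤ} :
    bix ℓ k = j ↔ cum ℓ j ≤ k ∧ k < cum ℓ (j + 1) := by
  constructor
  · rintro rfl; exact bix_spec h k
  · rintro ⟨h1, h2⟩; exact bix_unique h h1 h2

/-- number of steps of the lists -/
def len (L : ℤ → List (ℤ × ℤ)) (j : ℤ) : ℤ := ((L j).length : ℤ) - 1

/-- concatenation of the lists `L j` (the last element of `L j` is the first one of `L (j+1)`) -/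
noncomputable def cat (L : ℤ → List (ℤ × ℤ)) (k : ℤ) : ℤ × ℤ :=
  (L (bix (len L) k)).getD (k - cum (len L) (bix (len L) k)).toNat 0

/-- the hypotheses on the blocks -/
structure Blocks (L : ℤ → List (ℤ × ℤ)) (nd : ℤ → ℤ × ℤ) : Prop where
  nodup : ∀ j, (L j).Nodup
  chain : ∀ j, (L j).IsChain squareLattice.Adj
  head : ∀ j, (L j).head? = some (nd j)
  last : ∀ j, (L j).getLast? = some (nd (j + 1))
  ne : ∀ j, nd j ≠ nd (j + 1)

namespace Blocks

variable {L : ℤ → List (ℤ × ℤ)} {nd : ℤ → ℤ × ℤ} (hL : Blocks L nd)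
include hL

lemma two_le (j : ℤ) : 2 ≤ (L j).length := by
  have h1 := hL.head j
  have h2 := hL.last j
  rcases hlj : L j with _ | ⟨x, _ | ⟨y, l⟩⟩
  · rw [hlj] at h1; simp at h1
  · rw [hlj] at h1 h2
    simp only [List.head?_cons, Option.some.injEq, List.getLast?_singleton] at h1 h2
    exact absurd (h1.symm.trans h2) (hL.ne j)
  · simp

lemma one_le_len (j : ℤ) : 1 ≤ len L j := by
  have := hL.two_le j
  unfold len; omega

lemma getD_zero (j : ℤ) : (L j).getD 0 0 = nd j := by
  have h1 := hL.head j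
  rcases hlj : L j with _ | ⟨x, l⟩
  · rw [hlj] at h1; simp at h1
  · rw [hlj] at h1; simpa using h1

lemma getD_last (j : ℤ) : (L j).getD (len L j).toNat 0 = nd (j + 1) := by
  have h1 := hL.last j
  have h2 := hL.two_le j
  have e : (len L j).toNat = (L j).length - 1 := by unfold len; omega
  rw [e, List.getD_eq_getElem?_getD]
  rw [List.getLast?_eq_getElem?] at h1
  rw [h1]; rfl

/-- value of the concatenation on block `j` -/
lemma cat_add (j : ℤ) (i : ℕ) (hi : (i : ℤ) ≤ len L j) :
    cat L (cum (len L) j + i) = (L j).getD i 0 := by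
  rcases hi.lt_or_eq with h | h
  · have hb : bix (len L) (cum (len L) j + i) = j :=
      bix_unique hL.one_le_len (by omega) (by rw [cum_succ]; omega)
    unfold cat
    rw [hb]
    congr 1
    omega
  · have e : cum (len L) j + i = cum (len L) (j + 1) := by rw [cum_succ]; omega
    have hb : bix (len L) (cum (len L) j + i) = j + 1 := by
      refine bix_unique hL.one_le_len (by omega) ?_
      rw [e, cum_succ (len L) (j + 1)]
      have := hL.one_le_len (j + 1)
      omega
    unfold cat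
    rw [hb, e, sub_self]
    have : (i : ℕ) = (len L j).toNat := by omega
    rw [this, hL.getD_last]
    exact hL.getD_zero (j + 1)

lemma exists_block (k : ℤ) : ∃ (j : ℤ) (i : ℕ), k = cum (len L) j + i ∧ (i : ℤ) < len L j := by
  obtain ⟨h1, h2⟩ := bix_spec hL.one_le_len k
  rw [cum_succ] at h2
  exact ⟨bix (len L) k, (k - cum (len L) (bix (len L) k)).toNat, by omega, by omega⟩

lemma cat_adj (k : ℤ) : squareLattice.Adj (cat L k) (cat L (k + 1)) := by
  obtain ⟨j, i, rfl, hi⟩ := hL.exists_block k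
  have e : cum (len L) j + (i : ℤ) + 1 = cum (len L) j + ((i + 1 : ℕ) : ℤ) := by push_cast; ring
  rw [e, hL.cat_add j i hi.le, hL.cat_add j (i + 1) (by push_cast; omega)]
  have hlen : i + 1 < (L j).length := by unfold len at hi; omega
  have h := List.isChain_iff_getElem.1 (hL.chain j) i (by omega)
  rw [List.getD_eq_getElem?_getD, List.getD_eq_getElem?_getD, List.getElem?_eq_getElem (by omega),
    List.getElem?_eq_getElem hlen]
  exact h

lemma getD_mem (j : ℤ) (i : ℕ) (hi : (i : ℤ) ≤ len L j) : (L j).getD i 0 ∈ L j := by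
  have : i < (L j).length := by unfold len at hi; omega
  rw [List.getD_eq_getElem?_getD, List.getElem?_eq_getElem this]
  exact List.getElem_mem this

/-- every element of a block is on the path, and conversely -/
lemma mem_iff (j : ℤ) (z : ℤ × ℤ) :
    z ∈ L j ↔ ∃ i : ℕ, (i : ℤ) ≤ len L j ∧ cat L (cum (len L) j + i) = z := by
  constructor
  · intro hz
    obtain ⟨i, hi, rfl⟩ := List.getElem_of_mem hz
    refine ⟨i, by unfold len; omega, ?_⟩
    rw [hL.cat_add j i (by unfold len; omega), List.getD_eq_getElem?_getD,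
      List.getElem?_eq_getElem hi]
    rfl
  · rintro ⟨i, hi, rfl⟩
    rw [hL.cat_add j i hi]
    exact hL.getD_mem j i hi

lemma cat_injOn_block (j : ℤ) {i i' : ℕ} (hi : (i : ℤ) ≤ len L j) (hi' : (i' : ℤ) ≤ len L j)
    (h : (L j).getD i 0 = (L j).getD i' 0) : i = i' := by
  have h1 : i < (L j).length := by unfold len at hi; omega
  have h2 : i' < (L j).length := by unfold len at hi'; omega
  rw [List.getD_eq_getElem?_getD, List.getD_eq_getElem?_getD, List.getElem?_eq_getElem h1,
    List.getElem?_eq_getElem h2] at h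
  exact (List.Nodup.getElem_inj_iff (hL.nodup j)).1 h

/-- order property: a height `f` such that `L j` lies in `f (nd j) ≤ f < f (nd (j+1))` except for
its last vertex -/
structure Ordered (L : ℤ → List (ℤ × ℤ)) (nd : ℤ → ℤ × ℤ) (f : ℤ × ℤ → ℝ) : Prop where
  low : ∀ j, ∀ z ∈ L j, f (nd j) ≤ f z
  high : ∀ j, ∀ z ∈ L j, z ≠ nd (j + 1) → f z < f (nd (j + 1))

variable {f : ℤ × ℤ → ℝ} (hO : Ordered L nd f)
include hO

lemma nd_lt (j : ℤ) : f (nd j) < f (nd (j + 1)) := by
  have h := hO.high j (nd j) ?_ (hL.ne j)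
  · exact h
  · rw [← hL.getD_zero j]; exact hL.getD_mem j 0 (by have := hL.one_le_len j; omega)

lemma nd_le {i j : ℤ} (hij : i ≤ j) : f (nd i) ≤ f (nd j) := by
  obtain ⟨n, rfl⟩ := Int.le.dest hij
  clear hij
  induction n with
  | zero => simp
  | succ n ih =>
    have e : i + ((n + 1 : ℕ) : ℤ) = (i + n) + 1 := by push_cast; ring
    rw [e]
    exact ih.trans (hL.nd_lt hO _).le

lemma lt_of_block_lt {j j' : ℤ} (hjj : j < j') {i i' : ℕ} (hi : (i : ℤ) < len L j)
    (hi' : (i' : ℤ) ≤ len L j') :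
    f (cat L (cum (len L) j + i)) < f (cat L (cum (len L) j' + i')) := by
  rw [hL.cat_add j i hi.le, hL.cat_add j' i' hi']
  have h1 : (L j).getD i 0 ≠ nd (j + 1) := by
    intro h
    rw [← hL.getD_last j] at h
    have := hL.cat_injOn_block j hi.le (i' := (len L j).toNat) (by omega) h
    omega
  have h2 := hO.high j _ (hL.getD_mem j i hi.le) h1
  have h3 := hL.nd_le hO (show j + 1 ≤ j' by omega)
  have h4 := hO.low j' _ (hL.getD_mem j' i' hi')
  linarith

lemma cat_injective : Function.Injective (cat L) := by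
  have key : ∀ k k' : ℤ, k < k' → cat L k ≠ cat L k' := by
    intro k k' hkk h
    obtain ⟨j, i, rfl, hi⟩ := hL.exists_block k
    obtain ⟨j', i', rfl, hi'⟩ := hL.exists_block k'
    rcases lt_trichotomy j j' with hj | hj | hj
    · have := hL.lt_of_block_lt hO hj hi hi'.le
      rw [h] at this
      exact lt_irrefl _ this
    · subst hj
      rw [hL.cat_add j i hi.le, hL.cat_add j i' hi'.le] at h
      have := hL.cat_injOn_block j hi.le hi'.le h
      omega
    · have := cum_le hL.one_le_len (show j' + 1 ≤ j by omega)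
      rw [cum_succ] at this
      omega
  intro k k' h
  rcases lt_trichotomy k k' with h1 | h1 | h1
  · exact absurd h (key k k' h1)
  · exact h1
  · exact absurd h.symm (key k' k h1)

lemma cat_isHwy : R78.IsHwy (cat L) := ⟨hL.cat_injective hO, hL.cat_adj⟩

/-- backtracking of the concatenation -/
lemma cat_back {κ : ℝ} (hκ : 0 ≤ κ) (hb : ∀ j, (L j).Pairwise fun a b => f a ≤ f b + κ) {k k' : ℤ}
    (hkk : k ≤ k') : f (cat L k) ≤ f (cat L k') + κ := by
  rcases hkk.eq_or_lt with rfl | hlt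
  · linarith
  obtain ⟨j, i, rfl, hi⟩ := hL.exists_block k
  obtain ⟨j', i', rfl, hi'⟩ := hL.exists_block k'
  rcases lt_trichotomy j j' with hj | hj | hj
  · have := hL.lt_of_block_lt hO hj hi hi'.le
    linarith
  · subst hj
    rw [hL.cat_add j i hi.le, hL.cat_add j i' hi'.le]
    have h1 : i < (L j).length := by unfold len at hi; omega
    have h2 : i' < (L j).length := by unfold len at hi'; omega
    have := List.pairwise_iff_getElem.1 (hb j) i i' h1 h2 (by omega)
    rw [List.getD_eq_getElem?_getD, List.getD_eq_getElem?_getD, List.getElem?_eq_getElem h1,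
      List.getElem?_eq_getElem h2]
    exact this
  · have := cum_le hL.one_le_len (show j' + 1 ≤ j by omega)
    rw [cum_succ] at this
    omega

end Blocks

end Crest.Agent.R151.Q
end

-- ▼ part R151/Q5b

/-!
# R151 / S0214 part 2, Q5b — measurable selection of the cheapest path, the segments of the highway
(owner helper777)
-/

set_option autoImplicit false

open MeasureTheory Filter ProbabilityTheory Topology
open Crest.ProbabilityR.FirstPassage
open Crest.Agent.R151.K

namespace Crest.Agent.R151.Q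

open B710 (FlatData)

/-! ### Selection of a minimiser -/

section sel

variable {β : Type*} [Encodable β] [Inhabited β]

/-- `l` is the first minimiser of `c` on `P` in the order of the encoding -/
def IsSel (P : Set β) (c : β → ℝ) (l : β) : Prop :=
  l ∈ P ∧ ∀ l' ∈ P, c l ≤ c l' ∧ (c l' ≤ c l → Encodable.encode l ≤ Encodable.encode l')

lemma IsSel.unique {P : Set β} {c : β → ℝ} {l l' : β} (h : IsSel P c l) (h' : IsSel P c l') :
    l = l' := by
  have h1 := (h.2 l' h'.1).1
  have h2 := (h'.2 l h.1).1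
  have h3 := (h.2 l' h'.1).2 h2
  have h4 := (h'.2 l h.1).2 h1
  exact Encodable.encode_injective (le_antisymm h3 h4)

lemma exists_isSel {P : Set β} (hf : P.Finite) (hne : P.Nonempty) (c : β → ℝ) :
    ∃ l, IsSel P c l := by
  obtain ⟨l0, hl0, hmin⟩ := Set.exists_min_image P c hf hne
  obtain ⟨l, ⟨hl, hlc⟩, hmin2⟩ := Set.exists_min_image {l ∈ P | c l ≤ c l0} Encodable.encode
    (hf.subset fun _ h => h.1) ⟨l0, hl0, le_rfl⟩
  refine ⟨l, hl, fun l' hl' => ⟨hlc.trans (hmin l' hl'), fun h => ?_⟩⟩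
  exact hmin2 l' ⟨hl', h.trans hlc⟩

open Classical in
/-- the selected minimiser -/
noncomputable def sel (P : Set β) (c : β → ℝ) : β :=
  if h : ∃ l, IsSel P c l then h.choose else default

lemma sel_spec {P : Set β} (hf : P.Finite) (hne : P.Nonempty) (c : β → ℝ) :
    IsSel P c (sel P c) := by
  unfold sel
  rw [dif_pos (exists_isSel hf hne c)]
  exact (exists_isSel hf hne c).choose_spec

lemma sel_eq_iff {P : Set β} (hf : P.Finite) (hne : P.Nonempty) (c : β → ℝ) (l : β) :
    sel P c = l ↔ IsSel P c l :=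
  ⟨fun h => h ▸ sel_spec hf hne c, fun h => (sel_spec hf hne c).unique h⟩

lemma measurable_sel {α : Type*} [MeasurableSpace α] [MeasurableSpace β]
    {P : Set β} (hf : P.Finite) {c : α → β → ℝ} (hc : ∀ l, Measurable fun a => c a l) :
    Measurable fun a => sel P (c a) := by
  rcases P.eq_empty_or_nonempty with h0 | hne
  · have : (fun a => sel P (c a)) = fun _ => default := by
      funext a
      unfold sel
      rw [dif_neg]
      rintro ⟨l, hl⟩
      rw [h0] at hl
      exact hl.1
    rw [this]; exact measurable_const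
  · refine measurable_to_countable' fun l => ?_
    have : (fun a => sel P (c a)) ⁻¹' {l} = {a | IsSel P (c a) l} := by
      ext a
      simp only [Set.mem_preimage, Set.mem_singleton_iff, Set.mem_setOf_eq]
      exact sel_eq_iff hf hne (c a) l
    rw [this]
    by_cases hl : l ∈ P
    · have e : {a | IsSel P (c a) l} = ⋂ l' ∈ P, ({a | c a l ≤ c a l'} ∩
          {a | c a l' ≤ c a l → Encodable.encode l ≤ Encodable.encode l'}) := by
        ext a
        simp only [IsSel, hl, true_and, Set.mem_setOf_eq, Set.mem_iInter, Set.mem_inter_iff]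
      rw [e]
      refine MeasurableSet.biInter hf.countable fun l' _ => MeasurableSet.inter ?_ ?_
      · exact measurableSet_le (hc l) (hc l')
      · by_cases he : Encodable.encode l ≤ Encodable.encode l'
        · simp [he]
        · have : {a | c a l' ≤ c a l → Encodable.encode l ≤ Encodable.encode l'}
              = {a | c a l' ≤ c a l}ᶜ := by
            ext a; simp [he]
          rw [this]
          exact (measurableSet_le (hc l') (hc l)).compl
    · have e : {a | IsSel P (c a) l} = ∅ := by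
        ext a; simp [IsSel, hl]
      rw [e]; exact MeasurableSet.empty

end sel

/-! ### Countable spaces -/

instance : MeasurableSpace (List (ℤ × ℤ)) := ⊤
instance : MeasurableSpace (Finset (ℤ × ℤ)) := ⊤
instance : DiscreteMeasurableSpace (List (ℤ × ℤ)) := ⟨fun _ => trivial⟩
instance : DiscreteMeasurableSpace (Finset (ℤ × ℤ)) := ⟨fun _ => trivial⟩

lemma measurable_lcost (l : List (ℤ × ℤ)) : Measurable fun t : Environment => lcost t l := by
  induction l with
  | nil => exact measurable_const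
  | cons x l ih =>
    cases l with
    | nil => exact measurable_const
    | cons y l => exact (measurable_pi_apply _).add ih

lemma pathsBT_finite (Q : Finset (ℤ × ℤ)) (x y : ℤ × ℤ) (h : ℤ × ℤ → ℝ) (κ : ℝ) :
    (pathsBT Q x y h κ).Finite := by
  classical
  have hfin : {l : List Q | l.length ≤ Q.card}.Finite := List.finite_length_le Q Q.card
  refine (hfin.image (List.map Subtype.val)).subset ?_
  rintro l ⟨hnd, -, hQ, -⟩
  refine ⟨l.pmap (fun z hz => ⟨z, hz⟩) hQ, ?_, ?_⟩
  · simp only [Set.mem_setOf_eq, List.length_pmap]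
    rw [← List.toFinset_card_of_nodup hnd]
    exact Finset.card_le_card fun z hz => hQ z (List.mem_toFinset.1 hz)
  · rw [List.map_pmap]; simp

/-- the cheapest path in the box `Q` from `0` to `y` -/
noncomputable def geoL (h : ℤ × ℤ → ℝ) (κ : ℝ) (Q : Finset (ℤ × ℤ)) (y : ℤ × ℤ)
    (t : Environment) : List (ℤ × ℤ) := sel (pathsBT Q 0 y h κ) (lcost t)

lemma geoL_mem {h : ℤ × ℤ → ℝ} {κ : ℝ} {Q : Finset (ℤ × ℤ)} {y : ℤ × ℤ}
    (hne : (pathsBT Q 0 y h κ).Nonempty) (t : Environment) :
    geoL h κ Q y t ∈ pathsBT Q 0 y h κ := (sel_spec (pathsBT_finite _ _ _ _ _) hne _).1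

lemma geoL_le {h : ℤ × ℤ → ℝ} {κ : ℝ} {Q : Finset (ℤ × ℤ)} {y : ℤ × ℤ}
    (t : Environment) {l : List (ℤ × ℤ)}
    (hl : l ∈ pathsBT Q 0 y h κ) : lcost t (geoL h κ Q y t) ≤ lcost t l :=
  ((sel_spec (pathsBT_finite _ _ _ _ _) ⟨l, hl⟩ (lcost t)).2 l hl).1

lemma lcost_geoL {h : ℤ × ℤ → ℝ} {κ : ℝ} {Q : Finset (ℤ × ℤ)} {y : ℤ × ℤ}
    (hne : (pathsBT Q 0 y h κ).Nonempty) (t : Environment) :
    lcost t (geoL h κ Q y t) = sInf (lcost t '' pathsBT Q 0 y h κ) := by
  refine le_antisymm ?_ ?_
  · refine le_csInf (hne.image _) ?_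
    rintro _ ⟨l, hl, rfl⟩
    exact geoL_le t hl
  · exact csInf_le ((pathsBT_finite _ _ _ _ _).image _).bddBelow
      ⟨_, geoL_mem hne t, rfl⟩

lemma measurable_geoL (h : ℤ × ℤ → ℝ) (κ : ℝ) :
    Measurable fun q : (Finset (ℤ × ℤ) × (ℤ × ℤ)) × Environment => geoL h κ q.1.1 q.1.2 q.2 := by
  refine measurable_from_prod_countable_right fun m => ?_
  exact measurable_sel (P := pathsBT m.1 0 m.2 h κ) (c := lcost) (pathsBT_finite _ _ _ _ _)
    fun l => measurable_lcost l

/-- `lcost` only reads the edges between members of the list -/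
lemma lcost_congr {t t' : Environment} {l : List (ℤ × ℤ)}
    (h : ∀ x ∈ l, ∀ y ∈ l, t s(x, y) = t' s(x, y)) : lcost t l = lcost t' l := by
  induction l with
  | nil => rfl
  | cons x l ih =>
    cases l with
    | nil => rfl
    | cons y l =>
      have h1 := ih fun a ha b hb => h a (List.mem_cons_of_mem _ ha) b (List.mem_cons_of_mem _ hb)
      simp only [lcost]
      rw [h x (by simp) y (by simp), h1]

lemma geoL_congr {t t' : Environment} {h : ℤ × ℤ → ℝ} {κ : ℝ} {Q : Finset (ℤ × ℤ)} {y : ℤ × ℤ}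
    (hne : (pathsBT Q 0 y h κ).Nonempty)
    (ht : ∀ x ∈ Q, ∀ y ∈ Q, t s(x, y) = t' s(x, y)) : geoL h κ Q y t = geoL h κ Q y t' := by
  unfold geoL
  rw [sel_eq_iff (pathsBT_finite _ _ _ _ _) hne]
  have hs := sel_spec (pathsBT_finite Q 0 y h κ) hne (lcost t')
  have hc : ∀ l ∈ pathsBT Q 0 y h κ, lcost t l = lcost t' l := fun l hl =>
    lcost_congr fun a ha b hb => ht a (hl.2.2.1 a ha) b (hl.2.2.1 b hb)
  refine ⟨hs.1, fun l' hl' => ?_⟩
  rw [hc _ hs.1, hc _ hl']
  exact hs.2 l' hl'

/-! ### The nearest vertex -/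

lemma toR_zero : toR 0 = 0 := by unfold toR; simp

lemma nr_add (θ : ℝ × ℝ) (m : ℤ × ℤ) : nr (θ + toR m) = nr θ - m := by
  unfold nr toR
  refine Prod.ext ?_ ?_
  · simp only [Prod.fst_add, Prod.fst_sub, round_add_intCast]; ring
  · simp only [Prod.snd_add, Prod.snd_sub, round_add_intCast]; ring

lemma norm_pos_nr (θ : ℝ × ℝ) : ‖pos θ (nr θ)‖ ≤ 1 / 2 := by
  unfold pos nr toR
  rw [Prod.norm_def]
  refine max_le ?_ ?_
  · have := abs_sub_round θ.1
    simp only [Prod.fst_add, Real.norm_eq_abs]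
    push_cast
    rw [abs_le] at this ⊢
    constructor <;> linarith [this.1, this.2]
  · have := abs_sub_round θ.2
    simp only [Prod.snd_add, Real.norm_eq_abs]
    push_cast
    rw [abs_le] at this ⊢
    constructor <;> linarith [this.1, this.2]

lemma measurable_nr : Measurable nr := by
  unfold nr
  have h : Measurable (round : ℝ → ℤ) := by
    have e : (round : ℝ → ℤ) = fun x => ⌊x + 1 / 2⌋ := by funext x; exact round_eq x
    rw [e]; exact Int.measurable_floor.comp (measurable_id.add_const _)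
  exact (h.comp measurable_fst).neg.prodMk (h.comp measurable_snd).neg

/-! ### Segments -/

variable {μ : ℝ × ℝ → ℝ}

/-- height used for the backtracking -/
noncomputable def hgt (F : FlatData μ) (z : ℤ × ℤ) : ℝ := F.al (toR z)

/-- the segment of highway starting at the node `nr θ` -/
noncomputable def seg (F : FlatData μ) (w n0 κ : ℝ) (θ : ℝ × ℝ) (t : Environment) :
    List (ℤ × ℤ) :=
  (geoL (hgt F) κ (Qbox F w n0 (θ + toR (nr θ))) (nxt F n0 (θ + toR (nr θ)))
    (act (tr (nr θ)) t)).map (· + nr θ)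

lemma seg_cov (F : FlatData μ) (w n0 κ : ℝ) (θ : ℝ × ℝ) (t : Environment) (m : ℤ × ℤ) :
    seg F w n0 κ (θ + toR m) (act (tr m) t) = (seg F w n0 κ θ t).map (· - m) := by
  unfold seg
  have e1 : θ + toR m + toR (nr (θ + toR m)) = θ + toR (nr θ) := by
    rw [nr_add, add_assoc]
    congr 1
    refine Prod.ext ?_ ?_ <;> simp [toR]
  have e2 : act (tr (nr (θ + toR m))) (act (tr m) t) = act (tr (nr θ)) t := by
    rw [nr_add]
    funext e
    unfold act
    rw [Sym2.map_map]
    congr 2
    funext z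
    show z + (nr θ - m) + m = z + nr θ
    abel
  rw [e1, e2, nr_add, List.map_map]
  congr 1
  funext z
  simp only [Function.comp_apply]
  abel

end Crest.Agent.R151.Q
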