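import Crest.Agent.R151.V1

-- ▼ part R151/V2
section

/-!
# R151, block V2 (helper52): the Gamma law, Stein's identity and the one-edge variance bound
-/

set_option autoImplicit false

open MeasureTheory ProbabilityTheory Real Set Filter
open scoped ENNReal Topology

namespace Crest.Agent.R151.V

variable {κ r : ℝ}

lemma integrableOn_w {a r : ℝ} (ha : -1 < a) (hr : 0 < r) :
    IntegrableOn (fun t : ℝ => t ^ a * exp (-(r * t))) (Ioi 0) := by
  have h := integrableOn_rpow_mul_exp_neg_mul_rpow (p := 1) ha zero_lt_one hr
  refine h.congr_fun ?_ measurableSet_Ioi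
  intro x hx
  simp [rpow_one]

/-- integrals against the Gamma law -/
lemma integral_gamma (hκ : 0 < κ) (hr : 0 < r) (φ : ℝ → ℝ) :
    ∫ t, φ t ∂(gammaMeasure κ r) =
      (r ^ κ / Gamma κ) * ∫ t in Ioi 0, t ^ (κ - 1) * exp (-(r * t)) * φ t := by
  unfold gammaMeasure
  rw [integral_withDensity_eq_integral_toReal_smul₀]
  · rw [← integral_const_mul, ← integral_indicator measurableSet_Ioi]
    apply integral_congr_ae
    have h0 : ∀ᵐ t : ℝ, t ≠ 0 := by
      simp [ae_iff]
    filter_upwards [h0] with t ht
    rcases lt_or_gt_of_ne ht with h | h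
    · rw [gammaPDF_of_neg h, indicator_of_notMem (by simpa using h.le)]
      simp
    · rw [gammaPDF_of_nonneg h.le, indicator_of_mem (by simpa using h),
        ENNReal.toReal_ofReal (by have := Gamma_pos_of_pos hκ; positivity)]
      simp only [smul_eq_mul]
      ring
  · exact ((measurable_gammaPDFReal κ r).ennreal_ofReal).aemeasurable
  · exact Eventually.of_forall fun t => ENNReal.ofReal_lt_top

lemma integrable_gamma_iff (hκ : 0 < κ) (hr : 0 < r) (φ : ℝ → ℝ) :
    Integrable φ (gammaMeasure κ r) ↔
      IntegrableOn (fun t => t ^ (κ - 1) * exp (-(r * t)) * φ t) (Ioi 0) := by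
  unfold gammaMeasure
  rw [integrable_withDensity_iff_integrable_smul₀']
  · have hc : 0 < r ^ κ / Gamma κ := div_pos (rpow_pos_of_pos hr _) (Gamma_pos_of_pos hκ)
    rw [← integrable_indicator_iff measurableSet_Ioi]
    constructor
    · intro h
      refine (h.const_mul (r ^ κ / Gamma κ)⁻¹).congr ?_
      have h0 : ∀ᵐ t : ℝ, t ≠ 0 := by simp [ae_iff]
      filter_upwards [h0] with t ht
      rcases lt_or_gt_of_ne ht with h | h
      · rw [gammaPDF_of_neg h, indicator_of_notMem (by simpa using h.le)]
        simp
      · rw [gammaPDF_of_nonneg h.le, indicator_of_mem (by simpa using h),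
          ENNReal.toReal_ofReal (by positivity)]
        simp only [smul_eq_mul]
        field_simp
    · intro h
      refine (h.const_mul (r ^ κ / Gamma κ)).congr ?_
      have h0 : ∀ᵐ t : ℝ, t ≠ 0 := by simp [ae_iff]
      filter_upwards [h0] with t ht
      rcases lt_or_gt_of_ne ht with h | h
      · rw [gammaPDF_of_neg h, indicator_of_notMem (by simpa using h.le)]
        simp
      · rw [gammaPDF_of_nonneg h.le, indicator_of_mem (by simpa using h),
          ENNReal.toReal_ofReal (by positivity)]
        simp only [smul_eq_mul]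
        ring
  · exact ((measurable_gammaPDFReal κ r).ennreal_ofReal).aemeasurable
  · exact Eventually.of_forall fun t => ENNReal.ofReal_lt_top

lemma integrable_rpow_gamma (hκ : 0 < κ) (hr : 0 < r) {p : ℝ} (hp : -κ < p) :
    Integrable (fun t => t ^ p) (gammaMeasure κ r) := by
  rw [integrable_gamma_iff hκ hr]
  refine (integrableOn_w (a := κ - 1 + p) (by linarith) hr).congr_fun ?_ measurableSet_Ioi
  intro t ht
  have ht : 0 < t := ht
  simp only
  rw [rpow_add ht]
  ring

lemma integrable_pow_gamma (hκ : 0 < κ) (hr : 0 < r) (n : ℕ) :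
    Integrable (fun t => t ^ n) (gammaMeasure κ r) := by
  have := integrable_rpow_gamma hκ hr (p := (n : ℝ)) (by have := n.cast_nonneg (α := ℝ); linarith)
  simpa using this

lemma integrable_id_gamma (hκ : 0 < κ) (hr : 0 < r) :
    Integrable (fun t => t) (gammaMeasure κ r) := by
  simpa using integrable_pow_gamma hκ hr 1

lemma hasDerivAt_W (κ r : ℝ) {t : ℝ} (ht : 0 < t) :
    HasDerivAt (fun t : ℝ => t ^ κ * exp (-(r * t)))
      ((κ - r * t) * (t ^ (κ - 1) * exp (-(r * t)))) t := by
  have h1 : HasDerivAt (fun t : ℝ => t ^ κ) (κ * t ^ (κ - 1)) t :=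
    hasDerivAt_rpow_const (Or.inl ht.ne')
  have h2 : HasDerivAt (fun t : ℝ => exp (-(r * t))) (exp (-(r * t)) * (-r)) t := by
    have : HasDerivAt (fun t : ℝ => -(r * t)) (-r) t := by
      simpa [neg_mul] using (hasDerivAt_id t).const_mul (-r)
    exact this.exp
  refine (h1.mul h2).congr_deriv ?_
  have : t ^ κ = t ^ (κ - 1) * t := by
    rw [← rpow_add_one ht.ne']; congr 1; ring
  rw [this]
  ring

lemma tendsto_W (κ : ℝ) (hr : 0 < r) :
    Tendsto (fun t : ℝ => t ^ κ * exp (-(r * t))) atTop (𝓝 0) := by
  have := tendsto_rpow_mul_exp_neg_mul_atTop_nhds_zero κ r hr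
  simpa [neg_mul] using this

lemma continuous_W (hκ : 0 < κ) (r : ℝ) : Continuous (fun t : ℝ => t ^ κ * exp (-(r * t))) := by
  have h1 : Continuous (fun t : ℝ => t ^ κ) := continuous_id.rpow_const (fun _ => Or.inr hκ.le)
  have h2 : Continuous (fun t : ℝ => exp (-(r * t))) := by fun_prop
  exact h1.mul h2

lemma integrableOn_W' (hκ : 0 < κ) (hr : 0 < r) :
    IntegrableOn (fun t : ℝ => (κ - r * t) * (t ^ (κ - 1) * exp (-(r * t)))) (Ioi 0) := by
  have h1 := (integrableOn_w (a := κ - 1) (by linarith) hr).const_mul κ
  have h2 := (integrableOn_w (a := κ) (by linarith) hr).const_mul r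
  refine IntegrableOn.congr_fun (f := fun t : ℝ => κ * (t ^ (κ - 1) * exp (-(r * t))) -
    r * (t ^ κ * exp (-(r * t)))) (h1.sub h2) ?_ measurableSet_Ioi
  intro t ht
  have ht : 0 < t := ht
  have : t ^ κ = t ^ (κ - 1) * t := by
    rw [← rpow_add_one ht.ne']; congr 1; ring
  simp only
  rw [this]
  ring

lemma integral_W'_Ioi (hκ : 0 < κ) (hr : 0 < r) {c : ℝ} (hc : 0 ≤ c) :
    ∫ t in Ioi c, (κ - r * t) * (t ^ (κ - 1) * exp (-(r * t))) = -(c ^ κ * exp (-(r * c))) := by
  rw [integral_Ioi_of_hasDerivAt_of_tendsto (f := fun t : ℝ => t ^ κ * exp (-(r * t))) (m := 0)]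
  · simp
  · exact (continuous_W hκ r).continuousWithinAt
  · intro t ht
    exact hasDerivAt_W κ r (lt_of_le_of_lt hc ht)
  · exact (integrableOn_W' hκ hr).mono_set (Ioi_subset_Ioi hc)
  · exact tendsto_W κ hr

lemma integral_tW'_Ioc (hκ : 0 < κ) (r : ℝ) {c : ℝ} (hc : 0 ≤ c) :
    ∫ t in Ioc 0 c, t * ((κ - r * t) * (t ^ (κ - 1) * exp (-(r * t)))) =
      c * (c ^ κ * exp (-(r * c))) - ∫ t in Ioc 0 c, t ^ κ * exp (-(r * t)) := by
  have hW := continuous_W hκ r
  have hi1 : IntervalIntegrable (fun t : ℝ => t ^ κ * exp (-(r * t))) volume 0 c :=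
    hW.intervalIntegrable _ _
  have hi2 : IntervalIntegrable
      (fun t : ℝ => t * ((κ - r * t) * (t ^ (κ - 1) * exp (-(r * t))))) volume 0 c := by
    rw [intervalIntegrable_iff_integrableOn_Ioc_of_le hc]
    have h1 : ContinuousOn (fun t : ℝ => (κ - r * t) * (t ^ κ * exp (-(r * t)))) (Icc 0 c) :=
      ((continuous_const.sub (continuous_const.mul continuous_id)).mul hW).continuousOn
    refine ((h1.integrableOn_Icc).mono_set Ioc_subset_Icc_self).congr_fun ?_ measurableSet_Ioc
    intro t ht
    have ht : 0 < t := ht.1
    have : t ^ κ = t ^ (κ - 1) * t := by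
      rw [← rpow_add_one ht.ne']; congr 1; ring
    simp only
    rw [this]
    ring
  have key := intervalIntegral.integral_eq_sub_of_hasDerivAt_of_le hc
    (f := fun t : ℝ => t * (t ^ κ * exp (-(r * t))))
    (f' := fun t : ℝ => t ^ κ * exp (-(r * t)) +
      t * ((κ - r * t) * (t ^ (κ - 1) * exp (-(r * t)))))
    (continuous_id.mul hW).continuousOn
    (by
      intro t ht
      refine ((hasDerivAt_id t).mul (hasDerivAt_W κ r ht.1)).congr_deriv ?_
      simp)
    (hi1.add hi2)
  rw [intervalIntegral.integral_add hi1 hi2, intervalIntegral.integral_of_le hc,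
    intervalIntegral.integral_of_le hc] at key
  simp only [zero_mul, sub_zero] at key
  linarith

/-- Stein's identity for the Gamma law and the function `t ↦ min t c`. -/
theorem stein_min (hκ : 0 < κ) (hr : 0 < r) (c : ℝ) :
    ∫ t, (r * t - κ) * min t c ∂(gammaMeasure κ r) =
      ∫ t, (if t < c then t else 0) ∂(gammaMeasure κ r) := by
  rw [integral_gamma hκ hr, integral_gamma hκ hr]
  congr 1
  rcases le_or_gt c 0 with hc | hc
  · have h1 : ∫ t in Ioi 0, t ^ (κ - 1) * exp (-(r * t)) * ((r * t - κ) * min t c) =
        ∫ t in Ioi 0, (-c) * ((κ - r * t) * (t ^ (κ - 1) * exp (-(r * t)))) := by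
      apply setIntegral_congr_fun measurableSet_Ioi
      intro t ht
      have ht : 0 < t := ht
      simp only
      rw [min_eq_right (by linarith)]
      ring
    rw [h1, integral_const_mul, integral_W'_Ioi hκ hr le_rfl, zero_rpow hκ.ne']
    rw [setIntegral_congr_fun (g := fun _ => (0:ℝ)) measurableSet_Ioi]
    · simp
    · intro t ht
      have ht : 0 < t := ht
      simp only
      rw [if_neg (by linarith)]
      simp
  · have hsplit : Ioi (0:ℝ) = Ioc 0 c ∪ Ioi c := (Ioc_union_Ioi_eq_Ioi hc.le).symm
    have hdisj : Disjoint (Ioc (0:ℝ) c) (Ioi c) := Ioc_disjoint_Ioi le_rfl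
    have e1 : ∀ t ∈ Ioc 0 c, t ^ (κ - 1) * exp (-(r * t)) * ((r * t - κ) * min t c) =
        -(t * ((κ - r * t) * (t ^ (κ - 1) * exp (-(r * t))))) := by
      intro t ht
      rw [min_eq_left ht.2]
      ring
    have e2 : ∀ t ∈ Ioi c, t ^ (κ - 1) * exp (-(r * t)) * ((r * t - κ) * min t c) =
        (-c) * ((κ - r * t) * (t ^ (κ - 1) * exp (-(r * t)))) := by
      intro t ht
      have ht : c < t := ht
      rw [min_eq_right ht.le]
      ring
    have e3 : ∀ t ∈ Ioi c, t ^ (κ - 1) * exp (-(r * t)) * (if t < c then t else 0) = 0 := by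
      intro t ht
      have ht : c < t := ht
      rw [if_neg (by linarith), mul_zero]
    have hW' := integrableOn_W' hκ hr
    have hI1 : IntegrableOn (fun t : ℝ => t * ((κ - r * t) * (t ^ (κ - 1) * exp (-(r * t)))))
        (Ioc 0 c) := by
      have h1 : ContinuousOn (fun t : ℝ => (κ - r * t) * (t ^ κ * exp (-(r * t)))) (Icc 0 c) :=
        ((continuous_const.sub (continuous_const.mul continuous_id)).mul
          (continuous_W hκ r)).continuousOn
      refine ((h1.integrableOn_Icc).mono_set Ioc_subset_Icc_self).congr_fun ?_ measurableSet_Ioc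
      intro t ht
      have ht : 0 < t := ht.1
      have : t ^ κ = t ^ (κ - 1) * t := by
        rw [← rpow_add_one ht.ne']; congr 1; ring
      simp only
      rw [this]
      ring
    rw [hsplit, setIntegral_union hdisj measurableSet_Ioi, setIntegral_union hdisj measurableSet_Ioi,
      setIntegral_congr_fun measurableSet_Ioc e1, setIntegral_congr_fun measurableSet_Ioi e2,
      setIntegral_congr_fun measurableSet_Ioi e3, integral_neg, integral_const_mul,
      integral_tW'_Ioc hκ r hc.le, integral_W'_Ioi hκ hr hc.le]
    · have e4 : ∫ t in Ioc 0 c, t ^ (κ - 1) * exp (-(r * t)) * (if t < c then t else 0) =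
          ∫ t in Ioc 0 c, t ^ κ * exp (-(r * t)) := by
        rw [integral_Ioc_eq_integral_Ioo, integral_Ioc_eq_integral_Ioo]
        apply setIntegral_congr_fun measurableSet_Ioo
        intro t ht
        simp only
        rw [if_pos ht.2]
        have ht : 0 < t := ht.1
        have : t ^ κ = t ^ (κ - 1) * t := by
          rw [← rpow_add_one ht.ne']; congr 1; ring
        rw [this]; ring
      rw [e4]
      simp
    · have hIoo : IntegrableOn (fun t : ℝ => t ^ κ * exp (-(r * t))) (Ioo 0 c) :=
        ((continuous_W hκ r).integrableOn_Icc (a := 0) (b := c)).mono_set Ioo_subset_Icc_self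
      refine (hIoo.congr_fun ?_ measurableSet_Ioo).congr_set_ae Ioo_ae_eq_Ioc.symm
      intro t ht
      simp only
      rw [if_pos ht.2]
      have ht : 0 < t := ht.1
      have : t ^ κ = t ^ (κ - 1) * t := by
        rw [← rpow_add_one ht.ne']; congr 1; ring
      rw [this]; ring
    · refine IntegrableOn.congr_fun (integrableOn_zero) (fun t ht => (e3 t ht).symm) measurableSet_Ioi
    · exact IntegrableOn.congr_fun hI1.neg (fun t ht => (e1 t ht).symm) measurableSet_Ioc
    · exact IntegrableOn.congr_fun ((hW'.mono_set (Ioi_subset_Ioi hc.le)).const_mul (-c))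
        (fun t ht => (e2 t ht).symm) measurableSet_Ioi

lemma integral_mean (hκ : 0 < κ) (hr : 0 < r) :
    ∫ t, (r * t - κ) ∂(gammaMeasure κ r) = 0 := by
  rw [integral_gamma hκ hr]
  have h1 : ∫ t in Ioi 0, t ^ (κ - 1) * exp (-(r * t)) * (r * t - κ) =
      ∫ t in Ioi 0, (-1) * ((κ - r * t) * (t ^ (κ - 1) * exp (-(r * t)))) := by
    apply setIntegral_congr_fun measurableSet_Ioi
    intro t ht
    simp only
    ring
  rw [h1, integral_const_mul, integral_W'_Ioi hκ hr le_rfl, zero_rpow hκ.ne']
  simp

/-- the mean of the Gamma law -/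
lemma integral_id_gamma (hκ : 0 < κ) (hr : 0 < r) :
    ∫ t, t ∂(gammaMeasure κ r) = κ / r := by
  have := isProbabilityMeasure_gammaMeasure hκ hr
  have h := integral_mean hκ hr
  rw [integral_sub ((integrable_id_gamma hκ hr).const_mul r) (integrable_const _),
    integral_const_mul] at h
  simp at h
  field_simp
  linarith

lemma lintegral_cov {Ω : Type*} [MeasurableSpace Ω] {μ : Measure Ω} [IsProbabilityMeasure μ]
    {f g : Ω → ℝ} (hf : Integrable f μ) (hg : Integrable g μ)
    (hfg : Integrable (fun x => f x * g x) μ) (hpos : ∀ x y, 0 ≤ (f x - f y) * (g x - g y)) :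
    ∫⁻ x, ∫⁻ y, ENNReal.ofReal ((f x - f y) * (g x - g y)) ∂μ ∂μ =
      ENNReal.ofReal (2 * (∫ x, f x * g x ∂μ - (∫ x, f x ∂μ) * ∫ x, g x ∂μ)) := by
  have e : ∀ x, (fun y => (f x - f y) * (g x - g y)) =
      fun y => f x * g x - (f x * g y + g x * f y) + f y * g y := by
    intro x; funext y; ring
  have i1 : ∀ x, Integrable (fun y => f x * g y + g x * f y) μ := fun x =>
    (hg.const_mul _).add (hf.const_mul _)
  have hint : ∀ x, Integrable (fun y => (f x - f y) * (g x - g y)) μ := by
    intro x
    rw [e x]
    exact ((integrable_const _).sub (i1 x)).add hfg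
  have hval : ∀ x, ∫ y, (f x - f y) * (g x - g y) ∂μ =
      f x * g x - (f x * (∫ y, g y ∂μ) + g x * ∫ y, f y ∂μ) + ∫ y, f y * g y ∂μ := by
    intro x
    rw [e x, integral_sub_add (integrable_const _) (i1 x) hfg,
      integral_add (hg.const_mul _) (hf.const_mul _), integral_const_mul, integral_const_mul]
    simp [integral_const_mul]
  have h1 : ∀ x, ∫⁻ y, ENNReal.ofReal ((f x - f y) * (g x - g y)) ∂μ =
      ENNReal.ofReal (f x * g x - (f x * (∫ y, g y ∂μ) + g x * ∫ y, f y ∂μ)
        + ∫ y, f y * g y ∂μ) := by
    intro x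
    rw [← ofReal_integral_eq_lintegral_ofReal (hint x) (Eventually.of_forall fun y => hpos x y),
      hval x]
  simp_rw [h1]
  have i2 : Integrable (fun x => f x * (∫ y, g y ∂μ) + g x * ∫ y, f y ∂μ) μ :=
    (hf.mul_const _).add (hg.mul_const _)
  rw [← ofReal_integral_eq_lintegral_ofReal]
  · congr 1
    rw [integral_sub_add hfg i2 (integrable_const _), integral_add (hf.mul_const _) (hg.mul_const _),
      integral_mul_const, integral_mul_const]
    simp
    ring
  · exact (hfg.sub i2).add (integrable_const _)
  · refine Eventually.of_forall fun x => ?_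
    simp only [Pi.zero_apply]
    rw [← hval x]
    exact integral_nonneg fun y => hpos x y

/-- the one-edge variance bound for the Gamma law -/
theorem dvar_gamma_min (hκ : 0 < κ) (hr : 0 < r) (A B : ℝ) :
    dvar (gammaMeasure κ r) (fun t => min A (B + t)) ≤
      ENNReal.ofReal (2 / r * ∫ t, (if B + t < A then t else 0) ∂(gammaMeasure κ r)) := by
  have := isProbabilityMeasure_gammaMeasure hκ hr
  set c := A - B with hc
  have hi1 := integrable_id_gamma hκ hr
  have hm : Integrable (fun t : ℝ => min t c) (gammaMeasure κ r) := by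
    refine Integrable.mono' (hi1.norm.add (integrable_const |c|)) ?_ ?_
    · exact (measurable_id.min measurable_const).aestronglyMeasurable
    · refine Eventually.of_forall fun t => ?_
      simp only [Pi.add_apply, norm_eq_abs]
      rcases min_choice t c with h | h <;> rw [h] <;> simp
  have hprod : Integrable (fun t : ℝ => t * min t c) (gammaMeasure κ r) := by
    have hi2 := integrable_pow_gamma hκ hr 2
    refine Integrable.mono' (hi2.norm.add (hi1.norm.mul_const |c|)) ?_ ?_
    · exact (measurable_id.mul (measurable_id.min measurable_const)).aestronglyMeasurable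
    · refine Eventually.of_forall fun t => ?_
      simp only [Pi.add_apply, norm_eq_abs, abs_mul, abs_pow]
      rcases min_choice t c with h | h <;> rw [h]
      · have : |t| * |t| = |t| ^ 2 := by ring
        rw [this]
        have := mul_nonneg (abs_nonneg t) (abs_nonneg c)
        linarith
      · have := sq_nonneg |t|
        linarith
  have hfm : ∀ t, min A (B + t) = B + min t c := by
    intro t
    rw [hc, min_comm, ← min_add_add_left]
    congr 1
    ring
  have hlip : ∀ s t : ℝ, (min A (B + s) - min A (B + t)) ^ 2 ≤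
      (s - t) * (min s c - min t c) := by
    intro s t
    rw [hfm, hfm]
    have e : (B + min s c - (B + min t c)) ^ 2 = (min s c - min t c) * (min s c - min t c) := by
      ring
    rw [e]
    rcases le_total s t with h | h
    · have h1 : min s c ≤ min t c := min_le_min_right c h
      have h2 : min t c - min s c ≤ t - s := by
        rcases le_total t c with ht | ht
        · rw [min_eq_left ht, min_eq_left (h.trans ht)]
        · rw [min_eq_right ht]
          rcases le_total s c with hs | hs
          · rw [min_eq_left hs]; linarith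
          · rw [min_eq_right hs]; linarith
      nlinarith
    · have h1 : min t c ≤ min s c := min_le_min_right c h
      have h2 : min s c - min t c ≤ s - t := by
        rcases le_total s c with ht | ht
        · rw [min_eq_left ht, min_eq_left (h.trans ht)]
        · rw [min_eq_right ht]
          rcases le_total t c with hs | hs
          · rw [min_eq_left hs]; linarith
          · rw [min_eq_right hs]; linarith
      nlinarith
  have hpos : ∀ s t : ℝ, 0 ≤ (s - t) * (min s c - min t c) := fun s t =>
    (sq_nonneg _).trans (hlip s t)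
  calc dvar (gammaMeasure κ r) (fun t => min A (B + t))
      ≤ ∫⁻ s, ∫⁻ t, ENNReal.ofReal ((s - t) * (min s c - min t c)) ∂(gammaMeasure κ r)
          ∂(gammaMeasure κ r) := by
        unfold dvar
        exact lintegral_mono fun s => lintegral_mono fun t => ENNReal.ofReal_le_ofReal (hlip s t)
    _ = ENNReal.ofReal (2 * (∫ t, t * min t c ∂(gammaMeasure κ r) -
          (∫ t, t ∂(gammaMeasure κ r)) * ∫ t, min t c ∂(gammaMeasure κ r))) :=
        lintegral_cov (f := fun t : ℝ => t) (g := fun t : ℝ => min t c) hi1 hm hprod hpos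
    _ ≤ _ := by
        apply ENNReal.ofReal_le_ofReal
        have hst := stein_min hκ hr c
        have e1 : ∫ t, (r * t - κ) * min t c ∂(gammaMeasure κ r) =
            r * (∫ t, t * min t c ∂(gammaMeasure κ r)) - κ * ∫ t, min t c ∂(gammaMeasure κ r) := by
          rw [← integral_const_mul, ← integral_const_mul, ← integral_sub (hprod.const_mul r)
            (hm.const_mul κ)]
          congr 1
          funext t
          ring
        have e2 : ∫ t, (if B + t < A then t else 0) ∂(gammaMeasure κ r) =
            ∫ t, (if t < c then t else 0) ∂(gammaMeasure κ r) := by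
          congr 1
          funext t
          have : (B + t < A) ↔ (t < c) := by rw [hc]; constructor <;> intro h <;> linarith
          simp only [this]
        rw [e2, ← hst, e1, integral_id_gamma hκ hr]
        apply le_of_eq
        field_simp

end Crest.Agent.R151.V
end

-- ▼ part R151/V3

/-!
# R151, block V3 (helper52): variance of first-passage times (abstract finite families of paths)

`pmin 𝒫 h t` = minimum over the finite family `𝒫` of finite sets of edges of the sum of the weights.
-/

set_option autoImplicit false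
set_option linter.unusedSectionVars false

open MeasureTheory ProbabilityTheory Set Filter
open scoped ENNReal Topology

namespace Crest.Agent.R151.V

variable {I X : Type*} [DecidableEq I] [MeasurableSpace X]

/-- resampling one coordinate preserves the product measure -/
lemma mp_update (G : Measure X) [IsProbabilityMeasure G] (e : I) :
    MeasurePreserving (fun p : (I → X) × X => Function.update p.1 e p.2)
      ((Measure.infinitePi fun _ : I => G).prod G) (Measure.infinitePi fun _ : I => G) := by
  refine ⟨measurable_update', ?_⟩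
  apply Measure.eq_infinitePi
  intro s t ht
  rw [Measure.map_apply measurable_update' (MeasurableSet.pi s.countable_toSet fun i _ => ht i)]
  by_cases he : e ∈ s
  · have : (fun p : (I → X) × X => Function.update p.1 e p.2) ⁻¹' (Set.pi s t) =
        (Set.pi (s.erase e) t) ×ˢ (t e) := by
      ext ⟨x, u⟩
      simp only [mem_preimage, Set.mem_pi, SetLike.mem_coe, mem_prod, Finset.mem_erase]
      constructor
      · intro h
        refine ⟨fun i hi => ?_, ?_⟩
        · have := h i hi.2
          rwa [Function.update_of_ne hi.1] at this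
        · simpa using h e he
      · rintro ⟨h1, h2⟩ i hi
        by_cases hie : i = e
        · subst hie; simpa using h2
        · rw [Function.update_of_ne hie]
          exact h1 i ⟨hie, hi⟩
    rw [this, Measure.prod_prod, Measure.infinitePi_pi _ (fun i _ => ht i),
      Finset.prod_erase_mul _ _ he]
  · have : (fun p : (I → X) × X => Function.update p.1 e p.2) ⁻¹' (Set.pi s t) =
        (Set.pi s t) ×ˢ univ := by
      ext ⟨x, u⟩
      simp only [mem_preimage, Set.mem_pi, SetLike.mem_coe, mem_prod, mem_univ, and_true]
      constructor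
      · intro h i hi
        have := h i hi
        rwa [Function.update_of_ne (by rintro rfl; exact he hi)] at this
      · intro h i hi
        rw [Function.update_of_ne (by rintro rfl; exact he hi)]
        exact h i hi
    rw [this, Measure.prod_prod, Measure.infinitePi_pi _ (fun i _ => ht i), measure_univ, mul_one]

lemma lintegral_update (G : Measure X) [IsProbabilityMeasure G] (e : I) {F : (I → X) → ℝ≥0∞}
    (hF : Measurable F) :
    ∫⁻ x, F x ∂(Measure.infinitePi fun _ : I => G) =
      ∫⁻ x, ∫⁻ u, F (Function.update x e u) ∂G ∂(Measure.infinitePi fun _ : I => G) := by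
  rw [← (mp_update G e).lintegral_comp hF, lintegral_prod]
  exact (hF.comp measurable_update').aemeasurable

/-- the influence as the mean of the one-coordinate doubled variances -/
lemma infl_eq (G : Measure X) [IsProbabilityMeasure G] (e : I) {f : (I → X) → ℝ}
    (hf : Measurable f) :
    infl (Measure.infinitePi fun _ : I => G) G f e =
      ∫⁻ x, dvar G (fun u => f (Function.update x e u)) ∂(Measure.infinitePi fun _ : I => G) := by
  unfold infl
  rw [lintegral_update G e (meas_infl G hf e)]
  unfold dvar
  simp only [Function.update_idem]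

/-- Fatou for the doubled variance -/
lemma dvar_le_liminf {Ω : Type*} [MeasurableSpace Ω] {μ : Measure Ω} [SFinite μ]
    {f : Ω → ℝ} {F : ℕ → Ω → ℝ} (hF : ∀ n, Measurable (F n))
    (hlim : ∀ᵐ x ∂μ, Tendsto (fun n => F n x) atTop (𝓝 (f x))) :
    dvar μ f ≤ liminf (fun n => dvar μ (F n)) atTop := by
  unfold dvar
  calc ∫⁻ x, ∫⁻ y, ENNReal.ofReal ((f x - f y) ^ 2) ∂μ ∂μ
      ≤ ∫⁻ x, liminf (fun n => ∫⁻ y, ENNReal.ofReal ((F n x - F n y) ^ 2) ∂μ) atTop ∂μ := by
        apply lintegral_mono_ae
        filter_upwards [hlim] with x hx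
        calc ∫⁻ y, ENNReal.ofReal ((f x - f y) ^ 2) ∂μ
            ≤ ∫⁻ y, liminf (fun n => ENNReal.ofReal ((F n x - F n y) ^ 2)) atTop ∂μ := by
              apply lintegral_mono_ae
              filter_upwards [hlim] with y hy
              have : Tendsto (fun n => ENNReal.ofReal ((F n x - F n y) ^ 2)) atTop
                  (𝓝 (ENNReal.ofReal ((f x - f y) ^ 2))) :=
                (ENNReal.continuous_ofReal.tendsto _).comp (((hx.sub hy).pow 2))
              exact this.liminf_eq.ge
          _ ≤ _ := by
              apply lintegral_liminf_le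
              intro n
              exact meas_sq (hF n) measurable_const measurable_id
    _ ≤ _ := by
        apply lintegral_liminf_le
        intro n
        exact Measurable.lintegral_prod_right' (meas_sq (hF n) measurable_fst measurable_snd)

/-- minimum over a finite family of edge sets of the total weight -/
noncomputable def pmin (P : Finset (Finset I)) (h : P.Nonempty) (t : I → ℝ) : ℝ :=
  P.inf' h (fun p => ∑ e ∈ p, t e)

lemma measurable_cost (p : Finset I) : Measurable (fun t : I → ℝ => ∑ e ∈ p, t e) :=
  Finset.measurable_sum _ fun e _ => measurable_pi_apply e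

lemma measurable_pmin (P : Finset (Finset I)) (h : P.Nonempty) : Measurable (pmin P h) := by
  have key : Measurable (P.inf' h (fun (p : Finset I) (t : I → ℝ) => ∑ e ∈ p, t e)) :=
    Finset.inf'_induction h _ (p := Measurable) (fun a ha b hb => ha.min hb)
      (fun p _ => measurable_cost p)
  convert key using 1
  funext t
  unfold pmin
  rw [Finset.inf'_apply]

lemma pmin_le {P : Finset (Finset I)} {h : P.Nonempty} {p : Finset I} (hp : p ∈ P) (t : I → ℝ) :
    pmin P h t ≤ ∑ e ∈ p, t e := Finset.inf'_le _ hp

lemma exists_pmin (P : Finset (Finset I)) (h : P.Nonempty) (t : I → ℝ) :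
    ∃ p ∈ P, pmin P h t = ∑ e ∈ p, t e := Finset.exists_mem_eq_inf' h _

lemma pmin_nonneg {P : Finset (Finset I)} {h : P.Nonempty} {t : I → ℝ} (ht : ∀ e, 0 ≤ t e) :
    0 ≤ pmin P h t := by
  obtain ⟨p, _, hp⟩ := exists_pmin P h t
  rw [hp]
  exact Finset.sum_nonneg fun e _ => ht e

/-- the edges contained in every minimiser -/
def Ess (P : Finset (Finset I)) (h : P.Nonempty) (t : I → ℝ) (e : I) : Prop :=
  ∀ p ∈ P, (∑ i ∈ p, t i) = pmin P h t → e ∈ p

lemma cost_update_mem {p : Finset I} {e : I} (he : e ∈ p) (t : I → ℝ) (u : ℝ) :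
    ∑ i ∈ p, Function.update t e u i = ∑ i ∈ p.erase e, t i + u := by
  rw [← Finset.sum_erase_add _ _ he, Function.update_self]
  congr 1
  apply Finset.sum_congr rfl
  intro i hi
  rw [Function.update_of_ne (Finset.ne_of_mem_erase hi)]

lemma cost_update_notMem {p : Finset I} {e : I} (he : e ∉ p) (t : I → ℝ) (u : ℝ) :
    ∑ i ∈ p, Function.update t e u i = ∑ i ∈ p, t i := by
  apply Finset.sum_congr rfl
  intro i hi
  rw [Function.update_of_ne (by rintro rfl; exact he hi)]

/-- dependence of `pmin` on one weight: either constant, or `B + u`, or `min A (B + u)`, and in the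
last case, `B + u < A` forces the edge to be in every minimiser. -/
lemma pmin_update (P : Finset (Finset I)) (h : P.Nonempty) (e : I) (t : I → ℝ) :
    (∃ C, ∀ u, pmin P h (Function.update t e u) = C) ∨
    ((∃ B, ∀ u, pmin P h (Function.update t e u) = B + u) ∧
      ∀ u, Ess P h (Function.update t e u) e) ∨
    (∃ A B, (∀ u, pmin P h (Function.update t e u) = min A (B + u)) ∧
      ∀ u, B + u < A → Ess P h (Function.update t e u) e) := by
  classical
  set P1 := P.filter (fun p => e ∈ p) with hP1
  set P0 := P.filter (fun p => e ∉ p) with hP0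
  have hall : ∀ p ∈ P, p ∈ P1 ∨ p ∈ P0 := by
    intro p hp
    by_cases he : e ∈ p
    · left; simp [hP1, hp, he]
    · right; simp [hP0, hp, he]
  by_cases h1 : P1.Nonempty
  · by_cases h0 : P0.Nonempty
    · -- both
      right; right
      refine ⟨P0.inf' h0 (fun p => ∑ i ∈ p, t i), P1.inf' h1 (fun p => ∑ i ∈ p.erase e, t i),
        ?_, ?_⟩
      · intro u
        apply le_antisymm
        · apply le_min
          · obtain ⟨p, hp, hpe⟩ := Finset.exists_mem_eq_inf' h0 (fun p => ∑ i ∈ p, t i)
            rw [hpe]
            have hp' := Finset.mem_filter.1 hp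
            rw [← cost_update_notMem hp'.2 t u]
            exact pmin_le hp'.1 _
          · obtain ⟨p, hp, hpe⟩ := Finset.exists_mem_eq_inf' h1 (fun p => ∑ i ∈ p.erase e, t i)
            rw [hpe]
            have hp' := Finset.mem_filter.1 hp
            rw [← cost_update_mem hp'.2 t u]
            exact pmin_le hp'.1 _
        · obtain ⟨p, hp, hpe⟩ := exists_pmin P h (Function.update t e u)
          rw [hpe]
          rcases hall p hp with hp1 | hp0
          · refine (min_le_right _ _).trans ?_
            rw [cost_update_mem (Finset.mem_filter.1 hp1).2 t u]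
            gcongr
            exact Finset.inf'_le (f := fun p : Finset I => ∑ i ∈ p.erase e, t i) hp1
          · refine (min_le_left _ _).trans ?_
            rw [cost_update_notMem (Finset.mem_filter.1 hp0).2 t u]
            exact Finset.inf'_le (f := fun p : Finset I => ∑ i ∈ p, t i) hp0
      · intro u hu p hp hpe
        by_contra he
        have hp0 : p ∈ P0 := by simp [hP0, hp, he]
        rw [cost_update_notMem he] at hpe
        have hA : P0.inf' h0 (fun p => ∑ i ∈ p, t i) ≤ ∑ i ∈ p, t i :=
          Finset.inf'_le (f := fun p : Finset I => ∑ i ∈ p, t i) hp0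
        obtain ⟨q, hq, hqe⟩ := Finset.exists_mem_eq_inf' h1 (fun p => ∑ i ∈ p.erase e, t i)
        have hq' := Finset.mem_filter.1 hq
        have := pmin_le (h := h) hq'.1 (Function.update t e u)
        rw [cost_update_mem hq'.2, ← hqe] at this
        linarith
    · -- every path contains `e`
      right; left
      have hmem : ∀ p ∈ P, e ∈ p := by
        intro p hp
        rcases hall p hp with hp1 | hp0
        · exact (Finset.mem_filter.1 hp1).2
        · exact absurd ⟨p, hp0⟩ h0
      refine ⟨⟨P.inf' h (fun p => ∑ i ∈ p.erase e, t i), ?_⟩, fun u p hp _ => hmem p hp⟩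
      intro u
      apply le_antisymm
      · obtain ⟨p, hp, hpe⟩ := Finset.exists_mem_eq_inf' h (fun p => ∑ i ∈ p.erase e, t i)
        rw [hpe, ← cost_update_mem (hmem p hp) t u]
        exact pmin_le hp _
      · obtain ⟨p, hp, hpe⟩ := exists_pmin P h (Function.update t e u)
        rw [hpe, cost_update_mem (hmem p hp) t u]
        gcongr
        exact Finset.inf'_le (f := fun p : Finset I => ∑ i ∈ p.erase e, t i) hp
  · left
    have hmem : ∀ p ∈ P, e ∉ p := by
      intro p hp he
      exact h1 ⟨p, by simp [hP1, hp, he]⟩
    refine ⟨pmin P h t, fun u => ?_⟩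
    unfold pmin
    apply Finset.inf'_congr h rfl
    intro p hp
    exact cost_update_notMem (hmem p hp) t u

lemma measurableSet_Ess (P : Finset (Finset I)) (h : P.Nonempty) (e : I) :
    MeasurableSet {t : I → ℝ | Ess P h t e} := by
  have : {t : I → ℝ | Ess P h t e} =
      ⋂ p ∈ P, {t | (∑ i ∈ p, t i) = pmin P h t → e ∈ p} := by
    ext t; simp [Ess]
  rw [this]
  refine Finset.measurableSet_biInter _ fun p _ => ?_
  by_cases he : e ∈ p
  · simp [he]
  · simp only [he, imp_false]
    exact (measurableSet_eq_fun (measurable_cost p) (measurable_pmin P h)).compl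

lemma pmin_dep (P : Finset (Finset I)) (h : P.Nonempty) (x y : I → ℝ)
    (hxy : ∀ i ∈ P.biUnion id, x i = y i) : pmin P h x = pmin P h y := by
  unfold pmin
  apply Finset.inf'_congr h rfl
  intro p hp
  apply Finset.sum_congr rfl
  intro i hi
  exact hxy i (Finset.mem_biUnion.2 ⟨p, hp, hi⟩)

open Classical in
/-- the total weight of the essential edges is at most the minimum -/
lemma sum_Ess_le (P : Finset (Finset I)) (h : P.Nonempty) (t : I → ℝ)
    (ht : ∀ e ∈ P.biUnion id, 0 ≤ t e) :
    ∑ e ∈ P.biUnion id, (if Ess P h t e then ENNReal.ofReal (t e) else 0) ≤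
      ENNReal.ofReal (pmin P h t) := by
  obtain ⟨p, hp, hpe⟩ := exists_pmin P h t
  have hnn : ∀ i ∈ p, 0 ≤ t i := fun i hi => ht i (Finset.mem_biUnion.2 ⟨p, hp, hi⟩)
  rw [hpe, ENNReal.ofReal_sum_of_nonneg hnn, ← Finset.sum_filter]
  apply Finset.sum_le_sum_of_subset
  intro e he
  exact (Finset.mem_filter.1 he).2 p hp hpe.symm

open Classical in
/-- the number of the essential edges is at most the number of edges of any minimiser -/
lemma card_Ess_le (P : Finset (Finset I)) (h : P.Nonempty) (t : I → ℝ) {p : Finset I} (hp : p ∈ P)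
    (hpe : ∑ i ∈ p, t i = pmin P h t) :
    ((P.biUnion id).filter (fun e => Ess P h t e)).card ≤ p.card := by
  apply Finset.card_le_card
  intro e he
  exact (Finset.mem_filter.1 he).2 p hp hpe

variable {κ r : ℝ}

lemma ae_pos_gamma (κ r : ℝ) : ∀ᵐ t ∂(gammaMeasure κ r), 0 ≤ t := by
  rw [ae_iff]
  have : {a : ℝ | ¬ 0 ≤ a} = Iio 0 := by ext; simp
  rw [this, gammaMeasure, withDensity_apply _ measurableSet_Iio]
  rw [setLIntegral_congr_fun measurableSet_Iio
      (fun x (hx : x < 0) ↦ gammaPDF_of_neg hx), lintegral_zero]

lemma ae_nonneg_infinitePi {G : Measure ℝ} [IsProbabilityMeasure G] (hG : ∀ᵐ t ∂G, 0 ≤ t)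
    (s : Finset I) : ∀ᵐ x ∂(Measure.infinitePi fun _ : I => G), ∀ e ∈ s, 0 ≤ x e := by
  have : ∀ᵐ x ∂(Measure.infinitePi fun _ : I => G), ∀ e ∈ (s : Set I), 0 ≤ x e := by
    rw [ae_ball_iff s.countable_toSet]
    intro e _
    exact (measurePreserving_eval_infinitePi (fun _ : I => G) e).quasiMeasurePreserving.ae hG
  exact this

/-- one-edge bound for the identity -/
lemma dvar_gamma_add (hκ : 0 < κ) (hr : 0 < r) (B : ℝ) :
    dvar (gammaMeasure κ r) (fun t => B + t) ≤
      ENNReal.ofReal (2 / r * ∫ t, t ∂(gammaMeasure κ r)) := by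
  have := isProbabilityMeasure_gammaMeasure hκ hr
  have h1 : dvar (gammaMeasure κ r) (fun t => B + t) ≤
      liminf (fun n : ℕ => dvar (gammaMeasure κ r) (fun t => min (n : ℝ) (B + t))) atTop := by
    apply dvar_le_liminf
    · intro n
      exact measurable_const.min (measurable_const.add measurable_id)
    · refine Eventually.of_forall fun t => ?_
      apply tendsto_const_nhds.congr'
      filter_upwards [eventually_ge_atTop ⌈B + t⌉₊] with n hn
      rw [min_eq_right ((Nat.le_ceil _).trans (by exact_mod_cast hn))]
  refine h1.trans ?_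
  refine (liminf_le_liminf (v := fun _ => ENNReal.ofReal (2 / r * ∫ t, t ∂(gammaMeasure κ r)))
    (Eventually.of_forall fun n => ?_)).trans (by simp)
  refine (dvar_gamma_min hκ hr n B).trans ?_
  apply ENNReal.ofReal_le_ofReal
  apply mul_le_mul_of_nonneg_left _ (by positivity)
  apply integral_mono_ae _ (integrable_id_gamma hκ hr)
  · filter_upwards [ae_pos_gamma κ r] with t ht
    split_ifs
    · exact le_rfl
    · exact ht
  · refine Integrable.mono' (integrable_id_gamma hκ hr).norm ?_ (Eventually.of_forall fun t => ?_)
    · exact (Measurable.ite (measurableSet_lt (measurable_const.add measurable_id)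
        measurable_const) measurable_id measurable_const).aestronglyMeasurable
    · split_ifs <;> simp

open Classical in
/-- the variance of the minimum, Gamma weights -/
theorem dvar_pmin_gamma (hκ : 0 < κ) (hr : 0 < r) (P : Finset (Finset I)) (h : P.Nonempty) :
    dvar (Measure.infinitePi fun _ : I => gammaMeasure κ r) (pmin P h) ≤
      ENNReal.ofReal (2 / r) *
        ∫⁻ t, ENNReal.ofReal (pmin P h t) ∂(Measure.infinitePi fun _ : I => gammaMeasure κ r) := by
  have hγ := isProbabilityMeasure_gammaMeasure hκ hr
  set γ := gammaMeasure κ r with hγd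
  set μ := Measure.infinitePi fun _ : I => γ with hμ
  set S := P.biUnion id with hS
  have hm := measurable_pmin P h
  refine (dvar_infinitePi_le γ hm S (pmin_dep P h)).trans ?_
  -- the function integrated in the bound of the influence of `e`
  set W : I → (I → ℝ) → ℝ≥0∞ := fun e t => if Ess P h t e then ENNReal.ofReal (t e) else 0
    with hW
  have hWm : ∀ e, Measurable (W e) := fun e =>
    Measurable.ite (measurableSet_Ess P h e) (measurable_pi_apply e).ennreal_ofReal
      measurable_const
  have hone : ∀ e x, dvar γ (fun u => pmin P h (Function.update x e u)) ≤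
      ENNReal.ofReal (2 / r) * ∫⁻ u, W e (Function.update x e u) ∂γ := by
    intro e x
    rcases pmin_update P h e x with ⟨C, hC⟩ | ⟨⟨B, hB⟩, hE⟩ | ⟨A, B, hAB, hE⟩
    · simp [hC, dvar]
    · simp only [hB]
      refine (dvar_gamma_add hκ hr B).trans ?_
      rw [ENNReal.ofReal_mul (by positivity),
        ofReal_integral_eq_lintegral_ofReal (integrable_id_gamma hκ hr) (ae_pos_gamma κ r)]
      gcongr with u
      simp only [hW, if_pos (hE u), Function.update_self]
      exact le_rfl
    · simp only [hAB]
      refine (dvar_gamma_min hκ hr A B).trans ?_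
      rw [ENNReal.ofReal_mul (by positivity), ofReal_integral_eq_lintegral_ofReal]
      · gcongr with u
        simp only [hW, Function.update_self]
        by_cases hu : B + u < A
        · rw [if_pos hu, if_pos (hE u hu)]
        · rw [if_neg hu]
          simp
      · refine Integrable.mono' (integrable_id_gamma hκ hr).norm ?_
          (Eventually.of_forall fun t => ?_)
        · exact (Measurable.ite (measurableSet_lt (measurable_const.add measurable_id)
            measurable_const) measurable_id measurable_const).aestronglyMeasurable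
        · split_ifs <;> simp
      · filter_upwards [ae_pos_gamma κ r] with t ht
        simp only [Pi.zero_apply]
        split_ifs
        · exact ht
        · exact le_rfl
  have hinfl : ∀ e, infl μ γ (pmin P h) e ≤ ENNReal.ofReal (2 / r) * ∫⁻ x, W e x ∂μ := by
    intro e
    rw [infl_eq γ e hm, lintegral_update γ e (hWm e), ← lintegral_const_mul']
    · exact lintegral_mono fun x => hone e x
    · exact ENNReal.ofReal_ne_top
  calc ∑ e ∈ S, infl μ γ (pmin P h) e
      ≤ ∑ e ∈ S, ENNReal.ofReal (2 / r) * ∫⁻ x, W e x ∂μ := Finset.sum_le_sum fun e _ => hinfl e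
    _ = ENNReal.ofReal (2 / r) * ∫⁻ x, ∑ e ∈ S, W e x ∂μ := by
        rw [← Finset.mul_sum, lintegral_finsetSum _ (fun e _ => hWm e)]
    _ ≤ _ := by
        gcongr 1
        apply lintegral_mono_ae
        filter_upwards [ae_nonneg_infinitePi (ae_pos_gamma κ r) S] with x hx
        exact sum_Ess_le P h x hx

open Classical in
/-- the variance of the minimum, general law with second moment: `Var ≤ E[u²] * E #(essential edges)`
(note `dvar = 2 Var`). -/
theorem dvar_pmin_le (G : Measure ℝ) [IsProbabilityMeasure G] (hG : ∀ᵐ t ∂G, 0 ≤ t)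
    (P : Finset (Finset I)) (h : P.Nonempty) :
    dvar (Measure.infinitePi fun _ : I => G) (pmin P h) ≤
      (2 * ∫⁻ u, ENNReal.ofReal (u ^ 2) ∂G) *
        ∫⁻ t, (((P.biUnion id).filter (fun e => Ess P h t e)).card : ℝ≥0∞)
          ∂(Measure.infinitePi fun _ : I => G) := by
  set μ := Measure.infinitePi fun _ : I => G with hμ
  set S := P.biUnion id with hS
  set m2 := ∫⁻ u, ENNReal.ofReal (u ^ 2) ∂G with hm2
  have hm := measurable_pmin P h
  refine (dvar_infinitePi_le G hm S (pmin_dep P h)).trans ?_
  set W : I → (I → ℝ) → ℝ≥0∞ := fun e t => if Ess P h t e then 1 else 0 with hW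
  have hWm : ∀ e, Measurable (W e) := fun e =>
    Measurable.ite (measurableSet_Ess P h e) measurable_const measurable_const
  have hsq : Measurable (fun u : ℝ => ENNReal.ofReal (u ^ 2)) :=
    (measurable_id.pow_const 2).ennreal_ofReal
  have hone : ∀ e x, dvar G (fun u => pmin P h (Function.update x e u)) ≤
      (2 * m2) * ∫⁻ u, W e (Function.update x e u) ∂G := by
    intro e x
    have hWmx : Measurable (fun u => W e (Function.update x e u)) :=
      (hWm e).comp (measurable_update x)
    have hpt : ∀ s u : ℝ, 0 ≤ s → 0 ≤ u →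
        ENNReal.ofReal ((pmin P h (Function.update x e s) - pmin P h (Function.update x e u)) ^ 2)
        ≤ ENNReal.ofReal (u ^ 2) * W e (Function.update x e s) +
          ENNReal.ofReal (s ^ 2) * W e (Function.update x e u) := by
      intro s u hs hu
      rcases pmin_update P h e x with ⟨C, hC⟩ | ⟨⟨B, hB⟩, hE⟩ | ⟨A, B, hAB, hE⟩
      · simp [hC]
      · simp only [hB, hW, if_pos (hE _), mul_one]
        rw [← ENNReal.ofReal_add (sq_nonneg _) (sq_nonneg _)]
        apply ENNReal.ofReal_le_ofReal
        nlinarith [mul_nonneg hs hu]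
      · simp only [hAB]
        -- symmetric argument
        have aux : ∀ s u : ℝ, 0 ≤ s → s ≤ u →
            ENNReal.ofReal ((min A (B + s) - min A (B + u)) ^ 2) ≤
              ENNReal.ofReal (u ^ 2) * W e (Function.update x e s) := by
          intro s u hs hsu
          by_cases hA : B + s < A
          · simp only [hW, if_pos (hE s hA), mul_one]
            apply ENNReal.ofReal_le_ofReal
            rw [min_eq_right hA.le]
            rcases le_total A (B + u) with h' | h'
            · rw [min_eq_left h']; nlinarith
            · rw [min_eq_right h']; nlinarith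
          · rw [min_eq_left (not_lt.1 hA), min_eq_left ((not_lt.1 hA).trans (by linarith))]
            simp
        rcases le_total s u with hsu | hsu
        · exact (aux s u hs hsu).trans le_self_add
        · have := aux u s hu hsu
          rw [show (min A (B + s) - min A (B + u)) ^ 2 = (min A (B + u) - min A (B + s)) ^ 2 by
            ring]
          exact this.trans le_add_self
    calc dvar G (fun u => pmin P h (Function.update x e u))
        ≤ ∫⁻ s, ∫⁻ u, (ENNReal.ofReal (u ^ 2) * W e (Function.update x e s) +
          ENNReal.ofReal (s ^ 2) * W e (Function.update x e u)) ∂G ∂G := by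
          unfold dvar
          apply lintegral_mono_ae
          filter_upwards [hG] with s hs
          apply lintegral_mono_ae
          filter_upwards [hG] with u hu
          exact hpt s u hs hu
      _ = ∫⁻ s, (m2 * W e (Function.update x e s) +
          ENNReal.ofReal (s ^ 2) * ∫⁻ u, W e (Function.update x e u) ∂G) ∂G := by
          apply lintegral_congr
          intro s
          rw [lintegral_add_left (hsq.mul_const _), lintegral_mul_const _ hsq,
            lintegral_const_mul _ hWmx]
      _ = _ := by
          rw [lintegral_add_left (hWmx.const_mul _), lintegral_const_mul _ hWmx,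
            lintegral_mul_const _ hsq]
          ring
  have hinfl : ∀ e, infl μ G (pmin P h) e ≤ (2 * m2) * ∫⁻ x, W e x ∂μ := by
    intro e
    rw [infl_eq G e hm, lintegral_update G e (hWm e), ← lintegral_const_mul]
    · exact lintegral_mono fun x => hone e x
    · apply Measurable.lintegral_prod_right'
        (f := fun z : (I → ℝ) × ℝ => W e (Function.update z.1 e z.2))
      exact (hWm e).comp measurable_update'
  calc ∑ e ∈ S, infl μ G (pmin P h) e
      ≤ ∑ e ∈ S, (2 * m2) * ∫⁻ x, W e x ∂μ := Finset.sum_le_sum fun e _ => hinfl e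
    _ = (2 * m2) * ∫⁻ x, ∑ e ∈ S, W e x ∂μ := by
        rw [← Finset.mul_sum, lintegral_finsetSum _ (fun e _ => hWm e)]
    _ = _ := by
        congr 1
        apply lintegral_congr
        intro x
        simp only [hW]
        rw [Finset.sum_ite]
        simp




end Crest.Agent.R151.V
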