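import Crest.Agent.R151.K5
import Crest.Agent.R151.V6
import Crest.Agent.R151.A565a
import Crest.Agent.R151.G338a
import Crest.Agent.R151.K6
import Crest.Agent.R151.V3
import Crest.Agent.R151.K4a
import Crest.Agent.R151.C710c
import Crest.Agent.R151.C710k
import Crest.Agent.R151.M192a
import Crest.Agent.R151.Q5b

-- ▼ part R151/G338c
section

/-!
# R151 (S0214 part 2), module C2, deterministic part: lanes (helper338)

`Lane f c0 w` is the set of lattice points `z` with `|f z - c0| ≤ w / 2`.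
* `exists_stair`: two points of a lane are joined inside the lane by a walk of length `n1 (y - x)`.
* `pR_split`: `T_L(x,y) ≥ T_L(x,p) + T_L(p,y) - 2 S_col` for `p` on a column between `x` and `y`.
-/

set_option autoImplicit false

open MeasureTheory Filter ProbabilityTheory
open Crest.ProbabilityR.FirstPassage

namespace Crest.Agent.R151.G338

open Crest.Agent.R151.K

/-- The lane: lattice points `z` with `|f z - c0| ≤ w / 2`. -/
def Lane (f : ℝ × ℝ →L[ℝ] ℝ) (c0 w : ℝ) : Set (ℤ × ℤ) := {z | |f (toR z) - c0| ≤ w / 2}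

lemma mem_Lane {f : ℝ × ℝ →L[ℝ] ℝ} {c0 w : ℝ} {z : ℤ × ℤ} :
    z ∈ Lane f c0 w ↔ |f (toR z) - c0| ≤ w / 2 := Iff.rfl

lemma f_toR (f : ℝ × ℝ →L[ℝ] ℝ) (z : ℤ × ℤ) :
    f (toR z) = z.1 * f (1, 0) + z.2 * f (0, 1) := by
  have : toR z = (z.1 : ℝ) • ((1 : ℝ), (0 : ℝ)) + (z.2 : ℝ) • ((0 : ℝ), (1 : ℝ)) := by
    simp [toR]
  rw [this, map_add, map_smul, map_smul]
  simp

lemma pick {h t a1 a2 : ℝ} {P Q : ℕ} (h1 : |a1| ≤ h) (h2 : |a2| ≤ h) (ht : |t| ≤ h)
    (hS : |t + P * a1 + Q * a2| ≤ h) (hPQ : 0 < P + Q) :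
    (0 < P ∧ |t + a1| ≤ h) ∨ (0 < Q ∧ |t + a2| ≤ h) := by
  rw [abs_le, abs_le]
  rw [abs_le] at h1 h2 ht hS
  rcases Nat.eq_zero_or_pos P with hP | hP
  · subst hP
    have hQ : 0 < Q := by omega
    right
    refine ⟨hQ, ?_⟩
    have hQ1 : (1 : ℝ) ≤ Q := by exact_mod_cast hQ
    simp only [CharP.cast_eq_zero, zero_mul, add_zero] at hS
    rcases le_total 0 a2 with ha | ha
    · have : a2 ≤ Q * a2 := by nlinarith
      constructor <;> linarith [hS.1, hS.2, ht.1, ht.2]
    · have : Q * a2 ≤ a2 := by nlinarith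
      constructor <;> linarith [hS.1, hS.2, ht.1, ht.2]
  rcases Nat.eq_zero_or_pos Q with hQ | hQ
  · subst hQ
    left
    refine ⟨hP, ?_⟩
    have hP1 : (1 : ℝ) ≤ P := by exact_mod_cast hP
    simp only [CharP.cast_eq_zero, zero_mul, add_zero] at hS
    rcases le_total 0 a1 with ha | ha
    · have : a1 ≤ P * a1 := by nlinarith
      constructor <;> linarith [hS.1, hS.2, ht.1, ht.2]
    · have : P * a1 ≤ a1 := by nlinarith
      constructor <;> linarith [hS.1, hS.2, ht.1, ht.2]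
  have hP1 : (1 : ℝ) ≤ P := by exact_mod_cast hP
  have hQ1 : (1 : ℝ) ≤ Q := by exact_mod_cast hQ
  rcases le_total t 0 with ht0 | ht0
  · rcases le_total 0 a1 with ha | ha
    · left; exact ⟨hP, by constructor <;> linarith [h1.2, ht.1]⟩
    · rcases le_total 0 a2 with ha2 | ha2
      · right; exact ⟨hQ, by constructor <;> linarith [h2.2, ht.1]⟩
      · left
        have e1 : P * a1 ≤ a1 := by nlinarith
        have e2 : Q * a2 ≤ 0 := by nlinarith
        exact ⟨hP, by constructor <;> linarith [hS.1, ht.1, ht.2]⟩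
  · rcases le_total a1 0 with ha | ha
    · left; exact ⟨hP, by constructor <;> linarith [h1.1, ht.2]⟩
    · rcases le_total a2 0 with ha2 | ha2
      · right; exact ⟨hQ, by constructor <;> linarith [h2.1, ht.2]⟩
      · left
        have e1 : a1 ≤ P * a1 := by nlinarith
        have e2 : 0 ≤ Q * a2 := by nlinarith
        exact ⟨hP, by constructor <;> linarith [hS.2, ht.1, ht.2]⟩



lemma exists_sign (a : ℤ) : ∃ σ : ℤ, (σ = 1 ∨ σ = -1) ∧ (a.natAbs : ℤ) * σ = a := by
  rcases le_total 0 a with h0 | h0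
  · exact ⟨1, Or.inl rfl, by omega⟩
  · exact ⟨-1, Or.inr rfl, by omega⟩

lemma adj_step1 (x : ℤ × ℤ) {σ : ℤ} (hσ : σ = 1 ∨ σ = -1) :
    squareLattice.Adj x (x.1 + σ, x.2) := by
  rcases hσ with rfl | rfl
  · exact adj_right x.1 x.2
  · have := (adj_right (x.1 + -1) x.2).symm
    simpa using this

lemma adj_step2 (x : ℤ × ℤ) {σ : ℤ} (hσ : σ = 1 ∨ σ = -1) :
    squareLattice.Adj x (x.1, x.2 + σ) := by
  rcases hσ with rfl | rfl
  · exact adj_up x.1 x.2
  · have := (adj_up x.1 (x.2 + -1)).symm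
    simpa using this

variable {f : ℝ × ℝ →L[ℝ] ℝ} {c0 w : ℝ}

/-- Two points of a lane are joined by a monotone staircase inside the lane. -/
theorem exists_stair (h1 : |f (1, 0)| ≤ w / 2) (h2 : |f (0, 1)| ≤ w / 2) {x y : ℤ × ℤ}
    (hx : x ∈ Lane f c0 w) (hy : y ∈ Lane f c0 w) :
    ∃ p : squareLattice.Walk x y, p.length = n1 (y - x) ∧ ∀ z ∈ p.support, z ∈ Lane f c0 w := by
  have key : ∀ n : ℕ, ∀ x : ℤ × ℤ, n1 (y - x) = n → x ∈ Lane f c0 w →
      ∃ p : squareLattice.Walk x y, p.length = n1 (y - x) ∧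
        ∀ z ∈ p.support, z ∈ Lane f c0 w := by
    intro n
    induction n with
    | zero =>
      intro x hn hx
      have : y = x := by
        simp only [n1, Prod.fst_sub, Prod.snd_sub] at hn
        apply Prod.ext <;> omega
      subst this
      exact ⟨SimpleGraph.Walk.nil, by simp [n1], by simpa using hx⟩
    | succ n ih =>
      intro x hn hx
      set P := (y.1 - x.1).natAbs with hP
      set Q := (y.2 - x.2).natAbs with hQ
      have hn' : P + Q = n + 1 := by
        simpa only [n1, Prod.fst_sub, Prod.snd_sub] using hn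
      obtain ⟨σ, hσ, hσP⟩ := exists_sign (y.1 - x.1)
      obtain ⟨τ, hτ, hτQ⟩ := exists_sign (y.2 - x.2)
      have hσa : |(σ : ℝ)| = 1 := by rcases hσ with rfl | rfl <;> norm_num
      have hτa : |(τ : ℝ)| = 1 := by rcases hτ with rfl | rfl <;> norm_num
      have hx' := hx
      have hy' := hy
      rw [mem_Lane, f_toR] at hx' hy'
      have hσR : (P : ℝ) * σ = (y.1 : ℝ) - x.1 := by
        have : ((P : ℤ) * σ : ℤ) = y.1 - x.1 := hσP
        exact_mod_cast this
      have hτR : (Q : ℝ) * τ = (y.2 : ℝ) - x.2 := by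
        have : ((Q : ℤ) * τ : ℤ) = y.2 - x.2 := hτQ
        exact_mod_cast this
      have hpick := pick (h := w / 2) (t := x.1 * f (1, 0) + x.2 * f (0, 1) - c0)
        (a1 := σ * f (1, 0)) (a2 := τ * f (0, 1)) (P := P) (Q := Q)
        (by rw [abs_mul, hσa, one_mul]; exact h1) (by rw [abs_mul, hτa, one_mul]; exact h2) hx'
        (by
          have : x.1 * f (1, 0) + x.2 * f (0, 1) - c0 + P * (σ * f (1, 0)) + Q * (τ * f (0, 1))
              = y.1 * f (1, 0) + y.2 * f (0, 1) - c0 := by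
            have e1 : (P : ℝ) * (σ * f (1, 0)) = ((y.1 : ℝ) - x.1) * f (1, 0) := by
              rw [← hσR]; ring
            have e2 : (Q : ℝ) * (τ * f (0, 1)) = ((y.2 : ℝ) - x.2) * f (0, 1) := by
              rw [← hτR]; ring
            rw [e1, e2]; ring
          rw [this]; exact hy')
        (by omega)
      rcases hpick with ⟨hPpos, hm⟩ | ⟨hQpos, hm⟩
      · set x' : ℤ × ℤ := (x.1 + σ, x.2) with hx'def
        have hmem : x' ∈ Lane f c0 w := by
          rw [mem_Lane, f_toR]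
          refine le_trans (le_of_eq ?_) hm
          simp only [hx'def]; push_cast; ring_nf
        have hn1 : n1 (y - x') = n := by
          simp only [n1, Prod.fst_sub, Prod.snd_sub, hx'def]
          rcases hσ with rfl | rfl <;> omega
        obtain ⟨p, hp, hps⟩ := ih x' hn1 hmem
        refine ⟨SimpleGraph.Walk.cons (adj_step1 x hσ) p, ?_, ?_⟩
        · rw [SimpleGraph.Walk.length_cons, hp, hn1, hn]
        · intro z hz
          rw [SimpleGraph.Walk.support_cons, List.mem_cons] at hz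
          rcases hz with rfl | hz
          · exact hx
          · exact hps z hz
      · set x' : ℤ × ℤ := (x.1, x.2 + τ) with hx'def
        have hmem : x' ∈ Lane f c0 w := by
          rw [mem_Lane, f_toR]
          refine le_trans (le_of_eq ?_) hm
          simp only [hx'def]; push_cast; ring_nf
        have hn1 : n1 (y - x') = n := by
          simp only [n1, Prod.fst_sub, Prod.snd_sub, hx'def]
          rcases hτ with rfl | rfl <;> omega
        obtain ⟨p, hp, hps⟩ := ih x' hn1 hmem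
        refine ⟨SimpleGraph.Walk.cons (adj_step2 x hτ) p, ?_, ?_⟩
        · rw [SimpleGraph.Walk.length_cons, hp, hn1, hn]
        · intro z hz
          rw [SimpleGraph.Walk.support_cons, List.mem_cons] at hz
          rcases hz with rfl | hz
          · exact hx
          · exact hps z hz
  exact key _ x rfl hx

lemma conn_Lane (h1 : |f (1, 0)| ≤ w / 2) (h2 : |f (0, 1)| ≤ w / 2) {x y : ℤ × ℤ}
    (hx : x ∈ Lane f c0 w) (hy : y ∈ Lane f c0 w) : Conn (Lane f c0 w) x y := by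
  obtain ⟨p, -, hp⟩ := exists_stair h1 h2 hx hy
  exact ⟨p, hp⟩

/-! ### Columns -/

/-- The ordinates of the lane on the column `c`. -/
noncomputable def colF (f : ℝ × ℝ →L[ℝ] ℝ) (c0 w : ℝ) (c : ℤ) : Finset ℤ :=
  Finset.Icc ⌈(c0 - c * f (1, 0)) / f (0, 1) - w / 2 / |f (0, 1)|⌉
    ⌊(c0 - c * f (1, 0)) / f (0, 1) + w / 2 / |f (0, 1)|⌋

lemma mem_colF (h0 : f (0, 1) ≠ 0) {c j : ℤ} : j ∈ colF f c0 w c ↔ (c, j) ∈ Lane f c0 w := by
  have hpos : 0 < |f (0, 1)| := abs_pos.2 h0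
  rw [colF, Finset.mem_Icc, Int.ceil_le, Int.le_floor, mem_Lane, f_toR]
  have e : (c : ℝ) * f (1, 0) + j * f (0, 1) - c0
      = f (0, 1) * (j - (c0 - c * f (1, 0)) / f (0, 1)) := by
    field_simp
    ring
  simp only
  rw [e, abs_mul, mul_comm |f (0, 1)| _, ← le_div_iff₀ hpos, abs_le]
  constructor
  · rintro ⟨h1, h2⟩; constructor <;> linarith
  · rintro ⟨h1, h2⟩; constructor <;> linarith

lemma card_colF_le (hw : 0 ≤ w) (c : ℤ) : ((colF f c0 w c).card : ℝ) ≤ w / |f (0, 1)| + 1 := by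
  rw [colF, Int.card_Icc]
  set A := (c0 - c * f (1, 0)) / f (0, 1) with hA
  set B := w / 2 / |f (0, 1)| with hB
  have hB0 : 0 ≤ B := by positivity
  have e : w / |f (0, 1)| = 2 * B := by rw [hB]; ring
  rw [e]
  have h1 : A - B ≤ ⌈A - B⌉ := Int.le_ceil _
  have h2 : (⌊A + B⌋ : ℝ) ≤ A + B := Int.floor_le _
  rcases le_total 0 (⌊A + B⌋ + 1 - ⌈A - B⌉) with h | h
  · have : ((⌊A + B⌋ + 1 - ⌈A - B⌉).toNat : ℝ) = (⌊A + B⌋ : ℝ) + 1 - ⌈A - B⌉ := by
      have : (((⌊A + B⌋ + 1 - ⌈A - B⌉).toNat : ℤ) : ℝ) = ((⌊A + B⌋ + 1 - ⌈A - B⌉ : ℤ) : ℝ) := by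
        rw [Int.toNat_of_nonneg h]
      push_cast at this
      exact_mod_cast this
    rw [this]; linarith
  · rw [Int.toNat_of_nonpos h]
    simp only [CharP.cast_eq_zero]; linarith

lemma exists_mem_col (h0 : f (0, 1) ≠ 0) (h2 : |f (0, 1)| ≤ w / 2) (c : ℤ) :
    ∃ j : ℤ, (c, j) ∈ Lane f c0 w := by
  refine ⟨round ((c0 - c * f (1, 0)) / f (0, 1)), ?_⟩
  rw [mem_Lane, f_toR]
  simp only
  set A := (c0 - c * f (1, 0)) / f (0, 1) with hA
  have e : (c : ℝ) * f (1, 0) + (round A : ℝ) * f (0, 1) - c0 = f (0, 1) * (round A - A) := by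
    rw [hA]
    field_simp
    ring
  rw [e, abs_mul]
  have := abs_sub_round A
  rw [abs_sub_comm] at this
  have hpos : 0 < |f (0, 1)| := abs_pos.2 h0
  nlinarith

/-- The total weight of the vertical edges above the points of the lane on the column `c`. -/
noncomputable def colSum (t : Environment) (f : ℝ × ℝ →L[ℝ] ℝ) (c0 w : ℝ) (c : ℤ) : ℝ :=
  ∑ j ∈ colF f c0 w c, t (eV c j)

variable {t : Environment}


lemma pR_col_le_of_le (ht : Nn t) (h0 : f (0, 1) ≠ 0) {c i j : ℤ} (hij : i ≤ j)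
    (hi : (c, i) ∈ Lane f c0 w) (hj : (c, j) ∈ Lane f c0 w) :
    pR t (Lane f c0 w) (c, i) (c, j) ≤ colSum t f c0 w c := by
  obtain ⟨n, rfl⟩ := Int.le.dest hij
  have hmem : ∀ k : ℕ, k ≤ n → (c, i + (k : ℤ)) ∈ Lane f c0 w := by
    intro k hk
    rw [← mem_colF h0] at hi hj ⊢
    rw [colF, Finset.mem_Icc] at hi hj ⊢
    constructor
    · linarith [hi.1, (by positivity : (0 : ℤ) ≤ k)]
    · have : (k : ℤ) ≤ n := by exact_mod_cast hk
      linarith [hj.2]
  refine ((conn_col c i n hmem).2 t ht).trans ?_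
  rw [colSum]
  have : ∑ k ∈ Finset.range n, t (eV c (i + k)) =
      ∑ j ∈ (Finset.range n).image (fun k : ℕ => i + (k : ℤ)), t (eV c j) := by
    rw [Finset.sum_image]
    intro a _ b _ hab
    simp only at hab
    omega
  rw [this]
  refine Finset.sum_le_sum_of_subset_of_nonneg ?_ fun _ _ _ => ht _
  intro j hj'
  rw [Finset.mem_image] at hj'
  obtain ⟨k, hk, rfl⟩ := hj'
  rw [mem_colF h0]
  exact hmem k (Finset.mem_range.1 hk).le

lemma pR_col_le (ht : Nn t) (h0 : f (0, 1) ≠ 0) {p q : ℤ × ℤ} (hpq : p.1 = q.1)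
    (hp : p ∈ Lane f c0 w) (hq : q ∈ Lane f c0 w) :
    pR t (Lane f c0 w) p q ≤ colSum t f c0 w p.1 := by
  obtain ⟨c, i⟩ := p
  obtain ⟨c', j⟩ := q
  simp only at hpq
  subst hpq
  rcases le_total i j with h | h
  · exact pR_col_le_of_le ht h0 h hp hq
  · rw [pR_symm ht]
    exact pR_col_le_of_le ht h0 h hq hp

/-- discrete intermediate values for the first coordinate along a walk -/
lemma exists_mem_support_fst {x y : ℤ × ℤ} (g : squareLattice.Walk x y) {c : ℤ} (hx : x.1 ≤ c)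
    (hy : c ≤ y.1) : ∃ z ∈ g.support, z.1 = c := by
  induction g with
  | nil => exact ⟨_, by simp, le_antisymm hx hy⟩
  | @cons u v w' h p ih =>
    rcases hx.lt_or_eq with hlt | heq
    · have hv : v.1 ≤ c := by
        obtain ⟨d, rfl⟩ := exists_dir h
        fin_cases d <;> simp [dir] at * <;> omega
      obtain ⟨z, hz, hzc⟩ := ih hv hy
      exact ⟨z, by rw [SimpleGraph.Walk.support_cons]; exact List.mem_cons_of_mem _ hz, hzc⟩
    · exact ⟨u, by simp, heq⟩

/-- splitting at a column -/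
theorem pR_split (ht : Nn t) (h0 : f (0, 1) ≠ 0) (h1 : |f (1, 0)| ≤ w / 2)
    (h2 : |f (0, 1)| ≤ w / 2) {x y p : ℤ × ℤ} (hx : x ∈ Lane f c0 w) (hy : y ∈ Lane f c0 w)
    (hp : p ∈ Lane f c0 w) (hxp : x.1 ≤ p.1) (hpy : p.1 ≤ y.1) :
    pR t (Lane f c0 w) x p + pR t (Lane f c0 w) p y - 2 * colSum t f c0 w p.1
      ≤ pR t (Lane f c0 w) x y := by
  refine le_pR (conn_Lane h1 h2 hx hy) fun g hg => ?_
  obtain ⟨z, hz, hzc⟩ := exists_mem_support_fst g hxp hpy
  have hzL := hg z hz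
  have hcost : walkCost t (g.takeUntil z hz) + walkCost t (g.dropUntil z hz) = walkCost t g := by
    rw [← walkCost_append, SimpleGraph.Walk.take_spec]
  have ha : pR t (Lane f c0 w) x z ≤ walkCost t (g.takeUntil z hz) :=
    pR_le ht _ fun u hu => hg u (SimpleGraph.Walk.support_takeUntil_subset_support g hz hu)
  have hb : pR t (Lane f c0 w) z y ≤ walkCost t (g.dropUntil z hz) :=
    pR_le ht _ fun u hu => hg u (SimpleGraph.Walk.support_dropUntil_subset_support g hz hu)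
  have hc1 : pR t (Lane f c0 w) z p ≤ colSum t f c0 w p.1 := by
    have := pR_col_le ht h0 (p := p) (q := z) hzc.symm hp hzL
    rwa [pR_symm ht] at this
  have hc2 : pR t (Lane f c0 w) p z ≤ colSum t f c0 w p.1 :=
    pR_col_le ht h0 (p := p) (q := z) hzc.symm hp hzL
  have h3 := pR_triangle ht (conn_Lane h1 h2 hx hzL) (conn_Lane h1 h2 hzL hp)
  have h4 := pR_triangle ht (conn_Lane h1 h2 hp hzL) (conn_Lane h1 h2 hzL hy)
  linarith

end Crest.Agent.R151.G338
end

-- ▼ part R151/G338d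
section

/-!
# R151 (S0214 part 2), module C2: lower bound for the mean excess of a lane (helper338)

`lane_lower`: for Gamma weights, `E T_L(x,y) ≥ μ(y - x) + (c / w^2) n1(y - x) - C w` for every lane
`L` of width `w ≥ w0`.
-/

set_option autoImplicit false

open MeasureTheory Filter ProbabilityTheory
open Crest.ProbabilityR.FirstPassage

namespace Crest.Agent.R151.G338

open Crest.Agent.R151.K

section mean

variable {G : Measure ℝ} [IsProbabilityMeasure G]

lemma integrable_edge (h2 : Integrable (fun x : ℝ => x ^ 2) G) (e : Sym2 (ℤ × ℤ)) :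
    Integrable (fun t : Environment => t e) (iidLaw G) :=
  (mp_eval (G := G) e).integrable_comp_of_integrable (g := fun x : ℝ => x)
    (integrable_id_of_sq h2)

lemma integral_edge (e : Sym2 (ℤ × ℤ)) :
    ∫ t : Environment, t e ∂(iidLaw G) = ∫ z, z ∂G := by
  have h := integral_map (μ := iidLaw G) (φ := fun t : Environment => t e)
    (mp_eval (G := G) e).measurable.aemeasurable (f := fun x : ℝ => x)
    (by fun_prop)
  rw [(mp_eval (G := G) e).map_eq] at h
  exact h.symm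

lemma integral_list (h2 : Integrable (fun x : ℝ => x ^ 2) G) (l : List (Sym2 (ℤ × ℤ))) :
    Integrable (fun t : Environment => (l.map t).sum) (iidLaw G) ∧
      ∫ t : Environment, (l.map t).sum ∂(iidLaw G) = l.length * ∫ z, z ∂G := by
  induction l with
  | nil => simp
  | cons e l ih =>
    obtain ⟨ih1, ih2⟩ := ih
    simp only [List.map_cons, List.sum_cons, List.length_cons]
    refine ⟨(integrable_edge h2 e).add ih1, ?_⟩
    rw [integral_add (integrable_edge h2 e) ih1, ih2, integral_edge]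
    push_cast
    ring

variable {f : ℝ × ℝ →L[ℝ] ℝ} {c0 w : ℝ}

/-- restricted passage times of a lane are integrable, mean at most linear -/
theorem integrable_Lane (h0 : G (Set.Iio 0) = 0) (h2 : Integrable (fun x : ℝ => x ^ 2) G)
    (hf1 : |f (1, 0)| ≤ w / 2) (hf2 : |f (0, 1)| ≤ w / 2) {x y : ℤ × ℤ}
    (hx : x ∈ Lane f c0 w) (hy : y ∈ Lane f c0 w) :
    Integrable (fun t => pR t (Lane f c0 w) x y) (iidLaw G) ∧
      ∫ t, pR t (Lane f c0 w) x y ∂(iidLaw G) ≤ n1 (y - x) * ∫ z, z ∂G := by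
  obtain ⟨p, hp, hps⟩ := exists_stair hf1 hf2 hx hy
  obtain ⟨i1, i2⟩ := integral_list h2 p.edges
  have hle : ∀ᵐ t ∂(iidLaw G), pR t (Lane f c0 w) x y ≤ (p.edges.map t).sum := by
    filter_upwards [ae_Nn h0] with t ht
    exact pR_le ht p hps
  have hnn : ∀ᵐ t ∂(iidLaw G), 0 ≤ pR t (Lane f c0 w) x y := by
    filter_upwards [ae_Nn h0] with t ht
    exact pR_nonneg ht _ _ _
  have hint : Integrable (fun t => pR t (Lane f c0 w) x y) (iidLaw G) := by
    refine i1.mono' (measurable_pR _ _ _).aestronglyMeasurable ?_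
    filter_upwards [hle, hnn] with t h1 h3
    rw [Real.norm_eq_abs, abs_of_nonneg h3]
    exact h1
  refine ⟨hint, ?_⟩
  calc _ ≤ ∫ t : Environment, (p.edges.map t).sum ∂(iidLaw G) := integral_mono_ae hint i1 hle
    _ = _ := by rw [i2, SimpleGraph.Walk.length_edges, hp]

lemma integral_id_nonneg (h0 : G (Set.Iio 0) = 0) : 0 ≤ ∫ z, z ∂G :=
  integral_nonneg_of_ae (ae_nonneg h0)

lemma integrable_colSum (h2 : Integrable (fun x : ℝ => x ^ 2) G) (c : ℤ) :
    Integrable (fun t => colSum t f c0 w c) (iidLaw G) := by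
  unfold colSum
  exact integrable_finsetSum _ fun j _ => integrable_edge h2 _

lemma integral_colSum_le (h0 : G (Set.Iio 0) = 0) (h2 : Integrable (fun x : ℝ => x ^ 2) G)
    (hw : 0 ≤ w) (c : ℤ) :
    ∫ t, colSum t f c0 w c ∂(iidLaw G) ≤ (w / |f (0, 1)| + 1) * ∫ z, z ∂G := by
  unfold colSum
  rw [integral_finsetSum _ fun j _ => integrable_edge h2 _]
  simp only [integral_edge, Finset.sum_const, nsmul_eq_mul]
  exact mul_le_mul_of_nonneg_right (card_colF_le hw c) (integral_id_nonneg h0)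

/-- mean excess (over the time constant) of a lane -/
noncomputable def laneExc (G : Measure ℝ) (μ : ℝ × ℝ → ℝ) (f : ℝ × ℝ →L[ℝ] ℝ) (c0 w : ℝ)
    (x y : ℤ × ℤ) : ℝ :=
  ∫ t, pR t (Lane f c0 w) x y ∂(iidLaw G) - μ (toR (y - x))

variable {μ : ℝ × ℝ → ℝ}

lemma integral_pt_ge (h0 : G (Set.Iio 0) = 0) (h2 : Integrable (fun x : ℝ => x ^ 2) G)
    (hμ : IsTC G μ) (x y : ℤ × ℤ) :
    μ (toR (y - x)) ≤ ∫ t, passageTime t x y ∂(iidLaw G) := by
  rw [integral_pt]
  exact mu_le_ET h0 h2 hμ _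

lemma laneExc_nonneg (h0 : G (Set.Iio 0) = 0) (h2 : Integrable (fun x : ℝ => x ^ 2) G)
    (hμ : IsTC G μ) (hf1 : |f (1, 0)| ≤ w / 2) (hf2 : |f (0, 1)| ≤ w / 2) {x y : ℤ × ℤ}
    (hx : x ∈ Lane f c0 w) (hy : y ∈ Lane f c0 w) : 0 ≤ laneExc G μ f c0 w x y := by
  have h3 : ∫ t, passageTime t x y ∂(iidLaw G) ≤ ∫ t, pR t (Lane f c0 w) x y ∂(iidLaw G) := by
    refine integral_mono_ae (integrable_pt h0 h2 x y) (integrable_Lane h0 h2 hf1 hf2 hx hy).1 ?_
    filter_upwards [ae_Nn h0] with t ht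
    exact pt_le_pR ht (conn_Lane hf1 hf2 hx hy)
  have := integral_pt_ge h0 h2 hμ x y
  unfold laneExc
  linarith

lemma laneExc_symm (h0 : G (Set.Iio 0) = 0) (h2 : Integrable (fun x : ℝ => x ^ 2) G)
    (hμ : IsTC G μ) (x y : ℤ × ℤ) : laneExc G μ f c0 w x y = laneExc G μ f c0 w y x := by
  unfold laneExc
  congr 1
  · apply integral_congr_ae
    filter_upwards [ae_Nn h0] with t ht
    exact pR_symm ht _ _ _
  · have : toR (y - x) = - toR (x - y) := by
      simp [toR]
    rw [this, mu_neg h0 h2 hμ]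

/-- superadditivity at a column, up to `2 E (column sum)` -/
lemma laneExc_split (h0 : G (Set.Iio 0) = 0) (h2 : Integrable (fun x : ℝ => x ^ 2) G)
    (hμ : IsTC G μ) (hf : f (0, 1) ≠ 0) (hw : 0 ≤ w)
    (hf1 : |f (1, 0)| ≤ w / 2) (hf2 : |f (0, 1)| ≤ w / 2) {x y p : ℤ × ℤ}
    (hx : x ∈ Lane f c0 w) (hy : y ∈ Lane f c0 w) (hp : p ∈ Lane f c0 w)
    (hxp : x.1 ≤ p.1) (hpy : p.1 ≤ y.1) :
    laneExc G μ f c0 w x p + laneExc G μ f c0 w p y
      - 2 * ((w / |f (0, 1)| + 1) * ∫ z, z ∂G) ≤ laneExc G μ f c0 w x y := by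
  have i1 := (integrable_Lane h0 h2 hf1 hf2 hx hp).1
  have i2 := (integrable_Lane h0 h2 hf1 hf2 hp hy).1
  have i3 := (integrable_Lane h0 h2 hf1 hf2 hx hy).1
  have i4 : Integrable (fun t => colSum t f c0 w p.1) (iidLaw G) := integrable_colSum h2 p.1
  have h4 := integral_colSum_le (f := f) (c0 := c0) h0 h2 hw p.1
  have hmono : ∫ t, (pR t (Lane f c0 w) x p + pR t (Lane f c0 w) p y
      - 2 * colSum t f c0 w p.1) ∂(iidLaw G) ≤ ∫ t, pR t (Lane f c0 w) x y ∂(iidLaw G) := by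
    refine integral_mono_ae ((i1.add i2).sub (i4.const_mul 2)) i3 ?_
    filter_upwards [ae_Nn h0] with t ht
    exact pR_split ht hf hf1 hf2 hx hy hp hxp hpy
  have e : ∫ t, (pR t (Lane f c0 w) x p + pR t (Lane f c0 w) p y
      - 2 * colSum t f c0 w p.1) ∂(iidLaw G) = ∫ t, pR t (Lane f c0 w) x p ∂(iidLaw G) +
      ∫ t, pR t (Lane f c0 w) p y ∂(iidLaw G) - 2 * ∫ t, colSum t f c0 w p.1 ∂(iidLaw G) := by
    rw [integral_sub (f := fun t => pR t (Lane f c0 w) x p + pR t (Lane f c0 w) p y)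
      (i1.add i2) (i4.const_mul 2), integral_add i1 i2, integral_const_mul]
  have hμa : μ (toR (y - x)) ≤ μ (toR (p - x)) + μ (toR (y - p)) := by
    have : toR (y - x) = toR (p - x) + toR (y - p) := by
      simp [toR]
    rw [this]
    exact mu_add_le h0 h2 hμ _ _
  unfold laneExc
  rw [e] at hmono
  linarith

/-! ### two parallel lanes -/

lemma Lane_translate (v z : ℤ × ℤ) :
    z + v ∈ Lane f (c0 + f (toR v)) w ↔ z ∈ Lane f c0 w := by
  rw [mem_Lane, mem_Lane, toR_add, map_add]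
  ring_nf

lemma preimage_Lane (v : ℤ × ℤ) :
    (fun u => u + v) ⁻¹' Lane f (c0 + f (toR v)) w = Lane f c0 w := by
  ext z
  exact Lane_translate v z

lemma pR_translate (t : Environment) (v x y : ℤ × ℤ) :
    pR (act (tr v) t) (Lane f c0 w) x y = pR t (Lane f (c0 + f (toR v)) w) (x + v) (y + v) := by
  have := pR_tr t v (Lane f (c0 + f (toR v)) w) x y
  rw [preimage_Lane] at this
  exact this

lemma dependsOn_pR (R : Set (ℤ × ℤ)) (x y : ℤ × ℤ) :
    DependsOn (fun t : Environment => pR t R x y) (edgesIn R) := by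
  intro t t' h
  refine pR_congr (fun a ha b hb => ?_) x y
  exact h _ (mem_edgesIn.2 ⟨ha, hb⟩)

lemma edgesIn_disjoint {R R' : Set (ℤ × ℤ)} (h : Disjoint R R') :
    Disjoint (edgesIn R) (edgesIn R') := by
  rw [Set.disjoint_left] at h ⊢
  intro e he he'
  induction e with
  | _ a b => exact h (he a (Sym2.mem_mk_left a b)) (he' a (Sym2.mem_mk_left a b))

lemma indepFun_pR {R R' : Set (ℤ × ℤ)} (h : Disjoint R R') (x y x' y' : ℤ × ℤ) :
    IndepFun (fun t : Environment => pR t R x y) (fun t : Environment => pR t R' x' y')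
      (iidLaw G) :=
  Crest.Agent.R151.A.indepFun_of_dependsOn G (measurable_pR _ _ _) (measurable_pR _ _ _)
    (dependsOn_pR R x y) (dependsOn_pR R' x' y') (edgesIn_disjoint h)

lemma Lane_disjoint {v : ℤ × ℤ} (hv : w < |f (toR v)|) :
    Disjoint (Lane f c0 w) (Lane f (c0 + f (toR v)) w) := by
  rw [Set.disjoint_left]
  intro z hz hz'
  rw [mem_Lane] at hz hz'
  have : |f (toR v)| ≤ |f (toR z) - c0| + |f (toR z) - (c0 + f (toR v))| := by
    have h := abs_sub (f (toR z) - c0) (f (toR z) - (c0 + f (toR v)))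
    have e : f (toR z) - c0 - (f (toR z) - (c0 + f (toR v))) = f (toR v) := by ring
    rwa [e] at h
  linarith

/-- mean absolute deviation of the passage time of a lane is controlled by its mean excess:
compare with a parallel disjoint lane. -/
theorem mad_le (h0 : G (Set.Iio 0) = 0) (h2 : Integrable (fun x : ℝ => x ^ 2) G)
    (hμ : IsTC G μ) (hf1 : |f (1, 0)| ≤ w / 2) (hf2 : |f (0, 1)| ≤ w / 2) {x y v : ℤ × ℤ}
    (hx : x ∈ Lane f c0 w) (hy : y ∈ Lane f c0 w) (hv : w < |f (toR v)|) :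
    ∫ t, |pR t (Lane f c0 w) x y - ∫ t', pR t' (Lane f c0 w) x y ∂(iidLaw G)| ∂(iidLaw G)
      ≤ 2 * laneExc G μ f c0 w x y + 4 * (n1 v * ∫ z, z ∂G) := by
  set L := Lane f c0 w with hL
  set L' := Lane f (c0 + f (toR v)) w with hL'
  have hx' : x + v ∈ L' := (Lane_translate v x).2 hx
  have hy' : y + v ∈ L' := (Lane_translate v y).2 hy
  have i1 := (integrable_Lane h0 h2 hf1 hf2 hx hy).1
  have i2 := (integrable_Lane h0 h2 hf1 hf2 hx' hy').1
  rw [← hL] at i1
  rw [← hL'] at i2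
  have e2 : ∫ t, pR t L' (x + v) (y + v) ∂(iidLaw G) = ∫ t, pR t L x y ∂(iidLaw G) := by
    have : (fun t => pR t L' (x + v) (y + v)) = fun t => pR (act (tr v) t) L x y := by
      funext t
      rw [hL, hL', pR_translate]
    rw [this]
    exact integral_pt_iso (G := G) (tr v) (fun t => pR t L x y)
      (measurable_pR _ _ _).aestronglyMeasurable
  have hind := indepFun_pR (G := G) (Lane_disjoint (c0 := c0) hv) x y (x + v) (y + v)
  rw [← hL, ← hL'] at hind
  have hstep := integral_abs_sub_integral_le (μ := iidLaw G) (measurable_pR L x y)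
    (measurable_pR L' (x + v) (y + v)) i1 i2 hind
  rw [e2] at hstep
  refine hstep.trans ?_
  -- pointwise
  have ip := integrable_pt h0 h2 x y
  have ia := integrable_pt h0 h2 x (x + v)
  have ib := integrable_pt h0 h2 (y + v) y
  have hpt : ∀ᵐ t ∂(iidLaw G), |pR t L x y - pR t L' (x + v) (y + v)| ≤
      pR t L x y + pR t L' (x + v) (y + v) - 2 * passageTime t x y
        + 2 * passageTime t x (x + v) + 2 * passageTime t (y + v) y := by
    filter_upwards [ae_Nn h0] with t ht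
    have a1 : passageTime t x y ≤ pR t L x y := pt_le_pR ht (conn_Lane hf1 hf2 hx hy)
    have a2 : passageTime t (x + v) (y + v) ≤ pR t L' (x + v) (y + v) :=
      pt_le_pR ht (conn_Lane hf1 hf2 hx' hy')
    have a3 := pt_triangle ht x (x + v) y
    have a4 := pt_triangle ht (x + v) (y + v) y
    have a5 := pt_nonneg ht x (x + v)
    have a6 := pt_nonneg ht (y + v) y
    rw [abs_le]
    constructor <;> linarith
  have iR : Integrable (fun t => pR t L x y + pR t L' (x + v) (y + v) - 2 * passageTime t x y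
        + 2 * passageTime t x (x + v) + 2 * passageTime t (y + v) y) (iidLaw G) :=
    ((((i1.add i2).sub (ip.const_mul 2)).add (ia.const_mul 2)).add (ib.const_mul 2))
  have hI := integral_mono_ae ((i1.sub i2).abs) iR hpt
  refine hI.trans ?_
  have eI : ∫ t, (pR t L x y + pR t L' (x + v) (y + v) - 2 * passageTime t x y
        + 2 * passageTime t x (x + v) + 2 * passageTime t (y + v) y) ∂(iidLaw G) =
      ∫ t, pR t L x y ∂(iidLaw G) + ∫ t, pR t L x y ∂(iidLaw G)
        - 2 * ∫ t, passageTime t x y ∂(iidLaw G) + 2 * ∫ t, passageTime t x (x + v) ∂(iidLaw G)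
        + 2 * ∫ t, passageTime t (y + v) y ∂(iidLaw G) := by
    rw [integral_add (f := fun t => pR t L x y + pR t L' (x + v) (y + v)
        - 2 * passageTime t x y + 2 * passageTime t x (x + v))
      (((i1.add i2).sub (ip.const_mul 2)).add (ia.const_mul 2)) (ib.const_mul 2),
      integral_add (f := fun t => pR t L x y + pR t L' (x + v) (y + v)
        - 2 * passageTime t x y) ((i1.add i2).sub (ip.const_mul 2)) (ia.const_mul 2),
      integral_sub (f := fun t => pR t L x y + pR t L' (x + v) (y + v)) (i1.add i2)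
        (ip.const_mul 2), integral_add i1 i2, integral_const_mul, integral_const_mul,
      integral_const_mul, e2]
  rw [eI]
  have hlow := integral_pt_ge h0 h2 hμ x y
  have b1 := integral_pt_le h0 h2 x (x + v)
  have b2 := integral_pt_le h0 h2 (y + v) y
  have n1a : n1 (x + v - x) = n1 v := by congr 1; abel
  have n1b : n1 (y - (y + v)) = n1 v := by
    rw [← n1_neg v]; congr 1; abel
  rw [n1a] at b1
  rw [n1b] at b2
  unfold laneExc
  rw [← hL]
  linarith

end mean

end Crest.Agent.R151.G338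
end

-- ▼ part R151/G338e
section

/-!
# R151 (S0214 part 2), module C2: anticoncentration by scaling, and the lower bound (helper338)
-/

set_option autoImplicit false

open MeasureTheory Filter ProbabilityTheory
open Crest.ProbabilityR.FirstPassage

namespace Crest.Agent.R151.G338

open Crest.Agent.R151.K

section det

variable {f : ℝ × ℝ →L[ℝ] ℝ} {c0 w : ℝ}

/-- the vertices of the lane at horizontal distance at most `N` from `x` -/
noncomputable def laneV (f : ℝ × ℝ →L[ℝ] ℝ) (c0 w : ℝ) (x : ℤ × ℤ) (N : ℕ) : Finset (ℤ × ℤ) :=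
  (Finset.Icc (x.1 - N) (x.1 + N)).biUnion fun c =>
    (colF f c0 w c).image fun j => ((c, j) : ℤ × ℤ)

lemma mem_laneV (h0 : f (0, 1) ≠ 0) {x z : ℤ × ℤ} {N : ℕ} :
    z ∈ laneV f c0 w x N ↔ z ∈ Lane f c0 w ∧ |z.1 - x.1| ≤ N := by
  obtain ⟨a, b⟩ := z
  rw [laneV, Finset.mem_biUnion]
  constructor
  · rintro ⟨c, hc, hz⟩
    rw [Finset.mem_image] at hz
    obtain ⟨j, hj, hcj⟩ := hz
    rw [Prod.mk.injEq] at hcj
    obtain ⟨rfl, rfl⟩ := hcj
    rw [Finset.mem_Icc] at hc
    refine ⟨(mem_colF h0).1 hj, ?_⟩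
    rw [abs_le]
    simp only
    constructor <;> omega
  · rintro ⟨h1, h2⟩
    rw [abs_le] at h2
    simp only at h2
    refine ⟨a, Finset.mem_Icc.2 ⟨by omega, by omega⟩, ?_⟩
    exact Finset.mem_image.2 ⟨b, (mem_colF h0).2 h1, rfl⟩

lemma card_laneV_le (hw : 0 ≤ w) (x : ℤ × ℤ) (N : ℕ) :
    ((laneV f c0 w x N).card : ℝ) ≤ (2 * N + 1) * (w / |f (0, 1)| + 1) := by
  have h1 : (laneV f c0 w x N).card ≤
      ∑ c ∈ Finset.Icc (x.1 - (N : ℤ)) (x.1 + N), (colF f c0 w c).card := by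
    refine Finset.card_biUnion_le.trans (Finset.sum_le_sum fun c _ => Finset.card_image_le)
  calc ((laneV f c0 w x N).card : ℝ)
      ≤ ((∑ c ∈ Finset.Icc (x.1 - (N : ℤ)) (x.1 + N), (colF f c0 w c).card : ℕ) : ℝ) := by
        exact_mod_cast h1
    _ = ∑ c ∈ Finset.Icc (x.1 - (N : ℤ)) (x.1 + N), ((colF f c0 w c).card : ℝ) := by
        push_cast; rfl
    _ ≤ ∑ c ∈ Finset.Icc (x.1 - (N : ℤ)) (x.1 + N), (w / |f (0, 1)| + 1) :=
        Finset.sum_le_sum fun c _ => card_colF_le hw c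
    _ = (2 * N + 1) * (w / |f (0, 1)| + 1) := by
        rw [Finset.sum_const, Int.card_Icc, nsmul_eq_mul]
        congr 1
        have : (x.1 + (N : ℤ) + 1 - (x.1 - N)).toNat = 2 * N + 1 := by omega
        rw [this]; push_cast; ring

/-- the lattice edges at the vertices of `laneV` -/
noncomputable def laneE (f : ℝ × ℝ →L[ℝ] ℝ) (c0 w : ℝ) (x : ℤ × ℤ) (N : ℕ) :
    Finset (Sym2 (ℤ × ℤ)) :=
  (laneV f c0 w x N).image (fun z => eH z.1 z.2) ∪ (laneV f c0 w x N).image (fun z => eV z.1 z.2)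

lemma card_laneE_le (hw : 0 ≤ w) (x : ℤ × ℤ) (N : ℕ) :
    ((laneE f c0 w x N).card : ℝ) ≤ 2 * ((2 * N + 1) * (w / |f (0, 1)| + 1)) := by
  have h1 : (laneE f c0 w x N).card ≤ (laneV f c0 w x N).card + (laneV f c0 w x N).card :=
    (Finset.card_union_le _ _).trans (add_le_add Finset.card_image_le Finset.card_image_le)
  have h2 := card_laneV_le (f := f) (c0 := c0) hw x N
  have h3 : ((laneE f c0 w x N).card : ℝ) ≤
      ((laneV f c0 w x N).card : ℝ) + ((laneV f c0 w x N).card : ℝ) := by exact_mod_cast h1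
  linarith

lemma mem_laneE (h0 : f (0, 1) ≠ 0) {x u v : ℤ × ℤ} {N : ℕ} (h : squareLattice.Adj u v)
    (hu : u ∈ Lane f c0 w) (hv : v ∈ Lane f c0 w) (hu' : |u.1 - x.1| ≤ N)
    (hv' : |v.1 - x.1| ≤ N) : s(u, v) ∈ laneE f c0 w x N := by
  have hu2 := (mem_laneV (x := x) (N := N) h0).2 ⟨hu, hu'⟩
  have hv2 := (mem_laneV (x := x) (N := N) h0).2 ⟨hv, hv'⟩
  obtain ⟨a, b⟩ := u
  obtain ⟨c, d⟩ := v
  rw [squareLattice, SimpleGraph.fromRel_adj] at h
  obtain ⟨-, h⟩ := h
  simp only at h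
  rw [laneE, Finset.mem_union, Finset.mem_image, Finset.mem_image]
  rcases h with (⟨h1, h2⟩ | ⟨h1, h2⟩) | (⟨h1, h2⟩ | ⟨h1, h2⟩)
  · subst h1; subst h2
    exact Or.inr ⟨_, hu2, rfl⟩
  · subst h1; subst h2
    exact Or.inl ⟨_, hu2, rfl⟩
  · subst h1; subst h2
    exact Or.inr ⟨_, hv2, by simp only [eV]; rw [Sym2.eq_swap]⟩
  · subst h1; subst h2
    exact Or.inl ⟨_, hv2, by simp only [eH]; rw [Sym2.eq_swap]⟩

/-- scaling of the weights in `s` by `1 + lam` -/
noncomputable def scl (s : Finset (Sym2 (ℤ × ℤ))) (lam : ℝ) (e : Sym2 (ℤ × ℤ)) : ℝ :=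
  open scoped Classical in if e ∈ s then 1 + lam else 1

lemma scl_ge_one {s : Finset (Sym2 (ℤ × ℤ))} {lam : ℝ} (h : 0 ≤ lam) (e : Sym2 (ℤ × ℤ)) :
    1 ≤ scl s lam e := by
  unfold scl
  split_ifs <;> linarith

lemma walkCost_mono {t t' : Environment} (h : ∀ e, t e ≤ t' e) {x y : ℤ × ℤ}
    (g : squareLattice.Walk x y) : walkCost t g ≤ walkCost t' g := by
  unfold walkCost
  exact List.sum_le_sum fun e _ => h e

lemma walkCost_scl {s : Finset (Sym2 (ℤ × ℤ))} {lam : ℝ} {t : Environment} {x y : ℤ × ℤ}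
    (g : squareLattice.Walk x y) (h : ∀ e ∈ g.edges, e ∈ s) :
    walkCost (fun e => scl s lam e * t e) g = (1 + lam) * walkCost t g := by
  unfold walkCost
  rw [← List.sum_map_mul_left]
  congr 1
  apply List.map_congr_left
  intro e he
  simp [scl, h e he]

lemma adj_of_mem_edges {x y u v : ℤ × ℤ} (g : squareLattice.Walk x y) (h : s(u, v) ∈ g.edges) :
    squareLattice.Adj u v := g.adj_of_mem_edges h

/-- If the scaled passage time of the lane is at most `m`, the original one is at most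
`m / (1 + lam)`, outside of the bad event. -/
theorem pR_le_of_scaled {t : Environment} (ht : Nn t) (h0 : f (0, 1) ≠ 0)
    (hf1 : |f (1, 0)| ≤ w / 2) (hf2 : |f (0, 1)| ≤ w / 2) {x y : ℤ × ℤ} {N : ℕ} {c m lam : ℝ}
    (hx : x ∈ Lane f c0 w) (hy : y ∈ Lane f c0 w) (hlam : 0 < lam) (hb : t ∉ Bad c N x)
    (hm : m < c * N)
    (hs : pR (fun e => scl (laneE f c0 w x N) lam e * t e) (Lane f c0 w) x y ≤ m) :
    pR t (Lane f c0 w) x y ≤ m / (1 + lam) := by
  set s := laneE f c0 w x N with hsdef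
  set t' : Environment := fun e => scl s lam e * t e with ht'def
  have hle : ∀ e, t e ≤ t' e := fun e => by
    have h1 := scl_ge_one (s := s) hlam.le e
    have h2 := ht e
    simp only [ht'def]
    nlinarith
  have ht' : Nn t' := fun e => (ht e).trans (hle e)
  have hconn := conn_Lane hf1 hf2 hx hy
  rw [le_div_iff₀ (by linarith)]
  apply le_of_forall_pos_le_add
  intro δ hδ
  set δ' := min δ ((c * N - m) / 2) with hδ'
  have hδ'pos : 0 < δ' := lt_min hδ (by linarith)
  have hδ'2 : δ' ≤ (c * N - m) / 2 := min_le_right _ _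
  obtain ⟨g0, hg0, hg0c⟩ := exists_walk_lt_pR hconn
    (show pR t' (Lane f c0 w) x y < m + δ' by linarith)
  set g := g0.bypass with hg
  have hgL : ∀ z ∈ g.support, z ∈ Lane f c0 w := fun z hz =>
    hg0 z (SimpleGraph.Walk.support_bypass_subset_support g0 hz)
  have hgc : walkCost t' g < m + δ' := lt_of_le_of_lt (walkCost_bypass_le ht' g0) hg0c
  have hgt : walkCost t g ≤ walkCost t' g := walkCost_mono hle g
  have hin : ∀ z ∈ g.support, |z.1 - x.1| ≤ N := by
    intro z hz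
    by_contra hcon
    rw [not_le] at hcon
    have hlen : N ≤ g.length := by
      have a1 := n1_le_length (g.takeUntil z hz)
      have a2 := SimpleGraph.Walk.length_takeUntil_le_length g hz
      have a3 : (N : ℤ) < ((z.1 - x.1).natAbs : ℤ) := by
        rw [Int.natCast_natAbs]; exact hcon
      have a4 : (z.1 - x.1).natAbs ≤ n1 (z - x) := by
        simp [n1]
      omega
    have := cost_ge_of_not_Bad ht hb g (g0.bypass_isPath.isTrail.edges_nodup) hlen
    linarith
  have hedge : ∀ e ∈ g.edges, e ∈ s := by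
    intro e he
    induction e with
    | _ u v =>
      have hadj := adj_of_mem_edges g he
      have hu := SimpleGraph.Walk.fst_mem_support_of_mem_edges g he
      have hv := SimpleGraph.Walk.snd_mem_support_of_mem_edges g he
      exact mem_laneE h0 hadj (hgL u hu) (hgL v hv) (hin u hu) (hin v hv)
  have heq := walkCost_scl (lam := lam) (t := t) g hedge
  have h1 := pR_le ht g hgL
  have h2 : δ' ≤ δ := min_le_left _ _
  nlinarith [h1, heq, hgc]

end det

section gamma

variable {κ r : ℝ} {f : ℝ × ℝ →L[ℝ] ℝ} {c0 w : ℝ}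

/-- anticoncentration of lane passage times by scaling -/
theorem mad_ge (hκ : 0 < κ) (hr : 0 < r) (h0 : f (0, 1) ≠ 0)
    (hf1 : |f (1, 0)| ≤ w / 2) (hf2 : |f (0, 1)| ≤ w / 2) {x y : ℤ × ℤ} {N : ℕ} {c lam : ℝ}
    (hx : x ∈ Lane f c0 w) (hy : y ∈ Lane f c0 w) (hlam : 0 < lam) (hlam1 : lam < 1 / 2)
    (hN : (iidLaw (gammaMeasure κ r)).real (Bad c N x) ≤ 1 / 8)
    (hK : 2 * κ * ((laneE f c0 w x N).card * lam ^ 2) ≤ 1 / 32)
    (hm : 5 / 4 * ∫ t, pR t (Lane f c0 w) x y ∂(iidLaw (gammaMeasure κ r)) < c * N)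
    (hpos : 0 < ∫ t, pR t (Lane f c0 w) x y ∂(iidLaw (gammaMeasure κ r))) :
    lam / 32 * ∫ t, pR t (Lane f c0 w) x y ∂(iidLaw (gammaMeasure κ r)) ≤
      ∫ t, |pR t (Lane f c0 w) x y - ∫ t', pR t' (Lane f c0 w) x y
        ∂(iidLaw (gammaMeasure κ r))| ∂(iidLaw (gammaMeasure κ r)) := by
  have hγ := isProbabilityMeasure_gammaMeasure hκ hr
  have hG0 := gamma_Iio κ r
  have hG2 := integrable_sq hG0 (half_pos hr) (gamma_exp hκ hr)
  set P := iidLaw (gammaMeasure κ r) with hP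
  set X : Environment → ℝ := fun t => pR t (Lane f c0 w) x y with hX
  have hXm : Measurable X := measurable_pR _ _ _
  have hXi : Integrable X P := (integrable_Lane hG0 hG2 hf1 hf2 hx hy).1
  set a := ∫ t, X t ∂P with ha
  set δ := ∫ t, |X t - a| ∂P with hδ
  change lam / 32 * a ≤ δ
  by_contra hcon
  rw [not_le] at hcon
  have hδ0 : 0 ≤ δ := integral_nonneg fun _ => abs_nonneg _
  set m := a + 8 * δ with hmdef
  have hma : m < c * N := by
    have : 8 * δ ≤ a / 4 := by nlinarith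
    have h5 : 5 / 4 * a < c * N := hm
    linarith
  -- Markov
  have hi : Integrable (fun t => |X t - a|) P := (hXi.sub (integrable_const a)).abs
  have hmark : ∀ e : ℝ, 0 < e → 8 * δ ≤ e → P.real {t | e < |X t - a|} ≤ 1 / 8 := by
    intro e he hee
    have h3 := mul_meas_ge_le_integral_of_nonneg (μ := P) (f := fun t => |X t - a|)
      (Filter.Eventually.of_forall fun t => abs_nonneg _) hi e
    have h4 : P.real {t | e < |X t - a|} ≤ P.real {t | e ≤ |X t - a|} :=
      measureReal_mono fun t (ht : e < |X t - a|) => (le_of_lt ht : e ≤ |X t - a|)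
    have h5 : e * P.real {t | e ≤ |X t - a|} ≤ δ := h3
    have h6 : e * P.real {t | e ≤ |X t - a|} ≤ e * (1 / 8) := by linarith
    have h7 := le_of_mul_le_mul_left h6 he
    linarith
  -- choose e slightly larger than 8 δ
  set e := lam * a / 4 with hedef
  have he0 : 0 < e := by positivity
  have he8 : 8 * δ ≤ e := by rw [hedef]; nlinarith
  have hB := hmark e he0 he8
  -- P (X ≤ a + e) ≥ 7/8
  have hma' : a + e < c * N := by
    have : e ≤ a / 8 := by rw [hedef]; nlinarith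
    have h5 : 5 / 4 * a < c * N := hm
    linarith
  set A : Set Environment := {t | X t ≤ a + e} with hA
  have hAm : MeasurableSet A := measurableSet_le hXm measurable_const
  have hPA : 7 / 8 ≤ P.real A := by
    have h1 : P.real Aᶜ ≤ 1 / 8 := by
      refine le_trans (measureReal_mono ?_) hB
      intro t ht
      simp only [hA, Set.mem_compl_iff, Set.mem_ofPred_eq, not_le] at ht ⊢
      have := le_abs_self (X t - a)
      linarith
    have h2 := probReal_compl_eq_one_sub (μ := P) hAm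
    linarith
  -- scaling
  set s := laneE f c0 w x N with hs
  have hsc := Crest.Agent.R151.V.gamma_scale_sub_le (I := Sym2 (ℤ × ℤ)) hκ hr s (scl s lam)
    (fun e _ => lt_of_lt_of_le one_pos (scl_ge_one hlam.le e))
    (fun e he => by simp [scl, he]; linarith)
    (fun e he => by simp [scl, he]) hAm
  have hK2 := Crest.Agent.R151.V.scaleK_le hκ s (scl s lam) (fun e he => by
    simp only [scl, he, if_true]
    nlinarith)
  have hsum : ∑ e ∈ s, (1 - scl s lam e) ^ 2 = s.card * lam ^ 2 := by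
    rw [Finset.sum_congr rfl (g := fun _ => lam ^ 2) (fun e he => by
      simp only [scl, he, if_true]; ring), Finset.sum_const, nsmul_eq_mul]
  rw [hsum] at hK2
  have hexp : Real.exp (2 * κ * (s.card * lam ^ 2)) ≤ 1 + 1 / 16 := by
    have h1 : Real.exp (2 * κ * (s.card * lam ^ 2)) ≤ Real.exp (1 / 32) := Real.exp_le_exp.2 hK
    have h2 : Real.exp (1 / 32) ≤ 1 + 1 / 16 := by
      have := Real.abs_exp_sub_one_le (x := 1 / 32) (by norm_num)
      rw [abs_le] at this
      have h3 : |(1 / 32 : ℝ)| = 1 / 32 := by norm_num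
      rw [h3] at this
      linarith [this.2]
    linarith
  have hsqrt : √(Crest.Agent.R151.V.scaleK κ s (scl s lam) - 1) / 2 ≤ 1 / 8 := by
    have h1 : Crest.Agent.R151.V.scaleK κ s (scl s lam) - 1 ≤ (1 / 4) ^ 2 := by linarith
    have h2 : √(Crest.Agent.R151.V.scaleK κ s (scl s lam) - 1) ≤ 1 / 4 := by
      rw [Real.sqrt_le_left (by norm_num)]
      exact h1
    linarith
  set A' : Set Environment := {t | (fun i => scl s lam i * t i) ∈ A} with hA'
  have hPA' : 3 / 4 ≤ P.real A' := by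
    have h1 : |P.real A' - P.real A| ≤ 1 / 8 := hsc.trans hsqrt
    rw [abs_le] at h1
    linarith [h1.1]
  -- lower bound set
  set Bl : Set Environment := {t | e < |X t - a|} with hBl
  have hinter : ∃ t, Nn t ∧ t ∈ A' ∧ t ∉ Bl ∧ t ∉ Bad c N x := by
    by_contra hno
    push Not at hno
    have hsub : A' ⊆ (Bl ∪ Bad c N x) ∪ {t | ¬ Nn t} := by
      intro t ht
      by_cases hn : Nn t
      · left
        by_cases hb : t ∈ Bl
        · exact Or.inl hb
        · exact Or.inr (hno t hn ht hb)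
      · right; exact hn
    have hz : P.real {t | ¬ Nn t} = 0 := by
      have := ae_Nn (G := gammaMeasure κ r) hG0
      rw [ae_iff] at this
      rw [measureReal_def, this]
      simp
    have h1 := measureReal_mono (μ := P) hsub
    have h2 := measureReal_union_le (μ := P) (Bl ∪ Bad c N x) {t | ¬ Nn t}
    have h3 := measureReal_union_le (μ := P) Bl (Bad c N x)
    linarith
  obtain ⟨t, hnn, htA', htB, htBad⟩ := hinter
  have hX1 := pR_le_of_scaled hnn h0 hf1 hf2 hx hy hlam htBad hma' htA'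
  simp only [hBl, Set.mem_ofPred_eq, not_lt] at htB
  rw [abs_le] at htB
  have hXt : pR t (Lane f c0 w) x y = X t := rfl
  rw [hXt, le_div_iff₀ (by linarith)] at hX1
  have h9 : (a - e) * (1 + lam) ≤ a + e := by
    have : (a - e) * (1 + lam) ≤ X t * (1 + lam) := by
      apply mul_le_mul_of_nonneg_right _ (by linarith)
      linarith [htB.1]
    linarith
  -- (a - e)(1+lam) = a + a lam - e - e lam > a + e since e = lam a / 4
  have : a * lam ≤ 2 * e + e * lam := by nlinarith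
  rw [hedef] at this
  nlinarith [mul_pos hlam hpos, mul_pos (mul_pos hlam hpos) hlam]


set_option maxHeartbeats 1000000 in
/-- lower bound for the mean excess of one stretch of the lane -/
theorem laneExc_ge_sqrt {μ : ℝ × ℝ → ℝ} (hκ : 0 < κ) (hr : 0 < r)
    (hμ : IsTC (gammaMeasure κ r) μ) (h0 : f (0, 1) ≠ 0) :
    ∃ c2 C2 : ℝ, 0 < c2 ∧ 0 < C2 ∧ ∀ w : ℝ, 1 ≤ w → |f (1, 0)| ≤ w / 2 → |f (0, 1)| ≤ w / 2 →
      ∀ c0 : ℝ, ∀ x ∈ Lane f c0 w, ∀ y ∈ Lane f c0 w, 1 ≤ n1 (y - x) →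
        c2 * √(n1 (y - x) / w) - C2 * w ≤ laneExc (gammaMeasure κ r) μ f c0 w x y := by
  have hγ := isProbabilityMeasure_gammaMeasure hκ hr
  have hG0 := gamma_Iio κ r
  have hG2 := integrable_sq hG0 (half_pos hr) (gamma_exp hκ hr)
  have hz : gammaMeasure κ r {0} = 0 := by
    rw [gammaMeasure, withDensity_apply _ (measurableSet_singleton _)]
    simp
  obtain ⟨cB, hcB, hBad⟩ := prob_Bad_le hG0 hz
  obtain ⟨cE, hcE, hE⟩ := exists_ET_ge hG0 hz hG2
  set m1 := ∫ z, z ∂(gammaMeasure κ r) with hm1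
  have hm1pos : 0 < m1 := by
    have h1 := hE (1, 0)
    have h2 := ET_le hG0 hG2 (1, 0)
    have h3 : (n1 (1, 0) : ℝ) = 1 := by norm_num [n1]
    rw [h3] at h1 h2
    linarith
  have hf2pos : 0 < |f (0, 1)| := abs_pos.2 h0
  set A : ℕ := ⌈2 * m1 / cB⌉₊ with hA
  set C1 : ℝ := 2 * ((2 * A + 7) * (1 / |f (0, 1)| + 1)) with hC1
  have hC1pos : 0 < C1 := by positivity
  set C' : ℝ := 3 + 64 * κ * C1 with hC'
  have hC'pos : 3 ≤ C' := by
    have : 0 ≤ 64 * κ * C1 := by positivity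
    linarith
  refine ⟨cE / (64 * C'), 2 * m1 * (2 / |f (0, 1)| + 1), by positivity, by positivity, ?_⟩
  intro w hw hf1 hf2 c0 x hx y hy hn
  have hw0 : 0 < w := by linarith
  set n := n1 (y - x) with hndef
  have hn1 : (1 : ℝ) ≤ n := by exact_mod_cast hn
  set N : ℕ := A * n + 3 with hN
  have hBadN : (iidLaw (gammaMeasure κ r)).real (Bad cB N x) ≤ 1 / 8 := by
    refine (hBad N x).trans ?_
    have : ((1 : ℝ) / 2) ^ N ≤ (1 / 2) ^ 3 :=
      pow_le_pow_of_le_one (by norm_num) (by norm_num) (by omega)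
    norm_num at this ⊢
    linarith
  obtain ⟨hXi, hXle⟩ := integrable_Lane hG0 hG2 hf1 hf2 hx hy
  rw [← hm1, ← hndef] at hXle
  set a := ∫ t, pR t (Lane f c0 w) x y ∂(iidLaw (gammaMeasure κ r)) with ha
  have hage : cE * n ≤ a := by
    have h1 : ∫ t, passageTime t x y ∂(iidLaw (gammaMeasure κ r)) ≤ a := by
      refine integral_mono_ae (integrable_pt hG0 hG2 x y) hXi ?_
      filter_upwards [ae_Nn hG0] with t ht
      exact pt_le_pR ht (conn_Lane hf1 hf2 hx hy)
    rw [integral_pt] at h1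
    exact (hE (y - x)).trans h1
  have hapos : 0 < a := lt_of_lt_of_le (by positivity) hage
  have hAm : 2 * m1 ≤ cB * A := by
    have := Nat.le_ceil (2 * m1 / cB)
    rw [div_le_iff₀ hcB] at this
    rw [hA, mul_comm cB]
    exact this
  have hma : 5 / 4 * a < cB * N := by
    rw [hN]; push_cast
    have h1 : 2 * m1 * n ≤ cB * A * n := mul_le_mul_of_nonneg_right hAm (by positivity)
    nlinarith
  -- number of edges
  set q := √((n : ℝ) * w) with hq
  have hnw : 1 ≤ (n : ℝ) * w := by nlinarith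
  have hq1 : 1 ≤ q := by rw [hq, Real.one_le_sqrt]; exact hnw
  have hq2 : q ^ 2 = n * w := Real.sq_sqrt (by positivity)
  have hcard : ((laneE f c0 w x N).card : ℝ) ≤ C1 * (n * w) := by
    refine (card_laneE_le hw0.le x N).trans ?_
    rw [hC1, mul_assoc, mul_assoc]
    apply mul_le_mul_of_nonneg_left _ (by norm_num)
    have h1 : (2 * (N : ℝ) + 1) ≤ (2 * A + 7) * n := by
      rw [hN]; push_cast
      nlinarith
    have h2 : w / |f (0, 1)| + 1 ≤ (1 / |f (0, 1)| + 1) * w := by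
      have : w / |f (0, 1)| = 1 / |f (0, 1)| * w := by ring
      rw [this]; nlinarith
    calc (2 * (N : ℝ) + 1) * (w / |f (0, 1)| + 1)
        ≤ ((2 * A + 7) * n) * ((1 / |f (0, 1)| + 1) * w) :=
          mul_le_mul h1 h2 (by positivity) (by positivity)
      _ = (2 * A + 7) * ((1 / |f (0, 1)| + 1) * (n * w)) := by ring
  set lam : ℝ := 1 / (C' * q) with hlam
  have hC'q : 3 ≤ C' * q := by nlinarith
  have hlampos : 0 < lam := by positivity
  have hlam1 : lam < 1 / 2 := by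
    rw [hlam, div_lt_div_iff₀ (by linarith) (by norm_num)]
    linarith
  have hlam2 : lam ^ 2 = 1 / (C' ^ 2 * (n * w)) := by
    rw [hlam, div_pow, mul_pow, hq2]; norm_num
  have hK : 2 * κ * ((laneE f c0 w x N).card * lam ^ 2) ≤ 1 / 32 := by
    have h1 : ((laneE f c0 w x N).card : ℝ) * lam ^ 2 ≤ C1 / C' ^ 2 := by
      rw [hlam2]
      have : C1 * (n * w) * (1 / (C' ^ 2 * (n * w))) = C1 / C' ^ 2 := by
        field_simp
      rw [← this]
      exact mul_le_mul_of_nonneg_right hcard (by positivity)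
    have h2 : 2 * κ * (C1 / C' ^ 2) ≤ 1 / 32 := by
      have h3 : 64 * κ * C1 ≤ C' ^ 2 := by
        have e1 : C' * 1 ≤ C' * C' := mul_le_mul_of_nonneg_left (by linarith) (by linarith)
        have e2 : 64 * κ * C1 ≤ C' := by linarith [hC']
        rw [pow_two]; linarith
      rw [mul_div_assoc', div_le_div_iff₀ (by positivity) (by norm_num)]
      linarith
    exact (mul_le_mul_of_nonneg_left h1 (by positivity)).trans h2
  have hge := mad_ge hκ hr h0 hf1 hf2 hx hy hlampos hlam1 hBadN hK hma hapos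
  -- the parallel lane
  set m : ℕ := ⌈(w + 1) / |f (0, 1)|⌉₊ with hm
  have hm2 : w + 1 ≤ m * |f (0, 1)| := by
    have := Nat.le_ceil ((w + 1) / |f (0, 1)|)
    rwa [div_le_iff₀ hf2pos] at this
  have hm3 : (m : ℝ) ≤ (2 / |f (0, 1)| + 1) * w := by
    have h1 := Nat.ceil_lt_add_one (show 0 ≤ (w + 1) / |f (0, 1)| by positivity)
    have h2 : (w + 1) / |f (0, 1)| ≤ 2 / |f (0, 1)| * w := by
      rw [div_mul_eq_mul_div]
      exact div_le_div_of_nonneg_right (by linarith) hf2pos.le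
    rw [← hm] at h1
    nlinarith
  have hv : w < |f (toR ((0 : ℤ), (m : ℤ)))| := by
    rw [f_toR]
    simp only [Int.cast_zero, zero_mul, zero_add, Int.cast_natCast]
    rw [abs_mul, Nat.abs_cast]
    linarith
  have hle := mad_le hG0 hG2 hμ hf1 hf2 hx hy hv
  have hn1v : (n1 ((0 : ℤ), (m : ℤ)) : ℝ) = m := by simp [n1]
  rw [hn1v, ← hm1] at hle
  have hfin := hge.trans hle
  have hsq : √((n : ℝ) / w) = n / q := by
    rw [hq, Real.sqrt_div' _ hw0.le, Real.sqrt_mul' _ hw0.le]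
    have h1 : √(n : ℝ) ≠ 0 := by positivity
    have h2 : √w ≠ 0 := by positivity
    field_simp
    rw [Real.sq_sqrt (by positivity)]
  rw [hsq]
  have h5 : cE / (64 * C') * (n / q) = 1 / 2 * (lam / 32 * (cE * n)) := by
    rw [hlam]; field_simp; norm_num
  rw [h5]
  have h6 : lam / 32 * (cE * n) ≤ lam / 32 * a :=
    mul_le_mul_of_nonneg_left hage (by positivity)
  have h7 : (m : ℝ) * m1 ≤ (2 / |f (0, 1)| + 1) * w * m1 :=
    mul_le_mul_of_nonneg_right hm3 hm1pos.le
  nlinarith [hfin, h6, h7]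

end gamma

end Crest.Agent.R151.G338
end

-- ▼ part R151/G338f
section

/-!
# R151 (S0214 part 2), module C2: THEOREM C2 (helper338)

`lane_lower`: for Gamma weights, `E T_L(x,y) ≥ μ(y - x) + (c / w^2) n1(y - x) - C w` for every lane
`L` of width `w ≥ w0`.
-/

set_option autoImplicit false

open MeasureTheory Filter ProbabilityTheory
open Crest.ProbabilityR.FirstPassage

namespace Crest.Agent.R151.G338

open Crest.Agent.R151.K

variable {κ r : ℝ} {f : ℝ × ℝ →L[ℝ] ℝ}

/-- The mean excess of a lane is at least `(c / w^2)` per unit of length; version with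
`f (0,1) ≠ 0`. -/
theorem laneExc_lower_aux {μ : ℝ × ℝ → ℝ} (hκ : 0 < κ) (hr : 0 < r)
    (hμ : IsTC (gammaMeasure κ r) μ) (h0 : f (0, 1) ≠ 0) :
    ∃ c C : ℝ, 0 < c ∧ 0 < C ∧ ∀ w : ℝ, 1 ≤ w → |f (1, 0)| ≤ w / 2 → |f (0, 1)| ≤ w / 2 →
      ∀ c0 : ℝ, ∀ x ∈ Lane f c0 w, ∀ y ∈ Lane f c0 w,
        c / w ^ 2 * n1 (y - x) - C * w ≤ laneExc (gammaMeasure κ r) μ f c0 w x y := by
  have hγ := isProbabilityMeasure_gammaMeasure hκ hr
  have hG0 := gamma_Iio κ r
  have hG2 := integrable_sq hG0 (half_pos hr) (gamma_exp hκ hr)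
  obtain ⟨c2, C2, hc2, hC2, hsq⟩ := laneExc_ge_sqrt hκ hr hμ h0
  set m1 := ∫ z, z ∂(gammaMeasure κ r) with hm1
  have hm10 : 0 ≤ m1 := integral_id_nonneg hG0
  have hf2pos : 0 < |f (0, 1)| := abs_pos.2 h0
  set C3 : ℝ := 2 * ((1 / |f (0, 1)| + 1) * m1) with hC3
  have hC30 : 0 ≤ C3 := by positivity
  set K : ℝ := ((C2 + C3 + 1) / c2) ^ 2 with hK
  have hKpos : 0 < K := by positivity
  set β : ℝ := 1 + |f (1, 0)| / |f (0, 1)| with hβ
  have hβpos : 1 ≤ β := by
    have : 0 ≤ |f (1, 0)| / |f (0, 1)| := by positivity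
    linarith
  set c : ℝ := 1 / (β * (K + 1)) with hc
  have hcpos : 0 < c := by positivity
  refine ⟨c, 1 + c / |f (0, 1)|, hcpos, by positivity, ?_⟩
  intro w hw hf1 hf2 c0
  have hw0 : 0 < w := by linarith
  have hC3w : 2 * ((w / |f (0, 1)| + 1) * m1) ≤ C3 * w := by
    have h2 : w / |f (0, 1)| + 1 ≤ (1 / |f (0, 1)| + 1) * w := by
      have : w / |f (0, 1)| = 1 / |f (0, 1)| * w := by ring
      rw [this]; nlinarith
    have h3 := mul_le_mul_of_nonneg_right h2 hm10
    rw [hC3]; linarith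
  set B : ℕ := ⌈K * w ^ 3⌉₊ with hB
  have hB1 : K * w ^ 3 ≤ B := Nat.le_ceil _
  have hB2 : (B : ℝ) ≤ (K + 1) * w ^ 3 := by
    have h1 := Nat.ceil_lt_add_one (show 0 ≤ K * w ^ 3 by positivity)
    have h2 : (1 : ℝ) ≤ w ^ 3 := one_le_pow₀ hw
    rw [← hB] at h1
    linarith
  have hBpos : 0 < B := by
    have : 0 < K * w ^ 3 := by positivity
    have : (0 : ℝ) < B := by linarith
    exact_mod_cast this
  -- one block
  have hone : ∀ x ∈ Lane f c0 w, ∀ y ∈ Lane f c0 w, x.1 + B ≤ y.1 →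
      (C3 + 1) * w ≤ laneExc (gammaMeasure κ r) μ f c0 w x y := by
    intro x hx y hy hxy
    have hn : B ≤ n1 (y - x) := by
      simp only [n1, Prod.fst_sub, Prod.snd_sub]; omega
    refine le_trans ?_ (hsq w hw hf1 hf2 c0 x hx y hy (le_trans hBpos hn))
    have h1 : (C2 + C3 + 1) / c2 * w ≤ √((n1 (y - x) : ℝ) / w) := by
      apply Real.le_sqrt_of_sq_le
      rw [le_div_iff₀ hw0, mul_pow]
      have h3 : ((C2 + C3 + 1) / c2) ^ 2 * w ^ 2 * w = K * w ^ 3 := by rw [hK]; ring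
      rw [h3]
      refine hB1.trans ?_
      exact_mod_cast hn
    have h2 := mul_le_mul_of_nonneg_left h1 hc2.le
    have h3 : c2 * ((C2 + C3 + 1) / c2 * w) = (C2 + C3 + 1) * w := by field_simp
    rw [h3] at h2
    linarith
  -- many blocks
  have hmany : ∀ k : ℕ, ∀ x ∈ Lane f c0 w, ∀ y ∈ Lane f c0 w, x.1 + ((k + 1 : ℕ) * B : ℕ) ≤ y.1 →
      ((k + 1 : ℕ) : ℝ) * w + C3 * w ≤ laneExc (gammaMeasure κ r) μ f c0 w x y := by
    intro k
    induction k with
    | zero =>
      intro x hx y hy hxy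
      have := hone x hx y hy (by simpa using hxy)
      push_cast; linarith
    | succ k ih =>
      intro x hx y hy hxy
      obtain ⟨j, hj⟩ := exists_mem_col (c0 := c0) h0 hf2 (x.1 + B)
      set p : ℤ × ℤ := (x.1 + B, j) with hp
      have e1 : ((k + 1 + 1 : ℕ) * B : ℕ) = (k + 1) * B + B := by ring
      have hpy : p.1 + ((k + 1 : ℕ) * B : ℕ) ≤ y.1 := by
        rw [e1] at hxy
        simp only [hp]
        push_cast at hxy ⊢
        linarith
      have h1 := hone x hx p hj (le_refl _)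
      have h2 := ih p hj y hy hpy
      have h3 := laneExc_split hG0 hG2 hμ h0 hw0.le hf1 hf2 hx hy hj
        (by simp only [hp]; omega) (by
          have : (0 : ℤ) ≤ (((k + 1 : ℕ) * B : ℕ) : ℤ) := by positivity
          linarith)
      rw [← hm1] at h3
      push_cast at h2 ⊢
      linarith
  -- conclusion for ordered end points
  have hord : ∀ x ∈ Lane f c0 w, ∀ y ∈ Lane f c0 w, x.1 ≤ y.1 →
      c / w ^ 2 * n1 (y - x) - (1 + c / |f (0, 1)|) * w
        ≤ laneExc (gammaMeasure κ r) μ f c0 w x y := by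
    intro x hx y hy hxy
    obtain ⟨Δ, hΔ⟩ := Int.le.dest hxy
    have hD : ((Δ : ℝ) / B - 1) * w ≤ laneExc (gammaMeasure κ r) μ f c0 w x y := by
      set k := Δ / B with hk
      have hkB : (Δ : ℝ) / B ≤ k + 1 := by
        rw [div_le_iff₀ (by exact_mod_cast hBpos)]
        have h1 : Δ < B * (Δ / B + 1) := Nat.lt_mul_div_succ Δ hBpos
        have h2 : (Δ : ℝ) < B * ((Δ / B : ℕ) + 1) := by exact_mod_cast h1
        rw [← hk] at h2
        linarith
      rcases Nat.eq_zero_or_pos k with hk0 | hkpos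
      · have h1 := laneExc_nonneg hG0 hG2 hμ hf1 hf2 hx hy
        rw [hk0] at hkB
        push_cast at hkB
        nlinarith
      · obtain ⟨k', hk'⟩ : ∃ k', k = k' + 1 := ⟨k - 1, by omega⟩
        have hle : x.1 + ((k' + 1 : ℕ) * B : ℕ) ≤ y.1 := by
          rw [← hk', ← hΔ]
          have : k * B ≤ Δ := by rw [hk]; exact Nat.div_mul_le_self Δ B
          have : ((k * B : ℕ) : ℤ) ≤ Δ := by exact_mod_cast this
          linarith
        have h1 := hmany k' x hx y hy hle
        rw [← hk'] at h1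
        have h2 : ((Δ : ℝ) / B - 1) * w ≤ k * w :=
          mul_le_mul_of_nonneg_right (by linarith) hw0.le
        have h3 : 0 ≤ C3 * w := by positivity
        linarith
    refine le_trans ?_ hD
    -- Δ vs n1
    have hn : (n1 (y - x) : ℝ) ≤ β * Δ + w / |f (0, 1)| := by
      rw [mem_Lane, f_toR] at hx hy
      have h3 : |((y.2 : ℝ) - x.2)| * |f (0, 1)| ≤ w + Δ * |f (1, 0)| := by
        have e : ((y.2 : ℝ) - x.2) * f (0, 1) =
            (y.1 * f (1, 0) + y.2 * f (0, 1) - c0) - (x.1 * f (1, 0) + x.2 * f (0, 1) - c0)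
              - (Δ : ℝ) * f (1, 0) := by
          have : (y.1 : ℝ) = x.1 + Δ := by rw [← hΔ]; push_cast; ring
          rw [this]; ring
        rw [← abs_mul, e]
        have a1 := abs_sub (y.1 * f (1, 0) + y.2 * f (0, 1) - c0
          - (x.1 * f (1, 0) + x.2 * f (0, 1) - c0)) ((Δ : ℝ) * f (1, 0))
        have a2 := abs_sub (y.1 * f (1, 0) + y.2 * f (0, 1) - c0)
          (x.1 * f (1, 0) + x.2 * f (0, 1) - c0)
        rw [abs_mul, Nat.abs_cast] at a1
        linarith
      have h4 : (n1 (y - x) : ℝ) = Δ + |((y.2 : ℝ) - x.2)| := by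
        simp only [n1, Prod.fst_sub, Prod.snd_sub]
        push_cast
        congr 1
        · have : y.1 - x.1 = Δ := by rw [← hΔ]; ring
          rw [this]; simp
        · rw [Nat.cast_natAbs]; push_cast; rfl
      rw [h4]
      have h5 : |((y.2 : ℝ) - x.2)| ≤ (w + Δ * |f (1, 0)|) / |f (0, 1)| := by
        rw [le_div_iff₀ hf2pos]; exact h3
      have h6 : (w + Δ * |f (1, 0)|) / |f (0, 1)| = w / |f (0, 1)| +
          Δ * (|f (1, 0)| / |f (0, 1)|) := by ring
      rw [h6] at h5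
      rw [hβ]
      linarith
    have hΔ0 : (0 : ℝ) ≤ Δ := by positivity
    have hBR : (0 : ℝ) < B := by exact_mod_cast hBpos
    have h7 : (Δ : ℝ) / ((K + 1) * w ^ 3) ≤ Δ / B := div_le_div_of_nonneg_left hΔ0 hBR hB2
    have h8 : (Δ : ℝ) / ((K + 1) * w ^ 3) * w = Δ / ((K + 1) * w ^ 2) := by
      field_simp
    have h9 : c / w ^ 2 * n1 (y - x) ≤ c / w ^ 2 * (β * Δ + w / |f (0, 1)|) :=
      mul_le_mul_of_nonneg_left hn (by positivity)
    have h10 : c / w ^ 2 * (β * Δ) = Δ / ((K + 1) * w ^ 2) := by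
      rw [hc]; field_simp
    have h11 : c / w ^ 2 * (w / |f (0, 1)|) ≤ c / |f (0, 1)| * w := by
      have e : c / w ^ 2 * (w / |f (0, 1)|) = c / |f (0, 1)| * (1 / w) := by
        field_simp
      rw [e]
      apply mul_le_mul_of_nonneg_left _ (by positivity)
      rw [div_le_iff₀ hw0]; nlinarith
    have h12 := mul_le_mul_of_nonneg_right h7 hw0.le
    rw [h8] at h12
    have h13 : ((Δ : ℝ) / B - 1) * w = Δ / B * w - w := by ring
    rw [h13]
    linarith [h9, h10, h11, h12, mul_add (c / w ^ 2) (β * Δ) (w / |f (0, 1)|)]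
  intro x hx y hy
  rcases le_total x.1 y.1 with h | h
  · exact hord x hx y hy h
  · rw [laneExc_symm hG0 hG2 hμ]
    have := hord y hy x hx h
    have e : n1 (y - x) = n1 (x - y) := by rw [← n1_neg (x - y)]; congr 1; abel
    rw [e]
    exact this

/-- exchange of the two coordinates -/
noncomputable def fswap (f : ℝ × ℝ →L[ℝ] ℝ) : ℝ × ℝ →L[ℝ] ℝ :=
  f.comp ((ContinuousLinearMap.snd ℝ ℝ ℝ).prod (ContinuousLinearMap.fst ℝ ℝ ℝ))

@[simp] lemma fswap_apply (f : ℝ × ℝ →L[ℝ] ℝ) (v : ℝ × ℝ) : fswap f v = f (v.2, v.1) := rfl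

lemma mem_Lane_swap {c0 w : ℝ} {z : ℤ × ℤ} :
    (z.2, z.1) ∈ Lane (fswap f) c0 w ↔ z ∈ Lane f c0 w := by
  rw [mem_Lane, mem_Lane]
  rfl

lemma laneExc_swap {G : Measure ℝ} [IsProbabilityMeasure G] {μ : ℝ × ℝ → ℝ}
    (h0 : G (Set.Iio 0) = 0) (h2 : Integrable (fun x : ℝ => x ^ 2) G) (hμ : IsTC G μ)
    (c0 w : ℝ) (x y : ℤ × ℤ) :
    laneExc G μ f c0 w x y = laneExc G μ (fswap f) c0 w (x.2, x.1) (y.2, y.1) := by
  unfold laneExc
  have h1 := integral_pR_act (G := G) sw (Lane (fswap f) c0 w) x y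
  have h3 : (sw ⁻¹' Lane (fswap f) c0 w : Set (ℤ × ℤ)) = Lane f c0 w := by
    ext z
    exact mem_Lane_swap
  rw [h3] at h1
  rw [h1]
  congr 1
  have h4 := mu_swap h0 h2 hμ (toR (y - x))
  rw [← h4]
  rfl

/-- **THEOREM C2** (lower bound for the mean excess of lanes). -/
theorem lane_lower {μ : ℝ × ℝ → ℝ} (hκ : 0 < κ) (hr : 0 < r)
    (hμ : IsTC (gammaMeasure κ r) μ) (hf : f ≠ 0) :
    ∃ c C w0 : ℝ, 0 < c ∧ 0 < C ∧ 1 ≤ w0 ∧ ∀ w : ℝ, w0 ≤ w → ∀ c0 : ℝ,
      ∀ x ∈ Lane f c0 w, ∀ y ∈ Lane f c0 w,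
        Integrable (fun t => pR t (Lane f c0 w) x y) (iidLaw (gammaMeasure κ r)) ∧
        μ (toR (y - x)) + c / w ^ 2 * n1 (y - x) - C * w ≤
          ∫ t, pR t (Lane f c0 w) x y ∂(iidLaw (gammaMeasure κ r)) ∧
        ∫ t, pR t (Lane f c0 w) x y ∂(iidLaw (gammaMeasure κ r)) ≤
          n1 (y - x) * ∫ z, z ∂(gammaMeasure κ r) := by
  have hγ := isProbabilityMeasure_gammaMeasure hκ hr
  have hG0 := gamma_Iio κ r
  have hG2 := integrable_sq hG0 (half_pos hr) (gamma_exp hκ hr)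
  by_cases h0 : f (0, 1) = 0
  · have h1 : fswap f (0, 1) ≠ 0 := by
      rw [fswap_apply]
      intro h1
      apply hf
      ext
      · simpa using h1
      · simpa using h0
    obtain ⟨c, C, hc, hC, h⟩ := laneExc_lower_aux hκ hr hμ h1
    refine ⟨c, C, max 1 (2 * (|f (1, 0)| + |f (0, 1)|)), hc, hC, le_max_left _ _, ?_⟩
    intro w hw c0 x hx y hy
    have hw1 : 1 ≤ w := (le_max_left _ _).trans hw
    have hw2 : 2 * (|f (1, 0)| + |f (0, 1)|) ≤ w := (le_max_right _ _).trans hw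
    have hf1 : |f (1, 0)| ≤ w / 2 := by linarith [abs_nonneg (f (0, 1))]
    have hf2 : |f (0, 1)| ≤ w / 2 := by linarith [abs_nonneg (f (1, 0))]
    obtain ⟨i1, i2⟩ := integrable_Lane hG0 hG2 hf1 hf2 hx hy
    refine ⟨i1, ?_, i2⟩
    have hh := h w hw1 (by rw [fswap_apply]; exact hf2) (by rw [fswap_apply]; exact hf1) c0
      (x.2, x.1) (mem_Lane_swap.2 hx) (y.2, y.1) (mem_Lane_swap.2 hy)
    rw [← laneExc_swap hG0 hG2 hμ] at hh
    have e : n1 ((y.2, y.1) - (x.2, x.1)) = n1 (y - x) := by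
      simp only [n1, Prod.fst_sub, Prod.snd_sub]
      exact add_comm _ _
    rw [e] at hh
    unfold laneExc at hh
    linarith
  · obtain ⟨c, C, hc, hC, h⟩ := laneExc_lower_aux hκ hr hμ h0
    refine ⟨c, C, max 1 (2 * (|f (1, 0)| + |f (0, 1)|)), hc, hC, le_max_left _ _, ?_⟩
    intro w hw c0 x hx y hy
    have hw1 : 1 ≤ w := (le_max_left _ _).trans hw
    have hw2 : 2 * (|f (1, 0)| + |f (0, 1)|) ≤ w := (le_max_right _ _).trans hw
    have hf1 : |f (1, 0)| ≤ w / 2 := by linarith [abs_nonneg (f (0, 1))]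
    have hf2 : |f (0, 1)| ≤ w / 2 := by linarith [abs_nonneg (f (1, 0))]
    obtain ⟨i1, i2⟩ := integrable_Lane hG0 hG2 hf1 hf2 hx hy
    refine ⟨i1, ?_, i2⟩
    have hh := h w hw1 hf1 hf2 c0 x hx y hy
    unfold laneExc at hh
    linarith

end Crest.Agent.R151.G338
end

-- ▼ part R151/V11
section

/-!
# R151, block V11 (helper52): `Var T_R ≤ (1/r) E T_R` for Gamma weights, arbitrary region
-/

set_option autoImplicit false
set_option linter.unusedSectionVars false

open MeasureTheory ProbabilityTheory Set Filter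
open scoped ENNReal Topology
open Crest.ProbabilityR.FirstPassage
open Crest.Agent.R151.K (Nn pR Conn n1 ET)

namespace Crest.Agent.R151.V

variable {κ r : ℝ}

open Classical in
/-- the first `n + 1` edge sets -/
noncomputable def fam {I : Type*} (p : ℕ → Finset I) (n : ℕ) : Finset (Finset I) :=
  (Finset.range (n + 1)).image p

lemma fam_nonempty {I : Type*} (p : ℕ → Finset I) (n : ℕ) : (fam p n).Nonempty := by
  classical
  exact ⟨p 0, Finset.mem_image.2 ⟨0, by simp, rfl⟩⟩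

lemma pmin_fam_le {I : Type*} (p : ℕ → Finset I) {n m : ℕ} (h : m ≤ n) (t : I → ℝ) :
    pmin (fam p n) (fam_nonempty p n) t ≤ ∑ e ∈ p m, t e := by
  classical
  exact pmin_le (Finset.mem_image.2 ⟨m, by simp; omega, rfl⟩) t

lemma antitone_pmin_fam {I : Type*} (p : ℕ → Finset I) (t : I → ℝ) :
    Antitone fun n => pmin (fam p n) (fam_nonempty p n) t := by
  classical
  intro n m hnm
  obtain ⟨q, hq, hqe⟩ := exists_pmin (fam p n) (fam_nonempty p n) t
  obtain ⟨i, hi, rfl⟩ := Finset.mem_image.1 hq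
  simp only
  rw [hqe]
  rw [Finset.mem_range] at hi
  exact pmin_fam_le p (by omega) t

lemma tendsto_pmin_fam {I : Type*} (p : ℕ → Finset I) {t : I → ℝ} (ht : ∀ e, 0 ≤ t e) :
    Tendsto (fun n => pmin (fam p n) (fam_nonempty p n) t) atTop
      (𝓝 (⨅ n, ∑ e ∈ p n, t e)) := by
  classical
  have hbdd : BddBelow (range fun n => ∑ e ∈ p n, t e) :=
    ⟨0, by rintro _ ⟨n, rfl⟩; exact Finset.sum_nonneg fun e _ => ht e⟩
  apply tendsto_atTop_isGLB (antitone_pmin_fam p t)
  constructor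
  · rintro _ ⟨n, rfl⟩
    obtain ⟨q, hq, hqe⟩ := exists_pmin (fam p n) (fam_nonempty p n) t
    obtain ⟨i, hi, rfl⟩ := Finset.mem_image.1 hq
    simp only
    rw [hqe]
    exact ciInf_le hbdd i
  · intro b hb
    refine le_ciInf fun n => ?_
    exact (hb ⟨n, rfl⟩).trans (pmin_fam_le p le_rfl t)


open Classical in
/-- `dvar` bound for an infimum over countably many edge sets -/
theorem dvar_iInf_gamma {I : Type*} [Countable I] (hκ : 0 < κ) (hr : 0 < r)
    (p : ℕ → Finset I) :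
    dvar (Measure.infinitePi fun _ : I => gammaMeasure κ r) (fun t => ⨅ n, ∑ e ∈ p n, t e) ≤
      ENNReal.ofReal (2 / r) *
        ∫⁻ t, ENNReal.ofReal (⨅ n, ∑ e ∈ p n, t e)
          ∂(Measure.infinitePi fun _ : I => gammaMeasure κ r) := by
  classical
  have hγ := isProbabilityMeasure_gammaMeasure hκ hr
  set μ := Measure.infinitePi fun _ : I => gammaMeasure κ r with hμ
  have hnn : ∀ᵐ t ∂μ, ∀ e, 0 ≤ t e := by
    rw [ae_all_iff]
    intro e
    exact (measurePreserving_eval_infinitePi (fun _ : I => gammaMeasure κ r) e).quasiMeasurePreserving.ae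
      (ae_pos_gamma κ r)
  have hlim : ∀ᵐ t ∂μ, Tendsto (fun n => pmin (fam p n) (fam_nonempty p n) t) atTop
      (𝓝 (⨅ n, ∑ e ∈ p n, t e)) := by
    filter_upwards [hnn] with t ht
    exact tendsto_pmin_fam p ht
  have h1 := dvar_le_liminf (μ := μ) (F := fun n => pmin (fam p n) (fam_nonempty p n))
    (fun n => measurable_pmin _ _) hlim
  refine h1.trans ?_
  have h2 : ∀ n, dvar μ (pmin (fam p n) (fam_nonempty p n)) ≤ ENNReal.ofReal (2 / r) *
      ∫⁻ t, ENNReal.ofReal (pmin (fam p n) (fam_nonempty p n) t) ∂μ :=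
    fun n => dvar_pmin_gamma hκ hr _ _
  refine (liminf_le_liminf (Eventually.of_forall h2)).trans ?_
  have hfin : ∫⁻ t, ENNReal.ofReal (pmin (fam p 0) (fam_nonempty p 0) t) ∂μ ≠ ∞ := by
    have h3 : ∫⁻ t, ENNReal.ofReal (pmin (fam p 0) (fam_nonempty p 0) t) ∂μ ≤
        ∫⁻ t, ∑ e ∈ p 0, ENNReal.ofReal (t e) ∂μ := by
      apply lintegral_mono_ae
      filter_upwards [hnn] with t ht
      rw [← ENNReal.ofReal_sum_of_nonneg fun e _ => ht e]
      exact ENNReal.ofReal_le_ofReal (pmin_fam_le p le_rfl t)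
    refine ne_top_of_le_ne_top ?_ h3
    rw [lintegral_finsetSum _ fun e _ => (measurable_pi_apply e).ennreal_ofReal]
    refine (ENNReal.sum_lt_top.2 fun e _ => ?_).ne
    have h4 : ∫⁻ t, ENNReal.ofReal (t e) ∂μ = ∫⁻ x, ENNReal.ofReal x ∂(gammaMeasure κ r) :=
      (measurePreserving_eval_infinitePi (fun _ : I => gammaMeasure κ r) e).lintegral_comp
        ENNReal.measurable_ofReal
    rw [h4]
    exact (integrable_id_gamma hκ hr).lintegral_lt_top
  have h5 : Tendsto (fun n => ENNReal.ofReal (2 / r) *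
      ∫⁻ t, ENNReal.ofReal (pmin (fam p n) (fam_nonempty p n) t) ∂μ) atTop
      (𝓝 (ENNReal.ofReal (2 / r) * ∫⁻ t, ENNReal.ofReal (⨅ n, ∑ e ∈ p n, t e) ∂μ)) := by
    apply ENNReal.Tendsto.const_mul _ (Or.inr ENNReal.ofReal_ne_top)
    apply tendsto_lintegral_of_dominated_convergence
      (fun t => ENNReal.ofReal (pmin (fam p 0) (fam_nonempty p 0) t))
      (fun n => (measurable_pmin _ _).ennreal_ofReal) _ hfin
    · filter_upwards [hlim] with t ht
      exact (ENNReal.continuous_ofReal.tendsto _).comp ht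
    · intro n
      exact Eventually.of_forall fun t => ENNReal.ofReal_le_ofReal (antitone_pmin_fam p t (Nat.zero_le n))
  exact h5.liminf_eq.le

open Classical in
/-- a restricted passage time is an infimum over countably many edge sets -/
lemma exists_pR_eq {R : Set (ℤ × ℤ)} {x y : ℤ × ℤ} (hc : Conn R x y) :
    ∃ p : ℕ → Finset (Sym2 (ℤ × ℤ)), (∀ n, ∃ w : squareLattice.Walk x y,
      (∀ z ∈ w.support, z ∈ R) ∧ p n = w.edges.toFinset) ∧
      ∀ t : Environment, Nn t → pR t R x y = ⨅ n, ∑ e ∈ p n, t e := by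
  have hne := hc.nonempty
  obtain ⟨w, hw⟩ := exists_surjective_nat {w : squareLattice.Walk x y // ∀ z ∈ w.support, z ∈ R}
  refine ⟨fun n => (w n).1.edges.toFinset, fun n => ⟨(w n).1, (w n).2, rfl⟩, ?_⟩
  intro t ht
  have hbdd : BddBelow (range fun n => ∑ e ∈ (w n).1.edges.toFinset, t e) :=
    ⟨0, by rintro _ ⟨n, rfl⟩; exact Finset.sum_nonneg fun e _ => ht e⟩
  apply le_antisymm
  · refine le_ciInf fun n => ?_
    have h1 : walkCost t (w n).1.bypass ≤ ∑ e ∈ (w n).1.edges.toFinset, t e := by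
      have hnd : (w n).1.bypass.edges.Nodup := (w n).1.bypass_isPath.isTrail.edges_nodup
      rw [walkCost, ← List.sum_toFinset _ hnd]
      apply Finset.sum_le_sum_of_subset_of_nonneg
      · intro e he
        rw [List.mem_toFinset] at he ⊢
        exact (SimpleGraph.Walk.edges_bypass_sublist_edges (w n).1).subset he
      · intro e _ _
        exact ht e
    refine le_trans (K.pR_le ht _ ?_) h1
    intro z hz
    exact (w n).2 z ((SimpleGraph.Walk.support_bypass_subset_support (w n).1) hz)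
  · refine K.le_pR hc fun v hv => ?_
    obtain ⟨n, hn⟩ := hw ⟨v, hv⟩
    refine (ciInf_le hbdd n).trans ?_
    rw [hn]
    rw [walkCost]
    have h7 := List.sum_toFinset t v.edges.nodup_dedup
    have h8 : v.edges.dedup.toFinset = v.edges.toFinset := by
      ext e; simp
    rw [h8] at h7
    calc ∑ e ∈ v.edges.toFinset, t e = (v.edges.dedup.map t).sum := h7
      _ ≤ (v.edges.map t).sum := by
          refine List.Sublist.sum_le_sum ((List.dedup_sublist _).map t) ?_
          intro a ha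
          obtain ⟨e, -, rfl⟩ := List.mem_map.1 ha
          exact ht e

/-- **Variance of restricted passage times**, Gamma weights: `2 Var T_R ≤ (2/r) E T_R`. -/
theorem dvar_pR (hκ : 0 < κ) (hr : 0 < r) {R : Set (ℤ × ℤ)} {x y : ℤ × ℤ} (hc : Conn R x y) :
    dvar (iidLaw (gammaMeasure κ r)) (fun t => pR t R x y) ≤
      ENNReal.ofReal (2 / r) * ∫⁻ t, ENNReal.ofReal (pR t R x y) ∂(iidLaw (gammaMeasure κ r)) := by
  have hγ := isProbabilityMeasure_gammaMeasure hκ hr
  obtain ⟨p, -, hp⟩ := exists_pR_eq hc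
  have h := dvar_iInf_gamma hκ hr p
  have hnn : ∀ᵐ t ∂(iidLaw (gammaMeasure κ r)), Nn t := K.ae_Nn (K.gamma_Iio κ r)
  have h1 : dvar (iidLaw (gammaMeasure κ r)) (fun t => pR t R x y) =
      dvar (iidLaw (gammaMeasure κ r)) (fun t => ⨅ n, ∑ e ∈ p n, t e) := by
    unfold dvar
    apply lintegral_congr_ae
    filter_upwards [hnn] with s hs
    apply lintegral_congr_ae
    filter_upwards [hnn] with t ht
    rw [hp s hs, hp t ht]
  have h2 : ∫⁻ t, ENNReal.ofReal (pR t R x y) ∂(iidLaw (gammaMeasure κ r)) =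
      ∫⁻ t, ENNReal.ofReal (⨅ n, ∑ e ∈ p n, t e) ∂(iidLaw (gammaMeasure κ r)) := by
    apply lintegral_congr_ae
    filter_upwards [hnn] with t ht
    rw [hp t ht]
  rw [h1, h2]
  exact h

/-- `E (T_R - E T_R)² ≤ (1/r) E T_R` -/
theorem var_pR (hκ : 0 < κ) (hr : 0 < r) {R : Set (ℤ × ℤ)} {x y : ℤ × ℤ} (hc : Conn R x y)
    (hi : Integrable (fun t => pR t R x y ^ 2) (iidLaw (gammaMeasure κ r))) :
    ∫ t, (pR t R x y - ∫ s, pR s R x y ∂(iidLaw (gammaMeasure κ r))) ^ 2
      ∂(iidLaw (gammaMeasure κ r)) ≤ (1 / r) * ∫ t, pR t R x y ∂(iidLaw (gammaMeasure κ r)) := by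
  have hγ := isProbabilityMeasure_gammaMeasure hκ hr
  have hL : MemLp (fun t => pR t R x y) 2 (iidLaw (gammaMeasure κ r)) :=
    (memLp_two_iff_integrable_sq (K.measurable_pR R x y).aestronglyMeasurable).2 hi
  have hint : Integrable (fun t => pR t R x y) (iidLaw (gammaMeasure κ r)) :=
    hL.integrable (by norm_num)
  have hnn : ∀ᵐ t ∂(iidLaw (gammaMeasure κ r)), Nn t := K.ae_Nn (K.gamma_Iio κ r)
  have hnn2 : 0 ≤ᵐ[iidLaw (gammaMeasure κ r)] fun t => pR t R x y := by
    filter_upwards [hnn] with t ht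
    exact K.pR_nonneg ht R x y
  have h := dvar_pR hκ hr hc
  rw [dvar_eq hL, ← ofReal_integral_eq_lintegral_ofReal hint hnn2,
    ← ENNReal.ofReal_mul (by positivity)] at h
  have h3 := (ENNReal.ofReal_le_ofReal_iff (mul_nonneg (by positivity)
    (integral_nonneg_of_ae hnn2))).1 h
  rw [variance_eq_integral hL.aestronglyMeasurable.aemeasurable] at h3
  have h4 : 2 / r * ∫ t, pR t R x y ∂(iidLaw (gammaMeasure κ r)) =
    2 * ((1 / r) * ∫ t, pR t R x y ∂(iidLaw (gammaMeasure κ r))) := by ring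
  rw [h4] at h3
  linarith

/-- 710's variance hypothesis for the Gamma law -/
theorem varB_gamma (hκ : 0 < κ) (hr : 0 < r) :
    C710.VarB (gammaMeasure κ r) ((1 / r) * ∫ z, z ∂(gammaMeasure κ r)) := by
  have hγ := isProbabilityMeasure_gammaMeasure hκ hr
  intro y
  have h2 : Integrable (fun x : ℝ => x ^ 2) (gammaMeasure κ r) := integrable_pow_gamma hκ hr 2
  have h0 := K.gamma_Iio κ r
  have hc : Conn univ (0 : ℤ × ℤ) y := by
    obtain ⟨w⟩ := K.reachable 0 y
    exact ⟨w, fun z _ => mem_univ z⟩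
  have hsq : Integrable (fun t => pR t univ 0 y ^ 2) (iidLaw (gammaMeasure κ r)) := by
    simp_rw [K.pR_univ]
    exact (K.pt_sq h0 h2 0 y).1
  have h := var_pR hκ hr hc hsq
  simp_rw [K.pR_univ] at h
  refine le_trans h ?_
  have h5 := K.integral_pt_le h0 h2 0 y
  rw [sub_zero] at h5
  have : (0:ℝ) ≤ 1 / r := by positivity
  calc (1 / r) * ∫ t, passageTime t 0 y ∂(iidLaw (gammaMeasure κ r))
      ≤ (1 / r) * ((n1 y : ℝ) * ∫ z, z ∂(gammaMeasure κ r)) := mul_le_mul_of_nonneg_left h5 this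
    _ = _ := by ring

end Crest.Agent.R151.V
end

-- ▼ part R151/C710l

/-!
# R151 / S0214 part 2: the rate of a lane (helper710)

Facts on `eL G F w y` (mean excess of the `b`-lane over the height `y`) and `rate G F w`:
integrability, subadditivity, monotonicity in `w`, `rate = lim eL n / n`, `rate * y ≤ eL y`,
`c / w ^ 2 ≤ rate ≤ C w ^ (-0.06)`.
-/

set_option autoImplicit false
set_option linter.unusedSectionVars false

open MeasureTheory Filter ProbabilityTheory Topology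
open Crest.ProbabilityR.FirstPassage

namespace Crest.Agent.R151.C710

open Crest.Agent.R151.K Crest.Agent.R151.Q
open B710 (FlatData)

/-! ### measurability of restricted passage times in random regions -/

lemma pR_eq_sInf (t : Environment) (A : Set (ℤ × ℤ)) (x y : ℤ × ℤ) :
    pR t A x y = sInf {c | ∃ p : (Σ q : (ℤ × ℤ) × (ℤ × ℤ), squareLattice.Walk q.1 q.2),
      (p.1.1 = x ∧ p.1.2 = y ∧ ∀ z ∈ p.2.support, z ∈ A) ∧ c = walkCost t p.2} := by
  unfold pR
  rw [iInf]
  congr 1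
  ext c
  simp only [Set.mem_range, Set.mem_ofPred_eq]
  constructor
  · rintro ⟨w, rfl⟩
    exact ⟨⟨(x, y), w.1⟩, ⟨rfl, rfl, w.2⟩, rfl⟩
  · rintro ⟨⟨⟨a, b⟩, p⟩, ⟨h1, h2, h3⟩, rfl⟩
    simp only at h1 h2
    subst h1
    subst h2
    exact ⟨⟨p, h3⟩, rfl⟩

lemma measurable_pRr {Ω : Type*} [MeasurableSpace Ω] {T : Ω → Environment} (hT : Measurable T)
    {A : Ω → Set (ℤ × ℤ)} (hA : ∀ z, MeasurableSet {ω | z ∈ A ω}) {x y : Ω → ℤ × ℤ}
    (hx : Measurable x) (hy : Measurable y) :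
    Measurable fun ω => pR (T ω) (A ω) (x ω) (y ω) := by
  simp only [pR_eq_sInf]
  refine M192.measurable_sInf_family (fun p => ?_) (fun p => (measurable_walkCost p.2).comp hT)
  have e : {ω | p.1.1 = x ω ∧ p.1.2 = y ω ∧ ∀ z ∈ p.2.support, z ∈ A ω}
      = (x ⁻¹' {p.1.1}) ∩ ((y ⁻¹' {p.1.2}) ∩ ⋂ z ∈ p.2.support, {ω | z ∈ A ω}) := by
    ext ω
    simp only [Set.mem_ofPred_eq, Set.mem_inter_iff, Set.mem_preimage, Set.mem_singleton_iff,
      Set.mem_iInter]
    constructor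
    · rintro ⟨h1, h2, h3⟩; exact ⟨h1.symm, h2.symm, h3⟩
    · rintro ⟨h1, h2, h3⟩; exact ⟨h1.symm, h2.symm, h3⟩
  rw [e]
  refine (hx (measurableSet_singleton _)).inter ((hy (measurableSet_singleton _)).inter ?_)
  exact MeasurableSet.biInter (Set.to_countable _) fun z _ => hA z

variable {G : Measure ℝ} [IsProbabilityMeasure G] {lam : ℝ} {μ : ℝ × ℝ → ℝ}

/-- the restricted passage time of the lane -/
noncomputable def pL (F : FlatData μ) (w y : ℝ) (θ : ℝ × ℝ) (t : Environment) : ℝ :=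
  pR t (laneB F w θ) (nr θ) (nr (θ - y • F.b))

lemma eL_eq (F : FlatData μ) (w y : ℝ) : eL G F w y = ∫ p, pL F w y p.1 p.2 ∂(P0 G) - y := rfl

lemma measurable_pL (F : FlatData μ) (w y : ℝ) :
    Measurable fun p : (ℝ × ℝ) × Environment => pL F w y p.1 p.2 := by
  unfold pL
  refine measurable_pRr measurable_snd (fun z => ?_) (measurable_nr.comp measurable_fst)
    (measurable_nr.comp (measurable_fst.sub_const _))
  have : Measurable fun p : (ℝ × ℝ) × Environment => |F.al (pos p.1 z)| := by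
    unfold pos
    exact (F.al.continuous.measurable.comp (measurable_fst.const_add _)).abs
  exact measurableSet_le this measurable_const

lemma nr_mem_laneB (F : FlatData μ) {w : ℝ} (hw : 2 * fn F.al ≤ w) (θ : ℝ × ℝ) (y : ℝ) :
    nr (θ - y • F.b) ∈ laneB F w θ := by
  show |F.al (toR (nr (θ - y • F.b)) + θ)| ≤ w / 2
  have e1 : F.al (toR (nr (θ - y • F.b)) + θ)
      = F.al (toR (nr (θ - y • F.b)) + (θ - y • F.b)) := by
    rw [map_add, map_add, map_sub, map_smul, F.al_b]; simp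
  rw [e1]
  refine (abs_f_le _ _).trans ?_
  have h1 := l1_nr (θ - y • F.b)
  have := fn_nonneg F.al
  nlinarith

lemma nr_mem_laneB' (F : FlatData μ) {w : ℝ} (hw : 2 * fn F.al ≤ w) (θ : ℝ × ℝ) :
    nr θ ∈ laneB F w θ := by
  have := nr_mem_laneB F hw θ 0
  simpa using this

/-- the displacement -/
lemma disp_eq (F : FlatData μ) (θ : ℝ × ℝ) (y : ℝ) :
    ∃ r : ℝ × ℝ, l1 r ≤ 2 ∧ toR (nr (θ - y • F.b) - nr θ) = y • F.b + r := by
  refine ⟨(toR (nr (θ - y • F.b)) + (θ - y • F.b)) + (-1 : ℝ) • (toR (nr θ) + θ), ?_, ?_⟩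
  · refine (l1_add_le _ _).trans ?_
    rw [l1_smul]
    have : |(-1 : ℝ)| = 1 := by norm_num
    rw [this]
    linarith [l1_nr θ, l1_nr (θ - y • F.b)]
  · rw [toR_sub']
    simp only [neg_smul, one_smul]
    abel

lemma l1_disp_le (F : FlatData μ) (θ : ℝ × ℝ) (y : ℝ) :
    (n1 (nr (θ - y • F.b) - nr θ) : ℝ) ≤ |y| * l1 F.b + 2 := by
  obtain ⟨r, hr, he⟩ := disp_eq F θ y
  rw [← l1_toR, he]
  refine (l1_add_le _ _).trans ?_
  rw [l1_smul]
  linarith

lemma l1_disp_ge (F : FlatData μ) (θ : ℝ × ℝ) (y : ℝ) :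
    |y| * l1 F.b - 2 ≤ (n1 (nr (θ - y • F.b) - nr θ) : ℝ) := by
  obtain ⟨r, hr, he⟩ := disp_eq F θ y
  rw [← l1_toR, he]
  have h1 := l1_add_le (y • F.b + r) ((-1 : ℝ) • r)
  have h2 : y • F.b + r + (-1 : ℝ) • r = y • F.b := by
    simp only [neg_smul, one_smul]; abel
  rw [h2, l1_smul, l1_smul] at h1
  have : |(-1 : ℝ)| = 1 := by norm_num
  rw [this] at h1
  linarith

variable (h0 : G (Set.Iio 0) = 0) (h2 : Integrable (fun x : ℝ => x ^ 2) G)

include h0 h2

/-- for every offset: connection, integrability, mean -/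
lemma pL_theta (F : FlatData μ) {w : ℝ} (hw : 2 * fn F.al ≤ w) (y : ℝ) (θ : ℝ × ℝ) :
    Conn (laneB F w θ) (nr θ) (nr (θ - y • F.b)) ∧
      Integrable (fun t => pL F w y θ t) (iidLaw G) ∧
      ∫ t, pL F w y θ t ∂(iidLaw G) ≤ (|y| * l1 F.b + 2) * ∫ z, z ∂G := by
  have hfn := fn_nonneg F.al
  have m1 := nr_mem_laneB' F hw θ
  have m2 := nr_mem_laneB F hw θ y
  unfold pL
  rw [laneB_eq] at m1 m2 ⊢
  obtain ⟨c, i, l⟩ := lane_conn (G := G) h0 h2 (show fn F.al ≤ w by linarith) m1 m2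
  refine ⟨c, i, l.trans ?_⟩
  have hm : (0 : ℝ) ≤ ∫ z, z ∂G := integral_nonneg_of_ae (ae_nonneg h0)
  exact mul_le_mul_of_nonneg_right (l1_disp_le F θ y) hm

omit h2 in
lemma ae_nonneg_P0' : ∀ᵐ p ∂(P0 G), Nn p.2 := by
  unfold P0
  exact (Measure.quasiMeasurePreserving_snd (μ := UU2) (ν := iidLaw G)).ae (ae_Nn (G := G) h0)

lemma integrable_pL (F : FlatData μ) {w : ℝ} (hw : 2 * fn F.al ≤ w) (y : ℝ) :
    Integrable (fun p : (ℝ × ℝ) × Environment => pL F w y p.1 p.2) (P0 G) := by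
  unfold P0
  rw [integrable_prod_iff (measurable_pL F w y).aestronglyMeasurable]
  refine ⟨ae_of_all _ fun θ => (pL_theta h0 h2 F hw y θ).2.1, ?_⟩
  refine Integrable.of_bound (C := (|y| * l1 F.b + 2) * ∫ z, z ∂G) ?_ (ae_of_all _ fun θ => ?_)
  · exact (measurable_pL F w y).norm.stronglyMeasurable.integral_prod_right'.aestronglyMeasurable
  · have h3 : ∫ t, ‖pL F w y θ t‖ ∂(iidLaw G) = ∫ t, pL F w y θ t ∂(iidLaw G) := by
      refine integral_congr_ae ?_
      filter_upwards [ae_Nn (G := G) h0] with t ht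
      exact Real.norm_of_nonneg (pR_nonneg ht _ _ _)
    rw [h3, Real.norm_of_nonneg (integral_nonneg_of_ae (by
      filter_upwards [ae_Nn (G := G) h0] with t ht
      exact pR_nonneg ht _ _ _))]
    exact (pL_theta h0 h2 F hw y θ).2.2

lemma integral_pL (F : FlatData μ) {w : ℝ} (hw : 2 * fn F.al ≤ w) (y : ℝ) :
    ∫ p, pL F w y p.1 p.2 ∂(P0 G) = ∫ θ, ∫ t, pL F w y θ t ∂(iidLaw G) ∂UU2 := by
  have h := integrable_pL h0 h2 F hw y
  unfold P0 at h ⊢
  exact integral_prod _ h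

lemma integrable_pL' (F : FlatData μ) {w : ℝ} (hw : 2 * fn F.al ≤ w) (y : ℝ) :
    Integrable (fun θ => ∫ t, pL F w y θ t ∂(iidLaw G)) UU2 := by
  have h := integrable_pL h0 h2 F hw y
  unfold P0 at h
  exact h.integral_prod_left

/-- crude upper bound -/
lemma eL_le (F : FlatData μ) {w : ℝ} (hw : 2 * fn F.al ≤ w) (y : ℝ) :
    eL G F w y ≤ (|y| * l1 F.b + 2) * (∫ z, z ∂G) - y := by
  rw [eL_eq, integral_pL h0 h2 F hw y]
  have h3 : ∫ θ, ∫ t, pL F w y θ t ∂(iidLaw G) ∂UU2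
      ≤ ∫ _θ : ℝ × ℝ, (|y| * l1 F.b + 2) * (∫ z, z ∂G) ∂UU2 :=
    integral_mono (integrable_pL' h0 h2 F hw y) (integrable_const _)
      fun θ => (pL_theta h0 h2 F hw y θ).2.2
  rw [integral_const, probReal_univ, one_smul] at h3
  linarith

omit [IsProbabilityMeasure G] h0 h2 in
lemma laneB_shift (F : FlatData μ) (w : ℝ) (θ : ℝ × ℝ) (y : ℝ) :
    laneB F w (θ - y • F.b) = laneB F w θ := by
  ext z
  show |F.al (toR z + (θ - y • F.b))| ≤ w / 2 ↔ |F.al (toR z + θ)| ≤ w / 2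
  have : F.al (toR z + (θ - y • F.b)) = F.al (toR z + θ) := by
    rw [map_add, map_add, map_sub, map_smul, F.al_b]; simp
  rw [this]

omit [IsProbabilityMeasure G] h0 h2 in
lemma nr_add (θ : ℝ × ℝ) (m : ℤ × ℤ) : nr (θ + toR m) = nr θ - m := by
  unfold nr toR
  apply Prod.ext
  · show -round (θ.1 + (m.1 : ℝ)) = -round θ.1 - m.1
    rw [round_add_intCast]; ring
  · show -round (θ.2 + (m.2 : ℝ)) = -round θ.2 - m.2
    rw [round_add_intCast]; ring

omit [IsProbabilityMeasure G] h0 h2 in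
lemma inv_pL (F : FlatData μ) (w y : ℝ) : Inv (fun θ t => pL F w y θ t) := by
  intro m θ t
  show pR (act (tr m) t) (laneB F w (θ + toR m)) (nr (θ + toR m)) (nr (θ + toR m - y • F.b))
    = pR t (laneB F w θ) (nr θ) (nr (θ - y • F.b))
  have e1 : laneB F w (θ + toR m) = (tr m) ⁻¹' (laneB F w θ) := by
    ext z
    show |F.al (toR z + (θ + toR m))| ≤ w / 2 ↔ |F.al (toR (z + m) + θ)| ≤ w / 2
    rw [toR_add']
    have : toR z + (θ + toR m) = toR z + toR m + θ := by abel
    rw [this]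
  have e2 : θ + toR m - y • F.b = (θ - y • F.b) + toR m := by abel
  rw [e1, e2, nr_add, nr_add, pR_act]
  simp only [tr_apply, sub_add_cancel]

/-- **subadditivity** -/
lemma eL_add_le (F : FlatData μ) {w : ℝ} (hw : 2 * fn F.al ≤ w) (y y' : ℝ) :
    eL G F w (y + y') ≤ eL G F w y + eL G F w y' := by
  have hint := integrable_pL (G := G) h0 h2 F hw
  have hs := (inv_pL F w y').integrable_shift (G := G) (-(y • F.b)) (hint y')
  have hI := (inv_pL F w y').integral_shift (G := G) (measurable_pL F w y') (-(y • F.b))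
  have hle : ∫ p, pL F w (y + y') p.1 p.2 ∂(P0 G)
      ≤ ∫ p, (pL F w y p.1 p.2 + pL F w y' (p.1 + -(y • F.b)) p.2) ∂(P0 G) := by
    refine integral_mono_ae (hint _) ((hint y).add hs) ?_
    filter_upwards [ae_nonneg_P0' (G := G) h0] with p hp
    obtain ⟨c1, -, -⟩ := pL_theta (G := G) h0 h2 F hw y p.1
    obtain ⟨c2, -, -⟩ := pL_theta (G := G) h0 h2 F hw y' (p.1 + -(y • F.b))
    have e1 : p.1 + -(y • F.b) = p.1 - y • F.b := by abel
    have e2 : p.1 - y • F.b - y' • F.b = p.1 - (y + y') • F.b := by rw [add_smul]; abel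
    rw [e1, laneB_shift, e2] at c2
    have := pR_triangle hp c1 c2
    unfold pL
    rw [e1, laneB_shift, e2]
    exact this
  rw [integral_add (hint y) hs, hI] at hle
  rw [eL_eq, eL_eq, eL_eq]
  linarith

/-- monotonicity in the width -/
lemma eL_anti (F : FlatData μ) {w w' : ℝ} (hw : 2 * fn F.al ≤ w) (hww : w ≤ w') (y : ℝ) :
    eL G F w' y ≤ eL G F w y := by
  rw [eL_eq, eL_eq]
  have : ∫ p, pL F w' y p.1 p.2 ∂(P0 G) ≤ ∫ p, pL F w y p.1 p.2 ∂(P0 G) := by
    refine integral_mono_ae (integrable_pL h0 h2 F (hw.trans hww) y) (integrable_pL h0 h2 F hw y) ?_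
    filter_upwards [ae_nonneg_P0' (G := G) h0] with p hp
    obtain ⟨c1, -, -⟩ := pL_theta (G := G) h0 h2 F hw y p.1
    refine pR_anti hp ?_ c1
    intro z hz
    have : |F.al (pos p.1 z)| ≤ w / 2 := hz
    show |F.al (pos p.1 z)| ≤ w' / 2
    linarith
  linarith

/-- mean displacement -/
lemma mean_disp (F : FlatData μ) (f : ℝ × ℝ →L[ℝ] ℝ) (y : ℝ) :
    Integrable (fun θ : ℝ × ℝ => f (toR (nr (θ - y • F.b) - nr θ))) UU2 ∧
      ∫ θ, f (toR (nr (θ - y • F.b) - nr θ)) ∂UU2 = f (y • F.b) := by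
  have hX : CovV (Φ := Unit) (fun θ _ _ => nr θ) 1 := by
    refine ⟨measurable_nr.comp (measurable_fst.comp measurable_fst), ?_, ?_⟩
    · intro m θ t _
      exact nr_add θ m
    · intro θ t _
      have h3 := l1_nr θ
      unfold pos
      rw [Prod.norm_def]
      unfold l1 at h3
      rw [Real.norm_eq_abs, Real.norm_eq_abs]
      have := abs_nonneg (toR (nr θ) + θ).1
      have := abs_nonneg (toR (nr θ) + θ).2
      exact max_le (by linarith) (by linarith)
  obtain ⟨i1, i2⟩ := hX.integral_disp (G := G) (π := Measure.dirac ()) f (y • F.b)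
  have mp : MeasurePreserving (fun q : ((ℝ × ℝ) × Environment) × (Unit × Unit) => q.1.1)
      ((P0 G).prod ((Measure.dirac ()).prod (Measure.dirac ()))) UU2 := by
    unfold P0
    exact measurePreserving_fst.comp measurePreserving_fst
  have hm : Measurable fun θ : ℝ × ℝ => f (toR (nr (θ - y • F.b) - nr θ)) := by
    have h3 : Measurable (toR : ℤ × ℤ → ℝ × ℝ) := measurable_of_countable _
    exact f.continuous.measurable.comp (h3.comp
      ((measurable_nr.comp (measurable_id.sub_const _)).sub measurable_nr))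
  have e1 : (fun q : ((ℝ × ℝ) × Environment) × (Unit × Unit) =>
      f (toR (nr (q.1.1 - y • F.b))) - f (toR (nr q.1.1)))
      = (fun θ : ℝ × ℝ => f (toR (nr (θ - y • F.b) - nr θ))) ∘ fun q => q.1.1 := by
    funext q
    simp only [Function.comp, toR_sub', map_sub]
  simp only [e1] at i1 i2
  constructor
  · exact (mp.integrable_comp hm.aestronglyMeasurable).mp i1
  · rw [← i2]
    exact (mp_integral mp hm.aestronglyMeasurable).symm

/-- **(P0)** for lanes -/
lemma eL_nonneg (hμ : IsTC G μ) (F : FlatData μ) {w : ℝ} (hw : 2 * fn F.al ≤ w) (y : ℝ) :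
    0 ≤ eL G F w y := by
  rw [eL_eq, integral_pL h0 h2 F hw y]
  obtain ⟨i1, i2⟩ := mean_disp (G := G) h0 h2 F F.ρ y
  rw [map_smul, F.ρ_b, smul_eq_mul, mul_one] at i2
  have : ∫ θ, F.ρ (toR (nr (θ - y • F.b) - nr θ)) ∂UU2
      ≤ ∫ θ, ∫ t, pL F w y θ t ∂(iidLaw G) ∂UU2 := by
    refine integral_mono i1 (integrable_pL' h0 h2 F hw y) fun θ => ?_
    obtain ⟨c, i, -⟩ := pL_theta (G := G) h0 h2 F hw y θ
    have h3 : ET G (nr (θ - y • F.b) - nr θ) ≤ ∫ t, pL F w y θ t ∂(iidLaw G) := by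
      rw [← integral_pt]
      refine integral_mono_ae (integrable_pt h0 h2 _ _) i ?_
      filter_upwards [ae_Nn (G := G) h0] with t ht
      exact pt_le_pR ht c
    exact (F.ρ_le _).trans ((mu_le_ET h0 h2 hμ _).trans h3)
  linarith

/-! ### the rate -/

lemma rate_subadditive (F : FlatData μ) {w : ℝ} (hw : 2 * fn F.al ≤ w) :
    Subadditive fun n : ℕ => eL G F w n := by
  intro m n
  have := eL_add_le (G := G) h0 h2 F hw (m : ℝ) (n : ℝ)
  push_cast
  exact this

lemma rate_eq_lim (F : FlatData μ) {w : ℝ} (hw : 2 * fn F.al ≤ w) :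
    rate G F w = (rate_subadditive (G := G) h0 h2 F hw).lim := by
  unfold rate Subadditive.lim iInf
  congr 1
  ext c
  simp only [Set.mem_range, Set.mem_image, Set.mem_Ici]
  constructor
  · rintro ⟨n, rfl⟩
    exact ⟨n + 1, by omega, by push_cast; rfl⟩
  · rintro ⟨n, hn, rfl⟩
    refine ⟨n - 1, ?_⟩
    obtain ⟨k, rfl⟩ : ∃ k, n = k + 1 := ⟨n - 1, by omega⟩
    push_cast
    rfl

lemma rate_tendsto (hμ : IsTC G μ) (F : FlatData μ) {w : ℝ} (hw : 2 * fn F.al ≤ w) :
    Tendsto (fun n : ℕ => eL G F w n / n) atTop (𝓝 (rate G F w)) := by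
  rw [rate_eq_lim h0 h2 F hw]
  apply Subadditive.tendsto_lim
  refine ⟨0, ?_⟩
  rintro _ ⟨n, rfl⟩
  exact div_nonneg (eL_nonneg h0 h2 hμ F hw _) (Nat.cast_nonneg n)

lemma rate_nonneg (hμ : IsTC G μ) (F : FlatData μ) {w : ℝ} (hw : 2 * fn F.al ≤ w) :
    0 ≤ rate G F w := by
  unfold rate
  refine Real.iInf_nonneg fun n => ?_
  exact div_nonneg (eL_nonneg h0 h2 hμ F hw _) (by positivity)

/-- bounded differences -/
lemma eL_diff (F : FlatData μ) {w : ℝ} (hw : 2 * fn F.al ≤ w) (y s : ℝ) (hs : |s| ≤ 1) :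
    eL G F w (y + s) ≤ eL G F w y + ((l1 F.b + 2) * (∫ z, z ∂G) + 1) := by
  refine (eL_add_le h0 h2 F hw y s).trans ?_
  have h3 := eL_le (G := G) h0 h2 F hw s
  have hm : (0 : ℝ) ≤ ∫ z, z ∂G := integral_nonneg_of_ae (ae_nonneg h0)
  have h4 : |s| * l1 F.b ≤ 1 * l1 F.b := by
    have := l1_nonneg F.b
    gcongr
  have h5 := (abs_le.mp hs).1
  have h6 : (|s| * l1 F.b + 2) * (∫ z, z ∂G) ≤ (l1 F.b + 2) * (∫ z, z ∂G) := by
    have : |s| * l1 F.b + 2 ≤ l1 F.b + 2 := by linarith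
    gcongr
  linarith

/-- `rate * y ≤ eL y` for all real `y ≥ 0` -/
theorem rate_mul_le (hμ : IsTC G μ) (F : FlatData μ) {w : ℝ} (hw : 2 * fn F.al ≤ w) {y : ℝ}
    (hy : 0 ≤ y) : rate G F w * y ≤ eL G F w y := by
  obtain ⟨C, hC⟩ : ∃ C, C = (l1 F.b + 2) * (∫ z, z ∂G) + 1 := ⟨_, rfl⟩
  have hm : (0 : ℝ) ≤ ∫ z, z ∂G := integral_nonneg_of_ae (ae_nonneg h0)
  have hC0 : 0 ≤ C := by
    have := l1_nonneg F.b
    rw [hC]; positivity
  have hr0 := rate_nonneg h0 h2 hμ F hw
  -- natural numbers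
  have hnat : ∀ n : ℕ, rate G F w * n ≤ eL G F w n := by
    intro n
    rcases Nat.eq_zero_or_pos n with h | h
    · subst h
      simpa using eL_nonneg h0 h2 hμ F hw 0
    · have hb : BddBelow (Set.range fun n : ℕ => eL G F w ((n : ℝ) + 1) / ((n : ℝ) + 1)) := by
        refine ⟨0, ?_⟩
        rintro _ ⟨k, rfl⟩
        exact div_nonneg (eL_nonneg h0 h2 hμ F hw _) (by positivity)
      have h3 : rate G F w ≤ eL G F w (((n - 1 : ℕ) : ℝ) + 1) / (((n - 1 : ℕ) : ℝ) + 1) :=
        ciInf_le hb (n - 1)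
      have e : (((n - 1 : ℕ) : ℝ) + 1) = n := by
        have : n - 1 + 1 = n := by omega
        exact_mod_cast this
      rw [e, le_div_iff₀ (by exact_mod_cast h)] at h3
      exact h3
  -- real numbers, up to a constant
  have hreal : ∀ z : ℝ, 0 ≤ z → rate G F w * z ≤ eL G F w z + C := by
    intro z hz
    have h3 := hnat ⌈z⌉₊
    have h4 : z ≤ ⌈z⌉₊ := Nat.le_ceil z
    have h5 : (⌈z⌉₊ : ℝ) < z + 1 := Nat.ceil_lt_add_one hz
    have h6 := eL_diff (G := G) h0 h2 F hw z (⌈z⌉₊ - z) (by rw [abs_le]; constructor <;> linarith)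
    rw [add_sub_cancel, ← hC] at h6
    have h7 : rate G F w * z ≤ rate G F w * ⌈z⌉₊ := by gcongr
    linarith
  -- multiples
  have hmul : ∀ n : ℕ, eL G F w (((n : ℝ) + 1) * y) ≤ ((n : ℝ) + 1) * eL G F w y := by
    intro n
    induction n with
    | zero => simp
    | succ n ih =>
      have := eL_add_le (G := G) h0 h2 F hw (((n : ℝ) + 1) * y) y
      push_cast
      have e : ((n : ℝ) + 1 + 1) * y = ((n : ℝ) + 1) * y + y := by ring
      rw [e]
      linarith
  have ht : Tendsto (fun n : ℕ => eL G F w y + C / ((n : ℝ) + 1)) atTop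
      (𝓝 (eL G F w y + 0)) := by
    refine tendsto_const_nhds.add ?_
    exact tendsto_const_nhds.div_atTop (tendsto_atTop_add_const_right _ _ tendsto_natCast_atTop_atTop)
  rw [add_zero] at ht
  refine ge_of_tendsto' ht fun n => ?_
  have hpos : (0 : ℝ) < (n : ℝ) + 1 := by positivity
  have h3 := hreal (((n : ℝ) + 1) * y) (by positivity)
  have h4 := hmul n
  have h5 : rate G F w * y * ((n : ℝ) + 1) ≤ (eL G F w y + C / ((n : ℝ) + 1)) * ((n : ℝ) + 1) := by
    rw [add_mul, div_mul_cancel₀ _ hpos.ne']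
    linarith
  exact le_of_mul_le_mul_right h5 hpos

lemma rate_anti (hμ : IsTC G μ) (F : FlatData μ) {w w' : ℝ} (hw : 2 * fn F.al ≤ w)
    (hww : w ≤ w') : rate G F w' ≤ rate G F w := by
  refine le_of_tendsto_of_tendsto' (rate_tendsto h0 h2 hμ F (hw.trans hww))
    (rate_tendsto h0 h2 hμ F hw) fun n => ?_
  exact div_le_div_of_nonneg_right (eL_anti h0 h2 F hw hww _) (Nat.cast_nonneg n)

end Crest.Agent.R151.C710
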