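import Crest.Agent.R151.K4a

/-!
# R151/K5 — linear lower bounds by path counting (owner helper507)

`Bad c n x` : some self-avoiding path of length `n` from `x` costs less than `c n`.
`prob_Bad_le` : its probability is at most `2^{-n}` (for some `c > 0` depending on the law).
Hence `μ v ≥ c |v|₁`.
-/

set_option autoImplicit false

open MeasureTheory Filter ProbabilityTheory
open Crest.ProbabilityR.FirstPassage

namespace Crest.Agent.R151.K

/-- The four directions. -/
def dir : Fin 4 → ℤ × ℤ := ![(1, 0), (-1, 0), (0, 1), (0, -1)]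

/-- The edges of the walk from `x` with directions `f`. -/
def eds : ℤ × ℤ → List (Fin 4) → List (Sym2 (ℤ × ℤ))
  | _, [] => []
  | x, d :: f => s(x, x + dir d) :: eds (x + dir d) f

lemma length_eds (x : ℤ × ℤ) (f : List (Fin 4)) : (eds x f).length = f.length := by
  induction f generalizing x with
  | nil => rfl
  | cons d f ih => simp [eds, ih]

lemma eds_take (x : ℤ × ℤ) (f : List (Fin 4)) (n : ℕ) : (eds x f).take n = eds x (f.take n) := by
  induction f generalizing x n with
  | nil => simp [eds]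
  | cons d f ih =>
    cases n with
    | zero => simp [eds]
    | succ n => simp [eds, ih]

lemma exists_dir {x y : ℤ × ℤ} (h : squareLattice.Adj x y) : ∃ d, y = x + dir d := by
  obtain ⟨a, b⟩ := x
  obtain ⟨c, e⟩ := y
  rw [squareLattice, SimpleGraph.fromRel_adj] at h
  obtain ⟨-, h⟩ := h
  simp only at h
  rcases h with (⟨h1, h2⟩ | ⟨h1, h2⟩) | (⟨h1, h2⟩ | ⟨h1, h2⟩)
  · exact ⟨2, by simp only [dir, Prod.ext_iff]; simp; omega⟩
  · exact ⟨0, by simp only [dir, Prod.ext_iff]; simp; omega⟩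
  · exact ⟨3, by simp only [dir, Prod.ext_iff]; simp; omega⟩
  · exact ⟨1, by simp only [dir, Prod.ext_iff]; simp; omega⟩

lemma exists_eds {x y : ℤ × ℤ} (w : squareLattice.Walk x y) : ∃ f, w.edges = eds x f := by
  induction w with
  | nil => exact ⟨[], rfl⟩
  | @cons u v w' h p ih =>
    obtain ⟨f, hf⟩ := ih
    obtain ⟨d, rfl⟩ := exists_dir h
    exact ⟨d :: f, by simp [eds, hf]⟩

lemma n1_adj {x y : ℤ × ℤ} (h : squareLattice.Adj x y) : n1 (y - x) = 1 := by
  obtain ⟨a, b⟩ := x
  obtain ⟨c, e⟩ := y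
  rw [squareLattice, SimpleGraph.fromRel_adj] at h
  obtain ⟨-, h⟩ := h
  simp only [n1, Prod.mk_sub_mk] at h ⊢
  omega

lemma n1_le_length {x y : ℤ × ℤ} (w : squareLattice.Walk x y) : n1 (y - x) ≤ w.length := by
  induction w with
  | nil => simp [n1]
  | @cons u v w' h p ih =>
    have h1 := n1_adj h
    have h2 := n1_add_le (w' - v) (v - u)
    rw [sub_add_sub_cancel] at h2
    rw [SimpleGraph.Walk.length_cons]
    omega

/-- Cost of the path with directions `f`. -/
def cst (t : Environment) (x : ℤ × ℤ) (f : List (Fin 4)) : ℝ := ((eds x f).map t).sum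

/-- Some path of length `n` from `x` without repeated edges costs less than `c n`. -/
def Bad (c : ℝ) (n : ℕ) (x : ℤ × ℤ) : Set Environment :=
  {t | ∃ f : Fin n → Fin 4, (eds x (List.ofFn f)).Nodup ∧ cst t x (List.ofFn f) < c * n}

lemma measurable_cst (x : ℤ × ℤ) (f : List (Fin 4)) :
    Measurable fun t : Environment => cst t x f := by
  unfold cst
  have : ∀ l : List (Sym2 (ℤ × ℤ)), Measurable fun t : Environment => (l.map t).sum := by
    intro l
    induction l with
    | nil => simp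
    | cons e l ih =>
      simp only [List.map_cons, List.sum_cons]
      exact (measurable_pi_apply e).add ih
  exact this _

lemma measurableSet_Bad (c : ℝ) (n : ℕ) (x : ℤ × ℤ) : MeasurableSet (Bad c n x) := by
  have : Bad c n x = ⋃ f : Fin n → Fin 4, {t | (eds x (List.ofFn f)).Nodup ∧
      cst t x (List.ofFn f) < c * n} := by
    ext t; simp [Bad]
  rw [this]
  refine MeasurableSet.iUnion fun f => ?_
  by_cases h : (eds x (List.ofFn f)).Nodup
  · simp only [h, true_and]
    exact measurableSet_lt (measurable_cst _ _) measurable_const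
  · simp [h]

lemma walkCost_bypass_le {t : Environment} (ht : Nn t) {x y : ℤ × ℤ}
    (w : squareLattice.Walk x y) : walkCost t w.bypass ≤ walkCost t w := by
  unfold walkCost
  refine List.Sublist.sum_le_sum ((SimpleGraph.Walk.edges_bypass_sublist_edges w).map t) ?_
  intro a ha
  obtain ⟨e, -, rfl⟩ := List.mem_map.1 ha
  exact ht e

/-- outside the bad event every trail of length at least `n` costs at least `c n`. -/
lemma cost_ge_of_not_Bad {t : Environment} (ht : Nn t) {c : ℝ} {n : ℕ} {x y : ℤ × ℤ}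
    (hb : t ∉ Bad c n x) (w : squareLattice.Walk x y) (hw : w.edges.Nodup) (hn : n ≤ w.length) :
    c * n ≤ walkCost t w := by
  obtain ⟨f, hf⟩ := exists_eds w
  by_contra hlt
  rw [not_le] at hlt
  apply hb
  have hlen : f.length = w.length := by
    rw [← length_eds x f, ← hf, SimpleGraph.Walk.length_edges]
  have hlen2 : (f.take n).length = n := by rw [List.length_take, hlen]; omega
  obtain ⟨g, hg⟩ : ∃ g : Fin n → Fin 4, List.ofFn g = f.take n := by
    refine ⟨fun i => (f.take n).get (i.cast hlen2.symm), ?_⟩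
    apply List.ext_getElem
    · simp [hlen2]
    · intro i h1 h2
      simp
  refine ⟨g, ?_, ?_⟩
  · rw [hg, ← eds_take, ← hf]
    exact hw.sublist (List.take_sublist _ _)
  · refine lt_of_le_of_lt ?_ hlt
    rw [hg, cst, ← eds_take, ← hf, walkCost]
    refine List.Sublist.sum_le_sum ((List.take_sublist _ _).map t) ?_
    intro a ha
    obtain ⟨e, -, rfl⟩ := List.mem_map.1 ha
    exact ht e

lemma pt_ge_of_not_Bad {t : Environment} (ht : Nn t) {c : ℝ} {n : ℕ} {x y : ℤ × ℤ}
    (hb : t ∉ Bad c n x) (hn : n ≤ n1 (y - x)) : c * n ≤ passageTime t x y := by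
  refine le_pt fun w => ?_
  refine le_trans ?_ (walkCost_bypass_le ht w)
  exact cost_ge_of_not_Bad ht hb w.bypass (w.bypass_isPath.isTrail.edges_nodup)
    (hn.trans (n1_le_length _))

variable {G : Measure ℝ} [IsProbabilityMeasure G]

/-- the Laplace transform tends to zero -/
lemma exists_laplace (h0 : G (Set.Iio 0) = 0) (hz : G {0} = 0) {δ : ℝ} (hδ : 0 < δ) :
    ∃ θ : ℝ, 0 < θ ∧ ∫ x, Real.exp (-θ * x) ∂G ≤ δ := by
  have hpos : ∀ᵐ x ∂G, 0 < x := by
    have h1 := ae_nonneg h0
    have h2 : ∀ᵐ x ∂G, x ≠ 0 := by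
      rw [ae_iff]
      simpa using hz
    filter_upwards [h1, h2] with x hx hx'
    exact lt_of_le_of_ne hx hx'.symm
  have hlim : Tendsto (fun n : ℕ => ∫ x, Real.exp (-(n : ℝ) * x) ∂G) atTop
      (nhds (∫ _, (0 : ℝ) ∂G)) := by
    refine tendsto_integral_of_dominated_convergence (fun _ => 1) ?_ (integrable_const _) ?_ ?_
    · intro n
      have : Measurable fun x : ℝ => Real.exp (-(n : ℝ) * x) := by fun_prop
      exact this.aestronglyMeasurable
    · intro n
      filter_upwards [hpos] with x hx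
      rw [Real.norm_eq_abs, abs_of_nonneg (Real.exp_nonneg _)]
      exact Real.exp_le_one_iff.2 (by nlinarith [(Nat.cast_nonneg n : (0 : ℝ) ≤ n)])
    · filter_upwards [hpos] with x hx
      have h1 : Tendsto (fun n : ℕ => -(n : ℝ) * x) atTop atBot := by
        have := (tendsto_natCast_atTop_atTop (R := ℝ)).atTop_mul_const hx
        have := tendsto_neg_atTop_atBot.comp this
        refine this.congr fun n => ?_
        simp
      exact Real.tendsto_exp_atBot.comp h1
  rw [integral_zero] at hlim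
  have hev := (hlim.eventually_le_const hδ).and (eventually_gt_atTop 0)
  obtain ⟨n, hn1, hn2⟩ := hev.exists
  exact ⟨n, by exact_mod_cast hn2, hn1⟩

/-- Chernoff bound for a sum over a set of `n` distinct edges. -/
lemma chernoff_low (h0 : G (Set.Iio 0) = 0) {θ c δ : ℝ} (hθ : 0 < θ)
    (hδ : ∫ x, Real.exp (-θ * x) ∂G ≤ δ) (F : Finset (Sym2 (ℤ × ℤ))) :
    (iidLaw G).real {t | ∑ e ∈ F, t e < c * F.card} ≤ (Real.exp (θ * c) * δ) ^ F.card := by
  have hi : Integrable (fun x => Real.exp (-θ * x)) G := by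
    refine (integrable_const (1 : ℝ)).mono' ?_ ?_
    · have : Measurable fun x : ℝ => Real.exp (-θ * x) := by fun_prop
      exact this.aestronglyMeasurable
    · filter_upwards [ae_nonneg h0] with x hx
      rw [Real.norm_eq_abs, abs_of_nonneg (Real.exp_nonneg _)]
      exact Real.exp_le_one_iff.2 (by nlinarith)
  obtain ⟨h1, h2⟩ := exp_sum hi F
  have h3 := mul_meas_ge_le_integral_of_nonneg (μ := iidLaw G)
    (f := fun t : Environment => Real.exp (-θ * ∑ e ∈ F, t e))
    (Filter.Eventually.of_forall fun t => Real.exp_nonneg _) h1 (Real.exp (-θ * (c * F.card)))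
  have hsub : {t : Environment | ∑ e ∈ F, t e < c * F.card} ⊆
      {t | Real.exp (-θ * (c * F.card)) ≤ Real.exp (-θ * ∑ e ∈ F, t e)} := by
    intro t ht
    simp only [Set.mem_ofPred_eq] at ht ⊢
    exact Real.exp_le_exp.2 (by nlinarith)
  have h4 : (iidLaw G).real {t : Environment | ∑ e ∈ F, t e < c * F.card} ≤
      (iidLaw G).real {t | Real.exp (-θ * (c * F.card)) ≤ Real.exp (-θ * ∑ e ∈ F, t e)} :=
    measureReal_mono hsub
  have hpos : 0 < Real.exp (-θ * (c * F.card)) := Real.exp_pos _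
  have h5 : Real.exp (-θ * (c * F.card)) *
      (iidLaw G).real {t : Environment | ∑ e ∈ F, t e < c * F.card}
      ≤ (∫ x, Real.exp (-θ * x) ∂G) ^ F.card := by
    rw [← h2]
    exact (mul_le_mul_of_nonneg_left h4 hpos.le).trans h3
  have h6 : (∫ x, Real.exp (-θ * x) ∂G) ^ F.card ≤ δ ^ F.card :=
    pow_le_pow_left₀ (integral_nonneg fun x => Real.exp_nonneg _) hδ _
  have h7 : Real.exp (-θ * (c * F.card)) = ((Real.exp (θ * c)) ^ F.card)⁻¹ := by
    rw [← Real.exp_nat_mul, ← Real.exp_neg]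
    congr 1; ring
  rw [h7, inv_mul_le_iff₀ (by positivity)] at h5
  rw [mul_pow]
  exact h5.trans (mul_le_mul_of_nonneg_left h6 (by positivity))

/-- **Linear lower bound**: the probability that some path of length `n` without repeated edges
costs less than `c n` is at most `δ^n`. -/
theorem prob_Bad_le' (h0 : G (Set.Iio 0) = 0) (hz : G {0} = 0) {δ : ℝ} (hδ : 0 < δ) :
    ∃ c : ℝ, 0 < c ∧ ∀ (n : ℕ) (x : ℤ × ℤ), (iidLaw G).real (Bad c n x) ≤ δ ^ n := by
  obtain ⟨θ, hθ, hθ2⟩ := exists_laplace (G := G) h0 hz (δ := δ / 8) (by positivity)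
  refine ⟨Real.log 2 / θ, div_pos (Real.log_pos (by norm_num)) hθ, fun n x => ?_⟩
  have e1 : Real.exp (θ * (Real.log 2 / θ)) = 2 := by
    rw [mul_div_cancel₀ _ hθ.ne', Real.exp_log (by norm_num)]
  have hun : Bad (Real.log 2 / θ) n x ⊆ ⋃ f ∈ (Finset.univ : Finset (Fin n → Fin 4)),
      {t | (eds x (List.ofFn f)).Nodup ∧ cst t x (List.ofFn f) < Real.log 2 / θ * n} := by
    intro t ht
    simpa [Bad] using ht
  have hone : ∀ f : Fin n → Fin 4, (iidLaw G).real
      {t | (eds x (List.ofFn f)).Nodup ∧ cst t x (List.ofFn f) < Real.log 2 / θ * n}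
      ≤ (2 * (δ / 8)) ^ n := by
    intro f
    by_cases hf : (eds x (List.ofFn f)).Nodup
    · classical
      have hcard : (eds x (List.ofFn f)).toFinset.card = n := by
        rw [List.toFinset_card_of_nodup hf, length_eds, List.length_ofFn]
      have h1 := chernoff_low (G := G) h0 (c := Real.log 2 / θ) hθ hθ2
        (eds x (List.ofFn f)).toFinset
      rw [hcard, e1] at h1
      refine le_trans (measureReal_mono ?_) h1
      rintro t ⟨-, ht⟩
      simp only [Set.mem_ofPred_eq]
      rwa [List.sum_toFinset _ hf]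
    · simp only [hf, false_and, Set.ofPred_false, measureReal_empty]
      positivity
  calc (iidLaw G).real (Bad (Real.log 2 / θ) n x)
      ≤ (iidLaw G).real (⋃ f ∈ (Finset.univ : Finset (Fin n → Fin 4)),
        {t | (eds x (List.ofFn f)).Nodup ∧ cst t x (List.ofFn f) < Real.log 2 / θ * n}) :=
        measureReal_mono hun (measure_ne_top _ _)
    _ ≤ ∑ f ∈ (Finset.univ : Finset (Fin n → Fin 4)), (iidLaw G).real
        {t | (eds x (List.ofFn f)).Nodup ∧ cst t x (List.ofFn f) < Real.log 2 / θ * n} :=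
        measureReal_biUnion_finset_le _ _
    _ ≤ ∑ _f ∈ (Finset.univ : Finset (Fin n → Fin 4)), (2 * (δ / 8)) ^ n :=
        Finset.sum_le_sum fun f _ => hone f
    _ = (4 * (2 * (δ / 8))) ^ n := by
        rw [Finset.sum_const, Finset.card_univ, Fintype.card_fun, Fintype.card_fin,
          Fintype.card_fin, nsmul_eq_mul, mul_pow 4]
        push_cast
        rfl
    _ = δ ^ n := by congr 1; ring

theorem prob_Bad_le (h0 : G (Set.Iio 0) = 0) (hz : G {0} = 0) :
    ∃ c : ℝ, 0 < c ∧ ∀ (n : ℕ) (x : ℤ × ℤ), (iidLaw G).real (Bad c n x) ≤ (1 / 2) ^ n :=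
  prob_Bad_le' h0 hz (by norm_num)

/-- Linear lower bound for the means. -/
theorem exists_ET_ge (h0 : G (Set.Iio 0) = 0) (hz : G {0} = 0)
    (h2 : Integrable (fun x : ℝ => x ^ 2) G) :
    ∃ c : ℝ, 0 < c ∧ ∀ x : ℤ × ℤ, c * n1 x ≤ ET G x := by
  obtain ⟨c, hc, hb⟩ := prob_Bad_le (G := G) h0 hz
  refine ⟨c / 2, by positivity, fun x => ?_⟩
  rcases Nat.eq_zero_or_pos (n1 x) with hx | hx
  · rw [hx]; simpa using ET_nonneg h0 x
  have hb1 := hb (n1 x) 0
  have hhalf : ((1 : ℝ) / 2) ^ (n1 x) ≤ 1 / 2 := by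
    calc ((1 : ℝ) / 2) ^ (n1 x) ≤ (1 / 2) ^ 1 :=
          pow_le_pow_of_le_one (by norm_num) (by norm_num) hx
      _ = 1 / 2 := by norm_num
  have hm := measurableSet_Bad c (n1 x) 0
  have hcompl : 1 / 2 ≤ (iidLaw G).real (Bad c (n1 x) 0)ᶜ := by
    rw [probReal_compl_eq_one_sub hm]
    linarith
  have h3 : ∫ t, (Bad c (n1 x) 0)ᶜ.indicator (fun _ => c * (n1 x : ℝ)) t ∂(iidLaw G)
      ≤ ET G x := by
    unfold ET
    refine integral_mono_ae ((integrable_const _).indicator hm.compl) (integrable_pt h0 h2 _ _) ?_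
    filter_upwards [ae_Nn (G := G) h0] with t ht
    by_cases htb : t ∈ Bad c (n1 x) 0
    · simp only [Set.indicator, Set.mem_compl_iff, htb, not_true_eq_false, if_false]
      exact pt_nonneg ht _ _
    · simp only [Set.indicator, Set.mem_compl_iff, htb, not_false_eq_true, if_true]
      exact pt_ge_of_not_Bad ht htb (by rw [sub_zero])
  rw [integral_indicator hm.compl, setIntegral_const, smul_eq_mul] at h3
  have h4 : (0 : ℝ) ≤ c * n1 x := by positivity
  nlinarith

/-- `μ v ≥ c |v|₁`. -/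
theorem exists_mu_ge {μ : ℝ × ℝ → ℝ} (h0 : G (Set.Iio 0) = 0) (hz : G {0} = 0)
    (h2 : Integrable (fun x : ℝ => x ^ 2) G) (hμ : IsTC G μ) :
    ∃ c : ℝ, 0 < c ∧ ∀ v : ℝ × ℝ, c * l1 v ≤ μ v := by
  obtain ⟨c, hc, hE⟩ := exists_ET_ge (G := G) h0 hz h2
  refine ⟨c, hc, fun v => ?_⟩
  have h1 := ET_tendsto h0 h2 hμ v
  have h4 : Tendsto (fun s : ℝ => c * l1 v - (2 * c) / s) atTop (nhds (c * l1 v - 0)) :=
    tendsto_const_nhds.sub (tendsto_const_nhds.div_atTop tendsto_id)
  rw [sub_zero] at h4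
  refine le_of_tendsto_of_tendsto h4 h1 ?_
  filter_upwards [eventually_gt_atTop 0] with s hs
  rw [le_div_iff₀ hs]
  refine le_trans ?_ (hE (fl v s))
  have h5 : s * l1 v ≤ (n1 (fl v s) : ℝ) + 2 := by
    rw [← l1_toR]
    have h6 := l1_fl v s
    have h7 := l1_add_le (s • v - toR (fl v s)) (toR (fl v s))
    rw [sub_add_cancel] at h7
    have h8 : l1 (s • v) = s * l1 v := by
      simp only [l1, Prod.smul_fst, Prod.smul_snd, smul_eq_mul, abs_mul, abs_of_pos hs]
      ring
    linarith
  have h9 : (c * l1 v - 2 * c / s) * s = c * (s * l1 v - 2) := by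
    field_simp
  rw [h9]
  exact mul_le_mul_of_nonneg_left (by linarith) hc.le

end Crest.Agent.R151.K
private theorem rz_531fc03a94 : type_of% @_root_.Crest.Agent.R151.K.eds.eq_def := @_root_.Crest.Agent.R151.K.eds.eq_def -- L22
private theorem rz_c69784cf8f : type_of% @_root_.Crest.Agent.R151.K.eds.eq_1 := @_root_.Crest.Agent.R151.K.eds.eq_1 -- L22
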