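import Crest.Agent.R151.A565a
import Crest.Agent.R151.V12
import Crest.Agent.R151.V15
import Crest.Agent.R151.M192f

-- ▼ part R151/CL684
section

/-!
# R151 / S0214 part 2, CL684 — large deviations for consecutive cells (owner helper684)

Abstract form of the field `cells_large` of `E191.RowA.Law`: nonnegative `X l` with small balls,
`X` independent along even and along odd indices, and independent `Y l` with exponential tails.
-/

set_option autoImplicit false
set_option maxHeartbeats 400000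

open MeasureTheory ProbabilityTheory Filter
open scoped ENNReal
open Crest.ProbabilityR.FirstPassage

namespace Crest.Agent.R151.CL

section abstract

variable {Ω : Type*} [MeasurableSpace Ω] {μ : Measure Ω} [IsProbabilityMeasure μ]

lemma integrable_exp_neg {X : Ω → ℝ} (hX : Measurable X) (h0 : ∀ᵐ ω ∂μ, 0 ≤ X ω) :
    Integrable (fun ω => Real.exp (-1 * X ω)) μ := by
  refine Integrable.mono' (integrable_const (1 : ℝ)) (by fun_prop) ?_
  filter_upwards [h0] with ω hω
  rw [Real.norm_eq_abs, Real.abs_exp, Real.exp_le_one_iff]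
  linarith

/-- a small ball gives a small Laplace transform -/
lemma mgf_small {X : Ω → ℝ} (hX : Measurable X) (h0 : ∀ᵐ ω ∂μ, 0 ≤ X ω) {y p : ℝ}
    (h : μ.real {ω | X ω ≤ y} ≤ p) : mgf X μ (-1) ≤ p + Real.exp (-y) := by
  have hm : MeasurableSet {ω | X ω ≤ y} := measurableSet_le hX measurable_const
  have h1 : mgf X μ (-1) ≤ ∫ ω, ({ω | X ω ≤ y}.indicator (fun _ => (1 : ℝ)) ω +
      Real.exp (-y)) ∂μ := by
    unfold mgf
    refine integral_mono_ae (integrable_exp_neg hX h0)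
      (((integrable_const (1 : ℝ)).indicator hm).add (integrable_const _)) ?_
    filter_upwards [h0] with ω hω
    by_cases hy : X ω ≤ y
    · have h2 : Real.exp (-1 * X ω) ≤ 1 := by
        rw [Real.exp_le_one_iff]; linarith
      have h3 : {ω | X ω ≤ y}.indicator (fun _ => (1 : ℝ)) ω = 1 := by
        rw [Set.indicator_of_mem]; exact hy
      rw [h3]
      linarith [Real.exp_pos (-y)]
    · have h3 : {ω | X ω ≤ y}.indicator (fun _ => (1 : ℝ)) ω = 0 := by
        rw [Set.indicator_of_notMem]; exact hy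
      rw [h3, zero_add]
      apply Real.exp_le_exp.2
      push Not at hy
      linarith
  rw [integral_add ((integrable_const (1 : ℝ)).indicator hm) (integrable_const _),
    integral_indicator_const _ hm] at h1
  simp only [integral_const, probReal_univ, smul_eq_mul, mul_one, one_mul] at h1
  linarith

/-- bound for the exponential moments -/
noncomputable def K1 (C : ℝ) : ℝ :=
  1 + C * Real.exp (1 / (2 * C)) * (1 - Real.exp (-(1 / (2 * C))))⁻¹

lemma one_le_K1 {C : ℝ} (hC : 1 ≤ C) : 1 ≤ K1 C := by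
  have h1 : Real.exp (-(1 / (2 * C))) < 1 := by
    rw [Real.exp_lt_one_iff, neg_lt_zero]
    positivity
  have h2 : 0 ≤ (1 - Real.exp (-(1 / (2 * C))))⁻¹ := inv_nonneg.2 (by linarith)
  have h3 : 0 ≤ C * Real.exp (1 / (2 * C)) * (1 - Real.exp (-(1 / (2 * C))))⁻¹ := by
    positivity
  unfold K1
  linarith

/-- an exponential tail gives exponential moments -/
lemma mgf_tail {Y : Ω → ℝ} (hY : Measurable Y) {C : ℝ} (hC : 1 ≤ C)
    (h : ∀ y, 0 ≤ y → μ.real {ω | y ≤ Y ω} ≤ C * Real.exp (-y / C)) :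
    Integrable (fun ω => Real.exp (1 / (2 * C) * Y ω)) μ ∧ mgf Y μ (1 / (2 * C)) ≤ K1 C := by
  have hC0 : 0 < C := by linarith
  obtain ⟨lam, hlam⟩ : ∃ lam : ℝ, lam = 1 / (2 * C) := ⟨_, rfl⟩
  have hlam0 : 0 < lam := by rw [hlam]; positivity
  rw [← hlam]
  have hK : K1 C = 1 + C * Real.exp lam * (1 - Real.exp (-lam))⁻¹ := by
    unfold K1
    rw [hlam]
  have hK1 := one_le_K1 hC
  have key : ∫⁻ ω, ENNReal.ofReal (Real.exp (lam * Y ω)) ∂μ ≤ ENNReal.ofReal (K1 C) := by
    have h1 : ∀ ω, ENNReal.ofReal (Real.exp (lam * Y ω)) ≤ 1 + ∑' k : ℕ,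
        ENNReal.ofReal (Real.exp (lam * (k + 1))) *
          {ω | (k : ℝ) ≤ Y ω}.indicator (fun _ => (1 : ℝ≥0∞)) ω := by
      intro ω
      by_cases hy : Y ω < 0
      · refine le_trans ?_ le_self_add
        rw [← ENNReal.ofReal_one]
        apply ENNReal.ofReal_le_ofReal
        rw [Real.exp_le_one_iff]
        exact mul_nonpos_of_nonneg_of_nonpos hlam0.le hy.le
      · push Not at hy
        refine le_trans ?_ le_add_self
        refine le_trans ?_ (ENNReal.le_tsum ⌊Y ω⌋₊)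
        have h2 : ((⌊Y ω⌋₊ : ℕ) : ℝ) ≤ Y ω := Nat.floor_le hy
        have h5 : {ω' | ((⌊Y ω⌋₊ : ℕ) : ℝ) ≤ Y ω'}.indicator (fun _ => (1 : ℝ≥0∞)) ω = 1 := by
          apply Set.indicator_of_mem
          exact h2
        rw [h5, mul_one]
        apply ENNReal.ofReal_le_ofReal
        apply Real.exp_le_exp.2
        exact mul_le_mul_of_nonneg_left (Nat.lt_floor_add_one (Y ω)).le hlam0.le
    refine (lintegral_mono h1).trans ?_
    rw [lintegral_add_left measurable_const, lintegral_const, measure_univ, mul_one,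
      lintegral_tsum fun k => (Measurable.const_mul (measurable_const.indicator
        (measurableSet_le measurable_const hY)) _).aemeasurable]
    have h3 : ∀ k : ℕ, ∫⁻ ω, ENNReal.ofReal (Real.exp (lam * (k + 1))) *
          {ω | (k : ℝ) ≤ Y ω}.indicator (fun _ => (1 : ℝ≥0∞)) ω ∂μ ≤
        ENNReal.ofReal (C * Real.exp lam * Real.exp (-lam) ^ k) := by
      intro k
      rw [lintegral_const_mul _ (measurable_const.indicator
        (measurableSet_le measurable_const hY)),
        lintegral_indicator_const (measurableSet_le measurable_const hY), one_mul]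
      have h4 := h k (Nat.cast_nonneg k)
      rw [← ofReal_measureReal, ← ENNReal.ofReal_mul (Real.exp_pos _).le]
      apply ENNReal.ofReal_le_ofReal
      refine (mul_le_mul_of_nonneg_left h4 (Real.exp_pos _).le).trans (le_of_eq ?_)
      have h5 : -(k : ℝ) / C = -(2 * lam * k) := by
        rw [hlam]; field_simp
      rw [h5, ← Real.exp_nat_mul]
      have : Real.exp (lam * (k + 1)) * (C * Real.exp (-(2 * lam * k))) =
        C * (Real.exp (lam * (k + 1)) * Real.exp (-(2 * lam * k))) := by ring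
      rw [this, mul_assoc C, ← Real.exp_add, ← Real.exp_add]
      congr 2
      ring
    have hr0 : 0 ≤ Real.exp (-lam) := (Real.exp_pos _).le
    have hr1 : Real.exp (-lam) < 1 := by
      rw [Real.exp_lt_one_iff]; linarith
    have hs := (hasSum_geometric_of_lt_one hr0 hr1).mul_left (C * Real.exp lam)
    refine (add_le_add_right (ENNReal.tsum_le_tsum h3) 1).trans ?_
    rw [← ENNReal.ofReal_tsum_of_nonneg (fun k => by positivity) hs.summable, hs.tsum_eq,
      ← ENNReal.ofReal_one, ← ENNReal.ofReal_add zero_le_one, hK]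
    have : 0 < 1 - Real.exp (-lam) := by linarith
    positivity
  have hint : Integrable (fun ω => Real.exp (lam * Y ω)) μ := by
    refine ⟨by fun_prop, ?_⟩
    rw [hasFiniteIntegral_iff_ofReal (Eventually.of_forall fun ω => (Real.exp_pos _).le)]
    exact key.trans_lt ENNReal.ofReal_lt_top
  refine ⟨hint, ?_⟩
  unfold mgf
  rw [integral_eq_lintegral_of_nonneg_ae (Eventually.of_forall fun ω => (Real.exp_pos _).le)
    hint.aestronglyMeasurable]
  exact ENNReal.toReal_le_of_le_ofReal (by linarith) key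

/-- Chernoff bound for small sums -/
lemma chernoff_small {Z : ℕ → Ω → ℝ} (hind : iIndepFun Z μ) (hZ : ∀ i, Measurable (Z i)) {k : ℕ}
    (h0 : ∀ i < k, ∀ᵐ ω ∂μ, 0 ≤ Z i ω) {ρ : ℝ} (hρ : ∀ i < k, mgf (Z i) μ (-1) ≤ ρ) (b : ℝ) :
    μ.real {ω | ∑ i ∈ Finset.range k, Z i ω ≤ b * k} ≤ (Real.exp b * ρ) ^ k := by
  have h1 : Integrable (fun ω => Real.exp (-1 * (∑ i ∈ Finset.range k, Z i) ω)) μ :=
    hind.integrable_exp_mul_sum hZ fun i hi =>
      integrable_exp_neg (hZ i) (h0 i (Finset.mem_range.1 hi))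
  have h2 := measure_le_le_exp_mul_mgf (μ := μ) (X := ∑ i ∈ Finset.range k, Z i) (t := -1)
    (b * k) (by norm_num) h1
  simp only [Finset.sum_apply] at h2
  refine h2.trans ?_
  rw [hind.mgf_sum hZ]
  have h3 : ∏ i ∈ Finset.range k, mgf (Z i) μ (-1) ≤ ρ ^ k := by
    refine (Finset.prod_le_prod (fun i _ => mgf_nonneg)
      fun i hi => hρ i (Finset.mem_range.1 hi)).trans ?_
    rw [Finset.prod_const, Finset.card_range]
  rw [mul_pow, ← Real.exp_nat_mul]
  refine mul_le_mul (le_of_eq ?_) h3 ?_ (Real.exp_pos _).le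
  · congr 1; ring
  · exact Finset.prod_nonneg fun i _ => mgf_nonneg

/-- Chernoff bound for large sums -/
lemma chernoff_large {Z : ℕ → Ω → ℝ} (hind : iIndepFun Z μ) (hZ : ∀ i, Measurable (Z i)) {k : ℕ}
    {C : ℝ} (hC : 1 ≤ C) (h : ∀ i < k, ∀ y, 0 ≤ y → μ.real {ω | y ≤ Z i ω} ≤
      C * Real.exp (-y / C)) (b : ℝ) :
    μ.real {ω | b ≤ ∑ i ∈ Finset.range k, Z i ω} ≤ Real.exp (-(1 / (2 * C)) * b) * K1 C ^ k := by
  have h1 : Integrable (fun ω => Real.exp (1 / (2 * C) * (∑ i ∈ Finset.range k, Z i) ω)) μ :=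
    hind.integrable_exp_mul_sum hZ fun i hi =>
      (mgf_tail (hZ i) hC (h i (Finset.mem_range.1 hi))).1
  have h2 := measure_ge_le_exp_mul_mgf (μ := μ) (X := ∑ i ∈ Finset.range k, Z i)
    (t := 1 / (2 * C)) b (by positivity) h1
  simp only [Finset.sum_apply] at h2
  refine h2.trans ?_
  rw [hind.mgf_sum hZ]
  refine mul_le_mul_of_nonneg_left ?_ (Real.exp_pos _).le
  refine (Finset.prod_le_prod (fun i _ => mgf_nonneg)
      fun i hi => (mgf_tail (hZ i) hC (h i (Finset.mem_range.1 hi))).2).trans ?_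
  rw [Finset.prod_const, Finset.card_range]

lemma sum_range_parity (f : ℕ → ℝ) (m : ℕ) : ∑ l ∈ Finset.range m, f l =
    ∑ i ∈ Finset.range ((m + 1) / 2), f (2 * i) + ∑ i ∈ Finset.range (m / 2), f (2 * i + 1) := by
  induction m with
  | zero => simp
  | succ m ih =>
    rw [Finset.sum_range_succ, ih]
    rcases Nat.even_or_odd' m with ⟨k, rfl | rfl⟩
    · have h1 : (2 * k + 1) / 2 = k := by omega
      have h2 : (2 * k + 1 + 1) / 2 = k + 1 := by omega
      have h3 : 2 * k / 2 = k := by omega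
      rw [h1, h2, h3, Finset.sum_range_succ (fun i => f (2 * i)) k]
      ring
    · have h1 : (2 * k + 1 + 1) / 2 = k + 1 := by omega
      have h2 : (2 * k + 1 + 1 + 1) / 2 = k + 1 := by omega
      have h3 : (2 * k + 1) / 2 = k := by omega
      rw [h1, h2, h3, Finset.sum_range_succ (fun i => f (2 * i + 1)) k]
      ring

/-- the constant of `cells_large` -/
noncomputable def C2 (C : ℝ) : ℝ := 4 * C + 2 * Real.log (K1 C) + Real.log (8 * C) + 4

lemma le_C2 {C : ℝ} (hC : 1 ≤ C) : 4 * C ≤ C2 C ∧ 2 * Real.log (K1 C) + 2 ≤ C2 C ∧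
    Real.log (8 * C) + 3 ≤ C2 C ∧ 4 ≤ C2 C := by
  have h1 : 0 ≤ Real.log (K1 C) := Real.log_nonneg (one_le_K1 hC)
  have h2 : 0 ≤ Real.log (8 * C) := Real.log_nonneg (by linarith)
  unfold C2
  refine ⟨?_, ?_, ?_, ?_⟩ <;> linarith

/-- **large deviations for consecutive cells**, unconditional form -/
theorem cells_large {C : ℝ} (hC : 1 ≤ C) {n : ℕ} (hn : 1 ≤ n) {m : ℕ} {X Y : ℕ → Ω → ℝ}
    (hX : ∀ l, Measurable (X l)) (hY : ∀ l, Measurable (Y l))
    (h0 : ∀ l < m, ∀ᵐ ω ∂μ, 0 ≤ X l ω)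
    (hXe : iIndepFun (fun i => X (2 * i)) μ) (hXo : iIndepFun (fun i => X (2 * i + 1)) μ)
    (hYi : iIndepFun Y μ)
    (hsm : ∀ l < m, ∀ y, 0 ≤ y → μ.real {ω | X l ω ≤ y} ≤ C * (y + 2) / (n : ℝ) ^ 5)
    (htl : ∀ l ≤ m, ∀ y, 0 ≤ y → μ.real {ω | y ≤ Y l ω} ≤ C * Real.exp (-y / C)) :
    μ.real {ω | ∑ l ∈ Finset.range m, X l ω - 2 * ∑ l ∈ Finset.range (m + 1), Y l ω ≤ m} ≤
      Real.exp (-((Real.log n / C2 C - C2 C) * m)) := by
  obtain ⟨b1, b2, b3, b4⟩ := le_C2 hC
  have hC0 : 0 < C := by linarith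
  have hC2 : 0 < C2 C := by linarith
  have hn1 : (1 : ℝ) ≤ n := by exact_mod_cast hn
  have hn0 : (0 : ℝ) < n := by linarith
  obtain ⟨L, hL⟩ : ∃ L : ℝ, L = Real.log n := ⟨_, rfl⟩
  have hL0 : 0 ≤ L := by rw [hL]; exact Real.log_nonneg hn1
  have hexpL : Real.exp L = n := by rw [hL]; exact Real.exp_log hn0
  rw [← hL]
  rcases Nat.eq_zero_or_pos m with rfl | hm
  · simp only [CharP.cast_eq_zero, mul_zero, neg_zero, Real.exp_zero]
    exact measureReal_le_one
  have hm1 : (1 : ℝ) ≤ m := by exact_mod_cast hm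
  -- trivial range
  by_cases htriv : L / C2 C - C2 C ≤ 0
  · refine measureReal_le_one.trans ?_
    rw [Real.one_le_exp_iff, neg_nonneg]
    exact mul_nonpos_of_nonpos_of_nonneg htriv (by linarith)
  push Not at htriv
  have hLC : C2 C ^ 2 < L := by
    rw [sub_pos, lt_div_iff₀ hC2] at htriv
    nlinarith
  have hL4 : Real.log (8 * C) + 3 ≤ L := by nlinarith
  -- Laplace transforms of the cells
  obtain ⟨ρ, hρ⟩ : ∃ ρ : ℝ, ρ = Real.exp (1 + L) * (8 * C / (n : ℝ) ^ 4) := ⟨_, rfl⟩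
  have hmgf : ∀ l < m, mgf (X l) μ (-1) ≤ 8 * C / (n : ℝ) ^ 4 := by
    intro l hl
    have h1 := mgf_small (hX l) (h0 l hl) (hsm l hl (5 * L) (by linarith))
    refine h1.trans ?_
    have h2 : Real.exp (-(5 * L)) = 1 / (n : ℝ) ^ 5 := by
      rw [Real.exp_neg, ← hexpL, ← Real.exp_nat_mul, one_div]
      norm_num
    have h3 : L ≤ n := by
      rw [hL]; exact (Real.log_le_sub_one_of_pos hn0).trans (by linarith)
    rw [h2, ← add_div, div_le_div_iff₀ (by positivity) (by positivity)]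
    have h4 : C * (5 * L + 2) + 1 ≤ 8 * C * n := by nlinarith
    calc (C * (5 * L + 2) + 1) * (n : ℝ) ^ 4 ≤ (8 * C * n) * (n : ℝ) ^ 4 :=
          mul_le_mul_of_nonneg_right h4 (by positivity)
      _ = 8 * C * (n : ℝ) ^ 5 := by ring
  have hρe : ρ = Real.exp (1 + L + Real.log (8 * C) - 4 * L) := by
    rw [hρ, Real.exp_sub, Real.exp_add _ (Real.log (8 * C)), Real.exp_log (by linarith)]
    have : Real.exp (4 * L) = (n : ℝ) ^ 4 := by
      rw [← hexpL, ← Real.exp_nat_mul]; norm_num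
    rw [this]
    ring
  have hpow : ∀ k : ℕ, m ≤ 3 * k → ρ ^ k ≤ Real.exp (-((L / C2 C - (C2 C - 2)) * m)) := by
    intro k hk
    rw [hρe, ← Real.exp_nat_mul]
    apply Real.exp_le_exp.2
    have hkR : (m : ℝ) ≤ 3 * k := by exact_mod_cast hk
    have h1 : 1 + L + Real.log (8 * C) - 4 * L ≤ -(2 * L) := by linarith
    have h2 : (k : ℝ) * (1 + L + Real.log (8 * C) - 4 * L) ≤ k * (-(2 * L)) :=
      mul_le_mul_of_nonneg_left h1 (Nat.cast_nonneg k)
    have h3 : L / C2 C ≤ L / 4 := div_le_div_of_nonneg_left hL0 (by norm_num) b4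
    have h4 : (L / C2 C - (C2 C - 2)) * m ≤ (L / 4) * m :=
      mul_le_mul_of_nonneg_right (by linarith) (by linarith)
    have h5 : L * m ≤ L * (3 * k) := mul_le_mul_of_nonneg_left hkR hL0
    nlinarith
  -- the fences
  have hfen : μ.real {ω | L * m / 2 ≤ ∑ l ∈ Finset.range (m + 1), Y l ω} ≤
      Real.exp (-((L / C2 C - (C2 C - 2)) * m)) := by
    refine (chernoff_large hYi hY hC (fun i hi => htl i (by omega)) (L * m / 2)).trans ?_
    have h1 : K1 C ^ (m + 1) = Real.exp ((m + 1) * Real.log (K1 C)) := by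
      have hK := one_le_K1 hC
      have : Real.exp (((m + 1 : ℕ) : ℝ) * Real.log (K1 C)) = K1 C ^ (m + 1) := by
        rw [Real.exp_nat_mul, Real.exp_log (by linarith)]
      rw [← this]; push_cast; rfl
    rw [h1, ← Real.exp_add]
    apply Real.exp_le_exp.2
    have h2 : 0 ≤ Real.log (K1 C) := Real.log_nonneg (one_le_K1 hC)
    have h3 : L / C2 C ≤ L / (4 * C) := div_le_div_of_nonneg_left hL0 (by linarith) b1
    have h4 : -(1 / (2 * C)) * (L * m / 2) = -(L / (4 * C)) * m := by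
      field_simp; ring
    rw [h4]
    have h5 : L / C2 C * m ≤ L / (4 * C) * m := mul_le_mul_of_nonneg_right h3 (by linarith)
    have h6 : ((m : ℝ) + 1) * Real.log (K1 C) ≤ (2 * m) * Real.log (K1 C) :=
      mul_le_mul_of_nonneg_right (by linarith) h2
    have h7 : (2 * Real.log (K1 C)) * m ≤ (C2 C - 2) * m :=
      mul_le_mul_of_nonneg_right (by linarith) (by linarith)
    nlinarith
  -- the cells
  have hev : μ.real {ω | ∑ i ∈ Finset.range ((m + 1) / 2), X (2 * i) ω ≤
      (1 + L) * ((m + 1) / 2 : ℕ)} ≤ Real.exp (-((L / C2 C - (C2 C - 2)) * m)) := by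
    refine (chernoff_small hXe (fun i => hX _) (fun i hi => h0 _ (by omega))
      (fun i hi => hmgf _ (by omega)) (1 + L)).trans ?_
    rw [← hρ]
    exact hpow _ (by omega)
  have hod : 2 ≤ m → μ.real {ω | ∑ i ∈ Finset.range (m / 2), X (2 * i + 1) ω ≤
      (1 + L) * (m / 2 : ℕ)} ≤ Real.exp (-((L / C2 C - (C2 C - 2)) * m)) := by
    intro hm2
    refine (chernoff_small hXo (fun i => hX _) (fun i hi => h0 _ (by omega))
      (fun i hi => hmgf _ (by omega)) (1 + L)).trans ?_
    rw [← hρ]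
    exact hpow _ (by omega)
  have hthree : 3 * Real.exp (-((L / C2 C - (C2 C - 2)) * m)) ≤
      Real.exp (-((L / C2 C - C2 C) * m)) := by
    have h1 : (3 : ℝ) ≤ Real.exp (2 * m) := by
      have := Real.add_one_le_exp (2 * (m : ℝ))
      linarith
    have h2 : Real.exp (-((L / C2 C - C2 C) * m)) =
        Real.exp (2 * m) * Real.exp (-((L / C2 C - (C2 C - 2)) * m)) := by
      rw [← Real.exp_add]; congr 1; ring
    rw [h2]
    exact mul_le_mul_of_nonneg_right h1 (Real.exp_pos _).le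
  refine le_trans ?_ hthree
  have hsplit : {ω | ∑ l ∈ Finset.range m, X l ω - 2 * ∑ l ∈ Finset.range (m + 1), Y l ω ≤ m} ⊆
      {ω | L * m / 2 ≤ ∑ l ∈ Finset.range (m + 1), Y l ω} ∪
      ({ω | ∑ i ∈ Finset.range ((m + 1) / 2), X (2 * i) ω ≤ (1 + L) * ((m + 1) / 2 : ℕ)} ∪
       {ω | 2 ≤ m ∧ ∑ i ∈ Finset.range (m / 2), X (2 * i + 1) ω ≤ (1 + L) * (m / 2 : ℕ)}) := by
    intro ω hω
    simp only [Set.mem_ofPred_eq] at hω
    by_cases h1 : L * m / 2 ≤ ∑ l ∈ Finset.range (m + 1), Y l ω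
    · exact Or.inl h1
    right
    push Not at h1
    have h2 : ∑ l ∈ Finset.range m, X l ω < (1 + L) * m := by linarith
    rw [sum_range_parity (fun l => X l ω)] at h2
    by_cases h3 : ∑ i ∈ Finset.range ((m + 1) / 2), X (2 * i) ω ≤ (1 + L) * ((m + 1) / 2 : ℕ)
    · exact Or.inl h3
    right
    push Not at h3
    have h4 : (((m + 1) / 2 : ℕ) : ℝ) + ((m / 2 : ℕ) : ℝ) = m := by
      have : (m + 1) / 2 + m / 2 = m := by omega
      exact_mod_cast this
    have h5 : ∑ i ∈ Finset.range (m / 2), X (2 * i + 1) ω < (1 + L) * (m / 2 : ℕ) := by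
      have : (1 + L) * (m : ℝ) = (1 + L) * ((m + 1) / 2 : ℕ) + (1 + L) * (m / 2 : ℕ) := by
        rw [← mul_add, h4]
      linarith
    refine ⟨?_, h5.le⟩
    by_contra hm2
    have hm' : m = 1 := by omega
    subst hm'
    norm_num at h5
  refine (measureReal_mono hsplit (measure_ne_top _ _)).trans ?_
  refine (measureReal_union_le _ _).trans ?_
  have h6 := measureReal_union_le (μ := μ)
    {ω | ∑ i ∈ Finset.range ((m + 1) / 2), X (2 * i) ω ≤ (1 + L) * ((m + 1) / 2 : ℕ)}
    {ω | 2 ≤ m ∧ ∑ i ∈ Finset.range (m / 2), X (2 * i + 1) ω ≤ (1 + L) * (m / 2 : ℕ)}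
  have h7 : μ.real {ω | 2 ≤ m ∧ ∑ i ∈ Finset.range (m / 2), X (2 * i + 1) ω ≤
      (1 + L) * (m / 2 : ℕ)} ≤ Real.exp (-((L / C2 C - (C2 C - 2)) * m)) := by
    by_cases hm2 : 2 ≤ m
    · refine le_trans (measureReal_mono ?_ (measure_ne_top _ _)) (hod hm2)
      intro ω hω
      exact hω.2
    · have : {ω | 2 ≤ m ∧ ∑ i ∈ Finset.range (m / 2), X (2 * i + 1) ω ≤
          (1 + L) * (m / 2 : ℕ)} = ∅ := by
        ext ω; simp [hm2]
      rw [this, measureReal_empty]
      exact (Real.exp_pos _).le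
  linarith

end abstract

/-! ### independence from disjoint dependence sets -/

section dep

variable (G : Measure ℝ) [IsProbabilityMeasure G]

theorem iIndepFun_of_dependsOn {ι : Type*} {E : ι → Set (Sym2 (ℤ × ℤ))}
    (hE : ∀ i j, i ≠ j → Disjoint (E i) (E j)) {f : ι → Environment → ℝ}
    (hf : ∀ i, Measurable (f i)) (hd : ∀ i, DependsOn (f i) (E i)) :
    iIndepFun f (iidLaw G) := by
  classical
  rw [iIndepFun_iff_measure_inter_preimage_eq_mul]
  intro S sets hS
  induction S using Finset.induction_on with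
  | empty => simp
  | insert a S ha ih =>
    rw [Finset.prod_insert ha, Finset.set_biInter_insert,
      ← ih fun i hi => hS i (Finset.mem_insert_of_mem hi)]
    have h1 : Indep (A.sig (E a)) (A.sig (⋃ i ∈ S, E i)) (iidLaw G) := by
      apply A.indep_sig
      rw [Set.disjoint_iUnion₂_right]
      intro i hi
      exact hE a i (by rintro rfl; exact ha hi)
    refine (Indep_iff _ _ _).1 h1 _ _ ?_ ?_
    · exact A.comap_le_sig (hf a) (hd a) _ ⟨sets a, hS a (Finset.mem_insert_self _ _), rfl⟩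
    · refine @Finset.measurableSet_biInter _ _ (A.sig (⋃ i ∈ S, E i)) _ S ?_
      intro i hi
      have h2 : DependsOn (f i) (⋃ i ∈ S, E i) := by
        intro t t' htt
        exact hd i fun e he => htt e (Set.mem_biUnion hi he)
      exact A.comap_le_sig (hf i) h2 _ ⟨sets i, hS i (Finset.mem_insert_of_mem hi), rfl⟩

theorem iIndepFun_glue {ι : Type*} {E0 : Set (Sym2 (ℤ × ℤ))} {D : ι → Set (Sym2 (ℤ × ℤ))}
    (hD : ∀ i j, i ≠ j → Disjoint (D i \ E0) (D j \ E0)) {f : ι → Environment → ℝ}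
    (hf : ∀ i, Measurable (f i)) (hd : ∀ i, DependsOn (f i) (D i)) (s : Environment) :
    iIndepFun (fun i t => f i (V.glue E0 s t)) (iidLaw G) := by
  refine iIndepFun_of_dependsOn G hD (fun i => (hf i).comp ?_) fun i t t' htt => ?_
  · exact (V.measurable_glue E0).comp measurable_prodMk_left
  · refine hd i fun e he => ?_
    by_cases h : e ∈ E0
    · rw [V.glue_of_mem h, V.glue_of_mem h]
    · rw [V.glue_of_notMem h, V.glue_of_notMem h]
      exact htt e ⟨he, h⟩



end dep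

end Crest.Agent.R151.CL
end

-- ▼ part R151/CL684b

/-!
# R151 / S0214 part 2, CL684b — the field `cells_large` of the row instance (owner helper684)

From conditional (given the strips) one-cell and one-fence bounds on a typical set `TS ∈ σ(S)`, with
the gauge replaced by an `S`-measurable `ρ` (`|gauge - ρ| ≤ A ≤ l` on `T ⊆ TS`), the field
`cells_large` of `(M192.rowA h W L y l c δ T).Law`.
-/

set_option autoImplicit false
set_option maxHeartbeats 400000

open MeasureTheory ProbabilityTheory Filter Set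
open scoped ENNReal
open Crest.ProbabilityR.FirstPassage

namespace Crest.Agent.R151.CL

open Crest.Agent.R151.K
open B710 (FlatData)
open Q (Hwy P0 UU UU2 rg pos)
open V (glue E0 cs SInv)
open M192 (Row pe skp rowA RowOK)

variable {μ : ℝ × ℝ → ℝ} {F : FlatData μ}

/-- hull kernel, as a function on rows -/
noncomputable def hkq (h : Hwy F) (d : ℝ × ℝ) (I : Set ℝ) (a b : ℝ) (q : Row (ℝ × ℝ)) : ℝ :=
  h.hk d I a b q.1.1 q.1.2 q.2

/-- hull of the cell at `x` -/
noncomputable def cellk (h : Hwy F) (W : ℝ) (d : ℝ × ℝ) (x : ℝ) : Row (ℝ × ℝ) → ℝ :=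
  hkq h d (Icc (x * W) ((x + 7 / 32) * W)) ((x + 6 / 32) * W) ((x + 1 / 32) * W)

/-- hull of the fence of width `w` at `x` -/
noncomputable def fenk (h : Hwy F) (W c w : ℝ) (d : ℝ × ℝ) (x : ℝ) : Row (ℝ × ℝ) → ℝ :=
  hkq h d (Icc (x * W + c) ((x + w) * W - c)) (x * W + c) ((x + w) * W - c)

lemma measurable_hkq (h : Hwy F) (d : ℝ × ℝ) {I : Set ℝ} (hI : MeasurableSet I) (a b : ℝ) :
    Measurable (hkq h d I a b) :=
  h.meas_hk (measurable_fst.comp measurable_fst) (measurable_snd.comp measurable_fst)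
    measurable_snd d hI a b

lemma dep_hkq (h : Hwy F) (d : ℝ × ℝ) (I : Set ℝ) (a b : ℝ) (θ φ : ℝ × ℝ) :
    DependsOn (fun t => hkq h d I a b ((θ, t), φ)) (E0 h d θ ∪ edgesIn (rg F I θ)) :=
  V.dep_hk h d I a b θ φ

variable {h : Hwy F} {W L y l c δ v C : ℝ} {T : Set (Row (ℝ × ℝ))}

lemma cell_nonneg (hO : RowOK h W L y l c δ v C) (hc4 : 4 * c ≤ 1 / 32 * W) {x : ℝ}
    (h1 : |x| ≤ v) (h2 : |x + 7 / 32| ≤ v) (q : Row (ℝ × ℝ)) :
    0 ≤ (rowA h W L y l c δ T).cell x q := by
  have hW := hO.W_pos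
  have hC := hO.C_nonneg
  have hκ := h.κ_nonneg
  have hc := hO.c_ge
  rw [abs_le] at h1 h2
  have a1 := hO.lab (x := x + 6 / 32) (by rw [abs_le]; constructor <;> linarith [h1.1, h2.2])
  have a2 := hO.lab (x := x + 1 / 32) (by rw [abs_le]; constructor <;> linarith [h1.1, h2.2])
  refine div_nonneg ?_ hO.l_pos.le
  refine M192.sk_nonneg hO.routable a1.1 a2.2 (σ₁ := (x + 6 / 32) * W + C)
    (σ₂ := (x + 1 / 32) * W - C - h.κ) (Icc_subset_Icc ?_ ?_) (by linarith) (by linarith)
    (M192.pe_nn _) _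
  · rw [le_sub_iff_add_le, le_min_iff]
    constructor <;> nlinarith
  · rw [← le_sub_iff_add_le, max_le_iff]
    constructor <;> nlinarith

lemma disjoint_Icc_of_lt {a b a' b' : ℝ} (hb : b < a') : Disjoint (Icc a b) (Icc a' b') := by
  rw [Set.disjoint_left]
  rintro z ⟨-, h1⟩ ⟨h2, -⟩
  linarith

/-- functions of hulls over disjoint lanes are conditionally independent -/
theorem iIndepFun_hkq (h : Hwy F) (G : Measure ℝ) [IsProbabilityMeasure G] (d : ℝ × ℝ)
    (I : ℕ → Set ℝ) (hI : ∀ i, MeasurableSet (I i)) (hd : ∀ i j, i < j → Disjoint (I i) (I j))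
    (a b : ℕ → ℝ) {ψ : ℝ → ℝ} (hψ : Measurable ψ) (p : Row (ℝ × ℝ)) :
    iIndepFun (fun (i : ℕ) (t : Environment) => ψ (hkq h d (I i) (a i) (b i)
      (cs (E0 h d) p t))) (iidLaw G) := by
  have key := iIndepFun_glue G (E0 := E0 h d p.1.1)
      (D := fun i : ℕ => E0 h d p.1.1 ∪ edgesIn (rg F (I i) p.1.1))
      (f := fun i t => ψ (hkq h d (I i) (a i) (b i) ((p.1.1, t), p.2))) ?_ ?_ ?_ p.1.2
  · exact key
  · have hdis : ∀ i j, Disjoint (I i) (I j) →
        Disjoint ((E0 h d p.1.1 ∪ edgesIn (rg F (I i) p.1.1)) \ E0 h d p.1.1)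
          ((E0 h d p.1.1 ∪ edgesIn (rg F (I j) p.1.1)) \ E0 h d p.1.1) := by
      intro i j hIJ
      refine (V.disjoint_rg (F := F) hIJ p.1.1).mono ?_ ?_
      · rintro e ⟨he1 | he1, he2⟩
        · exact absurd he1 he2
        · exact he1
      · rintro e ⟨he1 | he1, he2⟩
        · exact absurd he1 he2
        · exact he1
    intro i j hij
    rcases lt_or_gt_of_ne hij with h1 | h1
    · exact hdis i j (hd i j h1)
    · exact hdis i j (hd j i h1).symm
  · intro i
    refine hψ.comp ((measurable_hkq h d (hI i) _ _).comp ?_)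
    exact (measurable_const.prodMk measurable_id).prodMk measurable_const
  · intro i t t' htt
    have := dep_hkq h d (I i) (a i) (b i) p.1.1 p.2 htt
    simp only at this
    simp only [this]

theorem cells_large_rowA {G : Measure ℝ} [IsProbabilityMeasure G] (h0 : G (Iio 0) = 0)
    (hO : RowOK h W L y l c δ v C) (hc4 : 4 * c ≤ 1 / 32 * W) {n : ℕ} (hn : 1 ≤ n)
    {TS : Set (Row (ℝ × ℝ))} (hTS : MeasurableSet TS) (hTSi : SInv (E0 h (y • F.b)) TS)
    {ρ : Row (ℝ × ℝ) → ℝ} (hρ : Measurable ρ) (hρi : ∀ p t, ρ (cs (E0 h (y • F.b)) p t) = ρ p)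
    {A : ℝ} (hA : A ≤ l)
    (hT : T ⊆ TS ∩ {q | |hkq h (y • F.b) univ (-L) L q - ρ q| ≤ A})
    {C1 : ℝ} (hC1 : 1 ≤ C1)
    (hsm : ∀ x : ℝ, |x| ≤ v → |x + 7 / 32| ≤ v → ∀ᵐ p ∂((P0 G).prod (UU.prod UU)), p ∈ TS →
      ∀ y' : ℝ, 0 ≤ y' → (iidLaw G).real
        {t | cellk h W (y • F.b) x (cs (E0 h (y • F.b)) p t) - ρ p ≤ y' * l} ≤
        C1 * (y' + 1) / (n : ℝ) ^ 5)
    (htl : ∀ x : ℝ, |x| ≤ v → ∀ᵐ p ∂((P0 G).prod (UU.prod UU)), p ∈ TS →
      ∀ y' : ℝ, 0 ≤ y' → (iidLaw G).real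
        {t | y' * l ≤ fenk h W c (1 / 32) (y • F.b) x (cs (E0 h (y • F.b)) p t) - ρ p} ≤
        C1 * Real.exp (-y' / C1))
    (x : ℝ) (m : ℕ) (hx : |x| ≤ v) (hxm : |x + 3 * m / 16 + 1 / 32| ≤ v) :
    ((P0 G).prod (UU.prod UU)).real ({ω | (rowA h W L y l c δ T).cross x m ω ≤ m} ∩ T) ≤
      Real.exp (-((Real.log n / C2 (3 * C1) - C2 (3 * C1)) * m)) := by
  obtain ⟨d, hd⟩ : ∃ d : ℝ × ℝ, d = y • F.b := ⟨_, rfl⟩
  rw [← hd] at hTSi hρi hT hsm htl
  have hl := hO.l_pos
  have hW := hO.W_pos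
  have hC := hO.C_nonneg
  have hκ := h.κ_nonneg
  have hcc := hO.c_ge
  have hC10 : 0 < C1 := by linarith
  rw [abs_le] at hx hxm
  -- the reduced cells and fences
  obtain ⟨X, hX⟩ : ∃ X : ℕ → Row (ℝ × ℝ) → ℝ, X = fun (i : ℕ) q =>
    max 0 ((cellk h W d (x + 3 * (i : ℝ) / 16) q - ρ q - A) / l) := ⟨_, rfl⟩
  obtain ⟨Y, hY⟩ : ∃ Y : ℕ → Row (ℝ × ℝ) → ℝ, Y = fun (i : ℕ) q =>
    (fenk h W c (1 / 32) d (x + 3 * (i : ℝ) / 16) q - ρ q + A) / l := ⟨_, rfl⟩
  have hXm : ∀ i, Measurable (X i) := by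
    intro i
    rw [hX]
    exact measurable_const.max ((((measurable_hkq h d measurableSet_Icc _ _).sub hρ).sub_const
      A).div_const l)
  have hYm : ∀ i, Measurable (Y i) := by
    intro i
    rw [hY]
    exact (((measurable_hkq h d measurableSet_Icc _ _).sub hρ).add_const A).div_const l
  -- positions
  have hpos : ∀ i : ℕ, i ≤ m → |x + 3 * (i : ℝ) / 16| ≤ v := by
    intro i hi
    have h1 : (i : ℝ) ≤ m := by exact_mod_cast hi
    have h2 : (0 : ℝ) ≤ i := Nat.cast_nonneg i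
    rw [abs_le]
    constructor <;> linarith
  have hpos' : ∀ i : ℕ, i < m → |x + 3 * (i : ℝ) / 16 + 7 / 32| ≤ v := by
    intro i hi
    have h1 : (i : ℝ) + 1 ≤ m := by exact_mod_cast hi
    have h2 : (0 : ℝ) ≤ i := Nat.cast_nonneg i
    rw [abs_le]
    constructor <;> linarith
  -- reduction
  have hred : ((P0 G).prod (UU.prod UU)).real
      ({ω | (rowA h W L y l c δ T).cross x m ω ≤ m} ∩ T) ≤
      ((P0 G).prod (UU.prod UU)).real ({q | ∑ i ∈ Finset.range m, X i q -
        2 * ∑ i ∈ Finset.range (m + 1), Y i q ≤ m} ∩ TS) := by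
    refine ENNReal.toReal_mono (measure_ne_top _ _) (measure_mono_ae ?_)
    filter_upwards [M192.ae_pe_prod h0 (UU.prod UU)] with q hq hqT
    obtain ⟨hq1, hq2⟩ := hqT
    obtain ⟨hq3, hq4⟩ := hT hq2
    refine ⟨?_, hq3⟩
    simp only [Set.mem_ofPred_eq] at hq1 hq4 ⊢
    refine le_trans ?_ hq1
    unfold E191.RowA.cross
    rw [abs_le] at hq4
    have hskp : ∀ I a b, skp h y l L I a b q = (hkq h d I a b q - hkq h d univ (-L) L q) / l := by
      intro I a b
      unfold skp hkq Hwy.sk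
      rw [hq, hd]
    have e1 : ∀ i ∈ Finset.range m, X i q ≤ (rowA h W L y l c δ T).cell (x + 3 * i / 16) q := by
      intro i hi
      rw [hX]
      refine max_le (cell_nonneg hO hc4 (hpos i (Finset.mem_range.1 hi).le)
        (hpos' i (Finset.mem_range.1 hi)) q) ?_
      show _ ≤ skp h y l L _ _ _ q
      rw [hskp]
      refine div_le_div_of_nonneg_right ?_ hl.le
      unfold cellk
      linarith [hq4.2]
    have e2 : ∀ i ∈ Finset.range (m + 1),
        (rowA h W L y l c δ T).F (1 / 32) (x + 3 * i / 16) q ≤ Y i q := by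
      intro i hi
      rw [hY]
      have : (rowA h W L y l c δ T).F (1 / 32) (x + 3 * i / 16) q = skp h y l L
          (Icc ((x + 3 * i / 16) * W + c) ((x + 3 * i / 16 + 1 / 32) * W - c))
          ((x + 3 * i / 16) * W + c) ((x + 3 * i / 16 + 1 / 32) * W - c) q :=
        if_pos ⟨hc4, by norm_num⟩
      rw [this, hskp]
      refine div_le_div_of_nonneg_right ?_ hl.le
      unfold fenk
      linarith [hq4.1]
    have e3 := Finset.sum_le_sum e1
    have e4 := Finset.sum_le_sum e2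
    linarith
  refine hred.trans ?_
  refine V.prob_inter_le (V.measurableSet_E0 h d) hTS hTSi
    (measurableSet_le ((Finset.measurable_sum _ fun i _ => hXm i).sub
      ((Finset.measurable_sum _ fun i _ => hYm i).const_mul 2)) measurable_const)
    (Real.exp_pos _).le ?_
  have hsm' : ∀ᵐ p ∂((P0 G).prod (UU.prod UU)), ∀ i : ℕ, i < m → p ∈ TS →
      ∀ y' : ℝ, 0 ≤ y' → (iidLaw G).real
        {t | cellk h W d (x + 3 * (i : ℝ) / 16) (cs (E0 h d) p t) - ρ p ≤ y' * l} ≤
        C1 * (y' + 1) / (n : ℝ) ^ 5 := by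
    rw [ae_all_iff]
    intro i
    by_cases hi : i < m
    · filter_upwards [hsm _ (hpos i hi.le) (hpos' i hi)] with p hp _ using hp
    · exact Eventually.of_forall fun p h => absurd h hi
  have htl' : ∀ᵐ p ∂((P0 G).prod (UU.prod UU)), ∀ i : ℕ, i ≤ m → p ∈ TS →
      ∀ y' : ℝ, 0 ≤ y' → (iidLaw G).real
        {t | y' * l ≤ fenk h W c (1 / 32) d (x + 3 * (i : ℝ) / 16) (cs (E0 h d) p t) - ρ p} ≤
        C1 * Real.exp (-y' / C1) := by
    rw [ae_all_iff]
    intro i
    by_cases hi : i ≤ m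
    · filter_upwards [htl _ (hpos i hi)] with p hp _ using hp
    · exact Eventually.of_forall fun p h => absurd h hi
  filter_upwards [hsm', htl'] with p hps hpt hp
  have hcsm := V.measurable_cs_right (E0 h d) p
  have hcell : ∀ i j : ℕ, i + 2 ≤ j →
      Disjoint (Icc ((x + 3 * (i : ℝ) / 16) * W) ((x + 3 * (i : ℝ) / 16 + 7 / 32) * W))
        (Icc ((x + 3 * (j : ℝ) / 16) * W) ((x + 3 * (j : ℝ) / 16 + 7 / 32) * W)) := by
    intro i j hij
    have h1 : (i : ℝ) + 2 ≤ j := by exact_mod_cast hij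
    refine disjoint_Icc_of_lt (mul_lt_mul_of_pos_right ?_ hW)
    linarith
  have hψX : Measurable fun u : ℝ => max 0 ((u - ρ p - A) / l) := by fun_prop
  have hψY : Measurable fun u : ℝ => (u - ρ p + A) / l := by fun_prop
  refine cells_large (μ := iidLaw G) (C := 3 * C1) (by linarith) hn
    (X := fun i t => X i (cs (E0 h d) p t)) (Y := fun i t => Y i (cs (E0 h d) p t))
    (fun i => (hXm i).comp hcsm) (fun i => (hYm i).comp hcsm) ?_ ?_ ?_ ?_ ?_ ?_
  · intro i _
    refine Eventually.of_forall fun t => ?_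
    rw [hX]
    exact le_max_left _ _
  · have key := iIndepFun_hkq h G d
      (fun i => Icc ((x + 3 * ((2 * i : ℕ) : ℝ) / 16) * W)
        ((x + 3 * ((2 * i : ℕ) : ℝ) / 16 + 7 / 32) * W)) (fun i => measurableSet_Icc)
      (fun i j hij => hcell _ _ (by omega))
      (fun i => (x + 3 * ((2 * i : ℕ) : ℝ) / 16 + 6 / 32) * W)
      (fun i => (x + 3 * ((2 * i : ℕ) : ℝ) / 16 + 1 / 32) * W) hψX p
    have e : (fun (i : ℕ) (t : Environment) => X (2 * i) (cs (E0 h d) p t)) =
        fun i t => max 0 ((cellk h W d (x + 3 * ((2 * i : ℕ) : ℝ) / 16) (cs (E0 h d) p t) -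
          ρ p - A) / l) := by
      funext i t
      rw [hX]
      simp only [hρi]
    rw [e]
    exact key
  · have key := iIndepFun_hkq h G d
      (fun i => Icc ((x + 3 * ((2 * i + 1 : ℕ) : ℝ) / 16) * W)
        ((x + 3 * ((2 * i + 1 : ℕ) : ℝ) / 16 + 7 / 32) * W)) (fun i => measurableSet_Icc)
      (fun i j hij => hcell _ _ (by omega))
      (fun i => (x + 3 * ((2 * i + 1 : ℕ) : ℝ) / 16 + 6 / 32) * W)
      (fun i => (x + 3 * ((2 * i + 1 : ℕ) : ℝ) / 16 + 1 / 32) * W) hψX p
    have e : (fun (i : ℕ) (t : Environment) => X (2 * i + 1) (cs (E0 h d) p t)) =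
        fun i t => max 0 ((cellk h W d (x + 3 * ((2 * i + 1 : ℕ) : ℝ) / 16)
          (cs (E0 h d) p t) - ρ p - A) / l) := by
      funext i t
      rw [hX]
      simp only [hρi]
    rw [e]
    exact key
  · have key := iIndepFun_hkq h G d
      (fun i => Icc ((x + 3 * (i : ℝ) / 16) * W + c) ((x + 3 * (i : ℝ) / 16 + 1 / 32) * W - c))
      (fun i => measurableSet_Icc) (fun i j hij => by
        have h1 : (i : ℝ) + 1 ≤ j := by exact_mod_cast hij
        refine disjoint_Icc_of_lt ?_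
        have h2 : (x + 3 * (i : ℝ) / 16 + 1 / 32) * W ≤ (x + 3 * (j : ℝ) / 16) * W := by
          refine mul_le_mul_of_nonneg_right ?_ hW.le
          linarith
        have h3 : 0 < c ∨ c = 0 := by
          rcases (show 0 ≤ c by linarith).lt_or_eq with h | h
          · exact Or.inl h
          · exact Or.inr h.symm
        have h4 : (x + 3 * (i : ℝ) / 16 + 1 / 32) * W < (x + 3 * (j : ℝ) / 16) * W := by
          refine mul_lt_mul_of_pos_right ?_ hW
          linarith
        linarith)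
      (fun i => (x + 3 * (i : ℝ) / 16) * W + c)
      (fun i => (x + 3 * (i : ℝ) / 16 + 1 / 32) * W - c) hψY p
    have e : (fun (i : ℕ) (t : Environment) => Y i (cs (E0 h d) p t)) =
        fun (i : ℕ) t => (fenk h W c (1 / 32) d (x + 3 * (i : ℝ) / 16) (cs (E0 h d) p t) -
          ρ p + A) / l := by
      funext i t
      rw [hY]
      simp only [hρi]
    rw [e]
    exact key
  · intro i hi y' hy'
    have h1 := hps i hi hp (y' + 1) (by linarith)
    refine (measureReal_mono ?_ (measure_ne_top _ _)).trans (h1.trans ?_)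
    · intro t ht
      simp only [Set.mem_ofPred_eq] at ht ⊢
      rw [hX] at ht
      simp only [hρi] at ht
      have h2 := (le_max_right _ _).trans ht
      rw [div_le_iff₀ hl] at h2
      linarith
    · have : (0 : ℝ) < (n : ℝ) ^ 5 := by
        have : (0 : ℝ) < n := by exact_mod_cast hn
        positivity
      rw [div_le_div_iff_of_pos_right this]
      nlinarith
  · intro i hi y' hy'
    by_cases hy1 : 1 ≤ y'
    · have h1 := hpt i hi hp (y' - 1) (by linarith)
      refine (measureReal_mono ?_ (measure_ne_top _ _)).trans (h1.trans ?_)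
      · intro t ht
        simp only [Set.mem_ofPred_eq] at ht ⊢
        rw [hY] at ht
        simp only [hρi] at ht
        rw [le_div_iff₀ hl] at ht
        linarith
      · have h2 : -(y' - 1) / C1 ≤ 1 + -y' / (3 * C1) := by
          rw [div_le_iff₀ hC10]
          have : (1 + -y' / (3 * C1)) * C1 = C1 - y' / 3 := by field_simp; ring
          rw [this]
          linarith
        have h3 : Real.exp 1 ≤ 3 := by linarith [Real.exp_one_lt_d9]
        calc C1 * Real.exp (-(y' - 1) / C1) ≤ C1 * Real.exp (1 + -y' / (3 * C1)) :=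
              mul_le_mul_of_nonneg_left (Real.exp_le_exp.2 h2) hC10.le
          _ = C1 * (Real.exp 1 * Real.exp (-y' / (3 * C1))) := by rw [Real.exp_add]
          _ ≤ C1 * (3 * Real.exp (-y' / (3 * C1))) := by
              refine mul_le_mul_of_nonneg_left ?_ hC10.le
              exact mul_le_mul_of_nonneg_right h3 (Real.exp_pos _).le
          _ = 3 * C1 * Real.exp (-y' / (3 * C1)) := by ring
    · push Not at hy1
      refine measureReal_le_one.trans ?_
      have h2 : -(1 / 3) ≤ -y' / (3 * C1) := by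
        rw [neg_div, neg_le_neg_iff, div_le_iff₀ (by linarith)]
        linarith
      have h3 := Real.add_one_le_exp (-(1 / 3) : ℝ)
      have h4 := Real.exp_le_exp.2 h2
      nlinarith

end Crest.Agent.R151.CL
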