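import Crest.Agent.R151.G338m
import Crest.Agent.R151.A565k
import Crest.Agent.R151.V21

-- ▼ part R151/G338n
section

/-!
# R151 (S0214 part 2): observables: measurability, invariance, failure events (helper338)

* `NS f A` : the event `|f| > A` of the space `RowS × ((ℝ × ℝ) × (ℝ × ℝ))` (law `(PR G).prod PF`);
* `meas_obK` ..., `inv_obK` ... ; `measurableSet_NS`, `inv_NS`, `prob_NS_le`.
-/

set_option autoImplicit false
set_option linter.unusedSectionVars false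

open MeasureTheory Filter ProbabilityTheory Topology
open scoped ENNReal
open Crest.ProbabilityR.FirstPassage

namespace Crest.Agent.R151

namespace Q

open K R78 B710 G338 M192

variable {μ : ℝ × ℝ → ℝ} {F : FlatData μ}

/-- the event `|f| > A` -/
def NS (f : Ob) (A : ℝ) : Set (RowS × ((ℝ × ℝ) × (ℝ × ℝ))) :=
  {y | A < |f y.1.1.1 y.1.1.2 y.1.2 y.2|}

/-- invariance of an observable under lattice translations -/
def Ob.Iv (f : Ob) : Prop := ∀ φ ω, Inv fun θ t => f θ t φ ω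

lemma measurableSet_NS {f : Ob} (hf : f.Meas) (A : ℝ) : MeasurableSet (NS f A) :=
  measurableSet_lt measurable_const hf.abs

lemma inv_NS {f : Ob} (hf : f.Iv) (A : ℝ) (ω : (ℝ × ℝ) × (ℝ × ℝ)) (φ : ℝ × ℝ) :
    Inv fun θ t => (((((θ, t), φ) : RowS), ω) : RowS × ((ℝ × ℝ) × (ℝ × ℝ))) ∈ NS f A := by
  intro m θ t
  have := hf φ ω m θ t
  show (A < |f (θ + toR m) (act (tr m) t) φ ω|) = (A < |f θ t φ ω|)
  have e : f (θ + toR m) (act (tr m) t) φ ω = f θ t φ ω := this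
  rw [e]

lemma prob_NS_le {G : Measure ℝ} [IsProbabilityMeasure G] {f : Ob}
    (hi : Integrable (fun q : RowS × ((ℝ × ℝ) × (ℝ × ℝ)) => f q.1.1.1 q.1.1.2 q.1.2 q.2)
      ((PR G).prod PF)) {A : ℝ} (hA : 0 < A) :
    ((PR G).prod PF).real (NS f A) ≤
      (∫ q, |f q.1.1.1 q.1.1.2 q.1.2 q.2| ∂((PR G).prod PF)) / A := by
  rw [le_div_iff₀ hA, mul_comm]
  refine le_trans ?_ (mul_meas_ge_le_integral_of_nonneg (ae_of_all _ fun q => abs_nonneg _)
    hi.abs A)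
  exact mul_le_mul_of_nonneg_left (measureReal_mono (fun q (hq : A < _) => hq.le)) hA.le

/-! ### Random displacements -/

section rand

variable (h : Hwy F) {Ω : Type*} [MeasurableSpace Ω] {d θ : Ω → ℝ × ℝ} {t : Ω → Environment}
  {φ : Ω → ℝ × ℝ} (hd : Measurable d) (hθ : Measurable θ) (ht : Measurable t) (hφ : Measurable φ)
include hd hθ ht hφ

lemma meas_Up_rand (k : ℤ) : Measurable fun ω => h.Up (d ω) (θ ω) (t ω) (φ ω) k :=
  h.meas_H (measurable_snd.comp hφ) (hθ.sub hd) ht k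

lemma meas_iU_rand (s : ℝ) : Measurable fun ω => h.iU (d ω) s (θ ω) (t ω) (φ ω) :=
  h.meas_ix s (measurable_snd.comp hφ) (hθ.sub hd) ht

theorem meas_hk_rand {I : Ω → Set ℝ} (hI : ∀ v, MeasurableSet {ω | v ∈ rg F (I ω) (θ ω)})
    (s s' : ℝ) : Measurable fun ω => h.hk (d ω) (I ω) s s' (θ ω) (t ω) (φ ω) :=
  measurable_hull ht (h.meas_Lo hθ ht hφ) (meas_Up_rand h hd hθ ht hφ) hI
    (h.meas_iL hθ ht hφ s) (meas_iU_rand h hd hθ ht hφ s')

theorem meas_gK_rand (s s' : ℝ) :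
    Measurable fun ω => h.gK (d ω) s s' (θ ω) (t ω) (φ ω) := by
  unfold Hwy.gK gapK
  have hx := measurable_at (h.meas_Lo hθ ht hφ) (h.meas_iL hθ ht hφ s)
  have hy := measurable_at (meas_Up_rand h hd hθ ht hφ) (meas_iU_rand h hd hθ ht hφ s')
  refine ((measurable_at (fun k => measurable_hc ht (h.meas_Lo hθ ht hφ) k)
    (h.meas_iL hθ ht hφ s)).add (Hwy.meas_pt hθ ht hφ hx hy)).sub ?_
  exact measurable_at (fun k => measurable_hc ht (meas_Up_rand h hd hθ ht hφ) k)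
    (meas_iU_rand h hd hθ ht hφ s')

theorem meas_gE_rand {I : Ω → Set ℝ} (hI : ∀ v, MeasurableSet {ω | v ∈ rg F (I ω) (θ ω)})
    (L s s' : ℝ) : Measurable fun ω => h.gE (d ω) (I ω) L s s' (θ ω) (t ω) (φ ω) :=
  (meas_hk_rand h hd hθ ht hφ hI s s').sub (meas_gK_rand h hd hθ ht hφ (-L) L)

end rand

lemma meas_rg_const {Ω : Type*} [MeasurableSpace Ω] {θ : Ω → ℝ × ℝ} (hθ : Measurable θ)
    {I : Set ℝ} (hI : MeasurableSet I) (v : ℤ × ℤ) : MeasurableSet {ω | v ∈ rg F I (θ ω)} := by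
  have : Measurable fun ω => F.al (pos (θ ω) v) :=
    F.al.continuous.measurable.comp (Hwy.meas_pos hθ measurable_const)
  exact this hI

lemma meas_rg_Icc {Ω : Type*} [MeasurableSpace Ω] {θ : Ω → ℝ × ℝ} (hθ : Measurable θ)
    {α β : Ω → ℝ} (hα : Measurable α) (hβ : Measurable β) (v : ℤ × ℤ) :
    MeasurableSet {ω | v ∈ rg F (Set.Icc (α ω) (β ω)) (θ ω)} := by
  have h1 : Measurable fun ω => F.al (pos (θ ω) v) :=
    F.al.continuous.measurable.comp (Hwy.meas_pos hθ measurable_const)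
  exact (measurableSet_le hα h1).inter (measurableSet_le h1 hβ)

lemma measurable_offv (F : FlatData μ) (g c : ℝ) {Ω : Type*} [MeasurableSpace Ω]
    {η : Ω → ℝ × ℝ} (hη : Measurable η) : Measurable fun ω => offv F g c (η ω) := by
  unfold offv
  exact hη.const_add _

lemma measurable_dU (F : FlatData μ) (y g c : ℝ) {Ω : Type*} [MeasurableSpace Ω]
    {η : Ω → ℝ × ℝ} (hη : Measurable η) :
    Measurable fun ω => Hwy.dU (offv F g c (η ω)) (y • F.b) (dOv F y g) := by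
  unfold Hwy.dU
  exact ((measurable_offv F g c hη).const_sub _).sub_const _

/-- the coordinates of the space `RowS × ((ℝ × ℝ) × (ℝ × ℝ))` -/
abbrev YS : Type := RowS × ((ℝ × ℝ) × (ℝ × ℝ))

lemma mY_θ : Measurable fun q : YS => q.1.1.1 := measurable_fst.fst.fst
lemma mY_t : Measurable fun q : YS => q.1.1.2 := measurable_fst.fst.snd
lemma mY_φ : Measurable fun q : YS => q.1.2 := measurable_fst.snd
lemma mY_η : Measurable fun q : YS => q.2.1 := measurable_snd.fst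
lemma mY_φ₁ : Measurable fun q : YS => q.2.2 := measurable_snd.snd
lemma mY_lo : Measurable fun q : YS => Hwy.φlo q.1.2 q.2.2 :=
  (measurable_fst.comp mY_φ).prodMk (measurable_fst.comp mY_φ₁)
lemma mY_up : Measurable fun q : YS => Hwy.φup q.1.2 q.2.2 :=
  (measurable_snd.comp mY_φ₁).prodMk (measurable_snd.comp mY_φ)

variable (h : Hwy F) (y g c Λ L : ℝ)

lemma measurable_Jw (Λ : ℝ) : MeasurableSet (Jw Λ) := measurableSet_Icc

/-- the inner row observable: `R#` of the inner row -/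
noncomputable def obI (h : Hwy F) (y g c : ℝ) (I : Set ℝ) (L s s' : ℝ) : Ob := fun θ t _ r =>
  h.sk (y • F.b) I Set.univ L s s' (θ - offv F g c r.1) t r.2

theorem meas_obK : (obK h y g c Λ L).Meas := by
  unfold Ob.Meas obK Hwy.K0
  have m1 := meas_gK_rand h (measurable_offv F g c mY_η) mY_θ mY_t mY_lo (-L) L
  have m2 := h.meas_hk (mY_θ.sub (measurable_offv F g c mY_η)) mY_t mY_φ₁ (y • F.b)
    MeasurableSet.univ (-L) L
  have m3 := meas_gK_rand h (measurable_dU F y g c mY_η)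
    ((mY_θ.sub (measurable_offv F g c mY_η)).sub_const (y • F.b)) mY_t mY_up (-L) L
  have m4 := h.meas_hk mY_θ mY_t mY_φ (dOv F y g) (measurable_Jw Λ) (-L) L
  exact ((m1.add m2).add m3).sub m4

lemma measurable_devB_comp (N : ℕ) {Ω : Type*} [MeasurableSpace Ω] {θ : Ω → ℝ × ℝ}
    {t : Ω → Environment} (hθ : Measurable θ) (ht : Measurable t) :
    Measurable fun ω => devB μ N (θ ω) (t ω) := by
  have h1 : Measurable fun p : (ℝ × ℝ) × Environment => devB μ N p.1 p.2 := R6.measurable_devB N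
  have h2 : Measurable fun ω => (θ ω, t ω) := hθ.prodMk ht
  have h3 := h1.comp h2
  exact h3

theorem meas_obD (N : ℕ) : (obD F y g N).Meas := by
  have m1 : Measurable fun q : YS => devB μ N q.1.1.1 q.1.1.2 :=
    measurable_devB_comp N mY_θ mY_t
  have m2 : Measurable fun q : YS => devB μ N (q.1.1.1 - dOv F y g) q.1.1.2 :=
    measurable_devB_comp N (mY_θ.sub_const _) mY_t
  show Measurable fun q : YS => max (devB μ N q.1.1.1 q.1.1.2)
    (devB μ N (q.1.1.1 - dOv F y g) q.1.1.2)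
  exact m1.max m2

theorem meas_obJ : (obJ h y g Λ L).Meas := by
  unfold Ob.Meas obJ
  exact (h.meas_hk mY_θ mY_t mY_φ (dOv F y g) (measurable_Jw Λ) (-L) L).sub
    (h.meas_hk mY_θ mY_t mY_φ (dOv F y g) MeasurableSet.univ (-L) L)

theorem meas_obG {ρ : RowS → ℝ} (hρ : Measurable ρ) : (obG h y g L ρ).Meas := by
  unfold Ob.Meas obG
  exact (h.meas_hk mY_θ mY_t mY_φ (dOv F y g) MeasurableSet.univ (-L) L).sub
    (hρ.comp ((mY_θ.prodMk mY_t).prodMk mY_φ))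

theorem meas_obLo (α β s s₁ : ℝ) : (obLo h g c α β L s s₁).Meas := by
  unfold Ob.Meas obLo
  exact meas_gE_rand h (measurable_offv F g c mY_η) mY_θ mY_t mY_lo
    (meas_rg_const mY_θ measurableSet_Icc) L s s₁

theorem meas_obUp (α β s₂ s' : ℝ) : (obUp h y g c α β L s₂ s').Meas := by
  unfold Ob.Meas obUp
  have mal : Measurable fun q : YS => F.al (offv F g c q.2.1) :=
    F.al.continuous.measurable.comp (measurable_offv F g c mY_η)
  have mθ := (mY_θ.sub (measurable_offv F g c mY_η)).sub_const (y • F.b)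
  exact meas_gE_rand h (measurable_dU F y g c mY_η) mθ mY_t mY_up
    (meas_rg_Icc mθ ((mal.const_sub α).sub_const _) ((mal.const_sub β).sub_const _)) L s₂ s'


lemma add_toR_sub (θ v : ℝ × ℝ) (m : ℤ × ℤ) : θ + toR m - v = θ - v + toR m := by abel

theorem inv_obK : (obK h y g c Λ L).Iv := by
  intro φ ω m θ t
  have e1 := Hwy.gK_inv h (offv F g c ω.1) (-L) L (Hwy.φlo φ ω.2) m θ t
  have e2 := Hwy.hk_inv h (y • F.b) Set.univ (-L) L ω.2 m (θ - offv F g c ω.1) t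
  have e3 := Hwy.gK_inv h (Hwy.dU (offv F g c ω.1) (y • F.b) (dOv F y g)) (-L) L
    (Hwy.φup φ ω.2) m (θ - offv F g c ω.1 - y • F.b) t
  have e4 := Hwy.hk_inv h (dOv F y g) (Jw Λ) (-L) L φ m θ t
  simp only at e1 e2 e3 e4
  show h.K0 (offv F g c ω.1) (y • F.b) (dOv F y g) (Jw Λ) L (θ + toR m) (act (tr m) t) φ ω.2 =
    h.K0 (offv F g c ω.1) (y • F.b) (dOv F y g) (Jw Λ) L θ t φ ω.2
  unfold Hwy.K0
  rw [add_toR_sub, add_toR_sub, e1, e2, e3, e4]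

theorem inv_obD (N : ℕ) : (obD F y g N).Iv := by
  intro φ ω m θ t
  have e1 := R6.inv_devB (μ := μ) N m θ t
  have e2 := R6.inv_devB (μ := μ) N m (θ - dOv F y g) t
  show max (devB μ N (θ + toR m) (act (tr m) t))
    (devB μ N (θ + toR m - dOv F y g) (act (tr m) t)) =
    max (devB μ N θ t) (devB μ N (θ - dOv F y g) t)
  rw [add_toR_sub, e1, e2]

theorem inv_obJ : (obJ h y g Λ L).Iv := by
  intro φ ω m θ t
  have e1 := Hwy.hk_inv h (dOv F y g) (Jw Λ) (-L) L φ m θ t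
  have e2 := Hwy.hk_inv h (dOv F y g) Set.univ (-L) L φ m θ t
  simp only at e1 e2
  show h.hk (dOv F y g) (Jw Λ) (-L) L (θ + toR m) (act (tr m) t) φ -
    h.hk (dOv F y g) Set.univ (-L) L (θ + toR m) (act (tr m) t) φ = _
  rw [e1, e2]
  rfl

theorem inv_obG {ρ : RowS → ℝ} (hρ : ∀ φ, Inv fun θ t => ρ ((θ, t), φ)) :
    (obG h y g L ρ).Iv := by
  intro φ ω m θ t
  have e1 := hρ φ m θ t
  have e2 := Hwy.hk_inv h (dOv F y g) Set.univ (-L) L φ m θ t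
  simp only at e1 e2
  show h.hk (dOv F y g) Set.univ (-L) L (θ + toR m) (act (tr m) t) φ -
    ρ ((θ + toR m, act (tr m) t), φ) = _
  rw [e1, e2]
  rfl

theorem inv_obLo (α β s s₁ : ℝ) : (obLo h g c α β L s s₁).Iv := by
  intro φ ω m θ t
  have e1 := Hwy.gK_inv h (offv F g c ω.1) (-L) L (Hwy.φlo φ ω.2) m θ t
  have e2 := Hwy.hk_inv h (offv F g c ω.1) (Set.Icc α β) s s₁ (Hwy.φlo φ ω.2) m θ t
  simp only at e1 e2
  show h.gE (offv F g c ω.1) (Set.Icc α β) L s s₁ (θ + toR m) (act (tr m) t) (Hwy.φlo φ ω.2) = _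
  unfold Hwy.gE
  rw [e1, e2]
  rfl

theorem inv_obUp (α β s₂ s' : ℝ) : (obUp h y g c α β L s₂ s').Iv := by
  intro φ ω m θ t
  have e1 := Hwy.gK_inv h (Hwy.dU (offv F g c ω.1) (y • F.b) (dOv F y g)) (-L) L
    (Hwy.φup φ ω.2) m (θ - offv F g c ω.1 - y • F.b) t
  have e2 := Hwy.hk_inv h (Hwy.dU (offv F g c ω.1) (y • F.b) (dOv F y g))
    (Set.Icc (α - F.al (offv F g c ω.1) - F.al (y • F.b))
      (β - F.al (offv F g c ω.1) - F.al (y • F.b))) s₂ s'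
    (Hwy.φup φ ω.2) m (θ - offv F g c ω.1 - y • F.b) t
  simp only at e1 e2
  show h.gE (Hwy.dU (offv F g c ω.1) (y • F.b) (dOv F y g))
    (Set.Icc (α - F.al (offv F g c ω.1) - F.al (y • F.b))
      (β - F.al (offv F g c ω.1) - F.al (y • F.b))) L s₂ s'
    (θ + toR m - offv F g c ω.1 - y • F.b) (act (tr m) t) (Hwy.φup φ ω.2) = _
  rw [add_toR_sub, add_toR_sub]
  unfold Hwy.gE
  rw [e1, e2]
  rfl


end Q

end Crest.Agent.R151
end

-- ▼ part R151/G338o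

/-!
# R151 (S0214 part 2): (T1), (T2) on the names of V15-V21 (helper338)

* `le_sko` : deterministic lower bound of `R#` of the outer row (one environment), `sko_le` upper;
* `condI_prob`, `condI_lintegral` : law of the inner row given `p`;
* `T1c`, `T2c`, `T2c_lintegral` : conditional statements for every `p` in the typical sets;
* `ae_sko_le`, `ae_condI` : inputs of `SData.mean_all`.
-/

set_option autoImplicit false
set_option linter.unusedSectionVars false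

open MeasureTheory Filter ProbabilityTheory Topology
open scoped ENNReal
open Crest.ProbabilityR.FirstPassage

namespace Crest.Agent.R151

namespace Q

open K R78 B710 G338 M192

variable {μ : ℝ × ℝ → ℝ} {F : FlatData μ}

/-- labels, regions and sizes for the lower bound: outer labels `s → s'` with crossings in `I`,
inner labels `σ → σ'` (relative to the inner row, moved by `c`) with crossings in `I'` -/
structure LowData (h : Hwy F) (y g c Λ L : ℝ) (I I' : Set ℝ) (s s' σ σ' Δ : ℝ) (N : ℕ) : Prop where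
  geo : Geo h y g c Λ L
  hIJ : I ⊆ Jw Λ
  hII' : ∀ x ∈ I, ∀ u, |u| ≤ cF F → x - c - u ∈ I'
  hs1 : -L ≤ s
  hs2 : s ≤ L
  hs3 : -L ≤ s'
  hs4 : s' ≤ L
  hσ : σ ≤ s - c - cF F - Δ
  hσ' : s' - c + 2 * cF F + h.κ + Δ ≤ σ'
  hΔ : g + cF F + h.wH ≤ Δ
  hN : (L + 2 * cF F + |c|) * ‖F.a‖ + (h.wH + g + cF F) * ‖F.b‖ + 1 ≤ N
  hne : Rt h (dOv F y g) I s s'
  hneJ : Rt h (dOv F y g) (Jw Λ) (-L) L

/-- deterministic lower bound -/
theorem le_sko (hμ : NormLike μ) {cψ : ℝ}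
    (hpsi : ∀ (v : ℝ × ℝ) (A : ℝ), 0 ≤ A → F.al v ≤ -A → |F.be v| ≤ A → cψ * A ≤ F.ψ v)
    {h : Hwy F} {y g c Λ L : ℝ} {I I' : Set ℝ} {s s' σ σ' Δ : ℝ} {N : ℕ}
    (H : LowData h y g c Λ L I I' s s' σ σ' Δ N) {q : RowS} (hq : Nn q.1.2)
    {r : (ℝ × ℝ) × (ℝ × ℝ)} (hη : ‖r.1‖ ≤ 1) :
    min (obI h y g c I' L σ σ' q.1.1 q.1.2 q.2 r)
        (cψ * Δ - 4 * obD F y g N q.1.1 q.1.2 q.2 r) + obK h y g c Λ L q.1.1 q.1.2 q.2 r ≤
      sko h y g I L s s' q := by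
  have hg := H.geo
  have hcF := cF_nonneg F
  have hwH := h.wH_nonneg'
  have hgb := hg.g_big
  have hΔ := H.hΔ
  have hN := H.hN
  have hσ := H.hσ
  have hσ' := H.hσ'
  have ha1 := abs_le.1 (abs_al_le' F hη)
  have hb1 := abs_le.1 (abs_be_le' F hη)
  have hac : |F.al (offv F g c r.1)| ≤ |c| + cF F := by
    rw [al_offv]
    exact (abs_add_le _ _).trans (add_le_add le_rfl (abs_al_le' F hη))
  have hbc : |F.be (offv F g c r.1)| ≤ g + cF F := by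
    rw [be_offv, abs_le]; constructor <;> linarith [hb1.1, hb1.2]
  have hac' : |F.al (Hwy.dU (offv F g c r.1) (y • F.b) (dOv F y g))| ≤ |c| + cF F := by
    rw [al_dU, show -c - F.al r.1 = -(c + F.al r.1) by ring, abs_neg]
    exact (abs_add_le _ _).trans (add_le_add le_rfl (abs_al_le' F hη))
  have hbc' : |F.be (Hwy.dU (offv F g c r.1) (y • F.b) (dOv F y g))| ≤ g + cF F := by
    rw [be_dU, abs_le]; constructor <;> linarith [hb1.1, hb1.2]
  have hR : ∀ a b : ℝ, a ≤ |c| + cF F → b ≤ g + cF F → Hwy.Rgap F h.wH L a b + 1 ≤ N := by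
    intro a b ha hb
    unfold Hwy.Rgap
    have h1 := mul_le_mul_of_nonneg_right (show L + cF F + a ≤ L + 2 * cF F + |c| by linarith)
      (norm_nonneg F.a)
    have h2 := mul_le_mul_of_nonneg_right (show h.wH + b ≤ h.wH + g + cF F by linarith)
      (norm_nonneg F.b)
    linarith
  have key := Hwy.lower_close (h := h) (off := offv F g c r.1) (dI := y • F.b)
    (dO := dOv F y g) (θ := q.1.1) (t := q.1.2) (φ := q.2) (φ₁ := r.2)
    hpsi hμ hq (hg.sep4 hη) (hg.winC hη) (I := I) (I' := I') (J := Jw Λ)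
    (fun x hx => abs_le_of_mem_Jw hx) H.hIJ
    (fun x hx => by
      rw [al_offv, ← sub_sub]
      exact H.hII' x hx _ (abs_al_le' F hη))
    H.hs1 H.hs2 H.hs3 H.hs4 (σ := σ) (σ' := σ') (Δ := Δ)
    (by rw [al_offv]; linarith [ha1.2])
    (by rw [al_dU]; linarith [ha1.1])
    (by linarith)
    (by rw [be_offv]; linarith [hb1.2])
    (by rw [be_dU]; linarith [hb1.1])
    (N := N) (hR _ _ hac hbc) (hR _ _ hac' hbc') (H.hne _ _ _)
  have hJ := Hwy.hk_mono (h := h) (θ := q.1.1) (t := q.1.2) (φ := q.2) hq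
    (dOv F y g) (Set.subset_univ (Jw Λ)) (le_refl (-L)) (le_refl L) (H.hneJ _ _ _)
  have e1 : sko h y g I L s s' q = h.hk (dOv F y g) I s s' q.1.1 q.1.2 q.2 -
      h.hk (dOv F y g) Set.univ (-L) L q.1.1 q.1.2 q.2 := rfl
  have e2 : obI h y g c I' L σ σ' q.1.1 q.1.2 q.2 r =
      h.sk (y • F.b) I' Set.univ L σ σ' (q.1.1 - offv F g c r.1) q.1.2 r.2 := rfl
  have e3 : obD F y g N q.1.1 q.1.2 q.2 r =
      max (devB μ N q.1.1 q.1.2) (devB μ N (q.1.1 - dOv F y g) q.1.2) := rfl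
  have e4 : obK h y g c Λ L q.1.1 q.1.2 q.2 r =
      h.K0 (offv F g c r.1) (y • F.b) (dOv F y g) (Jw Λ) L q.1.1 q.1.2 q.2 r.2 := rfl
  rw [e1, e2, e3, e4]
  linarith

/-- labels, regions and sizes for the upper bound: outer labels `s → s'`, crossings in
`Icc (α - κ) (β + κ)`; inner labels `σ → σ'`, crossings in `Icc αi βi`; fences of the gaps:
`a₀ → b₀` in `Icc α₀ β₀` and `a₁ → b₁` in `Icc α₁ β₁` -/
structure UpData (h : Hwy F) (y g c Λ L α β s s' αi βi σ σ' α₀ β₀ a₀ b₀ α₁ β₁ a₁ b₁ : ℝ) : Prop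
    where
  geo : Geo h y g c Λ L
  hs1 : -L ≤ s
  hs4 : s' ≤ L
  hα₀ : α ≤ α₀
  hβ₀ : β₀ ≤ β
  ha₀ : s ≤ a₀
  hb₀ : b₀ ≤ σ
  hα₁ : α ≤ α₁
  hβ₁ : β₁ ≤ β
  ha₁ : σ' ≤ a₁
  hb₁ : b₁ ≤ s'
  hαi : α + cF F - c ≤ αi
  hβi : βi ≤ β - cF F - c
  hne0 : ∀ η, ‖η‖ ≤ 1 → Rt h (offv F g c η) (Set.Icc α₀ β₀) a₀ b₀
  hne2 : ∀ η, ‖η‖ ≤ 1 → Rt h (Hwy.dU (offv F g c η) (y • F.b) (dOv F y g)) (Iup F y g c α₁ β₁ η)
    a₁ b₁
  hnei : Rt h (y • F.b) (Set.Icc αi βi) σ σ'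
  hne : Rt h (dOv F y g) (Set.Icc (α - h.κ) (β + h.κ)) s s'
  hneJ : Rt h (dOv F y g) (Jw Λ) (-L) L

section upd

variable {h : Hwy F} {y g c Λ L α β s s' αi βi σ σ' α₀ β₀ a₀ b₀ α₁ β₁ a₁ b₁ : ℝ}

/-- deterministic upper bound -/
theorem UpData.sko_le (H : UpData h y g c Λ L α β s s' αi βi σ σ' α₀ β₀ a₀ b₀ α₁ β₁ a₁ b₁)
    {q : RowS} (hq : Nn q.1.2) {r : (ℝ × ℝ) × (ℝ × ℝ)} (hη : ‖r.1‖ ≤ 1) :
    sko h y g (Set.Icc (α - h.κ) (β + h.κ)) L s s' q ≤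
      obI h y g c (Set.Icc αi βi) L σ σ' q.1.1 q.1.2 q.2 r +
      (obLo h g c α₀ β₀ L a₀ b₀ q.1.1 q.1.2 q.2 r + obUp h y g c α₁ β₁ L a₁ b₁ q.1.1 q.1.2 q.2 r +
        obJ h y g Λ L q.1.1 q.1.2 q.2 r) := by
  have key := Q.sko_le H.geo H.hα₀ H.hβ₀ H.ha₀ H.hb₀ H.hα₁ H.hβ₁ H.ha₁ H.hb₁ H.hαi H.hβi H.hne0
    H.hne2 H.hnei H.hneJ hq (r := r) hη
  have e : h.sk (y • F.b) (Set.Icc αi βi) Set.univ L σ σ' (q.1.1 - offv F g c r.1) q.1.2 r.2 =
    obI h y g c (Set.Icc αi βi) L σ σ' q.1.1 q.1.2 q.2 r := rfl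
  rw [e] at key
  linarith

end upd

/-! ### Law of the inner row given `p` -/

lemma mp_fr {G : Measure ℝ} [IsProbabilityMeasure G] :
    MeasurePreserving (fun x : Environment × ((ℝ × ℝ) × (ℝ × ℝ)) =>
      (((x.2.1, x.1), x.2.2) : RowS)) ((iidLaw G).prod PF) (PR G) := by
  have h1 := mp_assoc' (iidLaw G) UU2 (UU.prod UU)
  have h2 : MeasurePreserving (fun x : (Environment × (ℝ × ℝ)) × (ℝ × ℝ) =>
      (((x.1.2, x.1.1), x.2) : RowS)) (((iidLaw G).prod UU2).prod (UU.prod UU)) (PR G) :=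
    (mp_swp (iidLaw G) UU2).prod (MeasurePreserving.id (UU.prod UU))
  exact h2.comp h1

section cond

variable {h : Hwy F} {y g c Λ L : ℝ}

/-- **law of the inner row given `p`**, probability form -/
theorem condI_prob {G : Measure ℝ} [IsProbabilityMeasure G] (hg : Geo h y g c Λ L) {I : Set ℝ}
    (hI : MeasurableSet I) (s s' : ℝ) (p : RowS) {B : Set ℝ} (hB : MeasurableSet B) :
    ((iidLaw G).prod PF).real {x | obI h y g c I L s s' (V.cs (V.E0 h (dOv F y g)) p x.1).1.1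
      (V.cs (V.E0 h (dOv F y g)) p x.1).1.2 (V.cs (V.E0 h (dOv F y g)) p x.1).2 x.2 ∈ B} =
    (PR G).real {q | ski h y I L s s' q ∈ B} := by
  rw [← inner_ski hg hI s s' p hB]
  have hm : MeasurableSet {r : RowS | h.sk (y • F.b) I Set.univ L s s' (p.1.1 - offv F g c r.1.1)
      (cenv h (dOv F y g) p r) r.2 ∈ B} := by
    have h1 : Measurable fun r : RowS => h.sk (y • F.b) I Set.univ L s s'
        (p.1.1 - offv F g c r.1.1) (cenv h (dOv F y g) p r) r.2 :=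
      h.meas_sk ((measurable_offv F g c measurable_fst.fst).const_sub _)
        (measurable_cenv h (dOv F y g) measurable_const measurable_id) measurable_snd (y • F.b) hI
        MeasurableSet.univ L s s'
    exact h1 hB
  unfold Measure.real
  rw [← (mp_fr (G := G)).measure_preimage hm.nullMeasurableSet]
  rfl


/-- nonnegativity of the resampled environment -/
lemma ae_nn_cs {G : Measure ℝ} [IsProbabilityMeasure G] (h0 : G (Set.Iio 0) = 0) {d : ℝ × ℝ}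
    {p : RowS} (hp : p ∈ V.posS h d) :
    ∀ᵐ t ∂(iidLaw G), Nn (V.cs (V.E0 h d) p t).1.2 := by
  filter_upwards [K.ae_Nn h0] with t ht e
  by_cases he : e ∈ V.E0 h d p.1.1
  · show 0 ≤ V.glue (V.E0 h d p.1.1) p.1.2 t e
    rw [V.glue_of_mem he]; exact hp e he
  · show 0 ≤ V.glue (V.E0 h d p.1.1) p.1.2 t e
    rw [V.glue_of_notMem he]; exact ht e

lemma ae_PF_jit : ∀ᵐ ω ∂PF, ‖ω.1‖ ≤ 1 := by
  have := Measure.quasiMeasurePreserving_fst (μ := UU2) (ν := UU.prod UU) |>.ae ae_UU2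
  exact this.mono fun x hx => norm_jitter hx

/-- inner event with the almost sure conditions -/
theorem condI_good {G : Measure ℝ} [IsProbabilityMeasure G] (h0 : G (Set.Iio 0) = 0)
    (hg : Geo h y g c Λ L) {I : Set ℝ}
    (hI : MeasurableSet I) (s s' : ℝ) {p : RowS} (hp : p ∈ V.posS h (dOv F y g)) {B : Set ℝ}
    (hB : MeasurableSet B) :
    (PR G).real {q | ski h y I L s s' q ∈ B} ≤
    ((iidLaw G).prod PF).real {x | (V.cs (V.E0 h (dOv F y g)) p x.1, x.2) ∈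
      {w : RowS × ((ℝ × ℝ) × (ℝ × ℝ)) | Nn w.1.1.2 ∧ ‖w.2.1‖ ≤ 1 ∧
        obI h y g c I L s s' w.1.1.1 w.1.1.2 w.1.2 w.2 ∈ B}} := by
  rw [← condI_prob hg hI s s' p hB]
  apply real_mono_ae
  have a1 : ∀ᵐ x ∂((iidLaw G).prod PF), Nn (V.cs (V.E0 h (dOv F y g)) p x.1).1.2 :=
    Measure.quasiMeasurePreserving_fst.ae (ae_nn_cs h0 hp)
  have a2 : ∀ᵐ x ∂((iidLaw G).prod PF), ‖x.2.1‖ ≤ 1 :=
    Measure.quasiMeasurePreserving_snd.ae ae_PF_jit
  filter_upwards [a1, a2] with x h1 h2 h3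
  exact ⟨h1, h2, h3⟩

end cond

/-- union of two failure events -/
lemma typ_union {Φ Ω : Type*} [MeasurableSpace Φ] [MeasurableSpace Ω] {G : Measure ℝ}
    [IsProbabilityMeasure G] {E : ℝ × ℝ → Set (Sym2 (ℤ × ℤ))} {κ : Measure Ω}
    [IsProbabilityMeasure κ] {N1 N2 : Set (Row Φ × Ω)} {c1 c2 : ℝ} {p : Row Φ}
    (h1 : p ∈ V.typ G E κ N1 c1) (h2 : p ∈ V.typ G E κ N2 c2) :
    p ∈ V.typ G E κ (N1 ∪ N2) (c1 + c2) := by
  have h3 := measureReal_union_le (μ := (iidLaw G).prod κ)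
    {x : Environment × Ω | (V.cs E p x.1, x.2) ∈ N1} {x | (V.cs E p x.1, x.2) ∈ N2}
  have h1' : ((iidLaw G).prod κ).real {x | (V.cs E p x.1, x.2) ∈ N1} ≤ c1 := h1
  have h2' : ((iidLaw G).prod κ).real {x | (V.cs E p x.1, x.2) ∈ N2} ≤ c2 := h2
  show ((iidLaw G).prod κ).real {x | (V.cs E p x.1, x.2) ∈ N1 ∪ N2} ≤ c1 + c2
  have e : {x : Environment × Ω | (V.cs E p x.1, x.2) ∈ N1 ∪ N2} =
      {x | (V.cs E p x.1, x.2) ∈ N1} ∪ {x | (V.cs E p x.1, x.2) ∈ N2} := rfl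
  rw [e]
  linarith

/-- **(T1)** for every typical `p`: `R#` and `hull - ρ` -/
theorem T1c {r₀ : ℝ} (hr : 0 < r₀) [IsProbabilityMeasure (gammaMeasure 1 r₀)]
    (h0 : gammaMeasure 1 r₀ (Set.Iio 0) = 0) (hμ : NormLike μ) {cψ : ℝ}
    (hpsi : ∀ (v : ℝ × ℝ) (A : ℝ), 0 ≤ A → F.al v ≤ -A → |F.be v| ≤ A → cψ * A ≤ F.ψ v)
    {h : Hwy F} {y g c Λ L : ℝ} {I I' : Set ℝ} {s s' σ σ' Δ : ℝ} {N : ℕ}
    (H : LowData h y g c Λ L I I' s s' σ σ' Δ N) (hI : MeasurableSet I)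
    (hI' : MeasurableSet I') {ρ : RowS → ℝ} (hρm : Measurable ρ)
    (hρS : ∀ p t, ρ (V.cs (V.E0 h (dOv F y g)) p t) = ρ p)
    {A B e τ q₀ a : ℝ} (hA : 0 < A) (he : 0 ≤ e) (hτ : A < τ) (hτB : τ ≤ cψ * Δ - 4 * B)
    (hq0 : 0 < q₀) (hq : 6 * e ≤ q₀) (ha : 0 ≤ a) {p : RowS}
    (hpos : p ∈ V.posS h (dOv F y g))
    (hK : p ∈ V.typ (gammaMeasure 1 r₀) (V.E0 h (dOv F y g)) PF (NS (obK h y g c Λ L) A) e)
    (hD : p ∈ V.typ (gammaMeasure 1 r₀) (V.E0 h (dOv F y g)) PF (NS (obD F y g N) B) e)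
    (hG : p ∈ V.typ (gammaMeasure 1 r₀) (V.E0 h (dOv F y g)) PF (NS (obG h y g L ρ) A) e)
    (hin : q₀ ≤ (PR (gammaMeasure 1 r₀)).real {q | τ ≤ ski h y I' L σ σ' q}) :
    (iidLaw (gammaMeasure 1 r₀)).real
        {t | sko h y g I L s s' (V.cs (V.E0 h (dOv F y g)) p t) ≤ a} ≤
      3 * e + (a + 3 * A) / (τ - A) * Real.log (6 / q₀) ∧
    (iidLaw (gammaMeasure 1 r₀)).real
        {t | V.hkR h (dOv F y g) I s s' (V.cs (V.E0 h (dOv F y g)) p t) - ρ p ≤ a} ≤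
      4 * e + (a + 4 * A) / (τ - A) * Real.log (6 / q₀) := by
  set G := gammaMeasure 1 r₀ with hGdef
  set E := V.E0 h (dOv F y g) with hEdef
  have hq1 : q₀ ≤ 1 := hin.trans measureReal_le_one
  set X : RowS → ℝ := fun q => V.hkR h (dOv F y g) I s s' q - ρ q with hX
  set D : RowS → ℝ := fun q => V.hkR h (dOv F y g) Set.univ (-L) L q - ρ q with hDdef
  have hXm : Measurable X := (V.measurable_hkR h (dOv F y g) hI s s').sub hρm
  have hlc : V.LC (iidLaw G) (fun t => X (V.cs E p t)) := by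
    have h1 := (V.LC_hk' h hr I s s' hpos (H.hne _ _ _)).sub_const (ρ p)
    have e1 : (fun t => X (V.cs E p t)) = fun t =>
        V.hkR h (dOv F y g) I s s' (V.cs (V.E0 h (dOv F y g)) p t) - ρ p := by
      funext t
      simp only [hX]
      rw [hρS]
    rw [e1]; exact h1
  have hnn : ∀ᵐ t ∂(iidLaw G), 0 ≤ X (V.cs E p t) - D (V.cs E p t) := by
    filter_upwards [V.nonneg_hk' h h0 (I := I) (L := L) (a := s) (b := s') H.hs1 H.hs4 hpos
      (H.hne _ _ _)] with t ht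
    simp only [hX, hDdef]
    linarith
  have hsub : ∀ q, X q - D q = sko h y g I L s s' q := by
    intro q
    simp only [hX, hDdef]
    show V.hkR h (dOv F y g) I s s' q - ρ q - (V.hkR h (dOv F y g) Set.univ (-L) L q - ρ q) =
      V.hkR h (dOv F y g) I s s' q - V.hkR h (dOv F y g) Set.univ (-L) L q
    ring
  have hN : ∀ w ∈ {w : RowS × ((ℝ × ℝ) × (ℝ × ℝ)) | Nn w.1.1.2 ∧ ‖w.2.1‖ ≤ 1 ∧
        obI h y g c I' L σ σ' w.1.1.1 w.1.1.2 w.1.2 w.2 ∈ Set.Ici τ},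
      X w.1 - D w.1 < τ - A → w ∈ NS (obK h y g c Λ L) A ∪ NS (obD F y g N) B := by
    rintro w ⟨w1, w2, w3⟩ hlt
    by_contra hcon
    rw [Set.mem_union, not_or] at hcon
    obtain ⟨c1, c2⟩ := hcon
    have c1' : |obK h y g c Λ L w.1.1.1 w.1.1.2 w.1.2 w.2| ≤ A := not_lt.1 c1
    have c2' : |obD F y g N w.1.1.1 w.1.1.2 w.1.2 w.2| ≤ B := not_lt.1 c2
    have key := le_sko hμ hpsi H w1 (r := w.2) w2
    rw [hsub] at hlt
    have k1 := (abs_le.1 c1').1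
    have k2 := (abs_le.1 c2').2
    have w3' : τ ≤ obI h y g c I' L σ σ' w.1.1.1 w.1.1.2 w.1.2 w.2 := w3
    have hmin : τ ≤ min (obI h y g c I' L σ σ' w.1.1.1 w.1.1.2 w.1.2 w.2)
        (cψ * Δ - 4 * obD F y g N w.1.1.1 w.1.1.2 w.1.2 w.2) := le_min w3' (by linarith)
    linarith
  have hIn := (condI_good h0 H.geo hI' σ σ' hpos (B := Set.Ici τ) measurableSet_Ici)
  have hIn' : q₀ ≤ ((iidLaw G).prod PF).real {x | (V.cs E p x.1, x.2) ∈
      {w : RowS × ((ℝ × ℝ) × (ℝ × ℝ)) | Nn w.1.1.2 ∧ ‖w.2.1‖ ≤ 1 ∧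
        obI h y g c I' L σ σ' w.1.1.1 w.1.1.2 w.1.2 w.2 ∈ Set.Ici τ}} := hin.trans hIn
  have hq2 : q₀ / 2 ≤ q₀ - 3 * e := by linarith
  have hqq : (q₀ - 3 * e) + e + (e + e) ≤ ((iidLaw G).prod PF).real {x | (V.cs E p x.1, x.2) ∈
      {w : RowS × ((ℝ × ℝ) × (ℝ × ℝ)) | Nn w.1.1.2 ∧ ‖w.2.1‖ ≤ 1 ∧
        obI h y g c I' L σ σ' w.1.1.1 w.1.1.2 w.1.2 w.2 ∈ Set.Ici τ}} := by linarith
  have hlog : Real.log (3 / (q₀ - 3 * e)) ≤ Real.log (6 / q₀) := by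
    have h7 : 0 < q₀ - 3 * e := by linarith
    apply Real.log_le_log (by positivity)
    rw [div_le_div_iff₀ h7 hq0]
    linarith
  have hA1 : p ∈ V.typ G E PF {w : RowS × ((ℝ × ℝ) × (ℝ × ℝ)) | A < |D w.1|} e := hG
  constructor
  · have r1 := V.cond_T1 hXm hlc hnn (d := A) (δ := e) (t₀ := τ - A) (q := q₀ - 3 * e)
      (c := e + e) hA (by linarith) (by linarith) (by linarith) (by linarith)
      hA1 (typ_union hK hD) hN hqq ha
    have e1 : {t | X (V.cs E p t) - D (V.cs E p t) ≤ a} =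
        {t | sko h y g I L s s' (V.cs E p t) ≤ a} := by
      ext t; simp only [hsub]
    rw [e1] at r1
    refine r1.trans ?_
    have h8 : 0 ≤ (a + 3 * A) / (τ - A) := div_nonneg (by linarith) (by linarith)
    have := mul_le_mul_of_nonneg_left hlog h8
    linarith
  · have r1 := V.cond_T1X hXm hlc hnn (d := A) (δ := e) (t₀ := τ - A) (q := q₀ - 3 * e)
      (c := e + e) hA (by linarith) (by linarith) (by linarith) (by linarith)
      hA1 (typ_union hK hD) hN hqq ha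
    have e1 : {t | X (V.cs E p t) ≤ a} =
        {t | V.hkR h (dOv F y g) I s s' (V.cs E p t) - ρ p ≤ a} := by
      ext t
      show V.hkR h (dOv F y g) I s s' (V.cs E p t) - ρ (V.cs E p t) ≤ a ↔
        V.hkR h (dOv F y g) I s s' (V.cs E p t) - ρ p ≤ a
      rw [hρS]
    rw [e1] at r1
    refine r1.trans ?_
    have h8 : 0 ≤ (a + 4 * A) / (τ - A) := div_nonneg (by linarith) (by linarith)
    have := mul_le_mul_of_nonneg_left hlog h8
    linarith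

section T2

variable {h : Hwy F} {y g c Λ L α β s s' αi βi σ σ' α₀ β₀ a₀ b₀ α₁ β₁ a₁ b₁ : ℝ}

/-- common part of the (T2) statements -/
lemma T2_aux {r₀ : ℝ} (hr : 0 < r₀) [IsProbabilityMeasure (gammaMeasure 1 r₀)]
    (h0 : gammaMeasure 1 r₀ (Set.Iio 0) = 0)
    (H : UpData h y g c Λ L α β s s' αi βi σ σ' α₀ β₀ a₀ b₀ α₁ β₁ a₁ b₁)
    {ρ : RowS → ℝ} (hρS : ∀ p t, ρ (V.cs (V.E0 h (dOv F y g)) p t) = ρ p)
    {A τ q₀ : ℝ} {p : RowS} (hpos : p ∈ V.posS h (dOv F y g))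
    (hin : q₀ ≤ (PR (gammaMeasure 1 r₀)).real {q | ski h y (Set.Icc αi βi) L σ σ' q ≤ τ}) :
    V.LC (iidLaw (gammaMeasure 1 r₀)) (fun t => V.hkR h (dOv F y g)
      (Set.Icc (α - h.κ) (β + h.κ)) s s' (V.cs (V.E0 h (dOv F y g)) p t) -
        ρ (V.cs (V.E0 h (dOv F y g)) p t)) ∧
    (∀ᵐ t ∂(iidLaw (gammaMeasure 1 r₀)), 0 ≤ (V.hkR h (dOv F y g)
      (Set.Icc (α - h.κ) (β + h.κ)) s s' (V.cs (V.E0 h (dOv F y g)) p t) -
        ρ (V.cs (V.E0 h (dOv F y g)) p t)) - (V.hkR h (dOv F y g) Set.univ (-L) L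
        (V.cs (V.E0 h (dOv F y g)) p t) - ρ (V.cs (V.E0 h (dOv F y g)) p t))) ∧
    (∀ w ∈ {w : RowS × ((ℝ × ℝ) × (ℝ × ℝ)) | Nn w.1.1.2 ∧ ‖w.2.1‖ ≤ 1 ∧
        obI h y g c (Set.Icc αi βi) L σ σ' w.1.1.1 w.1.1.2 w.1.2 w.2 ∈ Set.Iic τ},
      τ + 3 * A < (V.hkR h (dOv F y g) (Set.Icc (α - h.κ) (β + h.κ)) s s' w.1 - ρ w.1) -
        (V.hkR h (dOv F y g) Set.univ (-L) L w.1 - ρ w.1) →
      w ∈ NS (obLo h g c α₀ β₀ L a₀ b₀) A ∪ NS (obUp h y g c α₁ β₁ L a₁ b₁) A ∪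
        NS (obJ h y g Λ L) A) ∧
    q₀ ≤ ((iidLaw (gammaMeasure 1 r₀)).prod PF).real {x |
      (V.cs (V.E0 h (dOv F y g)) p x.1, x.2) ∈
      {w : RowS × ((ℝ × ℝ) × (ℝ × ℝ)) | Nn w.1.1.2 ∧ ‖w.2.1‖ ≤ 1 ∧
        obI h y g c (Set.Icc αi βi) L σ σ' w.1.1.1 w.1.1.2 w.1.2 w.2 ∈ Set.Iic τ}} := by
  refine ⟨?_, ?_, ?_, ?_⟩
  · have h1 := (V.LC_hk' h hr (Set.Icc (α - h.κ) (β + h.κ)) s s' hpos
      (H.hne _ _ _)).sub_const (ρ p)
    have e1 : (fun t => V.hkR h (dOv F y g)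
      (Set.Icc (α - h.κ) (β + h.κ)) s s' (V.cs (V.E0 h (dOv F y g)) p t) -
        ρ (V.cs (V.E0 h (dOv F y g)) p t)) = fun t =>
        V.hkR h (dOv F y g) (Set.Icc (α - h.κ) (β + h.κ)) s s'
          (V.cs (V.E0 h (dOv F y g)) p t) - ρ p := by
      funext t
      rw [hρS]
    rw [e1]; exact h1
  · filter_upwards [V.nonneg_hk' h h0 (I := Set.Icc (α - h.κ) (β + h.κ)) (L := L) (a := s)
      (b := s') H.hs1 H.hs4 hpos (H.hne _ _ _)] with t ht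
    linarith
  · rintro w ⟨w1, w2, w3⟩ hlt
    by_contra hcon
    rw [Set.mem_union, Set.mem_union, not_or, not_or] at hcon
    obtain ⟨⟨c1, c2⟩, c3⟩ := hcon
    have c1' : |obLo h g c α₀ β₀ L a₀ b₀ w.1.1.1 w.1.1.2 w.1.2 w.2| ≤ A := not_lt.1 c1
    have c2' : |obUp h y g c α₁ β₁ L a₁ b₁ w.1.1.1 w.1.1.2 w.1.2 w.2| ≤ A := not_lt.1 c2
    have c3' : |obJ h y g Λ L w.1.1.1 w.1.1.2 w.1.2 w.2| ≤ A := not_lt.1 c3
    have key := H.sko_le w1 (r := w.2) w2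
    have w3' : obI h y g c (Set.Icc αi βi) L σ σ' w.1.1.1 w.1.1.2 w.1.2 w.2 ≤ τ := w3
    have e1 : sko h y g (Set.Icc (α - h.κ) (β + h.κ)) L s s' w.1 =
      V.hkR h (dOv F y g) (Set.Icc (α - h.κ) (β + h.κ)) s s' w.1 -
        V.hkR h (dOv F y g) Set.univ (-L) L w.1 := rfl
    rw [e1] at key
    have k1 := (abs_le.1 c1').2
    have k2 := (abs_le.1 c2').2
    have k3 := (abs_le.1 c3').2
    linarith
  · exact hin.trans (condI_good h0 H.geo measurableSet_Icc σ σ' hpos (B := Set.Iic τ)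
      measurableSet_Iic)

/-- **(T2)** for every typical `p`: exponential tail of `hull - ρ` -/
theorem T2c {r₀ : ℝ} (hr : 0 < r₀) [IsProbabilityMeasure (gammaMeasure 1 r₀)]
    (h0 : gammaMeasure 1 r₀ (Set.Iio 0) = 0)
    (H : UpData h y g c Λ L α β s s' αi βi σ σ' α₀ β₀ a₀ b₀ α₁ β₁ a₁ b₁)
    {ρ : RowS → ℝ} (hρm : Measurable ρ)
    (hρS : ∀ p t, ρ (V.cs (V.E0 h (dOv F y g)) p t) = ρ p)
    {A e τ q₀ a : ℝ} (hA : 0 < A) (he : 0 ≤ e) (hτ : 0 ≤ τ) (hq0 : 0 < q₀) (hq : 8 * e ≤ q₀)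
    (ha : 0 ≤ a) {p : RowS} (hpos : p ∈ V.posS h (dOv F y g))
    (hLo : p ∈ V.typ (gammaMeasure 1 r₀) (V.E0 h (dOv F y g)) PF
      (NS (obLo h g c α₀ β₀ L a₀ b₀) A) e)
    (hUp : p ∈ V.typ (gammaMeasure 1 r₀) (V.E0 h (dOv F y g)) PF
      (NS (obUp h y g c α₁ β₁ L a₁ b₁) A) e)
    (hJ : p ∈ V.typ (gammaMeasure 1 r₀) (V.E0 h (dOv F y g)) PF (NS (obJ h y g Λ L) A) e)
    (hG : p ∈ V.typ (gammaMeasure 1 r₀) (V.E0 h (dOv F y g)) PF (NS (obG h y g L ρ) A) e)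
    (hin : q₀ ≤ (PR (gammaMeasure 1 r₀)).real {q | ski h y (Set.Icc αi βi) L σ σ' q ≤ τ}) :
    (iidLaw (gammaMeasure 1 r₀)).real {t | a - A ≤ V.hkR h (dOv F y g)
        (Set.Icc (α - h.κ) (β + h.κ)) s s' (V.cs (V.E0 h (dOv F y g)) p t) - ρ p} ≤
      2 * Real.exp (-(q₀ / 4) * (a / (τ + 6 * A))) := by
  obtain ⟨hlc, hnn, hN, hI⟩ := T2_aux hr h0 H hρS (A := A) hpos hin
  have hq1 : q₀ ≤ 1 := hin.trans measureReal_le_one
  set G := gammaMeasure 1 r₀ with hGdef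
  set E := V.E0 h (dOv F y g) with hEdef
  have hXm : Measurable fun q : RowS =>
      V.hkR h (dOv F y g) (Set.Icc (α - h.κ) (β + h.κ)) s s' q - ρ q :=
    (V.measurable_hkR h (dOv F y g) measurableSet_Icc s s').sub hρm
  have hA1 : p ∈ V.typ G E PF {w : RowS × ((ℝ × ℝ) × (ℝ × ℝ)) |
      A < |V.hkR h (dOv F y g) Set.univ (-L) L w.1 - ρ w.1|} e := hG
  have r1 := V.cond_T2X hXm (D := fun q => V.hkR h (dOv F y g) Set.univ (-L) L q - ρ q) hlc hnn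
    (d := A) (δ := e) (τ := τ + 3 * A) (q := q₀ - 3 * e) (c := e + e + e) hA (by linarith)
    (by linarith) (by linarith) (by linarith) hA1 (typ_union (typ_union hLo hUp) hJ) hN
    (by linarith) ha
  have e1 : {t | a - A ≤ (fun q : RowS =>
      V.hkR h (dOv F y g) (Set.Icc (α - h.κ) (β + h.κ)) s s' q - ρ q) (V.cs E p t)} =
      {t | a - A ≤ V.hkR h (dOv F y g) (Set.Icc (α - h.κ) (β + h.κ)) s s' (V.cs E p t) - ρ p} := by
    ext t
    show a - A ≤ V.hkR h (dOv F y g) (Set.Icc (α - h.κ) (β + h.κ)) s s' (V.cs E p t) -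
      ρ (V.cs E p t) ↔
      a - A ≤ V.hkR h (dOv F y g) (Set.Icc (α - h.κ) (β + h.κ)) s s' (V.cs E p t) - ρ p
    rw [hρS]
  rw [e1] at r1
  refine r1.trans ?_
  have e2 : τ + 3 * A + 3 * A = τ + 6 * A := by ring
  rw [e2]
  have h9 : 0 ≤ a / (τ + 6 * A) := div_nonneg ha (by linarith)
  have h10 : -((q₀ - 3 * e) / 2) * (a / (τ + 6 * A)) ≤ -(q₀ / 4) * (a / (τ + 6 * A)) :=
    mul_le_mul_of_nonneg_right (by linarith) h9
  have := Real.exp_le_exp.2 h10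
  linarith


/-- input `hle` of `SData.mean_all` -/
theorem UpData.ae_sko_le {G : Measure ℝ} [IsProbabilityMeasure G] (h0 : G (Set.Iio 0) = 0)
    (H : UpData h y g c Λ L α β s s' αi βi σ σ' α₀ β₀ a₀ b₀ α₁ β₁ a₁ b₁) :
    ∀ᵐ w ∂((PR G).prod PF), sko h y g (Set.Icc (α - h.κ) (β + h.κ)) L s s' w.1 ≤
      obI h y g c (Set.Icc αi βi) L σ σ' w.1.1.1 w.1.1.2 w.1.2 w.2 +
      (obLo h g c α₀ β₀ L a₀ b₀ w.1.1.1 w.1.1.2 w.1.2 w.2 +
        obUp h y g c α₁ β₁ L a₁ b₁ w.1.1.1 w.1.1.2 w.1.2 w.2 +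
        obJ h y g Λ L w.1.1.1 w.1.1.2 w.1.2 w.2) := by
  have a1 : ∀ᵐ w ∂((PR G).prod PF), Nn w.1.1.2 := by
    have h1 : ∀ᵐ q ∂(PR G), Nn q.1.2 := ae_nn_fresh (K.ae_Nn h0)
    exact Measure.quasiMeasurePreserving_fst.ae h1
  have a2 : ∀ᵐ w ∂((PR G).prod PF), ‖w.2.1‖ ≤ 1 :=
    Measure.quasiMeasurePreserving_snd.ae ae_PF_jit
  filter_upwards [a1, a2] with w h1 h2
  exact H.sko_le h1 h2

end T2

end Q

end Crest.Agent.R151
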