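import Crest.Agent.R151.M56d

-- ▼ part R151/M56e
section

/-!
# R151 / S0214 part 2, M56e — mean cost of fences (R4), deterministic part (helper56)

`chain_lower`: a walk of the `b`-lane of width `β - α` crossing `N + 1` rows of pitch `y₂` costs at
least the sum of the hull costs, minus the excesses of the highways over the window, plus the costs
of the gaps, minus a constant.
-/

set_option autoImplicit false

open MeasureTheory Filter ProbabilityTheory Topology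
open Crest.ProbabilityR.FirstPassage

namespace Crest.Agent.R151.M56

open Crest.Agent.R151.K Crest.Agent.R151.Q
open R78 (V Wk IsHwy hc hp stepc hull routes IsOpen shp hullY ptY gapK IsStrip Frame IsPos Back Sep
  IsStack)
open M192 (frame frame_al frame_be al_pos be_pos isStrip ix_cov pos_add_toR)
open B710 (FlatData)
open C710 (fn fn_nonneg abs_f_le l1_nr toR_sub' n1_le_of_l1 pL)

variable {μ : ℝ × ℝ → ℝ} {F : FlatData μ} (h : Hwy F)

/-- height of the first row of the stack -/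
noncomputable def H0 : ℝ := h.wH / 2 + mg F

/-- base point of row `k` of the stack -/
noncomputable def Bk (c0 y2 : ℝ) (k : ℕ) : ℝ × ℝ := (-c0) • F.a + (H0 h + k * y2) • F.b

/-- offset of row `k` of the stack -/
noncomputable def tk (c0 y2 : ℝ) (ξ : ℝ × ℝ) (k : ℕ) : ℝ × ℝ := ξ - Bk h c0 y2 k

/-- height of the end of the walk -/
noncomputable def yN (d : ℝ × ℝ) (y2 : ℝ) (N : ℕ) : ℝ :=
  H0 h + N * y2 + F.be d + h.wH / 2 + mg F

lemma al_Bk (c0 y2 : ℝ) (k : ℕ) : F.al (Bk h c0 y2 k) = -c0 := al_comb F _ _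

lemma be_Bk (c0 y2 : ℝ) (k : ℕ) : F.be (Bk h c0 y2 k) = H0 h + k * y2 := be_comb F _ _

lemma al_tk (c0 y2 : ℝ) (ξ : ℝ × ℝ) (k : ℕ) (z : V) :
    F.al (pos (tk h c0 y2 ξ k) z) = F.al (pos ξ z) + c0 := by
  unfold tk
  rw [al_pos, al_pos, map_sub, al_Bk]; ring


/-- phases of row `k` -/
def ph (u : ℕ → ℝ) (k : ℕ) : ℝ × ℝ := (u (2 * k), u (2 * k + 1))

/-- lower highway of row `k` of the stack -/
noncomputable def Lk (c0 y2 : ℝ) (ξ : ℝ × ℝ) (t : Environment) (u : ℕ → ℝ) (k : ℕ) : ℤ → V :=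
  h.Lo (tk h c0 y2 ξ k) t (ph u k)

/-- upper highway of row `k` of the stack -/
noncomputable def Uk (d : ℝ × ℝ) (c0 y2 : ℝ) (ξ : ℝ × ℝ) (t : Environment) (u : ℕ → ℝ) (k : ℕ) : ℤ → V :=
  h.Up d (tk h c0 y2 ξ k) t (ph u k)

lemma norm_nr (θ : ℝ × ℝ) : ‖pos θ (nr θ)‖ ≤ 1 := by
  have h1 := l1_nr θ
  refine le_trans ?_ h1
  rw [Prod.norm_def]
  unfold l1 pos
  refine max_le ?_ ?_
  · rw [Real.norm_eq_abs]
    have := abs_nonneg (toR (nr θ) + θ).2
    linarith
  · rw [Real.norm_eq_abs]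
    have := abs_nonneg (toR (nr θ) + θ).1
    linarith

variable {h} {d : ℝ × ℝ} {y2 : ℝ} (hd : h.wH + 2 * mg F < F.be d) (hy : h.wH < y2 - F.be d)
include hd hy

omit hd hy in
lemma tk_succ (c0 : ℝ) (ξ : ℝ × ℝ) (k : ℕ) :
    tk h c0 y2 ξ k - d - (y2 • F.b - d) = tk h c0 y2 ξ (k + 1) := by
  unfold tk Bk
  push_cast
  rw [add_mul, one_mul, ← add_assoc, add_smul _ y2]
  abel

/-- the stack -/
lemma stack (c0 : ℝ) (ξ : ℝ × ℝ) (t : Environment) (u : ℕ → ℝ) (N : ℕ) :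
    IsStack N (Lk h c0 y2 ξ t u) (Uk h d c0 y2 ξ t u) {nr ξ} {nr (ξ - (yN h d y2 N) • F.b)} := by
  have hw := wH_nonneg h
  have hm := one_le_mg F
  have hfa := fn_nonneg F.al
  have hfb := fn_nonneg F.be
  have hmf : fn F.be + 1 ≤ mg F := by unfold mg; linarith
  have hbt : ∀ k : ℕ, F.be (tk h c0 y2 ξ k) = F.be ξ - (H0 h + k * y2) := by
    intro k; unfold tk; rw [map_sub, be_Bk]
  have hx : |F.be (pos ξ (nr ξ))| ≤ fn F.be := by
    have := nr_coord F.be ξ 0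
    simpa using this
  have hyv : |F.be (pos ξ (nr (ξ - (yN h d y2 N) • F.b))) - yN h d y2 N| ≤ fn F.be := by
    have := nr_coord F.be ξ ((yN h d y2 N) • F.b)
    rwa [map_smul, F.be_b, smul_eq_mul, mul_one] at this
  rw [abs_le] at hx hyv
  rw [be_pos] at hx hyv
  refine R78.isStack_of_strips (F := frame F)
    (loL := fun k => -(h.wH / 2) - F.be (tk h c0 y2 ξ k))
    (hiL := fun k => h.wH / 2 - F.be (tk h c0 y2 ξ k))
    (loU := fun k => -(h.wH / 2) - F.be (tk h c0 y2 ξ k - d))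
    (hiU := fun k => h.wH / 2 - F.be (tk h c0 y2 ξ k - d))
    (fun k _ => isStrip h _ _ t) (fun k _ => isStrip h _ _ t) ?_ ?_ ?_ ?_ ?_ ?_
  · intro k _
    simp only [map_sub]
    linarith
  · intro k _
    simp only [map_sub, hbt]
    push_cast
    linarith
  · intro k hk
    simp only [map_sub, hbt]
    have h1 : (k : ℝ) ≤ N := by exact_mod_cast hk.le
    have h2 : 0 ≤ y2 := by linarith
    nlinarith
  · rintro _ rfl
    simp only [hbt]
    rw [frame_be]
    unfold H0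
    push_cast
    linarith
  · rintro _ rfl
    simp only [map_sub, hbt]
    rw [frame_be]
    unfold H0
    push_cast
    linarith
  · rintro _ rfl
    simp only [map_sub, hbt]
    rw [frame_be]
    have e : yN h d y2 N = H0 h + N * y2 + F.be d + h.wH / 2 + mg F := rfl
    linarith [hyv.1]

/-- the constant of `chain_lower` -/
noncomputable def Cch (h : Hwy F) (d : ℝ × ℝ) (α β : ℝ) : ℝ :=
  ‖F.ρ‖ * (1 + Rx h (β + h.κ + 1) + ‖(-((α + β) / 2)) • F.a + H0 h • F.b‖) +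
    ‖F.ρ‖ * (1 + Rx h (α - F.al d) +
      ‖(F.be d + h.wH / 2 + mg F) • F.b + ((α + β) / 2) • F.a - d‖)

variable {α β s s2 : ℝ} {I : Set ℝ} (hs : s ≤ α) (hs2 : β + h.κ < s2 + F.al d)
  (hI : Set.Icc α β ⊆ I) (hw : 2 * fn F.al ≤ β - α)
include hs hs2 hI hw

/-- **chain inequality of the fences** -/
theorem chain_lower {t : Environment} (ht : Nn t) (ξ : ℝ × ℝ) (u : ℕ → ℝ) (N : ℕ) :
    ∑ k ∈ Finset.range (N + 1), (h.hkY d I s s2 (tk h ((α + β) / 2) y2 ξ k) t (ph u k) -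
        h.Y s (β + h.κ + 1) (u (2 * k)) (tk h ((α + β) / 2) y2 ξ k) t -
        h.Y (α - F.al d) s2 (u (2 * k + 1)) (tk h ((α + β) / 2) y2 ξ k - d) t) +
      ∑ k ∈ Finset.range N, h.gY (y2 • F.b - d) (α - F.al d) (β + h.κ + 1)
        (tk h ((α + β) / 2) y2 ξ k - d) t (u (2 * k + 1), u (2 * k + 2)) -
      Cch h d α β ≤
    pL F (β - α) (yN h d y2 N) ξ t -
      (phi F (nr (ξ - (yN h d y2 N) • F.b)) - phi F (nr ξ)) := by
  set c0 : ℝ := (α + β) / 2 with hc0
  set L := Lk h c0 y2 ξ t u with hL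
  set U := Uk h d c0 y2 ξ t u with hU
  set θ := tk h c0 y2 ξ with hθ
  have hstack := stack hd hy c0 ξ t u N
  -- indices
  set iL : ℕ → ℤ := fun k => h.iL s (θ k) t (ph u k) with hiL
  set jU : ℕ → ℤ := fun k => h.iU d s2 (θ k) t (ph u k) with hjU
  set bL : ℕ → ℤ := fun k => h.iL (β + h.κ + 1) (θ k) t (ph u k) with hbL
  set aU : ℕ → ℤ := fun k => h.iU d (α - F.al d) (θ k) t (ph u k) with haU
  have hLidx : ∀ k m, L k m ∈ laneB F (β - α) ξ → iL k ≤ m ∧ m ≤ bL k := by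
    intro k m hm
    have h1 : |F.al (pos ξ (L k m))| ≤ (β - α) / 2 := hm
    rw [abs_le] at h1
    have h2 : F.al (pos (θ k) (h.H (ph u k).1 (θ k) t m)) = F.al (pos ξ (L k m)) + c0 :=
      al_tk h c0 y2 ξ k _
    constructor
    · refine ix_le_of_ge (h := h) ?_
      rw [h2]; linarith [h1.1]
    · refine (lt_ix_of_lt (h := h) ?_).le
      rw [h2]; linarith [h1.2]
  have hUidx : ∀ k m, U k m ∈ laneB F (β - α) ξ → aU k ≤ m ∧ m ≤ jU k := by
    intro k m hm
    have h1 : |F.al (pos ξ (U k m))| ≤ (β - α) / 2 := hm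
    rw [abs_le] at h1
    have h2 : F.al (pos (θ k - d) (h.H (ph u k).2 (θ k - d) t m)) =
        F.al (pos ξ (U k m)) + c0 - F.al d := by
      have e1 := Hwy.al_Up (F := F) d (θ k) (h.H (ph u k).2 (θ k - d) t m)
      rw [e1]
      have e2 : F.al (pos (θ k) (U k m)) = F.al (pos ξ (U k m)) + c0 := al_tk h c0 y2 ξ k _
      have e3 : h.H (ph u k).2 (θ k - d) t m = U k m := rfl
      rw [e3, e2]
    constructor
    · refine ix_le_of_ge (h := h) ?_
      rw [h2]; linarith [h1.1]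
    · refine (lt_ix_of_lt (h := h) ?_).le
      rw [h2]; linarith [h1.2]
  -- the sum
  have key : ∑ k ∈ Finset.range (N + 1), hull t (L k) (U k) (rg F I (θ k)) (iL k) (jU k) +
      ∑ k ∈ Finset.range N, gapK t (U k) (L (k + 1)) (aU k) (bL (k + 1)) -
      hc t (L 0) (bL 0) + hc t (U N) (aU N) ≤ pL F (β - α) (yN h d y2 N) ξ t := by
    unfold pL
    refine le_pR ?_ fun g hg => ?_
    · -- the lane is connected
      have h3 := C710.nr_mem_laneB' F hw ξ
      have h4 := C710.nr_mem_laneB F hw ξ (yN h d y2 N)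
      obtain ⟨w, -, hw'⟩ := seg_coord F ξ 0 ((yN h d y2 N) • F.b)
      have hlane := C710.laneB_eq F (β - α) ξ
      rw [hlane] at h3 h4 ⊢
      have hfn : fn F.al ≤ β - α := by
        have := fn_nonneg F.al
        linarith
      exact (C710.lane_conn (G := Measure.dirac (0 : ℝ)) (by simp) (integrable_dirac (by simp)) hfn
        h3 h4).1
    · obtain ⟨z, w, hopen, hsum⟩ := R78.chain_pr ht hstack (A := fun k => rg F I (θ k)) rfl rfl g
        (fun k _ i j _ _ => routes_bdd ht _ _ _ _ _)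
        (fun k _ i j o ho v hv => by
          have h1 : |F.al (pos ξ v)| ≤ (β - α) / 2 := hg v (ho.sub v hv)
          rw [abs_le] at h1
          apply hI
          have h2 : F.al (pos (θ k) v) = F.al (pos ξ v) + c0 := al_tk h c0 y2 ξ k v
          rw [h2]
          constructor <;> linarith [h1.1, h1.2])
      have hz : ∀ k ≤ N, iL k ≤ z k ∧ z k ≤ bL k := by
        intro k hk
        obtain ⟨o, ho⟩ := hopen k hk
        exact hLidx k _ (hg _ (ho.sub _ o.start_mem_support))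
      have hwk : ∀ k ≤ N, aU k ≤ w k ∧ w k ≤ jU k := by
        intro k hk
        obtain ⟨o, ho⟩ := hopen k hk
        exact hUidx k _ (hg _ (ho.sub _ o.end_mem_support))
      have s1 : ∑ k ∈ Finset.range (N + 1), hull t (L k) (U k) (rg F I (θ k)) (iL k) (jU k) ≤
          ∑ k ∈ Finset.range (N + 1), hull t (L k) (U k) (rg F I (θ k)) (z k) (w k) := by
        refine Finset.sum_le_sum fun k hk => ?_
        rw [Finset.mem_range] at hk
        have hk' : k ≤ N := by omega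
        obtain ⟨o, ho⟩ := hopen k hk'
        refine R78.hull_mono (routes_bdd ht _ _ _ _ _) ?_ subset_rfl (hz k hk').1 (hwk k hk').2
        refine ⟨_, z k, w k, le_rfl, le_rfl, o, ⟨fun v hv => ?_, ho.fst, ho.snd⟩, rfl⟩
        have h1 : |F.al (pos ξ v)| ≤ (β - α) / 2 := hg v (ho.sub v hv)
        rw [abs_le] at h1
        apply hI
        have h2 : F.al (pos (θ k) v) = F.al (pos ξ v) + c0 := al_tk h c0 y2 ξ k v
        rw [h2]
        constructor <;> linarith [h1.1, h1.2]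
      have s2 : ∑ k ∈ Finset.range N, gapK t (U k) (L (k + 1)) (aU k) (bL (k + 1)) ≤
          ∑ k ∈ Finset.range N, gapK t (U k) (L (k + 1)) (w k) (z (k + 1)) := by
        refine Finset.sum_le_sum fun k hk => ?_
        rw [Finset.mem_range] at hk
        exact R78.gapK_mono ht (h.isHwy _ _ _) (h.isHwy _ _ _) (hwk k (by omega)).1
          (hz (k + 1) (by omega)).2
      have s4 : hc t (U N) (aU N) ≤ hc t (U N) (w N) := R78.hc_mono ht _ (hwk N le_rfl).1
      have s5 : hc t (L 0) (z 0) ≤ hc t (L 0) (bL 0) := R78.hc_mono ht _ (hz 0 (Nat.zero_le _)).2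
      have s6 := pt_nonneg ht (nr ξ) (L 0 (z 0))
      have s7 := pt_nonneg ht (U N (w N)) (nr (ξ - (yN h d y2 N) • F.b))
      linarith
  -- the end points
  have c1 : phi F (L 0 (bL 0)) - phi F (nr ξ) ≤
      ‖F.ρ‖ * (1 + Rx h (β + h.κ + 1) + ‖(-c0) • F.a + H0 h • F.b‖) := by
    have e1 : phi F (L 0 (bL 0)) - phi F (nr ξ) =
        F.ρ (pos (θ 0) (L 0 (bL 0)) + Bk h c0 y2 0 - pos ξ (nr ξ)) := by
      unfold phi
      rw [← map_sub]
      congr 1
      simp only [hθ, tk, pos]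
      abel
    rw [e1]
    refine (le_abs_self _).trans ((F.ρ.le_opNorm _).trans
      (mul_le_mul_of_nonneg_left ?_ (norm_nonneg _)))
    refine (norm_sub_le _ _).trans ?_
    have n1 := norm_add_le (pos (θ 0) (L 0 (bL 0))) (Bk h c0 y2 0)
    have n2 : ‖pos (θ 0) (L 0 (bL 0))‖ ≤ Rx h (β + h.κ + 1) := norm_x h _ _ _ _
    have n3 : ‖pos ξ (nr ξ)‖ ≤ 1 := norm_nr ξ
    have n4 : Bk h c0 y2 0 = (-c0) • F.a + H0 h • F.b := by unfold Bk; simp
    rw [n4] at n1 ⊢
    linarith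
  have c2 : phi F (nr (ξ - (yN h d y2 N) • F.b)) - phi F (U N (aU N)) ≤
      ‖F.ρ‖ * (1 + Rx h (α - F.al d) +
        ‖(F.be d + h.wH / 2 + mg F) • F.b + c0 • F.a - d‖) := by
    have e1 : phi F (nr (ξ - (yN h d y2 N) • F.b)) - phi F (U N (aU N)) =
        F.ρ (pos (ξ - (yN h d y2 N) • F.b) (nr (ξ - (yN h d y2 N) • F.b)) -
          pos (θ N - d) (U N (aU N)) + ((F.be d + h.wH / 2 + mg F) • F.b + c0 • F.a - d)) := by
      unfold phi
      rw [← map_sub]
      congr 1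
      have e2 : yN h d y2 N = (H0 h + N * y2) + (F.be d + h.wH / 2 + mg F) := by unfold yN; ring
      simp only [hθ, tk, pos, Bk, e2, add_smul, neg_smul]
      abel
    rw [e1]
    refine (le_abs_self _).trans ((F.ρ.le_opNorm _).trans
      (mul_le_mul_of_nonneg_left ?_ (norm_nonneg _)))
    have n1 := norm_add_le (pos (ξ - (yN h d y2 N) • F.b) (nr (ξ - (yN h d y2 N) • F.b)) -
      pos (θ N - d) (U N (aU N))) ((F.be d + h.wH / 2 + mg F) • F.b + c0 • F.a - d)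
    have n0 := norm_sub_le (pos (ξ - (yN h d y2 N) • F.b) (nr (ξ - (yN h d y2 N) • F.b)))
      (pos (θ N - d) (U N (aU N)))
    have n2 : ‖pos (θ N - d) (U N (aU N))‖ ≤ Rx h (α - F.al d) := norm_x h _ _ _ _
    have n3 : ‖pos (ξ - (yN h d y2 N) • F.b) (nr (ξ - (yN h d y2 N) • F.b))‖ ≤ 1 := norm_nr _
    linarith
  -- excess form
  have e1 : ∀ k, h.hkY d I s s2 (θ k) t (ph u k) =
      hull t (L k) (U k) (rg F I (θ k)) (iL k) (jU k) - hp t (phi F) (L k) (iL k) +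
        hp t (phi F) (U k) (jU k) := fun k => rfl
  have e2 : ∀ k, h.Y s (β + h.κ + 1) (u (2 * k)) (θ k) t =
      hp t (phi F) (L k) (bL k) - hp t (phi F) (L k) (iL k) := fun k => rfl
  have e3 : ∀ k, h.Y (α - F.al d) s2 (u (2 * k + 1)) (θ k - d) t =
      hp t (phi F) (U k) (jU k) - hp t (phi F) (U k) (aU k) := fun k => rfl
  have e4 : ∀ k, h.gY (y2 • F.b - d) (α - F.al d) (β + h.κ + 1) (θ k - d) t
      (u (2 * k + 1), u (2 * k + 2)) = gapK t (U k) (L (k + 1)) (aU k) (bL (k + 1)) -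
        hp t (phi F) (U k) (aU k) + hp t (phi F) (L (k + 1)) (bL (k + 1)) := by
    intro k
    have hs := tk_succ (h := h) (d := d) (y2 := y2) c0 ξ k
    have e5 : h.Up (y2 • F.b - d) (θ k - d) t (u (2 * k + 1), u (2 * k + 2)) = L (k + 1) := by
      unfold Hwy.Up
      rw [hs]
      rfl
    have e6 : h.iU (y2 • F.b - d) (β + h.κ + 1) (θ k - d) t (u (2 * k + 1), u (2 * k + 2)) =
        bL (k + 1) := by
      unfold Hwy.iU
      rw [hs]
      rfl
    have e7 : h.Lo (θ k - d) t (u (2 * k + 1), u (2 * k + 2)) = U k := rfl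
    have e8 : h.iL (α - F.al d) (θ k - d) t (u (2 * k + 1), u (2 * k + 2)) = aU k := rfl
    unfold Hwy.gY
    rw [e5, e6, e7, e8, R78.gapK_eq t (phi F)]
    unfold ptY
    ring
  simp only [e1, e2, e3, e4, Finset.sum_add_distrib, Finset.sum_sub_distrib]
  have f1 : ∑ k ∈ Finset.range (N + 1), hp t (phi F) (L k) (bL k) =
      ∑ k ∈ Finset.range N, hp t (phi F) (L (k + 1)) (bL (k + 1)) + hp t (phi F) (L 0) (bL 0) :=
    Finset.sum_range_succ' _ _
  have f2 : ∑ k ∈ Finset.range (N + 1), hp t (phi F) (U k) (aU k) =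
      ∑ k ∈ Finset.range N, hp t (phi F) (U k) (aU k) + hp t (phi F) (U N) (aU N) :=
    Finset.sum_range_succ _ _
  have f3 : hp t (phi F) (L 0) (bL 0) = hc t (L 0) (bL 0) - phi F (L 0 (bL 0)) := rfl
  have f4 : hp t (phi F) (U N) (aU N) = hc t (U N) (aU N) - phi F (U N (aU N)) := rfl
  have f5 : Cch h d α β = ‖F.ρ‖ * (1 + Rx h (β + h.κ + 1) + ‖(-c0) • F.a + H0 h • F.b‖) +
    ‖F.ρ‖ * (1 + Rx h (α - F.al d) + ‖(F.be d + h.wH / 2 + mg F) • F.b + c0 • F.a - d‖) := rfl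
  rw [f1, f2, f3, f4, f5]
  linarith

end Crest.Agent.R151.M56
end

-- ▼ part R151/M56f

/-!
# R151 / S0214 part 2, M56f — mean cost of fences (R4) (helper56)

`fence_mean`: `E hkY ≤ y₂ * rate (β - α) + (s₂ - s + β - α + κ + 1 + al d) * ε`.
-/

set_option autoImplicit false

open MeasureTheory Filter ProbabilityTheory Topology
open Crest.ProbabilityR.FirstPassage

namespace Crest.Agent.R151.M56

open Crest.Agent.R151.K Crest.Agent.R151.Q
open R78 (V Wk IsHwy hc hp stepc hull routes IsOpen shp hullY ptY gapK IsStrip Frame IsPos Back Sep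
  IsStack)
open M192 (frame frame_al frame_be al_pos be_pos isStrip ix_cov pos_add_toR)
open B710 (FlatData)
open C710 (fn fn_nonneg abs_f_le l1_nr toR_sub' n1_le_of_l1 pL)

/-- law of the phases of the stack -/
noncomputable def PI : Measure (ℕ → ℝ) := Measure.infinitePi fun _ : ℕ => UU

instance : IsProbabilityMeasure PI := by unfold PI; infer_instance

lemma mp_pair {i j : ℕ} (hij : i ≠ j) :
    MeasurePreserving (fun u : ℕ → ℝ => (u i, u j)) PI (UU.prod UU) := by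
  have hind : iIndepFun (fun (n : ℕ) (u : ℕ → ℝ) => u n) PI := by
    unfold PI
    exact iIndepFun_infinitePi (P := fun _ : ℕ => UU) (X := fun _ x => x)
      (fun _ => measurable_id)
  have h1 := (indepFun_iff_map_prod_eq_prod_map_map (measurable_pi_apply i).aemeasurable
    (measurable_pi_apply j).aemeasurable).1 (hind.indepFun hij)
  have hm : ∀ n, Measure.map (fun u : ℕ → ℝ => u n) PI = UU := fun n =>
    (measurePreserving_eval_infinitePi (fun _ : ℕ => UU) n).map_eq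
  refine ⟨(measurable_pi_apply i).prodMk (measurable_pi_apply j), ?_⟩
  rw [h1, hm, hm]

variable {μ : ℝ × ℝ → ℝ} {F : FlatData μ} {h : Hwy F} {G : Measure ℝ} [IsProbabilityMeasure G]

/-- transfer from one row to the stack -/
lemma stack_transfer {f : ℝ × ℝ → Environment → ℝ × ℝ → ℝ}
    (hf : ∀ φ, Inv fun θ t => f θ t φ)
    (hm : Measurable fun q : ((ℝ × ℝ) × Environment) × (ℝ × ℝ) => f q.1.1 q.1.2 q.2)
    (hi : Integrable (fun q : ((ℝ × ℝ) × Environment) × (ℝ × ℝ) => f q.1.1 q.1.2 q.2) (nu G))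
    (w : ℝ × ℝ) {i j : ℕ} (hij : i ≠ j) :
    Integrable (fun q : ((ℝ × ℝ) × Environment) × (ℕ → ℝ) =>
      f (q.1.1 - w) q.1.2 (q.2 i, q.2 j)) ((P0 G).prod PI) ∧
    ∫ q, f (q.1.1 - w) q.1.2 (q.2 i, q.2 j) ∂((P0 G).prod PI) =
      ∫ q, f q.1.1 q.1.2 q.2 ∂(nu G) := by
  have hp : MeasurePreserving (Prod.map (id : (ℝ × ℝ) × Environment → _)
      (fun u : ℕ → ℝ => (u i, u j))) ((P0 G).prod PI) (nu G) :=
    (MeasurePreserving.id _).prod (mp_pair hij)
  have i1 : Integrable (fun q : ((ℝ × ℝ) × Environment) × (ℝ × ℝ) =>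
      f (q.1.1 + -w) q.1.2 q.2) (nu G) :=
    integrable_shift_prod (G := G) (ν := UU.prod UU) (F := f) hf (-w) hi
  have e1 : ∫ q, f (q.1.1 + -w) q.1.2 q.2 ∂(nu G) = ∫ q, f q.1.1 q.1.2 q.2 ∂(nu G) :=
    integral_shift_prod (G := G) (ν := UU.prod UU) (F := f) hf hm (-w)
  simp only [← sub_eq_add_neg] at i1 e1
  refine ⟨hp.integrable_comp_of_integrable i1, ?_⟩
  rw [← e1, ← mp_integral hp i1.aestronglyMeasurable]
  rfl

/-- upper bound of `eL` -/
lemma eL_upper (h0 : G (Set.Iio 0) = 0) (h2 : Integrable (fun x : ℝ => x ^ 2) G)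
    (hμ : IsTC G μ) (F : FlatData μ) {w : ℝ} (hw : 2 * fn F.al ≤ w) {η : ℝ} (hη : 0 < η) :
    ∃ C : ℝ, ∀ y : ℝ, 0 ≤ y → eL G F w y ≤ (rate G F w + η) * y + C := by
  have h3 := C710.rate_tendsto (G := G) h0 h2 hμ F hw
  have hr := C710.rate_nonneg (G := G) h0 h2 hμ F hw
  have h4 := h3.eventually_le_const (show rate G F w < rate G F w + η by linarith)
  obtain ⟨n0, hn0⟩ := eventually_atTop.1 h4
  set C1 : ℝ := (l1 F.b + 2) * (∫ z, z ∂G) + 1 with hC1
  have hm : (0 : ℝ) ≤ ∫ z, z ∂G := integral_nonneg_of_ae (ae_nonneg h0)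
  have hlb := l1_nonneg F.b
  have hC10 : 0 ≤ C1 := by rw [hC1]; positivity
  set C2 : ℝ := ((((n0 : ℝ) + 1) * l1 F.b + 2) * (∫ z, z ∂G)) with hC2
  have hC20 : 0 ≤ C2 := by rw [hC2]; positivity
  refine ⟨C1 + C2, fun y hy => ?_⟩
  have h5 : (⌊y⌋₊ : ℝ) ≤ y := Nat.floor_le hy
  have h6 : y < ⌊y⌋₊ + 1 := Nat.lt_floor_add_one y
  have h7 := C710.eL_diff (G := G) h0 h2 F hw (⌊y⌋₊ : ℝ) (y - ⌊y⌋₊)
    (by rw [abs_le]; constructor <;> linarith)
  rw [add_sub_cancel] at h7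
  rcases Nat.lt_or_ge ⌊y⌋₊ (n0 + 1) with hn | hn
  · have h8 := C710.eL_le (G := G) h0 h2 F hw y
    have h9 : y ≤ (n0 : ℝ) + 1 := by
      have : ((⌊y⌋₊ : ℕ) : ℝ) + 1 ≤ ((n0 + 1 : ℕ) : ℝ) := by exact_mod_cast hn
      push_cast at this
      linarith
    rw [abs_of_nonneg hy] at h8
    have h10 : (y * l1 F.b + 2) * (∫ z, z ∂G) ≤ C2 := by
      rw [hC2]
      gcongr
    have : 0 ≤ (rate G F w + η) * y := by positivity
    linarith
  · have h8 := hn0 ⌊y⌋₊ (by omega)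
    have hpos : (0 : ℝ) < ⌊y⌋₊ := by
      have : 0 < ⌊y⌋₊ := by omega
      exact_mod_cast this
    rw [div_le_iff₀ hpos] at h8
    have h9 : (rate G F w + η) * ⌊y⌋₊ ≤ (rate G F w + η) * y := by gcongr
    linarith

section main

variable {ε : ℝ} (hM : HwyMean G h ε) (h0 : G (Set.Iio 0) = 0)
  (h2 : Integrable (fun x : ℝ => x ^ 2) G) (hμ : IsTC G μ) {d : ℝ × ℝ} {y2 : ℝ}
  (hd : h.wH + 2 * mg F < F.be d) (hy : h.wH < y2 - F.be d)
  {α β s s2 : ℝ} {I : Set ℝ} (hImeas : MeasurableSet I) (hs : s ≤ α)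
  (hs2 : β + h.κ < s2 + F.al d) (hI : Set.Icc α β ⊆ I) (hw : 2 * fn F.al ≤ β - α)
include hM h0 h2 hμ hd hy hImeas hs hs2 hI hw

/-- the inequality for `N + 1` rows, in mean -/
lemma fence_N (hint : Integrable (fun q : ((ℝ × ℝ) × Environment) × (ℝ × ℝ) =>
      h.hkY d I s s2 q.1.1 q.1.2 q.2) (nu G)) (N : ℕ) :
    ((N : ℝ) + 1) * (∫ q, h.hkY d I s s2 q.1.1 q.1.2 q.2 ∂(nu G) -
      (s2 - s + β - α + h.κ + 1 + F.al d) * ε) ≤
    eL G F (β - α) (yN h d y2 N) + Cch h d α β := by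
  set c0 : ℝ := (α + β) / 2 with hc0
  set P := (P0 G).prod PI with hP
  -- the terms
  have t1 := fun k : ℕ => stack_transfer (G := G) (f := fun θ t φ => h.hkY d I s s2 θ t φ)
    (fun φ => h.hkY_inv d I s s2 φ)
    (h.meas_hkY (by fun_prop) (by fun_prop) (by fun_prop) d hImeas s s2) hint
    (Bk h c0 y2 k) (show 2 * k ≠ 2 * k + 1 by omega)
  have y1 := Y_lo (h := h) hM s (β + h.κ + 1) 0
  simp only [sub_zero] at y1
  have t2 := fun k : ℕ => stack_transfer (G := G)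
    (f := fun θ t φ => h.Y s (β + h.κ + 1) φ.1 θ t) (fun φ => Y_inv h _ _ φ.1)
    (measurable_Y h (by fun_prop) (by fun_prop) (by fun_prop) _ _) y1.1
    (Bk h c0 y2 k) (show 2 * k ≠ 2 * k + 1 by omega)
  have y3 := Y_lo (h := h) hM (α - F.al d) s2 0
  simp only [sub_zero] at y3
  have t3 := fun k : ℕ => stack_transfer (G := G)
    (f := fun θ t φ => h.Y (α - F.al d) s2 φ.1 θ t) (fun φ => Y_inv h _ _ φ.1)
    (measurable_Y h (by fun_prop) (by fun_prop) (by fun_prop) _ _) y3.1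
    (Bk h c0 y2 k + d) (show 2 * k + 1 ≠ 2 * k + 2 by omega)
  have t4 := fun k : ℕ => stack_transfer (G := G)
    (f := fun θ t φ => h.gY (y2 • F.b - d) (α - F.al d) (β + h.κ + 1) θ t φ)
    (fun φ => h.gY_inv _ _ _ φ)
    (h.meas_gY (by fun_prop) (by fun_prop) (by fun_prop) _ _ _)
    (gY_integrable h h0 h2 _ _ _) (Bk h c0 y2 k + d) (show 2 * k + 1 ≠ 2 * k + 2 by omega)
  have g0 := gY_nonneg (G := G) h h0 h2 hμ (y2 • F.b - d) (α - F.al d) (β + h.κ + 1)
  -- the left side of `chain_lower`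
  have ilane : Integrable (fun q : ((ℝ × ℝ) × Environment) × (ℕ → ℝ) =>
      pL F (β - α) (yN h d y2 N) q.1.1 q.1.2) P :=
    (C710.integrable_pL (G := G) h0 h2 F hw (yN h d y2 N)).comp_fst PI
  have ephi := C710.mean_disp (G := G) h0 h2 F F.ρ (yN h d y2 N)
  have hphi : ∀ ξ : ℝ × ℝ, phi F (nr (ξ - (yN h d y2 N) • F.b)) - phi F (nr ξ) =
      F.ρ (toR (nr (ξ - (yN h d y2 N) • F.b) - nr ξ)) := by
    intro ξ; unfold phi; rw [toR_sub', map_sub]
  have iphi : Integrable (fun q : ((ℝ × ℝ) × Environment) × (ℕ → ℝ) =>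
      phi F (nr (q.1.1 - (yN h d y2 N) • F.b)) - phi F (nr q.1.1)) P := by
    simp only [hphi]
    have i1 : Integrable (fun p : (ℝ × ℝ) × Environment =>
        F.ρ (toR (nr (p.1 - (yN h d y2 N) • F.b) - nr p.1))) (P0 G) := by
      unfold P0
      exact ephi.1.comp_fst (iidLaw G)
    exact i1.comp_fst PI
  have mlane : ∫ q, pL F (β - α) (yN h d y2 N) q.1.1 q.1.2 ∂P =
      eL G F (β - α) (yN h d y2 N) + yN h d y2 N := by
    have hp : MeasurePreserving (Prod.fst : ((ℝ × ℝ) × Environment) × (ℕ → ℝ) → _) P (P0 G) :=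
      measurePreserving_fst
    have := mp_integral hp
      (C710.integrable_pL (G := G) h0 h2 F hw (yN h d y2 N)).aestronglyMeasurable
    rw [this, C710.eL_eq]; ring
  have mphi : ∫ q : ((ℝ × ℝ) × Environment) × (ℕ → ℝ),
      (phi F (nr (q.1.1 - (yN h d y2 N) • F.b)) - phi F (nr q.1.1)) ∂P = yN h d y2 N := by
    simp only [hphi]
    have hp : MeasurePreserving (fun q : ((ℝ × ℝ) × Environment) × (ℕ → ℝ) => q.1.1) P UU2 := by
      have h3 : MeasurePreserving (Prod.fst : ((ℝ × ℝ) × Environment) × (ℕ → ℝ) → _) P (P0 G) :=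
        measurePreserving_fst
      have h4 : MeasurePreserving (Prod.fst : (ℝ × ℝ) × Environment → _) (P0 G) UU2 := by
        unfold P0; exact measurePreserving_fst
      exact h4.comp h3
    have := mp_integral hp ephi.1.aestronglyMeasurable
    rw [this, ephi.2, map_smul, F.ρ_b, smul_eq_mul, mul_one]
  -- integrate `chain_lower`
  have e5 : ∀ (ξ : ℝ × ℝ) (k : ℕ), ξ - Bk h c0 y2 k - d = ξ - (Bk h c0 y2 k + d) := by
    intro ξ k; rw [sub_sub]
  have hpt : ∀ᵐ q ∂P,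
      (∑ k ∈ Finset.range (N + 1), (h.hkY d I s s2 (q.1.1 - Bk h c0 y2 k) q.1.2
          (q.2 (2 * k), q.2 (2 * k + 1)) -
        h.Y s (β + h.κ + 1) (q.2 (2 * k)) (q.1.1 - Bk h c0 y2 k) q.1.2 -
        h.Y (α - F.al d) s2 (q.2 (2 * k + 1)) (q.1.1 - (Bk h c0 y2 k + d)) q.1.2) +
      ∑ k ∈ Finset.range N, h.gY (y2 • F.b - d) (α - F.al d) (β + h.κ + 1)
        (q.1.1 - (Bk h c0 y2 k + d)) q.1.2 (q.2 (2 * k + 1), q.2 (2 * k + 2))) ≤
      (pL F (β - α) (yN h d y2 N) q.1.1 q.1.2 -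
        (phi F (nr (q.1.1 - (yN h d y2 N) • F.b)) - phi F (nr q.1.1))) + Cch h d α β := by
    filter_upwards [ae_P0_Nn (Ψ := ℕ → ℝ) (ν := PI) h0] with q hq
    have := chain_lower hd hy hs hs2 hI hw hq.1 q.1.1 q.2 N
    simp only [tk, ph] at this
    rw [← hc0] at this
    simp only [e5] at this
    linarith
  have isum1 : Integrable (fun q : ((ℝ × ℝ) × Environment) × (ℕ → ℝ) =>
      ∑ k ∈ Finset.range (N + 1), (h.hkY d I s s2 (q.1.1 - Bk h c0 y2 k) q.1.2
          (q.2 (2 * k), q.2 (2 * k + 1)) -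
        h.Y s (β + h.κ + 1) (q.2 (2 * k)) (q.1.1 - Bk h c0 y2 k) q.1.2 -
        h.Y (α - F.al d) s2 (q.2 (2 * k + 1)) (q.1.1 - (Bk h c0 y2 k + d)) q.1.2)) P :=
    integrable_finsetSum _ fun k _ => ((t1 k).1.sub (t2 k).1).sub (t3 k).1
  have isum2 : Integrable (fun q : ((ℝ × ℝ) × Environment) × (ℕ → ℝ) =>
      ∑ k ∈ Finset.range N, h.gY (y2 • F.b - d) (α - F.al d) (β + h.κ + 1)
        (q.1.1 - (Bk h c0 y2 k + d)) q.1.2 (q.2 (2 * k + 1), q.2 (2 * k + 2))) P :=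
    integrable_finsetSum _ fun k _ => (t4 k).1
  have ilp : Integrable (fun q : ((ℝ × ℝ) × Environment) × (ℕ → ℝ) =>
      pL F (β - α) (yN h d y2 N) q.1.1 q.1.2 -
        (phi F (nr (q.1.1 - (yN h d y2 N) • F.b)) - phi F (nr q.1.1))) P := ilane.sub iphi
  have hfin := integral_mono_ae (isum1.add isum2)
    (ilp.add (integrable_const (Cch h d α β))) hpt
  simp only [Pi.add_apply] at hfin
  rw [integral_add isum1 isum2, integral_add ilp (integrable_const _),
    integral_sub ilane iphi, mlane, mphi, integral_const, probReal_univ, one_smul] at hfin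
  have j1 : ∫ q : ((ℝ × ℝ) × Environment) × (ℕ → ℝ),
      ∑ k ∈ Finset.range (N + 1), (h.hkY d I s s2 (q.1.1 - Bk h c0 y2 k) q.1.2
          (q.2 (2 * k), q.2 (2 * k + 1)) -
        h.Y s (β + h.κ + 1) (q.2 (2 * k)) (q.1.1 - Bk h c0 y2 k) q.1.2 -
        h.Y (α - F.al d) s2 (q.2 (2 * k + 1)) (q.1.1 - (Bk h c0 y2 k + d)) q.1.2) ∂P =
      ∑ k ∈ Finset.range (N + 1), ∫ q : ((ℝ × ℝ) × Environment) × (ℕ → ℝ),
        (h.hkY d I s s2 (q.1.1 - Bk h c0 y2 k) q.1.2
          (q.2 (2 * k), q.2 (2 * k + 1)) -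
        h.Y s (β + h.κ + 1) (q.2 (2 * k)) (q.1.1 - Bk h c0 y2 k) q.1.2 -
        h.Y (α - F.al d) s2 (q.2 (2 * k + 1)) (q.1.1 - (Bk h c0 y2 k + d)) q.1.2) ∂P :=
    integral_finsetSum _ fun k _ => ((t1 k).1.sub (t2 k).1).sub (t3 k).1
  rw [j1, integral_finsetSum _ fun k _ => (t4 k).1] at hfin
  have e6 : ∀ k ∈ Finset.range (N + 1), ∫ q : ((ℝ × ℝ) × Environment) × (ℕ → ℝ),
      (h.hkY d I s s2 (q.1.1 - Bk h c0 y2 k) q.1.2 (q.2 (2 * k), q.2 (2 * k + 1)) -
        h.Y s (β + h.κ + 1) (q.2 (2 * k)) (q.1.1 - Bk h c0 y2 k) q.1.2 -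
        h.Y (α - F.al d) s2 (q.2 (2 * k + 1)) (q.1.1 - (Bk h c0 y2 k + d)) q.1.2) ∂P =
      ∫ q, h.hkY d I s s2 q.1.1 q.1.2 q.2 ∂(nu G) -
      (s2 - s + β - α + h.κ + 1 + F.al d) * ε := by
    intro k _
    have i12 := (t1 k).1.sub (t2 k).1
    have s1 := integral_sub i12 (t3 k).1
    have s2' := integral_sub (t1 k).1 (t2 k).1
    simp only [Pi.sub_apply] at s1 s2'
    rw [s1, s2', (t1 k).2, (t2 k).2, (t3 k).2, y1.2, y3.2]
    ring
  have e7 : 0 ≤ ∑ k ∈ Finset.range N, ∫ q : ((ℝ × ℝ) × Environment) × (ℕ → ℝ),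
      h.gY (y2 • F.b - d) (α - F.al d) (β + h.κ + 1)
        (q.1.1 - (Bk h c0 y2 k + d)) q.1.2 (q.2 (2 * k + 1), q.2 (2 * k + 2)) ∂P := by
    refine Finset.sum_nonneg fun k _ => ?_
    rw [(t4 k).2]
    exact g0
  rw [Finset.sum_congr rfl e6, Finset.sum_const, Finset.card_range, nsmul_eq_mul] at hfin
  push_cast at hfin
  linarith

/-- **R4: mean cost of a fence** -/
theorem fence_mean (hint : Integrable (fun q : ((ℝ × ℝ) × Environment) × (ℝ × ℝ) =>
      h.hkY d I s s2 q.1.1 q.1.2 q.2) (nu G)) :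
    ∫ q, h.hkY d I s s2 q.1.1 q.1.2 q.2 ∂(nu G) ≤
      y2 * rate G F (β - α) + (s2 - s + β - α + h.κ + 1 + F.al d) * ε := by
  set M := ∫ q, h.hkY d I s s2 q.1.1 q.1.2 q.2 ∂(nu G) -
      (s2 - s + β - α + h.κ + 1 + F.al d) * ε with hMdef
  have hwH := wH_nonneg h
  have hmg := one_le_mg F
  have hy2 : 0 < y2 := by linarith
  suffices hsuf : ∀ η : ℝ, 0 < η → M ≤ (rate G F (β - α) + η) * y2 by
    have : M ≤ rate G F (β - α) * y2 := by
      refine le_of_forall_pos_le_add fun δ hδ => ?_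
      have := hsuf (δ / y2) (by positivity)
      rw [add_mul, div_mul_cancel₀ _ hy2.ne'] at this
      exact this
    rw [hMdef] at this
    linarith
  intro η hη
  obtain ⟨C, hC⟩ := eL_upper (G := G) h0 h2 hμ F hw hη
  have hr := C710.rate_nonneg (G := G) h0 h2 hμ F hw
  set C1 : ℝ := H0 h + F.be d + h.wH / 2 + mg F with hC1
  have hH0 : 0 ≤ H0 h := by unfold H0; linarith
  have hkey : ∀ N : ℕ, ((N : ℝ) + 1) * M ≤
      (rate G F (β - α) + η) * y2 * ((N : ℝ) + 1) +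
        ((rate G F (β - α) + η) * C1 + C + Cch h d α β) := by
    intro N
    have h3 := fence_N hM h0 h2 hμ hd hy hImeas hs hs2 hI hw hint N
    have hyN : 0 ≤ yN h d y2 N := by
      unfold yN
      have : (0 : ℝ) ≤ N * y2 := by positivity
      linarith
    have h4 := hC (yN h d y2 N) hyN
    have h5 : (rate G F (β - α) + η) * yN h d y2 N ≤
        (rate G F (β - α) + η) * (y2 * ((N : ℝ) + 1) + C1) := by
      refine mul_le_mul_of_nonneg_left ?_ (by linarith)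
      unfold yN
      rw [hC1]
      nlinarith
    linarith
  set D := (rate G F (β - α) + η) * C1 + C + Cch h d α β with hD
  have ht : Tendsto (fun N : ℕ => (rate G F (β - α) + η) * y2 + D / ((N : ℝ) + 1)) atTop
      (𝓝 ((rate G F (β - α) + η) * y2 + 0)) := by
    refine tendsto_const_nhds.add ?_
    exact tendsto_const_nhds.div_atTop
      (tendsto_atTop_add_const_right _ _ tendsto_natCast_atTop_atTop)
  rw [add_zero] at ht
  refine ge_of_tendsto' ht fun N => ?_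
  have hpos : (0 : ℝ) < (N : ℝ) + 1 := by positivity
  have h3 := hkey N
  have h4 : M * ((N : ℝ) + 1) ≤ ((rate G F (β - α) + η) * y2 + D / ((N : ℝ) + 1)) *
      ((N : ℝ) + 1) := by
    rw [add_mul, div_mul_cancel₀ _ hpos.ne']
    linarith
  exact le_of_mul_le_mul_right h4 hpos

end main

section main'

variable {ε : ℝ} (hM : HwyMean G h ε) (h0 : G (Set.Iio 0) = 0)
  (h2 : Integrable (fun x : ℝ => x ^ 2) G) {d : ℝ × ℝ}
  (hd : h.wH + 2 * mg F < F.be d)
  {α β s s2 : ℝ} {I : Set ℝ} (hImeas : MeasurableSet I) (hs : s ≤ α)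
  (hs2 : β + h.κ < s2 + F.al d) (hI : Set.Icc α β ⊆ I) (hw : 2 * mg F ≤ β - α)
include hM h0 h2 hd hImeas hs hs2 hI hw

/-- integrability of a fence -/
theorem fence_integrable : Integrable (fun q : ((ℝ × ℝ) × Environment) × (ℝ × ℝ) =>
    h.hkY d I s s2 q.1.1 q.1.2 q.2) (nu G) := by
  refine hkY_integrable hM h0 h2 hd hImeas (σ₁ := (α + β) / 2) (σ₂ := (α + β) / 2)
    (by linarith) (by linarith) ?_
  rw [min_self, max_self]
  exact (Set.Icc_subset_Icc (by linarith) (by linarith)).trans hI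

/-- a fence has nonnegative mean -/
theorem fence_nonneg (hμ : IsTC G μ) : 0 ≤ ∫ q, h.hkY d I s s2 q.1.1 q.1.2 q.2 ∂(nu G) := by
  refine hkY_nonneg hM h0 h2 hd hImeas (σ₁ := (α + β) / 2) (σ₂ := (α + β) / 2)
    (by linarith) (by linarith) ?_ hμ
  rw [min_self, max_self]
  exact (Set.Icc_subset_Icc (by linarith) (by linarith)).trans hI

/-- **R4** for fences of width at least `2 mg F` -/
theorem fence_mean' (hμ : IsTC G μ) {y2 : ℝ} (hy : h.wH < y2 - F.be d) :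
    ∫ q, h.hkY d I s s2 q.1.1 q.1.2 q.2 ∂(nu G) ≤
      y2 * rate G F (β - α) + (s2 - s + β - α + h.κ + 1 + F.al d) * ε := by
  have h1 := fn_nonneg F.al
  have h2' := fn_nonneg F.be
  have h3 : 2 * fn F.al ≤ β - α := by
    unfold mg at hw
    linarith
  exact fence_mean hM h0 h2 hμ hd hy hImeas hs hs2 hI h3
    (fence_integrable hM h0 h2 hd hImeas hs hs2 hI hw)

end main'

section nonempty'

variable {d : ℝ × ℝ} (hd : h.wH + 2 * mg F < F.be d)
  {α β s s2 : ℝ} {I : Set ℝ} (hs : s ≤ α)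
  (hs2 : β + h.κ < s2 + F.al d) (hI : Set.Icc α β ⊆ I) (hw : 2 * mg F ≤ β - α)
include hd hs hs2 hI hw

/-- the routes of a fence are nonempty -/
theorem fence_nonempty (θ : ℝ × ℝ) (t : Environment) (φ : ℝ × ℝ) :
    (routes t (h.Lo θ t φ) (h.Up d θ t φ) (rg F I θ) (h.iL s θ t φ) (h.iU d s2 θ t φ)).Nonempty := by
  refine row_nonempty hd (σ₁ := (α + β) / 2) (σ₂ := (α + β) / 2)
    (by linarith) (by linarith) ?_ θ t φ
  rw [min_self, max_self]
  exact (Set.Icc_subset_Icc (by linarith) (by linarith)).trans hI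

end nonempty'

end Crest.Agent.R151.M56
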