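import Crest.Agent.R151.V3
import Crest.Agent.Lib.PrekopaLeindler
import Crest.Agent.R151.V12
import Crest.Agent.R151.R78B
import Crest.Agent.R151.M192b_Mg

-- ▼ part R151/V4
section

/-!
# R151, block V4 (helper52): Prékopa's theorem for exponential weights

The survival function `a ↦ P (X ≥ a)` of a concave function `X` of independent exponential weights
is log-concave.
-/

set_option autoImplicit false
set_option linter.unusedSectionVars false

open MeasureTheory ProbabilityTheory Set Filter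
open scoped ENNReal Topology

namespace Crest.Agent.R151.V

open Crest.Agent.Lib.PrekopaLeindler

/-- Prékopa-Leindler passes to log-concave densities. -/
theorem PL.withDensity {E : Type*} [AddCommGroup E] [Module ℝ E] [MeasurableSpace E]
    {μ : Measure E} (hE : PL E μ) {ρ : E → ℝ≥0∞} (hρ : Measurable ρ)
    (hlc : ∀ t : ℝ, 0 < t → t < 1 → ∀ x y, ρ x ^ (1 - t) * ρ y ^ t ≤ ρ ((1 - t) • x + t • y)) :
    PL E (μ.withDensity ρ) := by
  intro t ht0 ht1 f g h hf hg hh H
  rw [lintegral_withDensity_eq_lintegral_mul _ hρ hf, lintegral_withDensity_eq_lintegral_mul _ hρ hg,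
    lintegral_withDensity_eq_lintegral_mul _ hρ hh]
  refine hE t ht0 ht1 _ _ _ (hρ.mul hf) (hρ.mul hg) (hρ.mul hh) ?_
  intro x y
  simp only [Pi.mul_apply]
  rw [ENNReal.mul_rpow_of_nonneg _ _ (by linarith), ENNReal.mul_rpow_of_nonneg _ _ ht0.le]
  calc ρ x ^ (1 - t) * f x ^ (1 - t) * (ρ y ^ t * g y ^ t)
      = (ρ x ^ (1 - t) * ρ y ^ t) * (f x ^ (1 - t) * g y ^ t) := by ring
    _ ≤ _ := mul_le_mul' (hlc t ht0 ht1 x y) (H x y)

/-- the exponential law satisfies Prékopa-Leindler -/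
theorem PL_gamma_one {r : ℝ} (hr : 0 < r) : PL ℝ (gammaMeasure 1 r) := by
  unfold gammaMeasure
  refine PL.withDensity PL_real ((measurable_gammaPDFReal 1 r).ennreal_ofReal) ?_
  intro t ht0 ht1 x y
  have ht1' : 0 < 1 - t := by linarith
  rcases lt_or_ge x 0 with hx | hx
  · rw [gammaPDF_of_neg hx, ENNReal.zero_rpow_of_pos ht1', zero_mul]
    exact bot_le
  rcases lt_or_ge y 0 with hy | hy
  · rw [gammaPDF_of_neg hy, ENNReal.zero_rpow_of_pos ht0, mul_zero]
    exact bot_le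
  have hxy : 0 ≤ (1 - t) • x + t • y := by
    simp only [smul_eq_mul]; positivity
  rw [gammaPDF_of_nonneg hx, gammaPDF_of_nonneg hy, gammaPDF_of_nonneg hxy]
  simp only [sub_self, Real.rpow_zero, Real.rpow_one, Real.Gamma_one, div_one, mul_one, smul_eq_mul]
  rw [ENNReal.ofReal_rpow_of_pos (by positivity), ENNReal.ofReal_rpow_of_pos (by positivity),
    ← ENNReal.ofReal_mul (by positivity)]
  apply ENNReal.ofReal_le_ofReal
  apply le_of_eq
  rw [Real.mul_rpow hr.le (Real.exp_pos _).le, Real.mul_rpow hr.le (Real.exp_pos _).le,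
    ← Real.exp_mul, ← Real.exp_mul]
  have h1 : r ^ (1 - t) * r ^ t = r := by
    rw [← Real.rpow_add hr]; simp
  calc r ^ (1 - t) * Real.exp (-(r * x) * (1 - t)) * (r ^ t * Real.exp (-(r * y) * t))
      = (r ^ (1 - t) * r ^ t) * (Real.exp (-(r * x) * (1 - t)) * Real.exp (-(r * y) * t)) := by ring
    _ = _ := by
        rw [h1, ← Real.exp_add]
        congr 2
        ring

theorem PL_pi_fin {ν : Measure ℝ} [IsProbabilityMeasure ν] (hν : PL ℝ ν) (n : ℕ) :
    PL (Fin n → ℝ) (Measure.pi fun _ => ν) := by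
  induction n with
  | zero =>
    intro t ht0 ht1 f g h hf hg hh H
    have : (Measure.pi fun _ : Fin 0 => ν) = Measure.dirac 0 :=
      Measure.pi_of_empty _ _
    rw [this, lintegral_dirac, lintegral_dirac, lintegral_dirac]
    simpa using H 0 0
  | succ n ih =>
    refine PL.of_measurePreserving
      (MeasurableEquiv.piFinSuccAbove (fun _ : Fin (n+1) => ℝ) 0).symm
      ((measurePreserving_piFinSuccAbove (fun _ : Fin (n+1) => ν) 0).symm) ?_ (hν.prod ih)
    intro a b x y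
    ext i
    refine Fin.cases ?_ (fun j => ?_) i
    · simp [MeasurableEquiv.piFinSuccAbove]
    · simp [MeasurableEquiv.piFinSuccAbove]

theorem PL_pi_fintype {ι : Type*} [Fintype ι] {ν : Measure ℝ} [IsProbabilityMeasure ν]
    (hν : PL ℝ ν) : PL (ι → ℝ) (Measure.pi fun _ => ν) := by
  set e := (Fintype.equivFin ι).symm with he
  refine PL.of_measurePreserving (MeasurableEquiv.piCongrLeft (fun _ : ι => ℝ) e)
    (measurePreserving_piCongrLeft (fun _ : ι => ν) e) ?_ (PL_pi_fin hν _)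
  intro a b x y
  funext i
  obtain ⟨k, rfl⟩ := e.surjective i
  simp [MeasurableEquiv.coe_piCongrLeft]

/-- Prékopa's theorem for a finite product of exponential laws: the survival function of a
function concave on the orthant is log-concave. -/
theorem surv_logconcave {ι : Type*} [Fintype ι] {r : ℝ} (hr : 0 < r) {X : (ι → ℝ) → ℝ}
    (hX : Measurable X) (hc : ConcaveOn ℝ {y : ι → ℝ | ∀ i, 0 ≤ y i} X) {t : ℝ} (ht0 : 0 < t)
    (ht1 : t < 1) (a b : ℝ) :
    (Measure.pi fun _ : ι => gammaMeasure 1 r) {y | a ≤ X y} ^ (1 - t) *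
      (Measure.pi fun _ : ι => gammaMeasure 1 r) {y | b ≤ X y} ^ t ≤
      (Measure.pi fun _ : ι => gammaMeasure 1 r) {y | (1 - t) * a + t * b ≤ X y} := by
  have hγ := isProbabilityMeasure_gammaMeasure zero_lt_one hr
  set μ := Measure.pi fun _ : ι => gammaMeasure 1 r with hμ
  set O : Set (ι → ℝ) := {y | ∀ i, 0 ≤ y i} with hO
  have hOm : MeasurableSet O := by
    have : O = ⋂ i, {y | 0 ≤ y i} := by ext; simp [hO]
    rw [this]
    exact MeasurableSet.iInter fun i => measurableSet_le measurable_const (measurable_pi_apply i)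
  have hOae : ∀ᵐ y ∂μ, y ∈ O := by
    have : ∀ᵐ y ∂μ, ∀ i, 0 ≤ y i := by
      rw [ae_all_iff]
      intro i
      exact (measurePreserving_eval (fun _ : ι => gammaMeasure 1 r) i).quasiMeasurePreserving.ae
        (ae_pos_gamma 1 r)
    exact this
  have hset : ∀ c : ℝ, MeasurableSet {y | c ≤ X y} := fun c => measurableSet_le measurable_const hX
  have hint : ∀ c : ℝ, μ {y | c ≤ X y} = ∫⁻ y, (({y | c ≤ X y} ∩ O).indicator 1 y) ∂μ := by
    intro c
    rw [lintegral_indicator_one ((hset c).inter hOm)]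
    apply measure_congr
    filter_upwards [hOae] with y hy
    have : y ∈ {y | c ≤ X y} ↔ y ∈ {y | c ≤ X y} ∩ O := by simp [hy]
    exact propext this
  rw [hint, hint, hint]
  refine PL_pi_fintype (PL_gamma_one hr) t ht0 ht1 _ _ _ (measurable_one.indicator ((hset a).inter hOm))
    (measurable_one.indicator ((hset b).inter hOm))
    (measurable_one.indicator ((hset _).inter hOm)) ?_
  intro x y
  by_cases hx : x ∈ {y | a ≤ X y} ∩ O
  · by_cases hy : y ∈ {y | b ≤ X y} ∩ O
    · have hmem : (1 - t) • x + t • y ∈ {y | (1 - t) * a + t * b ≤ X y} ∩ O := by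
        have h1 := hc.1 hx.2 hy.2 (show (0:ℝ) ≤ 1 - t by linarith) ht0.le (by ring)
        refine ⟨?_, h1⟩
        have h2 := hc.2 hx.2 hy.2 (show (0:ℝ) ≤ 1 - t by linarith) ht0.le (by ring)
        have hxa : a ≤ X x := hx.1
        have hyb : b ≤ X y := hy.1
        simp only [smul_eq_mul] at h2
        simp only [mem_setOf_eq]
        calc (1 - t) * a + t * b ≤ (1 - t) * X x + t * X y := by
              have : 0 ≤ 1 - t := by linarith
              gcongr
          _ ≤ _ := h2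
      rw [indicator_of_mem hx, indicator_of_mem hy, indicator_of_mem hmem]
      simp
    · rw [indicator_of_notMem hy, ENNReal.zero_rpow_of_pos ht0, mul_zero]
      exact bot_le
  · rw [indicator_of_notMem hx, ENNReal.zero_rpow_of_pos (by linarith), zero_mul]
    exact bot_le

/-- log-concavity of the survival function of `X` under `μ` -/
def LC {Ω : Type*} [MeasurableSpace Ω] (μ : Measure Ω) (X : Ω → ℝ) : Prop :=
  ∀ a b t : ℝ, 0 < t → t < 1 →
    μ.real {ω | a ≤ X ω} ^ (1 - t) * μ.real {ω | b ≤ X ω} ^ t ≤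
      μ.real {ω | (1 - t) * a + t * b ≤ X ω}

theorem LC_pi {ι : Type*} [Fintype ι] {r : ℝ} (hr : 0 < r) {X : (ι → ℝ) → ℝ}
    (hX : Measurable X) (hc : ConcaveOn ℝ {y : ι → ℝ | ∀ i, 0 ≤ y i} X) :
    LC (Measure.pi fun _ : ι => gammaMeasure 1 r) X := by
  have hγ := isProbabilityMeasure_gammaMeasure zero_lt_one hr
  intro a b t ht0 ht1
  have h := surv_logconcave hr hX hc ht0 ht1 a b
  have h2 := ENNReal.toReal_mono (measure_ne_top _ _) h
  rwa [ENNReal.toReal_mul, ← ENNReal.toReal_rpow, ← ENNReal.toReal_rpow] at h2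

lemma LC.of_mp {Ω Ω' : Type*} [MeasurableSpace Ω] [MeasurableSpace Ω'] {μ : Measure Ω}
    {ν : Measure Ω'} {e : Ω → Ω'} (he : MeasurePreserving e μ ν) {X : Ω' → ℝ} (hX : Measurable X)
    (h : LC ν X) : LC μ (fun ω => X (e ω)) := by
  intro a b t ht0 ht1
  have hs : ∀ c : ℝ, μ.real {ω | c ≤ X (e ω)} = ν.real {ω | c ≤ X ω} := by
    intro c
    have := he.measureReal_preimage (s := {ω | c ≤ X ω})
      (measurableSet_le measurable_const hX).nullMeasurableSet
    simpa using this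
  rw [hs, hs, hs]
  exact h a b t ht0 ht1

/-- log-concavity for functions of finitely many coordinates of the infinite product -/
theorem LC_infinitePi {I : Type*} {r : ℝ} (hr : 0 < r) (s : Finset I)
    {F : (s → ℝ) → ℝ} (hF : Measurable F) (hc : ConcaveOn ℝ {y : s → ℝ | ∀ i, 0 ≤ y i} F) :
    LC (Measure.infinitePi fun _ : I => gammaMeasure 1 r) (fun x => F (s.restrict x)) := by
  have hγ := isProbabilityMeasure_gammaMeasure zero_lt_one hr
  have hmp : MeasurePreserving (s.restrict (π := fun _ : I => ℝ))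
      (Measure.infinitePi fun _ : I => gammaMeasure 1 r)
      (Measure.pi fun _ : s => gammaMeasure 1 r) :=
    ⟨Finset.measurable_restrict s, Measure.infinitePi_map_restrict _⟩
  exact LC.of_mp hmp hF (LC_pi hr hF hc)

/-- log-concavity passes to decreasing limits -/
theorem LC.of_antitone {Ω : Type*} [MeasurableSpace Ω] {μ : Measure Ω} [IsFiniteMeasure μ]
    {X : Ω → ℝ} {Y : ℕ → Ω → ℝ} (hY : ∀ n, Measurable (Y n)) (hLC : ∀ n, LC μ (Y n))
    (hanti : ∀ ω, Antitone fun n => Y n ω)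
    (hlim : ∀ ω, Tendsto (fun n => Y n ω) atTop (𝓝 (X ω))) : LC μ X := by
  intro a b t ht0 ht1
  have hs : ∀ c : ℝ, Tendsto (fun n => μ.real {ω | c ≤ Y n ω}) atTop
      (𝓝 (μ.real {ω | c ≤ X ω})) := by
    intro c
    have hset : {ω | c ≤ X ω} = ⋂ n, {ω | c ≤ Y n ω} := by
      ext ω
      simp only [mem_setOf_eq, mem_iInter]
      constructor
      · intro h n
        exact h.trans ((hanti ω).le_of_tendsto (hlim ω) n)
      · intro h
        exact ge_of_tendsto' (hlim ω) h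
    rw [hset]
    refine (ENNReal.tendsto_toReal (measure_ne_top _ _)).comp ?_
    refine tendsto_measure_iInter_atTop
      (fun n => (measurableSet_le measurable_const (hY n)).nullMeasurableSet) ?_
      ⟨0, measure_ne_top _ _⟩
    intro m n hmn ω hω
    exact le_trans hω (hanti ω hmn)
  have h1 := ((hs a).rpow_const (p := 1 - t) (Or.inr (by linarith))).mul
    ((hs b).rpow_const (p := t) (Or.inr ht0.le))
  exact le_of_tendsto_of_tendsto' h1 (hs _) (fun n => hLC n a b t ht0 ht1)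


lemma convex_orthant (ι : Type*) : Convex ℝ {y : ι → ℝ | ∀ i, 0 ≤ y i} := by
  intro x hx y hy a b ha hb _ i
  simp only [Pi.add_apply, Pi.smul_apply, smul_eq_mul]
  exact add_nonneg (mul_nonneg ha (hx i)) (mul_nonneg hb (hy i))

end Crest.Agent.R151.V
end

-- ▼ part R151/V5
section

/-!
# R151, block V5 (helper52): small balls and exponential tails from log-concavity
-/

set_option autoImplicit false
set_option linter.unusedSectionVars false

open MeasureTheory ProbabilityTheory Set Filter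
open scoped ENNReal Topology

namespace Crest.Agent.R151.V

variable {Ω : Type*} [MeasurableSpace Ω] {μ : Measure Ω} {X : Ω → ℝ}

/-- interpolation form of log-concavity: `G(a) ≥ G(a0)^(1-θ) G(s)^θ` -/
lemma LC.interp [IsProbabilityMeasure μ] (h : LC μ X) {a0 s a : ℝ} (h0 : a0 < s) (h1 : a0 ≤ a)
    (h2 : a ≤ s) :
    μ.real {ω | a0 ≤ X ω} ^ (1 - (a - a0) / (s - a0)) * μ.real {ω | s ≤ X ω} ^ ((a - a0) / (s - a0))
      ≤ μ.real {ω | a ≤ X ω} := by
  have hs : 0 < s - a0 := sub_pos.2 h0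
  rcases h1.eq_or_lt with rfl | h1
  · simp
  rcases h2.eq_or_lt with rfl | h2
  · rw [div_self hs.ne']; simp
  have ht0 : 0 < (a - a0) / (s - a0) := div_pos (sub_pos.2 h1) hs
  have ht1 : (a - a0) / (s - a0) < 1 := by rw [div_lt_one hs]; linarith
  have := h a0 s _ ht0 ht1
  have e : (1 - (a - a0) / (s - a0)) * a0 + (a - a0) / (s - a0) * s = a := by
    field_simp
    ring
  rwa [e] at this

/-- (7.1) SMALL BALL BOUND. -/
theorem LC.small_ball [IsProbabilityMeasure μ] (h : LC μ X) (hX : Measurable X) {a0 s a δ q : ℝ}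
    (h0 : a0 < s) (h1 : a0 ≤ a) (h2 : a ≤ s) (hδ0 : 0 ≤ δ) (hδ : δ ≤ 1 / 2)
    (hG0 : 1 - δ ≤ μ.real {ω | a0 ≤ X ω}) (hq0 : 0 < q) (hq : q ≤ μ.real {ω | s ≤ X ω}) :
    μ.real {ω | X ω < a} ≤ 2 * δ + (a - a0) / (s - a0) * Real.log (1 / q) := by
  have hs : 0 < s - a0 := sub_pos.2 h0
  set θ := (a - a0) / (s - a0) with hθ
  have hθ0 : 0 ≤ θ := div_nonneg (sub_nonneg.2 h1) hs.le
  have hθ1 : θ ≤ 1 := by rw [hθ, div_le_one hs]; linarith
  have hcompl : μ.real {ω | X ω < a} = 1 - μ.real {ω | a ≤ X ω} := by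
    rw [← probReal_compl_eq_one_sub (measurableSet_le measurable_const hX)]
    congr 1
    ext ω
    simp
  rw [hcompl]
  have h3 := h.interp h0 h1 h2
  rw [← hθ] at h3
  have hd : 0 < 1 - δ := by linarith
  have h4 : (1 - δ) ^ (1 - θ) * q ^ θ ≤
      μ.real {ω | a0 ≤ X ω} ^ (1 - θ) * μ.real {ω | s ≤ X ω} ^ θ := by
    apply mul_le_mul (Real.rpow_le_rpow hd.le hG0 (by linarith))
      (Real.rpow_le_rpow hq0.le hq hθ0) (Real.rpow_nonneg hq0.le _)
      (Real.rpow_nonneg (hd.le.trans hG0) _)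
  have h5 : (1 - δ) ^ (1 - θ) * q ^ θ = Real.exp ((1 - θ) * Real.log (1 - δ) + θ * Real.log q) := by
    rw [Real.exp_add, Real.rpow_def_of_pos hd, Real.rpow_def_of_pos hq0]
    congr 2 <;> ring
  have h6 : 1 + ((1 - θ) * Real.log (1 - δ) + θ * Real.log q) ≤
      Real.exp ((1 - θ) * Real.log (1 - δ) + θ * Real.log q) := by
    have := Real.add_one_le_exp ((1 - θ) * Real.log (1 - δ) + θ * Real.log q)
    linarith
  have h7 : -(2 * δ) ≤ Real.log (1 - δ) := by
    have h8 := Real.one_sub_inv_le_log_of_pos hd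
    have h9 : (1 - δ)⁻¹ ≤ 1 + 2 * δ := by
      rw [inv_le_iff_one_le_mul₀ hd]
      nlinarith
    linarith
  have h10 : (1 - θ) * Real.log (1 - δ) ≥ -(2 * δ) := by
    have : (1 - θ) * Real.log (1 - δ) ≥ (1 - θ) * -(2 * δ) :=
      mul_le_mul_of_nonneg_left h7 (by linarith)
    nlinarith
  rw [one_div, Real.log_inv]
  linarith


/-- (7.2) exponential tail: `G(a) ≤ G(a0) (G(t1)/G(a0))^((a-a0)/(t1-a0))`. -/
theorem LC.tail [IsProbabilityMeasure μ] (h : LC μ X) {a0 t1 a : ℝ} (h0 : a0 < t1) (h1 : t1 ≤ a)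
    (hG : 0 < μ.real {ω | a0 ≤ X ω}) :
    μ.real {ω | a ≤ X ω} ≤ μ.real {ω | a0 ≤ X ω} *
      (μ.real {ω | t1 ≤ X ω} / μ.real {ω | a0 ≤ X ω}) ^ ((a - a0) / (t1 - a0)) := by
  set G := fun c : ℝ => μ.real {ω | c ≤ X ω} with hGdef
  change G a ≤ G a0 * (G t1 / G a0) ^ ((a - a0) / (t1 - a0))
  change 0 < G a0 at hG
  have hGn : ∀ c, 0 ≤ G c := fun c => measureReal_nonneg
  have hs : 0 < t1 - a0 := sub_pos.2 h0
  have hs' : 0 < a - a0 := by linarith
  set τ := (t1 - a0) / (a - a0) with hτ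
  have hτ0 : 0 < τ := div_pos hs hs'
  have hτi : (a - a0) / (t1 - a0) = τ⁻¹ := by rw [hτ, inv_div]
  have h3 : G a0 ^ (1 - τ) * G a ^ τ ≤ G t1 := h.interp (a := t1) (s := a) (by linarith) h0.le h1
  have h4 : (G a / G a0) ^ τ ≤ G t1 / G a0 := by
    rw [Real.div_rpow (hGn a) (hGn a0), div_le_div_iff₀ (Real.rpow_pos_of_pos hG _) hG]
    calc G a ^ τ * G a0 = (G a0 ^ (1 - τ) * G a ^ τ) * G a0 ^ τ := by
          have : G a0 ^ (1 - τ) * G a0 ^ τ = G a0 := by
            rw [← Real.rpow_add hG]; simp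
          calc G a ^ τ * G a0 = G a ^ τ * (G a0 ^ (1 - τ) * G a0 ^ τ) := by rw [this]
            _ = _ := by ring
      _ ≤ G t1 * G a0 ^ τ := mul_le_mul_of_nonneg_right h3 (Real.rpow_nonneg hG.le _)
  have h5 : G a / G a0 ≤ (G t1 / G a0) ^ τ⁻¹ := by
    have h6 := Real.rpow_le_rpow (Real.rpow_nonneg (div_nonneg (hGn a) hG.le) _) h4
      (inv_nonneg.2 hτ0.le)
    rwa [← Real.rpow_mul (div_nonneg (hGn a) hG.le), mul_inv_cancel₀ hτ0.ne', Real.rpow_one] at h6
  rw [hτi]
  rw [div_le_iff₀ hG] at h5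
  linarith

/-- exponential tail in the form used: `G(a) ≤ ρ^((a-a0)/m)`. -/
theorem LC.tail' [IsProbabilityMeasure μ] (h : LC μ X) {a0 t1 a ρ : ℝ} (h0 : a0 < t1) (h1 : t1 ≤ a)
    (hG : 0 < μ.real {ω | a0 ≤ X ω}) (hρ : μ.real {ω | t1 ≤ X ω} ≤ ρ * μ.real {ω | a0 ≤ X ω}) :
    μ.real {ω | a ≤ X ω} ≤ ρ ^ ((a - a0) / (t1 - a0)) := by
  refine (h.tail h0 h1 hG).trans ?_
  have h2 : μ.real {ω | t1 ≤ X ω} / μ.real {ω | a0 ≤ X ω} ≤ ρ := by
    rwa [div_le_iff₀ hG]
  have h3 : 0 ≤ μ.real {ω | t1 ≤ X ω} / μ.real {ω | a0 ≤ X ω} :=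
    div_nonneg measureReal_nonneg measureReal_nonneg
  have h4 : 0 ≤ (a - a0) / (t1 - a0) := div_nonneg (by linarith) (by linarith)
  calc _ ≤ 1 * (ρ) ^ ((a - a0) / (t1 - a0)) := by
        apply mul_le_mul measureReal_le_one (Real.rpow_le_rpow h3 h2 h4)
          (Real.rpow_nonneg h3 _) zero_le_one
    _ = _ := one_mul _

/-- expectation of the excess over `x ≥ t1` -/
theorem LC.lintegral_tail [IsProbabilityMeasure μ] (h : LC μ X) (hX : Measurable X)
    {a0 t1 x ρ : ℝ} (h0 : a0 < t1) (h1 : t1 ≤ x)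
    (hG : 0 < μ.real {ω | a0 ≤ X ω}) (hρ : μ.real {ω | t1 ≤ X ω} ≤ ρ * μ.real {ω | a0 ≤ X ω})
    (hρ0 : 0 < ρ) (hρ1 : ρ < 1) :
    ∫⁻ ω, ENNReal.ofReal (X ω - x) ∂μ ≤
      ENNReal.ofReal ((t1 - a0) / Real.log (1 / ρ) * ρ ^ ((x - a0) / (t1 - a0))) := by
  have hm : 0 < t1 - a0 := sub_pos.2 h0
  have hL : 0 < Real.log (1 / ρ) := Real.log_pos (by rw [lt_div_iff₀ hρ0]; linarith)
  have h2 : ∫⁻ ω, ENNReal.ofReal (X ω - x) ∂μ = ∫⁻ ω, ENNReal.ofReal (max (X ω - x) 0) ∂μ := by
    apply lintegral_congr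
    intro ω
    rw [ENNReal.ofReal_max]
    simp
  rw [h2, lintegral_eq_lintegral_meas_le μ (f := fun ω => max (X ω - x) 0)
    (Eventually.of_forall fun ω => le_max_right _ _)
    ((hX.sub_const x).max measurable_const).aemeasurable]
  set c := Real.log (1 / ρ) / (t1 - a0) with hc
  have hc0 : 0 < c := div_pos hL hm
  have h3 : ∀ t ∈ Ioi (0:ℝ), μ {ω | t ≤ max (X ω - x) 0} ≤
      ENNReal.ofReal (Real.exp (-c * (x - a0)) * Real.exp ((-c) * t)) := by
    intro t ht
    have ht : (0:ℝ) < t := ht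
    have h4 : {ω | t ≤ max (X ω - x) 0} = {ω | x + t ≤ X ω} := by
      ext ω
      simp only [Set.mem_ofPred_eq, le_max_iff]
      constructor
      · rintro (h | h)
        · linarith
        · linarith
      · intro h
        left; linarith
    rw [h4, ← ofReal_measureReal (measure_ne_top _ _)]
    apply ENNReal.ofReal_le_ofReal
    refine (h.tail' h0 (a := x + t) (by linarith) hG hρ).trans (le_of_eq ?_)
    rw [Real.rpow_def_of_pos hρ0, ← Real.exp_add]
    congr 1
    rw [hc, one_div, Real.log_inv]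
    field_simp
    ring
  calc ∫⁻ t in Ioi (0:ℝ), μ {ω | t ≤ max (X ω - x) 0}
      ≤ ∫⁻ t in Ioi (0:ℝ), ENNReal.ofReal (Real.exp (-c * (x - a0)) * Real.exp ((-c) * t)) :=
        setLIntegral_mono' measurableSet_Ioi h3
    _ = ENNReal.ofReal (∫ t in Ioi (0:ℝ), Real.exp (-c * (x - a0)) * Real.exp ((-c) * t)) := by
        rw [ofReal_integral_eq_lintegral_ofReal]
        · exact (integrableOn_exp_mul_Ioi (by linarith) 0).const_mul _
        · exact Eventually.of_forall fun t => by positivity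
    _ = _ := by
        rw [integral_const_mul, integral_exp_mul_Ioi (by linarith) 0]
        congr 1
        rw [Real.rpow_def_of_pos hρ0, mul_zero, Real.exp_zero]
        have h6 : Real.exp (-c * (x - a0)) = Real.exp (Real.log ρ * ((x - a0) / (t1 - a0))) := by
          congr 1
          rw [hc, one_div, Real.log_inv]
          field_simp
        rw [h6, hc, neg_div_neg_eq, one_div_div]
        ring

/-- (7.2) for a perturbed variable: `P (Z ≤ t) ≥ q`, `Z ≥ 0` and `|Z - X| ≤ d` up to probability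
`δ ≤ q/4`. -/
lemma pert_ratio [IsProbabilityMeasure μ] (hX : Measurable X) {Z : Ω → ℝ} {d δ t q : ℝ}
    (hd : 0 < d) (hδ : δ ≤ q / 4) (hq1 : q ≤ 1)
    (hE : μ.real {ω | ¬ (|Z ω - X ω| ≤ d ∧ 0 ≤ Z ω)} ≤ δ)
    (hZ : q ≤ μ.real {ω | Z ω ≤ t}) :
    0 < μ.real {ω | -d ≤ X ω} ∧
      μ.real {ω | t + 2 * d ≤ X ω} ≤ (1 - q / 2) * μ.real {ω | -d ≤ X ω} := by
  have hcompl : ∀ c : ℝ, μ.real {ω | c ≤ X ω} = 1 - μ.real {ω | X ω < c} := by
    intro c
    rw [← probReal_compl_eq_one_sub (measurableSet_lt hX measurable_const)]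
    congr 1
    ext ω
    simp
  have h1 : 1 - δ ≤ μ.real {ω | -d ≤ X ω} := by
    rw [hcompl]
    have : μ.real {ω | X ω < -d} ≤ μ.real {ω | ¬ (|Z ω - X ω| ≤ d ∧ 0 ≤ Z ω)} := by
      apply measureReal_mono _ (measure_ne_top _ _)
      intro ω hω
      simp only [Set.mem_ofPred_eq] at hω ⊢
      rintro ⟨h1, h2⟩
      rw [abs_le] at h1
      linarith [h1.1, h1.2]
    linarith
  have h2 : μ.real {ω | t + 2 * d ≤ X ω} ≤ 1 - q + δ := by
    rw [hcompl]
    have h3 : μ.real {ω | Z ω ≤ t} ≤ μ.real {ω | X ω < t + 2 * d} +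
        μ.real {ω | ¬ (|Z ω - X ω| ≤ d ∧ 0 ≤ Z ω)} := by
      refine (measureReal_mono ?_ (measure_ne_top _ _)).trans (measureReal_union_le _ _)
      intro ω hω
      simp only [Set.mem_union, Set.mem_ofPred_eq] at hω ⊢
      by_contra hcon
      push Not at hcon
      obtain ⟨h4, h5, h6⟩ := hcon
      rw [abs_le] at h5
      linarith [h5.1, h5.2]
    linarith
  refine ⟨by linarith, h2.trans ?_⟩
  have h4 : (1 - q / 2) * (1 - δ) ≤ (1 - q / 2) * μ.real {ω | -d ≤ X ω} :=
    mul_le_mul_of_nonneg_left h1 (by linarith)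
  nlinarith [h4, sq_nonneg q]


/-- (7.2) tail integral of `X` when the perturbed variable has `P (Z ≤ t) ≥ q` -/
theorem LC.pert_lintegral [IsProbabilityMeasure μ] (h : LC μ X) (hX : Measurable X) {Z : Ω → ℝ}
    {d δ t q x : ℝ} (hd : 0 < d) (ht : 0 ≤ t) (hδ : δ ≤ q / 4) (hq0 : 0 < q) (hq1 : q ≤ 1)
    (hE : μ.real {ω | ¬ (|Z ω - X ω| ≤ d ∧ 0 ≤ Z ω)} ≤ δ)
    (hZ : q ≤ μ.real {ω | Z ω ≤ t}) (hx : t + 2 * d ≤ x) :
    ∫⁻ ω, ENNReal.ofReal (X ω - x) ∂μ ≤
      ENNReal.ofReal ((t + 3 * d) * (2 / q) * (1 - q / 2) ^ ((x + d) / (t + 3 * d))) := by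
  obtain ⟨h1, h2⟩ := pert_ratio hX hd hδ hq1 hE hZ
  have h3 := h.lintegral_tail hX (a0 := -d) (t1 := t + 2 * d) (x := x) (by linarith) hx h1 h2
    (by linarith) (by linarith)
  refine h3.trans (ENNReal.ofReal_le_ofReal ?_)
  have e1 : t + 2 * d - -d = t + 3 * d := by ring
  have e2 : x - -d = x + d := by ring
  rw [e1, e2]
  apply mul_le_mul_of_nonneg_right _ (Real.rpow_nonneg (by linarith) _)
  rw [div_eq_mul_inv]
  apply mul_le_mul_of_nonneg_left _ (by linarith)
  have hρ : (0:ℝ) < 1 - q / 2 := by linarith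
  have h4 : q / 2 ≤ Real.log (1 / (1 - q / 2)) := by
    rw [one_div, Real.log_inv]
    have := Real.log_le_sub_one_of_pos hρ
    linarith
  calc (Real.log (1 / (1 - q / 2)))⁻¹ ≤ (q / 2)⁻¹ := by
        apply inv_anti₀ (by linarith) h4
    _ = 2 / q := by rw [inv_div]

/-- (7.2) mean of the perturbed variable: `E Z ≤ E |Z - X| + (4/q) (t + 3 d)`. -/
theorem LC.pert_mean [IsProbabilityMeasure μ] (h : LC μ X) (hX : Measurable X) {Z : Ω → ℝ}
    (hZm : Measurable Z) {d δ t q : ℝ} (hd : 0 < d) (ht : 0 ≤ t) (hδ : δ ≤ q / 4) (hq0 : 0 < q)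
    (hq1 : q ≤ 1) (hE : μ.real {ω | ¬ (|Z ω - X ω| ≤ d ∧ 0 ≤ Z ω)} ≤ δ)
    (hZ : q ≤ μ.real {ω | Z ω ≤ t}) :
    ∫⁻ ω, ENNReal.ofReal (Z ω) ∂μ ≤
      ∫⁻ ω, ENNReal.ofReal |Z ω - X ω| ∂μ + ENNReal.ofReal ((4 / q) * (t + 3 * d)) := by
  have h1 := h.pert_lintegral hX hd ht hδ hq0 hq1 hE hZ (x := t + 2 * d) le_rfl
  have h2 : ∀ ω, ENNReal.ofReal (Z ω) ≤ ENNReal.ofReal |Z ω - X ω| +
      (ENNReal.ofReal (X ω - (t + 2 * d)) + ENNReal.ofReal (t + 2 * d)) := by
    intro ω
    have h3 : Z ω ≤ |Z ω - X ω| + (max (X ω - (t + 2 * d)) 0 + (t + 2 * d)) := by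
      have := le_abs_self (Z ω - X ω)
      have := le_max_left (X ω - (t + 2 * d)) 0
      linarith
    calc ENNReal.ofReal (Z ω) ≤ ENNReal.ofReal (|Z ω - X ω| +
          (max (X ω - (t + 2 * d)) 0 + (t + 2 * d))) := ENNReal.ofReal_le_ofReal h3
      _ = _ := by
          rw [ENNReal.ofReal_add (abs_nonneg _) (by positivity),
            ENNReal.ofReal_add (le_max_right _ _) (by positivity), ENNReal.ofReal_max]
          simp
  calc ∫⁻ ω, ENNReal.ofReal (Z ω) ∂μ
      ≤ ∫⁻ ω, (ENNReal.ofReal |Z ω - X ω| +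
      (ENNReal.ofReal (X ω - (t + 2 * d)) + ENNReal.ofReal (t + 2 * d))) ∂μ := lintegral_mono h2
    _ = ∫⁻ ω, ENNReal.ofReal |Z ω - X ω| ∂μ +
        (∫⁻ ω, ENNReal.ofReal (X ω - (t + 2 * d)) ∂μ + ENNReal.ofReal (t + 2 * d)) := by
        rw [lintegral_add_left (by fun_prop), lintegral_add_left (by fun_prop)]
        simp
    _ ≤ ∫⁻ ω, ENNReal.ofReal |Z ω - X ω| ∂μ +
        (ENNReal.ofReal ((t + 3 * d) * (2 / q) * (1 - q / 2) ^ ((t + 2 * d + d) / (t + 3 * d)))
          + ENNReal.ofReal (t + 2 * d)) := by gcongr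
    _ ≤ _ := by
        gcongr
        rw [← ENNReal.ofReal_add]
        · apply ENNReal.ofReal_le_ofReal
          have e1 : (t + 2 * d + d) / (t + 3 * d) = 1 := by
            rw [show t + 2 * d + d = t + 3 * d by ring]
            exact div_self (by linarith)
          rw [e1, Real.rpow_one]
          have h5 : 0 < t + 3 * d := by linarith
          have h6 : 0 < 2 / q := by positivity
          have h7 : (t + 3 * d) * (2 / q) * (1 - q / 2) = (t + 3 * d) * (2 / q) - (t + 3 * d) := by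
            field_simp
          rw [h7]
          have h8 : 4 / q * (t + 3 * d) = 2 * ((t + 3 * d) * (2 / q)) := by ring
          rw [h8]
          nlinarith [mul_pos h5 h6]
        · have : (0:ℝ) ≤ 1 - q / 2 := by linarith
          positivity
        · linarith

/-- (7.1) for a perturbed variable: `P (Z ≥ t) ≥ q + δ`, `Z ≥ 0` and `|Z - X| ≤ d` up to
probability `δ ≤ 1/2`: then `P (Z < a) ≤ 3 δ + (a + 2 d)/t log (1/q)`. -/
theorem LC.pert_small_ball [IsProbabilityMeasure μ] (h : LC μ X) (hX : Measurable X) {Z : Ω → ℝ}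
    {d δ t q a : ℝ} (hd : 0 ≤ d) (ht : 0 < t) (ha0 : 0 ≤ a) (ha : a + 2 * d ≤ t)
    (hδ : δ ≤ 1 / 2) (hq0 : 0 < q)
    (hE : μ.real {ω | ¬ (|Z ω - X ω| ≤ d ∧ 0 ≤ Z ω)} ≤ δ)
    (hZ : q + δ ≤ μ.real {ω | t ≤ Z ω}) :
    μ.real {ω | Z ω < a} ≤ 3 * δ + (a + 2 * d) / t * Real.log (1 / q) := by
  have hcompl : ∀ c : ℝ, μ.real {ω | c ≤ X ω} = 1 - μ.real {ω | X ω < c} := by
    intro c
    rw [← probReal_compl_eq_one_sub (measurableSet_lt hX measurable_const)]
    congr 1
    ext ω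
    simp
  have hδ0 : 0 ≤ δ := measureReal_nonneg.trans hE
  have h1 : 1 - δ ≤ μ.real {ω | -d ≤ X ω} := by
    rw [hcompl]
    have : μ.real {ω | X ω < -d} ≤ μ.real {ω | ¬ (|Z ω - X ω| ≤ d ∧ 0 ≤ Z ω)} := by
      apply measureReal_mono _ (measure_ne_top _ _)
      intro ω hω
      simp only [Set.mem_ofPred_eq] at hω ⊢
      rintro ⟨h1, h2⟩
      rw [abs_le] at h1
      linarith [h1.1, h1.2]
    linarith
  have h2 : q ≤ μ.real {ω | t - d ≤ X ω} := by
    have h3 : μ.real {ω | t ≤ Z ω} ≤ μ.real {ω | t - d ≤ X ω} +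
        μ.real {ω | ¬ (|Z ω - X ω| ≤ d ∧ 0 ≤ Z ω)} := by
      refine (measureReal_mono ?_ (measure_ne_top _ _)).trans (measureReal_union_le _ _)
      intro ω hω
      simp only [Set.mem_union, Set.mem_ofPred_eq] at hω ⊢
      by_contra hcon
      push Not at hcon
      obtain ⟨h4, h5, h6⟩ := hcon
      rw [abs_le] at h5
      linarith [h5.1, h5.2]
    linarith
  have h3 : μ.real {ω | Z ω < a} ≤ μ.real {ω | X ω < a + d} +
      μ.real {ω | ¬ (|Z ω - X ω| ≤ d ∧ 0 ≤ Z ω)} := by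
    refine (measureReal_mono ?_ (measure_ne_top _ _)).trans (measureReal_union_le _ _)
    intro ω hω
    simp only [Set.mem_union, Set.mem_ofPred_eq] at hω ⊢
    by_contra hcon
    push Not at hcon
    obtain ⟨h4, h5, h6⟩ := hcon
    rw [abs_le] at h5
    linarith [h5.1, h5.2]
  have h4 := h.small_ball hX (a0 := -d) (s := t - d) (a := a + d) (δ := δ) (q := q)
    (by linarith) (by linarith) (by linarith) hδ0 hδ h1 hq0 h2
  have e1 : (a + d - -d) / (t - d - -d) = (a + 2 * d) / t := by congr 1 <;> ring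
  rw [e1] at h4
  linarith

end Crest.Agent.R151.V
end

-- ▼ part R151/V13
section

/-!
# R151, block V13 (helper52): log-concavity of hull costs given the highways (R7)
-/

set_option autoImplicit false
set_option linter.unusedSectionVars false

open MeasureTheory ProbabilityTheory Set Filter
open scoped ENNReal Topology
open Crest.ProbabilityR.FirstPassage
open Crest.Agent.R151.K (Nn)
open Crest.Agent.R151.R78 (hc stepc hull routes IsHwy IsOpen Wk V)

namespace Crest.Agent.R151.V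

section LCmore

variable {Ω : Type*} [MeasurableSpace Ω] {μ : Measure Ω} {X : Ω → ℝ}

lemma LC.congr_ae {X' : Ω → ℝ} (h : LC μ X) (he : X =ᵐ[μ] X') : LC μ X' := by
  have hs : ∀ c : ℝ, μ.real {ω | c ≤ X' ω} = μ.real {ω | c ≤ X ω} := by
    intro c
    apply measureReal_congr
    filter_upwards [he] with ω hω
    have : (c ≤ X' ω) = (c ≤ X ω) := by rw [hω]
    exact this
  intro a b t ht0 ht1
  rw [hs, hs, hs]
  exact h a b t ht0 ht1

lemma LC.add_const (h : LC μ X) (c : ℝ) : LC μ (fun ω => X ω + c) := by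
  have hs : ∀ a : ℝ, {ω | a ≤ X ω + c} = {ω | a - c ≤ X ω} := by
    intro a; ext ω; simp only [Set.mem_ofPred_eq]; constructor <;> intro h <;> linarith
  intro a b t ht0 ht1
  rw [hs, hs, hs]
  have e : (1 - t) * a + t * b - c = (1 - t) * (a - c) + t * (b - c) := by ring
  rw [e]
  exact h _ _ t ht0 ht1

lemma LC.sub_const (h : LC μ X) (c : ℝ) : LC μ (fun ω => X ω - c) := by
  simpa [sub_eq_add_neg] using h.add_const (-c)

lemma LC.mul_const (h : LC μ X) {l : ℝ} (hl : 0 < l) : LC μ (fun ω => X ω * l) := by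
  have hs : ∀ a : ℝ, {ω | a ≤ X ω * l} = {ω | a / l ≤ X ω} := by
    intro a; ext ω; simp only [Set.mem_ofPred_eq]; rw [div_le_iff₀ hl]
  intro a b t ht0 ht1
  rw [hs, hs, hs]
  have e : ((1 - t) * a + t * b) / l = (1 - t) * (a / l) + t * (b / l) := by ring
  rw [e]
  exact h _ _ t ht0 ht1

lemma LC.div_const (h : LC μ X) {l : ℝ} (hl : 0 < l) : LC μ (fun ω => X ω / l) := by
  simpa [div_eq_mul_inv] using h.mul_const (inv_pos.2 hl)

end LCmore

section affine

variable {I : Type*}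

lemma rng_ne (n : ℕ) : (Finset.range (n + 1)).Nonempty := ⟨0, by simp⟩

/-- positive part version of a finite minimum of affine functions -/
noncomputable def mn (c : ℕ → ℝ) (l : ℕ → List I) (n : ℕ) (t : I → ℝ) : ℝ :=
  (Finset.range (n + 1)).inf' (rng_ne n) fun k => c k + ((l k).map fun e => max (t e) 0).sum

lemma list_sum_nonneg' (l : List I) (t : I → ℝ) : 0 ≤ (l.map fun e => max (t e) 0).sum := by
  apply List.sum_nonneg
  intro a ha
  obtain ⟨e, -, rfl⟩ := List.mem_map.1 ha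
  exact le_max_right _ _

lemma measurable_list_sum' (l : List I) :
    Measurable fun t : I → ℝ => (l.map fun e => max (t e) 0).sum := by
  induction l with
  | nil => simp
  | cons e l ih =>
    simp only [List.map_cons, List.sum_cons]
    exact ((measurable_pi_apply e).max measurable_const).add ih

lemma measurable_mn (c : ℕ → ℝ) (l : ℕ → List I) (n : ℕ) : Measurable (mn c l n) := by
  unfold mn
  have key : Measurable ((Finset.range (n + 1)).inf' (rng_ne n)
      (fun (k : ℕ) (t : I → ℝ) => c k + ((l k).map fun e => max (t e) 0).sum)) :=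
    Finset.inf'_induction _ _ (p := Measurable) (fun a ha b hb => ha.min hb)
      (fun k _ => measurable_const.add (measurable_list_sum' (l k)))
  convert key using 1
  funext t
  rw [Finset.inf'_apply]

/-- affine on the orthant -/
lemma list_sum_affine (l : List I) {x y : I → ℝ} (hx : ∀ i, 0 ≤ x i) (hy : ∀ i, 0 ≤ y i) {a b : ℝ}
    (ha : 0 ≤ a) (hb : 0 ≤ b) :
    (l.map fun e => max (a * x e + b * y e) 0).sum =
      a * (l.map fun e => max (x e) 0).sum + b * (l.map fun e => max (y e) 0).sum := by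
  induction l with
  | nil => simp
  | cons e l ih =>
    simp only [List.map_cons, List.sum_cons]
    rw [ih, max_eq_left (hx e), max_eq_left (hy e),
      max_eq_left (add_nonneg (mul_nonneg ha (hx e)) (mul_nonneg hb (hy e)))]
    ring

lemma mn_concave (c : ℕ → ℝ) (l : ℕ → List I) (n : ℕ) {x y : I → ℝ} (hx : ∀ i, 0 ≤ x i)
    (hy : ∀ i, 0 ≤ y i) {a b : ℝ} (ha : 0 ≤ a) (hb : 0 ≤ b) (hab : a + b = 1) :
    a * mn c l n x + b * mn c l n y ≤ mn c l n (fun i => a * x i + b * y i) := by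
  unfold mn
  obtain ⟨k, hk, hke⟩ := Finset.exists_mem_eq_inf' (s := Finset.range (n + 1)) (rng_ne n)
    (fun k => c k + ((l k).map fun e => max (a * x e + b * y e) 0).sum)
  rw [hke, list_sum_affine (l k) hx hy ha hb]
  have h1 : (Finset.range (n + 1)).inf' (rng_ne n)
      (fun k => c k + ((l k).map fun e => max (x e) 0).sum) ≤
      c k + ((l k).map fun e => max (x e) 0).sum :=
    Finset.inf'_le (f := fun k => c k + ((l k).map fun e => max (x e) 0).sum) hk
  have h2 : (Finset.range (n + 1)).inf' (rng_ne n)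
      (fun k => c k + ((l k).map fun e => max (y e) 0).sum) ≤
      c k + ((l k).map fun e => max (y e) 0).sum :=
    Finset.inf'_le (f := fun k => c k + ((l k).map fun e => max (y e) 0).sum) hk
  have h3 := mul_le_mul_of_nonneg_left h1 ha
  have h4 := mul_le_mul_of_nonneg_left h2 hb
  have h5 : a * c k + b * c k = c k := by rw [← add_mul, hab, one_mul]
  linarith

lemma mn_congr (c : ℕ → ℝ) (l : ℕ → List I) (n : ℕ) {x y : I → ℝ}
    (h : ∀ k ≤ n, ∀ e ∈ l k, x e = y e) : mn c l n x = mn c l n y := by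
  unfold mn
  apply Finset.inf'_congr _ rfl
  intro k hk
  congr 2
  apply List.map_congr_left
  intro e he
  rw [h k (by simpa [Nat.lt_succ_iff] using Finset.mem_range.1 hk) e he]

open Classical in
theorem LC_mn {r : ℝ} (hr : 0 < r) (c : ℕ → ℝ) (l : ℕ → List I) (n : ℕ) :
    LC (Measure.infinitePi fun _ : I => gammaMeasure 1 r) (mn c l n) := by
  set s : Finset I := (Finset.range (n + 1)).biUnion fun k => (l k).toFinset with hs
  set ext : (s → ℝ) → (I → ℝ) := fun y i => if h : i ∈ s then y ⟨i, h⟩ else 0 with hext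
  have hextm : Measurable ext := by
    rw [measurable_pi_iff]
    intro i
    by_cases hi : i ∈ s
    · simp only [hext, hi, dif_pos]
      exact measurable_pi_apply _
    · simp only [hext, hi, dif_neg, not_false_eq_true]
      exact measurable_const
  have hF : Measurable fun y : s → ℝ => mn c l n (ext y) := (measurable_mn c l n).comp hextm
  have hconc : ConcaveOn ℝ {y : s → ℝ | ∀ i, 0 ≤ y i} (fun y => mn c l n (ext y)) := by
    refine ⟨convex_orthant s, ?_⟩
    intro x hx y hy a b ha hb hab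
    have hx' : ∀ i, 0 ≤ ext x i := by
      intro i
      by_cases hi : i ∈ s
      · simp only [hext, hi, dif_pos]; exact hx _
      · simp [hext, hi]
    have hy' : ∀ i, 0 ≤ ext y i := by
      intro i
      by_cases hi : i ∈ s
      · simp only [hext, hi, dif_pos]; exact hy _
      · simp [hext, hi]
    have h1 := mn_concave c l n hx' hy' ha hb hab
    have h2 : ext (a • x + b • y) = fun i => a * ext x i + b * ext y i := by
      funext i
      by_cases hi : i ∈ s
      · simp [hext, hi]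
      · simp [hext, hi]
    simp only [smul_eq_mul]
    rw [h2]
    exact h1
  have h := LC_infinitePi hr s hF hconc
  have he : (fun x : I → ℝ => mn c l n (ext (s.restrict x))) = mn c l n := by
    funext x
    apply mn_congr
    intro k hk e he
    have hes : e ∈ s := by
      rw [hs, Finset.mem_biUnion]
      exact ⟨k, Finset.mem_range.2 (by omega), List.mem_toFinset.2 he⟩
    simp [hext, hes]
  rwa [he] at h

/-- **Prékopa for countable infima of affine functions** of exponential weights -/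
theorem LC_iInf_affine [Countable I] {r : ℝ} (hr : 0 < r) (c : ℕ → ℝ) (l : ℕ → List I) (C : ℝ)
    (hC : ∀ n, C ≤ c n) :
    LC (Measure.infinitePi fun _ : I => gammaMeasure 1 r) (fun t => ⨅ n, (c n + ((l n).map t).sum)) := by
  have hγ := isProbabilityMeasure_gammaMeasure zero_lt_one hr
  set μ := Measure.infinitePi fun _ : I => gammaMeasure 1 r with hμ
  have hnn : ∀ᵐ t ∂μ, ∀ e, 0 ≤ t e := by
    rw [ae_all_iff]
    intro e
    exact (measurePreserving_eval_infinitePi (fun _ : I => gammaMeasure 1 r)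
      e).quasiMeasurePreserving.ae (ae_pos_gamma 1 r)
  have hLC : LC μ (fun t => ⨅ n, (c n + ((l n).map fun e => max (t e) 0).sum)) := by
    refine LC.of_antitone (Y := fun n => mn c l n) (fun n => measurable_mn c l n)
      (fun n => LC_mn hr c l n) ?_ ?_
    · intro t n m hnm
      exact Finset.inf'_mono _ (by intro k hk; simp at hk ⊢; omega) _
    · intro t
      have hbdd : BddBelow (range fun n => c n + ((l n).map fun e => max (t e) 0).sum) :=
        ⟨C, by rintro _ ⟨n, rfl⟩; have := list_sum_nonneg' (l n) t; have := hC n; simp only; linarith⟩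
      apply tendsto_atTop_isGLB
      · intro n m hnm
        exact Finset.inf'_mono _ (by intro k hk; simp at hk ⊢; omega) _
      · constructor
        · rintro _ ⟨n, rfl⟩
          unfold mn
          refine Finset.le_inf' _ _ fun k _ => ?_
          exact ciInf_le hbdd k
        · intro b hb
          refine le_ciInf fun n => (hb ⟨n, rfl⟩).trans ?_
          exact Finset.inf'_le (s := Finset.range (n + 1))
            (f := fun k => c k + ((l k).map fun e => max (t e) 0).sum) (by simp)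
  refine hLC.congr_ae ?_
  filter_upwards [hnn] with t ht
  congr 1
  funext n
  congr 2
  apply List.map_congr_left
  intro e _
  exact max_eq_left (ht e)

end affine

section hull

lemma hc_congr {t t' : Environment} {H : ℤ → V} (h : ∀ k, t s(H k, H (k + 1)) = t' s(H k, H (k + 1)))
    (z : ℤ) : hc t H z = hc t' H z := by
  have hst : ∀ k, stepc t H k = stepc t' H k := fun k => h k
  rcases z with n | n
  · simp only [hc]
    exact Finset.sum_congr rfl fun k _ => hst _
  · simp only [hc]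
    rw [Finset.sum_congr rfl fun k _ => hst _]

open Classical in
lemma walkCost_glue (E : Set (Sym2 (ℤ × ℤ))) (s t : Environment) {x y : V} (g : Wk x y) :
    walkCost (glue E s t) g = ((g.edges.filter fun e => e ∈ E).map s).sum +
      ((g.edges.filter fun e => e ∉ E).map t).sum := by
  unfold walkCost
  generalize g.edges = l
  induction l with
  | nil => simp
  | cons e l ih =>
    simp only [List.map_cons, List.sum_cons, List.filter_cons]
    rw [ih]
    by_cases he : e ∈ E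
    · simp only [he, glue_of_mem he, decide_true, if_true, List.map_cons, List.sum_cons,
        not_true_eq_false, decide_false, Bool.false_eq_true, if_false]
      ring
    · simp only [he, glue_of_notMem he, decide_false, Bool.false_eq_true, if_false, List.map_cons,
        List.sum_cons, not_false_eq_true, decide_true, if_true]
      ring

/-- **R7**: for a fixed strip environment `s` (and fixed highways in `E`), the hull cost is a
concave function of the fresh weights; its survival function is log-concave. -/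
theorem LC_hull {r : ℝ} (hr : 0 < r) (E : Set (Sym2 (ℤ × ℤ))) {s : Environment} (hs : Nn s)
    {H H' : ℤ → V} (hHE : ∀ k, s(H k, H (k + 1)) ∈ E) (hHE' : ∀ k, s(H' k, H' (k + 1)) ∈ E)
    (A : Set V) (i j : ℤ) (hne : (routes s H H' A i j).Nonempty) :
    LC (iidLaw (gammaMeasure 1 r)) (fun t => hull (glue E s t) H H' A i j) := by
  classical
  set Idx := {p : Σ (z w : ℤ), Wk (H z) (H' w) // i ≤ p.1 ∧ p.2.1 ≤ j ∧ IsOpen H H' A p.2.2}
    with hIdx
  have hcount : Countable Idx := inferInstance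
  have hne' : Nonempty Idx := by
    obtain ⟨_, z, w, hz, hw, g, hg, -⟩ := hne
    exact ⟨⟨⟨z, w, g⟩, hz, hw, hg⟩⟩
  obtain ⟨f, hf⟩ := exists_surjective_nat Idx
  set c : ℕ → ℝ := fun n => hc s H (f n).1.1 - hc s H' (f n).1.2.1 +
    (((f n).1.2.2.edges.filter fun e => e ∈ E).map s).sum with hc'
  set l : ℕ → List (Sym2 (ℤ × ℤ)) := fun n => (f n).1.2.2.edges.filter fun e => e ∉ E with hl
  have hval : ∀ t : Environment, ∀ p : Idx,
      hc (glue E s t) H p.1.1 + walkCost (glue E s t) p.1.2.2 - hc (glue E s t) H' p.1.2.1 =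
        (hc s H p.1.1 - hc s H' p.1.2.1 + ((p.1.2.2.edges.filter fun e => e ∈ E).map s).sum) +
          ((p.1.2.2.edges.filter fun e => e ∉ E).map t).sum := by
    intro t p
    have h1 : hc (glue E s t) H p.1.1 = hc s H p.1.1 :=
      hc_congr (fun k => glue_of_mem (hHE k) s t) _
    have h2 : hc (glue E s t) H' p.1.2.1 = hc s H' p.1.2.1 :=
      hc_congr (fun k => glue_of_mem (hHE' k) s t) _
    rw [h1, h2, walkCost_glue]
    ring
  have heq : (fun t => hull (glue E s t) H H' A i j) =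
      fun t : Environment => ⨅ n, (c n + ((l n).map t).sum) := by
    funext t
    have hr1 : routes (glue E s t) H H' A i j = range fun p : Idx =>
        hc (glue E s t) H p.1.1 + walkCost (glue E s t) p.1.2.2 - hc (glue E s t) H' p.1.2.1 := by
      ext x
      constructor
      · rintro ⟨z, w, hz, hw, g, hg, rfl⟩
        exact ⟨⟨⟨z, w, g⟩, hz, hw, hg⟩, rfl⟩
      · rintro ⟨⟨⟨z, w, g⟩, hz, hw, hg⟩, rfl⟩
        exact ⟨z, w, hz, hw, g, hg, rfl⟩
    unfold hull
    rw [hr1]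
    change (⨅ p : Idx, _) = _
    rw [← hf.iInf_comp]
    congr 1
    funext n
    exact hval t (f n)
  rw [heq]
  refine LC_iInf_affine hr c l (hc s H i - hc s H' j) ?_
  intro n
  obtain ⟨h1, h2, -⟩ := (f n).2
  have h3 := R78.hc_mono hs H h1
  have h4 := R78.hc_mono hs H' h2
  have h5 : 0 ≤ (((f n).1.2.2.edges.filter fun e => e ∈ E).map s).sum := by
    apply List.sum_nonneg
    intro a ha
    obtain ⟨e, -, rfl⟩ := List.mem_map.1 ha
    exact hs e
  simp only [hc']
  linarith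

end hull

end Crest.Agent.R151.V
end

-- ▼ part R151/V14

/-!
# R151/V14 — R7, R8 on the names of G338g (owner helper52)

`E0 h d θ` = the edges read by the two highways of the row with displacement `d`;
`glue (E0 h d θ) s t` = the environment `s` on the highway strips, fresh weights `t` elsewhere.
* `Lo_glue`, `Up_glue`, `iL_glue`, `iU_glue` : the highways read only `s`;
* `dep_hk` : `hk d I s1 s2` reads `E0 ∪ edgesIn (rg F I θ)`; `disjoint_rg` for disjoint `I1`, `I2`;
* `LC_hk` : for fixed `(θ, φ, s)`, `hk` is a log-concave variable of the fresh weights;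
* `rho`, `rho_glue`, `R8` : `∫ |R - ρ| ≤ 3 B`.
-/

set_option autoImplicit false
set_option linter.unusedSectionVars false

open MeasureTheory ProbabilityTheory Set
open scoped ENNReal
open Crest.ProbabilityR.FirstPassage

namespace Crest.Agent.R151.V

open Crest.Agent.R151.K
open R78 (V Wk IsHwy hc hp stepc hull routes IsOpen)
open Q (pos Hwy P0 UU UU2 phi rg)
open B710 (FlatData)

section row

variable {μ : ℝ × ℝ → ℝ} {F : FlatData μ} (h : Hwy F)

/-- the edges read by the two highways of a row with displacement `d` -/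
def E0 (d θ : ℝ × ℝ) : Set (Sym2 (ℤ × ℤ)) :=
  edgesIn {z | |F.be (pos θ z)| ≤ h.wH / 2} ∪ edgesIn {z | |F.be (pos (θ - d) z)| ≤ h.wH / 2}

lemma measurableSet_strip (w : ℝ) (d : ℝ × ℝ) (x : ℤ × ℤ) :
    MeasurableSet {θ : ℝ × ℝ | |F.be (pos (θ - d) x)| ≤ w} := by
  have h1 : Measurable fun θ : ℝ × ℝ => |F.be (pos (θ - d) x)| :=
    (F.be.continuous.measurable.comp ((M192.measurable_pos x).comp
      (measurable_id.sub_const d))).abs
  exact measurableSet_le h1 measurable_const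

theorem measurableSet_E0 (d : ℝ × ℝ) (e : Sym2 (ℤ × ℤ)) :
    MeasurableSet {θ : ℝ × ℝ | e ∈ E0 h d θ} := by
  induction e with
  | h x y =>
    have h1 : {θ : ℝ × ℝ | s(x, y) ∈ E0 h d θ} =
        ({θ : ℝ × ℝ | |F.be (pos (θ - 0) x)| ≤ h.wH / 2} ∩
          {θ : ℝ × ℝ | |F.be (pos (θ - 0) y)| ≤ h.wH / 2}) ∪
        ({θ : ℝ × ℝ | |F.be (pos (θ - d) x)| ≤ h.wH / 2} ∩
          {θ : ℝ × ℝ | |F.be (pos (θ - d) y)| ≤ h.wH / 2}) := by
      ext θ
      simp only [E0, mem_ofPred_eq, mem_union, mem_inter_iff, sub_zero, mem_edgesIn]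
    rw [h1]
    exact ((measurableSet_strip _ _ _).inter (measurableSet_strip _ _ _)).union
      ((measurableSet_strip _ _ _).inter (measurableSet_strip _ _ _))


lemma Lo_mem (d θ : ℝ × ℝ) (s : Environment) (φ : ℝ × ℝ) (k : ℤ) :
    s(h.Lo θ s φ k, h.Lo θ s φ (k + 1)) ∈ E0 h d θ :=
  Or.inl (mem_edgesIn.2 ⟨h.strip _ _ _ _, h.strip _ _ _ _⟩)

lemma Up_mem (d θ : ℝ × ℝ) (s : Environment) (φ : ℝ × ℝ) (k : ℤ) :
    s(h.Up d θ s φ k, h.Up d θ s φ (k + 1)) ∈ E0 h d θ :=
  Or.inr (mem_edgesIn.2 ⟨h.strip _ _ _ _, h.strip _ _ _ _⟩)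

variable {h} in
lemma Lo_congr {d θ : ℝ × ℝ} {t t' : Environment} (ht : ∀ e ∈ E0 h d θ, t e = t' e)
    (φ : ℝ × ℝ) : h.Lo θ t φ = h.Lo θ t' φ :=
  h.loc _ _ _ _ fun e he => ht e (Or.inl he)

variable {h} in
lemma Up_congr {d θ : ℝ × ℝ} {t t' : Environment} (ht : ∀ e ∈ E0 h d θ, t e = t' e)
    (φ : ℝ × ℝ) : h.Up d θ t φ = h.Up d θ t' φ :=
  h.loc _ _ _ _ fun e he => ht e (Or.inr he)

variable {h} in
lemma iL_congr {d θ : ℝ × ℝ} {t t' : Environment} (ht : ∀ e ∈ E0 h d θ, t e = t' e)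
    (s : ℝ) (φ : ℝ × ℝ) : h.iL s θ t φ = h.iL s θ t' φ := by
  have h1 : h.H φ.1 θ t = h.H φ.1 θ t' := Lo_congr ht φ
  unfold Hwy.iL Hwy.ix
  rw [h1]

variable {h} in
lemma iU_congr {d θ : ℝ × ℝ} {t t' : Environment} (ht : ∀ e ∈ E0 h d θ, t e = t' e)
    (s : ℝ) (φ : ℝ × ℝ) : h.iU d s θ t φ = h.iU d s θ t' φ := by
  have h1 : h.H φ.2 (θ - d) t = h.H φ.2 (θ - d) t' := Up_congr ht φ
  unfold Hwy.iU Hwy.ix
  rw [h1]

lemma glue_eqOn (E : Set (Sym2 (ℤ × ℤ))) (s t : Environment) : ∀ e ∈ E, glue E s t e = s e :=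
  fun _ he => glue_of_mem he s t

@[simp] lemma Lo_glue (d θ : ℝ × ℝ) (s t : Environment) (φ : ℝ × ℝ) :
    h.Lo θ (glue (E0 h d θ) s t) φ = h.Lo θ s φ := Lo_congr (d := d) (glue_eqOn _ _ _) φ

@[simp] lemma Up_glue (d θ : ℝ × ℝ) (s t : Environment) (φ : ℝ × ℝ) :
    h.Up d θ (glue (E0 h d θ) s t) φ = h.Up d θ s φ := Up_congr (glue_eqOn _ _ _) φ

@[simp] lemma iL_glue (d θ : ℝ × ℝ) (s t : Environment) (a : ℝ) (φ : ℝ × ℝ) :
    h.iL a θ (glue (E0 h d θ) s t) φ = h.iL a θ s φ := iL_congr (d := d) (glue_eqOn _ _ _) a φ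

@[simp] lemma iU_glue (d θ : ℝ × ℝ) (s t : Environment) (a : ℝ) (φ : ℝ × ℝ) :
    h.iU d a θ (glue (E0 h d θ) s t) φ = h.iU d a θ s φ := iU_congr (glue_eqOn _ _ _) a φ

/-- the cost potentials of the highways read only the strips -/
lemma hcLo_glue (d θ : ℝ × ℝ) (s t : Environment) (φ : ℝ × ℝ) (z : ℤ) :
    hc (glue (E0 h d θ) s t) (h.Lo θ s φ) z = hc s (h.Lo θ s φ) z :=
  hc_congr (fun k => glue_of_mem (Lo_mem h d θ s φ k) s t) z

lemma hcUp_glue (d θ : ℝ × ℝ) (s t : Environment) (φ : ℝ × ℝ) (z : ℤ) :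
    hc (glue (E0 h d θ) s t) (h.Up d θ s φ) z = hc s (h.Up d θ s φ) z :=
  hc_congr (fun k => glue_of_mem (Up_mem h d θ s φ k) s t) z

theorem hk_glue (d : ℝ × ℝ) (I : Set ℝ) (a b : ℝ) (θ : ℝ × ℝ) (s t : Environment)
    (φ : ℝ × ℝ) : h.hk d I a b θ (glue (E0 h d θ) s t) φ =
      hull (glue (E0 h d θ) s t) (h.Lo θ s φ) (h.Up d θ s φ) (rg F I θ) (h.iL a θ s φ)
        (h.iU d b θ s φ) := by
  unfold Hwy.hk
  rw [Lo_glue, Up_glue, iL_glue, iU_glue]

/-- difference between the excess form and the hull: read by the strips only -/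
theorem hkY_sub_glue (d : ℝ × ℝ) (I : Set ℝ) (a b : ℝ) (θ : ℝ × ℝ) (s t : Environment)
    (φ : ℝ × ℝ) : h.hkY d I a b θ (glue (E0 h d θ) s t) φ -
      h.hk d I a b θ (glue (E0 h d θ) s t) φ = h.hkY d I a b θ s φ - h.hk d I a b θ s φ := by
  unfold Hwy.hkY Hwy.hk R78.hullY hp
  rw [Lo_glue, Up_glue, iL_glue, iU_glue, hcLo_glue, hcUp_glue]
  ring

/-- **R7b** -/
theorem LC_hk {r : ℝ} (hr : 0 < r) {s : Environment} (hs : Nn s) (d : ℝ × ℝ) (I : Set ℝ)
    (a b : ℝ) (θ φ : ℝ × ℝ)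
    (hne : (routes s (h.Lo θ s φ) (h.Up d θ s φ) (rg F I θ) (h.iL a θ s φ)
      (h.iU d b θ s φ)).Nonempty) :
    LC (iidLaw (gammaMeasure 1 r)) (fun t => h.hk d I a b θ (glue (E0 h d θ) s t) φ) := by
  have h1 := LC_hull hr (E0 h d θ) hs (Lo_mem h d θ s φ) (Up_mem h d θ s φ) (rg F I θ)
    (h.iL a θ s φ) (h.iU d b θ s φ) hne
  have h2 : (fun t => h.hk d I a b θ (glue (E0 h d θ) s t) φ) = fun t =>
      hull (glue (E0 h d θ) s t) (h.Lo θ s φ) (h.Up d θ s φ) (rg F I θ) (h.iL a θ s φ)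
        (h.iU d b θ s φ) := by
    funext t; exact hk_glue h d I a b θ s t φ
  rw [h2]
  exact h1

/-- **R7c**, dependence -/
theorem dep_hk (d : ℝ × ℝ) (I : Set ℝ) (a b : ℝ) (θ φ : ℝ × ℝ) :
    DependsOn (fun t => h.hk d I a b θ t φ) (E0 h d θ ∪ edgesIn (rg F I θ)) := by
  intro t t' htt
  have h0 : ∀ e ∈ E0 h d θ, t e = t' e := fun e he => htt e (Or.inl he)
  have h1 : h.Lo θ t φ = h.Lo θ t' φ := Lo_congr h0 φ
  have h2 : h.Up d θ t φ = h.Up d θ t' φ := Up_congr h0 φ
  have h3 : h.iL a θ t φ = h.iL a θ t' φ := iL_congr h0 a φ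
  have h4 : h.iU d b θ t φ = h.iU d b θ t' φ := iU_congr h0 b φ
  show h.hk d I a b θ t φ = h.hk d I a b θ t' φ
  unfold Hwy.hk hull
  rw [h3, h4]
  congr 1
  rw [h1, h2]
  refine M192.routes_congr ?_ ?_ ?_ _ _
  · intro x hx y hy
    exact htt _ (Or.inr (mem_edgesIn.2 ⟨hx, hy⟩))
  · exact M192.hc_congr fun k => h0 _ (Lo_mem h d θ t' φ k)
  · exact M192.hc_congr fun k => h0 _ (Up_mem h d θ t' φ k)

/-- excess form -/
theorem dep_hkY (d : ℝ × ℝ) (I : Set ℝ) (a b : ℝ) (θ φ : ℝ × ℝ) :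
    DependsOn (fun t => h.hkY d I a b θ t φ) (E0 h d θ ∪ edgesIn (rg F I θ)) := by
  intro t t' htt
  have h0 : ∀ e ∈ E0 h d θ, t e = t' e := fun e he => htt e (Or.inl he)
  have h1 : h.Lo θ t φ = h.Lo θ t' φ := Lo_congr h0 φ
  have h2 : h.Up d θ t φ = h.Up d θ t' φ := Up_congr h0 φ
  have h3 : h.iL a θ t φ = h.iL a θ t' φ := iL_congr h0 a φ
  have h4 : h.iU d b θ t φ = h.iU d b θ t' φ := iU_congr h0 b φ
  have h5 := dep_hk h d I a b θ φ htt
  simp only [Hwy.hk, h3, h4, h1, h2] at h5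
  have h6 : ∀ z, hc t (h.Lo θ t' φ) z = hc t' (h.Lo θ t' φ) z :=
    M192.hc_congr fun k => h0 _ (Lo_mem h d θ t' φ k)
  have h7 : ∀ z, hc t (h.Up d θ t' φ) z = hc t' (h.Up d θ t' φ) z :=
    M192.hc_congr fun k => h0 _ (Up_mem h d θ t' φ k)
  show h.hkY d I a b θ t φ = h.hkY d I a b θ t' φ
  unfold Hwy.hkY R78.hullY hp
  rw [h3, h4, h1, h2, h5, h6, h7]

/-- regions over disjoint label sets have disjoint sets of edges -/
theorem disjoint_rg {I J : Set ℝ} (hIJ : Disjoint I J) (θ : ℝ × ℝ) :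
    Disjoint (edgesIn (rg F I θ)) (edgesIn (rg F J θ)) := by
  rw [Set.disjoint_left]
  intro e he he'
  induction e with
  | h x y =>
    rw [mem_edgesIn] at he he'
    exact Set.disjoint_left.1 hIJ he.1 he'.1


end row

section R8

variable {G : Measure ℝ} [IsProbabilityMeasure G] {Q : Type*} [MeasurableSpace Q]
  {ν : Measure Q} [IsProbabilityMeasure ν]

/-- glueing twice -/
lemma glue_glue {I X : Type*} [MeasurableSpace X] (E : Set I) (s t t' : I → X) :
    glue E (glue E s t) t' = glue E s t' := by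
  classical
  funext i
  by_cases hi : i ∈ E
  · rw [glue_of_mem hi, glue_of_mem hi, glue_of_mem hi]
  · rw [glue_of_notMem hi, glue_of_notMem hi]

/-- conditional mean of `g` given `(q, edges in E q)` -/
noncomputable def rho (G : Measure ℝ) (E : Q → Set (Sym2 (ℤ × ℤ))) (g : Q × Environment → ℝ)
    (p : Q × Environment) : ℝ := ∫ t, g (p.1, glue (E p.1) p.2 t) ∂(iidLaw G)

lemma rho_glue (E : Q → Set (Sym2 (ℤ × ℤ))) (g : Q × Environment → ℝ) (q : Q)
    (s t : Environment) : rho G E g (q, glue (E q) s t) = rho G E g (q, s) := by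
  unfold rho
  simp only [glue_glue]


lemma integrable_rho {E : Q → Set (Sym2 (ℤ × ℤ))} (hE : ∀ i, MeasurableSet {q | i ∈ E q})
    {g : Q × Environment → ℝ} (hg : Integrable g (ν.prod (iidLaw G))) :
    Integrable (rho G E g) (ν.prod (iidLaw G)) :=
  (integrable_glue_rand G ν hE hg).integral_prod_left


/-- `∫ |f - ρ_g|` in the unconditional form -/
theorem cond_indep' {E E1 E2 : Q → Set (Sym2 (ℤ × ℤ))} (hE : ∀ i, MeasurableSet {q | i ∈ E q})
    (hd : ∀ q, Disjoint (E1 q) (E2 q)) {f g : Q × Environment → ℝ} (hf : Measurable f)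
    (hg : Measurable g) (hfE : ∀ q, DependsOn (fun t => f (q, t)) (E q ∪ E1 q))
    (hgE : ∀ q, DependsOn (fun t => g (q, t)) (E q ∪ E2 q))
    (hfi : Integrable f (ν.prod (iidLaw G))) (hgi : Integrable g (ν.prod (iidLaw G))) :
    ∫ p, |f p - rho G E g p| ∂(ν.prod (iidLaw G)) ≤
      ∫ p, |f p - g p| ∂(ν.prod (iidLaw G)) := by
  refine le_trans (le_of_eq ?_) (cond_indep ν hE hd hf hg hfE hgE hfi hgi)
  have h1 := integral_glue_rand G ν hE (f := fun p => |f p - rho G E g p|)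
    (hfi.sub (integrable_rho hE hgi)).abs
  simp only [rho_glue] at h1
  exact h1.symm

/-- **R8**: `R` is at most each of two conditionally independent variables, with means within `B`
of the mean of `R`; then `R` is within `3 B` (in `L¹`) of the conditional mean of one of them. -/
theorem R8 {E E1 E2 : Q → Set (Sym2 (ℤ × ℤ))} (hE : ∀ i, MeasurableSet {q | i ∈ E q})
    (hd : ∀ q, Disjoint (E1 q) (E2 q)) {R V1 V2 : Q × Environment → ℝ}
    (hV1 : Measurable V1) (hV2 : Measurable V2)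
    (hV1E : ∀ q, DependsOn (fun t => V1 (q, t)) (E q ∪ E1 q))
    (hV2E : ∀ q, DependsOn (fun t => V2 (q, t)) (E q ∪ E2 q))
    (hRi : Integrable R (ν.prod (iidLaw G))) (hV1i : Integrable V1 (ν.prod (iidLaw G)))
    (hV2i : Integrable V2 (ν.prod (iidLaw G)))
    (h1 : ∀ᵐ p ∂(ν.prod (iidLaw G)), R p ≤ V1 p) (h2 : ∀ᵐ p ∂(ν.prod (iidLaw G)), R p ≤ V2 p)
    {B : ℝ} (hB1 : ∫ p, V1 p ∂(ν.prod (iidLaw G)) ≤ ∫ p, R p ∂(ν.prod (iidLaw G)) + B)
    (hB2 : ∫ p, V2 p ∂(ν.prod (iidLaw G)) ≤ ∫ p, R p ∂(ν.prod (iidLaw G)) + B) :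
    ∫ p, |R p - rho G E V2 p| ∂(ν.prod (iidLaw G)) ≤ 3 * B := by
  have hρ := integrable_rho hE hV2i
  have a1 : ∫ p, |R p - V1 p| ∂(ν.prod (iidLaw G)) ≤ B := by
    have : ∫ p, |R p - V1 p| ∂(ν.prod (iidLaw G)) = ∫ p, (V1 p - R p) ∂(ν.prod (iidLaw G)) := by
      apply integral_congr_ae
      filter_upwards [h1] with p hp
      rw [abs_of_nonpos (by linarith)]; ring
    rw [this, integral_sub hV1i hRi]; linarith
  have a2 : ∫ p, |R p - V2 p| ∂(ν.prod (iidLaw G)) ≤ B := by
    have : ∫ p, |R p - V2 p| ∂(ν.prod (iidLaw G)) = ∫ p, (V2 p - R p) ∂(ν.prod (iidLaw G)) := by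
      apply integral_congr_ae
      filter_upwards [h2] with p hp
      rw [abs_of_nonpos (by linarith)]; ring
    rw [this, integral_sub hV2i hRi]; linarith
  have a3 : ∫ p, |V1 p - V2 p| ∂(ν.prod (iidLaw G)) ≤ 2 * B := by
    calc ∫ p, |V1 p - V2 p| ∂(ν.prod (iidLaw G))
        ≤ ∫ p, (|R p - V1 p| + |R p - V2 p|) ∂(ν.prod (iidLaw G)) := by
          apply integral_mono (hV1i.sub hV2i).abs ((hRi.sub hV1i).abs.add (hRi.sub hV2i).abs)
          intro p
          have := abs_sub_le (V1 p) (R p) (V2 p)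
          rw [abs_sub_comm (V1 p) (R p)] at this
          exact this
      _ = _ := integral_add (hRi.sub hV1i).abs (hRi.sub hV2i).abs
      _ ≤ 2 * B := by linarith
  have a4 := cond_indep' (G := G) (ν := ν) hE hd hV1 hV2 hV1E hV2E hV1i hV2i
  calc ∫ p, |R p - rho G E V2 p| ∂(ν.prod (iidLaw G))
      ≤ ∫ p, (|R p - V1 p| + |V1 p - rho G E V2 p|) ∂(ν.prod (iidLaw G)) := by
        apply integral_mono (hRi.sub hρ).abs ((hRi.sub hV1i).abs.add (hV1i.sub hρ).abs)
        intro p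
        exact abs_sub_le (R p) (V1 p) _
    _ = _ := integral_add (hRi.sub hV1i).abs (hV1i.sub hρ).abs
    _ ≤ 3 * B := by linarith


end R8

end Crest.Agent.R151.V
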