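import Crest.Agent.R151.G338j
import Crest.Agent.R151.V14
import Crest.Agent.R151.J69b

/-!
# R151 (S0214 part 2): fresh environment given the outer highways, law of the inner row (helper338)

Outer row `p = ((θ, s), φ) : RowS`, fresh variables `r = ((η, t), φ₁) : RowS`, both with law `PR G`.
* `cenv h d p r` = glue of `s` (on the two highway strips of the outer row) and `t` (elsewhere);
* `mp_joint` : `(p, r) ↦ (((θ, cenv p r), φ), (η, φ₁))` has law `(PR G) × (UU2 × (UU × UU))`;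
* `cpr` : conditional probability of `|f| > A` given `p`; `measurable_cpr`, `markov_cpr`;
* `inner_law` : given `p`, the inner row has law `PR G`.
-/

set_option autoImplicit false
set_option linter.unusedSectionVars false

open MeasureTheory Filter ProbabilityTheory Topology
open scoped ENNReal
open Crest.ProbabilityR.FirstPassage

namespace Crest.Agent.R151

namespace Q

open K R78 B710 G338 M192

section mp

variable {X Y Z : Type*} [MeasurableSpace X] [MeasurableSpace Y] [MeasurableSpace Z]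
  (P : Measure X) (R : Measure Y) (S' : Measure Z) [IsProbabilityMeasure P]
  [IsProbabilityMeasure R] [IsProbabilityMeasure S']

lemma mp_assoc : MeasurePreserving (fun x : (X × Y) × Z => (x.1.1, (x.1.2, x.2)))
    ((P.prod R).prod S') (P.prod (R.prod S')) :=
  measurePreserving_prodAssoc P R S'

lemma mp_assoc' : MeasurePreserving (fun x : X × (Y × Z) => ((x.1, x.2.1), x.2.2))
    (P.prod (R.prod S')) ((P.prod R).prod S') :=
  (measurePreserving_prodAssoc P R S').symm MeasurableEquiv.prodAssoc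

lemma mp_swp : MeasurePreserving (fun x : X × Y => (x.2, x.1)) (P.prod R) (R.prod P) :=
  Measure.measurePreserving_swap

/-- `x, (y, z) ↦ y, (x, z)` -/
lemma mp_lcomm : MeasurePreserving (fun x : X × (Y × Z) => (x.2.1, (x.1, x.2.2)))
    (P.prod (R.prod S')) (R.prod (P.prod S')) := by
  have h1 := mp_assoc' P R S'
  have h2 : MeasurePreserving (fun x : (X × Y) × Z => ((x.1.2, x.1.1), x.2))
    ((P.prod R).prod S') ((R.prod P).prod S') := (mp_swp P R).prod (MeasurePreserving.id S')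
  have h3 := mp_assoc R P S'
  exact (h3.comp (h2.comp h1))

variable {W1 W2 W3 : Type*} [MeasurableSpace W1] [MeasurableSpace W2] [MeasurableSpace W3]
  (P1 : Measure W1) (P2 : Measure W2) (P3 : Measure W3) [IsProbabilityMeasure P1]
  [IsProbabilityMeasure P2] [IsProbabilityMeasure P3]

lemma mp_reorder1 : MeasurePreserving (fun x : (Y × Z) × W1 => (x.1.2, (x.1.1, x.2)))
    ((R.prod S').prod P1) (S'.prod (R.prod P1)) :=
  (mp_assoc S' R P1).comp ((mp_swp R S').prod (MeasurePreserving.id P1))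

/-- bring the fresh environment next to the first component -/
lemma mp_reorder2 : MeasurePreserving
    (fun x : (X × W2) × ((Y × Z) × W1) => ((x.1.1, x.2.1.2), (x.1.2, (x.2.1.1, x.2.2))))
    ((P.prod P2).prod ((R.prod S').prod P1)) ((P.prod S').prod (P2.prod (R.prod P1))) := by
  have a2 := mp_assoc P P2 ((R.prod S').prod P1)
  have a3 := (MeasurePreserving.id P).prod
    ((MeasurePreserving.id P2).prod (mp_reorder1 R S' P1))
  have a4 := (MeasurePreserving.id P).prod (mp_lcomm P2 S' (R.prod P1))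
  have a5 := mp_assoc' P S' (P2.prod (R.prod P1))
  exact a5.comp (a4.comp (a3.comp a2))

end mp

variable {μ : ℝ × ℝ → ℝ} {F : FlatData μ}

/-- environment: `s` on the two highway strips of the outer row, fresh weights elsewhere -/
noncomputable def cenv (h : Hwy F) (d : ℝ × ℝ) (p r : RowS) : Environment :=
  V.glue (V.E0 h d p.1.1) p.1.2 r.1.2

lemma measurable_cenv (h : Hwy F) (d : ℝ × ℝ) {Ω : Type*} [MeasurableSpace Ω] {p r : Ω → RowS}
    (hp : Measurable p) (hr : Measurable r) : Measurable fun ω => cenv h d (p ω) (r ω) := by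
  have h1 : Measurable fun p : ((ℝ × ℝ) × Environment) × Environment =>
      V.glue (V.E0 h d p.1.1) p.1.2 p.2 :=
    V.measurable_glue_rand (I := Sym2 (ℤ × ℤ)) (X := ℝ) (E := V.E0 h d) (V.measurableSet_E0 h d)
  have h2 : Measurable fun ω => ((p ω).1, (r ω).1.2) := by
    exact (measurable_fst.comp hp).prodMk (measurable_snd.comp (measurable_fst.comp hr))
  show Measurable ((fun p : ((ℝ × ℝ) × Environment) × Environment =>
      V.glue (V.E0 h d p.1.1) p.1.2 p.2) ∘ fun ω => ((p ω).1, (r ω).1.2))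
  exact h1.comp h2

/-- phases and jitter: law of `(η, φ₁)` -/
noncomputable def PF : Measure ((ℝ × ℝ) × (ℝ × ℝ)) := UU2.prod (UU.prod UU)

instance : IsProbabilityMeasure PF := by unfold PF; infer_instance

variable {G : Measure ℝ} [IsProbabilityMeasure G]

theorem mp_joint (h : Hwy F) (d : ℝ × ℝ) :
    MeasurePreserving (fun x : RowS × RowS =>
      ((((x.1.1.1, cenv h d x.1 x.2), x.1.2), (x.2.1.1, x.2.2)) : RowS × ((ℝ × ℝ) × (ℝ × ℝ))))
      ((PR G).prod (PR G)) ((PR G).prod PF) := by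
  have a6 := (V.mp_glue_rand (I := Sym2 (ℤ × ℤ)) (X := ℝ) (G := G) (ν := UU2) (E := V.E0 h d)
    (V.measurableSet_E0 h d)).prod (MeasurePreserving.id ((UU.prod UU).prod PF))
  have a1 := mp_reorder2 (P0 G) UU2 (iidLaw G) (UU.prod UU) (UU.prod UU)
  have a7 := mp_assoc' (P0 G) (UU.prod UU) PF
  exact a7.comp (a6.comp a1)

/-- observables: functions of `θ`, the environment, `φ` and `(η, φ₁)` -/
abbrev Ob : Type := ℝ × ℝ → Environment → ℝ × ℝ → (ℝ × ℝ) × (ℝ × ℝ) → ℝ

/-- joint measurability -/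
def Ob.Meas (f : Ob) : Prop :=
  Measurable fun q : RowS × ((ℝ × ℝ) × (ℝ × ℝ)) => f q.1.1.1 q.1.1.2 q.1.2 q.2

/-- value of an observable at the outer row `p` and the fresh variables `r` -/
noncomputable def Ob.ev (f : Ob) (h : Hwy F) (d : ℝ × ℝ) (p r : RowS) : ℝ :=
  f p.1.1 (cenv h d p r) p.2 (r.1.1, r.2)

lemma Ob.Meas.ev {f : Ob} (hf : f.Meas) (h : Hwy F) (d : ℝ × ℝ) :
    Measurable fun x : RowS × RowS => f.ev h d x.1 x.2 :=
  hf.comp (mp_joint (G := Measure.dirac 0) h d).measurable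





/-! ### Law of the inner row given the outer row -/

/-- periodicity of the mean of an invariant function -/
lemma lintegral_inv_periodic {f : ℝ × ℝ → Environment → ℝ × ℝ → ℝ≥0∞}
    (hf : Measurable fun q : RowS => f q.1.1 q.1.2 q.2) (hinv : ∀ φ, Inv fun θ t => f θ t φ)
    (m : ℤ × ℤ) (θ : ℝ × ℝ) :
    ∫⁻ t, ∫⁻ φ, f (θ + toR m) t φ ∂(UU.prod UU) ∂(iidLaw G) =
      ∫⁻ t, ∫⁻ φ, f θ t φ ∂(UU.prod UU) ∂(iidLaw G) := by
  have hm : Measurable fun t : Environment => ∫⁻ φ, f (θ + toR m) t φ ∂(UU.prod UU) := by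
    have : Measurable fun q : Environment × (ℝ × ℝ) => f (θ + toR m) q.1 q.2 :=
      hf.comp ((measurable_const.prodMk measurable_fst).prodMk measurable_snd)
    exact this.lintegral_prod_right'
  rw [← (mp_act (G := G) (tr m)).lintegral_comp hm]
  refine lintegral_congr fun t => lintegral_congr fun φ => hinv φ m θ t

/-- **the inner row has law `PR G` given the outer row** -/
theorem inner_law (h : Hwy F) (d : ℝ × ℝ) {f : ℝ × ℝ → Environment → ℝ × ℝ → ℝ≥0∞}
    (hf : Measurable fun q : RowS => f q.1.1 q.1.2 q.2) (hinv : ∀ φ, Inv fun θ t => f θ t φ)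
    {E : ℝ × ℝ → Set (Sym2 (ℤ × ℤ))} (hloc : ∀ θ φ, DependsOn (fun t => f θ t φ) (E θ))
    (v : ℝ × ℝ) (p : RowS)
    (hdisj : ∀ η ∈ Set.Ico (0 : ℝ) 1 ×ˢ Set.Ico (0 : ℝ) 1,
      Disjoint (V.E0 h d p.1.1) (E (p.1.1 - (v + η)))) :
    ∫⁻ r, f (p.1.1 - (v + r.1.1)) (cenv h d p r) r.2 ∂(PR G) = ∫⁻ q, f q.1.1 q.1.2 q.2 ∂(PR G) := by
  have e0 : (PR G) = (UU2.prod (iidLaw G)).prod (UU.prod UU) := rfl
  -- locality
  have e1 : ∫⁻ r, f (p.1.1 - (v + r.1.1)) (cenv h d p r) r.2 ∂(PR G) =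
      ∫⁻ r, f (p.1.1 - (v + r.1.1)) r.1.2 r.2 ∂(PR G) := by
    apply lintegral_congr_ae
    have h1 : ∀ᵐ r ∂(PR G), r.1.1 ∈ Set.Ico (0 : ℝ) 1 ×ˢ Set.Ico (0 : ℝ) 1 := by
      have h2 : ∀ᵐ x ∂(UU2.prod (iidLaw G)), x.1 ∈ Set.Ico (0 : ℝ) 1 ×ˢ Set.Ico (0 : ℝ) 1 :=
        Measure.quasiMeasurePreserving_fst.ae ae_UU2
      exact Measure.quasiMeasurePreserving_fst.ae h2
    filter_upwards [h1] with r hr
    refine hloc _ _ fun e he => ?_
    have hd := hdisj _ hr
    exact V.glue_of_notMem (fun h' => Set.disjoint_left.1 hd h' he) _ _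
  rw [e1]
  have hm1 : Measurable fun q : (ℝ × ℝ) × Environment =>
      ∫⁻ φ, f q.1 q.2 φ ∂(UU.prod UU) := hf.lintegral_prod_right'
  have e2 : ∫⁻ q, f q.1.1 q.1.2 q.2 ∂(PR G) =
      ∫⁻ θ, ∫⁻ t, ∫⁻ φ, f θ t φ ∂(UU.prod UU) ∂(iidLaw G) ∂UU2 := by
    rw [e0, lintegral_prod _ hf.aemeasurable, lintegral_prod _ hm1.aemeasurable]
  have hf' : Measurable fun r : RowS => f (p.1.1 - (v + r.1.1)) r.1.2 r.2 :=
    hf.comp ((((measurable_fst.fst.const_add v).const_sub p.1.1).prodMk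
      measurable_fst.snd).prodMk measurable_snd)
  have hm2 : Measurable fun q : (ℝ × ℝ) × Environment =>
      ∫⁻ φ, f (p.1.1 - (v + q.1)) q.2 φ ∂(UU.prod UU) := hf'.lintegral_prod_right'
  have e3 : ∫⁻ r, f (p.1.1 - (v + r.1.1)) r.1.2 r.2 ∂(PR G) =
      ∫⁻ η, ∫⁻ t, ∫⁻ φ, f (p.1.1 - (v + η)) t φ ∂(UU.prod UU) ∂(iidLaw G) ∂UU2 := by
    rw [e0, lintegral_prod _ hf'.aemeasurable, lintegral_prod _ hm2.aemeasurable]
  rw [e2, e3]
  have hF : Measurable fun θ : ℝ × ℝ => ∫⁻ t, ∫⁻ φ, f θ t φ ∂(UU.prod UU) ∂(iidLaw G) :=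
    hm1.lintegral_prod_right'
  have hJ := J69.lintegral_jitter hF (fun m θ => lintegral_inv_periodic hf hinv m θ) (p.1.1 - v)
  rw [← hJ]
  refine lintegral_congr fun η => ?_
  rw [show p.1.1 - (v + η) = p.1.1 - v - η by abel]

/-- probability form -/
theorem inner_prob (h : Hwy F) (d : ℝ × ℝ) {f : ℝ × ℝ → Environment → ℝ × ℝ → ℝ}
    (hf : Measurable fun q : RowS => f q.1.1 q.1.2 q.2) (hinv : ∀ φ, Inv fun θ t => f θ t φ)
    {E : ℝ × ℝ → Set (Sym2 (ℤ × ℤ))} (hloc : ∀ θ φ, DependsOn (fun t => f θ t φ) (E θ))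
    (v : ℝ × ℝ) (p : RowS)
    (hdisj : ∀ η ∈ Set.Ico (0 : ℝ) 1 ×ˢ Set.Ico (0 : ℝ) 1,
      Disjoint (V.E0 h d p.1.1) (E (p.1.1 - (v + η)))) {B : Set ℝ} (hB : MeasurableSet B) :
    (PR G).real {r | f (p.1.1 - (v + r.1.1)) (cenv h d p r) r.2 ∈ B} =
      (PR G).real {q | f q.1.1 q.1.2 q.2 ∈ B} := by
  have hm : Measurable (B.indicator (1 : ℝ → ℝ≥0∞)) := measurable_one.indicator hB
  have key := inner_law (G := G) h d (f := fun θ t φ => B.indicator (1 : ℝ → ℝ≥0∞) (f θ t φ))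
    (hm.comp hf) (fun φ m θ t => by
      exact congrArg (B.indicator (1 : ℝ → ℝ≥0∞)) (hinv φ m θ t)) (E := E) (fun θ φ t t' htt => by
      exact congrArg (B.indicator (1 : ℝ → ℝ≥0∞)) (hloc θ φ htt)) v p hdisj
  unfold Measure.real
  congr 1
  have hf1 : Measurable fun r : RowS => f (p.1.1 - (v + r.1.1)) (cenv h d p r) r.2 :=
    hf.comp ((((measurable_fst.fst.const_add v).const_sub p.1.1).prodMk
      (measurable_cenv h d measurable_const measurable_id)).prodMk measurable_snd)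
  have s1 : MeasurableSet {r : RowS | f (p.1.1 - (v + r.1.1)) (cenv h d p r) r.2 ∈ B} := hf1 hB
  have s2 : MeasurableSet {q : RowS | f q.1.1 q.1.2 q.2 ∈ B} := hf hB
  rw [← lintegral_indicator_one s1, ← lintegral_indicator_one s2]
  exact key

end Q

end Crest.Agent.R151
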