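import Crest.Agent.R151.G338a

/-!
R151, S0214 part 2, section 7: small balls and tails of `R#` for a fixed typical strip environment.

`Y = R(i → j) + gauge - ρ_S` has a log-concave survival function, `Sh = R# = Y - D`,
`D = R(-L → L) - ρ_S`.
-/

set_option autoImplicit false

open MeasureTheory ProbabilityTheory Set

namespace Crest.Agent.R151.G338

variable {Ω : Type*} [MeasurableSpace Ω] {μ : Measure Ω} [IsProbabilityMeasure μ]



theorem real_mono_ae {s t : Set Ω} (h : ∀ᵐ ω ∂μ, ω ∈ s → ω ∈ t) : μ.real s ≤ μ.real t :=
  ENNReal.toReal_mono (measure_ne_top μ t) (measure_mono_ae h)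








end Crest.Agent.R151.G338
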