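import Crest.Agent.R151.M56d
import Crest.Agent.R151.G338k
import Crest.Agent.R151.G338l

-- ▼ part R151/U450m
section

/-!
# R151 / S0214 part 2, U450m — random displacements (helper450)

For `v : Ψ → ℝ × ℝ` measurable, the map `(p, ψ) ↦ (S (v ψ) p, ψ)` preserves `(P0 G).prod ν`
(`mp_skewS`), so in a lattice invariant function the offset may be moved by a random vector which
depends on the other variables (`skew_integrable`, `skew_integral`).  `gY_off`: integrability and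
`0 ≤ E` for the full plane kernel whose displacement depends on the extra variables.
-/

set_option autoImplicit false

open MeasureTheory Filter ProbabilityTheory Topology
open Crest.ProbabilityR.FirstPassage

namespace Crest.Agent.R151.M1

open Crest.Agent.R151.K Crest.Agent.R151.Q
open M56 (nu Rx measurable_x norm_x phi_diff gY_eq)
open M192 (RowS PR)
open B710 (FlatData)

/-! ### The random shift -/

section skew

variable {Ψ : Type*} [MeasurableSpace Ψ] {ν : Measure Ψ} [IsProbabilityMeasure ν]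
  {G : Measure ℝ} [IsProbabilityMeasure G] {v : Ψ → ℝ × ℝ}

lemma measurable_S_var (hv : Measurable v) :
    Measurable fun q : Ψ × ((ℝ × ℝ) × Environment) => S (v q.1) q.2 := by
  unfold S
  have h1 : Measurable fun q : Ψ × ((ℝ × ℝ) × Environment) => q.2.1 + v q.1 :=
    measurable_snd.fst.add (hv.comp measurable_fst)
  have h2 : Measurable frac2 := by
    unfold frac2
    exact (measurable_fract.comp measurable_fst).prodMk (measurable_fract.comp measurable_snd)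
  refine (h2.comp h1).prodMk ?_
  have h3 : Measurable fun q : Ψ × ((ℝ × ℝ) × Environment) =>
      (-flo2 (q.2.1 + v q.1), q.2.2) := (measurable_flo2.comp h1).neg.prodMk measurable_snd.snd
  exact measurable_act_tr.comp h3

/-- the random shift preserves the law -/
theorem mp_skewS (hv : Measurable v) : MeasurePreserving
    (fun q : ((ℝ × ℝ) × Environment) × Ψ => (S (v q.2) q.1, q.2)) ((P0 G).prod ν)
    ((P0 G).prod ν) := by
  have h1 : MeasurePreserving (fun q : Ψ × ((ℝ × ℝ) × Environment) => (q.1, S (v q.1) q.2))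
      (ν.prod (P0 G)) (ν.prod (P0 G)) := by
    refine MeasurePreserving.skew_product (g := fun (x : Ψ) (p : (ℝ × ℝ) × Environment) =>
      S (v x) p) (MeasurePreserving.id ν) (measurable_S_var hv) ?_
    exact ae_of_all _ fun x => (mp_S (G := G) (v x)).map_eq
  have h2 : MeasurePreserving (Prod.swap : ((ℝ × ℝ) × Environment) × Ψ → _) ((P0 G).prod ν)
      (ν.prod (P0 G)) := Measure.measurePreserving_swap
  have h3 : MeasurePreserving (Prod.swap : Ψ × ((ℝ × ℝ) × Environment) → _) (ν.prod (P0 G))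
      ((P0 G).prod ν) := Measure.measurePreserving_swap
  exact h3.comp (h1.comp h2)

variable {f : ℝ × ℝ → Environment → Ψ → ℝ}

theorem skew_integrable (hf : ∀ ψ, Inv fun θ t => f θ t ψ) (hv : Measurable v)
    (hi : Integrable (fun q : ((ℝ × ℝ) × Environment) × Ψ => f q.1.1 q.1.2 q.2)
      ((P0 G).prod ν)) :
    Integrable (fun q : ((ℝ × ℝ) × Environment) × Ψ => f (q.1.1 + v q.2) q.1.2 q.2)
      ((P0 G).prod ν) := by
  refine ((mp_skewS (G := G) (ν := ν) hv).integrable_comp_of_integrable hi).congr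
    (ae_of_all _ fun q => ?_)
  exact ((hf q.2).shift (v q.2) q.1).symm

theorem skew_integral (hf : ∀ ψ, Inv fun θ t => f θ t ψ) (hv : Measurable v)
    (hi : Integrable (fun q : ((ℝ × ℝ) × Environment) × Ψ => f q.1.1 q.1.2 q.2)
      ((P0 G).prod ν)) :
    ∫ q, f (q.1.1 + v q.2) q.1.2 q.2 ∂((P0 G).prod ν) =
      ∫ q, f q.1.1 q.1.2 q.2 ∂((P0 G).prod ν) := by
  rw [← mp_integral (mp_skewS (G := G) (ν := ν) hv) hi.aestronglyMeasurable]
  refine integral_congr_ae (ae_of_all _ fun q => ?_)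
  exact (hf q.2).shift (v q.2) q.1

end skew

/-! ### Means of kernels with an independent random displacement -/

variable {μ : ℝ × ℝ → ℝ} {F : FlatData μ} {h : Hwy F} {G : Measure ℝ} [IsProbabilityMeasure G]

/-- a measurable displacement bounded on the unit square may be assumed to be bounded -/
lemma frac2_mem (η : ℝ × ℝ) : frac2 η ∈ Set.Ico (0 : ℝ) 1 ×ˢ Set.Ico (0 : ℝ) 1 :=
  ⟨⟨Int.fract_nonneg _, Int.fract_lt_one _⟩, ⟨Int.fract_nonneg _, Int.fract_lt_one _⟩⟩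

lemma frac2_of_mem {η : ℝ × ℝ} (hη : η ∈ Set.Ico (0 : ℝ) 1 ×ˢ Set.Ico (0 : ℝ) 1) :
    frac2 η = η := by
  obtain ⟨h1, h2⟩ := hη
  unfold frac2
  rw [Int.fract_eq_self.2 h1, Int.fract_eq_self.2 h2]

lemma measurable_frac2 : Measurable frac2 := by
  unfold frac2
  exact (measurable_fract.comp measurable_fst).prodMk (measurable_fract.comp measurable_snd)

section gY

variable (h0 : G (Set.Iio 0) = 0) (h2 : Integrable (fun x : ℝ => x ^ 2) G)
include h0 h2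

/-- integrability of the full plane kernel with a bounded random displacement -/
theorem gY_off_integrable {Ψ : Type*} [MeasurableSpace Ψ] {ν : Measure Ψ} [IsProbabilityMeasure ν]
    {D : Ψ → ℝ × ℝ} {φ : Ψ → ℝ × ℝ} (hD : Measurable D) (hφ : Measurable φ) {B : ℝ}
    (hB : ∀ ψ, ‖D ψ‖ ≤ B) (s s' : ℝ) :
    Integrable (fun q : ((ℝ × ℝ) × Environment) × Ψ => h.gY (D q.2) s s' q.1.1 q.1.2 (φ q.2))
      ((P0 G).prod ν) := by
  have mx : Measurable fun q : ((ℝ × ℝ) × Environment) × Ψ =>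
      h.x s (φ q.2).1 q.1.1 q.1.2 :=
    measurable_x h (hφ.comp measurable_snd).fst (by fun_prop) (by fun_prop) s
  have my : Measurable fun q : ((ℝ × ℝ) × Environment) × Ψ =>
      h.x s' (φ q.2).2 (q.1.1 - D q.2) q.1.2 :=
    measurable_x h (hφ.comp measurable_snd).snd
      (measurable_fst.fst.sub (hD.comp measurable_snd)) (by fun_prop) s'
  have i1 : Integrable (fun q : ((ℝ × ℝ) × Environment) × Ψ =>
      passageTime q.1.2 (h.x s (φ q.2).1 q.1.1 q.1.2)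
        (h.x s' (φ q.2).2 (q.1.1 - D q.2) q.1.2)) ((P0 G).prod ν) := by
    refine integrable_ptX h0 h2 (v := 0) (v' := 0) (R := Rx h s) (R' := Rx h s' + B) mx my ?_ ?_
    · intro q; rw [sub_zero]; exact norm_x h _ _ _ _
    · intro q
      have e : pos (q.1.1 - 0) (h.x s' (φ q.2).2 (q.1.1 - D q.2) q.1.2) =
          pos (q.1.1 - D q.2) (h.x s' (φ q.2).2 (q.1.1 - D q.2) q.1.2) + D q.2 := by
        unfold pos; abel
      rw [e]
      exact (norm_add_le _ _).trans (add_le_add (norm_x h _ _ _ _) (hB _))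
  have hphi : Measurable (phi F) := measurable_of_countable _
  have i2 : Integrable (fun q : ((ℝ × ℝ) × Environment) × Ψ =>
      phi F (h.x s' (φ q.2).2 (q.1.1 - D q.2) q.1.2) -
        phi F (h.x s (φ q.2).1 q.1.1 q.1.2)) ((P0 G).prod ν) := by
    refine Integrable.of_bound ((hphi.comp my).sub (hphi.comp mx)).aestronglyMeasurable
      (‖F.ρ‖ * Rx h s' + ‖F.ρ‖ * Rx h s + ‖F.ρ‖ * B) (ae_of_all _ fun q => ?_)
    rw [phi_diff (D q.2) q.1.1, Real.norm_eq_abs]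
    refine (abs_add_le _ _).trans (add_le_add ((abs_sub _ _).trans (add_le_add ?_ ?_)) ?_)
    · exact (F.ρ.le_opNorm _).trans (mul_le_mul_of_nonneg_left (norm_x h _ _ _ _) (norm_nonneg _))
    · exact (F.ρ.le_opNorm _).trans (mul_le_mul_of_nonneg_left (norm_x h _ _ _ _) (norm_nonneg _))
    · exact (F.ρ.le_opNorm _).trans (mul_le_mul_of_nonneg_left (hB _) (norm_nonneg _))
  exact i1.sub i2

/-- `E gY ≥ 0` for an independent bounded random displacement and independent phases -/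
theorem gY_off_nonneg {Ψ : Type*} [MeasurableSpace Ψ] {ν : Measure Ψ} [IsProbabilityMeasure ν]
    (hμ : IsTC G μ) {D : Ψ → ℝ × ℝ} (hD : Measurable D) {B : ℝ} (hB : ∀ ψ, ‖D ψ‖ ≤ B)
    (s s' : ℝ) :
    0 ≤ ∫ q, h.gY (D q.2.1) s s' q.1.1 q.1.2 q.2.2
      ∂((P0 G).prod (ν.prod (UU.prod UU))) := by
  have hi := gY_off_integrable (h := h) (G := G) (ν := ν.prod (UU.prod UU)) h0 h2
    (D := fun ψ => D ψ.1) (φ := fun ψ => ψ.2) (hD.comp measurable_fst) measurable_snd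
    (B := B) (fun ψ => hB _) s s'
  have hmp : MeasurePreserving (fun x : Ψ × (((ℝ × ℝ) × Environment) × (ℝ × ℝ)) =>
      (x.2.1, (x.1, x.2.2))) (ν.prod (nu G)) ((P0 G).prod (ν.prod (UU.prod UU))) :=
    mp_lcomm ν (P0 G) (UU.prod UU)
  rw [← mp_integral hmp hi.aestronglyMeasurable]
  have e := integral_prod _ (hmp.integrable_comp_of_integrable hi)
  refine le_trans ?_ (le_of_eq e.symm)
  refine integral_nonneg fun ψ => ?_
  exact M56.gY_nonneg h h0 h2 hμ (D ψ) s s'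

end gY

end Crest.Agent.R151.M1
end

-- ▼ part R151/U450n
section

/-!
# R151 / S0214 part 2, U450n — the mean of the gauge difference `K0` (M1) (helper450)

`K0_mean`: `q ↦ K0 (off η) dI dO J L θ t φ φ₁` is integrable over `(PR G).prod PF` and
`E |K0| ≤ E hkY dO J (-L) L + 4 L ε`.
-/

set_option autoImplicit false

open MeasureTheory Filter ProbabilityTheory Topology
open Crest.ProbabilityR.FirstPassage

namespace Crest.Agent.R151.M1

open Crest.Agent.R151.K Crest.Agent.R151.Q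
open R78 (hc hp hull routes hullY ptY gapK)
open M56 (nu Rx measurable_x norm_x phi_diff gY_eq mg)
open M192 (RowS PR)
open B710 (FlatData)

variable {μ : ℝ × ℝ → ℝ} {F : FlatData μ}

/-- the gauge difference in terms of excesses -/
theorem K0_eq_Y (h : Hwy F) (off dI dO : ℝ × ℝ) (J : Set ℝ) (L : ℝ) (θ : ℝ × ℝ) (t : Environment)
    (φ φ₁ : ℝ × ℝ) : h.K0 off dI dO J L θ t φ φ₁ =
      h.gY off (-L) L θ t (Hwy.φlo φ φ₁) + h.hkY dI Set.univ (-L) L (θ - off) t φ₁ +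
        h.gY (Hwy.dU off dI dO) (-L) L (θ - off - dI) t (Hwy.φup φ φ₁) -
        h.hkY dO J (-L) L θ t φ - h.Y (-L) L φ₁.1 (θ - off) t -
        h.Y (-L) L φ₁.2 (θ - off - dI) t := by
  unfold Hwy.K0 Hwy.gK Hwy.gY Hwy.hkY Hwy.hk
  rw [Hwy.Lo_up_gap, Hwy.iU_up_gap]
  unfold gapK ptY hullY Hwy.Y Hwy.Lo Hwy.Up Hwy.iL Hwy.iU Hwy.φlo Hwy.φup hp
  simp only
  ring

/-- six terms -/
lemma six {Ω : Type*} [MeasurableSpace Ω] {P : Measure Ω} {f1 f2 f3 f4 f5 f6 : Ω → ℝ}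
    (i1 : Integrable f1 P) (i2 : Integrable f2 P) (i3 : Integrable f3 P) (i4 : Integrable f4 P)
    (i5 : Integrable f5 P) (i6 : Integrable f6 P) :
    Integrable (fun q => f1 q + f2 q + f3 q - f4 q - f5 q - f6 q) P ∧
    ∫ q, (f1 q + f2 q + f3 q - f4 q - f5 q - f6 q) ∂P =
      ∫ q, f1 q ∂P + ∫ q, f2 q ∂P + ∫ q, f3 q ∂P - ∫ q, f4 q ∂P - ∫ q, f5 q ∂P -
        ∫ q, f6 q ∂P := by
  have i12 : Integrable (fun q => f1 q + f2 q) P := i1.add i2
  have i13 : Integrable (fun q => f1 q + f2 q + f3 q) P := i12.add i3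
  have i14 : Integrable (fun q => f1 q + f2 q + f3 q - f4 q) P := i13.sub i4
  have i15 : Integrable (fun q => f1 q + f2 q + f3 q - f4 q - f5 q) P := i14.sub i5
  refine ⟨i15.sub i6, ?_⟩
  rw [integral_sub i15 i6, integral_sub i14 i5, integral_sub i13 i4, integral_add i12 i3,
    integral_add i1 i2]

/-! ### The parameter space `(φ, (η, φ₁))` -/

/-- phases of the outer row, jitter, phases of the inner row -/
abbrev PS : Type := (ℝ × ℝ) × ((ℝ × ℝ) × (ℝ × ℝ))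

/-- law of the parameters -/
noncomputable def muS : Measure PS := (UU.prod UU).prod PF

instance : IsProbabilityMeasure muS := by unfold muS; infer_instance

variable {G : Measure ℝ} [IsProbabilityMeasure G]

lemma mp_q : MeasurePreserving (fun x : RowS × ((ℝ × ℝ) × (ℝ × ℝ)) => (x.1.1, (x.1.2, x.2)))
    ((PR G).prod PF) ((P0 G).prod muS) := mp_assoc (P0 G) (UU.prod UU) PF

/-- law of jitter and the phases of the lower gap -/
lemma mp_lo' : MeasurePreserving (fun ψ : PS => (ψ.2.1, Hwy.φlo ψ.1 ψ.2.2)) muS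
    (UU2.prod (UU.prod UU)) := by
  have h1 : MeasurePreserving (Prod.map Prod.fst (Prod.map id Prod.fst)) muS
      (UU.prod (UU2.prod UU)) :=
    measurePreserving_fst.prod ((MeasurePreserving.id UU2).prod measurePreserving_fst)
  exact (mp_lcomm UU UU2 UU).comp h1

/-- law of jitter and the phases of the upper gap -/
lemma mp_up' : MeasurePreserving (fun ψ : PS => (ψ.2.1, Hwy.φup ψ.1 ψ.2.2)) muS
    (UU2.prod (UU.prod UU)) := by
  have h1 : MeasurePreserving (Prod.map Prod.snd (Prod.map id Prod.snd)) muS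
      (UU.prod (UU2.prod UU)) :=
    measurePreserving_snd.prod ((MeasurePreserving.id UU2).prod measurePreserving_snd)
  have h2 : MeasurePreserving (Prod.map id Prod.swap : (ℝ × ℝ) × (ℝ × ℝ) → _)
      (UU2.prod (UU.prod UU)) (UU2.prod (UU.prod UU)) :=
    (MeasurePreserving.id UU2).prod Measure.measurePreserving_swap
  exact h2.comp ((mp_lcomm UU UU2 UU).comp h1)

/-- a function of the offset, the environment and the inner phases, offset moved -/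
lemma inner_term {g : ℝ × ℝ → Environment → ℝ × ℝ → ℝ} (hg : ∀ φ, Inv fun θ t => g θ t φ)
    (hi : Integrable (fun q : ((ℝ × ℝ) × Environment) × (ℝ × ℝ) => g q.1.1 q.1.2 q.2) (nu G))
    {v : PS → ℝ × ℝ} (hv : Measurable v) :
    Integrable (fun q : ((ℝ × ℝ) × Environment) × PS => g (q.1.1 - v q.2) q.1.2 q.2.2.2)
      ((P0 G).prod muS) ∧
    ∫ q, g (q.1.1 - v q.2) q.1.2 q.2.2.2 ∂((P0 G).prod muS) =
      ∫ q, g q.1.1 q.1.2 q.2 ∂(nu G) := by
  have hp : MeasurePreserving (Prod.map (id : (ℝ × ℝ) × Environment → _)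
      (fun ψ : PS => ψ.2.2)) ((P0 G).prod muS) (nu G) :=
    (MeasurePreserving.id _).prod
      ((measurePreserving_snd (μ := UU2) (ν := UU.prod UU)).comp
        (measurePreserving_snd (μ := UU.prod UU) (ν := PF)))
  have i1 : Integrable (fun q : ((ℝ × ℝ) × Environment) × PS => g q.1.1 q.1.2 q.2.2.2)
      ((P0 G).prod muS) := hp.integrable_comp_of_integrable hi
  have i2 := skew_integrable (f := fun θ t (ψ : PS) => g θ t ψ.2.2) (fun ψ => hg _) hv.neg i1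
  have e2 := skew_integral (f := fun θ t (ψ : PS) => g θ t ψ.2.2) (fun ψ => hg _) hv.neg i1
  simp only [Pi.neg_apply, ← sub_eq_add_neg] at i2 e2
  refine ⟨i2, e2.trans ?_⟩
  rw [← mp_integral hp hi.aestronglyMeasurable]
  rfl

section main

variable {h : Hwy F} (h0 : G (Set.Iio 0) = 0) (h2 : Integrable (fun x : ℝ => x ^ 2) G)
include h0 h2

/-- full plane kernel between an outer and an inner highway: lower gap -/
lemma gap_lo {D : ℝ × ℝ → ℝ × ℝ} (hD : Measurable D) {B : ℝ} (hB : ∀ η, ‖D η‖ ≤ B) (hμ : IsTC G μ)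
    (s s' : ℝ) {v : PS → ℝ × ℝ} (hv : Measurable v) :
    Integrable (fun q : ((ℝ × ℝ) × Environment) × PS =>
      h.gY (D q.2.2.1) s s' (q.1.1 - v q.2) q.1.2 (Hwy.φlo q.2.1 q.2.2.2)) ((P0 G).prod muS) ∧
    0 ≤ ∫ q, h.gY (D q.2.2.1) s s' (q.1.1 - v q.2) q.1.2 (Hwy.φlo q.2.1 q.2.2.2)
      ∂((P0 G).prod muS) := by
  have hp : MeasurePreserving (Prod.map (id : (ℝ × ℝ) × Environment → _)
      (fun ψ : PS => (ψ.2.1, Hwy.φlo ψ.1 ψ.2.2))) ((P0 G).prod muS)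
      ((P0 G).prod (UU2.prod (UU.prod UU))) := (MeasurePreserving.id _).prod mp_lo'
  have hi := gY_off_integrable (h := h) (G := G) (ν := UU2.prod (UU.prod UU)) h0 h2
    (D := fun ψ => D ψ.1) (φ := fun ψ => ψ.2) (hD.comp measurable_fst) measurable_snd
    (B := B) (fun ψ => hB _) s s'
  have hn := gY_off_nonneg (h := h) (G := G) (ν := UU2) h0 h2 hμ hD hB s s'
  have i1 : Integrable (fun q : ((ℝ × ℝ) × Environment) × PS =>
      h.gY (D q.2.2.1) s s' q.1.1 q.1.2 (Hwy.φlo q.2.1 q.2.2.2)) ((P0 G).prod muS) :=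
    hp.integrable_comp_of_integrable hi
  have i2 := skew_integrable (f := fun θ t (ψ : PS) =>
    h.gY (D ψ.2.1) s s' θ t (Hwy.φlo ψ.1 ψ.2.2)) (fun ψ => h.gY_inv _ _ _ _) hv.neg i1
  have e2 := skew_integral (f := fun θ t (ψ : PS) =>
    h.gY (D ψ.2.1) s s' θ t (Hwy.φlo ψ.1 ψ.2.2)) (fun ψ => h.gY_inv _ _ _ _) hv.neg i1
  simp only [Pi.neg_apply, ← sub_eq_add_neg] at i2 e2
  refine ⟨i2, ?_⟩
  rw [e2]
  refine hn.trans (le_of_eq ?_)
  rw [← mp_integral hp hi.aestronglyMeasurable]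
  rfl

/-- full plane kernel between an inner and an outer highway: upper gap -/
lemma gap_up {D : ℝ × ℝ → ℝ × ℝ} (hD : Measurable D) {B : ℝ} (hB : ∀ η, ‖D η‖ ≤ B) (hμ : IsTC G μ)
    (s s' : ℝ) {v : PS → ℝ × ℝ} (hv : Measurable v) :
    Integrable (fun q : ((ℝ × ℝ) × Environment) × PS =>
      h.gY (D q.2.2.1) s s' (q.1.1 - v q.2) q.1.2 (Hwy.φup q.2.1 q.2.2.2)) ((P0 G).prod muS) ∧
    0 ≤ ∫ q, h.gY (D q.2.2.1) s s' (q.1.1 - v q.2) q.1.2 (Hwy.φup q.2.1 q.2.2.2)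
      ∂((P0 G).prod muS) := by
  have hp : MeasurePreserving (Prod.map (id : (ℝ × ℝ) × Environment → _)
      (fun ψ : PS => (ψ.2.1, Hwy.φup ψ.1 ψ.2.2))) ((P0 G).prod muS)
      ((P0 G).prod (UU2.prod (UU.prod UU))) := (MeasurePreserving.id _).prod mp_up'
  have hi := gY_off_integrable (h := h) (G := G) (ν := UU2.prod (UU.prod UU)) h0 h2
    (D := fun ψ => D ψ.1) (φ := fun ψ => ψ.2) (hD.comp measurable_fst) measurable_snd
    (B := B) (fun ψ => hB _) s s'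
  have hn := gY_off_nonneg (h := h) (G := G) (ν := UU2) h0 h2 hμ hD hB s s'
  have i1 : Integrable (fun q : ((ℝ × ℝ) × Environment) × PS =>
      h.gY (D q.2.2.1) s s' q.1.1 q.1.2 (Hwy.φup q.2.1 q.2.2.2)) ((P0 G).prod muS) :=
    hp.integrable_comp_of_integrable hi
  have i2 := skew_integrable (f := fun θ t (ψ : PS) =>
    h.gY (D ψ.2.1) s s' θ t (Hwy.φup ψ.1 ψ.2.2)) (fun ψ => h.gY_inv _ _ _ _) hv.neg i1
  have e2 := skew_integral (f := fun θ t (ψ : PS) =>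
    h.gY (D ψ.2.1) s s' θ t (Hwy.φup ψ.1 ψ.2.2)) (fun ψ => h.gY_inv _ _ _ _) hv.neg i1
  simp only [Pi.neg_apply, ← sub_eq_add_neg] at i2 e2
  refine ⟨i2, ?_⟩
  rw [e2]
  refine hn.trans (le_of_eq ?_)
  rw [← mp_integral hp hi.aestronglyMeasurable]
  rfl

/-- the mean of the gauge difference, abstract form (bounded displacement, integrability of the
hull kernels as hypotheses) -/
theorem K0_mean_abs {ε : ℝ} (hM : HwyMean G h ε) (hμ : IsTC G μ) {off : ℝ × ℝ → ℝ × ℝ}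
    (hoff : Measurable off) {B : ℝ} (hB : ∀ η, ‖off η‖ ≤ B) {dI dO : ℝ × ℝ} {L : ℝ} {J : Set ℝ}
    (hI : Integrable (fun q : ((ℝ × ℝ) × Environment) × (ℝ × ℝ) =>
      h.hkY dI Set.univ (-L) L q.1.1 q.1.2 q.2) (nu G))
    (hI0 : 0 ≤ ∫ q, h.hkY dI Set.univ (-L) L q.1.1 q.1.2 q.2 ∂(nu G))
    (hO : Integrable (fun q : ((ℝ × ℝ) × Environment) × (ℝ × ℝ) =>
      h.hkY dO J (-L) L q.1.1 q.1.2 q.2) (nu G)) :
    Integrable (fun q : RowS × ((ℝ × ℝ) × (ℝ × ℝ)) =>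
      h.K0 (off q.2.1) dI dO J L q.1.1.1 q.1.1.2 q.1.2 q.2.2) ((PR G).prod PF) ∧
    -∫ q, h.K0 (off q.2.1) dI dO J L q.1.1.1 q.1.1.2 q.1.2 q.2.2 ∂((PR G).prod PF) ≤
      ∫ q, h.hkY dO J (-L) L q.1.1 q.1.2 q.2 ∂(nu G) + 4 * L * ε := by
  have hv1 : Measurable fun ψ : PS => off ψ.2.1 := hoff.comp measurable_snd.fst
  have hv2 : Measurable fun ψ : PS => off ψ.2.1 + dI := hv1.add_const dI
  -- the six terms
  obtain ⟨a1, b1⟩ := gap_lo (h := h) h0 h2 hoff hB hμ (-L) L (v := fun _ => 0) measurable_const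
  obtain ⟨a2, b2⟩ := inner_term (G := G) (g := fun θ t φ => h.hkY dI Set.univ (-L) L θ t φ)
    (fun φ => h.hkY_inv _ _ _ _ _) hI hv1
  obtain ⟨a3, b3⟩ := gap_up (h := h) h0 h2 (D := fun η => Hwy.dU (off η) dI dO)
    ((hoff.const_sub dO).sub_const dI) (B := ‖dO‖ + B + ‖dI‖) (fun η => by
      unfold Hwy.dU
      refine (norm_sub_le _ _).trans (add_le_add ((norm_sub_le _ _).trans ?_) le_rfl)
      exact add_le_add le_rfl (hB η)) hμ (-L) L hv2
  have hp : MeasurePreserving (Prod.map (id : (ℝ × ℝ) × Environment → _)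
      (fun ψ : PS => ψ.1)) ((P0 G).prod muS) (nu G) :=
    (MeasurePreserving.id _).prod (measurePreserving_fst (μ := UU.prod UU) (ν := PF))
  have a4 : Integrable (fun q : ((ℝ × ℝ) × Environment) × PS =>
      h.hkY dO J (-L) L q.1.1 q.1.2 q.2.1) ((P0 G).prod muS) := hp.integrable_comp_of_integrable hO
  have b4 : ∫ q, h.hkY dO J (-L) L q.1.1 q.1.2 q.2.1 ∂((P0 G).prod muS) =
      ∫ q, h.hkY dO J (-L) L q.1.1 q.1.2 q.2 ∂(nu G) := by
    rw [← mp_integral hp hO.aestronglyMeasurable]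
    rfl
  obtain ⟨y1, z1⟩ := M56.Y_lo (G := G) hM (-L) L 0
  obtain ⟨y2, z2⟩ := M56.Y_up (G := G) hM (-L) L 0
  simp only [sub_zero] at y1 z1 y2 z2
  obtain ⟨a5, b5⟩ := inner_term (G := G) (g := fun θ t φ => h.Y (-L) L φ.1 θ t)
    (fun φ => M56.Y_inv h _ _ _) y1 hv1
  obtain ⟨a6, b6⟩ := inner_term (G := G) (g := fun θ t φ => h.Y (-L) L φ.2 θ t)
    (fun φ => M56.Y_inv h _ _ _) y2 hv2
  rw [z1] at b5
  rw [z2] at b6
  simp only [sub_zero] at a1 b1
  simp only [← sub_sub] at a3 b3 a6 b6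
  obtain ⟨i16, e16⟩ := six a1 a2 a3 a4 a5 a6
  have efun : (fun q : ((ℝ × ℝ) × Environment) × PS =>
      h.K0 (off q.2.2.1) dI dO J L q.1.1 q.1.2 q.2.1 q.2.2.2) = fun q =>
      h.gY (off q.2.2.1) (-L) L q.1.1 q.1.2 (Hwy.φlo q.2.1 q.2.2.2) +
        h.hkY dI Set.univ (-L) L (q.1.1 - off q.2.2.1) q.1.2 q.2.2.2 +
        h.gY (Hwy.dU (off q.2.2.1) dI dO) (-L) L (q.1.1 - off q.2.2.1 - dI) q.1.2
          (Hwy.φup q.2.1 q.2.2.2) -
        h.hkY dO J (-L) L q.1.1 q.1.2 q.2.1 - h.Y (-L) L q.2.2.2.1 (q.1.1 - off q.2.2.1) q.1.2 -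
        h.Y (-L) L q.2.2.2.2 (q.1.1 - off q.2.2.1 - dI) q.1.2 := by
    funext q
    exact K0_eq_Y h _ _ _ _ _ _ _ _ _
  have hint : Integrable (fun q : ((ℝ × ℝ) × Environment) × PS =>
      h.K0 (off q.2.2.1) dI dO J L q.1.1 q.1.2 q.2.1 q.2.2.2) ((P0 G).prod muS) := by
    rw [efun]
    exact i16
  refine ⟨(mp_q (G := G)).integrable_comp_of_integrable hint, ?_⟩
  have e1 := mp_integral (mp_q (G := G)) hint.aestronglyMeasurable
  have e2 : ∫ q, h.K0 (off q.2.2.1) dI dO J L q.1.1 q.1.2 q.2.1 q.2.2.2 ∂((P0 G).prod muS) =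
      ∫ q, h.gY (off q.2.2.1) (-L) L q.1.1 q.1.2 (Hwy.φlo q.2.1 q.2.2.2) ∂((P0 G).prod muS) +
      ∫ q, h.hkY dI Set.univ (-L) L (q.1.1 - off q.2.2.1) q.1.2 q.2.2.2 ∂((P0 G).prod muS) +
      ∫ q, h.gY (Hwy.dU (off q.2.2.1) dI dO) (-L) L (q.1.1 - off q.2.2.1 - dI) q.1.2
          (Hwy.φup q.2.1 q.2.2.2) ∂((P0 G).prod muS) -
      ∫ q, h.hkY dO J (-L) L q.1.1 q.1.2 q.2.1 ∂((P0 G).prod muS) -
      ∫ q, h.Y (-L) L q.2.2.2.1 (q.1.1 - off q.2.2.1) q.1.2 ∂((P0 G).prod muS) -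
      ∫ q, h.Y (-L) L q.2.2.2.2 (q.1.1 - off q.2.2.1 - dI) q.1.2 ∂((P0 G).prod muS) := by
    rw [efun]
    exact e16
  have e3 : ∫ q, h.K0 (off q.2.1) dI dO J L q.1.1.1 q.1.1.2 q.1.2 q.2.2 ∂((PR G).prod PF) =
      ∫ q, h.K0 (off q.2.2.1) dI dO J L q.1.1 q.1.2 q.2.1 q.2.2.2 ∂((P0 G).prod muS) := e1
  rw [e3, e2, b4, b5, b6, b2]
  linarith

end main

/-! ### Separation and window: final form -/

lemma off_bound {h : Hwy F} {off dI dO : ℝ × ℝ} {Λ L : ℝ} (hs : h.Sep4 off dI dO)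
    (hw : h.WinC off dI dO Λ L) :
    ‖off‖ ≤ L * ‖F.a‖ + (|F.be dO| + |F.be dI|) * ‖F.b‖ := by
  have h1 := hw.L1
  have h2 := hw.Λ_nonneg
  have h3 := h.κ_nonneg
  have h4 := cF_nonneg F
  have h5 := hs.lo
  have h6 := hs.up
  unfold Hwy.dU at h6
  rw [map_sub, map_sub] at h6
  have h7 := h.wH_nonneg'
  refine (norm_le_coord F off).trans (add_le_add (mul_le_mul_of_nonneg_right ?_ (norm_nonneg _))
    (mul_le_mul_of_nonneg_right ?_ (norm_nonneg _)))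
  · linarith
  · rw [abs_of_nonneg (by linarith)]
    linarith [le_abs_self (F.be dO), neg_abs_le (F.be dI)]

section meas

variable {Ω : Type*} [MeasurableSpace Ω] {θ : Ω → ℝ × ℝ} {t : Ω → Environment} {φ : Ω → ℝ × ℝ}
  {D : Ω → ℝ × ℝ}


end meas


/-- **(M1)** the mean of `|K0|`, routes of the outer row in the window nonempty a.e. -/
theorem K0_mean' {h : Hwy F} (h0 : G (Set.Iio 0) = 0) (h2 : Integrable (fun x : ℝ => x ^ 2) G)
    {ε : ℝ} (hM : HwyMean G h ε) (hμ : IsTC G μ) {off : ℝ × ℝ → ℝ × ℝ} (hoff : Measurable off)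
    {dI dO : ℝ × ℝ} {Λ L : ℝ} {J : Set ℝ}
    (hs : ∀ η ∈ Set.Ico (0 : ℝ) 1 ×ˢ Set.Ico (0 : ℝ) 1, h.Sep4 (off η) dI dO)
    (hw : ∀ η ∈ Set.Ico (0 : ℝ) 1 ×ˢ Set.Ico (0 : ℝ) 1, h.WinC (off η) dI dO Λ L)
    (hJ : ∀ x ∈ J, |x| ≤ Λ)
    (hne : ∀ᵐ q ∂(nu G), (routes q.1.2 (h.Lo q.1.1 q.1.2 q.2) (h.Up dO q.1.1 q.1.2 q.2)
      (rg F J q.1.1) (h.iL (-L) q.1.1 q.1.2 q.2) (h.iU dO L q.1.1 q.1.2 q.2)).Nonempty)
    (hI : Integrable (fun q : ((ℝ × ℝ) × Environment) × (ℝ × ℝ) =>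
      h.hkY dI Set.univ (-L) L q.1.1 q.1.2 q.2) (nu G))
    (hI0 : 0 ≤ ∫ q, h.hkY dI Set.univ (-L) L q.1.1 q.1.2 q.2 ∂(nu G))
    (hO : Integrable (fun q : ((ℝ × ℝ) × Environment) × (ℝ × ℝ) =>
      h.hkY dO J (-L) L q.1.1 q.1.2 q.2) (nu G)) :
    Integrable (fun q : RowS × ((ℝ × ℝ) × (ℝ × ℝ)) =>
      h.K0 (off q.2.1) dI dO J L q.1.1.1 q.1.1.2 q.1.2 q.2.2) ((PR G).prod PF) ∧
    ∫ q, |h.K0 (off q.2.1) dI dO J L q.1.1.1 q.1.1.2 q.1.2 q.2.2| ∂((PR G).prod PF) ≤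
      ∫ q, h.hkY dO J (-L) L q.1.1 q.1.2 q.2 ∂(nu G) + 4 * L * ε := by
  set off' : ℝ × ℝ → ℝ × ℝ := fun η => off (frac2 η) with hoff'
  have hm' : Measurable off' := hoff.comp measurable_frac2
  have hB : ∀ η, ‖off' η‖ ≤ L * ‖F.a‖ + (|F.be dO| + |F.be dI|) * ‖F.b‖ := fun η =>
    off_bound (hs _ (frac2_mem η)) (hw _ (frac2_mem η))
  obtain ⟨k1, k2⟩ := K0_mean_abs (G := G) (h := h) h0 h2 hM hμ hm' hB hI hI0 hO
  -- almost everywhere properties
  have hη : ∀ᵐ q ∂((PR G).prod PF), q.2.1 ∈ Set.Ico (0 : ℝ) 1 ×ˢ Set.Ico (0 : ℝ) 1 := by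
    have e1 : ∀ᵐ r ∂PF, r.1 ∈ Set.Ico (0 : ℝ) 1 ×ˢ Set.Ico (0 : ℝ) 1 :=
      Measure.quasiMeasurePreserving_fst.ae ae_UU2
    exact Measure.quasiMeasurePreserving_snd.ae e1
  have hne' : ∀ᵐ q ∂((PR G).prod PF), (routes q.1.1.2 (h.Lo q.1.1.1 q.1.1.2 q.1.2)
      (h.Up dO q.1.1.1 q.1.1.2 q.1.2) (rg F J q.1.1.1) (h.iL (-L) q.1.1.1 q.1.1.2 q.1.2)
      (h.iU dO L q.1.1.1 q.1.1.2 q.1.2)).Nonempty :=
    Measure.quasiMeasurePreserving_fst.ae hne
  have hNn : ∀ᵐ q ∂((PR G).prod PF), Nn q.1.1.2 := by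
    have e1 : ∀ᵐ q ∂(PR G), Nn q.1.2 := (ae_P0_Nn (Ψ := ℝ × ℝ) (ν := UU.prod UU) h0).mono
      fun q hq => hq.1
    exact Measure.quasiMeasurePreserving_fst.ae e1
  have heq : ∀ᵐ q ∂((PR G).prod PF),
      h.K0 (off' q.2.1) dI dO J L q.1.1.1 q.1.1.2 q.1.2 q.2.2 =
      h.K0 (off q.2.1) dI dO J L q.1.1.1 q.1.1.2 q.1.2 q.2.2 := by
    filter_upwards [hη] with q hq
    rw [hoff']
    simp only [frac2_of_mem hq]
  have habs : ∀ᵐ q ∂((PR G).prod PF),
      |h.K0 (off q.2.1) dI dO J L q.1.1.1 q.1.1.2 q.1.2 q.2.2| =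
      -h.K0 (off' q.2.1) dI dO J L q.1.1.1 q.1.1.2 q.1.2 q.2.2 := by
    filter_upwards [hη, hne', hNn, heq] with q q1 q2 q3 q4
    rw [q4, abs_of_nonpos]
    exact Hwy.K0_nonpos q3 (hs _ q1) (hw _ q1) hJ q2
  refine ⟨k1.congr heq, ?_⟩
  rw [integral_congr_ae habs, integral_neg]
  exact k2

/-- **(M1)** the mean of `|K0|`.  `σ₁`, `σ₂`: a route of the outer row inside the window `J`
(`M56.row_nonempty`); fence: `σ₁ = σ₂ = 0`. -/
theorem K0_mean {h : Hwy F} (h0 : G (Set.Iio 0) = 0) (h2 : Integrable (fun x : ℝ => x ^ 2) G)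
    {ε : ℝ} (hM : HwyMean G h ε) (hμ : IsTC G μ) {off : ℝ × ℝ → ℝ × ℝ} (hoff : Measurable off)
    {dI dO : ℝ × ℝ} {Λ L : ℝ} {J : Set ℝ} (hJm : MeasurableSet J)
    (hs : ∀ η ∈ Set.Ico (0 : ℝ) 1 ×ˢ Set.Ico (0 : ℝ) 1, h.Sep4 (off η) dI dO)
    (hw : ∀ η ∈ Set.Ico (0 : ℝ) 1 ×ˢ Set.Ico (0 : ℝ) 1, h.WinC (off η) dI dO Λ L)
    (hJ : ∀ x ∈ J, |x| ≤ Λ) (hdI : h.wH + 2 * mg F < F.be dI)
    {σ₁ σ₂ : ℝ} (hσ₁ : -L + mg F ≤ σ₁) (hσ₂ : σ₂ + mg F + h.κ < L + F.al dO)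
    (hIJ : Set.Icc (min σ₁ σ₂ - mg F) (max σ₁ σ₂ + mg F) ⊆ J) :
    Integrable (fun q : RowS × ((ℝ × ℝ) × (ℝ × ℝ)) =>
      h.K0 (off q.2.1) dI dO J L q.1.1.1 q.1.1.2 q.1.2 q.2.2) ((PR G).prod PF) ∧
    ∫ q, |h.K0 (off q.2.1) dI dO J L q.1.1.1 q.1.1.2 q.1.2 q.2.2| ∂((PR G).prod PF) ≤
      ∫ q, h.hkY dO J (-L) L q.1.1 q.1.2 q.2 ∂(nu G) + 4 * L * ε := by
  have hdO : h.wH + 2 * mg F < F.be dO := by
    have h1 := hs 0 ⟨⟨le_rfl, zero_lt_one⟩, ⟨le_rfl, zero_lt_one⟩⟩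
    have h3 := h1.lo
    have h4 := h1.up
    unfold Hwy.dU at h4
    rw [map_sub, map_sub] at h4
    have h7 := h.wH_nonneg'
    linarith
  have a1 : -L + mg F ≤ -L + mg F := le_rfl
  have a2 : (L + F.al dI - mg F - h.κ - 1) + mg F + h.κ < L + F.al dI := by linarith
  have a3 : Set.Icc (min (-L + mg F) (L + F.al dI - mg F - h.κ - 1) - mg F)
    (max (-L + mg F) (L + F.al dI - mg F - h.κ - 1) + mg F) ⊆ Set.univ := Set.subset_univ _
  exact K0_mean' (G := G) h0 h2 hM hμ hoff hs hw hJ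
    (ae_of_all _ fun q => M56.row_nonempty hdO hσ₁ hσ₂ hIJ q.1.1 q.1.2 q.2)
    (M56.hkY_integrable hM h0 h2 hdI MeasurableSet.univ a1 a2 a3)
    (M56.hkY_nonneg hM h0 h2 hdI MeasurableSet.univ a1 a2 a3 hμ)
    (M56.hkY_integrable hM h0 h2 hdO hJm hσ₁ hσ₂ hIJ)

end Crest.Agent.R151.M1
end

-- ▼ part R151/U450o

/-!
# R151 / S0214 part 2, U450o — (M1) in the names of 338: the observable `obK` (helper450)
-/

set_option autoImplicit false

open MeasureTheory Filter ProbabilityTheory Topology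
open Crest.ProbabilityR.FirstPassage

namespace Crest.Agent.R151.M1

open Crest.Agent.R151.K Crest.Agent.R151.Q
open M56 (nu mg)
open M192 (RowS PR)
open B710 (FlatData)

variable {μ : ℝ × ℝ → ℝ} {F : FlatData μ} {G : Measure ℝ} [IsProbabilityMeasure G]

lemma measurable_offv (g c : ℝ) : Measurable (offv F g c) := by
  unfold offv
  exact measurable_id.const_add _


/-- **(M1)** for the observable `obK` -/
theorem obK_mean {h : Hwy F} (h0 : G (Set.Iio 0) = 0) (h2 : Integrable (fun x : ℝ => x ^ 2) G)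
    {ε : ℝ} (hM : HwyMean G h ε) (hμ : IsTC G μ) {y g c Λ L : ℝ} (hg : Geo h y g c Λ L)
    (hy : h.wH + 2 * mg F < y) (hΛ : mg F ≤ Λ) :
    Integrable (fun q : RowS × ((ℝ × ℝ) × (ℝ × ℝ)) =>
      obK h y g c Λ L q.1.1.1 q.1.1.2 q.1.2 q.2) ((PR G).prod PF) ∧
    ∫ q, |obK h y g c Λ L q.1.1.1 q.1.1.2 q.1.2 q.2| ∂((PR G).prod PF) ≤
      ∫ q, h.hkY (dOv F y g) (Jw Λ) (-L) L q.1.1 q.1.2 q.2 ∂(PR G) + 4 * L * ε := by
  have h3 := hg.win
  have h4 := hg.Λ_nonneg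
  have h5 := h.κ_nonneg
  have h6 := cF_nonneg F
  have h7 := abs_nonneg c
  exact K0_mean (G := G) h0 h2 hM hμ (measurable_offv g c) (dI := y • F.b) (dO := dOv F y g)
    (J := Jw Λ) measurableSet_Icc
    (fun η hη => hg.sep4 (norm_jitter hη)) (fun η hη => hg.winC (norm_jitter hη))
    (fun x hx => abs_le_of_mem_Jw hx) (by simpa using hy) (σ₁ := 0) (σ₂ := 0)
    (by linarith) (by rw [al_dOv]; linarith)
    (by
      rw [min_self, max_self]
      unfold Jw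
      exact Set.Icc_subset_Icc (by linarith) (by linarith))

end Crest.Agent.R151.M1
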