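import Crest.Agent.R151.G338h
import Crest.Agent.R151.R78P
import Crest.Agent.R151.M192c

-- ▼ part R151/G338i
section

/-!
# R151 (S0214 part 2): closeness of an outer row and an inner row, deterministic part (helper338)

Outer row: offset `θ`, phases `φ`, displacement `dO`; inner row: offset `θ - off`, phases `φ₁`,
displacement `dI` (private highways).
* `K0` = `gK(lower gap) + hull(inner, univ) + gK(upper gap) - hull(outer, window J)`;
* `K0_nonpos` (6.1), `lower_close` (6.2), `upper_close` (6.3).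
-/

set_option autoImplicit false
set_option linter.unusedSectionVars false

open MeasureTheory Filter ProbabilityTheory Topology
open Crest.ProbabilityR.FirstPassage

namespace Crest.Agent.R151

namespace Q

open K R78 B710 G338 M192

variable {μ : ℝ × ℝ → ℝ} {F : FlatData μ}

namespace Hwy

variable (h : Hwy F)

/-- phases of the lower gap -/
def φlo (φ φ₁ : ℝ × ℝ) : ℝ × ℝ := (φ.1, φ₁.1)
/-- phases of the upper gap -/
def φup (φ φ₁ : ℝ × ℝ) : ℝ × ℝ := (φ₁.2, φ.2)

/-- displacement of the upper gap -/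
def dU (off dI dO : ℝ × ℝ) : ℝ × ℝ := dO - off - dI

/-- the gauge difference `K0` -/
noncomputable def K0 (off dI dO : ℝ × ℝ) (J : Set ℝ) (L : ℝ) (θ : ℝ × ℝ) (t : Environment)
    (φ φ₁ : ℝ × ℝ) : ℝ :=
  h.gK off (-L) L θ t (φlo φ φ₁) + h.hk dI Set.univ (-L) L (θ - off) t φ₁ +
    h.gK (dU off dI dO) (-L) L (θ - off - dI) t (φup φ φ₁) - h.hk dO J (-L) L θ t φ

/-- separation conditions of the four strips -/
structure Sep4 (off dI dO : ℝ × ℝ) : Prop where
  lo : h.wH < F.be off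
  mid : h.wH < F.be dI
  up : h.wH < F.be (dU off dI dO)

/-- window conditions -/
structure WinC (off dI dO : ℝ × ℝ) (Λ L : ℝ) : Prop where
  L1 : Λ + |F.al off| + h.κ + cF F < L
  L2 : Λ + |F.al off + F.al dI| + h.κ + cF F < L
  L3 : |F.al (dU off dI dO)| + cF F < L
  Λ_nonneg : 0 ≤ Λ

variable {h} {off dI dO : ℝ × ℝ} {θ : ℝ × ℝ} {t : Environment} {φ φ₁ : ℝ × ℝ}

lemma Lo_up_gap (h : Hwy F) (off dI dO θ : ℝ × ℝ) (t : Environment) (φ φ₁ : ℝ × ℝ) :
    h.Up (dU off dI dO) (θ - off - dI) t (φup φ φ₁) = h.Up dO θ t φ := by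
  unfold Up φup dU
  simp only
  congr 1
  abel

lemma iU_up_gap (h : Hwy F) (off dI dO θ : ℝ × ℝ) (t : Environment) (φ φ₁ : ℝ × ℝ) (s : ℝ) :
    h.iU (dU off dI dO) s (θ - off - dI) t (φup φ φ₁) = h.iU dO s θ t φ := by
  unfold iU φup dU
  simp only
  congr 1
  abel

/-- the four highways -/
noncomputable def four (h : Hwy F) (off dI dO θ : ℝ × ℝ) (t : Environment) (φ φ₁ : ℝ × ℝ) :
    ℕ → ℤ → ℤ × ℤ
  | 0 => h.Lo θ t φ
  | 1 => h.Lo (θ - off) t φ₁
  | 2 => h.Up dI (θ - off) t φ₁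
  | _ => h.Up dO θ t φ

lemma Sep4.tower (hs : h.Sep4 off dI dO) (θ : ℝ × ℝ) (t : Environment) (φ φ₁ : ℝ × ℝ) :
    IsTower 3 (four h off dI dO θ t φ φ₁) := by
  have h1 := hs.lo
  have h2 := hs.mid
  have h3 := hs.up
  unfold dU at h3
  rw [map_sub, map_sub] at h3
  have hw := h.wH_nonneg'
  set base : ℕ → ℝ := fun k => match k with
    | 0 => F.be θ
    | 1 => F.be (θ - off)
    | 2 => F.be (θ - off - dI)
    | _ => F.be (θ - dO) with hbase
  refine isTower_of_strips (F := frame F) (lo := fun k => -(h.wH / 2) - base k)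
    (hi := fun k => h.wH / 2 - base k) ?_ ?_
  · intro k hk
    interval_cases k
    · exact isStrip h φ.1 θ t
    · exact isStrip h φ₁.1 (θ - off) t
    · exact isStrip h φ₁.2 (θ - off - dI) t
    · exact isStrip h φ.2 (θ - dO) t
  · intro a b hab hb
    interval_cases b <;> interval_cases a <;> simp only [hbase, map_sub] <;> linarith

lemma Sep4.stack (hs : h.Sep4 off dI dO) (θ : ℝ × ℝ) (t : Environment) (φ φ₁ : ℝ × ℝ) :
    IsStack 0 (fun _ => h.Lo (θ - off) t φ₁) (fun _ => h.Up dI (θ - off) t φ₁)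
      (Set.range (h.Lo θ t φ)) (Set.range (h.Up dO θ t φ)) := by
  have hT := hs.tower θ t φ φ₁
  exact
    { hL := fun _ _ => h.isHwy φ₁.1 (θ - off) t
      hU := fun _ _ => h.isHwy φ₁.2 (θ - off - dI) t
      sepL0 := hT.sep 0 1 2 (by omega) (by omega) (by omega)
      sepU0 := hT.sep 0 2 3 (by omega) (by omega) (by omega)
      sepL := fun k hk => absurd hk (by omega)
      sepU := fun k hk => absurd hk (by omega) }

lemma al_pos_sub (F : FlatData μ) (d θ : ℝ × ℝ) (z : ℤ × ℤ) :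
    F.al (pos (θ - d) z) = F.al (pos θ z) - F.al d := by
  unfold pos
  rw [← map_sub]
  congr 1
  abel

lemma be_pos_sub' (F : FlatData μ) (d θ : ℝ × ℝ) (z : ℤ × ℤ) :
    F.be (pos (θ - d) z) = F.be (pos θ z) - F.be d := by
  unfold pos
  rw [← map_sub]
  congr 1
  abel

/-- vertices of the inner lower highway in the window are between the gauge points -/
lemma WinC.L_mem {Λ L : ℝ} (hw : h.WinC off dI dO Λ L) {k : ℤ}
    (hk : |F.al (pos θ (h.Lo (θ - off) t φ₁ k))| ≤ Λ) :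
    h.iL (-L) (θ - off) t φ₁ ≤ k ∧ k ≤ h.iL L (θ - off) t φ₁ := by
  have h1 := hw.L1
  have hc := cF_nonneg F
  have hk' := h.κ_nonneg
  rw [abs_le] at hk
  have e := al_pos_sub F off θ (h.Lo (θ - off) t φ₁ k)
  have ho := abs_le.1 (le_refl |F.al off|)
  constructor
  · apply h.ix_le
    show -L ≤ F.al (pos (θ - off) (h.Lo (θ - off) t φ₁ k))
    rw [e]; linarith [ho.1, ho.2, hk.1]
  · apply le_of_lt
    apply h.lt_ix_of_al_lt
    show F.al (pos (θ - off) (h.Lo (θ - off) t φ₁ k)) < L - h.κ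
    rw [e]; linarith [ho.1, ho.2, hk.2]

lemma WinC.U_mem {Λ L : ℝ} (hw : h.WinC off dI dO Λ L) {k : ℤ}
    (hk : |F.al (pos θ (h.Up dI (θ - off) t φ₁ k))| ≤ Λ) :
    h.iU dI (-L) (θ - off) t φ₁ ≤ k ∧ k ≤ h.iU dI L (θ - off) t φ₁ := by
  have h1 := hw.L2
  have hc := cF_nonneg F
  have hk' := h.κ_nonneg
  rw [abs_le] at hk
  have e := al_pos_sub F off θ (h.Up dI (θ - off) t φ₁ k)
  have e' := al_pos_sub F dI (θ - off) (h.Up dI (θ - off) t φ₁ k)
  have ho := abs_le.1 (le_refl |F.al off + F.al dI|)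
  constructor
  · apply h.ix_le
    show -L ≤ F.al (pos (θ - off - dI) (h.Up dI (θ - off) t φ₁ k))
    rw [e', e]; linarith [ho.1, ho.2, hk.1]
  · apply le_of_lt
    apply h.lt_ix_of_al_lt
    show F.al (pos (θ - off - dI) (h.Up dI (θ - off) t φ₁ k)) < L - h.κ
    rw [e', e]; linarith [ho.1, ho.2, hk.2]

lemma WinC.win {Λ L : ℝ} (hw : h.WinC off dI dO Λ L) {J : Set ℝ} (hJ : ∀ x ∈ J, |x| ≤ Λ)
    (θ : ℝ × ℝ) (t : Environment) (φ₁ : ℝ × ℝ) :
    Win 0 (fun _ => h.Lo (θ - off) t φ₁) (fun _ => h.Up dI (θ - off) t φ₁) (rg F J θ)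
      (fun _ => h.iL (-L) (θ - off) t φ₁) (fun _ => h.iL L (θ - off) t φ₁)
      (fun _ => h.iU dI (-L) (θ - off) t φ₁) (fun _ => h.iU dI L (θ - off) t φ₁) where
  L_ge _ _ _ hm := (hw.L_mem (hJ _ hm)).1
  L_le _ _ _ hm := (hw.L_mem (hJ _ hm)).2
  U_ge _ _ _ hm := (hw.U_mem (hJ _ hm)).1
  U_le _ _ _ hm := (hw.U_mem (hJ _ hm)).2

lemma K0_eq (h : Hwy F) (off dI dO : ℝ × ℝ) (J : Set ℝ) (L : ℝ) (θ : ℝ × ℝ) (t : Environment)
    (φ φ₁ : ℝ × ℝ) : h.K0 off dI dO J L θ t φ φ₁ =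
      outK t 0 (fun _ => h.Lo (θ - off) t φ₁) (fun _ => h.Up dI (θ - off) t φ₁)
        (h.Lo θ t φ) (h.Up dO θ t φ) (fun _ => Set.univ) (rg F J θ)
        (fun _ => h.iL (-L) (θ - off) t φ₁) (fun _ => h.iL L (θ - off) t φ₁)
        (fun _ => h.iU dI (-L) (θ - off) t φ₁) (fun _ => h.iU dI L (θ - off) t φ₁)
        (h.iL (-L) θ t φ) (h.iU dO L θ t φ) := by
  have e1 : h.gK off (-L) L θ t (φlo φ φ₁) = gapK t (h.Lo θ t φ) (h.Lo (θ - off) t φ₁)
      (h.iL (-L) θ t φ) (h.iL L (θ - off) t φ₁) := rfl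
  have e2 : h.gK (dU off dI dO) (-L) L (θ - off - dI) t (φup φ φ₁) =
      gapK t (h.Up dI (θ - off) t φ₁) (h.Up dO θ t φ) (h.iU dI (-L) (θ - off) t φ₁)
        (h.iU dO L θ t φ) := by
    unfold gK
    rw [Lo_up_gap, iU_up_gap]
    rfl
  unfold K0 outK SUMK
  rw [e1, e2]
  simp only [Nat.zero_add, Finset.sum_range_one, Finset.range_zero, Finset.sum_empty, add_zero]
  rfl

/-- (6.1): `K0 ≤ 0` -/
theorem K0_nonpos (ht : Nn t) (hs : h.Sep4 off dI dO) {Λ L : ℝ} (hw : h.WinC off dI dO Λ L)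
    {J : Set ℝ} (hJ : ∀ x ∈ J, |x| ≤ Λ)
    (hne : (routes t (h.Lo θ t φ) (h.Up dO θ t φ) (rg F J θ) (h.iL (-L) θ t φ)
      (h.iU dO L θ t φ)).Nonempty) :
    h.K0 off dI dO J L θ t φ φ₁ ≤ 0 := by
  rw [K0_eq]
  exact outK_nonpos ht (h.isHwy _ _ _) (h.isHwy _ _ _) (hs.stack θ t φ φ₁)
    (hw.win hJ θ t φ₁) subset_rfl (fun _ _ _ _ => bddBelow_routes ht _ _ _ _ _)
    (fun _ _ _ _ _ _ _ _ => Set.mem_univ _) hne

/-- radius of the boxes around the base points of the gaps -/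
noncomputable def Rgap (F : FlatData μ) (wH L A B : ℝ) : ℝ :=
  (L + cF F + A) * ‖F.a‖ + (wH + B) * ‖F.b‖

/-- (6.2) the outer row costs at least as much as the inner row, labels moved by `Δ` inwards. -/
theorem lower_close {cψ : ℝ}
    (hpsi : ∀ (v : ℝ × ℝ) (A : ℝ), 0 ≤ A → F.al v ≤ -A → |F.be v| ≤ A → cψ * A ≤ F.ψ v)
    (hμ : NormLike μ) (ht : Nn t) (hs : h.Sep4 off dI dO) {Λ L : ℝ}
    (hw : h.WinC off dI dO Λ L) {I I' J : Set ℝ} (hJ : ∀ x ∈ J, |x| ≤ Λ) (hIJ : I ⊆ J)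
    (hII' : ∀ x ∈ I, x - F.al off ∈ I') {s s' σ σ' Δ : ℝ}
    (hs1 : -L ≤ s) (hs2 : s ≤ L) (hs3 : -L ≤ s') (hs4 : s' ≤ L)
    (hσ : σ ≤ s - F.al off - Δ) (hσ' : s' + F.al (dU off dI dO) + cF F + h.κ + Δ ≤ σ')
    (hΔ : 0 ≤ Δ) (hΔ1 : F.be off + h.wH ≤ Δ) (hΔ2 : F.be (dU off dI dO) + h.wH ≤ Δ)
    {N : ℕ} (hN1 : Rgap F h.wH L |F.al off| |F.be off| + 1 ≤ N)
    (hN2 : Rgap F h.wH L |F.al (dU off dI dO)| |F.be (dU off dI dO)| + 1 ≤ N)
    (hne : (routes t (h.Lo θ t φ) (h.Up dO θ t φ) (rg F I θ) (h.iL s θ t φ)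
      (h.iU dO s' θ t φ)).Nonempty) :
    min (h.sk dI I' Set.univ L σ σ' (θ - off) t φ₁)
        (cψ * Δ - 4 * max (devB μ N θ t) (devB μ N (θ - dO) t)) +
      h.K0 off dI dO J L θ t φ φ₁ ≤
    h.hk dO I s s' θ t φ - h.hk dO J (-L) L θ t φ := by
  classical
  have hΛ := hw.Λ_nonneg
  have hL1 := hw.L1
  have hL2 := hw.L2
  have hL3 := hw.L3
  have hcF := cF_nonneg F
  have hκ := h.κ_nonneg
  have hwH := h.wH_nonneg'
  have hA0 := abs_nonneg (F.al off)
  have hA2 := abs_nonneg (F.al off + F.al dI)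
  have hA3 := abs_nonneg (F.al (dU off dI dO))
  have hoff := abs_le.1 (le_refl |F.al off|)
  have hdU := abs_le.1 (le_refl |F.al (dU off dI dO)|)
  have hboff := abs_le.1 (le_refl |F.be off|)
  have hbdU := abs_le.1 (le_refl |F.be (dU off dI dO)|)
  have hsl := hs.lo
  have hsu := hs.up
  have hna := norm_nonneg F.a
  have hnb := norm_nonneg F.b
  set D := max (devB μ N θ t) (devB μ N (θ - dO) t) with hD
  have hcl : hull t (h.Lo θ t φ) (h.Up dO θ t φ) (rg F I θ) (h.iL s θ t φ) (h.iU dO s' θ t φ) =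
    h.hk dO I s s' θ t φ := rfl
  rw [← hcl]
  rw [le_sub_iff_add_le]
  refine le_csInf hne fun c hc => ?_
  obtain ⟨z, w, hzw, hval⟩ := outer_shp (B' := fun _ => Set.univ) (A' := fun _ => rg F I' (θ - off))
    (H := h.Lo θ t φ) (H' := h.Up dO θ t φ)
    (B := rg F J θ) ht (h.isHwy _ _ _) (h.isHwy _ _ _) (hs.stack θ t φ φ₁)
    (fun _ _ _ _ => bddBelow_routes ht _ _ _ _ _)
    (fun k _ i j o ho v hv => by
      have := ho.sub v hv
      show F.al (pos (θ - off) v) ∈ I'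
      rw [al_pos_sub]
      exact hII' _ this)
    (fun _ => h.iL (-L) (θ - off) t φ₁) (fun _ => h.iL L (θ - off) t φ₁)
    (fun _ => h.iU dI (-L) (θ - off) t φ₁) (fun _ => h.iU dI L (θ - off) t φ₁)
    (h.iL (-L) θ t φ) (h.iU dO L θ t φ) hc
  rw [← K0_eq] at hval
  simp only [inSum, Finset.range_zero, Finset.sum_empty, add_zero, Nat.zero_add,
    Finset.sum_range_one] at hval
  set H0 := h.Lo θ t φ with hH0
  set H1 := h.Lo (θ - off) t φ₁ with hH1
  set H2 := h.Up dI (θ - off) t φ₁ with hH2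
  set H3 := h.Up dO θ t φ with hH3
  have iH0 : IsHwy H0 := h.isHwy _ _ _
  have iH1 : IsHwy H1 := h.isHwy _ _ _
  have iH2 : IsHwy H2 := h.isHwy _ _ _
  have iH3 : IsHwy H3 := h.isHwy _ _ _
  obtain ⟨o, ho⟩ : ∃ o : Wk (H1 (z 0)) (H2 (w 0)), R78.IsOpen H1 H2 (rg F I θ) o :=
    hzw 0 le_rfl
  -- window positions of the crossing
  have hz0 : H1 (z 0) ∈ rg F I θ := ho.sub _ o.start_mem_support
  have hw0 : H2 (w 0) ∈ rg F I θ := ho.sub _ o.end_mem_support
  have hz0' : |F.al (pos θ (H1 (z 0)))| ≤ Λ := hJ _ (hIJ hz0)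
  have hw0' : |F.al (pos θ (H2 (w 0)))| ≤ Λ := hJ _ (hIJ hw0)
  obtain ⟨hzL, hzR⟩ := hw.L_mem (t := t) (φ₁ := φ₁) hz0'
  obtain ⟨hwL, hwR⟩ := hw.U_mem (t := t) (φ₁ := φ₁) hw0'
  -- nonnegativity of the three terms
  have hi0 : h.iL (-L) θ t φ ≤ h.iL s θ t φ := h.ix_mono hs1 _ _ _
  have hj0 : h.iU dO s' θ t φ ≤ h.iU dO L θ t φ := h.ix_mono hs4 _ _ _
  have g1 : 0 ≤ gp t H0 H1 (h.iL (-L) θ t φ) (h.iL L (θ - off) t φ₁) (h.iL s θ t φ) (z 0) :=
    gp_nonneg ht iH0 iH1 hi0 hzR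
  have g3 : 0 ≤ gp t H2 H3 (h.iU dI (-L) (θ - off) t φ₁) (h.iU dO L θ t φ) (w 0)
      (h.iU dO s' θ t φ) := gp_nonneg ht iH2 iH3 hwL hj0
  have hcr : (routes t H1 H2 (rg F I' (θ - off)) (z 0) (w 0)).Nonempty := by
    refine ⟨_, z 0, w 0, le_rfl, le_rfl, o, ?_, rfl⟩
    exact ⟨fun v hv => by
      show F.al (pos (θ - off) v) ∈ I'
      rw [al_pos_sub]
      exact hII' _ (ho.sub v hv), ho.fst, ho.snd⟩
  have g2 : 0 ≤ shp t H1 H2 Set.univ (h.iL (-L) (θ - off) t φ₁) (h.iU dI L (θ - off) t φ₁)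
      (rg F I' (θ - off)) (z 0) (w 0) :=
    shp_nonneg (bddBelow_routes ht _ _ _ _ _) hcr (Set.subset_univ _) hzL hwR
  -- it suffices to bound the inner sum
  suffices hsuff : min (h.sk dI I' Set.univ L σ σ' (θ - off) t φ₁) (cψ * Δ - 4 * D) ≤
      gp t H0 H1 (h.iL (-L) θ t φ) (h.iL L (θ - off) t φ₁) (h.iL s θ t φ) (z 0) +
        shp t H1 H2 Set.univ (h.iL (-L) (θ - off) t φ₁) (h.iU dI L (θ - off) t φ₁)
          (rg F I' (θ - off)) (z 0) (w 0) +
        gp t H2 H3 (h.iU dI (-L) (θ - off) t φ₁) (h.iU dO L θ t φ) (w 0) (h.iU dO s' θ t φ) by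
    have hJdef : h.hk dO J (-L) L θ t φ =
        hull t H0 H3 (rg F J θ) (h.iL (-L) θ t φ) (h.iU dO L θ t φ) := rfl
    rw [hJdef]
    linarith
  by_cases hc1 : h.iL σ (θ - off) t φ₁ ≤ z 0
  · by_cases hc2 : w 0 ≤ h.iU dI σ' (θ - off) t φ₁
    · -- both labels are inside
      refine (min_le_left _ _).trans ?_
      have : h.sk dI I' Set.univ L σ σ' (θ - off) t φ₁ ≤
          shp t H1 H2 Set.univ (h.iL (-L) (θ - off) t φ₁) (h.iU dI L (θ - off) t φ₁)
          (rg F I' (θ - off)) (z 0) (w 0) := by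
        have hm := hull_mono (bddBelow_routes ht H1 H2 (rg F I' (θ - off))
          (h.iL σ (θ - off) t φ₁) (h.iU dI σ' (θ - off) t φ₁)) hcr subset_rfl hc1 hc2
        have e : h.sk dI I' Set.univ L σ σ' (θ - off) t φ₁ =
          hull t H1 H2 (rg F I' (θ - off)) (h.iL σ (θ - off) t φ₁) (h.iU dI σ' (θ - off) t φ₁) -
            hull t H1 H2 (rg F Set.univ (θ - off)) (h.iL (-L) (θ - off) t φ₁)
              (h.iU dI L (θ - off) t φ₁) := rfl
        have e2 : rg F Set.univ (θ - off) = Set.univ := by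
          ext v; simp [rg]
        rw [e, e2]
        unfold shp
        linarith
      linarith
    · -- the upper label is violated
      refine (min_le_right _ _).trans ?_
      rw [not_le] at hc2
      have hown2 : σ' - h.κ ≤ F.al (pos (θ - off - dI) (H2 (w 0))) :=
        h.al_ge_of_ix_le (u := φ₁.2) (θ := θ - off - dI) (t := t) hc2.le
      -- positions relative to `θ - dO`
      have hp3 : F.al (pos (θ - dO) (H3 (h.iU dO s' θ t φ))) ≤ s' + cF F :=
        h.al_x_le s' φ.2 (θ - dO) t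
      have hp3' : s' ≤ F.al (pos (θ - dO) (H3 (h.iU dO s' θ t φ))) :=
        h.ix_spec s' φ.2 (θ - dO) t
      have eθ : θ - dO = θ - off - dI - dU off dI dO := by unfold dU; abel
      have ew : F.al (pos (θ - dO) (H2 (w 0))) =
          F.al (pos (θ - off - dI) (H2 (w 0))) - F.al (dU off dI dO) := by
        rw [eθ]; exact al_pos_sub F _ _ _
      have ewb : F.be (pos (θ - dO) (H2 (w 0))) =
          F.be (pos (θ - off - dI) (H2 (w 0))) - F.be (dU off dI dO) := by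
        rw [eθ]; exact be_pos_sub' F _ _ _
      have hstr2 : |F.be (pos (θ - off - dI) (H2 (w 0)))| ≤ h.wH / 2 :=
        h.strip φ₁.2 (θ - off - dI) t (w 0)
      have hstr3 : |F.be (pos (θ - dO) (H3 (h.iU dO s' θ t φ)))| ≤ h.wH / 2 :=
        h.strip φ.2 (θ - dO) t _
      have hstr3b : |F.be (pos (θ - dO) (H3 (h.iU dO L θ t φ)))| ≤ h.wH / 2 :=
        h.strip φ.2 (θ - dO) t _
      have hstr2a : |F.be (pos (θ - off - dI) (H2 (h.iU dI (-L) (θ - off) t φ₁)))| ≤ h.wH / 2 :=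
        h.strip φ₁.2 (θ - off - dI) t _
      have ha2 : F.al (pos (θ - off - dI) (H2 (h.iU dI (-L) (θ - off) t φ₁))) ≤ -L + cF F :=
        h.al_x_le (-L) φ₁.2 (θ - off - dI) t
      have ha2' : -L ≤ F.al (pos (θ - off - dI) (H2 (h.iU dI (-L) (θ - off) t φ₁))) :=
        h.ix_spec (-L) φ₁.2 (θ - off - dI) t
      have hb3 : F.al (pos (θ - dO) (H3 (h.iU dO L θ t φ))) ≤ L + cF F :=
        h.al_x_le L φ.2 (θ - dO) t
      have hb3' : L ≤ F.al (pos (θ - dO) (H3 (h.iU dO L θ t φ))) :=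
        h.ix_spec L φ.2 (θ - dO) t
      have ea2 : F.al (pos (θ - dO) (H2 (h.iU dI (-L) (θ - off) t φ₁))) =
          F.al (pos (θ - off - dI) (H2 (h.iU dI (-L) (θ - off) t φ₁))) - F.al (dU off dI dO) := by
        rw [eθ]; exact al_pos_sub F _ _ _
      have ea2b : F.be (pos (θ - dO) (H2 (h.iU dI (-L) (θ - off) t φ₁))) =
          F.be (pos (θ - off - dI) (H2 (h.iU dI (-L) (θ - off) t φ₁))) - F.be (dU off dI dO) := by
        rw [eθ]; exact be_pos_sub' F _ _ _
      have ewθ : F.al (pos (θ - off - dI) (H2 (w 0))) =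
          F.al (pos θ (H2 (w 0))) - (F.al off + F.al dI) := by
        rw [al_pos_sub, al_pos_sub]; ring
      have ho2 := abs_le.1 (le_refl |F.al off + F.al dI|)
      rw [abs_le] at hw0' hstr2 hstr3 hstr3b hstr2a
      have key := gp_ge hpsi hμ ht iH2 iH3 (a := h.iU dI (-L) (θ - off) t φ₁)
        (b := h.iU dO L θ t φ) (i := w 0) (z := h.iU dO s' θ t φ) hwL hj0 hΔ
        (θ := θ - dO) (N := N) (R := Rgap F h.wH L |F.al (dU off dI dO)| |F.be (dU off dI dO)|)
        (by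
          rw [← pos_sub_pos (θ - dO), map_sub, ew]
          linarith [hσ'])
        (by
          rw [← pos_sub_pos (θ - dO), map_sub, ewb, abs_le]
          constructor <;> linarith [hstr2.1, hstr2.2, hstr3.1, hstr3.2])
        (by
          rw [← pos_sub_pos (θ - dO), map_sub, ea2]
          linarith [hdU.1, hdU.2])
        (by
          rw [← pos_sub_pos (θ - dO), map_sub, ea2b]
          linarith [hstr2a.1, hstr2a.2, hstr3b.1, hstr3b.2])
        hN2
        (by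
          refine (norm_le_coord F _).trans ?_
          unfold Rgap
          refine add_le_add (mul_le_mul_of_nonneg_right ?_ hna)
            (mul_le_mul_of_nonneg_right ?_ hnb)
          · rw [ea2, abs_le]
            constructor <;> linarith [hdU.1, hdU.2]
          · rw [ea2b, abs_le]
            constructor <;> linarith [hbdU.1, hbdU.2, hstr2a.1, hstr2a.2])
        (by
          refine (norm_le_coord F _).trans ?_
          unfold Rgap
          refine add_le_add (mul_le_mul_of_nonneg_right ?_ hna)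
            (mul_le_mul_of_nonneg_right ?_ hnb)
          · rw [ew, ewθ, abs_le]
            constructor <;> linarith [hdU.1, hdU.2, ho2.1, ho2.2, hw0'.1, hw0'.2]
          · rw [ewb, abs_le]
            constructor <;> linarith [hbdU.1, hbdU.2, hstr2.1, hstr2.2])
        (by
          refine (norm_le_coord F _).trans ?_
          unfold Rgap
          refine add_le_add (mul_le_mul_of_nonneg_right ?_ hna)
            (mul_le_mul_of_nonneg_right ?_ hnb)
          · rw [abs_le]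
            constructor <;> linarith
          · rw [abs_le]
            constructor <;> linarith [hbdU.1, hbdU.2, hstr3.1, hstr3.2])
        (by
          refine (norm_le_coord F _).trans ?_
          unfold Rgap
          refine add_le_add (mul_le_mul_of_nonneg_right ?_ hna)
            (mul_le_mul_of_nonneg_right ?_ hnb)
          · rw [abs_le]
            constructor <;> linarith
          · rw [abs_le]
            constructor <;> linarith [hbdU.1, hbdU.2, hstr3b.1, hstr3b.2])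
      have hD2 : devB μ N (θ - dO) t ≤ D := le_max_right _ _
      linarith
  · -- the lower label is violated
    refine (min_le_right _ _).trans ?_
    rw [not_le] at hc1
    have hown1 : F.al (pos (θ - off) (H1 (z 0))) < σ :=
      h.al_lt_of_lt_ix (u := φ₁.1) (θ := θ - off) (t := t) hc1
    have hp0 : s ≤ F.al (pos θ (H0 (h.iL s θ t φ))) := h.ix_spec s φ.1 θ t
    have hp0' : F.al (pos θ (H0 (h.iL s θ t φ))) ≤ s + cF F := h.al_x_le s φ.1 θ t
    have ez : F.al (pos (θ - off) (H1 (z 0))) = F.al (pos θ (H1 (z 0))) - F.al off :=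
      al_pos_sub F _ _ _
    have ezb : F.be (pos (θ - off) (H1 (z 0))) = F.be (pos θ (H1 (z 0))) - F.be off :=
      be_pos_sub' F _ _ _
    have hstr1 : |F.be (pos (θ - off) (H1 (z 0)))| ≤ h.wH / 2 := h.strip φ₁.1 (θ - off) t (z 0)
    have hstr0 : |F.be (pos θ (H0 (h.iL s θ t φ)))| ≤ h.wH / 2 := h.strip φ.1 θ t _
    have hstr0a : |F.be (pos θ (H0 (h.iL (-L) θ t φ)))| ≤ h.wH / 2 := h.strip φ.1 θ t _
    have hstr1b : |F.be (pos (θ - off) (H1 (h.iL L (θ - off) t φ₁)))| ≤ h.wH / 2 :=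
      h.strip φ₁.1 (θ - off) t _
    have ha0 : F.al (pos θ (H0 (h.iL (-L) θ t φ))) ≤ -L + cF F := h.al_x_le (-L) φ.1 θ t
    have ha0' : -L ≤ F.al (pos θ (H0 (h.iL (-L) θ t φ))) := h.ix_spec (-L) φ.1 θ t
    have hb1 : F.al (pos (θ - off) (H1 (h.iL L (θ - off) t φ₁))) ≤ L + cF F :=
      h.al_x_le L φ₁.1 (θ - off) t
    have hb1' : L ≤ F.al (pos (θ - off) (H1 (h.iL L (θ - off) t φ₁))) :=
      h.ix_spec L φ₁.1 (θ - off) t
    have eb1 : F.al (pos (θ - off) (H1 (h.iL L (θ - off) t φ₁))) =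
        F.al (pos θ (H1 (h.iL L (θ - off) t φ₁))) - F.al off := al_pos_sub F _ _ _
    have eb1b : F.be (pos (θ - off) (H1 (h.iL L (θ - off) t φ₁))) =
        F.be (pos θ (H1 (h.iL L (θ - off) t φ₁))) - F.be off := be_pos_sub' F _ _ _
    rw [abs_le] at hz0' hstr1 hstr0 hstr0a hstr1b
    have key := gp_ge hpsi hμ ht iH0 iH1 (a := h.iL (-L) θ t φ)
      (b := h.iL L (θ - off) t φ₁) (i := h.iL s θ t φ) (z := z 0) hi0 hzR hΔ
      (θ := θ) (N := N) (R := Rgap F h.wH L |F.al off| |F.be off|)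
      (by
        rw [← pos_sub_pos θ, map_sub]
        linarith [hσ])
      (by
        rw [← pos_sub_pos θ, map_sub, abs_le]
        constructor <;> linarith [hstr1.1, hstr1.2, hstr0.1, hstr0.2])
      (by
        rw [← pos_sub_pos θ, map_sub]
        linarith [hoff.1, hoff.2])
      (by
        rw [← pos_sub_pos θ, map_sub]
        linarith [hstr0a.1, hstr0a.2, hstr1b.1, hstr1b.2])
      hN1
      (by
        refine (norm_le_coord F _).trans ?_
        unfold Rgap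
        refine add_le_add (mul_le_mul_of_nonneg_right ?_ hna)
          (mul_le_mul_of_nonneg_right ?_ hnb)
        · rw [abs_le]
          constructor <;> linarith
        · rw [abs_le]
          constructor <;> linarith [hboff.1, hboff.2, hstr0a.1, hstr0a.2])
      (by
        refine (norm_le_coord F _).trans ?_
        unfold Rgap
        refine add_le_add (mul_le_mul_of_nonneg_right ?_ hna)
          (mul_le_mul_of_nonneg_right ?_ hnb)
        · rw [abs_le]
          constructor <;> linarith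
        · rw [abs_le]
          constructor <;> linarith [hboff.1, hboff.2, hstr0.1, hstr0.2])
      (by
        refine (norm_le_coord F _).trans ?_
        unfold Rgap
        refine add_le_add (mul_le_mul_of_nonneg_right ?_ hna)
          (mul_le_mul_of_nonneg_right ?_ hnb)
        · rw [abs_le]
          constructor <;> linarith [hz0'.1, hz0'.2]
        · rw [abs_le]
          constructor <;> linarith [hboff.1, hboff.2, hstr1.1, hstr1.2])
      (by
        refine (norm_le_coord F _).trans ?_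
        unfold Rgap
        refine add_le_add (mul_le_mul_of_nonneg_right ?_ hna)
          (mul_le_mul_of_nonneg_right ?_ hnb)
        · rw [abs_le]
          constructor <;> linarith [hoff.1, hoff.2]
        · rw [abs_le]
          constructor <;> linarith [hboff.1, hboff.2, hstr1b.1, hstr1b.2])
    have hD1 : devB μ N θ t ≤ D := le_max_left _ _
    linarith

end Hwy

end Q

end Crest.Agent.R151
end

-- ▼ part R151/G338j

/-!
# R151 (S0214 part 2): closeness of an outer row and an inner row, (6.3) (helper338)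
-/

set_option autoImplicit false
set_option linter.unusedSectionVars false

open MeasureTheory Filter ProbabilityTheory Topology
open Crest.ProbabilityR.FirstPassage

namespace Crest.Agent.R151

namespace Q

open K R78 B710 G338 M192

variable {μ : ℝ × ℝ → ℝ} {F : FlatData μ}

lemma al_pos_sub2 (F : FlatData μ) (d θ : ℝ × ℝ) (z : ℤ × ℤ) :
    F.al (pos (θ - d) z) = F.al (pos θ z) - F.al d := by
  unfold pos
  rw [← map_sub]
  congr 1
  abel

lemma rg_Icc_sub (F : FlatData μ) (α β : ℝ) (off θ : ℝ × ℝ) :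
    rg F (Set.Icc (α - F.al off) (β - F.al off)) (θ - off) = rg F (Set.Icc α β) θ := by
  ext v
  simp only [rg, Set.mem_ofPred_eq, Set.mem_Icc]
  rw [al_pos_sub2]
  constructor
  · rintro ⟨h1, h2⟩; constructor <;> linarith
  · rintro ⟨h1, h2⟩; constructor <;> linarith

namespace Hwy

variable {h : Hwy F} {off dI dO : ℝ × ℝ} {θ : ℝ × ℝ} {t : Environment} {φ φ₁ : ℝ × ℝ}

/-- monotonicity of the hull kernel in the region and in the labels -/
lemma hk_mono (ht : Nn t) (d : ℝ × ℝ) {I I' : Set ℝ} (hI : I ⊆ I') {s s₁ s' s₁' : ℝ} (hs : s₁ ≤ s)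
    (hs' : s' ≤ s₁') (hne : (routes t (h.Lo θ t φ) (h.Up d θ t φ) (rg F I θ) (h.iL s θ t φ)
      (h.iU d s' θ t φ)).Nonempty) :
    h.hk d I' s₁ s₁' θ t φ ≤ h.hk d I s s' θ t φ :=
  hull_mono (bddBelow_routes ht _ _ _ _ _) hne (fun _ hv => hI hv) (h.ix_mono hs _ _ _)
    (h.ix_mono hs' _ _ _)

/-- the gap fence error: hull over a fence minus the gauge -/
noncomputable def gE (h : Hwy F) (d : ℝ × ℝ) (I : Set ℝ) (L s s' : ℝ) (θ : ℝ × ℝ)
    (t : Environment) (φ : ℝ × ℝ) : ℝ :=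
  h.hk d I s s' θ t φ - h.gK d (-L) L θ t φ

lemma gE_nonneg (ht : Nn t) {d : ℝ × ℝ} {I : Set ℝ} {L s s' : ℝ} (hs : -L ≤ s) (hs' : s' ≤ L)
    (hne : (routes t (h.Lo θ t φ) (h.Up d θ t φ) (rg F I θ) (h.iL s θ t φ)
      (h.iU d s' θ t φ)).Nonempty) : 0 ≤ h.gE d I L s s' θ t φ := by
  have h1 := gapK_le_hull ht (h.isHwy φ.1 θ t) (h.isHwy φ.2 (θ - d) t) hne
  have h2 := gapK_mono ht (h.isHwy φ.1 θ t) (h.isHwy φ.2 (θ - d) t)
    (h.ix_mono hs φ.1 θ t) (h.ix_mono hs' φ.2 (θ - d) t)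
  unfold gE
  have e1 : h.hk d I s s' θ t φ = hull t (h.Lo θ t φ) (h.Up d θ t φ) (rg F I θ) (h.iL s θ t φ)
      (h.iU d s' θ t φ) := rfl
  have e2 : h.gK d (-L) L θ t φ = gapK t (h.H φ.1 θ t) (h.H φ.2 (θ - d) t) (h.ix (-L) φ.1 θ t)
      (h.ix L φ.2 (θ - d) t) := rfl
  rw [e1, e2]
  exact sub_nonneg.2 (h2.trans h1)

/-- (6.3) -/
theorem upper_close (ht : Nn t) (hs : h.Sep4 off dI dO) {α β s s₁ s₂ s' L : ℝ} (J : Set ℝ)
    (hne0 : (routes t (h.Lo θ t φ) (h.Up off θ t (φlo φ φ₁)) (rg F (Set.Icc α β) θ)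
      (h.iL s θ t φ) (h.iU off s₁ θ t (φlo φ φ₁))).Nonempty)
    (hne1 : (routes t (h.Lo (θ - off) t φ₁) (h.Up dI (θ - off) t φ₁)
      (rg F (Set.Icc (α - F.al off) (β - F.al off)) (θ - off))
      (h.iL s₁ (θ - off) t φ₁) (h.iU dI s₂ (θ - off) t φ₁)).Nonempty)
    (hne2 : (routes t (h.Lo (θ - off - dI) t (φup φ φ₁))
      (h.Up (dU off dI dO) (θ - off - dI) t (φup φ φ₁))
      (rg F (Set.Icc (α - F.al off - F.al dI) (β - F.al off - F.al dI)) (θ - off - dI))
      (h.iL s₂ (θ - off - dI) t (φup φ φ₁))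
      (h.iU (dU off dI dO) s' (θ - off - dI) t (φup φ φ₁))).Nonempty) :
    h.hk dO (Set.Icc (α - h.κ) (β + h.κ)) s s' θ t φ - h.hk dO J (-L) L θ t φ ≤
      h.gE off (Set.Icc α β) L s s₁ θ t (φlo φ φ₁) +
        h.sk dI (Set.Icc (α - F.al off) (β - F.al off)) Set.univ L s₁ s₂ (θ - off) t φ₁ +
        h.gE (dU off dI dO) (Set.Icc (α - F.al off - F.al dI) (β - F.al off - F.al dI)) L s₂ s'
          (θ - off - dI) t (φup φ φ₁) +
        h.K0 off dI dO J L θ t φ φ₁ := by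
  have hκ := h.κ_nonneg
  set i : ℕ → ℤ := fun k => match k with
    | 0 => h.iL s θ t φ
    | 1 => h.iL s₁ (θ - off) t φ₁
    | 2 => h.iU dI s₂ (θ - off) t φ₁
    | _ => h.iU dO s' θ t φ with hi
  have r1 : rg F (Set.Icc (α - F.al off) (β - F.al off)) (θ - off) = rg F (Set.Icc α β) θ :=
    rg_Icc_sub F α β off θ
  have r2 : rg F (Set.Icc (α - F.al off - F.al dI) (β - F.al off - F.al dI)) (θ - off - dI) =
      rg F (Set.Icc α β) θ := by
    rw [rg_Icc_sub F (α - F.al off) (β - F.al off) dI (θ - off), r1]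
  have eU := Lo_up_gap h off dI dO θ t φ φ₁
  have eI := iU_up_gap h off dI dO θ t φ φ₁ s'
  rw [r1] at hne1
  rw [r2, eU, eI] at hne2
  have hsum := (hs.tower θ t φ φ₁).hull_le_sum (t := t) (A := rg F (Set.Icc α β) θ)
    (A' := rg F (Set.Icc (α - h.κ) (β + h.κ)) θ)
    (fun v hv => ⟨by linarith [hv.1], by linarith [hv.2]⟩) 2 i
    (by
      intro k hk1 hk2 w m z hwm hmz hw hz
      interval_cases k
      · -- lower inner highway
        have hw' : α ≤ F.al (pos θ (h.Lo (θ - off) t φ₁ w)) := hw.1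
        have hz' : F.al (pos θ (h.Lo (θ - off) t φ₁ z)) ≤ β := hz.2
        have b1 := h.back φ₁.1 (θ - off) t w m hwm
        have b2 := h.back φ₁.1 (θ - off) t m z hmz
        rw [al_pos_sub2, al_pos_sub2] at b1 b2
        have c1 : F.al (pos θ (h.Lo (θ - off) t φ₁ w)) = F.al (pos θ (h.H φ₁.1 (θ - off) t w)) := rfl
        have c2 : F.al (pos θ (h.Lo (θ - off) t φ₁ z)) = F.al (pos θ (h.H φ₁.1 (θ - off) t z)) := rfl
        refine ⟨?_, ?_⟩
        · show α - h.κ ≤ F.al (pos θ (h.H φ₁.1 (θ - off) t m))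
          linarith
        · show F.al (pos θ (h.H φ₁.1 (θ - off) t m)) ≤ β + h.κ
          linarith
      · have hw' : α ≤ F.al (pos θ (h.Up dI (θ - off) t φ₁ w)) := hw.1
        have hz' : F.al (pos θ (h.Up dI (θ - off) t φ₁ z)) ≤ β := hz.2
        have b1 := h.back φ₁.2 (θ - off - dI) t w m hwm
        have b2 := h.back φ₁.2 (θ - off - dI) t m z hmz
        rw [al_pos_sub2, al_pos_sub2, al_pos_sub2, al_pos_sub2] at b1 b2
        have c1 : F.al (pos θ (h.Up dI (θ - off) t φ₁ w)) =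
          F.al (pos θ (h.H φ₁.2 (θ - off - dI) t w)) := rfl
        have c2 : F.al (pos θ (h.Up dI (θ - off) t φ₁ z)) =
          F.al (pos θ (h.H φ₁.2 (θ - off - dI) t z)) := rfl
        refine ⟨?_, ?_⟩
        · show α - h.κ ≤ F.al (pos θ (h.H φ₁.2 (θ - off - dI) t m))
          linarith
        · show F.al (pos θ (h.H φ₁.2 (θ - off - dI) t m)) ≤ β + h.κ
          linarith)
    (by
      intro k hk
      interval_cases k
      · exact hne0
      · exact hne1
      · exact hne2)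
    (bddBelow_routes ht _ _ _ _ _)
  have e3 : ∑ k ∈ Finset.range (2 + 1), hull t (four h off dI dO θ t φ φ₁ k)
      (four h off dI dO θ t φ φ₁ (k + 1)) (rg F (Set.Icc α β) θ) (i k) (i (k + 1)) =
      h.hk off (Set.Icc α β) s s₁ θ t (φlo φ φ₁) +
      h.hk dI (Set.Icc (α - F.al off) (β - F.al off)) s₁ s₂ (θ - off) t φ₁ +
      h.hk (dU off dI dO) (Set.Icc (α - F.al off - F.al dI) (β - F.al off - F.al dI)) s₂ s'
          (θ - off - dI) t (φup φ φ₁) := by
    rw [Finset.sum_range_succ, Finset.sum_range_succ, Finset.sum_range_one]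
    unfold hk
    rw [r1, r2, eU, eI]
    rfl
  rw [e3] at hsum
  have e4 : hull t (four h off dI dO θ t φ φ₁ 0) (four h off dI dO θ t φ φ₁ (2 + 1))
      (rg F (Set.Icc (α - h.κ) (β + h.κ)) θ) (i 0) (i (2 + 1)) =
      h.hk dO (Set.Icc (α - h.κ) (β + h.κ)) s s' θ t φ := rfl
  rw [e4] at hsum
  unfold gE sk K0
  linarith

end Hwy

end Q

end Crest.Agent.R151
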