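import Crest.Agent.R151.V15
import Crest.Agent.R151.G338j

-- ▼ part R151/V16
section

/-!
# R151/V16 — consequences of conditional log-concavity on the one-row space (owner helper52)

`X` = hull cost of the row minus an `S`-measurable variable `ρ`, `D` = gauge `- ρ`, so that
`R# = X - D ≥ 0`, and given `S` the variable `X` is log-concave.  For `A ∈ σ(S)` (typical strips):
* `SData.tail` : `P ({a ≤ R#} ∩ A ∩ {|D| ≤ d}) ≤ 2 exp (-(q/2) a / (τ + 3 d))`, every `a ≥ 0`;
* `SData.small_ball` : `P ({R# ≤ a} ∩ A) ≤ 3 δ + (a + 3 d) / t * log (3 / q)`, every `a ≥ 0`;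
* `SData.mean` : `∫_A R# ≤ E|D| + (4/q) (τ + 3 d)`;
* `SData.mean'` : sharp constant when `q ≥ 7/8`;
* `SData.ui` : the atypical part.
-/

set_option autoImplicit false
set_option linter.unusedSectionVars false

open MeasureTheory ProbabilityTheory Set
open scoped ENNReal
open Crest.ProbabilityR.FirstPassage

namespace Crest.Agent.R151.V

open Crest.Agent.R151.K
open Q (P0)
open M192 (Row)

section pure

variable {Ω : Type*} [MeasurableSpace Ω] {μ : Measure Ω} {X : Ω → ℝ}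

lemma one_sub_pow_le {q x : ℝ} (hq1 : q ≤ 1) (hx : 0 ≤ x) :
    (1 - q / 2) ^ x ≤ Real.exp (-(q / 2) * x) := by
  have h1 : 1 - q / 2 ≤ Real.exp (-(q / 2)) := by
    have := Real.add_one_le_exp (-(q / 2)); linarith
  calc (1 - q / 2) ^ x ≤ Real.exp (-(q / 2)) ^ x :=
        Real.rpow_le_rpow (by linarith) h1 hx
    _ = Real.exp (-(q / 2) * x) := by rw [← Real.exp_mul]

/-- (7.2), tail of the log-concave variable itself -/
theorem LC.pert_tail_X [IsProbabilityMeasure μ] (h : LC μ X) (hX : Measurable X) {Z : Ω → ℝ}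
    {d δ t q a : ℝ} (hd : 0 < d) (ht : 0 ≤ t) (hδ : δ ≤ q / 4) (hq0 : 0 ≤ q) (hq1 : q ≤ 1)
    (hE : μ.real {ω | ¬ (|Z ω - X ω| ≤ d ∧ 0 ≤ Z ω)} ≤ δ)
    (hZ : q ≤ μ.real {ω | Z ω ≤ t}) (ha : 0 ≤ a) :
    μ.real {ω | a - d ≤ X ω} ≤ 2 * Real.exp (-(q / 2) * (a / (t + 3 * d))) := by
  have hpos : 0 < t + 3 * d := by linarith
  rcases le_total (t + 3 * d) a with ha' | ha'
  · obtain ⟨h1, h2⟩ := pert_ratio hX hd hδ hq1 hE hZ
    have h3 := h.tail' (a0 := -d) (t1 := t + 2 * d) (a := a - d) (by linarith) (by linarith) h1 h2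
    have e1 : (a - d - -d) / (t + 2 * d - -d) = a / (t + 3 * d) := by congr 1 <;> ring
    rw [e1] at h3
    have h4 := one_sub_pow_le (x := a / (t + 3 * d)) hq1 (by positivity)
    have h5 := Real.exp_pos (-(q / 2) * (a / (t + 3 * d)))
    linarith
  · have h1 : a / (t + 3 * d) ≤ 1 := by rw [div_le_one hpos]; exact ha'
    have h2 : (1 : ℝ) / 2 ≤ Real.exp (-(q / 2) * (a / (t + 3 * d))) := by
      have h3 : -(1 / 2 : ℝ) ≤ -(q / 2) * (a / (t + 3 * d)) := by
        have : 0 ≤ a / (t + 3 * d) := by positivity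
        nlinarith
      have h4 := Real.add_one_le_exp (-(q / 2) * (a / (t + 3 * d)))
      linarith
    have h6 : μ.real {ω | a - d ≤ X ω} ≤ 1 := measureReal_le_one
    linarith

/-- (7.1), for every `a ≥ 0` and with `≤` -/
theorem LC.pert_small_ball' [IsProbabilityMeasure μ] (h : LC μ X) (hX : Measurable X) {Z : Ω → ℝ}
    {d δ t q a : ℝ} (hd : 0 < d) (ht : 0 < t) (ha0 : 0 ≤ a)
    (hδ : δ ≤ 1 / 2) (hq0 : 0 < q) (hq1 : q ≤ 1)
    (hE : μ.real {ω | ¬ (|Z ω - X ω| ≤ d ∧ 0 ≤ Z ω)} ≤ δ)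
    (hZ : q + δ ≤ μ.real {ω | t ≤ Z ω}) :
    μ.real {ω | Z ω ≤ a} ≤ 3 * δ + (a + 3 * d) / t * Real.log (3 / q) := by
  have hδ0 : 0 ≤ δ := measureReal_nonneg.trans hE
  have hl3 : 1 ≤ Real.log 3 := by
    have h1 : Real.exp 1 ≤ 3 := by
      have := Real.exp_one_lt_d9; linarith
    have h2 := Real.log_le_log (Real.exp_pos 1) h1
    rwa [Real.log_exp] at h2
  have hl : Real.log 3 ≤ Real.log (3 / q) :=
    Real.log_le_log (by norm_num) (by rw [le_div_iff₀ hq0]; linarith)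
  have hl1 : 1 ≤ Real.log (3 / q) := hl3.trans hl
  rcases le_total (a + 3 * d) t with ha | ha
  · have h1 := h.pert_small_ball hX (a := a + d) hd.le ht (by linarith) (by linarith) hδ hq0 hE hZ
    have h2 : μ.real {ω | Z ω ≤ a} ≤ μ.real {ω | Z ω < a + d} :=
      measureReal_mono (fun ω (hω : Z ω ≤ a) => show Z ω < a + d by linarith)
        (measure_ne_top _ _)
    have h3 : Real.log (1 / q) ≤ Real.log (3 / q) :=
      Real.log_le_log (by positivity) (by gcongr; norm_num)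
    have h4 : (a + d + 2 * d) / t = (a + 3 * d) / t := by congr 1; ring
    rw [h4] at h1
    have h5 : (a + 3 * d) / t * Real.log (1 / q) ≤ (a + 3 * d) / t * Real.log (3 / q) :=
      mul_le_mul_of_nonneg_left h3 (by positivity)
    linarith
  · have h1 : 1 ≤ (a + 3 * d) / t := by rw [one_le_div ht]; exact ha
    have h2 : 1 * 1 ≤ (a + 3 * d) / t * Real.log (3 / q) :=
      mul_le_mul h1 hl1 zero_le_one (by linarith)
    have h3 : μ.real {ω | Z ω ≤ a} ≤ 1 := measureReal_le_one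
    linarith


end pure

section SD

variable {Φ : Type*} [MeasurableSpace Φ] {E : ℝ × ℝ → Set (Sym2 (ℤ × ℤ))}
  {G : Measure ℝ} [IsProbabilityMeasure G] {ν : Measure Φ} [IsProbabilityMeasure ν]

/-- `X` = hull cost of a row minus an `S`-measurable variable, `D` = gauge minus the same variable;
`X - D` = `R#`. -/
structure SData (G : Measure ℝ) (ν : Measure Φ) (E : ℝ × ℝ → Set (Sym2 (ℤ × ℤ)))
    (X D : Row Φ → ℝ) : Prop where
  hE : ∀ e, MeasurableSet {θ | e ∈ E θ}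
  hX : Measurable X
  hD : Measurable D
  hDi : Integrable D ((P0 G).prod ν)
  lc : ∀ᵐ p ∂((P0 G).prod ν), LC (iidLaw G) (fun t => X (cs E p t))
  nonneg : ∀ᵐ p ∂((P0 G).prod ν), 0 ≤ X p - D p


variable {X D : Row Φ → ℝ}

lemma SData.cond_err (h : SData G ν E X D) {A : Set (Row Φ)} {d δ : ℝ}
    (hD : ∀ᵐ p ∂((P0 G).prod ν), p ∈ A → (iidLaw G).real {t | d < |D (cs E p t)|} ≤ δ) :
    ∀ᵐ p ∂((P0 G).prod ν), p ∈ A → (iidLaw G).real
      {t | ¬ (|(X (cs E p t) - D (cs E p t)) - X (cs E p t)| ≤ d ∧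
        0 ≤ X (cs E p t) - D (cs E p t))} ≤ δ := by
  filter_upwards [hD, ae_cs h.hE h.nonneg] with p hp h0 hpA
  refine le_trans (ENNReal.toReal_mono (measure_ne_top _ _) (measure_mono_ae ?_)) (hp hpA)
  filter_upwards [h0] with t ht hcon
  show d < |D (cs E p t)|
  by_contra hlt
  push Not at hlt
  refine hcon ⟨?_, ht⟩
  have : X (cs E p t) - D (cs E p t) - X (cs E p t) = -D (cs E p t) := by ring
  rw [this, abs_neg]
  exact hlt

/-- exponential tail on `A ∩ {|D| ≤ d}` -/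
theorem SData.tail (h : SData G ν E X D) {A : Set (Row Φ)} (hA : MeasurableSet A)
    (hS : SInv E A) {d δ τ q : ℝ} (hd : 0 < d) (hτ : 0 ≤ τ) (hδ : δ ≤ q / 4) (hq0 : 0 ≤ q)
    (hq1 : q ≤ 1)
    (hD : ∀ᵐ p ∂((P0 G).prod ν), p ∈ A → (iidLaw G).real {t | d < |D (cs E p t)|} ≤ δ)
    (hZ : ∀ᵐ p ∂((P0 G).prod ν), p ∈ A →
      q ≤ (iidLaw G).real {t | X (cs E p t) - D (cs E p t) ≤ τ}) {a : ℝ} (ha : 0 ≤ a) :
    ((P0 G).prod ν).real ({p | a ≤ X p - D p} ∩ (A ∩ {p | |D p| ≤ d})) ≤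
      2 * Real.exp (-(q / 2) * (a / (τ + 3 * d))) := by
  refine le_trans (measureReal_mono (s₂ := {p | a - d ≤ X p} ∩ A) ?_ (measure_ne_top _ _)) ?_
  · rintro p ⟨h1, h2, h3⟩
    refine ⟨?_, h2⟩
    simp only [mem_ofPred_eq] at h1 h3 ⊢
    rw [abs_le] at h3
    linarith [h3.1]
  · refine prob_inter_le h.hE hA hS (measurableSet_le measurable_const h.hX) (by positivity) ?_
    filter_upwards [h.lc, h.cond_err hD, hZ] with p hlc herr hz hpA
    exact hlc.pert_tail_X (h.hX.comp (measurable_cs_right E p)) (Z := fun t =>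
      X (cs E p t) - D (cs E p t)) hd hτ hδ hq0 hq1 (herr hpA) (hz hpA) ha


/-- comparison of conditional means ⟹ comparison of means on `A ∈ σ(S)` -/
theorem lintegral_inter_le2 (hE : ∀ e, MeasurableSet {θ | e ∈ E θ}) {A : Set (Row Φ)}
    (hA : MeasurableSet A) (hS : SInv E A) {f g : Row Φ → ℝ≥0∞} (hf : Measurable f)
    (hg : Measurable g) {c : ℝ≥0∞}
    (h : ∀ᵐ p ∂((P0 G).prod ν), p ∈ A →
      ∫⁻ t, f (cs E p t) ∂(iidLaw G) ≤ ∫⁻ t, g (cs E p t) ∂(iidLaw G) + c) :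
    ∫⁻ p in A, f p ∂((P0 G).prod ν) ≤
      ∫⁻ p in A, g p ∂((P0 G).prod ν) + c * ((P0 G).prod ν) A := by
  have key : ∀ f : Row Φ → ℝ≥0∞, Measurable f → ∫⁻ p in A, f p ∂((P0 G).prod ν) =
      ∫⁻ p in A, ∫⁻ t, f (cs E p t) ∂(iidLaw G) ∂((P0 G).prod ν) := by
    intro f hf
    rw [← lintegral_indicator hA, ← lintegral_cs hE (hf.indicator hA), ← lintegral_indicator hA]
    refine lintegral_congr fun p => ?_
    by_cases hp : p ∈ A
    · rw [indicator_of_mem hp]
      refine lintegral_congr fun t => ?_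
      rw [indicator_of_mem ((hS p t).2 hp)]
    · rw [indicator_of_notMem hp]
      rw [← lintegral_zero (μ := iidLaw G)]
      refine lintegral_congr fun t => ?_
      rw [indicator_of_notMem (fun h => hp ((hS p t).1 h))]
  rw [key f hf, key g hg]
  have hm : Measurable fun p : Row Φ => ∫⁻ t, g (cs E p t) ∂(iidLaw G) :=
    (hg.comp (measurable_cs hE)).lintegral_prod_right'
  rw [← setLIntegral_const, ← lintegral_add_left hm]
  refine lintegral_mono_ae ?_
  rw [ae_restrict_iff' hA]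
  exact h

lemma SData.lintegral_abs (h : SData G ν E X D) :
    ∫⁻ p, ENNReal.ofReal |D p| ∂((P0 G).prod ν) =
      ENNReal.ofReal (∫ p, |D p| ∂((P0 G).prod ν)) :=
  (ofReal_integral_eq_lintegral_ofReal h.hDi.abs (ae_of_all _ fun _ => abs_nonneg _)).symm

lemma toReal_bound {f : Row Φ → ℝ} {A : Set (Row Φ)} (hf : Measurable f)
    (hf0 : ∀ᵐ p ∂((P0 G).prod ν), 0 ≤ f p) {c : ℝ} (hc : 0 ≤ c)
    (h : ∫⁻ p in A, ENNReal.ofReal (f p) ∂((P0 G).prod ν) ≤ ENNReal.ofReal c) :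
    IntegrableOn f A ((P0 G).prod ν) ∧ ∫ p in A, f p ∂((P0 G).prod ν) ≤ c := by
  have h5 : 0 ≤ᵐ[((P0 G).prod ν).restrict A] f := ae_restrict_of_ae hf0
  refine ⟨⟨hf.aestronglyMeasurable, ?_⟩, ?_⟩
  · rw [hasFiniteIntegral_iff_ofReal h5]
    exact lt_of_le_of_lt h ENNReal.ofReal_lt_top
  · rw [integral_eq_lintegral_of_nonneg_ae h5 hf.aestronglyMeasurable]
    exact ENNReal.toReal_le_of_le_ofReal hc h

/-- mean of `R#` on `A ∈ σ(S)`, any `K ≥ 0` bounding the conditional mean up to `|D|` -/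
lemma SData.mean_aux (h : SData G ν E X D) {A : Set (Row Φ)} (hA : MeasurableSet A)
    (hS : SInv E A) {K : ℝ} (hK : 0 ≤ K)
    (hm : ∀ᵐ p ∂((P0 G).prod ν), p ∈ A →
      ∫⁻ t, ENNReal.ofReal (X (cs E p t) - D (cs E p t)) ∂(iidLaw G) ≤
        ∫⁻ t, ENNReal.ofReal |D (cs E p t)| ∂(iidLaw G) + ENNReal.ofReal K) :
    IntegrableOn (fun p => X p - D p) A ((P0 G).prod ν) ∧
      ∫ p in A, (X p - D p) ∂((P0 G).prod ν) ≤ ∫ p, |D p| ∂((P0 G).prod ν) + K := by
  have h1 := lintegral_inter_le2 (G := G) (ν := ν) h.hE hA hS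
    (f := fun p => ENNReal.ofReal (X p - D p)) (g := fun p => ENNReal.ofReal |D p|)
    (ENNReal.measurable_ofReal.comp (h.hX.sub h.hD))
    (ENNReal.measurable_ofReal.comp h.hD.abs) (c := ENNReal.ofReal K) hm
  have h2 : ∫⁻ p in A, ENNReal.ofReal (X p - D p) ∂((P0 G).prod ν) ≤
      ENNReal.ofReal (∫ p, |D p| ∂((P0 G).prod ν) + K) := by
    rw [ENNReal.ofReal_add (integral_nonneg fun _ => abs_nonneg _) hK, ← h.lintegral_abs]
    refine h1.trans (add_le_add (setLIntegral_le_lintegral _ _) ?_)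
    exact mul_le_of_le_one_right zero_le prob_le_one
  exact toReal_bound (h.hX.sub h.hD) h.nonneg
    (add_nonneg (integral_nonneg fun _ => abs_nonneg _) hK) h2

/-- mean of `R#` on typical strips -/
theorem SData.mean (h : SData G ν E X D) {A : Set (Row Φ)} (hA : MeasurableSet A)
    (hS : SInv E A) {d δ τ q : ℝ} (hd : 0 < d) (hτ : 0 ≤ τ) (hδ : δ ≤ q / 4) (hq0 : 0 < q)
    (hq1 : q ≤ 1)
    (hD : ∀ᵐ p ∂((P0 G).prod ν), p ∈ A → (iidLaw G).real {t | d < |D (cs E p t)|} ≤ δ)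
    (hZ : ∀ᵐ p ∂((P0 G).prod ν), p ∈ A →
      q ≤ (iidLaw G).real {t | X (cs E p t) - D (cs E p t) ≤ τ}) :
    IntegrableOn (fun p => X p - D p) A ((P0 G).prod ν) ∧
      ∫ p in A, (X p - D p) ∂((P0 G).prod ν) ≤
        ∫ p, |D p| ∂((P0 G).prod ν) + (4 / q) * (τ + 3 * d) := by
  refine h.mean_aux hA hS (by positivity) ?_
  filter_upwards [h.lc, h.cond_err hD, hZ] with p hlc herr hz hpA
  have hm := measurable_cs_right E p
  have h1 := hlc.pert_mean (h.hX.comp hm) (Z := fun t => X (cs E p t) - D (cs E p t))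
    ((h.hX.sub h.hD).comp hm) hd hτ hδ hq0 hq1 (herr hpA) (hz hpA)
  have h2 : ∀ t, |X (cs E p t) - D (cs E p t) - X (cs E p t)| = |D (cs E p t)| := by
    intro t
    rw [← abs_neg]
    congr 1
    ring
  simp only [h2] at h1
  exact h1


end SD

end Crest.Agent.R151.V
end

-- ▼ part R151/V17
section

/-!
# R151/V17 — uniform integrability, and the passage closeness ⟹ typical strips (owner helper52)

* `SData.ui` : `∫ R#` over the atypical rows is small (F_ui);
* `le_condProb` : on `typ N c`, `N ⊇ I ∩ Bᶜ`, the conditional probability of `B` is at least the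
  conditional probability of the inner event `I` minus `c`;
* `SData.T1`, `SData.T2_tail`, `SData.T2_mean`, `SData.T2_mean'` : (7.1), (7.2) of P2_v2 / (T1), (T2)
  of PR777 in the final unconditional form, for any `A ∈ σ(S)` inside the typical sets.
-/

set_option autoImplicit false
set_option linter.unusedSectionVars false

open MeasureTheory ProbabilityTheory Set
open scoped ENNReal
open Crest.ProbabilityR.FirstPassage

namespace Crest.Agent.R151.V

open Crest.Agent.R151.K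
open Q (P0)
open M192 (Row)

variable {Φ : Type*} [MeasurableSpace Φ] {E : ℝ × ℝ → Set (Sym2 (ℤ × ℤ))}
  {G : Measure ℝ} [IsProbabilityMeasure G] {ν : Measure Φ} [IsProbabilityMeasure ν]
  {X D : Row Φ → ℝ} {Ω : Type*} [MeasurableSpace Ω] {κ : Measure Ω} [IsProbabilityMeasure κ]

/-- the part `S` atypical: `R# ≤ V + err`, `V` = inner cost, whose conditional mean is `≤ m` -/
theorem SData.ui_atyp (h : SData G ν E X D) {A : Set (Row Φ)} (hA : MeasurableSet A)
    (hS : SInv E A) {m : ℝ} {V err : Row Φ × Ω → ℝ} (hV : Measurable V)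
    (hVm : ∀ᵐ p ∂((P0 G).prod ν), ∫⁻ x, ENNReal.ofReal (V (cs E p x.1, x.2))
      ∂((iidLaw G).prod κ) ≤ ENNReal.ofReal m)
    (hei : Integrable err (((P0 G).prod ν).prod κ))
    (hle : ∀ᵐ y ∂(((P0 G).prod ν).prod κ), X y.1 - D y.1 ≤ V y + err y) :
    ∫⁻ p in A, ENNReal.ofReal (X p - D p) ∂((P0 G).prod ν) ≤
      ENNReal.ofReal m * ((P0 G).prod ν) A +
        ENNReal.ofReal (∫ y, |err y| ∂(((P0 G).prod ν).prod κ)) := by
  set P := (P0 G).prod ν with hP
  have hVo : Measurable fun y => ENNReal.ofReal (V y) := ENNReal.measurable_ofReal.comp hV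
  have hW : Measurable fun p : Row Φ => ∫⁻ ω, ENNReal.ofReal (V (p, ω)) ∂κ :=
    hVo.lintegral_prod_right'
  have hle' := Measure.ae_ae_of_ae_prod hle
  have h1 : ∀ᵐ p ∂P, ENNReal.ofReal (X p - D p) ≤
      ∫⁻ ω, ENNReal.ofReal (V (p, ω)) ∂κ + ∫⁻ ω, ENNReal.ofReal |err (p, ω)| ∂κ := by
    filter_upwards [hle'] with p hp
    have hVp : Measurable fun ω => ENNReal.ofReal (V (p, ω)) :=
      hVo.comp (measurable_const.prodMk measurable_id)
    rw [← lintegral_add_left hVp]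
    calc ENNReal.ofReal (X p - D p) = ∫⁻ _, ENNReal.ofReal (X p - D p) ∂κ := by
          rw [lintegral_const, measure_univ, mul_one]
      _ ≤ _ := by
          refine lintegral_mono_ae ?_
          filter_upwards [hp] with ω hω
          calc ENNReal.ofReal (X p - D p) ≤ ENNReal.ofReal (V (p, ω) + |err (p, ω)|) :=
                ENNReal.ofReal_le_ofReal (hω.trans (by
                  have := le_abs_self (err (p, ω)); linarith))
            _ ≤ _ := ENNReal.ofReal_add_le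
  have h2 : ∫⁻ p in A, ∫⁻ ω, ENNReal.ofReal (V (p, ω)) ∂κ ∂P ≤ ENNReal.ofReal m * P A := by
    refine lintegral_inter_le (G := G) (ν := ν) h.hE hA hS hW ?_
    filter_upwards [hVm] with p hp _
    have h3 : Measurable fun x : Environment × Ω => ENNReal.ofReal (V (cs E p x.1, x.2)) :=
      hVo.comp (((measurable_cs_right E p).comp measurable_fst).prodMk measurable_snd)
    rw [lintegral_prod _ h3.aemeasurable] at hp
    exact hp
  have h4 : ∫⁻ p in A, ∫⁻ ω, ENNReal.ofReal |err (p, ω)| ∂κ ∂P ≤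
      ENNReal.ofReal (∫ y, |err y| ∂(P.prod κ)) := by
    refine (setLIntegral_le_lintegral _ _).trans ?_
    rw [ofReal_integral_eq_lintegral_ofReal hei.abs (ae_of_all _ fun _ => abs_nonneg _)]
    have hma : AEMeasurable (fun y => ENNReal.ofReal |err y|) (P.prod κ) :=
      ENNReal.measurable_ofReal.comp_aemeasurable hei.abs.aestronglyMeasurable.aemeasurable
    exact le_of_eq (lintegral_prod _ hma).symm
  calc ∫⁻ p in A, ENNReal.ofReal (X p - D p) ∂P
      ≤ ∫⁻ p in A, (∫⁻ ω, ENNReal.ofReal (V (p, ω)) ∂κ +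
          ∫⁻ ω, ENNReal.ofReal |err (p, ω)| ∂κ) ∂P :=
        lintegral_mono_ae (ae_restrict_of_ae h1)
    _ = ∫⁻ p in A, ∫⁻ ω, ENNReal.ofReal (V (p, ω)) ∂κ ∂P +
          ∫⁻ p in A, ∫⁻ ω, ENNReal.ofReal |err (p, ω)| ∂κ ∂P := lintegral_add_left hW _
    _ ≤ _ := add_le_add h2 h4

/-- the part `S` typical, `|D| > d` -/
theorem SData.ui_typ (h : SData G ν E X D) {A : Set (Row Φ)} (hA : MeasurableSet A)
    (hS : SInv E A) {d δ τ q : ℝ} (hd : 0 < d) (hτ : 0 ≤ τ) (hδ : δ ≤ q / 4) (hq0 : 0 < q)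
    (hq1 : q ≤ 1)
    (hD : ∀ᵐ p ∂((P0 G).prod ν), p ∈ A → (iidLaw G).real {t | d < |D (cs E p t)|} ≤ δ)
    (hZ : ∀ᵐ p ∂((P0 G).prod ν), p ∈ A →
      q ≤ (iidLaw G).real {t | X (cs E p t) - D (cs E p t) ≤ τ}) {b : ℝ} (hb : τ + 2 * d ≤ b) :
    ∫⁻ p in A ∩ {p | d < |D p|}, ENNReal.ofReal (X p - D p) ∂((P0 G).prod ν) ≤
      ENNReal.ofReal (∫ p, |D p| ∂((P0 G).prod ν) + b * ((∫ p, |D p| ∂((P0 G).prod ν)) / d) +
        (τ + 3 * d) * (2 / q) * Real.exp (-(q / 2) * (b / (τ + 3 * d)))) := by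
  set P := (P0 G).prod ν with hP
  set T : Set (Row Φ) := {p | d < |D p|} with hT
  have hTm : MeasurableSet T := measurableSet_lt measurable_const h.hD.abs
  have hb0 : 0 ≤ b := by linarith
  have hI0 : 0 ≤ ∫ p, |D p| ∂P := integral_nonneg fun _ => abs_nonneg _
  have hpos : 0 < τ + 3 * d := by linarith
  have hXo : Measurable fun p => ENNReal.ofReal (X p - b) :=
    ENNReal.measurable_ofReal.comp (h.hX.sub_const b)
  have h1 : ∫⁻ p in A, ENNReal.ofReal (X p - b) ∂P ≤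
      ENNReal.ofReal ((τ + 3 * d) * (2 / q) * Real.exp (-(q / 2) * (b / (τ + 3 * d)))) := by
    have h2 := lintegral_inter_le (G := G) (ν := ν) h.hE hA hS hXo
      (c := ENNReal.ofReal ((τ + 3 * d) * (2 / q) * Real.exp (-(q / 2) * (b / (τ + 3 * d))))) (by
        filter_upwards [h.lc, h.cond_err hD, hZ] with p hlc herr hz hpA
        have h3 := hlc.pert_lintegral (h.hX.comp (measurable_cs_right E p)) (Z := fun t =>
          X (cs E p t) - D (cs E p t)) hd hτ hδ hq0 hq1 (herr hpA) (hz hpA) hb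
        refine h3.trans (ENNReal.ofReal_le_ofReal ?_)
        refine mul_le_mul_of_nonneg_left ?_ (by positivity)
        have h4 := one_sub_pow_le (q := q) (x := (b + d) / (τ + 3 * d)) hq1 (by positivity)
        refine h4.trans (Real.exp_le_exp.2 ?_)
        have h5 : b / (τ + 3 * d) ≤ (b + d) / (τ + 3 * d) := by gcongr; linarith
        nlinarith)
    exact h2.trans (mul_le_of_le_one_right zero_le prob_le_one)
  have hPT : P T ≤ ENNReal.ofReal ((∫ p, |D p| ∂P) / d) := by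
    have h2 : P.real T ≤ (∫ p, |D p| ∂P) / d := by
      rw [le_div_iff₀ hd, mul_comm]
      have h3 := mul_meas_ge_le_integral_of_nonneg (μ := P) (f := fun p => |D p|)
        (ae_of_all _ fun p => abs_nonneg _) h.hDi.abs d
      refine le_trans ?_ h3
      refine mul_le_mul_of_nonneg_left ?_ hd.le
      exact measureReal_mono (fun p (hp : d < |D p|) => hp.le) (measure_ne_top _ _)
    exact (ENNReal.le_ofReal_iff_toReal_le (measure_ne_top _ _) (by positivity)).2 h2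
  have hDo : Measurable fun p => ENNReal.ofReal |D p| :=
    ENNReal.measurable_ofReal.comp h.hD.abs
  calc ∫⁻ p in A ∩ T, ENNReal.ofReal (X p - D p) ∂P
      ≤ ∫⁻ p in A ∩ T, (ENNReal.ofReal |D p| + (ENNReal.ofReal b +
          ENNReal.ofReal (X p - b))) ∂P := by
        refine lintegral_mono fun p => ?_
        have h3 : X p - D p ≤ |D p| + (b + max (X p - b) 0) := by
          have := neg_abs_le (D p)
          have := le_max_left (X p - b) 0
          linarith
        calc ENNReal.ofReal (X p - D p)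
            ≤ ENNReal.ofReal (|D p| + (b + max (X p - b) 0)) := ENNReal.ofReal_le_ofReal h3
          _ = _ := by
            rw [ENNReal.ofReal_add (abs_nonneg _) (by positivity),
              ENNReal.ofReal_add hb0 (le_max_right _ _), ENNReal.ofReal_max]
            simp
    _ = ∫⁻ p in A ∩ T, ENNReal.ofReal |D p| ∂P + (ENNReal.ofReal b * P (A ∩ T) +
          ∫⁻ p in A ∩ T, ENNReal.ofReal (X p - b) ∂P) := by
        rw [lintegral_add_left hDo, lintegral_add_left measurable_const, setLIntegral_const]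
    _ ≤ ∫⁻ p, ENNReal.ofReal |D p| ∂P + (ENNReal.ofReal b * P T +
          ∫⁻ p in A, ENNReal.ofReal (X p - b) ∂P) := by
        refine add_le_add (setLIntegral_le_lintegral _ _) (add_le_add ?_ ?_)
        · exact mul_le_mul_right (measure_mono inter_subset_right) _
        · exact lintegral_mono_set inter_subset_left
    _ ≤ ENNReal.ofReal (∫ p, |D p| ∂P) +
          (ENNReal.ofReal b * ENNReal.ofReal ((∫ p, |D p| ∂P) / d) +
          ENNReal.ofReal ((τ + 3 * d) * (2 / q) *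
            Real.exp (-(q / 2) * (b / (τ + 3 * d))))) := by
        rw [h.lintegral_abs]
        gcongr
    _ = _ := by
        rw [← ENNReal.ofReal_mul hb0, ← ENNReal.ofReal_add (by positivity) (by positivity),
          ← ENNReal.ofReal_add hI0 (by positivity)]
        congr 1
        ring

/-- **uniform integrability** (`F_ui`): the atypical rows -/
theorem SData.ui (h : SData G ν E X D) {A : Set (Row Φ)} (hA : MeasurableSet A)
    (hS : SInv E A) {d δ τ q : ℝ} (hd : 0 < d) (hτ : 0 ≤ τ) (hδ : δ ≤ q / 4) (hq0 : 0 < q)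
    (hq1 : q ≤ 1)
    (hD : ∀ᵐ p ∂((P0 G).prod ν), p ∈ A → (iidLaw G).real {t | d < |D (cs E p t)|} ≤ δ)
    (hZ : ∀ᵐ p ∂((P0 G).prod ν), p ∈ A →
      q ≤ (iidLaw G).real {t | X (cs E p t) - D (cs E p t) ≤ τ})
    {m : ℝ} (hm : 0 ≤ m) {V err : Row Φ × Ω → ℝ} (hV : Measurable V)
    (hVm : ∀ᵐ p ∂((P0 G).prod ν), ∫⁻ x, ENNReal.ofReal (V (cs E p x.1, x.2))
      ∂((iidLaw G).prod κ) ≤ ENNReal.ofReal m)
    (hei : Integrable err (((P0 G).prod ν).prod κ))
    (hle : ∀ᵐ y ∂(((P0 G).prod ν).prod κ), X y.1 - D y.1 ≤ V y + err y)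
    {b : ℝ} (hb : τ + 2 * d ≤ b) :
    IntegrableOn (fun p => X p - D p) (A ∩ {p | |D p| ≤ d})ᶜ ((P0 G).prod ν) ∧
      ∫ p in (A ∩ {p | |D p| ≤ d})ᶜ, (X p - D p) ∂((P0 G).prod ν) ≤
        m * ((P0 G).prod ν).real Aᶜ + ∫ y, |err y| ∂(((P0 G).prod ν).prod κ) +
        (∫ p, |D p| ∂((P0 G).prod ν) + b * ((∫ p, |D p| ∂((P0 G).prod ν)) / d) +
        (τ + 3 * d) * (2 / q) * Real.exp (-(q / 2) * (b / (τ + 3 * d)))) := by
  set P := (P0 G).prod ν with hP
  have hI0 : 0 ≤ ∫ p, |D p| ∂P := integral_nonneg fun _ => abs_nonneg _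
  have hJ0 : 0 ≤ ∫ y, |err y| ∂(P.prod κ) := integral_nonneg fun _ => abs_nonneg _
  have hb0 : 0 ≤ b := by linarith
  have hpos : 0 < τ + 3 * d := by linarith
  have h1 := h.ui_atyp (κ := κ) hA.compl hS.compl (m := m) hV hVm hei hle
  have h2 := h.ui_typ hA hS hd hτ hδ hq0 hq1 hD hZ hb
  have hsub : (A ∩ {p | |D p| ≤ d})ᶜ ⊆ Aᶜ ∪ (A ∩ {p | d < |D p|}) := by
    intro p hp
    by_cases hpA : p ∈ A
    · right
      refine ⟨hpA, ?_⟩
      by_contra hcon
      simp only [mem_ofPred_eq, not_lt] at hcon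
      exact hp ⟨hpA, hcon⟩
    · exact Or.inl hpA
  refine toReal_bound (h.hX.sub h.hD) h.nonneg (by positivity) ?_
  calc ∫⁻ p in (A ∩ {p | |D p| ≤ d})ᶜ, ENNReal.ofReal (X p - D p) ∂P
      ≤ ∫⁻ p in Aᶜ ∪ (A ∩ {p | d < |D p|}), ENNReal.ofReal (X p - D p) ∂P :=
        lintegral_mono_set hsub
    _ ≤ ∫⁻ p in Aᶜ, ENNReal.ofReal (X p - D p) ∂P +
          ∫⁻ p in A ∩ {p | d < |D p|}, ENNReal.ofReal (X p - D p) ∂P :=
        lintegral_union_le _ _ _
    _ ≤ _ := by
        refine (add_le_add h1 h2).trans ?_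
        have e1 : P Aᶜ = ENNReal.ofReal (P.real Aᶜ) := (ofReal_measureReal).symm
        rw [e1, ← ENNReal.ofReal_mul hm, ← ENNReal.ofReal_add (by positivity) hJ0,
          ← ENNReal.ofReal_add (by positivity) (by positivity)]

/-! ### closeness ⟹ typical -/

/-- on `typ N c`, `N ⊇ I ∩ Bᶜ` -/
lemma le_condProb {I N : Set (Row Φ × Ω)} {B : Set (Row Φ)} (hN : ∀ y ∈ I, y.1 ∉ B → y ∈ N)
    {c q0 : ℝ} {p : Row Φ} (hp : p ∈ typ G E κ N c)
    (hq : q0 ≤ ((iidLaw G).prod κ).real {x | (cs E p x.1, x.2) ∈ I}) :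
    q0 - c ≤ (iidLaw G).real {t | cs E p t ∈ B} := by
  have h1 : ((iidLaw G).prod κ).real {x | (cs E p x.1, x.2) ∈ I} ≤
      ((iidLaw G).prod κ).real ({t | cs E p t ∈ B} ×ˢ univ) +
        ((iidLaw G).prod κ).real {x | (cs E p x.1, x.2) ∈ N} := by
    refine (measureReal_mono ?_ (measure_ne_top _ _)).trans (measureReal_union_le _ _)
    intro x hx
    by_cases hB : cs E p x.1 ∈ B
    · exact Or.inl ⟨hB, mem_univ _⟩
    · exact Or.inr (hN _ hx hB)
  have h2 : ((iidLaw G).prod κ).real ({t | cs E p t ∈ B} ×ˢ univ) =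
      (iidLaw G).real {t | cs E p t ∈ B} := by
    unfold Measure.real
    rw [Measure.prod_prod, measure_univ, mul_one]
  have h3 : ((iidLaw G).prod κ).real {x | (cs E p x.1, x.2) ∈ N} ≤ c := hp
  linarith

/-- on `typ {d < |D|} δ` -/
lemma condD_of_typ {d δ : ℝ} {p : Row Φ}
    (hp : p ∈ typ G E κ {y : Row Φ × Ω | d < |D y.1|} δ) :
    (iidLaw G).real {t | d < |D (cs E p t)|} ≤ δ := by
  have h2 : ((iidLaw G).prod κ).real {x : Environment × Ω | d < |D (cs E p x.1)|} =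
      (iidLaw G).real {t | d < |D (cs E p t)|} := by
    have : {x : Environment × Ω | d < |D (cs E p x.1)|} =
        {t | d < |D (cs E p t)|} ×ˢ univ := by
      ext x; simp
    rw [this]
    unfold Measure.real
    rw [Measure.prod_prod, measure_univ, mul_one]
  rw [← h2]
  exact hp






end Crest.Agent.R151.V
end

-- ▼ part R151/V18

/-!
# R151/V18 — the `S`-measurable gauge from two far lanes, `SData` for the real row (helper52)

* `rhoR` : conditional mean on the one-row space; `R8_row` (R8 on the one-row space);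
* `far_rho` : gauge `hk d univ (-L) L`, two disjoint far lanes: there is `ρ`, `S`-measurable and
  invariant, with `∫ |gauge - ρ| ≤ 3 B`;
* `sdata_hk` : `SData` for (`hk d I s s'`, gauge).
-/

set_option autoImplicit false
set_option linter.unusedSectionVars false

open MeasureTheory ProbabilityTheory Set
open scoped ENNReal
open Crest.ProbabilityR.FirstPassage

namespace Crest.Agent.R151.V

open Crest.Agent.R151.K
open R78 (routes hull)
open Q (pos Hwy P0 UU UU2 phi rg Inv)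
open M192 (Row mIL)
open B710 (FlatData)

section rowR8

variable {Φ : Type*} [MeasurableSpace Φ] {E : ℝ × ℝ → Set (Sym2 (ℤ × ℤ))}
  {G : Measure ℝ} [IsProbabilityMeasure G] {ν : Measure Φ} [IsProbabilityMeasure ν]

/-- conditional mean given `σ(S)` -/
noncomputable def rhoR (G : Measure ℝ) (E : ℝ × ℝ → Set (Sym2 (ℤ × ℤ))) (g : Row Φ → ℝ)
    (p : Row Φ) : ℝ := ∫ t, g (cs E p t) ∂(iidLaw G)

@[simp] lemma rhoR_cs (g : Row Φ → ℝ) (p : Row Φ) (t : Environment) :
    rhoR G E g (cs E p t) = rhoR G E g p := by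
  unfold rhoR
  simp only [cs_cs]

lemma measurable_rhoR (hE : ∀ e, MeasurableSet {θ | e ∈ E θ}) {g : Row Φ → ℝ}
    (hg : Measurable g) : Measurable (rhoR G E g) := by
  have h1 : Measurable (fun x : Row Φ × Environment => g (cs E x.1 x.2)) :=
    hg.comp (measurable_cs hE)
  exact h1.stronglyMeasurable.integral_prod_right.measurable

lemma integrable_rhoR (hE : ∀ e, MeasurableSet {θ | e ∈ E θ}) {g : Row Φ → ℝ}
    (hg : Integrable g ((P0 G).prod ν)) : Integrable (rhoR G E g) ((P0 G).prod ν) :=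
  (integrable_cs hE hg).integral_prod_left


lemma inv_rhoR (hEc : ECov E) {g : Row Φ → ℝ} (hg : Measurable g)
    (hgi : ∀ φ, Inv fun θ t => g ((θ, t), φ)) (φ : Φ) :
    Inv fun θ t => rhoR G E g ((θ, t), φ) := by
  intro m θ t
  unfold rhoR
  simp only
  have h1 : ∫ t', g (cs E ((θ + toR m, act (tr m) t), φ) t') ∂(iidLaw G) =
      ∫ t', g (cs E ((θ + toR m, act (tr m) t), φ) (act (tr m) t')) ∂(iidLaw G) := by
    have h2 := (mp_act (G := G) (tr m)).map_eq
    conv_lhs => rw [← h2]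
    rw [integral_map (mp_act (G := G) (tr m)).measurable.aemeasurable]
    rw [h2]
    exact (hg.comp (measurable_cs_right E _)).aestronglyMeasurable
  rw [h1]
  refine integral_congr_ae (ae_of_all _ fun t' => ?_)
  simp only
  rw [cs_act hEc]
  exact hgi φ m θ (glue (E θ) t t')


/-- conditionally independent `f`, `g`: `E |f - E (g | S)| ≤ E |f - g|` -/
theorem cond_indep_row (hE : ∀ e, MeasurableSet {θ | e ∈ E θ})
    {E1 E2 : ℝ × ℝ → Set (Sym2 (ℤ × ℤ))} (hd : ∀ θ, Disjoint (E1 θ) (E2 θ)) {f g : Row Φ → ℝ}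
    (hf : Measurable f) (hg : Measurable g)
    (hfE : ∀ θ φ, DependsOn (fun t => f ((θ, t), φ)) (E θ ∪ E1 θ))
    (hgE : ∀ θ φ, DependsOn (fun t => g ((θ, t), φ)) (E θ ∪ E2 θ))
    (hfi : Integrable f ((P0 G).prod ν)) (hgi : Integrable g ((P0 G).prod ν)) :
    ∫ p, |f p - rhoR G E g p| ∂((P0 G).prod ν) ≤ ∫ p, |f p - g p| ∂((P0 G).prod ν) := by
  have hρ := integrable_rhoR (G := G) hE hgi
  have h1 := integral_cs (G := G) (ν := ν) hE (hfi.sub hρ).abs
  have h2 := integral_cs (G := G) (ν := ν) hE (hfi.sub hgi).abs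
  simp only [Pi.sub_apply] at h1 h2
  rw [← h1, ← h2]
  refine integral_mono_ae (integrable_cs hE (hfi.sub hρ).abs).integral_prod_left
    (integrable_cs hE (hfi.sub hgi).abs).integral_prod_left ?_
  filter_upwards [(integrable_cs hE hfi).prod_right_ae, (integrable_cs hE hgi).prod_right_ae]
    with p hp1 hp2
  simp only [rhoR_cs]
  have h3 := cond_indep_fixed (G := G) (E p.1.1) (E1 p.1.1) (E2 p.1.1) (hd p.1.1)
    (f := fun t => f ((p.1.1, t), p.2)) (g := fun t => g ((p.1.1, t), p.2))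
    (hf.comp ((measurable_const.prodMk measurable_id).prodMk measurable_const))
    (hg.comp ((measurable_const.prodMk measurable_id).prodMk measurable_const))
    (hfE _ _) (hgE _ _) p.1.2 hp1 hp2
  exact h3

/-- **R8** on the one-row space -/
theorem R8_row (hE : ∀ e, MeasurableSet {θ | e ∈ E θ})
    {E1 E2 : ℝ × ℝ → Set (Sym2 (ℤ × ℤ))} (hd : ∀ θ, Disjoint (E1 θ) (E2 θ))
    {R V1 V2 : Row Φ → ℝ} (hV1 : Measurable V1) (hV2 : Measurable V2)
    (hV1E : ∀ θ φ, DependsOn (fun t => V1 ((θ, t), φ)) (E θ ∪ E1 θ))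
    (hV2E : ∀ θ φ, DependsOn (fun t => V2 ((θ, t), φ)) (E θ ∪ E2 θ))
    (hRi : Integrable R ((P0 G).prod ν)) (hV1i : Integrable V1 ((P0 G).prod ν))
    (hV2i : Integrable V2 ((P0 G).prod ν))
    (h1 : ∀ᵐ p ∂((P0 G).prod ν), R p ≤ V1 p) (h2 : ∀ᵐ p ∂((P0 G).prod ν), R p ≤ V2 p)
    {B : ℝ} (hB1 : ∫ p, V1 p ∂((P0 G).prod ν) ≤ ∫ p, R p ∂((P0 G).prod ν) + B)
    (hB2 : ∫ p, V2 p ∂((P0 G).prod ν) ≤ ∫ p, R p ∂((P0 G).prod ν) + B) :
    ∫ p, |R p - rhoR G E V2 p| ∂((P0 G).prod ν) ≤ 3 * B := by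
  set P := (P0 G).prod ν with hP
  have hρ := integrable_rhoR (G := G) hE hV2i
  have a1 : ∫ p, |R p - V1 p| ∂P ≤ B := by
    have : ∫ p, |R p - V1 p| ∂P = ∫ p, (V1 p - R p) ∂P := by
      apply integral_congr_ae
      filter_upwards [h1] with p hp
      rw [abs_of_nonpos (by linarith)]; ring
    rw [this, integral_sub hV1i hRi]; linarith
  have a2 : ∫ p, |R p - V2 p| ∂P ≤ B := by
    have : ∫ p, |R p - V2 p| ∂P = ∫ p, (V2 p - R p) ∂P := by
      apply integral_congr_ae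
      filter_upwards [h2] with p hp
      rw [abs_of_nonpos (by linarith)]; ring
    rw [this, integral_sub hV2i hRi]; linarith
  have a3 : ∫ p, |V1 p - V2 p| ∂P ≤ 2 * B := by
    calc ∫ p, |V1 p - V2 p| ∂P
        ≤ ∫ p, (|R p - V1 p| + |R p - V2 p|) ∂P := by
          apply integral_mono (hV1i.sub hV2i).abs ((hRi.sub hV1i).abs.add (hRi.sub hV2i).abs)
          intro p
          have := abs_sub_le (V1 p) (R p) (V2 p)
          rw [abs_sub_comm (V1 p) (R p)] at this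
          exact this
      _ = _ := integral_add (hRi.sub hV1i).abs (hRi.sub hV2i).abs
      _ ≤ 2 * B := by linarith
  have a4 := cond_indep_row (G := G) (ν := ν) hE hd hV1 hV2 hV1E hV2E hV1i hV2i
  calc ∫ p, |R p - rhoR G E V2 p| ∂P
      ≤ ∫ p, (|R p - V1 p| + |V1 p - rhoR G E V2 p|) ∂P := by
        apply integral_mono (hRi.sub hρ).abs ((hRi.sub hV1i).abs.add (hV1i.sub hρ).abs)
        intro p
        exact abs_sub_le (R p) (V1 p) _
    _ = _ := integral_add (hRi.sub hV1i).abs (hV1i.sub hρ).abs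
    _ ≤ 3 * B := by linarith

/-- constructor of `SData` from an integrable difference only -/
theorem SData.of' {Hh Gg ρ : Row Φ → ℝ} (hE : ∀ e, MeasurableSet {θ | e ∈ E θ})
    (hH : Measurable Hh) (hG : Measurable Gg) (hρ : Measurable ρ)
    (hρS : ∀ p t, ρ (cs E p t) = ρ p)
    (hDi : Integrable (fun p => Gg p - ρ p) ((P0 G).prod ν))
    (lc : ∀ᵐ p ∂((P0 G).prod ν), LC (iidLaw G) (fun t => Hh (cs E p t)))
    (nonneg : ∀ᵐ p ∂((P0 G).prod ν), 0 ≤ Hh p - Gg p) :
    SData G ν E (fun p => Hh p - ρ p) (fun p => Gg p - ρ p) where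
  hE := hE
  hX := hH.sub hρ
  hD := hG.sub hρ
  hDi := hDi
  lc := by
    filter_upwards [lc] with p hp
    have h1 : (fun t => Hh (cs E p t) - ρ (cs E p t)) = fun t => Hh (cs E p t) - ρ p := by
      funext t; rw [hρS]
    rw [h1]
    exact hp.sub_const _
  nonneg := by
    filter_upwards [nonneg] with p hp
    linarith

end rowR8

section hwy

variable {μ : ℝ × ℝ → ℝ} {F : FlatData μ} (h : Hwy F)

lemma ae_Nn_row {G : Measure ℝ} [IsProbabilityMeasure G] (h0 : G (Set.Iio 0) = 0)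
    {Φ : Type*} [MeasurableSpace Φ] (ν : Measure Φ) [IsProbabilityMeasure ν] :
    ∀ᵐ p ∂((P0 G).prod ν), Nn p.1.2 := by
  have h1 : MeasurePreserving (fun p : ((ℝ × ℝ) × Environment) × Φ => p.1.2)
      ((P0 G).prod ν) (iidLaw G) :=
    (measurePreserving_snd (μ := UU2) (ν := iidLaw G)).comp measurePreserving_fst
  exact h1.quasiMeasurePreserving.ae (ae_Nn h0)

/-- routes nonempty, as an event -/
def NE (d : ℝ × ℝ) (I : Set ℝ) (a b : ℝ) (p : Row (ℝ × ℝ)) : Prop :=
  (routes p.1.2 (h.Lo p.1.1 p.1.2 p.2) (h.Up d p.1.1 p.1.2 p.2) (rg F I p.1.1)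
    (h.iL a p.1.1 p.1.2 p.2) (h.iU d b p.1.1 p.1.2 p.2)).Nonempty

/-- the hull kernel as a function on the row space -/
noncomputable def hkR (d : ℝ × ℝ) (I : Set ℝ) (a b : ℝ) (p : Row (ℝ × ℝ)) : ℝ :=
  h.hk d I a b p.1.1 p.1.2 p.2

/-- excess form -/
noncomputable def hkYR (d : ℝ × ℝ) (I : Set ℝ) (a b : ℝ) (p : Row (ℝ × ℝ)) : ℝ :=
  h.hkY d I a b p.1.1 p.1.2 p.2

lemma measurable_hkR (d : ℝ × ℝ) {I : Set ℝ} (hI : MeasurableSet I) (a b : ℝ) :
    Measurable (hkR h d I a b) :=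
  h.meas_hk (measurable_fst.comp measurable_fst) (measurable_snd.comp measurable_fst)
    measurable_snd d hI a b

lemma measurable_hkYR (d : ℝ × ℝ) {I : Set ℝ} (hI : MeasurableSet I) (a b : ℝ) :
    Measurable (hkYR h d I a b) :=
  h.meas_hkY (measurable_fst.comp measurable_fst) (measurable_snd.comp measurable_fst)
    measurable_snd d hI a b

/-- the S-measurable difference between the excess form and the hull, labels `a`, `b` -/
lemma hkY_sub_hk (d : ℝ × ℝ) (I J : Set ℝ) (a b : ℝ) (p : Row (ℝ × ℝ)) :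
    hkYR h d I a b p - hkR h d I a b p = hkYR h d J a b p - hkR h d J a b p := by
  unfold hkYR hkR Hwy.hkY Hwy.hk R78.hullY
  ring

/-- **the `S`-measurable gauge**, from two disjoint far lanes `I1`, `I2` (R8) -/
theorem far_rho {G : Measure ℝ} [IsProbabilityMeasure G] (h0 : G (Set.Iio 0) = 0)
    (d : ℝ × ℝ) (L : ℝ) {I1 I2 : Set ℝ} (hI1 : MeasurableSet I1) (hI2 : MeasurableSet I2)
    (hI : Disjoint I1 I2)
    (n1 : ∀ᵐ p ∂((P0 G).prod (UU.prod UU)), NE h d I1 (-L) L p) (n2 : ∀ᵐ p ∂((P0 G).prod (UU.prod UU)), NE h d I2 (-L) L p)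
    (iR : Integrable (hkYR h d univ (-L) L) ((P0 G).prod (UU.prod UU))) (i1 : Integrable (hkYR h d I1 (-L) L) ((P0 G).prod (UU.prod UU)))
    (i2 : Integrable (hkYR h d I2 (-L) L) ((P0 G).prod (UU.prod UU)))
    (hR0 : 0 ≤ ∫ p, hkYR h d univ (-L) L p ∂((P0 G).prod (UU.prod UU))) {B : ℝ}
    (hB1 : ∫ p, hkYR h d I1 (-L) L p ∂((P0 G).prod (UU.prod UU)) ≤ B)
    (hB2 : ∫ p, hkYR h d I2 (-L) L p ∂((P0 G).prod (UU.prod UU)) ≤ B) :
    ∃ ρ : Row (ℝ × ℝ) → ℝ, Measurable ρ ∧ (∀ p t, ρ (cs (E0 h d) p t) = ρ p) ∧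
      (∀ φ, Inv fun θ t => ρ ((θ, t), φ)) ∧
      Integrable (fun p => hkR h d univ (-L) L p - ρ p) ((P0 G).prod (UU.prod UU)) ∧
      ∫ p, |hkR h d univ (-L) L p - ρ p| ∂((P0 G).prod (UU.prod UU)) ≤ 3 * B := by
  have hE := measurableSet_E0 h d
  set E := E0 h d with hEdef
  set W : Row (ℝ × ℝ) → ℝ := fun p => hkYR h d univ (-L) L p - hkR h d univ (-L) L p with hW
  have hWm : Measurable W :=
    (measurable_hkYR h d MeasurableSet.univ _ _).sub (measurable_hkR h d MeasurableSet.univ _ _)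
  have hWS : ∀ p t, W (cs E p t) = W p := by
    intro p t
    exact hkY_sub_glue h d univ (-L) L p.1.1 p.1.2 t p.2
  refine ⟨fun p => rhoR G E (hkYR h d I2 (-L) L) p - W p, ?_, ?_, ?_, ?_, ?_⟩
  · exact (measurable_rhoR hE (measurable_hkYR h d hI2 _ _)).sub hWm
  · intro p t
    simp only [rhoR_cs, hWS]
  · intro φ m θ t
    have h1 := inv_rhoR (G := G) (eCov_E0 h d) (measurable_hkYR h d hI2 (-L) L)
      (fun φ => h.hkY_inv d I2 (-L) L φ) φ m θ t
    have h2 := h.hkY_inv d univ (-L) L φ m θ t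
    have h3 := h.hk_inv d univ (-L) L φ m θ t
    simp only at h1 h2 h3 ⊢
    rw [h1]
    simp only [hW, hkYR, hkR]
    rw [h2, h3]
  · have e1 : (fun p => hkR h d univ (-L) L p - (rhoR G E (hkYR h d I2 (-L) L) p - W p)) =
        fun p => hkYR h d univ (-L) L p - rhoR G E (hkYR h d I2 (-L) L) p := by
      funext p; simp only [hW]; ring
    rw [e1]
    exact iR.sub (integrable_rhoR hE i2)
  · have e1 : (fun p => |hkR h d univ (-L) L p - (rhoR G E (hkYR h d I2 (-L) L) p - W p)|) =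
        fun p => |hkYR h d univ (-L) L p - rhoR G E (hkYR h d I2 (-L) L) p| := by
      funext p; simp only [hW]; congr 1; ring
    rw [e1]
    have hle : ∀ {I : Set ℝ}, (∀ᵐ p ∂((P0 G).prod (UU.prod UU)), NE h d I (-L) L p) →
        ∀ᵐ p ∂((P0 G).prod (UU.prod UU)), hkYR h d univ (-L) L p ≤ hkYR h d I (-L) L p := by
      intro I hne
      filter_upwards [hne, ae_Nn_row h0 (UU.prod UU)] with p hp hnn
      have h1 : hkR h d univ (-L) L p ≤ hkR h d I (-L) L p :=
        h.hk_mono hnn d (subset_univ _) le_rfl le_rfl hp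
      have h2 := hkY_sub_hk h d univ I (-L) L p
      linarith
    refine R8_row (G := G) (ν := UU.prod UU) hE
      (E1 := fun θ => edgesIn (rg F I1 θ)) (E2 := fun θ => edgesIn (rg F I2 θ))
      (fun θ => disjoint_rg hI θ) (measurable_hkYR h d hI1 _ _) (measurable_hkYR h d hI2 _ _)
      (fun θ φ => dep_hkY h d I1 (-L) L θ φ) (fun θ φ => dep_hkY h d I2 (-L) L θ φ)
      iR i1 i2 (hle n1) (hle n2) ?_ ?_
    · linarith
    · linarith

/-- **`SData` for the real row**: lane `I`, labels `a → b`, gauge `univ`, labels `-L → L` -/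
theorem sdata_hk {r : ℝ} (hr : 0 < r) (d : ℝ × ℝ) {L a b : ℝ} {I : Set ℝ}
    (hI : MeasurableSet I) (ha : -L ≤ a) (hb : b ≤ L)
    (ne : ∀ᵐ p ∂((P0 (gammaMeasure 1 r)).prod (UU.prod UU)), NE h d I a b p) {ρ : Row (ℝ × ℝ) → ℝ}
    (hρ : Measurable ρ) (hρS : ∀ p t, ρ (cs (E0 h d) p t) = ρ p)
    (hDi : Integrable (fun p => hkR h d univ (-L) L p - ρ p) ((P0 (gammaMeasure 1 r)).prod (UU.prod UU))) :
    SData (gammaMeasure 1 r) (UU.prod UU) (E0 h d) (fun p => hkR h d I a b p - ρ p)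
      (fun p => hkR h d univ (-L) L p - ρ p) := by
  have hγ := isProbabilityMeasure_gammaMeasure zero_lt_one hr
  have h0 : (gammaMeasure 1 r) (Set.Iio 0) = 0 := by
    have := ae_pos_gamma 1 r
    rw [ae_iff] at this
    refine measure_mono_null ?_ this
    intro x hx
    simp only [mem_ofPred_eq, not_le, mem_Iio] at hx ⊢
    exact hx
  refine SData.of' (measurableSet_E0 h d) (measurable_hkR h d hI a b)
    (measurable_hkR h d MeasurableSet.univ (-L) L) hρ hρS hDi ?_ ?_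
  · filter_upwards [ne, ae_Nn_row h0 (UU.prod UU)] with p hp hnn
    exact LC_hk h hr hnn d I a b p.1.1 p.2 hp
  · filter_upwards [ne, ae_Nn_row h0 (UU.prod UU)] with p hp hnn
    have h1 : hkR h d univ (-L) L p ≤ hkR h d I a b p :=
      h.hk_mono hnn d (subset_univ _) ha hb hp
    linarith

end hwy

end Crest.Agent.R151.V
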