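import Crest.Agent.R151.G338m
import Crest.Agent.R151.M56d

/-!
# R151 / Q8c — routes exist: the `Rt` hypotheses of (T1), (T2) (owner helper777)

From 56's `row_nonempty`; `mg := M56.mg F` (margin).
* `rt_of` : general displacement;
* `rt_row` : a row of height `Y` (displacement `Y • b`), `rt_out` (outer row), `rt_inn` (inner row);
* `rt_gauge` : gauge routes `-L → L` in a window or in a far lane;
* `rt_lo`, `rt_up` : gap fences, for all the jitters.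
-/

set_option autoImplicit false

open MeasureTheory Filter ProbabilityTheory Topology Set
open Crest.ProbabilityR.FirstPassage

namespace Crest.Agent.R151.Q

open Crest.Agent.R151.K
open B710 (FlatData)
open M56 (mg row_nonempty)

variable {μ : ℝ × ℝ → ℝ} {F : FlatData μ} {h : Hwy F}

theorem rt_of {d : ℝ × ℝ} {I : Set ℝ} {s s' σ₁ σ₂ : ℝ} (hd : h.wH + 2 * mg F < F.be d)
    (hs : s + mg F ≤ σ₁) (hs' : σ₂ + mg F + h.κ < s' + F.al d)
    (hI : Icc (min σ₁ σ₂ - mg F) (max σ₁ σ₂ + mg F) ⊆ I) : Rt h d I s s' := fun θ t φ =>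
  row_nonempty hd hs hs' hI θ t φ

/-- a row with displacement `Y • b` -/
theorem rt_row {Y : ℝ} {I : Set ℝ} {s s' σ₁ σ₂ : ℝ} (hd : h.wH + 2 * mg F < Y)
    (hs : s + mg F ≤ σ₁) (hs' : σ₂ + mg F + h.κ < s')
    (hI : Icc (min σ₁ σ₂ - mg F) (max σ₁ σ₂ + mg F) ⊆ I) : Rt h (Y • F.b) I s s' :=
  rt_of (by simpa using hd) hs (by simpa using hs') hI

/-- a row with displacement `dOv F y g` -/
theorem rt_out {y g : ℝ} {I : Set ℝ} {s s' σ₁ σ₂ : ℝ} (hd : h.wH + 2 * mg F < y + 2 * g)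
    (hs : s + mg F ≤ σ₁) (hs' : σ₂ + mg F + h.κ < s')
    (hI : Icc (min σ₁ σ₂ - mg F) (max σ₁ σ₂ + mg F) ⊆ I) : Rt h (dOv F y g) I s s' :=
  rt_row hd hs hs' hI

/-- the inner row, lane `Icc αi βi`; crossing from `σ₁` to `σ₂` -/
theorem rt_inn {y : ℝ} {αi βi s s' σ₁ σ₂ : ℝ} (hd : h.wH + 2 * mg F < y)
    (hs : s + mg F ≤ σ₁) (hs' : σ₂ + mg F + h.κ < s')
    (h1 : αi + mg F ≤ σ₁) (h2 : σ₁ ≤ βi - mg F) (h3 : αi + mg F ≤ σ₂) (h4 : σ₂ ≤ βi - mg F) :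
    Rt h (y • F.b) (Icc αi βi) s s' := by
  refine rt_row hd hs hs' (Icc_subset_Icc ?_ ?_)
  · have := le_min h1 h3; linarith
  · have := max_le h2 h4; linarith

/-- gauge routes in the window `Jw Λ` -/
theorem rt_gauge {Y Λ L : ℝ} (hd : h.wH + 2 * mg F < Y) (hΛ : mg F ≤ Λ)
    (hL : mg F + h.κ < L) : Rt h (Y • F.b) (Jw Λ) (-L) L := by
  have hmg : 0 ≤ mg F := by
    have h1 := Real.sqrt_nonneg 0
    unfold mg C710.fn; positivity
  refine rt_row (σ₁ := 0) (σ₂ := 0) hd ?_ ?_ ?_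
  · have := h.κ_nonneg; linarith
  · linarith
  · unfold Jw
    refine Icc_subset_Icc ?_ ?_ <;> simp <;> linarith

theorem rt_gauge_out {y g Λ L : ℝ} (hd : h.wH + 2 * mg F < y + 2 * g) (hΛ : mg F ≤ Λ)
    (hL : mg F + h.κ < L) : Rt h (dOv F y g) (Jw Λ) (-L) L := rt_gauge hd hΛ hL


/-- fence of the lower gap, crossings in `Icc α₀ β₀`, for all jitters -/
theorem rt_lo {g c α₀ β₀ a₀ b₀ σ₁ σ₂ : ℝ} (hd : h.wH + 2 * mg F + cF F < g)
    (hs : a₀ + mg F ≤ σ₁) (hs' : σ₂ + mg F + h.κ + cF F < b₀ + c)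
    (h1 : α₀ + mg F ≤ σ₁) (h2 : σ₁ ≤ β₀ - mg F) (h3 : α₀ + mg F ≤ σ₂) (h4 : σ₂ ≤ β₀ - mg F) :
    ∀ η, ‖η‖ ≤ 1 → Rt h (offv F g c η) (Icc α₀ β₀) a₀ b₀ := by
  intro η hη
  have e1 := abs_le.1 (abs_be_le' F hη)
  have e2 := abs_le.1 (abs_al_le' F hη)
  refine rt_of (σ₁ := σ₁) (σ₂ := σ₂) ?_ hs ?_ (Icc_subset_Icc ?_ ?_)
  · rw [be_offv]; linarith [e1.1]
  · rw [al_offv]; linarith [e2.1]
  · have := le_min h1 h3; linarith
  · have := max_le h2 h4; linarith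

/-- fence of the upper gap, crossings in `Icc α₁ β₁` (coordinates of the outer row), for all
jitters -/
theorem rt_up {y g c α₁ β₁ a₁ b₁ σ₁ σ₂ : ℝ} (hd : h.wH + 2 * mg F + cF F < g)
    (hs : a₁ + c + cF F + mg F ≤ σ₁) (hs' : σ₂ + mg F + h.κ < b₁)
    (h1 : α₁ + mg F ≤ σ₁) (h2 : σ₁ ≤ β₁ - mg F) (h3 : α₁ + mg F ≤ σ₂) (h4 : σ₂ ≤ β₁ - mg F) :
    ∀ η, ‖η‖ ≤ 1 → Rt h (Hwy.dU (offv F g c η) (y • F.b) (dOv F y g))
      (Iup F y g c α₁ β₁ η) a₁ b₁ := by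
  intro η hη
  have e1 := abs_le.1 (abs_be_le' F hη)
  have e2 := abs_le.1 (abs_al_le' F hη)
  have e0 : F.al (y • F.b) = 0 := by simp
  refine rt_of (σ₁ := σ₁ - c - F.al η) (σ₂ := σ₂ - c - F.al η) ?_ ?_ ?_ ?_
  · rw [be_dU]; linarith [e1.2]
  · linarith [e2.2]
  · rw [al_dU]; linarith
  · unfold Iup
    rw [al_offv, e0]
    have h5 : α₁ + mg F - c - F.al η ≤ min (σ₁ - c - F.al η) (σ₂ - c - F.al η) :=
      le_min (by linarith) (by linarith)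
    have h6 : max (σ₁ - c - F.al η) (σ₂ - c - F.al η) ≤ β₁ - mg F - c - F.al η :=
      max_le (by linarith) (by linarith)
    exact Icc_subset_Icc (by linarith) (by linarith)

end Crest.Agent.R151.Q
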