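import Crest.Agent.R151.G338o
import Crest.Agent.R151.NF6
import Crest.Agent.R151.Q8c

/-!
# R151 (S0214 part 2): `LowData` and `UpData` for configurations (helper338)

`c : Cf G F w0 c0 K p` with `c.Len` (NF6), `c.Ht y g` (A-rows and B-rows); all slacks are `≤ g`.
* `low_of` : `LowData`, `Δ = 2 g`, box size `NN F p A`;
* `fLo`, `fUp` : observables of the gap fences `[f, f + z]`;
* `up_of` : `UpData` with these fences.
-/

set_option autoImplicit false
set_option linter.unusedSectionVars false

open MeasureTheory Filter ProbabilityTheory Topology Set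
open Crest.ProbabilityR.FirstPassage
open Crest.Agent.R151.K Crest.Agent.R151.Q

namespace Crest.Agent.R151.NF

open B710 (FlatData)
open M56 (mg one_le_mg)

variable {μ : ℝ × ℝ → ℝ} {G : Measure ℝ} {F : FlatData μ} {w0 c0 K : ℝ} {p : Num}




/-- observable of the fence `[f, f + z]` of the lower gap -/
noncomputable def fLo (c : Cf G F w0 c0 K p) (g x f z : ℝ) : Ob :=
  obLo c.h g x f (f + z) c.L f (f + z + g - x)

/-- observable of the fence `[f, f + z]` of the upper gap -/
noncomputable def fUp (c : Cf G F w0 c0 K p) (y g x f z : ℝ) : Ob :=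
  obUp c.h y g x f (f + z) c.L (f - x - g) (f + z + g)


lemma meas_fLo (c : Cf G F w0 c0 K p) (g x f z : ℝ) : (fLo c g x f z).Meas :=
  meas_obLo c.h g x c.L f (f + z) f (f + z + g - x)

lemma meas_fUp (c : Cf G F w0 c0 K p) (y g x f z : ℝ) : (fUp c y g x f z).Meas :=
  meas_obUp c.h y g x c.L f (f + z) (f - x - g) (f + z + g)

lemma inv_fLo (c : Cf G F w0 c0 K p) (g x f z : ℝ) : (fLo c g x f z).Iv :=
  inv_obLo c.h g x c.L f (f + z) f (f + z + g - x)

lemma inv_fUp (c : Cf G F w0 c0 K p) (y g x f z : ℝ) : (fUp c y g x f z).Iv :=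
  inv_obUp c.h y g x c.L f (f + z) (f - x - g) (f + z + g)

end Crest.Agent.R151.NF
namespace Crest.Agent.R151.NF.Cf
end Crest.Agent.R151.NF.Cf
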