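import Mathlib
import Crest.Agent.R151.R78P

-- ▼ part R151/R78G
section

/-!
# R151/R78G — deterministic row layer, part G: lanes, fences and the window inequality (8.1)
(owner helper78)
-/

set_option autoImplicit false

open Crest.ProbabilityR.FirstPassage Filter

namespace Crest.Agent.R151.R78

open Crest.Agent.R151.K Crest.Agent.R151.Pl

variable {t : Environment}

/-! ### Straight escape walks -/

lemma exists_sign (x : ℝ) : ∃ τ : ℤ, (τ = 1 ∨ τ = -1) ∧ (τ : ℝ) * x = |x| := by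
  rcases le_total 0 x with h | h
  · exact ⟨1, Or.inl rfl, by rw [abs_of_nonneg h]; simp⟩
  · exact ⟨-1, Or.inr rfl, by rw [abs_of_nonpos h]; simp⟩

lemma adj_h {σ : ℤ} (hσ : σ = 1 ∨ σ = -1) (v : V) : squareLattice.Adj v (v.1 + σ, v.2) := by
  rcases hσ with rfl | rfl
  · exact adj_right v.1 v.2
  · have := (adj_right (v.1 + -1) v.2).symm
    simpa using this

lemma adj_v {σ : ℤ} (hσ : σ = 1 ∨ σ = -1) (v : V) : squareLattice.Adj v (v.1, v.2 + σ) := by
  rcases hσ with rfl | rfl
  · exact adj_up v.1 v.2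
  · have := (adj_up v.1 (v.2 + -1)).symm
    simpa using this

/-- greedy walk along the line `lin p q = const`, `n` steps -/
lemma exists_greedy {p q : ℝ} {σ₁ σ₂ : ℤ} (h₁ : σ₁ = 1 ∨ σ₁ = -1) (h₂ : σ₂ = 1 ∨ σ₂ = -1)
    (hs : ((σ₁ : ℝ) * p ≤ 0 ∧ 0 ≤ (σ₂ : ℝ) * q) ∨ (0 ≤ (σ₁ : ℝ) * p ∧ (σ₂ : ℝ) * q ≤ 0))
    (v : V) (n : ℕ) :
    ∃ (n₁ n₂ : ℕ) (y : V) (u : Wk v y), n₁ + n₂ = n ∧ y = (v.1 + σ₁ * n₁, v.2 + σ₂ * n₂) ∧
      ∀ x ∈ u.support, |lin p q x - lin p q v| ≤ |p| + |q| := by
  have b₁ : |(σ₁ : ℝ) * p| = |p| := by rcases h₁ with rfl | rfl <;> simp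
  have b₂ : |(σ₂ : ℝ) * q| = |q| := by rcases h₂ with rfl | rfl <;> simp
  have hp := abs_nonneg p
  have hq := abs_nonneg q
  induction n with
  | zero =>
    refine ⟨0, 0, v, SimpleGraph.Walk.nil, rfl, by simp, ?_⟩
    intro x hx
    simp only [SimpleGraph.Walk.support_nil, List.mem_singleton] at hx
    rw [hx]; simp only [sub_self, abs_zero]; positivity
  | succ n ih =>
    obtain ⟨n₁, n₂, y, u, hn, hy, hu⟩ := ih
    have hyb := hu y u.end_mem_support
    rw [abs_le] at hyb
    have hx1 : lin p q (y.1 + σ₁, y.2) = lin p q y + (σ₁ : ℝ) * p := by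
      simp only [lin]; push_cast; ring
    have hx2 : lin p q (y.1, y.2 + σ₂) = lin p q y + (σ₂ : ℝ) * q := by
      simp only [lin]; push_cast; ring
    have a1 := abs_le.1 b₁.le
    have a2 := abs_le.1 b₂.le
    have hc : |lin p q (y.1 + σ₁, y.2) - lin p q v| ≤ |p| + |q| ∨
        |lin p q (y.1, y.2 + σ₂) - lin p q v| ≤ |p| + |q| := by
      rw [hx1, hx2]
      rcases hs with ⟨k1, k2⟩ | ⟨k1, k2⟩ <;> rcases le_total 0 (lin p q y - lin p q v) with h | h
      · left; rw [abs_le]; constructor <;> linarith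
      · right; rw [abs_le]; constructor <;> linarith
      · right; rw [abs_le]; constructor <;> linarith
      · left; rw [abs_le]; constructor <;> linarith
    rcases hc with hc | hc
    · refine ⟨n₁ + 1, n₂, (y.1 + σ₁, y.2),
        u.append (SimpleGraph.Walk.cons (adj_h h₁ y) SimpleGraph.Walk.nil), by omega, ?_, ?_⟩
      · rw [hy]; ext <;> (simp; try ring)
      · intro x hx
        rw [mem_support_append] at hx
        rcases hx with hx | hx
        · exact hu x hx
        · simp only [SimpleGraph.Walk.support_cons, SimpleGraph.Walk.support_nil, List.mem_cons,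
            List.not_mem_nil, or_false] at hx
          rcases hx with rfl | rfl
          · exact hu _ u.end_mem_support
          · exact hc
    · refine ⟨n₁, n₂ + 1, (y.1, y.2 + σ₂),
        u.append (SimpleGraph.Walk.cons (adj_v h₂ y) SimpleGraph.Walk.nil), by omega, ?_, ?_⟩
      · rw [hy]; ext <;> (simp; try ring)
      · intro x hx
        rw [mem_support_append] at hx
        rcases hx with hx | hx
        · exact hu x hx
        · simp only [SimpleGraph.Walk.support_cons, SimpleGraph.Walk.support_nil, List.mem_cons,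
            List.not_mem_nil, or_false] at hx
          rcases hx with rfl | rfl
          · exact hu _ u.end_mem_support
          · exact hc

/-- **straight escape walks** in the `be` direction, staying in a lane of bounded width -/
theorem Frame.exists_escape (F : Frame) : ∃ C : ℝ, 0 ≤ C ∧ ∀ (v : V) (K : ℝ),
    ∃ (y : V) (u : Wk v y), K < F.be y ∧ ∀ x ∈ u.support, |F.al x - F.al v| ≤ C := by
  obtain ⟨τp, hτp, ep⟩ := exists_sign F.a₁
  obtain ⟨τq, hτq, eq⟩ := exists_sign F.a₂
  obtain ⟨s, hs, es⟩ := exists_sign (F.a₁ * F.b₂ - F.a₂ * F.b₁)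
  have hσ₁ : -τq * s = 1 ∨ -τq * s = -1 := by
    rcases hτq with rfl | rfl <;> rcases hs with rfl | rfl <;> simp
  have hσ₂ : τp * s = 1 ∨ τp * s = -1 := by
    rcases hτp with rfl | rfl <;> rcases hs with rfl | rfl <;> simp
  have hp := abs_nonneg F.a₁
  have hq := abs_nonneg F.a₂
  have hsign : ((((-τq * s : ℤ) : ℝ)) * F.a₁ ≤ 0 ∧ 0 ≤ (((τp * s : ℤ) : ℝ)) * F.a₂) ∨
      (0 ≤ (((-τq * s : ℤ) : ℝ)) * F.a₁ ∧ (((τp * s : ℤ) : ℝ)) * F.a₂ ≤ 0) := by
    have e1 : F.a₁ = τp * |F.a₁| := by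
      rw [← ep, ← mul_assoc]
      rcases hτp with rfl | rfl <;> simp
    have e2 : F.a₂ = τq * |F.a₂| := by
      rw [← eq, ← mul_assoc]
      rcases hτq with rfl | rfl <;> simp
    rw [e1, e2]
    rcases hτp with rfl | rfl <;> rcases hτq with rfl | rfl <;> rcases hs with rfl | rfl <;> simp
  refine ⟨|F.a₁| + |F.a₂|, by positivity, fun v K => ?_⟩
  have hdet : 0 < |F.a₁ * F.b₂ - F.a₂ * F.b₁| := abs_pos.2 F.det
  have hpq : 0 < |F.a₁| + |F.a₂| := by
    rcases eq_or_ne F.a₁ 0 with h | h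
    · rcases eq_or_ne F.a₂ 0 with h' | h'
      · exact absurd (by rw [h, h']; ring) F.det
      · have := abs_pos.2 h'; linarith
    · have := abs_pos.2 h; linarith
  -- number of steps
  set M := |F.a₁| + |F.a₂| with hM
  obtain ⟨n, hn⟩ := exists_nat_gt (((K - F.be v) * M + (|F.b₁| + |F.b₂|) * M) /
    |F.a₁ * F.b₂ - F.a₂ * F.b₁|)
  obtain ⟨n₁, n₂, y, u, hnn, hy, hu⟩ := exists_greedy hσ₁ hσ₂ hsign v n
  refine ⟨y, u, ?_, fun x hx => hu x hx⟩
  have hly := hu y u.end_mem_support
  rw [div_lt_iff₀ hdet] at hn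
  have e1 : F.al y - F.al v = ((-τq * s : ℤ) : ℝ) * n₁ * F.a₁ + ((τp * s : ℤ) : ℝ) * n₂ * F.a₂ := by
    rw [hy]; simp only [Frame.al, lin]; push_cast; ring
  have e2 : F.be y - F.be v = ((-τq * s : ℤ) : ℝ) * n₁ * F.b₁ + ((τp * s : ℤ) : ℝ) * n₂ * F.b₂ := by
    rw [hy]; simp only [Frame.be, lin]; push_cast; ring
  have hτp2 : (τp : ℝ) * τp = 1 := by rcases hτp with rfl | rfl <;> simp
  have hτq2 : (τq : ℝ) * τq = 1 := by rcases hτq with rfl | rfl <;> simp
  have hs2 : (s : ℝ) * s = 1 := by rcases hs with rfl | rfl <;> simp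
  have hnr : (n : ℝ) = n₁ + n₂ := by rw [← hnn]; push_cast; ring
  have key : (F.be y - F.be v) * M = n * |F.a₁ * F.b₂ - F.a₂ * F.b₁| +
      ((τq : ℝ) * F.b₂ + τp * F.b₁) * (F.al y - F.al v) := by
    rw [e1, e2, hM, ← ep, ← eq, ← es, hnr]
    push_cast
    linear_combination (s * (F.a₁ * F.b₂ - F.a₂ * F.b₁) * n₁) * hτq2 +
      (s * (F.a₁ * F.b₂ - F.a₂ * F.b₁) * n₂) * hτp2
  have hb1 : |(τq : ℝ) * F.b₂ + τp * F.b₁| ≤ |F.b₁| + |F.b₂| := by
    refine (abs_add_le _ _).trans ?_
    have h1 : |(τq : ℝ) * F.b₂| = |F.b₂| := by rcases hτq with rfl | rfl <;> simp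
    have h2 : |(τp : ℝ) * F.b₁| = |F.b₁| := by rcases hτp with rfl | rfl <;> simp
    rw [h1, h2]; linarith
  have hb2 : |((τq : ℝ) * F.b₂ + τp * F.b₁) * (F.al y - F.al v)| ≤ (|F.b₁| + |F.b₂|) * M := by
    rw [abs_mul]
    exact mul_le_mul hb1 hly (abs_nonneg _) (by positivity)
  rw [abs_le] at hb2
  have : (K - F.be v) * M < (F.be y - F.be v) * M := by rw [key]; linarith [hb2.1]
  have := lt_of_mul_lt_mul_right this hpq.le
  linarith

/-- the boxes of a frame are finite -/
theorem Frame.finite_box (F : Frame) (s t lo hi : ℝ) :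
    {v : V | s ≤ F.al v ∧ F.al v ≤ t ∧ lo ≤ F.be v ∧ F.be v ≤ hi}.Finite := by
  have hdet : F.a₁ * F.b₂ - F.a₂ * F.b₁ ≠ 0 := F.det
  have hdet' : 0 < |F.a₁ * F.b₂ - F.a₂ * F.b₁| := abs_pos.2 hdet
  set D := F.a₁ * F.b₂ - F.a₂ * F.b₁ with hD
  set A := |s| + |t| with hA
  set B := |lo| + |hi| with hB
  set R := ((|F.b₂| + |F.b₁|) * A + (|F.a₂| + |F.a₁|) * B) / |D| with hR
  have hbox : {v : V | s ≤ F.al v ∧ F.al v ≤ t ∧ lo ≤ F.be v ∧ F.be v ≤ hi} ⊆
      (Set.Icc (-⌈R⌉) ⌈R⌉) ×ˢ (Set.Icc (-⌈R⌉) ⌈R⌉) := by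
    rintro v ⟨h1, h2, h3, h4⟩
    have hal : |F.al v| ≤ A := by
      rw [abs_le]
      have a1 := neg_abs_le s
      have a2 := le_abs_self t
      have a3 := abs_nonneg s
      have a4 := abs_nonneg t
      constructor <;> linarith
    have hbe : |F.be v| ≤ B := by
      rw [abs_le]
      have a1 := neg_abs_le lo
      have a2 := le_abs_self hi
      have a3 := abs_nonneg lo
      have a4 := abs_nonneg hi
      constructor <;> linarith
    have hAnn : 0 ≤ A := by positivity
    have hBnn : 0 ≤ B := by positivity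
    have e1 : D * (v.1 : ℝ) = F.b₂ * F.al v - F.a₂ * F.be v := by
      simp only [hD, Frame.al, Frame.be, lin]; ring
    have e2 : D * (v.2 : ℝ) = F.a₁ * F.be v - F.b₁ * F.al v := by
      simp only [hD, Frame.al, Frame.be, lin]; ring
    have k1 : |D * (v.1 : ℝ)| ≤ (|F.b₂| + |F.b₁|) * A + (|F.a₂| + |F.a₁|) * B := by
      rw [e1]
      refine (abs_sub _ _).trans ?_
      rw [abs_mul, abs_mul]
      have m1 := mul_le_mul_of_nonneg_left hal (abs_nonneg F.b₂)
      have m2 := mul_le_mul_of_nonneg_left hbe (abs_nonneg F.a₂)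
      have m3 := mul_nonneg (abs_nonneg F.b₁) hAnn
      have m4 := mul_nonneg (abs_nonneg F.a₁) hBnn
      linarith
    have k2 : |D * (v.2 : ℝ)| ≤ (|F.b₂| + |F.b₁|) * A + (|F.a₂| + |F.a₁|) * B := by
      rw [e2]
      refine (abs_sub _ _).trans ?_
      rw [abs_mul, abs_mul]
      have m1 := mul_le_mul_of_nonneg_left hal (abs_nonneg F.b₁)
      have m2 := mul_le_mul_of_nonneg_left hbe (abs_nonneg F.a₁)
      have m3 := mul_nonneg (abs_nonneg F.b₂) hAnn
      have m4 := mul_nonneg (abs_nonneg F.a₂) hBnn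
      linarith
    rw [abs_mul] at k1 k2
    have r1 : |(v.1 : ℝ)| ≤ R := by rw [hR, le_div_iff₀ hdet']; linarith
    have r2 : |(v.2 : ℝ)| ≤ R := by rw [hR, le_div_iff₀ hdet']; linarith
    have hc : R ≤ ((⌈R⌉ : ℤ) : ℝ) := Int.le_ceil R
    rw [abs_le] at r1 r2
    simp only [Set.mem_prod, Set.mem_Icc]
    have c1 : ((-⌈R⌉ : ℤ) : ℝ) ≤ (v.1 : ℝ) := by push_cast; linarith [r1.1]
    have c2 : (v.1 : ℝ) ≤ ((⌈R⌉ : ℤ) : ℝ) := by linarith [r1.2]
    have c3 : ((-⌈R⌉ : ℤ) : ℝ) ≤ (v.2 : ℝ) := by push_cast; linarith [r2.1]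
    have c4 : (v.2 : ℝ) ≤ ((⌈R⌉ : ℤ) : ℝ) := by linarith [r2.2]
    exact ⟨⟨Int.cast_le.1 c1, Int.cast_le.1 c2⟩, Int.cast_le.1 c3, Int.cast_le.1 c4⟩
  exact ((Set.finite_Icc _ _).prod (Set.finite_Icc _ _)).subset hbox

end Crest.Agent.R151.R78
end

-- ▼ part R151/R78H
section

/-!
# R151/R78H — deterministic row layer, part H: fences, lanes and the window inequality (8.1)
(owner helper78)
-/

set_option autoImplicit false

open Crest.ProbabilityR.FirstPassage Filter

namespace Crest.Agent.R151.R78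

open Crest.Agent.R151.K Crest.Agent.R151.Pl

variable {t : Environment} {H H' : ℤ → V}

/-! ### Planarity: nothing escapes behind a fence -/

/-- two crossings `a → b` and `z → w` with exchanged end points -/
def Opp (a b z w : ℤ) : Prop := (a < z ∧ w < b) ∨ (z < a ∧ b < w)

lemma Crosses.meet (hC : Crosses H H') {z w a b : ℤ} {f : Wk (H z) (H' w)} {c : Wk (H a) (H' b)}
    (hf : IsOpen H H' Set.univ f) (hc : IsOpen H H' Set.univ c) (ho : Opp a b z w) :
    ∃ v, v ∈ f.support ∧ v ∈ c.support := by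
  rcases ho with ⟨h1, h2⟩ | ⟨h1, h2⟩
  · obtain ⟨v, hv, hv'⟩ := hC h1 h2 c f hc hf
    exact ⟨v, hv', hv⟩
  · exact hC h1 h2 f c hf hc

/-- `f`, `e` disjoint open crossings, `d` a walk from `v` to a vertex of `e` avoiding the two
highways and `f`, `u` a walk from `v` to above `H'` avoiding `f` and meeting the highways only
on the wrong side of `f`: impossible. -/
theorem no_escape (hC : Crosses H H') (hdisj : ∀ k l, H k ≠ H' l)
    {z w z' w' : ℤ} {f : Wk (H z) (H' w)} (hf : IsOpen H H' Set.univ f)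
    {e : Wk (H z') (H' w')} (he : IsOpen H H' Set.univ e)
    (hfe : ∀ x ∈ f.support, x ∉ e.support) {v p : V} (hp : p ∈ e.support) (d : Wk v p)
    (hdH : ∀ k, H k ∉ d.support) (hdH' : ∀ k, H' k ∉ d.support)
    (hdf : ∀ x ∈ d.support, x ∉ f.support) {y : V} (u : Wk v y)
    (huf : ∀ x ∈ u.support, x ∉ f.support) (hsep : Sep (Set.range H) (Set.range H') {y})
    (hk : ∀ k, H k ∈ u.support → Opp k w' z w) (hk' : ∀ k, H' k ∈ u.support → Opp z' k z w) :
    False := by
  obtain ⟨e₁, e₂, rfl⟩ := exists_split e hp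
  have he₁H' : ∀ k, H' k ∉ e₁.support := by
    intro k hk
    rw [mem_support_iff_dropLast] at hk
    rcases hk with hk | hk
    · exact he.snd k (by rw [mem_dropLast_append]; exact Or.inl hk)
    · exact hdH' k (by rw [hk]; exact d.end_mem_support)
  have he₂H : ∀ k, H k ∉ e₂.support := by
    intro k hk
    rw [mem_support_iff_tail] at hk
    rcases hk with hk | hk
    · exact hdH k (by rw [hk]; exact d.end_mem_support)
    · exact he.fst k (by rw [mem_tail_append]; exact Or.inr hk)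
  -- `u` meets `H'`
  have hu : ∃ x ∈ u.support, x ∈ Set.range H ∪ Set.range H' := by
    obtain ⟨x, hx, hxS⟩ := hsep _ ⟨z', rfl⟩ y rfl ((e₁.append d.reverse).append u)
    obtain ⟨k, rfl⟩ := hxS
    rw [mem_support_append, mem_support_append] at hx
    rcases hx with (hx | hx) | hx
    · exact absurd hx (he₁H' k)
    · exact absurd (by simpa using hx) (hdH' k)
    · exact ⟨_, hx, Or.inr ⟨k, rfl⟩⟩
  obtain ⟨x, u₁, u₂, rfl, hx, hu₁⟩ := exists_first u _ hu
  have hxu : x ∈ (u₁.append u₂).support := by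
    rw [mem_support_append]; exact Or.inl u₁.end_mem_support
  have hu₁H : ∀ k, H k ∉ u₁.support.dropLast := fun k hk => hu₁ _ hk (Or.inl ⟨k, rfl⟩)
  have hu₁H' : ∀ k, H' k ∉ u₁.support.dropLast := fun k hk => hu₁ _ hk (Or.inr ⟨k, rfl⟩)
  have hu₁f : ∀ x ∈ u₁.support, x ∉ f.support := fun x hx =>
    huf x (by rw [mem_support_append]; exact Or.inl hx)
  have hef : ∀ x, x ∈ e₁.support ∨ x ∈ e₂.support → x ∉ f.support := by
    intro x hx hxf
    exact hfe x hxf (by rw [mem_support_append]; exact hx)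
  rcases hx with ⟨k, rfl⟩ | ⟨k, rfl⟩
  · -- first hit on `H`
    have hopen : IsOpen H H' Set.univ ((u₁.reverse.append d).append e₂) := by
      refine ⟨fun _ _ => trivial, fun m hm => ?_, fun m hm => ?_⟩
      · rw [mem_tail_append, mem_tail_append] at hm
        rcases hm with (hm | hm) | hm
        · rw [SimpleGraph.Walk.support_reverse, List.tail_reverse, List.mem_reverse] at hm
          exact hu₁H m hm
        · exact hdH m (List.mem_of_mem_tail hm)
        · exact he₂H m (List.mem_of_mem_tail hm)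
      · rw [mem_dropLast_append, mem_dropLast_append] at hm
        rcases hm with (hm | hm) | hm
        · have hm' : H' m ∈ u₁.support := by
            have := List.mem_of_mem_dropLast hm
            simpa using this
          rw [mem_support_iff_dropLast] at hm'
          rcases hm' with hm' | hm'
          · exact hu₁H' m hm'
          · exact hdisj k m hm'.symm
        · exact hdH' m (List.mem_of_mem_dropLast hm)
        · exact he.snd m (by rw [mem_dropLast_append]; exact Or.inr hm)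
    obtain ⟨x, hxf, hx⟩ := hC.meet hf hopen (hk k hxu)
    rw [mem_support_append, mem_support_append] at hx
    rcases hx with (hx | hx) | hx
    · exact hu₁f x (by simpa using hx) hxf
    · exact hdf x hx hxf
    · exact hef x (Or.inr hx) hxf
  · -- first hit on `H'`
    have hopen : IsOpen H H' Set.univ ((e₁.append d.reverse).append u₁) := by
      refine ⟨fun _ _ => trivial, fun m hm => ?_, fun m hm => ?_⟩
      · rw [mem_tail_append, mem_tail_append] at hm
        rcases hm with (hm | hm) | hm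
        · exact he.fst m (by rw [mem_tail_append]; exact Or.inl hm)
        · exact hdH m (by simpa using List.mem_of_mem_tail hm)
        · have hm' : H m ∈ u₁.support := List.mem_of_mem_tail hm
          rw [mem_support_iff_dropLast] at hm'
          rcases hm' with hm' | hm'
          · exact hu₁H m hm'
          · exact hdisj m k hm'
      · rw [mem_dropLast_append, mem_dropLast_append] at hm
        rcases hm with (hm | hm) | hm
        · exact he₁H' m (List.mem_of_mem_dropLast hm)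
        · exact hdH' m (by simpa using List.mem_of_mem_dropLast hm)
        · exact hu₁H' m hm
    obtain ⟨x, hxf, hx⟩ := hC.meet hf hopen (hk' k hxu)
    rw [mem_support_append, mem_support_append] at hx
    rcases hx with (hx | hx) | hx
    · exact hef x (Or.inl hx) hxf
    · exact hdf x (by simpa using hx) hxf
    · exact hu₁f x hx hxf

/-- limited backtracking of a highway -/
def Back (F : Frame) (κ : ℝ) (H : ℤ → V) : Prop := ∀ k l, k ≤ l → F.al (H k) ≤ F.al (H l) + κ

section stay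

variable {F : Frame} {lo hi lo' hi' κ : ℝ}

/-- nothing escapes to the right of a fence -/
theorem stay_right (h : IsStrip F lo hi H) (h' : IsStrip F lo' hi' H') (hlt : hi < lo')
    (hb : Back F κ H) (hb' : Back F κ H') {C : ℝ}
    (hC : ∀ (v : V) (K : ℝ), ∃ (y : V) (u : Wk v y), K < F.be y ∧
      ∀ x ∈ u.support, |F.al x - F.al v| ≤ C)
    {z w z' w' : ℤ} {f : Wk (H z) (H' w)} (hf : IsOpen H H' Set.univ f)
    {e : Wk (H z') (H' w')} (he : IsOpen H H' Set.univ e)
    (hfe : ∀ x ∈ f.support, x ∉ e.support) (hz : z' < z) (hw : w' < w)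
    {T : ℝ} (hT : ∀ x ∈ f.support, F.al x ≤ T) {v p : V} (hp : p ∈ e.support) (d : Wk v p)
    (hdH : ∀ k, H k ∉ d.support) (hdH' : ∀ k, H' k ∉ d.support)
    (hdf : ∀ x ∈ d.support, x ∉ f.support) : F.al v ≤ T + κ + C := by
  by_contra hv
  push Not at hv
  obtain ⟨y, u, hy, hu⟩ := hC v hi'
  have hu' : ∀ x ∈ u.support, T + κ < F.al x := by
    intro x hx
    have := (abs_le.1 (hu x hx)).1
    linarith
  have hκ : 0 ≤ κ := by have := hb 0 0 le_rfl; linarith
  refine no_escape (h.crosses h' hlt) (fun k l => h.disj h' hlt k l) hf he hfe hp d hdH hdH' hdf u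
    (fun x hx hxf => ?_) ?_ (fun k hk => ?_) (fun k hk => ?_)
  · have := hu' x hx
    have := hT x hxf
    linarith
  · exact h'.sep.mono (by rintro _ ⟨k, rfl⟩; exact lt_of_le_of_lt (h.hi k) hlt) subset_rfl
      (by rintro _ rfl; exact hy)
  · right
    refine ⟨?_, hw⟩
    by_contra hc
    push Not at hc
    have h1 := hb k z hc
    have h2 := hT _ f.start_mem_support
    have h3 := hu' _ hk
    linarith
  · left
    refine ⟨hz, ?_⟩
    by_contra hc
    push Not at hc
    have h1 := hb' k w hc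
    have h2 := hT _ f.end_mem_support
    have h3 := hu' _ hk
    linarith

/-- nothing escapes to the left of a fence -/
theorem stay_left (h : IsStrip F lo hi H) (h' : IsStrip F lo' hi' H') (hlt : hi < lo')
    (hb : Back F κ H) (hb' : Back F κ H') {C : ℝ}
    (hC : ∀ (v : V) (K : ℝ), ∃ (y : V) (u : Wk v y), K < F.be y ∧
      ∀ x ∈ u.support, |F.al x - F.al v| ≤ C)
    {z w z' w' : ℤ} {f : Wk (H z) (H' w)} (hf : IsOpen H H' Set.univ f)
    {e : Wk (H z') (H' w')} (he : IsOpen H H' Set.univ e)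
    (hfe : ∀ x ∈ f.support, x ∉ e.support) (hz : z < z') (hw : w < w')
    {T : ℝ} (hT : ∀ x ∈ f.support, T ≤ F.al x) {v p : V} (hp : p ∈ e.support) (d : Wk v p)
    (hdH : ∀ k, H k ∉ d.support) (hdH' : ∀ k, H' k ∉ d.support)
    (hdf : ∀ x ∈ d.support, x ∉ f.support) : T - κ - C ≤ F.al v := by
  by_contra hv
  push Not at hv
  obtain ⟨y, u, hy, hu⟩ := hC v hi'
  have hu' : ∀ x ∈ u.support, F.al x < T - κ := by
    intro x hx
    have := (abs_le.1 (hu x hx)).2
    linarith
  have hκ : 0 ≤ κ := by have := hb 0 0 le_rfl; linarith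
  refine no_escape (h.crosses h' hlt) (fun k l => h.disj h' hlt k l) hf he hfe hp d hdH hdH' hdf u
    (fun x hx hxf => ?_) ?_ (fun k hk => ?_) (fun k hk => ?_)
  · have := hu' x hx
    have := hT x hxf
    linarith
  · exact h'.sep.mono (by rintro _ ⟨k, rfl⟩; exact lt_of_le_of_lt (h.hi k) hlt) subset_rfl
      (by rintro _ rfl; exact hy)
  · left
    refine ⟨?_, hw⟩
    by_contra hc
    push Not at hc
    have h1 := hb z k hc
    have h2 := hT _ f.start_mem_support
    have h3 := hu' _ hk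
    linarith
  · right
    refine ⟨hz, ?_⟩
    by_contra hc
    push Not at hc
    have h1 := hb' w k hc
    have h2 := hT _ f.end_mem_support
    have h3 := hu' _ hk
    linarith

end stay

end Crest.Agent.R151.R78
end

-- ▼ part R151/R78I
section

/-!
# R151/R78I — deterministic row layer, part I: the window inequality (8.1) for real fences
(owner helper78)
-/

set_option autoImplicit false

open Crest.ProbabilityR.FirstPassage Filter

namespace Crest.Agent.R151.R78

open Crest.Agent.R151.K Crest.Agent.R151.Pl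

variable {t : Environment} {H H' : ℤ → V}

/-- value of a crossing -/
noncomputable def val (t : Environment) (H H' : ℤ → V) {z w : ℤ} (g : Wk (H z) (H' w)) : ℝ :=
  hc t H z + walkCost t g - hc t H' w

/-- fences `0, …, m` from left to right: open crossings `f l : H (z l) → H' (w l)` in the
`al`-intervals `[s l, r l]` -/
structure IsFences (F : Frame) (κ : ℝ) (H H' : ℤ → V) (m : ℕ) (s r : ℕ → ℝ) (z w : ℕ → ℤ)
    (f : (l : ℕ) → Wk (H (z l)) (H' (w l))) : Prop where
  isOpen : ∀ l ≤ m, IsOpen H H' {v | s l ≤ F.al v ∧ F.al v ≤ r l} (f l)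
  lt : ∀ l < m, r l + κ < s (l + 1)

namespace IsFences

variable {F : Frame} {κ : ℝ} {m : ℕ} {s r : ℕ → ℝ} {z w : ℕ → ℤ}
  {f : (l : ℕ) → Wk (H (z l)) (H' (w l))}

lemma z_lt (hf : IsFences F κ H H' m s r z w f) (hb : Back F κ H) {l : ℕ} (hl : l < m) :
    z l < z (l + 1) := by
  by_contra hc
  push Not at hc
  have h1 := hb _ _ hc
  have h2 := ((hf.isOpen l hl.le).sub _ (f l).start_mem_support).2
  have h3 := ((hf.isOpen (l + 1) hl).sub _ (f (l + 1)).start_mem_support).1
  have := hf.lt l hl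
  linarith

lemma w_lt (hf : IsFences F κ H H' m s r z w f) (hb : Back F κ H') {l : ℕ} (hl : l < m) :
    w l < w (l + 1) := by
  by_contra hc
  push Not at hc
  have h1 := hb _ _ hc
  have h2 := ((hf.isOpen l hl.le).sub _ (f l).end_mem_support).2
  have h3 := ((hf.isOpen (l + 1) hl).sub _ (f (l + 1)).end_mem_support).1
  have := hf.lt l hl
  linarith

lemma w_le (hf : IsFences F κ H H' m s r z w f) (hb : Back F κ H') : ∀ {l : ℕ}, l ≤ m →
    w 0 ≤ w l := by
  intro l
  induction l with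
  | zero => intro _; exact le_rfl
  | succ l ih => intro hl; exact (ih (by omega)).trans (hf.w_lt hb (by omega)).le

lemma disj (hf : IsFences F κ H H' m s r z w f) (hκ : 0 ≤ κ) {l : ℕ} (hl : l < m) :
    ∀ x ∈ (f l).support, x ∉ (f (l + 1)).support := by
  intro x hx hx'
  have h2 := ((hf.isOpen l hl.le).sub _ hx).2
  have h3 := ((hf.isOpen (l + 1) hl).sub _ hx').1
  have := hf.lt l hl
  linarith

end IsFences

section window

variable {F : Frame} {lo hi lo' hi' κ C : ℝ} {m : ℕ} {s r : ℕ → ℝ} {z w : ℕ → ℤ}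
  {f : (l : ℕ) → Wk (H (z l)) (H' (w l))} {A B : Set V} {Ln : ℕ → Set V} {a b : ℤ}
  {i j : ℕ → ℤ}


end window

end Crest.Agent.R151.R78
end

-- ▼ part R151/R78J

/-!
# R151/R78J — deterministic row layer, part J: window inequality in terms of hull costs and labels
(owner helper78)
-/

set_option autoImplicit false

open Crest.ProbabilityR.FirstPassage Filter

namespace Crest.Agent.R151.R78

open Crest.Agent.R151.K Crest.Agent.R151.Pl

variable {t : Environment} {H H' : ℤ → V}

section window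

variable {F : Frame} {lo hi lo' hi' κ C : ℝ} {m : ℕ} {s r : ℕ → ℝ} {z w : ℕ → ℤ}
  {f : (l : ℕ) → Wk (H (z l)) (H' (w l))} {A B : Set V} {Ln : ℕ → Set V} {a b : ℤ}
  {i j : ℕ → ℤ}


end window

/-! ### Lanes -/

/-- the lane `s ≤ al ≤ r` -/
def Frame.lane (F : Frame) (s r : ℝ) : Set V := {v | s ≤ F.al v ∧ F.al v ≤ r}


section lane

variable {F : Frame} {lo hi lo' hi' κ : ℝ} {A : Set V} {s r : ℝ} {i j : ℤ}

lemma IsStrip.finite_lane_row (F : Frame) (s r lo hi' : ℝ) (hA : A ⊆ F.lane s r) :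
    (A ∩ F.row lo hi').Finite :=
  (F.finite_box s r lo hi').subset fun _ hv => ⟨(hA hv.1).1, (hA hv.1).2, hv.2.1, hv.2.2⟩


/-- attainment in a lane -/
lemma IsStrip.exists_hull (h : IsStrip F lo hi H) (h' : IsStrip F lo' hi' H') (hlt : hi < lo')
    (ht : Nn t) (hA : A ⊆ F.lane s r) (hne : (routes t H H' A i j).Nonempty) :
    ∃ z w : ℤ, i ≤ z ∧ w ≤ j ∧ ∃ g : Wk (H z) (H' w), g.IsPath ∧ IsOpen H H' A g ∧
      hull t H H' A i j = val t H H' g := by
  rw [← h.routes_inter h' hlt] at hne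
  obtain ⟨z, w, hz, hw, g, hp, hg, e⟩ := exists_hull_eq ht h.hwy h'.hwy
    (IsStrip.finite_lane_row F s r lo hi' hA) hne
  rw [h.hull_inter h' hlt] at e
  exact ⟨z, w, hz, hw, g, hp, hg.mono Set.inter_subset_left, e⟩

end lane

/-! ### Labels -/

/-- `i` is the index of the first vertex with `al ≥ s` -/
structure IsPos (F : Frame) (H : ℤ → V) (s : ℝ) (i : ℤ) : Prop where
  ge : s ≤ F.al (H i)
  lt : ∀ k < i, F.al (H k) < s

/-- maximal increment of `al` along an edge -/
noncomputable def Frame.stp (F : Frame) : ℝ := |F.a₁| + |F.a₂|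

lemma Frame.adj_le (F : Frame) {x y : V} (h : squareLattice.Adj x y) :
    |F.al y - F.al x| ≤ F.stp := by
  rw [squareLattice, SimpleGraph.fromRel_adj] at h
  have e : F.al y - F.al x = F.a₁ * ((y.1 : ℝ) - x.1) + F.a₂ * ((y.2 : ℝ) - x.2) := by
    simp only [Frame.al, lin]; ring
  rw [e]
  have h0 := abs_nonneg F.a₁
  have h1 := abs_nonneg F.a₂
  unfold Frame.stp
  rcases h.2 with (⟨h2, h3⟩ | ⟨h2, h3⟩) | (⟨h2, h3⟩ | ⟨h2, h3⟩)
  · rw [h2, h3]; push_cast
    have : F.a₁ * ((y.1 : ℝ) - y.1) + F.a₂ * ((x.2 : ℝ) + 1 - x.2) = F.a₂ := by ring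
    rw [this]; linarith
  · rw [h2, h3]; push_cast
    have : F.a₁ * ((x.1 : ℝ) + 1 - x.1) + F.a₂ * ((y.2 : ℝ) - y.2) = F.a₁ := by ring
    rw [this]; linarith
  · rw [h2, h3]; push_cast
    have : F.a₁ * ((x.1 : ℝ) - x.1) + F.a₂ * ((y.2 : ℝ) - (y.2 + 1)) = -F.a₂ := by ring
    rw [this, abs_neg]; linarith
  · rw [h2, h3]; push_cast
    have : F.a₁ * ((y.1 : ℝ) - (y.1 + 1)) + F.a₂ * ((x.2 : ℝ) - x.2) = -F.a₁ := by ring
    rw [this, abs_neg]; linarith

section pos

variable {F : Frame} {lo hi κ : ℝ} {s s' : ℝ} {i i' k : ℤ}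

/-- positions exist -/
lemma IsStrip.exists_pos (h : IsStrip F lo hi H) (s : ℝ) : ∃ i, IsPos F H s i := by
  obtain ⟨m, hm⟩ := (eventually_atBot.1 (h.bot.eventually_lt_atBot s))
  obtain ⟨n, hn⟩ := (h.top.eventually_ge_atTop s).exists
  have hbdd : ∀ z : ℤ, s ≤ F.al (H z) → m ≤ z := by
    intro z hz
    by_contra hc
    push Not at hc
    exact absurd (hm z hc.le) (not_lt.2 hz)
  obtain ⟨i, hi, hmin⟩ := Int.exists_least_of_bdd (P := fun z => s ≤ F.al (H z)) ⟨m, hbdd⟩ ⟨n, hn⟩
  exact ⟨i, hi, fun k hk => by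
    by_contra hc
    push Not at hc
    exact absurd (hmin k hc) (not_le.2 hk)⟩

lemma IsPos.unique (h : IsPos F H s i) (h' : IsPos F H s i') : i = i' := by
  rcases lt_trichotomy i i' with hlt | rfl | hlt
  · exact absurd (h'.lt i hlt) (not_lt.2 h.ge)
  · rfl
  · exact absurd (h.lt i' hlt) (not_lt.2 h'.ge)

lemma IsPos.mono (h : IsPos F H s i) (h' : IsPos F H s' i') (hs : s ≤ s') : i ≤ i' := by
  by_contra hc
  push Not at hc
  have := h.lt i' hc
  have := h'.ge
  linarith

/-- `al (H k) ≥ s` forces `k ≥ x_s` -/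
lemma IsPos.le_of_ge (h : IsPos F H s i) (hk : s ≤ F.al (H k)) : i ≤ k := by
  by_contra hc
  push Not at hc
  exact absurd (h.lt k hc) (not_lt.2 hk)

/-- with limited backtracking, `al (H k) < s - κ` forces `k < x_s` -/
lemma IsPos.lt_of_lt (h : IsPos F H s i) (hb : Back F κ H) (hk : F.al (H k) < s - κ) : k < i := by
  by_contra hc
  push Not at hc
  have := hb i k hc
  have := h.ge
  linarith

lemma IsPos.al_le (h : IsPos F H s i) (hH : IsHwy H) : F.al (H i) < s + F.stp := by
  have h1 := h.lt (i - 1) (by omega)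
  have h2 := hH.adj (i - 1)
  have h3 := F.adj_le h2
  rw [sub_add_cancel] at h3
  have := (abs_le.1 h3).2
  linarith

lemma IsPos.al_le_of_le (h : IsPos F H s i) (hH : IsHwy H) (hk : k ≤ i) :
    F.al (H k) < s + F.stp := by
  rcases eq_or_lt_of_le hk with rfl | hk
  · exact h.al_le hH
  · have := h.lt k hk
    have : 0 ≤ F.stp := by unfold Frame.stp; positivity
    linarith

end pos

end Crest.Agent.R151.R78
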