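import Mathlib
import Crest.Agent.R151.R78J

/-!
# R151/R78K — deterministic row layer, part K: window inequality (8.1) in terms of labels
(owner helper78)
-/

set_option autoImplicit false

open Crest.ProbabilityR.FirstPassage Filter

namespace Crest.Agent.R151.R78

open Crest.Agent.R151.K Crest.Agent.R151.Pl

variable {t : Environment} {H H' : ℤ → V}

/-- the constant of the straight escape walks -/
noncomputable def Frame.esc (F : Frame) : ℝ := (F.exists_escape).choose

lemma Frame.esc_nonneg (F : Frame) : 0 ≤ F.esc := (F.exists_escape).choose_spec.1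

lemma Frame.esc_spec (F : Frame) (v : V) (K : ℝ) : ∃ (y : V) (u : Wk v y), K < F.be y ∧
    ∀ x ∈ u.support, |F.al x - F.al v| ≤ F.esc := (F.exists_escape).choose_spec.2 v K


end Crest.Agent.R151.R78
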