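import Crest.Agent.R151.M192b_Mg
import Crest.Agent.R151.R78K

/-!
# R151 / S0214 part 2, M56a — row mean values: the vertices `x_s`, full plane kernel (helper56)

* `isPos_ix` and its corollaries: the index `h.ix s` is the position of the label `s`;
* `covV_x`: `h.x s u θ t` is a covariant vertex with phase (`CovV`);
* `x_shift`: shift of labels, `x_{s+σ} (fract (u + σ / n0), θ) = x_s (u, θ - σ a)`;
* `gY_integrable`, `gY_nonneg`: `E gY ≥ 0` for every displacement `d` and all labels.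
-/

set_option autoImplicit false

open MeasureTheory Filter ProbabilityTheory Topology
open Crest.ProbabilityR.FirstPassage

namespace Crest.Agent.R151.M56

open Crest.Agent.R151.K Crest.Agent.R151.Q
open R78 (V Wk IsHwy hc hp stepc hull routes IsOpen shp hullY ptY gapK IsStrip Frame IsPos Back)
open M192 (frame frame_al frame_be al_pos be_pos isStrip ix_cov pos_add_toR)
open B710 (FlatData)

variable {μ : ℝ × ℝ → ℝ} {F : FlatData μ} (h : Hwy F)

/-! ### Labels -/

lemma isPos_ix (s u : ℝ) (θ : ℝ × ℝ) (t : Environment) :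
    IsPos (frame F) (h.H u θ t) (s - F.al θ) (h.ix s u θ t) := by
  obtain ⟨i, hi⟩ := (isStrip h u θ t).exists_pos (s - F.al θ)
  have key : ∀ k, s ≤ F.al (pos θ (h.H u θ t k)) ↔ s - F.al θ ≤ (frame F).al (h.H u θ t k) := by
    intro k
    rw [frame_al, al_pos]
    constructor <;> intro h <;> linarith
  have e : h.ix s u θ t = i := by
    unfold Hwy.ix firstGe
    apply le_antisymm
    · refine csInf_le ⟨i, fun k hk => ?_⟩ ?_
      · exact hi.le_of_ge ((key k).1 hk)
      · exact (key i).2 hi.ge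
    · exact le_csInf ⟨i, (key i).2 hi.ge⟩ fun k hk => hi.le_of_ge ((key k).1 hk)
  rw [e]; exact hi

lemma back (u : ℝ) (θ : ℝ × ℝ) (t : Environment) : Back (frame F) h.κ (h.H u θ t) := by
  intro k l hkl
  have := h.back u θ t k l hkl
  rw [al_pos, al_pos] at this
  rw [frame_al, frame_al]
  linarith

lemma al_x_ge (s u : ℝ) (θ : ℝ × ℝ) (t : Environment) : s ≤ F.al (pos θ (h.x s u θ t)) := by
  have := (isPos_ix h s u θ t).ge
  rw [frame_al] at this
  unfold Hwy.x
  rw [al_pos]; linarith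

/-- maximal increment of `al` along an edge -/
noncomputable def stp (F : FlatData μ) : ℝ := (frame F).stp

lemma stp_nonneg (F : FlatData μ) : 0 ≤ stp F := by
  unfold stp Frame.stp; positivity

lemma al_x_lt (s u : ℝ) (θ : ℝ × ℝ) (t : Environment) :
    F.al (pos θ (h.x s u θ t)) < s + stp F := by
  have := (isPos_ix h s u θ t).al_le (h.isHwy u θ t)
  rw [frame_al] at this
  unfold Hwy.x stp
  rw [al_pos]; linarith

variable {h}

lemma ix_le_of_ge {s u : ℝ} {θ : ℝ × ℝ} {t : Environment} {k : ℤ}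
    (hk : s ≤ F.al (pos θ (h.H u θ t k))) : h.ix s u θ t ≤ k := by
  refine (isPos_ix h s u θ t).le_of_ge ?_
  rw [al_pos] at hk
  rw [frame_al]; linarith

lemma lt_ix_of_lt {s u : ℝ} {θ : ℝ × ℝ} {t : Environment} {k : ℤ}
    (hk : F.al (pos θ (h.H u θ t k)) < s - h.κ) : k < h.ix s u θ t := by
  refine (isPos_ix h s u θ t).lt_of_lt (back h u θ t) ?_
  rw [al_pos] at hk
  rw [frame_al]; linarith



lemma ix_mono {s s' u : ℝ} {θ : ℝ × ℝ} {t : Environment} (hs : s ≤ s') :
    h.ix s u θ t ≤ h.ix s' u θ t :=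
  (isPos_ix h s u θ t).mono (isPos_ix h s' u θ t) (by linarith)

variable (h)

lemma be_x (s u : ℝ) (θ : ℝ × ℝ) (t : Environment) :
    |F.be (pos θ (h.x s u θ t))| ≤ h.wH / 2 := h.strip u θ t _

lemma wH_nonneg : 0 ≤ h.wH := by
  have := (abs_nonneg _).trans (h.strip 0 0 0 0)
  linarith

lemma norm_le_coord (F : FlatData μ) (v : ℝ × ℝ) :
    ‖v‖ ≤ |F.al v| * ‖F.a‖ + |F.be v| * ‖F.b‖ := by
  conv_lhs => rw [← F.decomp v]
  refine (norm_add_le _ _).trans ?_
  rw [norm_smul, norm_smul, Real.norm_eq_abs, Real.norm_eq_abs]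

/-- distance of `x_s` to the base point -/
noncomputable def Rx (s : ℝ) : ℝ := (|s| + stp F) * ‖F.a‖ + h.wH / 2 * ‖F.b‖

lemma norm_x (s u : ℝ) (θ : ℝ × ℝ) (t : Environment) : ‖pos θ (h.x s u θ t)‖ ≤ Rx h s := by
  refine (norm_le_coord F _).trans ?_
  unfold Rx
  have h1 := al_x_ge h s u θ t
  have h2 := al_x_lt h s u θ t
  have h3 := be_x h s u θ t
  have h4 : |F.al (pos θ (h.x s u θ t))| ≤ |s| + stp F := by
    rw [abs_le]
    have a1 := neg_abs_le s
    have a2 := le_abs_self s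
    have a3 := stp_nonneg F
    constructor <;> linarith
  gcongr

lemma x_cov (s u : ℝ) (m : ℤ × ℤ) (θ : ℝ × ℝ) (t : Environment) :
    h.x s u (θ + toR m) (act (tr m) t) = h.x s u θ t - m := by
  unfold Hwy.x
  rw [h.cov, ix_cov]

section meas

variable {Ω : Type*} [MeasurableSpace Ω] {u : Ω → ℝ} {θ : Ω → ℝ × ℝ} {T : Ω → Environment}

lemma measurable_x (hu : Measurable u) (hθ : Measurable θ) (hT : Measurable T) (s : ℝ) :
    Measurable fun ω => h.x s (u ω) (θ ω) (T ω) := by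
  unfold Hwy.x
  exact Q.measurable_at (fun k => h.meas_H hu hθ hT k) (h.meas_ix s hu hθ hT)

end meas

/-- `x_s` is a covariant vertex with phase -/
theorem covV_x (s : ℝ) : CovV (fun θ t u => h.x s u θ t) (Rx h s) where
  meas := measurable_x h measurable_snd (by fun_prop) (by fun_prop) s
  cov m θ t u := x_cov h s u m θ t
  bdd θ t u := norm_x h s u θ t

/-- shift of labels -/
theorem x_shift (s σ u : ℝ) (θ : ℝ × ℝ) (t : Environment) :
    h.x (s + σ) (Int.fract (u + σ / h.n0)) θ t = h.x s u (θ - σ • F.a) t := by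
  obtain ⟨c, hc⟩ := h.ash σ u θ t
  have hp : IsPos (frame F) (h.H (Int.fract (u + σ / h.n0)) θ t) (s + σ - F.al θ)
      (h.ix s u (θ - σ • F.a) t - c) := by
    have h1 := isPos_ix h s u (θ - σ • F.a) t
    have e : s - F.al (θ - σ • F.a) = s + σ - F.al θ := by
      rw [map_sub, map_smul, F.al_a, smul_eq_mul, mul_one]; ring
    rw [e] at h1
    refine ⟨?_, fun k hk => ?_⟩
    · rw [hc, sub_add_cancel]; exact h1.ge
    · rw [hc]; exact h1.lt _ (by omega)
  have e := (isPos_ix h (s + σ) (Int.fract (u + σ / h.n0)) θ t).unique hp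
  unfold Hwy.x
  rw [e, hc, sub_add_cancel]

/-! ### The full plane kernel -/

variable {G : Measure ℝ} [IsProbabilityMeasure G]

/-- the law of the row space -/
noncomputable def nu (G : Measure ℝ) : Measure (((ℝ × ℝ) × Environment) × (ℝ × ℝ)) :=
  (P0 G).prod (UU.prod UU)

instance : IsProbabilityMeasure (nu G) := by unfold nu; infer_instance

lemma gY_eq (d : ℝ × ℝ) (s s' : ℝ) (θ : ℝ × ℝ) (t : Environment) (φ : ℝ × ℝ) :
    h.gY d s s' θ t φ = passageTime t (h.x s φ.1 θ t) (h.x s' φ.2 (θ - d) t) -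
      (phi F (h.x s' φ.2 (θ - d) t) - phi F (h.x s φ.1 θ t)) := rfl

lemma phi_diff (d : ℝ × ℝ) (θ : ℝ × ℝ) (x y : ℤ × ℤ) :
    phi F y - phi F x = F.ρ (pos (θ - d) y) - F.ρ (pos θ x) + F.ρ d := by
  unfold phi pos
  simp only [map_add, map_sub]
  ring

section

variable (h0 : G (Set.Iio 0) = 0) (h2 : Integrable (fun x : ℝ => x ^ 2) G)
include h0 h2

/-- integrability of the full plane kernel -/
theorem gY_integrable (d : ℝ × ℝ) (s s' : ℝ) :
    Integrable (fun q : ((ℝ × ℝ) × Environment) × (ℝ × ℝ) => h.gY d s s' q.1.1 q.1.2 q.2)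
      (nu G) := by
  have mx : Measurable fun q : ((ℝ × ℝ) × Environment) × (ℝ × ℝ) => h.x s q.2.1 q.1.1 q.1.2 :=
    measurable_x h (by fun_prop) (by fun_prop) (by fun_prop) s
  have my : Measurable fun q : ((ℝ × ℝ) × Environment) × (ℝ × ℝ) =>
      h.x s' q.2.2 (q.1.1 - d) q.1.2 :=
    measurable_x h (by fun_prop) (by fun_prop) (by fun_prop) s'
  have i1 : Integrable (fun q : ((ℝ × ℝ) × Environment) × (ℝ × ℝ) =>
      passageTime q.1.2 (h.x s q.2.1 q.1.1 q.1.2) (h.x s' q.2.2 (q.1.1 - d) q.1.2)) (nu G) := by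
    refine integrable_ptX h0 h2 (v := 0) (v' := d) (R := Rx h s) (R' := Rx h s') mx my ?_ ?_
    · intro q; rw [sub_zero]; exact norm_x h _ _ _ _
    · intro q; exact norm_x h _ _ _ _
  have hphi : Measurable (phi F) := measurable_of_countable _
  have i2 : Integrable (fun q : ((ℝ × ℝ) × Environment) × (ℝ × ℝ) =>
      phi F (h.x s' q.2.2 (q.1.1 - d) q.1.2) - phi F (h.x s q.2.1 q.1.1 q.1.2)) (nu G) := by
    refine Integrable.of_bound ((hphi.comp my).sub (hphi.comp mx)).aestronglyMeasurable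
      (‖F.ρ‖ * Rx h s' + ‖F.ρ‖ * Rx h s + |F.ρ d|) (ae_of_all _ fun q => ?_)
    rw [phi_diff d q.1.1, Real.norm_eq_abs]
    refine (abs_add_le _ _).trans (add_le_add ((abs_sub _ _).trans (add_le_add ?_ ?_)) le_rfl)
    · exact (F.ρ.le_opNorm _).trans (mul_le_mul_of_nonneg_left (norm_x h _ _ _ _) (norm_nonneg _))
    · exact (F.ρ.le_opNorm _).trans (mul_le_mul_of_nonneg_left (norm_x h _ _ _ _) (norm_nonneg _))
  exact i1.sub i2

/-- **`E gY ≥ 0`** -/
theorem gY_nonneg (hμ : IsTC G μ) (d : ℝ × ℝ) (s s' : ℝ) :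
    0 ≤ ∫ q, h.gY d s s' q.1.1 q.1.2 q.2 ∂(nu G) := by
  have hT : MeasurePreserving (Prod.map (id : (ℝ × ℝ) × Environment → _)
      (Prod.map (id : ℝ → ℝ) (fun x : ℝ => Int.fract (x + (s' - s) / h.n0)))) (nu G) (nu G) :=
    (MeasurePreserving.id _).prod ((MeasurePreserving.id _).prod (mp_fract _))
  have h1 := mp_integral hT (gY_integrable h h0 h2 d s s').aestronglyMeasurable
  rw [← h1]
  obtain ⟨-, h3⟩ := (covV_x h s).zero_le (π := UU) h0 h2 hμ F (d + (s' - s) • F.a)
  refine h3.trans (le_of_eq ?_)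
  refine integral_congr_ae (ae_of_all _ fun q => ?_)
  simp only [Prod.map_fst, Prod.map_snd, id_eq, gY_eq]
  have e := x_shift h s (s' - s) q.2.2 (q.1.1 - d) q.1.2
  rw [add_sub_cancel] at e
  rw [e, sub_sub]

end

end Crest.Agent.R151.M56
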