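import Crest.Agent.R151.R78K
import Crest.Agent.R151.C710h
import Crest.Agent.R151.M56a
import Crest.Agent.R151.C710k

-- ▼ part R151/M56b
section

/-!
# R151 / S0214 part 2, M56b — explicit routes: deterministic part (helper56)

* `routes_bdd`: the routes are always bounded below (nonnegative weights);
* `exists_open_of_walk`: a walk crossing two highways contains an open crossing, not more expensive;
* `hull_le_pR`: upper bound of a hull cost by a restricted passage time;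
* `exists_segw`: a walk of length `n1 (y - x)` staying within `ℓ¹`-distance `2` of the segment.
-/

set_option autoImplicit false

open MeasureTheory Filter ProbabilityTheory Topology
open Crest.ProbabilityR.FirstPassage

namespace Crest.Agent.R151.M56

open Crest.Agent.R151.K
open R78 (V Wk IsHwy hc hp stepc hull routes IsOpen shp hullY ptY gapK IsStrip Frame IsPos Back Sep
  exists_first exists_last mem_support_append mem_tail_append mem_dropLast_append hc_mono)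
open C710 (fn fn_nonneg abs_f_le)

section det

variable {t : Environment} {L U : ℤ → V} {A Z : Set V} {i j a b : ℤ}

/-- routes are bounded below -/
lemma routes_bdd (ht : Nn t) (L U : ℤ → V) (A : Set V) (i j : ℤ) :
    BddBelow (routes t L U A i j) := by
  refine ⟨hc t L i - hc t U j, ?_⟩
  rintro _ ⟨z, w, hz, hw, g, -, rfl⟩
  have h1 := hc_mono ht L hz
  have h2 := hc_mono ht U hw
  have h3 := walkCost_nonneg ht g
  linarith

/-- a walk from `x` to `y` separated by the two highways contains an open crossing -/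
lemma exists_open_of_walk {x y : V} (hL : Sep {x} (Set.range L) (Set.range U))
    (hU : Sep {x} (Set.range U) {y}) (g : Wk x y) :
    ∃ (z w : ℤ) (o : Wk (L z) (U w)), IsOpen L U {v | v ∈ g.support} o ∧
      ∀ t, Nn t → walkCost t o ≤ walkCost t g := by
  obtain ⟨u, c, b, e, ⟨w, rfl⟩, hc⟩ := exists_first g (Set.range U) (hU x rfl y rfl g)
  obtain ⟨v, a, o, e', ⟨z, rfl⟩, ho⟩ := exists_last c (Set.range L) (hL x rfl _ ⟨w, rfl⟩ c)
  refine ⟨z, w, o, ⟨?_, ?_, ?_⟩, ?_⟩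
  · intro v hv
    show v ∈ g.support
    rw [e, e', mem_support_append, mem_support_append]
    exact Or.inl (Or.inr hv)
  · intro k hk; exact ho _ hk ⟨k, rfl⟩
  · intro k hk
    exact hc _ (by rw [e', mem_dropLast_append]; exact Or.inr hk) ⟨k, rfl⟩
  · intro t ht
    rw [e, e', walkCost_append, walkCost_append]
    have h1 := walkCost_nonneg ht a
    have h2 := walkCost_nonneg ht b
    linarith

/-- nonemptiness of the routes -/
lemma routes_nonempty {x y : V} (hL : Sep {x} (Set.range L) (Set.range U))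
    (hU : Sep {x} (Set.range U) {y}) (hc : Conn Z x y) (hZ : Z ⊆ A)
    (hZL : ∀ k, L k ∈ Z → i ≤ k) (hZU : ∀ k, U k ∈ Z → k ≤ j) :
    (routes t L U A i j).Nonempty := by
  obtain ⟨g, hg⟩ := hc
  obtain ⟨z, w, o, ho, -⟩ := exists_open_of_walk hL hU g
  exact ⟨_, z, w, hZL z (hg _ (ho.sub _ o.start_mem_support)),
    hZU w (hg _ (ho.sub _ o.end_mem_support)), o, ho.mono fun v hv => hZ (hg v hv), rfl⟩

/-- **upper bound of a hull cost** -/
theorem hull_le_pR (ht : Nn t) {x y : V} (hL : Sep {x} (Set.range L) (Set.range U))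
    (hU : Sep {x} (Set.range U) {y}) (hc' : Conn Z x y) (hZ : Z ⊆ A)
    (hZL : ∀ k, L k ∈ Z → i ≤ k ∧ k ≤ b) (hZU : ∀ k, U k ∈ Z → a ≤ k ∧ k ≤ j) :
    hull t L U A i j ≤ hc t L b - hc t U a + pR t Z x y := by
  have key : hull t L U A i j - (hc t L b - hc t U a) ≤ pR t Z x y := by
    refine le_pR hc' fun g hg => ?_
    obtain ⟨z, w, o, ho, hcost⟩ := exists_open_of_walk hL hU g
    have hz := hZL z (hg _ (ho.sub _ o.start_mem_support))
    have hw := hZU w (hg _ (ho.sub _ o.end_mem_support))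
    have h1 := R78.hull_le (routes_bdd ht L U A i j) hz.1 hw.2 o
      (ho.mono fun v hv => hZ (hg v hv))
    have h2 := hcost t ht
    have h3 := hc_mono ht L hz.2
    have h4 := hc_mono ht U hw.1
    linarith
  linarith

end det

/-! ### Segment walks -/

lemma adj_of_step1 (x : V) {σ : ℤ} (hσ : σ = 1 ∨ σ = -1) (p : ℤ) (c : ℤ) :
    squareLattice.Adj (x.1 + σ * p, c) (x.1 + σ * (p + 1), c) := by
  rcases hσ with rfl | rfl
  · have := adj_right (x.1 + 1 * p) c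
    have e : x.1 + 1 * (p + 1) = x.1 + 1 * p + 1 := by ring
    rw [e]; exact this
  · have := (adj_right (x.1 + -1 * (p + 1)) c).symm
    have e : x.1 + -1 * p = x.1 + -1 * (p + 1) + 1 := by ring
    rw [e]; exact this

lemma adj_of_step2 (x : V) {τ : ℤ} (hτ : τ = 1 ∨ τ = -1) (q : ℤ) (c : ℤ) :
    squareLattice.Adj (c, x.2 + τ * q) (c, x.2 + τ * (q + 1)) := by
  rcases hτ with rfl | rfl
  · have := adj_up c (x.2 + 1 * q)
    have e : x.2 + 1 * (q + 1) = x.2 + 1 * q + 1 := by ring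
    rw [e]; exact this
  · have := (adj_up c (x.2 + -1 * (q + 1))).symm
    have e : x.2 + -1 * q = x.2 + -1 * (q + 1) + 1 := by ring
    rw [e]; exact this

lemma segw_aux (x : V) {σ τ : ℤ} (hσ : σ = 1 ∨ σ = -1) (hτ : τ = 1 ∨ τ = -1) (P Q : ℕ) :
    ∀ n p q : ℕ, p ≤ P → q ≤ Q → (P - p) + (Q - q) = n → (p * Q : ℤ) - q * P ≤ Q →
      -(P : ℤ) ≤ p * Q - q * P →
      ∃ w : Wk (x.1 + σ * (p : ℤ), x.2 + τ * (q : ℤ)) (x.1 + σ * (P : ℤ), x.2 + τ * (Q : ℤ)),
        w.length = n ∧ ∀ z ∈ w.support, ∃ p' q' : ℕ, p' ≤ P ∧ q' ≤ Q ∧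
          z = (x.1 + σ * (p' : ℤ), x.2 + τ * (q' : ℤ)) ∧ (p' * Q : ℤ) - q' * P ≤ Q ∧
          -(P : ℤ) ≤ p' * Q - q' * P := by
  intro n
  induction n with
  | zero =>
    intro p q hp hq hn h1 h2
    obtain rfl : p = P := by omega
    obtain rfl : q = Q := by omega
    refine ⟨SimpleGraph.Walk.nil, rfl, fun z hz => ?_⟩
    rw [SimpleGraph.Walk.support_nil, List.mem_singleton] at hz
    exact ⟨p, q, le_rfl, le_rfl, hz, h1, h2⟩
  | succ n ih =>
    intro p q hp hq hn h1 h2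
    by_cases hc : p < P ∧ (p * Q : ℤ) - q * P ≤ 0
    · obtain ⟨w, hw, hs⟩ := ih (p + 1) q hc.1 hq (by omega)
        (by push_cast; linarith [hc.2]) (by push_cast; linarith [(Nat.cast_nonneg Q : (0 : ℤ) ≤ Q)])
      have hadj := adj_of_step1 x hσ (p : ℤ) (x.2 + τ * (q : ℤ))
      have e : ((p + 1 : ℕ) : ℤ) = (p : ℤ) + 1 := by push_cast; ring
      rw [← e] at hadj
      refine ⟨SimpleGraph.Walk.cons hadj w, by rw [SimpleGraph.Walk.length_cons, hw], ?_⟩
      intro z hz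
      rw [SimpleGraph.Walk.support_cons, List.mem_cons] at hz
      rcases hz with rfl | hz
      · exact ⟨p, q, hp, hq, rfl, h1, h2⟩
      · exact hs z hz
    · have hq' : q < Q := by
        rcases Nat.lt_or_ge q Q with h | h
        · exact h
        · exfalso
          obtain rfl : q = Q := by omega
          apply hc
          refine ⟨by omega, ?_⟩
          have : (p : ℤ) ≤ P := by exact_mod_cast hp
          have h0 : (0 : ℤ) ≤ q := Nat.cast_nonneg q
          nlinarith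
      have hD : 0 ≤ (p * Q : ℤ) - q * P := by
        rcases Nat.lt_or_ge p P with h | h
        · by_contra hcon
          exact hc ⟨h, by omega⟩
        · obtain rfl : p = P := by omega
          have : (q : ℤ) ≤ Q := by exact_mod_cast hq
          have h0 : (0 : ℤ) ≤ p := Nat.cast_nonneg p
          nlinarith
      obtain ⟨w, hw, hs⟩ := ih p (q + 1) hp hq' (by omega)
        (by push_cast; linarith [(Nat.cast_nonneg P : (0 : ℤ) ≤ P)]) (by push_cast; linarith)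
      have hadj := adj_of_step2 x hτ (q : ℤ) (x.1 + σ * (p : ℤ))
      have e : ((q + 1 : ℕ) : ℤ) = (q : ℤ) + 1 := by push_cast; ring
      rw [← e] at hadj
      refine ⟨SimpleGraph.Walk.cons hadj w, by rw [SimpleGraph.Walk.length_cons, hw], ?_⟩
      intro z hz
      rw [SimpleGraph.Walk.support_cons, List.mem_cons] at hz
      rcases hz with rfl | hz
      · exact ⟨p, q, hp, hq, rfl, h1, h2⟩
      · exact hs z hz

/-- **segment walk** -/
theorem exists_segw (x y : V) : ∃ w : Wk x y, w.length = n1 (y - x) ∧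
    ∀ z ∈ w.support, ∃ l : ℝ, 0 ≤ l ∧ l ≤ 1 ∧
      l1 (toR z - toR x - l • (toR y - toR x)) ≤ 2 := by
  obtain ⟨σ, hσ, hσP⟩ : ∃ σ : ℤ, (σ = 1 ∨ σ = -1) ∧ ((y.1 - x.1).natAbs : ℤ) * σ = y.1 - x.1 := by
    rcases le_total 0 (y.1 - x.1) with h0 | h0
    · exact ⟨1, Or.inl rfl, by omega⟩
    · exact ⟨-1, Or.inr rfl, by omega⟩
  obtain ⟨τ, hτ, hτQ⟩ : ∃ τ : ℤ, (τ = 1 ∨ τ = -1) ∧ ((y.2 - x.2).natAbs : ℤ) * τ = y.2 - x.2 := by
    rcases le_total 0 (y.2 - x.2) with h0 | h0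
    · exact ⟨1, Or.inl rfl, by omega⟩
    · exact ⟨-1, Or.inr rfl, by omega⟩
  set P := (y.1 - x.1).natAbs with hP
  set Q := (y.2 - x.2).natAbs with hQ
  obtain ⟨w, hw, hs⟩ := segw_aux x hσ hτ P Q (P + Q) 0 0 (by omega) (by omega) (by omega)
    (by push_cast; linarith [(Nat.cast_nonneg Q : (0 : ℤ) ≤ Q)])
    (by push_cast; linarith [(Nat.cast_nonneg P : (0 : ℤ) ≤ P)])
  have ex : ((x.1 + σ * ((0 : ℕ) : ℤ), x.2 + τ * ((0 : ℕ) : ℤ)) : V) = x := by simp
  have ey : ((x.1 + σ * (P : ℤ), x.2 + τ * (Q : ℤ)) : V) = y := by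
    apply Prod.ext
    · simp only; rw [mul_comm]; linarith
    · simp only; rw [mul_comm]; linarith
  refine ⟨w.copy ex ey, ?_, fun z hz => ?_⟩
  · rw [SimpleGraph.Walk.length_copy, hw]
    simp only [n1, Prod.fst_sub, Prod.snd_sub, hP, hQ]
  rw [SimpleGraph.Walk.support_copy] at hz
  obtain ⟨p, q, hp, hq, rfl, h1, h2⟩ := hs z hz
  have hσR : (P : ℝ) * σ = (y.1 : ℝ) - x.1 := by exact_mod_cast hσP
  have hτR : (Q : ℝ) * τ = (y.2 : ℝ) - x.2 := by exact_mod_cast hτQ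
  have hσa : |(σ : ℝ)| = 1 := by rcases hσ with rfl | rfl <;> norm_num
  have hτa : |(τ : ℝ)| = 1 := by rcases hτ with rfl | rfl <;> norm_num
  rcases Nat.eq_zero_or_pos (P + Q) with h0 | h0
  · obtain rfl : p = 0 := by omega
    obtain rfl : q = 0 := by omega
    refine ⟨0, le_rfl, zero_le_one, ?_⟩
    have e : toR ((x.1 + σ * ((0 : ℕ) : ℤ), x.2 + τ * ((0 : ℕ) : ℤ)) : V) = toR x := by
      rw [ex]
    rw [e]
    simp [l1]
  have hn : (0 : ℝ) < (P : ℝ) + Q := by exact_mod_cast h0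
  have h1R : (p : ℝ) * Q - q * P ≤ Q := by exact_mod_cast h1
  have h2R : -(P : ℝ) ≤ (p : ℝ) * Q - q * P := by exact_mod_cast h2
  have hpP : (p : ℝ) ≤ P := by exact_mod_cast hp
  have hqQ : (q : ℝ) ≤ Q := by exact_mod_cast hq
  have hP0 : (0 : ℝ) ≤ P := Nat.cast_nonneg P
  have hQ0 : (0 : ℝ) ≤ Q := Nat.cast_nonneg Q
  refine ⟨((p : ℝ) + q) / (P + Q), by positivity, (div_le_one hn).2 (by linarith), ?_⟩
  have e1 : (toR ((x.1 + σ * (p : ℤ), x.2 + τ * (q : ℤ)) : V) - toR x -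
      (((p : ℝ) + q) / (P + Q)) • (toR y - toR x)).1 =
      σ * (((p : ℝ) * Q - q * P) / (P + Q)) := by
    simp only [toR, Prod.fst_sub, Prod.smul_fst, smul_eq_mul]
    rw [← hσR]
    push_cast
    field_simp
    ring
  have e2 : (toR ((x.1 + σ * (p : ℤ), x.2 + τ * (q : ℤ)) : V) - toR x -
      (((p : ℝ) + q) / (P + Q)) • (toR y - toR x)).2 =
      -(τ * (((p : ℝ) * Q - q * P) / (P + Q))) := by
    simp only [toR, Prod.snd_sub, Prod.smul_snd, smul_eq_mul]
    rw [← hτR]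
    push_cast
    field_simp
    ring
  have hb : |((p : ℝ) * Q - q * P) / (P + Q)| ≤ 1 := by
    rw [abs_div, abs_of_pos hn, div_le_one hn, abs_le]
    constructor <;> linarith
  unfold l1
  rw [e1, e2, abs_neg, abs_mul, abs_mul, hσa, hτa]
  linarith

/-- values of a linear functional along a segment walk -/
theorem exists_segw' (x y : V) : ∃ w : Wk x y, w.length = n1 (y - x) ∧
    ∀ z ∈ w.support, ∀ f : ℝ × ℝ →L[ℝ] ℝ,
      min (f (toR x)) (f (toR y)) - 2 * fn f ≤ f (toR z) ∧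
      f (toR z) ≤ max (f (toR x)) (f (toR y)) + 2 * fn f := by
  obtain ⟨w, hw, hs⟩ := exists_segw x y
  refine ⟨w, hw, fun z hz f => ?_⟩
  obtain ⟨l, hl0, hl1, hl⟩ := hs z hz
  have h1 := abs_f_le f (toR z - toR x - l • (toR y - toR x))
  have h2 : |f (toR z - toR x - l • (toR y - toR x))| ≤ 2 * fn f := by
    have := fn_nonneg f
    nlinarith
  rw [map_sub, map_sub, map_smul, map_sub, smul_eq_mul, abs_le] at h2
  have h3 : min (f (toR x)) (f (toR y)) ≤ f (toR x) + l * (f (toR y) - f (toR x)) := by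
    rcases le_total (f (toR x)) (f (toR y)) with h | h
    · rw [min_eq_left h]; nlinarith
    · rw [min_eq_right h]; nlinarith
  have h4 : f (toR x) + l * (f (toR y) - f (toR x)) ≤ max (f (toR x)) (f (toR y)) := by
    rcases le_total (f (toR x)) (f (toR y)) with h | h
    · rw [max_eq_right h]; nlinarith
    · rw [max_eq_left h]; nlinarith
  constructor <;> linarith

end Crest.Agent.R151.M56
end

-- ▼ part R151/M56c

/-!
# R151 / S0214 part 2, M56c — rows: explicit routes, integrability and sign of `hkY` (helper56)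

* `measurable_pR_rand`, `pR_rand_mean`: restricted passage times in random regions;
* `row_nonempty`, `hk_le`: routes and upper bound for the hull kernels (fences and falls);
* `hkY_ge`, `hkY_integrable`, `hkY_nonneg`.
-/

set_option autoImplicit false

open MeasureTheory Filter ProbabilityTheory Topology
open Crest.ProbabilityR.FirstPassage

namespace Crest.Agent.R151.M56

open Crest.Agent.R151.K Crest.Agent.R151.Q
open R78 (V Wk IsHwy hc hp stepc hull routes IsOpen shp hullY ptY gapK IsStrip Frame IsPos Back Sep)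
open M192 (frame frame_al frame_be al_pos be_pos isStrip ix_cov pos_add_toR)
open B710 (FlatData)
open C710 (fn fn_nonneg abs_f_le l1_nr toR_sub' n1_le_of_l1)

/-! ### Restricted passage times in random regions -/

section rand

variable {Ω : Type*} [MeasurableSpace Ω] {T : Ω → Environment} {A : Ω → Set V} {x y : Ω → V}

/-- measurability of restricted passage times with random region and random end points -/
theorem measurable_pR_rand (hT : Measurable T) (hA : ∀ v, MeasurableSet {ω | v ∈ A ω})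
    (hx : Measurable x) (hy : Measurable y) :
    Measurable fun ω => pR (T ω) (A ω) (x ω) (y ω) := by
  have key : ∀ p : V × V, Measurable fun ω => pR (T ω) (A ω) p.1 p.2 := by
    intro p
    have e : (fun ω => pR (T ω) (A ω) p.1 p.2) = fun ω => sInf {c : ℝ |
        ∃ w : Wk p.1 p.2, (∀ v ∈ w.support, v ∈ A ω) ∧ c = walkCost (T ω) w} := by
      funext ω
      unfold pR iInf
      congr 1
      ext c
      constructor
      · rintro ⟨⟨w, hw⟩, rfl⟩; exact ⟨w, hw, rfl⟩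
      · rintro ⟨w, hw, rfl⟩; exact ⟨⟨w, hw⟩, rfl⟩
    rw [e]
    refine G338.measurable_sInf_aux (fun w => ?_) fun w => (measurable_walkCost w).comp hT
    rw [show {ω | ∀ v ∈ w.support, v ∈ A ω} = ⋂ v ∈ w.support, {ω | v ∈ A ω} by ext ω; simp]
    exact MeasurableSet.biInter (Set.to_countable {v | v ∈ w.support}) fun v _ => hA v
  have hm : Measurable fun q : (V × V) × Ω => pR (T q.2) (A q.2) q.1.1 q.1.2 :=
    measurable_from_prod_countable_right key
  exact hm.comp ((hx.prodMk hy).prodMk measurable_id)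

variable {G : Measure ℝ} [IsProbabilityMeasure G]

/-- mean cost of a fixed walk -/
lemma walkCost_mean (h2 : Integrable (fun x : ℝ => x ^ 2) G) {x y : V} (w : Wk x y) :
    Integrable (fun t => walkCost t w) (iidLaw G) ∧
      ∫ t, walkCost t w ∂(iidLaw G) = w.length * ∫ z, z ∂G := by
  have h1 := integrable_id_of_sq h2
  have hie : ∀ e : Sym2 (ℤ × ℤ), Integrable (fun t : Environment => t e) (iidLaw G) :=
    fun e => (mp_eval (G := G) e).integrable_comp_of_integrable h1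
  have hme : ∀ e : Sym2 (ℤ × ℤ), ∫ t : Environment, t e ∂(iidLaw G) = ∫ z, z ∂G := by
    intro e
    have h := (mp_eval (G := G) e)
    conv_rhs => rw [← h.map_eq]
    rw [integral_map h.measurable.aemeasurable (by rw [h.map_eq]; exact h1.1)]
  have key : ∀ l : List (Sym2 (ℤ × ℤ)),
      Integrable (fun t : Environment => (l.map t).sum) (iidLaw G) ∧
      ∫ t : Environment, (l.map t).sum ∂(iidLaw G) = l.length * ∫ z, z ∂G := by
    intro l
    induction l with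
    | nil => simp
    | cons e l ih =>
      simp only [List.map_cons, List.sum_cons, List.length_cons]
      refine ⟨(hie e).add ih.1, ?_⟩
      rw [integral_add (hie e) ih.1, hme, ih.2]
      push_cast; ring
  have := key w.edges
  rw [SimpleGraph.Walk.length_edges] at this
  exact this

variable (h0 : G (Set.Iio 0) = 0) (h2 : Integrable (fun x : ℝ => x ^ 2) G)
include h0 h2

/-- restricted passage time in a region containing a given walk -/
lemma pR_mean {R : Set V} {x y : V} (w : Wk x y) (hw : ∀ z ∈ w.support, z ∈ R) :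
    Integrable (fun t => pR t R x y) (iidLaw G) ∧
      ∫ t, pR t R x y ∂(iidLaw G) ≤ w.length * ∫ z, z ∂G := by
  obtain ⟨h3, h4⟩ := walkCost_mean (G := G) h2 w
  have hle : ∀ᵐ t ∂(iidLaw G), pR t R x y ≤ walkCost t w := by
    filter_upwards [ae_Nn (G := G) h0] with t ht using pR_le ht w hw
  have hi : Integrable (fun t => pR t R x y) (iidLaw G) := by
    refine h3.mono' (measurable_pR _ _ _).aestronglyMeasurable ?_
    filter_upwards [ae_Nn (G := G) h0, hle] with t ht h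
    rw [Real.norm_of_nonneg (pR_nonneg ht _ _ _)]
    exact h
  exact ⟨hi, (integral_mono_ae hi h3 hle).trans_eq h4⟩

omit [MeasurableSpace Ω] in
/-- **mean of a restricted passage time in a region depending on the offset** -/
theorem pR_rand_mean {Z : ℝ × ℝ → Set V} {x y : ℝ × ℝ → V}
    (hZ : ∀ v, MeasurableSet {θ | v ∈ Z θ}) (hx : Measurable x) (hy : Measurable y) {N : ℝ}
    (hw : ∀ θ, ∃ w : Wk (x θ) (y θ), (w.length : ℝ) ≤ N ∧ ∀ z ∈ w.support, z ∈ Z θ) :
    Integrable (fun p : (ℝ × ℝ) × Environment => pR p.2 (Z p.1) (x p.1) (y p.1)) (P0 G) ∧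
      ∫ p, pR p.2 (Z p.1) (x p.1) (y p.1) ∂(P0 G) ≤ N * ∫ z, z ∂G := by
  have hm : (0 : ℝ) ≤ ∫ z, z ∂G := integral_nonneg_of_ae (ae_nonneg h0)
  have hmeas : Measurable fun p : (ℝ × ℝ) × Environment => pR p.2 (Z p.1) (x p.1) (y p.1) :=
    measurable_pR_rand measurable_snd (fun v => measurable_fst (hZ v)) (hx.comp measurable_fst)
      (hy.comp measurable_fst)
  have hpt : ∀ θ, Integrable (fun t => pR t (Z θ) (x θ) (y θ)) (iidLaw G) ∧
      ∫ t, pR t (Z θ) (x θ) (y θ) ∂(iidLaw G) ≤ N * ∫ z, z ∂G := by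
    intro θ
    obtain ⟨w, hwN, hwZ⟩ := hw θ
    obtain ⟨h3, h4⟩ := pR_mean h0 h2 w hwZ
    exact ⟨h3, h4.trans (mul_le_mul_of_nonneg_right hwN hm)⟩
  have habs : ∀ θ, ∫ t, ‖pR t (Z θ) (x θ) (y θ)‖ ∂(iidLaw G) =
      ∫ t, pR t (Z θ) (x θ) (y θ) ∂(iidLaw G) := by
    intro θ
    refine integral_congr_ae ?_
    filter_upwards [ae_Nn (G := G) h0] with t ht
    exact Real.norm_of_nonneg (pR_nonneg ht _ _ _)
  have hi : Integrable (fun p : (ℝ × ℝ) × Environment => pR p.2 (Z p.1) (x p.1) (y p.1))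
      (P0 G) := by
    unfold P0
    rw [integrable_prod_iff hmeas.aestronglyMeasurable]
    refine ⟨ae_of_all _ fun θ => (hpt θ).1, ?_⟩
    refine Integrable.of_bound (hmeas.aestronglyMeasurable.norm.integral_prod_right')
      (N * ∫ z, z ∂G) (ae_of_all _ fun θ => ?_)
    simp only
    rw [habs, Real.norm_of_nonneg]
    · exact (hpt θ).2
    · refine integral_nonneg_of_ae ?_
      filter_upwards [ae_Nn (G := G) h0] with t ht
      exact pR_nonneg ht _ _ _
  refine ⟨hi, ?_⟩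
  have h3 : ∫ p, pR p.2 (Z p.1) (x p.1) (y p.1) ∂(P0 G) =
      ∫ θ, ∫ t, pR t (Z θ) (x θ) (y θ) ∂(iidLaw G) ∂UU2 := by
    unfold P0 at hi ⊢
    exact integral_prod _ hi
  rw [h3]
  have h4 : ∫ θ, ∫ t, pR t (Z θ) (x θ) (y θ) ∂(iidLaw G) ∂UU2 ≤
      ∫ _θ : ℝ × ℝ, N * ∫ z, z ∂G ∂UU2 := by
    refine integral_mono ?_ (integrable_const _) fun θ => (hpt θ).2
    unfold P0 at hi
    exact hi.integral_prod_left
  refine h4.trans (le_of_eq ?_)
  rw [integral_const, probReal_univ, one_smul]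

end rand

/-! ### Z-shaped walks -/

section Zreg

variable {μ : ℝ × ℝ → ℝ}

/-- margin of the explicit routes -/
noncomputable def mg (F : FlatData μ) : ℝ := 3 * (fn F.al + fn F.be) + 1

lemma one_le_mg (F : FlatData μ) : 1 ≤ mg F := by
  unfold mg
  have := fn_nonneg F.al
  have := fn_nonneg F.be
  linarith

/-- Z-shaped region: up at `al = σ₁` to the height `m`, then to `al = σ₂`, then up -/
def Zr (F : FlatData μ) (σ₁ σ₂ m : ℝ) (θ : ℝ × ℝ) : Set V :=
  {z | (|F.al (pos θ z) - σ₁| ≤ mg F ∧ F.be (pos θ z) ≤ m + mg F) ∨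
    (min σ₁ σ₂ - mg F ≤ F.al (pos θ z) ∧ F.al (pos θ z) ≤ max σ₁ σ₂ + mg F ∧
      |F.be (pos θ z) - m| ≤ mg F) ∨
    (|F.al (pos θ z) - σ₂| ≤ mg F ∧ m - mg F ≤ F.be (pos θ z))}

lemma pos_nr (θ v : ℝ × ℝ) : pos θ (nr (θ - v)) = (toR (nr (θ - v)) + (θ - v)) + v := by
  unfold pos; abel

lemma nr_coord (f : ℝ × ℝ →L[ℝ] ℝ) (θ v : ℝ × ℝ) : |f (pos θ (nr (θ - v))) - f v| ≤ fn f := by
  rw [pos_nr, map_add, add_sub_cancel_right]
  refine (abs_f_le _ _).trans ?_
  have := l1_nr (θ - v)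
  have := fn_nonneg f
  nlinarith

lemma seg_pos (θ : ℝ × ℝ) (x y : V) : ∃ w : Wk x y, w.length = n1 (y - x) ∧
    ∀ z ∈ w.support, ∀ f : ℝ × ℝ →L[ℝ] ℝ,
      min (f (pos θ x)) (f (pos θ y)) - 2 * fn f ≤ f (pos θ z) ∧
      f (pos θ z) ≤ max (f (pos θ x)) (f (pos θ y)) + 2 * fn f := by
  obtain ⟨w, hw, hs⟩ := exists_segw' x y
  refine ⟨w, hw, fun z hz f => ?_⟩
  obtain ⟨h1, h2⟩ := hs z hz f
  unfold pos
  rw [map_add, map_add, map_add, min_add_add_right, max_add_add_right]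
  constructor <;> linarith

lemma n1_nr_le (θ v v' : ℝ × ℝ) :
    (n1 (nr (θ - v') - nr (θ - v)) : ℝ) ≤ l1 (v' - v) + 2 := by
  refine n1_le_of_l1 ?_
  have e : toR (nr (θ - v') - nr (θ - v)) = (v' - v) + ((toR (nr (θ - v')) + (θ - v')) +
      (-1 : ℝ) • (toR (nr (θ - v)) + (θ - v))) := by
    rw [toR_sub']
    simp only [neg_smul, one_smul]
    abel
  rw [e]
  refine (l1_add_le _ _).trans ?_
  have h1 := l1_add_le (toR (nr (θ - v')) + (θ - v')) ((-1 : ℝ) • (toR (nr (θ - v)) + (θ - v)))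
  rw [C710.l1_smul] at h1
  have h3 : |(-1 : ℝ)| = 1 := by norm_num
  rw [h3] at h1
  linarith [l1_nr (θ - v), l1_nr (θ - v')]

/-- the segment walk between two points of the plane, in coordinates -/
lemma seg_coord (F : FlatData μ) (θ v v' : ℝ × ℝ) :
    ∃ w : Wk (nr (θ - v)) (nr (θ - v')), (w.length : ℝ) ≤ l1 (v' - v) + 2 ∧
      ∀ z ∈ w.support,
        (min (F.al v) (F.al v') - mg F ≤ F.al (pos θ z) ∧
          F.al (pos θ z) ≤ max (F.al v) (F.al v') + mg F) ∧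
        (min (F.be v) (F.be v') - mg F ≤ F.be (pos θ z) ∧
          F.be (pos θ z) ≤ max (F.be v) (F.be v') + mg F) := by
  obtain ⟨w, hw, hs⟩ := seg_pos θ (nr (θ - v)) (nr (θ - v'))
  refine ⟨w, by rw [hw]; exact n1_nr_le θ v v', fun z hz => ?_⟩
  have ha := fn_nonneg F.al
  have hb := fn_nonneg F.be
  have key : ∀ f : ℝ × ℝ →L[ℝ] ℝ, min (f v) (f v') - 3 * fn f ≤ f (pos θ z) ∧
      f (pos θ z) ≤ max (f v) (f v') + 3 * fn f := by
    intro f
    obtain ⟨h1, h2⟩ := hs z hz f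
    have h3 := abs_le.1 (nr_coord f θ v)
    have h4 := abs_le.1 (nr_coord f θ v')
    have h5 : min (f v) (f v') - fn f ≤ min (f (pos θ (nr (θ - v)))) (f (pos θ (nr (θ - v')))) := by
      refine le_min ?_ ?_
      · have := min_le_left (f v) (f v'); linarith [h3.1]
      · have := min_le_right (f v) (f v'); linarith [h4.1]
    have h6 : max (f (pos θ (nr (θ - v)))) (f (pos θ (nr (θ - v')))) ≤ max (f v) (f v') + fn f := by
      refine max_le ?_ ?_
      · have := le_max_left (f v) (f v'); linarith [h3.2]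
      · have := le_max_right (f v) (f v'); linarith [h4.2]
    constructor <;> linarith
  have k1 := key F.al
  have k2 := key F.be
  unfold mg
  refine ⟨⟨?_, ?_⟩, ⟨?_, ?_⟩⟩ <;> linarith [k1.1, k1.2, k2.1, k2.2]

lemma al_comb (F : FlatData μ) (σ τ : ℝ) : F.al (σ • F.a + τ • F.b) = σ := by
  rw [map_add, map_smul, map_smul, F.al_a, F.al_b]; simp

lemma be_comb (F : FlatData μ) (σ τ : ℝ) : F.be (σ • F.a + τ • F.b) = τ := by
  rw [map_add, map_smul, map_smul, F.be_a, F.be_b]; simp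

/-- **the Z-shaped walk** -/
theorem Z_walk (F : FlatData μ) {σ₁ σ₂ lo m hi : ℝ} (h1 : lo ≤ m) (h2 : m ≤ hi) (θ : ℝ × ℝ) :
    ∃ w : Wk (nr (θ - (σ₁ • F.a + lo • F.b))) (nr (θ - (σ₂ • F.a + hi • F.b))),
      (w.length : ℝ) ≤ (hi - lo) * l1 F.b + |σ₂ - σ₁| * l1 F.a + 6 ∧
      ∀ z ∈ w.support, z ∈ Zr F σ₁ σ₂ m θ := by
  obtain ⟨w1, l1', s1⟩ := seg_coord F θ (σ₁ • F.a + lo • F.b) (σ₁ • F.a + m • F.b)
  obtain ⟨w2, l2', s2⟩ := seg_coord F θ (σ₁ • F.a + m • F.b) (σ₂ • F.a + m • F.b)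
  obtain ⟨w3, l3', s3⟩ := seg_coord F θ (σ₂ • F.a + m • F.b) (σ₂ • F.a + hi • F.b)
  simp only [al_comb, be_comb, min_self, max_self] at s1 s2 s3
  rw [min_eq_left h1, max_eq_right h1] at s1
  rw [min_eq_left h2, max_eq_right h2] at s3
  have e1 : l1 (σ₁ • F.a + m • F.b - (σ₁ • F.a + lo • F.b)) = (m - lo) * l1 F.b := by
    have : σ₁ • F.a + m • F.b - (σ₁ • F.a + lo • F.b) = (m - lo) • F.b := by
      rw [sub_smul]; abel
    rw [this, C710.l1_smul, abs_of_nonneg (by linarith)]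
  have e2 : l1 (σ₂ • F.a + m • F.b - (σ₁ • F.a + m • F.b)) = |σ₂ - σ₁| * l1 F.a := by
    have : σ₂ • F.a + m • F.b - (σ₁ • F.a + m • F.b) = (σ₂ - σ₁) • F.a := by
      rw [sub_smul]; abel
    rw [this, C710.l1_smul]
  have e3 : l1 (σ₂ • F.a + hi • F.b - (σ₂ • F.a + m • F.b)) = (hi - m) * l1 F.b := by
    have : σ₂ • F.a + hi • F.b - (σ₂ • F.a + m • F.b) = (hi - m) • F.b := by
      rw [sub_smul]; abel
    rw [this, C710.l1_smul, abs_of_nonneg (by linarith)]
  rw [e1] at l1'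
  rw [e2] at l2'
  rw [e3] at l3'
  refine ⟨(w1.append w2).append w3, ?_, fun z hz => ?_⟩
  · rw [SimpleGraph.Walk.length_append, SimpleGraph.Walk.length_append]
    push_cast
    nlinarith
  · rw [R78.mem_support_append, R78.mem_support_append] at hz
    rcases hz with (hz | hz) | hz
    · left
      obtain ⟨a, b⟩ := s1 z hz
      exact ⟨abs_le.2 ⟨by linarith [a.1], by linarith [a.2]⟩, b.2⟩
    · right; left
      obtain ⟨a, b⟩ := s2 z hz
      exact ⟨a.1, a.2, abs_le.2 ⟨by linarith [b.1], by linarith [b.2]⟩⟩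
    · right; right
      obtain ⟨a, b⟩ := s3 z hz
      exact ⟨abs_le.2 ⟨by linarith [a.1], by linarith [a.2]⟩, b.1⟩

lemma measurableSet_Zr (F : FlatData μ) (σ₁ σ₂ m : ℝ) (v : V) :
    MeasurableSet {θ | v ∈ Zr F σ₁ σ₂ m θ} := by
  have ha : Measurable fun θ : ℝ × ℝ => F.al (pos θ v) :=
    F.al.continuous.measurable.comp (M192.measurable_pos v)
  have hb : Measurable fun θ : ℝ × ℝ => F.be (pos θ v) :=
    F.be.continuous.measurable.comp (M192.measurable_pos v)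
  refine MeasurableSet.union ?_ (MeasurableSet.union ?_ ?_)
  · exact (measurableSet_le (ha.sub_const _).abs measurable_const).inter
      (measurableSet_le hb measurable_const)
  · exact (measurableSet_le measurable_const ha).inter
      ((measurableSet_le ha measurable_const).inter
        (measurableSet_le (hb.sub_const _).abs measurable_const))
  · exact (measurableSet_le (ha.sub_const _).abs measurable_const).inter
      (measurableSet_le measurable_const hb)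

end Zreg

/-! ### Rows -/

section rows

variable {μ : ℝ × ℝ → ℝ} {F : FlatData μ} (h : Hwy F)

/-- start of the explicit route (below the lower strip) -/
noncomputable def Zx (σ : ℝ) (θ : ℝ × ℝ) : V :=
  nr (θ - (σ • F.a + (-(h.wH / 2) - mg F) • F.b))

/-- end of the explicit route (above the upper strip) -/
noncomputable def Zy (d : ℝ × ℝ) (σ : ℝ) (θ : ℝ × ℝ) : V :=
  nr (θ - (σ • F.a + (F.be d + h.wH / 2 + mg F) • F.b))

variable {h} {d : ℝ × ℝ} (hd : h.wH + 2 * mg F < F.be d)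
include hd

lemma Zrow_walk (σ₁ σ₂ : ℝ) (θ : ℝ × ℝ) :
    ∃ w : Wk (Zx h σ₁ θ) (Zy h d σ₂ θ),
      (w.length : ℝ) ≤ (F.be d + h.wH + 2 * mg F) * l1 F.b + |σ₂ - σ₁| * l1 F.a + 6 ∧
      ∀ z ∈ w.support, z ∈ Zr F σ₁ σ₂ (F.be d / 2) θ := by
  have h1 := one_le_mg F
  have h2 := wH_nonneg h
  obtain ⟨w, hw, hs⟩ := Z_walk F (σ₁ := σ₁) (σ₂ := σ₂) (lo := -(h.wH / 2) - mg F)
    (m := F.be d / 2) (hi := F.be d + h.wH / 2 + mg F) (by linarith) (by linarith) θ
  refine ⟨w, hw.trans (le_of_eq ?_), hs⟩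
  ring

omit hd in
lemma be_Zx (σ : ℝ) (θ : ℝ × ℝ) : F.be (pos θ (Zx h σ θ)) < -(h.wH / 2) := by
  have h1 := abs_le.1 (nr_coord F.be θ (σ • F.a + (-(h.wH / 2) - mg F) • F.b))
  rw [be_comb] at h1
  have h2 := fn_nonneg F.al
  have h3 := fn_nonneg F.be
  have h4 : fn F.be + 1 ≤ mg F := by unfold mg; linarith
  unfold Zx
  linarith [h1.2]

omit hd in
lemma be_Zy (σ : ℝ) (θ : ℝ × ℝ) : F.be d + h.wH / 2 < F.be (pos θ (Zy h d σ θ)) := by
  have h1 := abs_le.1 (nr_coord F.be θ (σ • F.a + (F.be d + h.wH / 2 + mg F) • F.b))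
  rw [be_comb] at h1
  have h2 := fn_nonneg F.al
  have h3 := fn_nonneg F.be
  have h4 : fn F.be + 1 ≤ mg F := by unfold mg; linarith
  unfold Zy
  linarith [h1.1]

omit hd in
lemma be_Lo (θ : ℝ × ℝ) (t : Environment) (φ : ℝ × ℝ) (k : ℤ) :
    -(h.wH / 2) ≤ F.be (pos θ (h.Lo θ t φ k)) ∧ F.be (pos θ (h.Lo θ t φ k)) ≤ h.wH / 2 :=
  abs_le.1 (h.strip φ.1 θ t k)

omit hd in
lemma be_Up (d θ : ℝ × ℝ) (t : Environment) (φ : ℝ × ℝ) (k : ℤ) :
    F.be d - h.wH / 2 ≤ F.be (pos θ (h.Up d θ t φ k)) ∧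
      F.be (pos θ (h.Up d θ t φ k)) ≤ F.be d + h.wH / 2 := by
  have h1 := abs_le.1 (h.strip φ.2 (θ - d) t k)
  have e : F.be (pos (θ - d) (h.H φ.2 (θ - d) t k)) =
      F.be (pos θ (h.H φ.2 (θ - d) t k)) - F.be d := by
    rw [be_pos, be_pos, map_sub]; ring
  rw [e] at h1
  unfold Hwy.Up
  constructor <;> linarith [h1.1, h1.2]

lemma Lo_mem (σ₁ σ₂ : ℝ) (θ : ℝ × ℝ) (t : Environment) (φ : ℝ × ℝ) {k : ℤ}
    (hk : h.Lo θ t φ k ∈ Zr F σ₁ σ₂ (F.be d / 2) θ) :
    |F.al (pos θ (h.Lo θ t φ k)) - σ₁| ≤ mg F := by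
  have h1 := be_Lo (h := h) θ t φ k
  rcases hk with hk | hk | hk
  · exact hk.1
  · have := (abs_le.1 hk.2.2).1; exfalso; linarith [h1.2]
  · exfalso; linarith [h1.2, hk.2]

lemma Up_mem (σ₁ σ₂ : ℝ) (θ : ℝ × ℝ) (t : Environment) (φ : ℝ × ℝ) {k : ℤ}
    (hk : h.Up d θ t φ k ∈ Zr F σ₁ σ₂ (F.be d / 2) θ) :
    |F.al (pos θ (h.Up d θ t φ k)) - σ₂| ≤ mg F := by
  have h1 := be_Up (h := h) d θ t φ k
  rcases hk with hk | hk | hk
  · exfalso; linarith [h1.1, hk.2]
  · have := (abs_le.1 hk.2.2).2; exfalso; linarith [h1.1]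
  · exact hk.1

lemma sep_Lo (σ : ℝ) (θ : ℝ × ℝ) (t : Environment) (φ : ℝ × ℝ) :
    Sep {Zx h σ θ} (Set.range (h.Lo θ t φ)) (Set.range (h.Up d θ t φ)) := by
  refine (isStrip h φ.1 θ t).sep.mono ?_ subset_rfl ?_
  · rintro _ rfl
    have := be_Zx (h := h) σ θ
    rw [be_pos] at this
    show (frame F).be _ < _
    rw [frame_be]; linarith
  · rintro _ ⟨k, rfl⟩
    have h1 := (be_Up (h := h) d θ t φ k).1
    rw [be_pos] at h1
    have h2 := wH_nonneg h
    have h3 := one_le_mg F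
    show _ < (frame F).be _
    rw [frame_be]; linarith

lemma sep_Up (σ σ' : ℝ) (θ : ℝ × ℝ) (t : Environment) (φ : ℝ × ℝ) :
    Sep {Zx h σ θ} (Set.range (h.Up d θ t φ)) {Zy h d σ' θ} := by
  refine (isStrip h φ.2 (θ - d) t).sep.mono ?_ subset_rfl ?_
  · rintro _ rfl
    have := be_Zx (h := h) σ θ
    rw [be_pos] at this
    have h2 := wH_nonneg h
    have h3 := one_le_mg F
    show (frame F).be _ < _
    rw [frame_be, map_sub]; linarith
  · rintro _ rfl
    have := be_Zy (h := h) (d := d) σ' θ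
    rw [be_pos] at this
    show _ < (frame F).be _
    rw [frame_be, map_sub]; linarith

variable {I : Set ℝ} {s s' σ₁ σ₂ : ℝ} (hs : s + mg F ≤ σ₁)
  (hs' : σ₂ + mg F + h.κ < s' + F.al d)
  (hI : Set.Icc (min σ₁ σ₂ - mg F) (max σ₁ σ₂ + mg F) ⊆ I)
include hs hs' hI

omit hd hs hs' in
lemma Zr_subset_rg (m : ℝ) (θ : ℝ × ℝ) : Zr F σ₁ σ₂ m θ ⊆ rg F I θ := by
  intro z hz
  apply hI
  have a1 := min_le_left σ₁ σ₂
  have a2 := min_le_right σ₁ σ₂
  have a3 := le_max_left σ₁ σ₂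
  have a4 := le_max_right σ₁ σ₂
  rcases hz with hz | hz | hz
  · have := abs_le.1 hz.1
    exact ⟨by linarith [this.1], by linarith [this.2]⟩
  · exact ⟨hz.1, hz.2.1⟩
  · have := abs_le.1 hz.1
    exact ⟨by linarith [this.1], by linarith [this.2]⟩

omit hs' hI in
lemma Lo_idx (θ : ℝ × ℝ) (t : Environment) (φ : ℝ × ℝ) {k : ℤ}
    (hk : h.Lo θ t φ k ∈ Zr F σ₁ σ₂ (F.be d / 2) θ) :
    h.iL s θ t φ ≤ k ∧ k ≤ h.iL (σ₁ + mg F + h.κ + 1) θ t φ := by
  have h1 := abs_le.1 (Lo_mem hd σ₁ σ₂ θ t φ hk)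
  constructor
  · exact ix_le_of_ge (h := h) (by
      have : F.al (pos θ (h.H φ.1 θ t k)) = F.al (pos θ (h.Lo θ t φ k)) := rfl
      rw [this]; linarith [h1.1])
  · refine (lt_ix_of_lt (h := h) ?_).le
    have : F.al (pos θ (h.H φ.1 θ t k)) = F.al (pos θ (h.Lo θ t φ k)) := rfl
    rw [this]; linarith [h1.2]

omit hs hI in
lemma Up_idx (θ : ℝ × ℝ) (t : Environment) (φ : ℝ × ℝ) {k : ℤ}
    (hk : h.Up d θ t φ k ∈ Zr F σ₁ σ₂ (F.be d / 2) θ) :
    h.iU d (σ₂ - mg F - F.al d) θ t φ ≤ k ∧ k ≤ h.iU d s' θ t φ := by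
  have h1 := abs_le.1 (Up_mem hd σ₁ σ₂ θ t φ hk)
  have e : F.al (pos (θ - d) (h.H φ.2 (θ - d) t k)) = F.al (pos θ (h.Up d θ t φ k)) - F.al d :=
    Hwy.al_Up d θ _
  constructor
  · exact ix_le_of_ge (h := h) (by rw [e]; linarith [h1.1])
  · refine (lt_ix_of_lt (h := h) ?_).le
    rw [e]; linarith [h1.2]

/-- **the routes of a row are nonempty** (fences: `σ₁ = σ₂`; falls: `σ₂ < σ₁`) -/
theorem row_nonempty (θ : ℝ × ℝ) (t : Environment) (φ : ℝ × ℝ) :
    (routes t (h.Lo θ t φ) (h.Up d θ t φ) (rg F I θ) (h.iL s θ t φ) (h.iU d s' θ t φ)).Nonempty := by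
  obtain ⟨w, -, hw⟩ := Zrow_walk hd σ₁ σ₂ θ
  exact routes_nonempty (sep_Lo hd σ₁ θ t φ) (sep_Up hd σ₁ σ₂ θ t φ) ⟨w, hw⟩
    (Zr_subset_rg hI _ θ) (fun k hk => (Lo_idx hd hs θ t φ hk).1)
    (fun k hk => (Up_idx hd hs' θ t φ hk).2)

/-- upper bound of the hull kernel by an explicit route -/
theorem hk_le {t : Environment} (ht : Nn t) (θ : ℝ × ℝ) (φ : ℝ × ℝ) :
    h.hk d I s s' θ t φ ≤ hc t (h.Lo θ t φ) (h.iL (σ₁ + mg F + h.κ + 1) θ t φ) -
      hc t (h.Up d θ t φ) (h.iU d (σ₂ - mg F - F.al d) θ t φ) +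
      pR t (Zr F σ₁ σ₂ (F.be d / 2) θ) (Zx h σ₁ θ) (Zy h d σ₂ θ) := by
  obtain ⟨w, -, hw⟩ := Zrow_walk hd σ₁ σ₂ θ
  exact hull_le_pR ht (sep_Lo hd σ₁ θ t φ) (sep_Up hd σ₁ σ₂ θ t φ) ⟨w, hw⟩
    (Zr_subset_rg hI _ θ) (fun k hk => Lo_idx hd hs θ t φ hk)
    (fun k hk => Up_idx hd hs' θ t φ hk)

/-- excess form -/
theorem hkY_le {t : Environment} (ht : Nn t) (θ : ℝ × ℝ) (φ : ℝ × ℝ) :
    h.hkY d I s s' θ t φ ≤ h.cst s (σ₁ + mg F + h.κ + 1) φ.1 θ t +
      h.cst (σ₂ - mg F - F.al d) s' φ.2 (θ - d) t +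
      pR t (Zr F σ₁ σ₂ (F.be d / 2) θ) (Zx h σ₁ θ) (Zy h d σ₂ θ) -
      (phi F (h.x s' φ.2 (θ - d) t) - phi F (h.x s φ.1 θ t)) := by
  have h1 := hk_le hd hs hs' hI ht θ φ
  unfold Hwy.hkY hullY
  unfold Hwy.hk at h1
  have e1 : h.cst s (σ₁ + mg F + h.κ + 1) φ.1 θ t =
      hc t (h.Lo θ t φ) (h.iL (σ₁ + mg F + h.κ + 1) θ t φ) -
        hc t (h.Lo θ t φ) (h.iL s θ t φ) := rfl
  have e2 : h.cst (σ₂ - mg F - F.al d) s' φ.2 (θ - d) t =
      hc t (h.Up d θ t φ) (h.iU d s' θ t φ) -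
        hc t (h.Up d θ t φ) (h.iU d (σ₂ - mg F - F.al d) θ t φ) := rfl
  have e3 : hp t (phi F) (h.Lo θ t φ) (h.iL s θ t φ) =
      hc t (h.Lo θ t φ) (h.iL s θ t φ) - phi F (h.x s φ.1 θ t) := rfl
  have e4 : hp t (phi F) (h.Up d θ t φ) (h.iU d s' θ t φ) =
      hc t (h.Up d θ t φ) (h.iU d s' θ t φ) - phi F (h.x s' φ.2 (θ - d) t) := rfl
  rw [e1, e2, e3, e4]
  linarith

omit hd hs hs' hI in
/-- lower bound by the full plane kernel -/
theorem hkY_ge {t : Environment} (ht : Nn t) (θ : ℝ × ℝ) (φ : ℝ × ℝ)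
    (hne : (routes t (h.Lo θ t φ) (h.Up d θ t φ) (rg F I θ) (h.iL s θ t φ)
      (h.iU d s' θ t φ)).Nonempty) :
    h.gY d s s' θ t φ ≤ h.hkY d I s s' θ t φ := by
  have h1 := R78.gapK_le_hull ht (h.isHwy φ.1 θ t) (h.isHwy φ.2 (θ - d) t) hne
  have h2 := R78.gapK_eq t (phi F) (h.Lo θ t φ) (h.Up d θ t φ) (h.iL s θ t φ) (h.iU d s' θ t φ)
  unfold Hwy.gY ptY Hwy.hkY hullY
  change gapK t (h.Lo θ t φ) (h.Up d θ t φ) (h.iL s θ t φ) (h.iU d s' θ t φ) ≤
    hull t (h.Lo θ t φ) (h.Up d θ t φ) (rg F I θ) (h.iL s θ t φ) (h.iU d s' θ t φ) at h1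
  linarith

end rows

end Crest.Agent.R151.M56
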