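import Crest.Agent.R151.NF0

/-!
# R151 / S0214 part 2, NF3 — numeric toolkit for the order of constants (helper710)
-/

set_option autoImplicit false

open MeasureTheory Filter ProbabilityTheory Topology Set
open Crest.ProbabilityR.FirstPassage
open Crest.Agent.R151.K Crest.Agent.R151.Q

namespace Crest.Agent.R151.NF

open B710 (FlatData)
open C710 (GoodScale)

/-- standing facts -/
structure Num.Std (p : Num) : Prop where
  n : 1 ≤ p.n
  δ_pos : 0 < p.δ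
  δ_le : p.δ ≤ 1
  v : 1 ≤ p.v
  e_pos : 0 < p.e
  e_le : p.e ≤ 1
  v' : 1 ≤ p.v'
  δ'_pos : 0 < p.δ'
  δ'_le : p.δ' ≤ 1
  δ0_pos : 0 < p.δ0
  δ0_le : p.δ0 ≤ 1
  J : 1 ≤ p.J
  W : 1 ≤ p.W

/-! ### Introduction lemmas: a property that holds eventually in ONE parameter -/

lemma ev_n {P : ℕ → Prop} (h : ∀ᶠ n in atTop, P n) : Ev fun p => P p.n := by
  unfold Ev
  filter_upwards [h] with n h
  exact Eventually.of_forall fun δ => Eventually.of_forall fun v => Eventually.of_forall fun e =>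
    Eventually.of_forall fun v' => Eventually.of_forall fun δ' => Eventually.of_forall fun δ0 =>
    Eventually.of_forall fun J => Eventually.of_forall fun W => h

lemma ev_δ {P : ℕ → ℝ → Prop} (h : ∀ n, 1 ≤ n → ∀ᶠ δ in 𝓝[>] 0, P n δ) :
    Ev fun p => P p.n p.δ := by
  unfold Ev
  filter_upwards [eventually_ge_atTop 1] with n hn
  filter_upwards [h n hn] with δ h
  exact Eventually.of_forall fun v => Eventually.of_forall fun e =>
    Eventually.of_forall fun v' => Eventually.of_forall fun δ' => Eventually.of_forall fun δ0 =>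
    Eventually.of_forall fun J => Eventually.of_forall fun W => h

lemma small_pos : ∀ᶠ δ : ℝ in 𝓝[>] 0, 0 < δ ∧ δ ≤ 1 := by
  filter_upwards [Ioc_mem_nhdsGT (zero_lt_one' ℝ)] with δ hδ
  exact ⟨hδ.1, hδ.2⟩

lemma ev_v {P : ℕ → ℝ → ℝ → Prop}
    (h : ∀ n δ, 1 ≤ n → 0 < δ → ∀ᶠ v in atTop, P n δ v) : Ev fun p => P p.n p.δ p.v := by
  unfold Ev
  filter_upwards [eventually_ge_atTop 1] with n hn
  filter_upwards [small_pos] with δ hδ
  filter_upwards [h n δ hn hδ.1] with v h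
  exact Eventually.of_forall fun e =>
    Eventually.of_forall fun v' => Eventually.of_forall fun δ' => Eventually.of_forall fun δ0 =>
    Eventually.of_forall fun J => Eventually.of_forall fun W => h

lemma ev_e {P : ℕ → ℝ → ℝ → ℝ → Prop}
    (h : ∀ n δ v, 1 ≤ n → 0 < δ → 1 ≤ v → ∀ᶠ e in 𝓝[>] 0, P n δ v e) :
    Ev fun p => P p.n p.δ p.v p.e := by
  unfold Ev
  filter_upwards [eventually_ge_atTop 1] with n hn
  filter_upwards [small_pos] with δ hδ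
  filter_upwards [eventually_ge_atTop 1] with v hv
  filter_upwards [h n δ v hn hδ.1 hv] with e h
  exact Eventually.of_forall fun v' => Eventually.of_forall fun δ' => Eventually.of_forall fun δ0 =>
    Eventually.of_forall fun J => Eventually.of_forall fun W => h

lemma ev_v' {P : ℕ → ℝ → ℝ → ℝ → ℝ → Prop}
    (h : ∀ n δ v e, 1 ≤ n → 0 < δ → 1 ≤ v → 0 < e → ∀ᶠ v' in atTop, P n δ v e v') :
    Ev fun p => P p.n p.δ p.v p.e p.v' := by
  unfold Ev
  filter_upwards [eventually_ge_atTop 1] with n hn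
  filter_upwards [small_pos] with δ hδ
  filter_upwards [eventually_ge_atTop 1] with v hv
  filter_upwards [small_pos] with e he
  filter_upwards [h n δ v e hn hδ.1 hv he.1] with v' h
  exact Eventually.of_forall fun δ' => Eventually.of_forall fun δ0 =>
    Eventually.of_forall fun J => Eventually.of_forall fun W => h

lemma ev_δ' {P : ℕ → ℝ → ℝ → ℝ → ℝ → ℝ → Prop}
    (h : ∀ n δ v e v', 1 ≤ n → 0 < δ → 1 ≤ v → 0 < e → 1 ≤ v' →
      ∀ᶠ δ' in 𝓝[>] 0, P n δ v e v' δ') :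
    Ev fun p => P p.n p.δ p.v p.e p.v' p.δ' := by
  unfold Ev
  filter_upwards [eventually_ge_atTop 1] with n hn
  filter_upwards [small_pos] with δ hδ
  filter_upwards [eventually_ge_atTop 1] with v hv
  filter_upwards [small_pos] with e he
  filter_upwards [eventually_ge_atTop 1] with v' hv'
  filter_upwards [h n δ v e v' hn hδ.1 hv he.1 hv'] with δ' h
  exact Eventually.of_forall fun δ0 =>
    Eventually.of_forall fun J => Eventually.of_forall fun W => h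

lemma ev_δ0 {P : ℕ → ℝ → ℝ → ℝ → ℝ → ℝ → ℝ → Prop}
    (h : ∀ n δ v e v' δ', 1 ≤ n → 0 < δ → 1 ≤ v → 0 < e → 1 ≤ v' → 0 < δ' →
      ∀ᶠ δ0 in 𝓝[>] 0, P n δ v e v' δ' δ0) :
    Ev fun p => P p.n p.δ p.v p.e p.v' p.δ' p.δ0 := by
  unfold Ev
  filter_upwards [eventually_ge_atTop 1] with n hn
  filter_upwards [small_pos] with δ hδ
  filter_upwards [eventually_ge_atTop 1] with v hv
  filter_upwards [small_pos] with e he
  filter_upwards [eventually_ge_atTop 1] with v' hv'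
  filter_upwards [small_pos] with δ' hδ'
  filter_upwards [h n δ v e v' δ' hn hδ.1 hv he.1 hv' hδ'.1] with δ0 h
  exact Eventually.of_forall fun J => Eventually.of_forall fun W => h

lemma ev_J {P : ℕ → ℝ → ℝ → ℝ → ℝ → ℝ → ℝ → ℝ → Prop}
    (h : ∀ n δ v e v' δ' δ0, 1 ≤ n → 0 < δ → 1 ≤ v → 0 < e → 1 ≤ v' → 0 < δ' → 0 < δ0 →
      ∀ᶠ J in atTop, P n δ v e v' δ' δ0 J) :
    Ev fun p => P p.n p.δ p.v p.e p.v' p.δ' p.δ0 p.J := by
  unfold Ev
  filter_upwards [eventually_ge_atTop 1] with n hn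
  filter_upwards [small_pos] with δ hδ
  filter_upwards [eventually_ge_atTop 1] with v hv
  filter_upwards [small_pos] with e he
  filter_upwards [eventually_ge_atTop 1] with v' hv'
  filter_upwards [small_pos] with δ' hδ'
  filter_upwards [small_pos] with δ0 hδ0
  filter_upwards [h n δ v e v' δ' δ0 hn hδ.1 hv he.1 hv' hδ'.1 hδ0.1] with J h
  exact Eventually.of_forall fun W => h

lemma ev_W {P : ℕ → ℝ → ℝ → ℝ → ℝ → ℝ → ℝ → ℝ → ℝ → Prop}
    (h : ∀ n δ v e v' δ' δ0 J, 1 ≤ n → 0 < δ → 1 ≤ v → 0 < e → 1 ≤ v' → 0 < δ' → 0 < δ0 →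
      1 ≤ J → ∀ᶠ W in atTop, P n δ v e v' δ' δ0 J W) :
    Ev fun p => P p.n p.δ p.v p.e p.v' p.δ' p.δ0 p.J p.W := by
  unfold Ev
  filter_upwards [eventually_ge_atTop 1] with n hn
  filter_upwards [small_pos] with δ hδ
  filter_upwards [eventually_ge_atTop 1] with v hv
  filter_upwards [small_pos] with e he
  filter_upwards [eventually_ge_atTop 1] with v' hv'
  filter_upwards [small_pos] with δ' hδ'
  filter_upwards [small_pos] with δ0 hδ0
  filter_upwards [eventually_ge_atTop 1] with J hJ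
  exact h n δ v e v' δ' δ0 J hn hδ.1 hv he.1 hv' hδ'.1 hδ0.1 hJ

theorem Ev.std : Ev Num.Std := by
  unfold Ev
  filter_upwards [eventually_ge_atTop 1] with n hn
  filter_upwards [small_pos] with δ hδ
  filter_upwards [eventually_ge_atTop 1] with v hv
  filter_upwards [small_pos] with e he
  filter_upwards [eventually_ge_atTop 1] with v' hv'
  filter_upwards [small_pos] with δ' hδ'
  filter_upwards [small_pos] with δ0 hδ0
  filter_upwards [eventually_ge_atTop 1] with J hJ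
  filter_upwards [eventually_ge_atTop 1] with W hW
  exact ⟨hn, hδ.1, hδ.2, hv, he.1, he.2, hv', hδ'.1, hδ'.2, hδ0.1, hδ0.2, hJ, hW⟩

/-! ### Comparison with arbitrary functions of the earlier parameters -/

lemma small_mul (A : ℝ) : ∀ᶠ δ : ℝ in 𝓝[>] 0, A * δ ≤ 1 := by
  have h : Tendsto (fun δ : ℝ => A * δ) (𝓝[>] 0) (𝓝 (A * 0)) :=
    ((continuous_const.mul continuous_id).tendsto 0).mono_left nhdsWithin_le_nhds
  rw [mul_zero] at h
  exact h.eventually_le_const zero_lt_one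

lemma le_n (A : ℝ) : Ev fun p => A ≤ (p.n : ℝ) :=
  ev_n (P := fun n => A ≤ (n : ℝ)) (tendsto_natCast_atTop_atTop.eventually_ge_atTop A)

lemma le_δ (A : ℕ → ℝ) : Ev fun p => A p.n * p.δ ≤ 1 :=
  ev_δ (P := fun n δ => A n * δ ≤ 1) fun n _ => small_mul (A n)

lemma le_v (A : ℕ → ℝ → ℝ) : Ev fun p => A p.n p.δ ≤ p.v :=
  ev_v (P := fun n δ v => A n δ ≤ v) fun _ _ _ _ => eventually_ge_atTop _

lemma le_e (A : ℕ → ℝ → ℝ → ℝ) : Ev fun p => A p.n p.δ p.v * p.e ≤ 1 :=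
  ev_e (P := fun n δ v e => A n δ v * e ≤ 1) fun _ _ _ _ _ _ => small_mul _

lemma le_v' (A : ℕ → ℝ → ℝ → ℝ → ℝ) : Ev fun p => A p.n p.δ p.v p.e ≤ p.v' :=
  ev_v' (P := fun n δ v e v' => A n δ v e ≤ v') fun _ _ _ _ _ _ _ _ => eventually_ge_atTop _

lemma le_δ' (A : ℕ → ℝ → ℝ → ℝ → ℝ → ℝ) : Ev fun p => A p.n p.δ p.v p.e p.v' * p.δ' ≤ 1 :=
  ev_δ' (P := fun n δ v e v' δ' => A n δ v e v' * δ' ≤ 1) fun _ _ _ _ _ _ _ _ _ _ => small_mul _

lemma le_δ0 (A : ℕ → ℝ → ℝ → ℝ → ℝ → ℝ → ℝ) :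
    Ev fun p => A p.n p.δ p.v p.e p.v' p.δ' * p.δ0 ≤ 1 :=
  ev_δ0 (P := fun n δ v e v' δ' δ0 => A n δ v e v' δ' * δ0 ≤ 1)
    fun _ _ _ _ _ _ _ _ _ _ _ _ => small_mul _

lemma le_J (A : ℕ → ℝ → ℝ → ℝ → ℝ → ℝ → ℝ → ℝ) :
    Ev fun p => A p.n p.δ p.v p.e p.v' p.δ' p.δ0 ≤ p.J :=
  ev_J (P := fun n δ v e v' δ' δ0 J => A n δ v e v' δ' δ0 ≤ J)
    fun _ _ _ _ _ _ _ _ _ _ _ _ _ _ => eventually_ge_atTop _

lemma le_W (A : ℕ → ℝ → ℝ → ℝ → ℝ → ℝ → ℝ → ℝ → ℝ) :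
    Ev fun p => A p.n p.δ p.v p.e p.v' p.δ' p.δ0 p.J ≤ p.W :=
  ev_W (P := fun n δ v e v' δ' δ0 J W => A n δ v e v' δ' δ0 J ≤ W)
    fun _ _ _ _ _ _ _ _ _ _ _ _ _ _ _ _ => eventually_ge_atTop _

/-- negative powers of `v'` beat every function of the earlier parameters -/
lemma rpow_v' (A : ℕ → ℝ → ℝ → ℝ → ℝ) (s : ℝ) (hs : 0 < s) :
    Ev fun p => A p.n p.δ p.v p.e * p.v' ^ (-s) ≤ 1 := by
  refine ev_v' (P := fun n δ v e v' => A n δ v e * v' ^ (-s) ≤ 1) fun n δ v e _ _ _ _ => ?_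
  have h := (tendsto_rpow_neg_atTop hs).const_mul (A n δ v e)
  rw [mul_zero] at h
  exact h.eventually_le_const zero_lt_one


/-! ### Lengths -/

/-- `C ≤ δ0 W` -/
lemma le_w (C : ℝ) : Ev fun p => C ≤ p.δ0 * p.W := by
  refine ((le_W fun _ _ _ _ _ _ δ0 _ => C / δ0).and Ev.std).mono fun p ⟨h, hp⟩ => ?_
  rw [div_le_iff₀ hp.δ0_pos] at h
  linarith

/-- `A * (δ0 W) ≤ δ' W`, `A` = any function of `n, δ, v, e, v', δ'` -/
lemma strip_le_gap (A : ℕ → ℝ → ℝ → ℝ → ℝ → ℝ → ℝ) :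
    Ev fun p => A p.n p.δ p.v p.e p.v' p.δ' * (p.δ0 * p.W) ≤ p.δ' * p.W := by
  refine ((le_δ0 fun n δ v e v' δ' => A n δ v e v' δ' / δ').and Ev.std).mono
    fun p ⟨h, hp⟩ => ?_
  have h1 : A p.n p.δ p.v p.e p.v' p.δ' * p.δ0 ≤ p.δ' := by
    have := mul_le_mul_of_nonneg_right h hp.δ'_pos.le
    have e1 : A p.n p.δ p.v p.e p.v' p.δ' / p.δ' * p.δ0 * p.δ' =
      A p.n p.δ p.v p.e p.v' p.δ' * p.δ0 := by
      field_simp [hp.δ'_pos.ne']
    rw [e1, one_mul] at this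
    exact this
  have h2 := mul_le_mul_of_nonneg_right h1 (zero_le_one.trans hp.W)
  linarith

/-- `A * g ≤ W`, `A` = any function of `n, δ, v, e, v'` -/
lemma gap_le (A : ℕ → ℝ → ℝ → ℝ → ℝ → ℝ) :
    Ev fun p => A p.n p.δ p.v p.e p.v' * (p.δ' * p.W) ≤ p.W := by
  refine ((le_δ' A).and Ev.std).mono fun p ⟨h, hp⟩ => ?_
  have := mul_le_mul_of_nonneg_right h (zero_le_one.trans hp.W)
  linarith

/-- `A * W ≤ L = 2 v' W`, `A` = any function of `n, δ, v, e` -/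
lemma le_L (A : ℕ → ℝ → ℝ → ℝ → ℝ) :
    Ev fun p => A p.n p.δ p.v p.e * p.W ≤ 2 * p.v' * p.W := by
  refine ((le_v' A).and Ev.std).mono fun p ⟨h, hp⟩ => ?_
  refine mul_le_mul_of_nonneg_right ?_ (zero_le_one.trans hp.W)
  linarith [hp.v']

/-! ### Configurations -/

variable {μ : ℝ × ℝ → ℝ}

namespace Cf

variable {G : Measure ℝ} {F : FlatData μ} {w0 c0 K : ℝ} {p : Num}
variable (c : Cf G F w0 c0 K p)

/-- the rate of the lane of width `W` -/
noncomputable def rt (_c : Cf G F w0 c0 K p) : ℝ := rate G F p.W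

lemma rt_pos : 0 < c.rt := c.good.pos

lemma g_eq : c.g = p.δ' * p.W := rfl

lemma L_eq : c.L = 2 * p.v' * p.W := rfl

lemma l_eq : c.l = c.P * c.rt := rfl

lemma P_eq : c.P = c.y / 2 + 4 * c.g := by unfold P yA; ring

lemma yA_eq : c.yA = c.y / 2 + 2 * c.g := rfl

lemma yA_eq' : c.yA = c.P - 2 * c.g := by unfold P; ring

lemma yB_eq : c.yB = c.y + 6 * c.g := rfl

lemma yB_eq' : c.yB = 2 * c.P - 2 * c.g := by unfold yB P yA; ring


end Cf

/-- the standing inequalities of a configuration -/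
structure Cf.Std {G : Measure ℝ} {F : FlatData μ} {w0 c0 K : ℝ} {p : Num}
    (c : Cf G F w0 c0 K p) : Prop extends Num.Std p where
  g_pos : 0 < c.g
  L_pos : 0 < c.L
  y_pos : 0 < c.y
  g_le : 8 * c.g ≤ c.y
  l_pos : 0 < c.l
  half : c.y / 2 ≤ c.yA
  yA_le : c.yA ≤ c.P
  P_le : c.P ≤ c.y
  yA_ge : c.y / 2 ≤ c.P
  yB_ge : c.y ≤ c.yB
  yB_le : c.yB ≤ 2 * c.P
  /-- `l = o(W)` -/
  l_le : c.l ≤ p.W / p.J
  l_ge : p.J * p.W / 2 * c.rt ≤ c.l
  rt_ge : c0 / p.W ^ 2 ≤ c.rt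
  wH_eq : c.h.wH = p.δ0 * p.W

theorem ev_std {G : Measure ℝ} {F : FlatData μ} {w0 c0 K : ℝ} :
    Ev fun p => ∀ c : Cf G F w0 c0 K p, c.Std := by
  refine ((le_J fun _ _ _ _ _ δ' _ => 8 * δ').and Ev.std).mono fun p ⟨hJ, hp⟩ c => ?_
  have hW : 0 < p.W := zero_lt_one.trans_le hp.W
  have hg : 0 < c.g := mul_pos hp.δ'_pos hW
  have hL : 0 < c.L := by
    rw [c.L_eq]
    have := hp.v'
    positivity
  have hy := c.y_ge
  have hJ1 := hp.J
  have hJW : 0 < p.J * p.W := mul_pos (by linarith) hW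
  have hy0 : 0 < c.y := hJW.trans_le hy
  have hgy : 8 * c.g ≤ c.y := by
    refine le_trans ?_ hy
    rw [c.g_eq, ← mul_assoc]
    exact mul_le_mul_of_nonneg_right hJ hW.le
  have hPy : c.P ≤ c.y := by rw [c.P_eq]; linarith
  have hP0 : c.y / 2 ≤ c.P := by rw [c.P_eq]; linarith
  have hr := c.rt_pos
  have hl : 0 < c.l := by
    rw [c.l_eq]; exact mul_pos (by linarith) hr
  exact
    { hp with
      g_pos := hg
      L_pos := hL
      y_pos := hy0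
      g_le := hgy
      l_pos := hl
      half := by rw [c.yA_eq]; linarith
      yA_le := by rw [c.yA_eq']; linarith
      P_le := hPy
      yA_ge := hP0
      yB_ge := by rw [c.yB_eq]; linarith
      yB_le := by rw [c.yB_eq']; linarith
      l_le := by
        rw [c.l_eq]
        exact (mul_le_mul_of_nonneg_right hPy hr.le).trans c.y_le
      l_ge := by
        rw [c.l_eq]
        refine mul_le_mul_of_nonneg_right ?_ hr.le
        linarith
      rt_ge := c.low p.W c.good.le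
      wH_eq := c.wH }

section facts

variable {G : Measure ℝ} {F : FlatData μ} {w0 c0 K : ℝ}

/-! ### Rates -/

/-- far lanes: `rate (t W) ≤ 2 t ^ (-0.03) rate W` for `t ≥ 1` -/
lemma rate_far {p : Num} (c : Cf G F w0 c0 K p) (hp : p.Std) {t : ℝ} (ht : 1 ≤ t) :
    rate G F (t * p.W) ≤ 2 * t ^ (-0.03 : ℝ) * c.rt := by
  have hW : 0 < p.W := zero_lt_one.trans_le hp.W
  have := c.good.large_b (t * p.W) (by nlinarith)
  rwa [mul_div_assoc, div_self hW.ne', mul_one] at this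


/-- narrow lanes: `rate w ≤ 8 (W / w) ^ 3 rate W` -/
lemma rate_near {p : Num} (c : Cf G F w0 c0 K p) {w : ℝ} (h0 : w0 ≤ w) (hw : w ≤ p.W) :
    rate G F w ≤ 8 * (p.W / w) ^ 3 * c.rt := c.good.small_b w h0 hw

lemma rate_near_swap {p : Num} (c : Cf G F w0 c0 K p) {w : ℝ} (h0 : w0 ≤ w) (hw : w ≤ p.W) :
    rate G F.swap w ≤ 8 * (p.W / w) ^ 3 * c.rt := c.good.small_a w h0 hw

/-- narrow lanes of width `t W` -/
lemma rate_near' {p : Num} (c : Cf G F w0 c0 K p) (hp : p.Std) {t : ℝ} (ht : 0 < t) (ht1 : t ≤ 1)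
    (h0 : w0 ≤ t * p.W) : rate G F (t * p.W) ≤ 8 / t ^ 3 * c.rt := by
  have hW : 0 < p.W := zero_lt_one.trans_le hp.W
  have := rate_near c h0 (by nlinarith)
  refine this.trans (le_of_eq ?_)
  have : p.W / (t * p.W) = 1 / t := by field_simp
  rw [this]; field_simp

lemma rate_near_swap' {p : Num} (c : Cf G F w0 c0 K p) (hp : p.Std) {t : ℝ} (ht : 0 < t)
    (ht1 : t ≤ 1) (h0 : w0 ≤ t * p.W) : rate G F.swap (t * p.W) ≤ 8 / t ^ 3 * c.rt := by
  have hW : 0 < p.W := zero_lt_one.trans_le hp.W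
  have := rate_near_swap c h0 (by nlinarith)
  refine this.trans (le_of_eq ?_)
  have : p.W / (t * p.W) = 1 / t := by field_simp
  rw [this]; field_simp

/-- pitch times rate of the far lane -/
lemma P_rate_far {p : Num} (c : Cf G F w0 c0 K p) (hc : c.Std) {t : ℝ} (ht : 1 ≤ t) :
    c.P * rate G F (t * p.W) ≤ 2 * t ^ (-0.03 : ℝ) * c.l := by
  have h1 := rate_far c hc.toStd ht
  have hP : 0 ≤ c.P := by linarith [hc.yA_ge, hc.y_pos]
  calc c.P * rate G F (t * p.W) ≤ c.P * (2 * t ^ (-0.03 : ℝ) * c.rt) :=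
        mul_le_mul_of_nonneg_left h1 hP
    _ = 2 * t ^ (-0.03 : ℝ) * c.l := by rw [c.l_eq]; ring

/-- pitch times rate of a lane of width `t W` -/
lemma P_rate_near {p : Num} (c : Cf G F w0 c0 K p) (hc : c.Std) {t : ℝ} (ht : 0 < t)
    (ht1 : t ≤ 1) (h0 : w0 ≤ t * p.W) : c.P * rate G F (t * p.W) ≤ 8 / t ^ 3 * c.l := by
  have h1 := rate_near' c hc.toStd ht ht1 h0
  have hP : 0 ≤ c.P := by linarith [hc.yA_ge, hc.y_pos]
  calc c.P * rate G F (t * p.W) ≤ c.P * (8 / t ^ 3 * c.rt) :=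
        mul_le_mul_of_nonneg_left h1 hP
    _ = 8 / t ^ 3 * c.l := by rw [c.l_eq]; ring

/-! ### The highway costs are `o (l)` -/

/-- `W ε ≤ C δ0 ^ (-3) l / J` -/
theorem highway_le (hc0 : 0 < c0) : Ev fun p => ∀ c : Cf G F w0 c0 K p,
    p.W * c.ε ≤ 2 * (8 + 1 / c0) / p.δ0 ^ 3 / p.J * c.l := by
  refine ((le_w w0).and (ev_std (G := G) (F := F) (w0 := w0) (c0 := c0) (K := K))).mono
    fun p ⟨h0, hs⟩ c => ?_
  have hc := hs c
  have hp := hc.toStd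
  have hW : 0 < p.W := zero_lt_one.trans_le hp.W
  have hδ := hp.δ0_pos
  have hJ : 0 < p.J := zero_lt_one.trans_le hp.J
  have h1 : c.ε ≤ 8 / p.δ0 ^ 3 * c.rt + 1 / (p.δ0 * p.W) ^ 3 :=
    c.ε_le.trans (by linarith [rate_near_swap' c hp hδ hp.δ0_le h0])
  have h2 : 1 / (p.δ0 * p.W) ^ 3 ≤ 1 / p.δ0 ^ 3 * (1 / c0) * c.rt := by
    have h3 := hc.rt_ge
    have h4 : 1 / p.W ^ 2 ≤ 1 / c0 * c.rt := by
      rw [div_mul_eq_mul_div, one_mul, le_div_iff₀ hc0]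
      calc 1 / p.W ^ 2 * c0 = c0 / p.W ^ 2 := by ring
        _ ≤ c.rt := h3
    have h5 : 1 / p.W ^ 3 ≤ 1 / p.W ^ 2 :=
      one_div_le_one_div_of_le (by positivity) (pow_le_pow_right₀ hp.W (by norm_num))
    calc 1 / (p.δ0 * p.W) ^ 3 = 1 / p.δ0 ^ 3 * (1 / p.W ^ 3) := by rw [mul_pow]; field_simp
      _ ≤ 1 / p.δ0 ^ 3 * (1 / c0 * c.rt) := by
          refine mul_le_mul_of_nonneg_left (h5.trans h4) (by positivity)
      _ = _ := by ring
  have h6 : c.ε ≤ (8 + 1 / c0) / p.δ0 ^ 3 * c.rt := by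
    refine h1.trans ((add_le_add_right h2 _).trans (le_of_eq ?_))
    field_simp
  have h7 : p.W * c.rt ≤ 2 / p.J * c.l := by
    rw [div_mul_eq_mul_div, le_div_iff₀ hJ]
    linarith [hc.l_ge]
  calc p.W * c.ε ≤ p.W * ((8 + 1 / c0) / p.δ0 ^ 3 * c.rt) := mul_le_mul_of_nonneg_left h6 hW.le
    _ = (8 + 1 / c0) / p.δ0 ^ 3 * (p.W * c.rt) := by ring
    _ ≤ (8 + 1 / c0) / p.δ0 ^ 3 * (2 / p.J * c.l) := mul_le_mul_of_nonneg_left h7 (by positivity)
    _ = _ := by ring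

/-- `A * (W ε) ≤ l`, for every function `A` of `n, δ, v, e, v', δ', δ0` -/
theorem highway_small (hc0 : 0 < c0) (A : ℕ → ℝ → ℝ → ℝ → ℝ → ℝ → ℝ → ℝ) :
    Ev fun p => ∀ c : Cf G F w0 c0 K p,
      A p.n p.δ p.v p.e p.v' p.δ' p.δ0 * (p.W * c.ε) ≤ c.l := by
  have hJ := le_J fun n δ v e v' δ' δ0 =>
    |A n δ v e v' δ' δ0| * (2 * (8 + 1 / c0) / δ0 ^ 3)
  refine ((hJ.and (highway_le (G := G) (F := F) (w0 := w0) (c0 := c0) (K := K) hc0)).and
    (ev_std (G := G) (F := F) (w0 := w0) (c0 := c0) (K := K))).mono fun p ⟨⟨hJ, h⟩, hs⟩ c => ?_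
  have hc := hs c
  have hp := hc.toStd
  have hW : 0 < p.W := zero_lt_one.trans_le hp.W
  have hJ0 : 0 < p.J := zero_lt_one.trans_le hp.J
  have hε : 0 ≤ p.W * c.ε := mul_nonneg hW.le c.mean.nonneg
  set a := A p.n p.δ p.v p.e p.v' p.δ' p.δ0
  calc a * (p.W * c.ε) ≤ |a| * (p.W * c.ε) := mul_le_mul_of_nonneg_right (le_abs_self _) hε
    _ ≤ |a| * (2 * (8 + 1 / c0) / p.δ0 ^ 3 / p.J * c.l) :=
        mul_le_mul_of_nonneg_left (h c) (abs_nonneg _)
    _ = (|a| * (2 * (8 + 1 / c0) / p.δ0 ^ 3)) / p.J * c.l := by ring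
    _ ≤ 1 * c.l := by
        refine mul_le_mul_of_nonneg_right ?_ hc.l_pos.le
        rw [div_le_one hJ0]; exact hJ
    _ = c.l := one_mul _

/-! ### `l = o (W)` -/

/-- `A * l ≤ W`, for every function `A` of `n, δ, v, e, v', δ', δ0` -/
theorem l_small (A : ℕ → ℝ → ℝ → ℝ → ℝ → ℝ → ℝ → ℝ) :
    Ev fun p => ∀ c : Cf G F w0 c0 K p, A p.n p.δ p.v p.e p.v' p.δ' p.δ0 * c.l ≤ p.W := by
  refine ((le_J fun n δ v e v' δ' δ0 => |A n δ v e v' δ' δ0|).and
    (ev_std (G := G) (F := F) (w0 := w0) (c0 := c0) (K := K))).mono fun p ⟨hJ, hs⟩ c => ?_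
  have hc := hs c
  have hp := hc.toStd
  have hW : 0 < p.W := zero_lt_one.trans_le hp.W
  have hJ0 : 0 < p.J := zero_lt_one.trans_le hp.J
  set a := A p.n p.δ p.v p.e p.v' p.δ' p.δ0
  calc a * c.l ≤ |a| * c.l := mul_le_mul_of_nonneg_right (le_abs_self _) hc.l_pos.le
    _ ≤ p.J * (p.W / p.J) := mul_le_mul hJ hc.l_le hc.l_pos.le hJ0.le
    _ = p.W := by field_simp

/-- `A * W ≤ y`, for every function `A` of `n, δ, v, e, v', δ', δ0` -/
theorem le_y (A : ℕ → ℝ → ℝ → ℝ → ℝ → ℝ → ℝ → ℝ) :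
    Ev fun p => ∀ c : Cf G F w0 c0 K p, A p.n p.δ p.v p.e p.v' p.δ' p.δ0 * p.W ≤ c.y := by
  refine ((le_J A).and Ev.std).mono fun p ⟨hJ, hp⟩ c => ?_
  exact (mul_le_mul_of_nonneg_right hJ (zero_le_one.trans hp.W)).trans c.y_ge



end facts

end Crest.Agent.R151.NF
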