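import Crest.Agent.R151.M192g
import Crest.Agent.R151.M56c
import Crest.Agent.R151.NF3

/-!
# R151 / S0214 part 2, M192l — routes exist; `Inputs.model` (owner helper192)
-/

set_option autoImplicit false

open MeasureTheory Filter ProbabilityTheory Topology Set
open Crest.ProbabilityR.FirstPassage
open Crest.Agent.R151.K Crest.Agent.R151.Q

namespace Crest.Agent.R151.M192

open B710 (FlatData)
open M56 (mg one_le_mg)

variable {μ : ℝ × ℝ → ℝ} {F : FlatData μ}

/-- **routes exist in every row** of height larger than `wH + const` -/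
theorem routable (h : Hwy F) {y : ℝ} (hy : h.wH + 2 * mg F < y) :
    Routable h (y • F.b) (mg F + 1) := by
  intro I σ₁ σ₂ θ t φ i j hI hi hj
  have hd : h.wH + 2 * mg F < F.be (y • F.b) := by rw [be_smul_b]; exact hy
  have h1 := M56.row_nonempty (h := h) (d := y • F.b) (I := I) (s := σ₁ - (mg F + 1))
    (s' := σ₂ + (mg F + 1) + h.κ) (σ₁ := σ₁) (σ₂ := σ₂) hd (by linarith)
    (by rw [map_smul, F.al_b, smul_zero]; linarith)
    ((Icc_subset_Icc (by linarith) (by linarith)).trans hI) θ t φ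
  exact h1.mono (R78.routes_mono subset_rfl hi hj)

end Crest.Agent.R151.M192

namespace Crest.Agent.R151.NF

open B710 (FlatData)
open M56 (mg one_le_mg)

variable {μ : ℝ × ℝ → ℝ} {G : Measure ℝ} {F : FlatData μ} {w0 c0 K : ℝ}

/-- the lengths of a configuration are ordered: `const ≪ δ0 W ≪ g ≪ W` -/
theorem ev_len (G : Measure ℝ) (F : FlatData μ) (w0 c0 K : ℝ)
    (A : ℕ → ℝ → ℝ → ℝ → ℝ → ℝ) (C : ℝ) :
    Ev fun p => ∀ c : Cf G F w0 c0 K p, c.Std ∧ C ≤ p.δ0 * p.W ∧
      64 * (|K| + 2) * (p.δ0 * p.W) ≤ c.g ∧ A p.n p.δ p.v p.e p.v' * c.g ≤ p.W ∧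
      64 * c.g ≤ p.W := by
  refine ((((ev_std (G := G) (F := F) (w0 := w0) (c0 := c0) (K := K)).and (le_w C)).and
    (strip_le_gap fun _ _ _ _ _ _ => 64 * (|K| + 2))).and
    ((gap_le A).and (gap_le fun _ _ _ _ _ => 64))).mono ?_
  rintro p ⟨⟨⟨h1, h2⟩, h3⟩, h4, h5⟩ c
  exact ⟨h1 c, h2, h3, h4, h5⟩


/-- **the geometric side conditions hold** -/
theorem ev_soft (G : Measure ℝ) (F : FlatData μ) (w0 c0 : ℝ) {K : ℝ} (hK : 0 ≤ K) :
    Ev fun p => ∀ c : Cf G F w0 c0 K p, c.Soft (mg F + 1) := by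
  refine (((ev_len G F w0 c0 K (fun _ _ _ _ _ => 64) (4 * (mg F + 1) + 4 * cF F)).and
    (le_L fun _ _ v _ => v + 1)).and (le_δ fun _ => 32)).mono ?_
  rintro p ⟨⟨h1, h2⟩, h3⟩ c
  obtain ⟨hs, hC, hg, -, hgW⟩ := h1 c
  have hp := hs.toStd
  have hW : 0 < p.W := zero_lt_one.trans_le hp.W
  have hd : 0 < p.δ0 * p.W := mul_pos hp.δ0_pos hW
  have hmg := one_le_mg F
  have hcF := cF_nonneg F
  have hκ := c.κ_le
  have hwH := hs.wH_eq
  rw [abs_of_nonneg hK] at hg
  have hKd : 0 ≤ K * (p.δ0 * p.W) := mul_nonneg hK hd.le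
  have hg8 := hs.g_le
  have hyA := hs.half
  have hsl : c.sl = (K + 1) * (p.δ0 * p.W) := rfl
  exact
    { ok :=
      { W_pos := hW
        l_pos := hs.l_pos
        wH_lt := by linarith
        C_nonneg := by linarith
        routable := M192.routable c.h (by linarith)
        c_ge := by rw [hsl]; linarith
        L_ge := h2
        v_ge := hp.v
        δ_nonneg := hp.δ_pos.le
        δ_le := by linarith
        small := by linarith }
      gap := by linarith }


end Crest.Agent.R151.NF
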