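import Mathlib
import Crest.Agent.R151.R78K

/-!
# R151/R78L — deterministic row layer, part L: crossings that leave a lane (owner helper78)
-/

set_option autoImplicit false

open Crest.ProbabilityR.FirstPassage Filter

namespace Crest.Agent.R151.R78

open Crest.Agent.R151.K Crest.Agent.R151.Pl

variable {t : Environment} {H H' : ℤ → V}

/-- the route costs are bounded below for every region -/
lemma bddBelow_routes (ht : Nn t) (H H' : ℤ → V) (A : Set V) (i j : ℤ) :
    BddBelow (routes t H H' A i j) := by
  refine ⟨hc t H i - hc t H' j, ?_⟩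
  rintro _ ⟨z, w, hz, hw, g, hg, rfl⟩
  have h1 := hc_mono ht H hz
  have h2 := hc_mono ht H' hw
  have h3 := walkCost_nonneg ht g
  linarith

section one

variable {F : Frame} {lo hi lo' hi' κ : ℝ} {z₀ w₀ z₁ w₁ : ℤ}
  {f₀ : Wk (H z₀) (H' w₀)} {f₁ : Wk (H z₁) (H' w₁)} {s₀ r₀ s₁ r₁ : ℝ} {a b : ℤ}

/-- two fences -/
structure IsPair (F : Frame) (κ : ℝ) (H H' : ℤ → V) {z₀ w₀ z₁ w₁ : ℤ}
    (f₀ : Wk (H z₀) (H' w₀)) (f₁ : Wk (H z₁) (H' w₁)) (s₀ r₀ s₁ r₁ : ℝ) : Prop where
  open₀ : IsOpen H H' (F.lane s₀ r₀) f₀
  open₁ : IsOpen H H' (F.lane s₁ r₁) f₁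
  lt : r₀ + κ < s₁

lemma IsPair.z_lt (hf : IsPair F κ H H' f₀ f₁ s₀ r₀ s₁ r₁) (hb : Back F κ H) : z₀ < z₁ := by
  by_contra hc
  push Not at hc
  have h1 := hb _ _ hc
  have h2 := (hf.open₀.sub _ f₀.start_mem_support).2
  have h3 := (hf.open₁.sub _ f₁.start_mem_support).1
  have := hf.lt
  linarith

lemma IsPair.w_lt (hf : IsPair F κ H H' f₀ f₁ s₀ r₀ s₁ r₁) (hb : Back F κ H') : w₀ < w₁ := by
  by_contra hc
  push Not at hc
  have h1 := hb _ _ hc
  have h2 := (hf.open₀.sub _ f₀.end_mem_support).2
  have h3 := (hf.open₁.sub _ f₁.end_mem_support).1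
  have := hf.lt
  linarith

lemma IsPair.disj (hf : IsPair F κ H H' f₀ f₁ s₀ r₀ s₁ r₁) (hκ : 0 ≤ κ) :
    ∀ x ∈ f₀.support, x ∉ f₁.support := by
  intro x hx hx'
  have h2 := (hf.open₀.sub _ hx).2
  have h3 := (hf.open₁.sub _ hx').1
  have := hf.lt
  linarith


/-- **right exit**: an open crossing ending left of fence `0` and containing a vertex to the right
of fence `1` crosses the cell leftwards afterwards. -/
theorem right_exit (h : IsStrip F lo hi H) (h' : IsStrip F lo' hi' H') (hlt : hi < lo')
    (hbk : Back F κ H) (hbk' : Back F κ H')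
    (hf : IsPair F κ H H' f₀ f₁ s₀ r₀ s₁ r₁)
    {x y : ℤ} {A : Set V} (g : Wk (H x) (H' y)) (hg : IsOpen H H' A g) (hy : y < w₀)
    {v : V} (hv : v ∈ g.support) (hvr : r₁ + κ + F.esc < F.al v) :
    ∃ (p p' : V) (g₁ : Wk (H x) p) (g₂ : Wk p p') (g₃ : Wk p' (H' y)),
      g = (g₁.append g₂).append g₃ ∧ p ∈ f₁.support ∧ p' ∈ f₀.support ∧
      (∀ k, H k ∉ g₂.support) ∧ (∀ k, H' k ∉ g₂.support) := by
  have hκ : 0 ≤ κ := by have := hbk 0 0 le_rfl; linarith
  have hC0 := F.esc_nonneg
  have ho₀ := hf.open₀
  have ho₁ := hf.open₁
  have hz := hf.z_lt hbk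
  have hw := hf.w_lt hbk'
  have hC := h.crosses h' hlt
  obtain ⟨ga, gb, rfl⟩ := exists_split g hv
  have mono : ∀ {x y : V} {u : Wk x y} {v : V}, v ∈ u.support.tail → v ∈ u.support :=
    fun h => List.mem_of_mem_tail h
  have mono' : ∀ {x y : V} {u : Wk x y} {v : V}, v ∈ u.support.dropLast → v ∈ u.support :=
    fun h => List.mem_of_mem_dropLast h
  have hvf : v ∉ f₁.support := fun hc => by have := (ho₁.sub v hc).2; linarith
  have hgH' : ∀ k, H' k ∈ (ga.append gb).support → k = y := fun k hk =>
    hg.eq_snd h'.hwy.inj hk
  have hvH' : ∀ k, H' k ≠ v := by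
    intro k hk
    have hk1 : k = y := hgH' k (by rw [hk]; exact hv)
    have h1 := hbk' k w₀ (by omega)
    have h2 := (ho₀.sub _ f₀.end_mem_support).2
    have h3 := hf.lt
    have h4 := (ho₁.sub _ f₁.start_mem_support)
    rw [hk] at h1
    have := h4.1; have := h4.2
    linarith
  -- `ga` avoids `H'`
  have hgaH' : ∀ k, H' k ∉ ga.support := by
    intro k hk
    rw [mem_support_iff_dropLast] at hk
    rcases hk with hk | hk
    · exact hg.snd k (by rw [mem_dropLast_append]; exact Or.inl hk)
    · exact hvH' k hk
  -- main claim: `gb` meets fence 1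
  have main : ∃ u ∈ gb.support, u ∈ f₁.support := by
    by_contra hno
    push Not at hno
    -- some vertex of `ga` is on fence 1
    have hga : ∃ u ∈ ga.support, u ∈ f₁.support := by
      rcases lt_trichotomy x z₁ with hx | rfl | hx
      · obtain ⟨y', u, hy', hu⟩ := F.esc_spec v hi'
        have hual : ∀ x ∈ u.support, r₁ + κ < F.al x := by
          intro x hx
          have := (abs_le.1 (hu x hx)).1
          linarith
        have huf : ∀ x ∈ u.support, x ∉ f₁.support := fun x hx hxf => by
          have := hual x hx
          have := (ho₁.sub x hxf).2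
          linarith
        have hsep : Sep (Set.range H) (Set.range H') {y'} :=
          h'.sep.mono (by rintro _ ⟨k, rfl⟩; exact lt_of_le_of_lt (h.hi k) hlt) subset_rfl
            (by rintro _ rfl; exact hy')
        have huS : ∃ x ∈ u.support, x ∈ Set.range H ∪ Set.range H' := by
          obtain ⟨x', hx', hxS⟩ := hsep _ ⟨x, rfl⟩ y' rfl (ga.append u)
          obtain ⟨k, rfl⟩ := hxS
          rw [mem_support_append] at hx'
          rcases hx' with hx' | hx'
          · exact absurd hx' (hgaH' k)
          · exact ⟨_, hx', Or.inr ⟨k, rfl⟩⟩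
        obtain ⟨x', u₁, u₂, rfl, hx', hu₁⟩ := exists_first u _ huS
        have hxu : x' ∈ (u₁.append u₂).support := by
          rw [mem_support_append]; exact Or.inl u₁.end_mem_support
        have hu₁f : ∀ x ∈ u₁.support, x ∉ f₁.support := fun x hx =>
          huf x (by rw [mem_support_append]; exact Or.inl hx)
        rcases hx' with ⟨k, rfl⟩ | ⟨k, rfl⟩
        · exfalso
          have hk : z₁ < k := by
            by_contra hc
            push Not at hc
            have h1 := hbk k z₁ hc
            have h2 := (ho₁.sub _ f₁.start_mem_support).2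
            have h3 := hual _ hxu
            linarith
          have hopen : IsOpen H H' Set.univ (u₁.reverse.append gb) := by
            refine ⟨fun _ _ => trivial, fun m hm => ?_, fun m hm => ?_⟩
            · rw [mem_tail_append] at hm
              rcases hm with hm | hm
              · rw [SimpleGraph.Walk.support_reverse, List.tail_reverse, List.mem_reverse] at hm
                exact hu₁ _ hm (Or.inl ⟨m, rfl⟩)
              · exact hg.fst m (by rw [mem_tail_append]; exact Or.inr hm)
            · rw [mem_dropLast_append] at hm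
              rcases hm with hm | hm
              · have hm' : H' m ∈ u₁.support := by simpa using mono' hm
                rw [mem_support_iff_dropLast] at hm'
                rcases hm' with hm' | hm'
                · exact hu₁ _ hm' (Or.inr ⟨m, rfl⟩)
                · exact h.disj h' hlt k m hm'.symm
              · exact hg.snd m (by rw [mem_dropLast_append]; exact Or.inr hm)
          obtain ⟨x'', hxf, hx''⟩ := hC.meet ho₁.univ hopen (Or.inr ⟨hk, by omega⟩)
          rw [mem_support_append] at hx''
          rcases hx'' with hx'' | hx''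
          · exact hu₁f x'' (by simpa using hx'') hxf
          · exact hno x'' hx'' hxf
        · have hk : w₁ < k := by
            by_contra hc
            push Not at hc
            have h1 := hbk' k w₁ hc
            have h2 := (ho₁.sub _ f₁.end_mem_support).2
            have h3 := hual _ hxu
            linarith
          have hopen : IsOpen H H' Set.univ (ga.append u₁) := by
            refine ⟨fun _ _ => trivial, fun m hm => ?_, fun m hm => ?_⟩
            · rw [mem_tail_append] at hm
              rcases hm with hm | hm
              · exact hg.fst m (by rw [mem_tail_append]; exact Or.inl hm)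
              · have hm' : H m ∈ u₁.support := mono hm
                rw [mem_support_iff_dropLast] at hm'
                rcases hm' with hm' | hm'
                · exact hu₁ _ hm' (Or.inl ⟨m, rfl⟩)
                · exact h.disj h' hlt m k hm'
            · rw [mem_dropLast_append] at hm
              rcases hm with hm | hm
              · exact hg.snd m (by rw [mem_dropLast_append]; exact Or.inl hm)
              · exact hu₁ _ hm (Or.inr ⟨m, rfl⟩)
          obtain ⟨x'', hxf, hx''⟩ := hC.meet ho₁.univ hopen (Or.inl ⟨hx, hk⟩)
          rw [mem_support_append] at hx''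
          rcases hx'' with hx'' | hx''
          · exact ⟨x'', hx'', hxf⟩
          · exact absurd hxf (hu₁f x'' hx'')
      · exact ⟨_, ga.start_mem_support, f₁.start_mem_support⟩
      · obtain ⟨x'', hxf, hx''⟩ := hC.meet ho₁.univ hg.univ (Or.inr ⟨hx, by omega⟩)
        rw [mem_support_append] at hx''
        rcases hx'' with hx'' | hx''
        · exact ⟨x'', hx'', hxf⟩
        · exact absurd hxf (hno x'' hx'')
    obtain ⟨q, gc, gd, rfl, hq, hgd⟩ := exists_last ga {x | x ∈ f₁.support} hga
    obtain ⟨e₁, e₂, ee⟩ := exists_split f₁ hq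
    have hgdt : ∀ u ∈ gd.support.tail, u ∈ ((gc.append gd).append gb).support.tail := fun u hu => by
      rw [mem_tail_append, mem_tail_append]; exact Or.inl (Or.inr hu)
    have hvt : v ∈ gd.support.tail := by
      have := (mem_support_iff_tail gd).1 gd.end_mem_support
      rcases this with h1 | h1
      · exact absurd (h1 ▸ hq) hvf
      · exact h1
    have hvH : ∀ k, H k ≠ v := fun k hk => hg.fst k (by rw [hk]; exact hgdt v hvt)
    have hopen : IsOpen H H' Set.univ ((e₁.append gd).append gb) := by
      have ho₁' := ho₁
      rw [ee] at ho₁'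
      refine ⟨fun _ _ => trivial, fun m hm => ?_, fun m hm => ?_⟩
      · rw [mem_tail_append, mem_tail_append] at hm
        rcases hm with (hm | hm) | hm
        · exact ho₁'.fst m (by rw [mem_tail_append]; exact Or.inl hm)
        · exact hg.fst m (hgdt _ hm)
        · exact hg.fst m (by rw [mem_tail_append]; exact Or.inr hm)
      · rw [mem_dropLast_append, mem_dropLast_append] at hm
        rcases hm with (hm | hm) | hm
        · exact ho₁'.snd m (by rw [mem_dropLast_append]; exact Or.inl hm)
        · exact hgaH' m (by rw [mem_support_append]; exact Or.inr (mono' hm))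
        · exact hg.snd m (by rw [mem_dropLast_append]; exact Or.inr hm)
    obtain ⟨p, hpf, hp⟩ := hC.meet ho₀.univ hopen (Or.inr ⟨hz, hy⟩)
    rw [mem_support_append, mem_support_append] at hp
    have hstay : ∀ (d : Wk v p), (∀ k, H k ∉ d.support) → (∀ k, H' k ∉ d.support) →
        (∀ x ∈ d.support, x ∉ f₁.support) → False := by
      intro d h1 h2 h3
      have := stay_right h h' hlt hbk hbk' (fun v K => F.esc_spec v K) ho₁.univ ho₀.univ
        (fun x hx hx' => hf.disj hκ x hx' hx) hz hw (fun x hx => (ho₁.sub x hx).2) hpf d h1 h2 h3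
      linarith
    rcases hp with (hp | hp) | hp
    · exact hf.disj hκ p hpf (by rw [ee, mem_support_append]; exact Or.inl hp)
    · -- `p` on `gd`
      have hpq : p ∈ gd.support.tail := by
        rcases (mem_support_iff_tail gd).1 hp with h1 | h1
        · exact absurd (h1 ▸ hq) (hf.disj hκ p hpf)
        · exact h1
      obtain ⟨ge, gf, rfl⟩ := exists_split gd hp
      have hgf : ∀ u ∈ gf.support, u ∈ (ge.append gf).support.tail := by
        intro u hu
        rcases (mem_support_iff_tail gf).1 hu with h1 | h1
        · rw [h1]; exact hpq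
        · rw [mem_tail_append]; exact Or.inr h1
      refine hstay gf.reverse (fun k hk => ?_) (fun k hk => ?_) (fun u hu => ?_)
      · exact hg.fst k (hgdt _ (hgf _ (by simpa using hk)))
      · exact hgaH' k (by
          rw [mem_support_append, mem_support_append]
          exact Or.inr (Or.inr (by simpa using hk)))
      · exact hgd u (hgf u (by simpa using hu))
    · -- `p` on `gb`
      obtain ⟨gb₁, gb₂, rfl⟩ := exists_split gb hp
      refine hstay gb₁ (fun k hk => ?_) (fun k hk => ?_) (fun u hu => ?_)
      · rcases (mem_support_iff_tail gb₁).1 hk with h1 | h1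
        · exact hvH k h1
        · exact hg.fst k ((mem_tail_append _ _).2 (Or.inr ((mem_tail_append _ _).2 (Or.inl h1))))
      · rcases (mem_support_iff_dropLast gb₁).1 hk with h1 | h1
        · exact hg.snd k
            ((mem_dropLast_append _ _).2 (Or.inr ((mem_dropLast_append _ _).2 (Or.inl h1))))
        · have k1 : k = w₀ := ho₀.eq_snd h'.hwy.inj (by rw [h1]; exact hpf)
          have k2 : k = y := hgH' k
            ((mem_support_append _ _).2 (Or.inr ((mem_support_append _ _).2 (Or.inl hk))))
          omega
      · exact hno u (by rw [mem_support_append]; exact Or.inl hu)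
  obtain ⟨q', m₁, m₂, rfl, hq', -⟩ := exists_first gb {x | x ∈ f₁.support} main
  obtain ⟨e₁, e₂, ee⟩ := exists_split f₁ hq'
  have hopen : IsOpen H H' Set.univ (e₁.append m₂) := by
    have ho₁' := ho₁
    rw [ee] at ho₁'
    refine ⟨fun _ _ => trivial, fun m hm => ?_, fun m hm => ?_⟩
    · rw [mem_tail_append] at hm
      rcases hm with hm | hm
      · exact ho₁'.fst m (by rw [mem_tail_append]; exact Or.inl hm)
      · exact hg.fst m (by rw [mem_tail_append, mem_tail_append]; exact Or.inr (Or.inr hm))
    · rw [mem_dropLast_append] at hm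
      rcases hm with hm | hm
      · exact ho₁'.snd m (by rw [mem_dropLast_append]; exact Or.inl hm)
      · exact hg.snd m (by
          rw [mem_dropLast_append, mem_dropLast_append]; exact Or.inr (Or.inr hm))
  obtain ⟨p, hpf, hp⟩ := hC.meet ho₀.univ hopen (Or.inr ⟨hz, hy⟩)
  rw [mem_support_append] at hp
  have hpm : p ∈ m₂.support := by
    rcases hp with hp | hp
    · exact absurd (by rw [ee, mem_support_append]; exact Or.inl hp) (hf.disj hκ p hpf)
    · exact hp
  obtain ⟨p', n₁, n₂, rfl, hp', -⟩ := exists_first m₂ {x | x ∈ f₀.support} ⟨p, hpm, hpf⟩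
  have hq't : q' ∈ m₁.support.tail := by
    rcases (mem_support_iff_tail m₁).1 m₁.end_mem_support with h1 | h1
    · exact absurd (h1 ▸ hq') hvf
    · exact h1
  refine ⟨q', p', ga.append m₁, n₁, n₂, ?_, hq', hp', fun k hk => ?_, fun k hk => ?_⟩
  · simp only [SimpleGraph.Walk.append_assoc]
  · rcases (mem_support_iff_tail n₁).1 hk with h1 | h1
    · exact hg.fst k (by
        rw [h1, mem_tail_append, mem_tail_append]; exact Or.inr (Or.inl hq't))
    · exact hg.fst k (by
        rw [mem_tail_append, mem_tail_append, mem_tail_append]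
        exact Or.inr (Or.inr (Or.inl h1)))
  · rcases (mem_support_iff_dropLast n₁).1 hk with h1 | h1
    · exact hg.snd k (by
        rw [mem_dropLast_append, mem_dropLast_append, mem_dropLast_append]
        exact Or.inr (Or.inr (Or.inl h1)))
    · have k1 : k = w₀ := ho₀.eq_snd h'.hwy.inj (by rw [h1]; exact hp')
      have k2 : k = y := hgH' k (by
        rw [mem_support_append, mem_support_append, mem_support_append]
        exact Or.inr (Or.inr (Or.inl hk)))
      omega

/-- **left exit**: an open crossing starting right of fence `1` and containing a vertex to the left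
of fence `0` crosses the cell leftwards before. -/
theorem left_exit (h : IsStrip F lo hi H) (h' : IsStrip F lo' hi' H') (hlt : hi < lo')
    (hbk : Back F κ H) (hbk' : Back F κ H')
    (hf : IsPair F κ H H' f₀ f₁ s₀ r₀ s₁ r₁)
    {x y : ℤ} {A : Set V} (g : Wk (H x) (H' y)) (hg : IsOpen H H' A g) (hx : z₁ < x)
    {v : V} (hv : v ∈ g.support) (hvr : F.al v < s₀ - κ - F.esc) :
    ∃ (p p' : V) (g₁ : Wk (H x) p) (g₂ : Wk p p') (g₃ : Wk p' (H' y)),
      g = (g₁.append g₂).append g₃ ∧ p ∈ f₁.support ∧ p' ∈ f₀.support ∧
      (∀ k, H k ∉ g₂.support) ∧ (∀ k, H' k ∉ g₂.support) := by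
  have hκ : 0 ≤ κ := by have := hbk 0 0 le_rfl; linarith
  have hC0 := F.esc_nonneg
  have ho₀ := hf.open₀
  have ho₁ := hf.open₁
  have hz := hf.z_lt hbk
  have hw := hf.w_lt hbk'
  have hC := h.crosses h' hlt
  obtain ⟨ga, gb, rfl⟩ := exists_split g hv
  have mono : ∀ {x y : V} {u : Wk x y} {v : V}, v ∈ u.support.tail → v ∈ u.support :=
    fun h => List.mem_of_mem_tail h
  have mono' : ∀ {x y : V} {u : Wk x y} {v : V}, v ∈ u.support.dropLast → v ∈ u.support :=
    fun h => List.mem_of_mem_dropLast h
  have hvf : v ∉ f₀.support := fun hc => by have := (ho₀.sub v hc).1; linarith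
  have hgH' : ∀ k, H' k ∈ (ga.append gb).support → k = y := fun k hk =>
    hg.eq_snd h'.hwy.inj hk
  have hgH : ∀ k, H k ∈ (ga.append gb).support → k = x := fun k hk =>
    hg.eq_fst h.hwy.inj hk
  have hvH : ∀ k, H k ≠ v := by
    intro k hk
    have hk1 : k = x := hgH k (by rw [hk]; exact hv)
    have h1 := hbk z₁ k (by omega)
    have h2 := (ho₁.sub _ f₁.start_mem_support).1
    have h3 := hf.lt
    have h4 := (ho₀.sub _ f₀.start_mem_support)
    rw [hk] at h1
    have := h4.1; have := h4.2
    linarith
  have hgbH : ∀ k, H k ∉ gb.support := by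
    intro k hk
    rcases (mem_support_iff_tail gb).1 hk with h1 | h1
    · exact hvH k h1
    · exact hg.fst k ((mem_tail_append _ _).2 (Or.inr h1))
  -- main claim: `ga` meets fence 0
  have main : ∃ u ∈ ga.support, u ∈ f₀.support := by
    by_contra hno
    push Not at hno
    -- `gb` meets fence 0
    have hgb : ∃ u ∈ gb.support, u ∈ f₀.support := by
      rcases lt_trichotomy y w₀ with hy | rfl | hy
      · obtain ⟨x'', hxf, hx''⟩ := hC.meet ho₀.univ hg.univ (Or.inr ⟨by omega, hy⟩)
        rw [mem_support_append] at hx''
        rcases hx'' with hx'' | hx''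
        · exact absurd hxf (hno x'' hx'')
        · exact ⟨x'', hx'', hxf⟩
      · exact ⟨_, gb.end_mem_support, f₀.end_mem_support⟩
      · have hvH' : ∀ k, H' k ≠ v := by
          intro k hk
          have hk1 : k = y := hgH' k (by rw [hk]; exact hv)
          have h1 := hbk' w₀ k (by omega)
          have h2 := (ho₀.sub _ f₀.end_mem_support).1
          rw [hk] at h1
          linarith
        have hgaH' : ∀ k, H' k ∉ ga.support := by
          intro k hk
          rcases (mem_support_iff_dropLast ga).1 hk with hk | hk
          · exact hg.snd k ((mem_dropLast_append _ _).2 (Or.inl hk))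
          · exact hvH' k hk
        obtain ⟨y', u, hy', hu⟩ := F.esc_spec v hi'
        have hual : ∀ x ∈ u.support, F.al x < s₀ - κ := by
          intro x hx
          have := (abs_le.1 (hu x hx)).2
          linarith
        have huf : ∀ x ∈ u.support, x ∉ f₀.support := fun x hx hxf => by
          have := hual x hx
          have := (ho₀.sub x hxf).1
          linarith
        have hsep : Sep (Set.range H) (Set.range H') {y'} :=
          h'.sep.mono (by rintro _ ⟨k, rfl⟩; exact lt_of_le_of_lt (h.hi k) hlt) subset_rfl
            (by rintro _ rfl; exact hy')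
        have huS : ∃ x ∈ u.support, x ∈ Set.range H ∪ Set.range H' := by
          obtain ⟨x', hx', hxS⟩ := hsep _ ⟨x, rfl⟩ y' rfl (ga.append u)
          obtain ⟨k, rfl⟩ := hxS
          rw [mem_support_append] at hx'
          rcases hx' with hx' | hx'
          · exact absurd hx' (hgaH' k)
          · exact ⟨_, hx', Or.inr ⟨k, rfl⟩⟩
        obtain ⟨x', u₁, u₂, rfl, hx', hu₁⟩ := exists_first u _ huS
        have hxu : x' ∈ (u₁.append u₂).support := by
          rw [mem_support_append]; exact Or.inl u₁.end_mem_support
        have hu₁f : ∀ x ∈ u₁.support, x ∉ f₀.support := fun x hx =>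
          huf x (by rw [mem_support_append]; exact Or.inl hx)
        rcases hx' with ⟨k, rfl⟩ | ⟨k, rfl⟩
        · have hk : k < z₀ := by
            by_contra hc
            push Not at hc
            have h1 := hbk z₀ k hc
            have h2 := (ho₀.sub _ f₀.start_mem_support).1
            have h3 := hual _ hxu
            linarith
          have hopen : IsOpen H H' Set.univ (u₁.reverse.append gb) := by
            refine ⟨fun _ _ => trivial, fun m hm => ?_, fun m hm => ?_⟩
            · rw [mem_tail_append] at hm
              rcases hm with hm | hm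
              · rw [SimpleGraph.Walk.support_reverse, List.tail_reverse, List.mem_reverse] at hm
                exact hu₁ _ hm (Or.inl ⟨m, rfl⟩)
              · exact hgbH m (mono hm)
            · rw [mem_dropLast_append] at hm
              rcases hm with hm | hm
              · have hm' : H' m ∈ u₁.support := by simpa using mono' hm
                rw [mem_support_iff_dropLast] at hm'
                rcases hm' with hm' | hm'
                · exact hu₁ _ hm' (Or.inr ⟨m, rfl⟩)
                · exact h.disj h' hlt k m hm'.symm
              · exact hg.snd m ((mem_dropLast_append _ _).2 (Or.inr hm))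
          obtain ⟨x'', hxf, hx''⟩ := hC.meet ho₀.univ hopen (Or.inl ⟨hk, hy⟩)
          rw [mem_support_append] at hx''
          rcases hx'' with hx'' | hx''
          · exact absurd hxf (hu₁f x'' (by simpa using hx''))
          · exact ⟨x'', hx'', hxf⟩
        · exfalso
          have hk : k < w₀ := by
            by_contra hc
            push Not at hc
            have h1 := hbk' w₀ k hc
            have h2 := (ho₀.sub _ f₀.end_mem_support).1
            have h3 := hual _ hxu
            linarith
          have hopen : IsOpen H H' Set.univ (ga.append u₁) := by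
            refine ⟨fun _ _ => trivial, fun m hm => ?_, fun m hm => ?_⟩
            · rw [mem_tail_append] at hm
              rcases hm with hm | hm
              · exact hg.fst m ((mem_tail_append _ _).2 (Or.inl hm))
              · have hm' : H m ∈ u₁.support := mono hm
                rw [mem_support_iff_dropLast] at hm'
                rcases hm' with hm' | hm'
                · exact hu₁ _ hm' (Or.inl ⟨m, rfl⟩)
                · exact h.disj h' hlt m k hm'
            · rw [mem_dropLast_append] at hm
              rcases hm with hm | hm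
              · exact hg.snd m ((mem_dropLast_append _ _).2 (Or.inl hm))
              · exact hu₁ _ hm (Or.inr ⟨m, rfl⟩)
          obtain ⟨x'', hxf, hx''⟩ := hC.meet ho₀.univ hopen (Or.inr ⟨by omega, hk⟩)
          rw [mem_support_append] at hx''
          rcases hx'' with hx'' | hx''
          · exact hno x'' hx'' hxf
          · exact hu₁f x'' hx'' hxf
    obtain ⟨q, gd, gc, rfl, hq, hgd⟩ := exists_first gb {x | x ∈ f₀.support} hgb
    obtain ⟨e₁, e₂, ee⟩ := exists_split f₀ hq
    -- vertices of `gd.dropLast` are not on `H'`
    have hgdd : ∀ u ∈ gd.support.dropLast, u ∈ (ga.append (gd.append gc)).support.dropLast :=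
      fun u hu => (mem_dropLast_append _ _).2 (Or.inr ((mem_dropLast_append _ _).2 (Or.inl hu)))
    have hvd : v ∈ gd.support.dropLast := by
      rcases (mem_support_iff_dropLast gd).1 gd.start_mem_support with h1 | h1
      · exact h1
      · exact absurd (h1 ▸ hq) hvf
    have hvH' : ∀ k, H' k ≠ v := fun k hk => hg.snd k (by rw [hk]; exact hgdd v hvd)
    have hgaH' : ∀ k, H' k ∉ ga.support := by
      intro k hk
      rcases (mem_support_iff_dropLast ga).1 hk with hk | hk
      · exact hg.snd k ((mem_dropLast_append _ _).2 (Or.inl hk))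
      · exact hvH' k hk
    have hopen : IsOpen H H' Set.univ ((ga.append gd).append e₂) := by
      have ho₀' := ho₀
      rw [ee] at ho₀'
      refine ⟨fun _ _ => trivial, fun m hm => ?_, fun m hm => ?_⟩
      · rw [mem_tail_append, mem_tail_append] at hm
        rcases hm with (hm | hm) | hm
        · exact hg.fst m ((mem_tail_append _ _).2 (Or.inl hm))
        · exact hgbH m ((mem_support_append _ _).2 (Or.inl (mono hm)))
        · exact ho₀'.fst m ((mem_tail_append _ _).2 (Or.inr hm))
      · rw [mem_dropLast_append, mem_dropLast_append] at hm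
        rcases hm with (hm | hm) | hm
        · exact hg.snd m ((mem_dropLast_append _ _).2 (Or.inl hm))
        · exact hg.snd m (hgdd _ hm)
        · exact ho₀'.snd m ((mem_dropLast_append _ _).2 (Or.inr hm))
    obtain ⟨p, hpf, hp⟩ := hC.meet ho₁.univ hopen (Or.inr ⟨hx, hw⟩)
    rw [mem_support_append, mem_support_append] at hp
    have hpf₀ : p ∉ f₀.support := fun hc => hf.disj hκ p hc hpf
    have hstay : ∀ (d : Wk v p), (∀ k, H k ∉ d.support) → (∀ k, H' k ∉ d.support) →
        (∀ x ∈ d.support, x ∉ f₀.support) → False := by
      intro d h1 h2 h3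
      have := stay_left h h' hlt hbk hbk' (fun v K => F.esc_spec v K) ho₀.univ ho₁.univ
        (hf.disj hκ) hz hw (fun x hx => (ho₀.sub x hx).1) hpf d h1 h2 h3
      linarith
    rcases hp with (hp | hp) | hp
    · -- `p` on `ga`
      obtain ⟨ge, gf, rfl⟩ := exists_split ga hp
      refine hstay gf.reverse (fun k hk => ?_) (fun k hk => ?_) (fun u hu => ?_)
      · have hk' : H k ∈ gf.support := by simpa using hk
        rcases (mem_support_iff_tail gf).1 hk' with h1 | h1
        · have k1 : k = z₁ := ho₁.eq_fst h.hwy.inj (by rw [h1]; exact hpf)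
          have k2 : k = x := hgH k
            ((mem_support_append _ _).2 (Or.inl ((mem_support_append _ _).2 (Or.inr hk'))))
          omega
        · exact hg.fst k ((mem_tail_append _ _).2 (Or.inl ((mem_tail_append _ _).2 (Or.inr h1))))
      · exact hgaH' k ((mem_support_append _ _).2 (Or.inr (by simpa using hk)))
      · exact hno u ((mem_support_append _ _).2 (Or.inr (by simpa using hu)))
    · -- `p` on `gd`
      have hpq : p ∈ gd.support.dropLast := by
        rcases (mem_support_iff_dropLast gd).1 hp with h1 | h1
        · exact h1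
        · exact absurd (h1 ▸ hq) hpf₀
      obtain ⟨ge, gf, rfl⟩ := exists_split gd hp
      have hge : ∀ u ∈ ge.support, u ∈ (ge.append gf).support.dropLast := by
        intro u hu
        rcases (mem_support_iff_dropLast ge).1 hu with h1 | h1
        · rw [mem_dropLast_append]; exact Or.inl h1
        · rw [h1]; exact hpq
      refine hstay ge (fun k hk => ?_) (fun k hk => ?_) (fun u hu => ?_)
      · exact hgbH k ((mem_support_append _ _).2 (Or.inl (mono' (hge _ hk))))
      · exact hg.snd k (hgdd _ (hge _ hk))
      · exact hgd u (hge u hu)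
    · exact hf.disj hκ p (by rw [ee, mem_support_append]; exact Or.inr hp) hpf
  obtain ⟨p', m₁, m₂, rfl, hp', -⟩ := exists_first ga {x | x ∈ f₀.support} main
  obtain ⟨e₁, e₂, ee⟩ := exists_split f₀ hp'
  have hopen : IsOpen H H' Set.univ (m₁.append e₂) := by
    have ho₀' := ho₀
    rw [ee] at ho₀'
    refine ⟨fun _ _ => trivial, fun m hm => ?_, fun m hm => ?_⟩
    · rw [mem_tail_append] at hm
      rcases hm with hm | hm
      · exact hg.fst m ((mem_tail_append _ _).2 (Or.inl ((mem_tail_append _ _).2 (Or.inl hm))))
      · exact ho₀'.fst m ((mem_tail_append _ _).2 (Or.inr hm))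
    · rw [mem_dropLast_append] at hm
      rcases hm with hm | hm
      · exact hg.snd m
          ((mem_dropLast_append _ _).2 (Or.inl ((mem_dropLast_append _ _).2 (Or.inl hm))))
      · exact ho₀'.snd m ((mem_dropLast_append _ _).2 (Or.inr hm))
  obtain ⟨p, hpf, hp⟩ := hC.meet ho₁.univ hopen (Or.inr ⟨hx, hw⟩)
  rw [mem_support_append] at hp
  have hpm : p ∈ m₁.support := by
    rcases hp with hp | hp
    · exact hp
    · exact absurd hpf (hf.disj hκ p (by rw [ee, mem_support_append]; exact Or.inr hp))
  obtain ⟨n₁, n₂, rfl⟩ := exists_split m₁ hpm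
  refine ⟨p, p', n₁, n₂, m₂.append gb, ?_, hpf, hp', fun k hk => ?_, fun k hk => ?_⟩
  · simp only [SimpleGraph.Walk.append_assoc]
  · rcases (mem_support_iff_tail n₂).1 hk with h1 | h1
    · have k1 : k = z₁ := ho₁.eq_fst h.hwy.inj (by rw [h1]; exact hpf)
      have k2 : k = x := hgH k ((mem_support_append _ _).2 (Or.inl ((mem_support_append _ _).2
        (Or.inl ((mem_support_append _ _).2 (Or.inr hk))))))
      omega
    · exact hg.fst k ((mem_tail_append _ _).2 (Or.inl ((mem_tail_append _ _).2
        (Or.inl ((mem_tail_append _ _).2 (Or.inr h1))))))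
  · rcases (mem_support_iff_dropLast n₂).1 hk with h1 | h1
    · exact hg.snd k ((mem_dropLast_append _ _).2 (Or.inl ((mem_dropLast_append _ _).2
        (Or.inl ((mem_dropLast_append _ _).2 (Or.inr h1))))))
    · -- `p'` is not the end of `g`
      have hp'd : p' ∈ ((n₁.append n₂).append m₂).support.dropLast := by
        rcases (mem_support_iff_dropLast ((n₁.append n₂).append m₂)).1
          ((mem_support_append _ _).2 (Or.inl (n₁.append n₂).end_mem_support)) with h2 | h2
        · exact h2
        · exact absurd (h2 ▸ hp') hvf
      exact hg.snd k (by rw [h1]; exact (mem_dropLast_append _ _).2 (Or.inl hp'd))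

end one

end Crest.Agent.R151.R78
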