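import Mathlib
import Crest.Agent.R151.R78L
import Crest.Agent.R151.M192f
import Crest.Agent.R151.M56a
import Crest.Agent.R151.M192l
import Crest.Agent.R151.NF3

-- ▼ part R151/R78M
section

/-!
# R151/R78M — deterministic row layer, part M: exit lemma in terms of labels (owner helper78)
-/

set_option autoImplicit false

open Crest.ProbabilityR.FirstPassage Filter

namespace Crest.Agent.R151.R78

open Crest.Agent.R151.K Crest.Agent.R151.Pl

variable {t : Environment} {H H' : ℤ → V}

/-- a fence in the lane `[s, r]`: `x` = position `s` on `H`, `x'` = position `r` on `H'`, and there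
is a route from `x` to `x'` inside the lane -/
structure IsFence (F : Frame) (t : Environment) (H H' : ℤ → V) (s r : ℝ) (x x' : ℤ) : Prop where
  pos : IsPos F H s x
  pos' : IsPos F H' r x'
  ne : (routes t H H' (F.lane s r) x x').Nonempty

/-- gauged cost with gauge region `univ` -/
noncomputable def sh (t : Environment) (H H' : ℤ → V) (a b : ℤ) (A : Set V) (i j : ℤ) : ℝ :=
  shp t H H' Set.univ a b A i j

section

variable {F : Frame} {lo hi lo' hi' κ : ℝ}

/-- optimal fence walk -/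
lemma IsFence.exists_opt {s r : ℝ} {x x' : ℤ} (hfe : IsFence F t H H' s r x x')
    (h : IsStrip F lo hi H) (h' : IsStrip F lo' hi' H') (hlt : hi < lo') (ht : Nn t) :
    ∃ z w : ℤ, x ≤ z ∧ w ≤ x' ∧ ∃ f : Wk (H z) (H' w), IsOpen H H' (F.lane s r) f ∧
      hull t H H' (F.lane s r) x x' = val t H H' f := by
  obtain ⟨z, w, hz, hw, g, -, hg, e⟩ := h.exists_hull h' hlt ht (subset_rfl) hfe.ne
  exact ⟨z, w, hz, hw, g, hg, e⟩



end

end Crest.Agent.R151.R78
end

-- ▼ part R151/R78N
section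

/-!
# R151/R78N — deterministic row layer, part N: exit through several consecutive cells
(owner helper78)
-/

set_option autoImplicit false

open Crest.ProbabilityR.FirstPassage Filter

namespace Crest.Agent.R151.R78

open Crest.Agent.R151.K Crest.Agent.R151.Pl

variable {t : Environment} {H H' : ℤ → V}

section step

variable {F : Frame} {lo hi lo' hi' κ : ℝ} {z₀ w₀ z₁ w₁ : ℤ}
  {f₀ : Wk (H z₀) (H' w₀)} {f₁ : Wk (H z₁) (H' w₁)} {s₀ r₀ s₁ r₁ : ℝ} {a b : ℤ}

/-- **one cell, with remainder**: an open crossing `g₁ ++ g₂ ++ g₃` with `g₂` starting on fence `1`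
and visiting fence `0`. -/
theorem window_step (h : IsStrip F lo hi H) (h' : IsStrip F lo' hi' H') (hlt : hi < lo')
    (hbk : Back F κ H) (hbk' : Back F κ H') (ht : Nn t)
    (hf : IsPair F κ H H' f₀ f₁ s₀ r₀ s₁ r₁)
    {x y : ℤ} {p p' : V} {A : Set V} (g₁ : Wk (H x) p) (g₂ : Wk p p') (g₃ : Wk p' (H' y))
    (hg : IsOpen H H' A ((g₁.append g₂).append g₃)) (hp : p ∈ f₁.support)
    (hmeet : ∃ v ∈ g₂.support, v ∈ f₀.support) (hg₂H : ∀ k, H k ∉ g₂.support)
    (hg₂H' : ∀ k, H' k ∉ g₂.support) (hax : a ≤ x) (hwb : w₁ ≤ b) {i j : ℤ} (hi₁ : i ≤ z₁)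
    (hj₀ : w₀ ≤ j) :
    ∃ (p'' : V) (v₁ : Wk (H z₀) p'') (k₂ : Wk p'' p'), p'' ∈ f₀.support ∧
      (∀ k, H k ∉ k₂.support) ∧ (∀ k, H' k ∉ k₂.support) ∧
      IsOpen H H' Set.univ ((v₁.append k₂).append g₃) ∧
      hull t H H' Set.univ a b +
        hull t H H' (F.lane (s₀ - κ - F.esc) (r₁ + κ + F.esc)) i j +
        val t H H' ((v₁.append k₂).append g₃) ≤
      val t H H' ((g₁.append g₂).append g₃) + val t H H' f₁ + val t H H' f₀ := by
  have hκ : 0 ≤ κ := by have := hbk 0 0 le_rfl; linarith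
  -- first hit `p''` of fence `0` in `g₂`, last visit `q` of fence `1` before it
  obtain ⟨p'', k₁, k₂, rfl, hp'', hk₁⟩ := exists_first g₂ {x | x ∈ f₀.support} hmeet
  obtain ⟨q, c, d, rfl, hq, hd⟩ := exists_last k₁ {x | x ∈ f₁.support}
    ⟨p, k₁.start_mem_support, hp⟩
  obtain ⟨u₁, u₂, eu⟩ := exists_split f₁ hq
  obtain ⟨v₁, v₂, ev⟩ := exists_split f₀ hp''
  have ho₀ := hf.open₀
  have ho₁ := hf.open₁
  have hdH : ∀ k, H k ∉ d.support := fun k hk =>
    hg₂H k (by rw [mem_support_append, mem_support_append]; exact Or.inl (Or.inr hk))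
  have hdH' : ∀ k, H' k ∉ d.support := fun k hk =>
    hg₂H' k (by rw [mem_support_append, mem_support_append]; exact Or.inl (Or.inr hk))
  have hdreg : ∀ x ∈ d.support, s₀ - κ - F.esc ≤ F.al x ∧ F.al x ≤ r₁ + κ + F.esc := by
    intro x hx
    have hC0 := F.esc_nonneg
    obtain ⟨d₁, d₂, rfl⟩ := exists_split d hx
    constructor
    · by_cases hxp : x ∈ f₀.support
      · have := (ho₀.sub x hxp).1
        linarith
      · refine stay_left h h' hlt hbk hbk' (fun v K => F.esc_spec v K) ho₀.univ ho₁.univ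
          (hf.disj hκ) (hf.z_lt hbk) (hf.w_lt hbk') (fun x hx => (ho₀.sub x hx).1) hq d₁.reverse
          (fun k hk => hdH k (by rw [mem_support_append]; exact Or.inl (by simpa using hk)))
          (fun k hk => hdH' k (by rw [mem_support_append]; exact Or.inl (by simpa using hk))) ?_
        intro x' hx' hx'f
        have hx'' : x' ∈ d₁.support := by simpa using hx'
        rw [mem_support_iff_dropLast] at hx''
        rcases hx'' with hx'' | rfl
        · exact hk₁ x' (by
            rw [mem_dropLast_append, mem_dropLast_append]; exact Or.inr (Or.inl hx'')) hx'f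
        · exact hxp hx'f
    · by_cases hxp : x ∈ f₁.support
      · have := (ho₁.sub x hxp).2
        linarith
      · refine stay_right h h' hlt hbk hbk' (fun v K => F.esc_spec v K) ho₁.univ ho₀.univ
          (fun x hx hx' => hf.disj hκ x hx' hx) (hf.z_lt hbk) (hf.w_lt hbk')
          (fun x hx => (ho₁.sub x hx).2) hp'' d₂
          (fun k hk => hdH k (by rw [mem_support_append]; exact Or.inr hk))
          (fun k hk => hdH' k (by rw [mem_support_append]; exact Or.inr hk)) ?_
        intro x' hx' hx'f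
        rw [mem_support_iff_tail] at hx'
        rcases hx' with rfl | hx'
        · exact hxp hx'f
        · exact hd x' (by rw [mem_tail_append]; exact Or.inr hx') hx'f
  have mono : ∀ {x y : V} {u : Wk x y} {v : V}, v ∈ u.support.tail → v ∈ u.support :=
    fun h => List.mem_of_mem_tail h
  have mono' : ∀ {x y : V} {u : Wk x y} {v : V}, v ∈ u.support.dropLast → v ∈ u.support :=
    fun h => List.mem_of_mem_dropLast h
  rw [eu] at ho₁
  rw [ev] at ho₀
  -- route (A): `g` to `q`, then fence `1`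
  have hA : IsOpen H H' Set.univ ((g₁.append c).append u₂) := by
    refine ⟨fun _ _ => trivial, fun m hm => ?_, fun m hm => ?_⟩
    · rw [mem_tail_append, mem_tail_append] at hm
      rcases hm with (hm | hm) | hm
      · exact hg.fst m (by rw [mem_tail_append, mem_tail_append]; exact Or.inl (Or.inl hm))
      · exact hg₂H m (by
          rw [mem_support_append, mem_support_append]; exact Or.inl (Or.inl (mono hm)))
      · exact ho₁.fst m (by rw [mem_tail_append]; exact Or.inr hm)
    · rw [mem_dropLast_append, mem_dropLast_append] at hm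
      rcases hm with (hm | hm) | hm
      · exact hg.snd m (by rw [mem_dropLast_append, mem_dropLast_append]; exact Or.inl (Or.inl hm))
      · exact hg₂H' m (by
          rw [mem_support_append, mem_support_append]; exact Or.inl (Or.inl (mono' hm)))
      · exact ho₁.snd m (by rw [mem_dropLast_append]; exact Or.inr hm)
  -- route (B): fence `1` to `q`, then `d`, then fence `0`
  have hB : IsOpen H H' (F.lane (s₀ - κ - F.esc) (r₁ + κ + F.esc)) ((u₁.append d).append v₂) := by
    refine ⟨fun x hx => ?_, fun m hm => ?_, fun m hm => ?_⟩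
    · have hC0 := F.esc_nonneg
      have hlt' := hf.lt
      rw [mem_support_append, mem_support_append] at hx
      rcases hx with (hx | hx) | hx
      · have h1 := ho₁.sub x (by rw [mem_support_append]; exact Or.inl hx)
        have h2 := ho₀.sub _ (v₁.append v₂).start_mem_support
        constructor
        · have := h1.1; have := h2.1; have := h2.2; linarith
        · have := h1.2; linarith
      · exact hdreg x hx
      · have h1 := ho₀.sub x (by rw [mem_support_append]; exact Or.inr hx)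
        have h2 := ho₁.sub _ (u₁.append u₂).start_mem_support
        constructor
        · have := h1.1; linarith
        · have := h1.2; have := h2.1; have := h2.2; linarith
    · rw [mem_tail_append, mem_tail_append] at hm
      rcases hm with (hm | hm) | hm
      · exact ho₁.fst m (by rw [mem_tail_append]; exact Or.inl hm)
      · exact hdH m (mono hm)
      · exact ho₀.fst m (by rw [mem_tail_append]; exact Or.inr hm)
    · rw [mem_dropLast_append, mem_dropLast_append] at hm
      rcases hm with (hm | hm) | hm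
      · exact ho₁.snd m (by rw [mem_dropLast_append]; exact Or.inl hm)
      · exact hdH' m (mono' hm)
      · exact ho₀.snd m (by rw [mem_dropLast_append]; exact Or.inr hm)
  -- route (C): fence `0` to `p''`, then `g`
  have hCr : IsOpen H H' Set.univ ((v₁.append k₂).append g₃) := by
    refine ⟨fun _ _ => trivial, fun m hm => ?_, fun m hm => ?_⟩
    · rw [mem_tail_append, mem_tail_append] at hm
      rcases hm with (hm | hm) | hm
      · exact ho₀.fst m (by rw [mem_tail_append]; exact Or.inl hm)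
      · exact hg₂H m (by rw [mem_support_append]; exact Or.inr (mono hm))
      · exact hg.fst m (by rw [mem_tail_append]; exact Or.inr hm)
    · rw [mem_dropLast_append, mem_dropLast_append] at hm
      rcases hm with (hm | hm) | hm
      · exact ho₀.snd m (by rw [mem_dropLast_append]; exact Or.inl hm)
      · exact hg₂H' m (by rw [mem_support_append]; exact Or.inr (mono' hm))
      · exact hg.snd m (by rw [mem_dropLast_append]; exact Or.inr hm)
  have kA := hull_le (bddBelow_routes ht H H' Set.univ a b) hax hwb _ hA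
  have kB := hull_le (bddBelow_routes ht H H' (F.lane (s₀ - κ - F.esc) (r₁ + κ + F.esc)) i j)
    hi₁ hj₀ _ hB
  have e1 : val t H H' f₁ = hc t H z₁ + (walkCost t u₁ + walkCost t u₂) - hc t H' w₁ := by
    unfold val; rw [eu, walkCost_append]
  have e0 : val t H H' f₀ = hc t H z₀ + (walkCost t v₁ + walkCost t v₂) - hc t H' w₀ := by
    unfold val; rw [ev, walkCost_append]
  refine ⟨p'', v₁, k₂, hp'', fun k hk => hg₂H k (by rw [mem_support_append]; exact Or.inr hk),
    fun k hk => hg₂H' k (by rw [mem_support_append]; exact Or.inr hk), hCr, ?_⟩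
  rw [e1, e0]
  unfold val
  simp only [walkCost_append] at kA kB ⊢
  linarith

end step

namespace IsFences

variable {F : Frame} {κ : ℝ} {m : ℕ} {s r : ℕ → ℝ} {z w : ℕ → ℤ}
  {f : (l : ℕ) → Wk (H (z l)) (H' (w l))}

lemma isPair (hf : IsFences F κ H H' m s r z w f) {l : ℕ} (hl : l < m) :
    IsPair F κ H H' (f l) (f (l + 1)) (s l) (r l) (s (l + 1)) (r (l + 1)) :=
  ⟨hf.isOpen l hl.le, hf.isOpen (l + 1) hl, hf.lt l hl⟩

lemma lane_le (hf : IsFences F κ H H' m s r z w f) {l : ℕ} (hl : l ≤ m) : s l ≤ r l := by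
  have := (hf.isOpen l hl).sub _ (f l).start_mem_support
  exact this.1.trans this.2

/-- the fences `0` and `n ≥ 1` are at distance `> κ` -/
lemma lt_zero (hf : IsFences F κ H H' m s r z w f) (hκ : 0 ≤ κ) : ∀ n, n + 1 ≤ m →
    r 0 + κ < s (n + 1)
  | 0, h => hf.lt 0 h
  | n + 1, h => by
    have h1 := hf.lt_zero hκ n (by omega)
    have h2 := hf.lane_le (l := n + 1) (by omega)
    have h3 := hf.lt (n + 1) h
    linarith

lemma w_lt_zero (hf : IsFences F κ H H' m s r z w f) (hb : Back F κ H') {n : ℕ}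
    (hn : n + 1 ≤ m) : w 0 < w (n + 1) :=
  lt_of_le_of_lt (hf.w_le hb (l := n) (by omega)) (hf.w_lt hb (by omega))

end IsFences

section multi

variable {F : Frame} {lo hi lo' hi' κ : ℝ} {m : ℕ} {s r : ℕ → ℝ} {z w : ℕ → ℤ}
  {f : (l : ℕ) → Wk (H (z l)) (H' (w l))} {a b : ℤ} {i j : ℕ → ℤ}

/-- **several cells**: an open crossing `g₁ ++ g₂ ++ g₃` where `g₂` goes from fence `n` to
fence `0` avoiding the highways. -/
theorem window_multi (h : IsStrip F lo hi H) (h' : IsStrip F lo' hi' H') (hlt : hi < lo')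
    (hbk : Back F κ H) (hbk' : Back F κ H') (ht : Nn t)
    (hf : IsFences F κ H H' m s r z w f)
    (haz : ∀ l ≤ m, a ≤ z l) (hwb : ∀ l ≤ m, w l ≤ b)
    (hi : ∀ l ≤ m, i l ≤ z l) (hj : ∀ l ≤ m, w l ≤ j l) (n : ℕ) (hn : n ≤ m) :
    ∀ {x y : ℤ} (_ : a ≤ x) (_ : y ≤ b) {p p' : V} (g₁ : Wk (H x) p) (g₂ : Wk p p')
      (g₃ : Wk p' (H' y)) {A : Set V} (_ : IsOpen H H' A ((g₁.append g₂).append g₃))
      (_ : p ∈ (f n).support) (_ : p' ∈ (f 0).support) (_ : ∀ k, H k ∉ g₂.support)
      (_ : ∀ k, H' k ∉ g₂.support),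
      ∑ l ∈ Finset.range n, ((hull t H H' (F.lane (s l - κ - F.esc) (r (l + 1) + κ + F.esc))
        (i (l + 1)) (j l) - hull t H H' Set.univ a b) - (val t H H' (f l) -
        hull t H H' Set.univ a b) - (val t H H' (f (l + 1)) - hull t H H' Set.univ a b)) ≤
      val t H H' ((g₁.append g₂).append g₃) - hull t H H' Set.univ a b := by
  have hκ : 0 ≤ κ := by have := hbk 0 0 le_rfl; linarith
  induction n with
  | zero =>
    intro x y hax hyb p p' g₁ g₂ g₃ A hg _ _ _ _
    have := hull_le (bddBelow_routes ht H H' Set.univ a b) hax hyb _ hg.univ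
    simp only [Finset.range_zero, Finset.sum_empty]
    unfold val
    linarith
  | succ n ih =>
    intro x y hax hyb p p' g₁ g₂ g₃ A hg hp hp' hg₂H hg₂H'
    have hnm : n < m := hn
    have hfo := hf.isOpen (n + 1) hn
    have hfo' := hf.isOpen n hnm.le
    have hf0 := hf.isOpen 0 (Nat.zero_le _)
    have hmeet : ∃ v ∈ g₂.support, v ∈ (f n).support := by
      rcases Nat.eq_zero_or_pos n with rfl | hn0
      · exact ⟨p', g₂.end_mem_support, hp'⟩
      · obtain ⟨k, rfl⟩ : ∃ k, n = k + 1 := ⟨n - 1, by omega⟩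
        obtain ⟨c₁, c₂, ec⟩ := exists_split (f (k + 1 + 1)) hp
        obtain ⟨d₁, d₂, ed⟩ := exists_split (f 0) hp'
        have hopen : IsOpen H H' Set.univ ((c₁.append g₂).append d₂) := by
          have h1 := hfo
          have h2 := hf0
          rw [ec] at h1
          rw [ed] at h2
          refine ⟨fun _ _ => trivial, fun q hq => ?_, fun q hq => ?_⟩
          · rw [mem_tail_append, mem_tail_append] at hq
            rcases hq with (hq | hq) | hq
            · exact h1.fst q (by rw [mem_tail_append]; exact Or.inl hq)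
            · exact hg₂H q (List.mem_of_mem_tail hq)
            · exact h2.fst q (by rw [mem_tail_append]; exact Or.inr hq)
          · rw [mem_dropLast_append, mem_dropLast_append] at hq
            rcases hq with (hq | hq) | hq
            · exact h1.snd q (by rw [mem_dropLast_append]; exact Or.inl hq)
            · exact hg₂H' q (List.mem_of_mem_dropLast hq)
            · exact h2.snd q (by rw [mem_dropLast_append]; exact Or.inr hq)
        obtain ⟨v, hv, hv'⟩ := (h.crosses h' hlt) (hf.z_lt hbk hnm)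
          (hf.w_lt_zero hbk' (n := k) hnm.le) (f (k + 1)) ((c₁.append g₂).append d₂)
          hfo'.univ hopen
        rw [mem_support_append, mem_support_append] at hv'
        rcases hv' with (hv' | hv') | hv'
        · exact absurd (by rw [ec, mem_support_append]; exact Or.inl hv') (hf.disj hκ hnm v hv)
        · exact ⟨v, hv', hv⟩
        · exfalso
          have h1 := (hf0.sub v (by rw [ed, mem_support_append]; exact Or.inr hv')).2
          have h2 := (hfo'.sub v hv).1
          have h3 := hf.lt_zero hκ k hnm.le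
          linarith
    obtain ⟨p'', v₁, k₂, hp'', hkH, hkH', hopen, hval⟩ := window_step (a := a) (b := b)
      (i := i (n + 1)) (j := j n) h h' hlt hbk hbk' ht (hf.isPair hnm) g₁ g₂ g₃ hg hp hmeet
      hg₂H hg₂H' hax (hwb _ hn) (hi _ hn) (hj _ hnm.le)
    have kI := ih hnm.le (haz n hnm.le) hyb v₁ k₂ g₃ hopen hp'' hp' hkH hkH'
    rw [Finset.sum_range_succ]
    linarith

end multi

/-! ### Families of fences in terms of labels -/

/-- fences `0, …, m` from left to right in the lanes `[s l, r l]`; `x l` = position `s l` on `H`,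
`x' l` = position `r l` on `H'` -/
structure FenceFam (F : Frame) (κ : ℝ) (t : Environment) (H H' : ℤ → V) (m : ℕ) (s r : ℕ → ℝ)
    (x x' : ℕ → ℤ) : Prop where
  lt : ∀ l < m, r l + κ < s (l + 1)
  pos : ∀ l ≤ m, IsPos F H (s l) (x l)
  pos' : ∀ l ≤ m, IsPos F H' (r l) (x' l)
  ne : ∀ l ≤ m, (routes t H H' (F.lane (s l) (r l)) (x l) (x' l)).Nonempty

/-- lower bound for a leftward crossing of the `m` cells between the fences -/
noncomputable def famLB (F : Frame) (κ : ℝ) (t : Environment) (H H' : ℤ → V) (a b : ℤ) (m : ℕ)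
    (s r : ℕ → ℝ) (x x' : ℕ → ℤ) : ℝ :=
  ∑ l ∈ Finset.range m, sh t H H' a b (F.lane (s l - κ - F.esc) (r (l + 1) + κ + F.esc))
      (x (l + 1)) (x' l) -
    2 * ∑ l ∈ Finset.range (m + 1), sh t H H' a b (F.lane (s l) (r l)) (x l) (x' l)

namespace FenceFam

variable {F : Frame} {lo hi lo' hi' κ : ℝ} {m : ℕ} {s r : ℕ → ℝ} {x x' : ℕ → ℤ} {a b : ℤ}

/-- optimal fences -/
lemma exists_opt (hF : FenceFam F κ t H H' m s r x x')
    (h : IsStrip F lo hi H) (h' : IsStrip F lo' hi' H') (hlt : hi < lo') (ht : Nn t) :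
    ∃ (z w : ℕ → ℤ) (f : (l : ℕ) → Wk (H (z l)) (H' (w l))),
      IsFences F κ H H' m s r z w f ∧ (∀ l ≤ m, x l ≤ z l) ∧ (∀ l ≤ m, w l ≤ x' l) ∧
      ∀ l ≤ m, hull t H H' (F.lane (s l) (r l)) (x l) (x' l) = val t H H' (f l) := by
  classical
  have hex : ∀ l, ∃ z w : ℤ, ∃ g : Wk (H z) (H' w), l ≤ m → (x l ≤ z ∧ w ≤ x' l ∧
      IsOpen H H' (F.lane (s l) (r l)) g ∧
      hull t H H' (F.lane (s l) (r l)) (x l) (x' l) = val t H H' g) := by
    intro l
    by_cases hl : l ≤ m
    · obtain ⟨z, w, hz, hw, g, -, hg, e⟩ := h.exists_hull h' hlt ht (subset_rfl) (hF.ne l hl)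
      exact ⟨z, w, g, fun _ => ⟨hz, hw, hg, e⟩⟩
    · obtain ⟨g⟩ : Nonempty (Wk (H 0) (H' 0)) := inferInstance
      exact ⟨0, 0, g, fun h => absurd h hl⟩
  choose z w f hf using hex
  exact ⟨z, w, f, ⟨fun l hl => (hf l hl).2.2.1, hF.lt⟩, fun l hl => (hf l hl).1,
    fun l hl => (hf l hl).2.1, fun l hl => (hf l hl).2.2.2⟩

/-- the gauged fence costs are nonnegative -/
lemma sh_nonneg (hF : FenceFam F κ t H H' m s r x x') (ht : Nn t) {S R : ℝ}
    (ha : IsPos F H S a) (hb : IsPos F H' R b) (hS : ∀ l ≤ m, S ≤ s l) (hR : ∀ l ≤ m, r l ≤ R)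
    {l : ℕ} (hl : l ≤ m) : 0 ≤ sh t H H' a b (F.lane (s l) (r l)) (x l) (x' l) :=
  shp_nonneg (bddBelow_routes ht H H' Set.univ a b) (hF.ne l hl) (Set.subset_univ _)
    (ha.mono (hF.pos l hl) (hS l hl)) ((hF.pos' l hl).mono hb (hR l hl))

/-- a crossing `g₁ ++ g₂ ++ g₃` with `g₂` from (optimal) fence `m` to (optimal) fence `0` -/
lemma le_val (hF : FenceFam F κ t H H' m s r x x')
    (h : IsStrip F lo hi H) (h' : IsStrip F lo' hi' H') (hlt : hi < lo')
    (hbk : Back F κ H) (hbk' : Back F κ H') (ht : Nn t) {S R : ℝ}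
    (ha : IsPos F H S a) (hb : IsPos F H' R b) (hS : ∀ l ≤ m, S ≤ s l) (hR : ∀ l ≤ m, r l ≤ R)
    {z w : ℕ → ℤ} {f : (l : ℕ) → Wk (H (z l)) (H' (w l))}
    (hf : IsFences F κ H H' m s r z w f) (hz : ∀ l ≤ m, x l ≤ z l) (hw : ∀ l ≤ m, w l ≤ x' l)
    (hv : ∀ l ≤ m, hull t H H' (F.lane (s l) (r l)) (x l) (x' l) = val t H H' (f l))
    {x₀ y : ℤ} (hax : a ≤ x₀) (hyb : y ≤ b) {p p' : V} (g₁ : Wk (H x₀) p) (g₂ : Wk p p')
    (g₃ : Wk p' (H' y)) {A : Set V} (hg : IsOpen H H' A ((g₁.append g₂).append g₃))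
    (hp : p ∈ (f m).support) (hp' : p' ∈ (f 0).support) (hg₂H : ∀ k, H k ∉ g₂.support)
    (hg₂H' : ∀ k, H' k ∉ g₂.support) :
    famLB F κ t H H' a b m s r x x' ≤
      val t H H' ((g₁.append g₂).append g₃) - hull t H H' Set.univ a b := by
  have key := window_multi (a := a) (b := b) (i := x) (j := x') h h' hlt hbk hbk' ht hf
    (fun l hl => (ha.mono (hF.pos l hl) (hS l hl)).trans (hz l hl))
    (fun l hl => (hw l hl).trans ((hF.pos' l hl).mono hb (hR l hl))) hz hw m le_rfl hax hyb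
    g₁ g₂ g₃ hg hp hp' hg₂H hg₂H'
  refine le_trans ?_ key
  unfold famLB
  have e1 : ∀ l ≤ m, sh t H H' a b (F.lane (s l) (r l)) (x l) (x' l) =
      val t H H' (f l) - hull t H H' Set.univ a b := fun l hl => by
    unfold sh shp; rw [hv l hl]
  have e2 : ∑ l ∈ Finset.range m, ((hull t H H' (F.lane (s l - κ - F.esc)
      (r (l + 1) + κ + F.esc)) (x (l + 1)) (x' l) - hull t H H' Set.univ a b) -
      (val t H H' (f l) - hull t H H' Set.univ a b) -
      (val t H H' (f (l + 1)) - hull t H H' Set.univ a b)) =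
      ∑ l ∈ Finset.range m, sh t H H' a b (F.lane (s l - κ - F.esc) (r (l + 1) + κ + F.esc))
        (x (l + 1)) (x' l) -
      ∑ l ∈ Finset.range m, sh t H H' a b (F.lane (s l) (r l)) (x l) (x' l) -
      ∑ l ∈ Finset.range m, sh t H H' a b (F.lane (s (l + 1)) (r (l + 1)))
        (x (l + 1)) (x' (l + 1)) := by
    rw [← Finset.sum_sub_distrib, ← Finset.sum_sub_distrib]
    refine Finset.sum_congr rfl fun l hl => ?_
    rw [Finset.mem_range] at hl
    rw [← e1 l hl.le, ← e1 (l + 1) hl]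
    rfl
  rw [e2]
  have h1 := Finset.sum_range_succ
    (fun l => sh t H H' a b (F.lane (s l) (r l)) (x l) (x' l)) m
  have h2 := Finset.sum_range_succ'
    (fun l => sh t H H' a b (F.lane (s l) (r l)) (x l) (x' l)) m
  have p0 := hF.sh_nonneg ht ha hb hS hR (l := 0) (Nat.zero_le _)
  have pm := hF.sh_nonneg ht ha hb hS hR (l := m) le_rfl
  linarith

end FenceFam

section fam

variable {F : Frame} {lo hi lo' hi' κ : ℝ}

/-- **window inequality (8.1), gauge region `univ`** -/
theorem window_fam (h : IsStrip F lo hi H) (h' : IsStrip F lo' hi' H') (hlt : hi < lo')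
    (hbk : Back F κ H) (hbk' : Back F κ H') (ht : Nn t) {m : ℕ} {s r : ℕ → ℝ} {x x' : ℕ → ℤ}
    (hF : FenceFam F κ t H H' m s r x x') {S R σ σ' : ℝ} {a b i j : ℤ}
    (ha : IsPos F H S a) (hb : IsPos F H' R b) (hS : ∀ l ≤ m, S ≤ s l) (hR : ∀ l ≤ m, r l ≤ R)
    (hi : IsPos F H σ i) (hj : IsPos F H' σ' j) (hSσ : S ≤ σ) (hRσ : σ' ≤ R)
    (hσ : r m + κ < σ) (hσ' : σ' + F.stp ≤ s 0) {A : Set V}
    (hne : (routes t H H' A i j).Nonempty) :
    famLB F κ t H H' a b m s r x x' ≤ sh t H H' a b A i j := by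
  have hκ : 0 ≤ κ := by have := hbk 0 0 le_rfl; linarith
  obtain ⟨z, w, f, hf, hz, hw, hv⟩ := hF.exists_opt h h' hlt ht
  suffices key : ∀ c ∈ routes t H H' A i j,
      famLB F κ t H H' a b m s r x x' + hull t H H' Set.univ a b ≤ c by
    have := le_csInf hne key
    unfold sh shp hull at *
    linarith
  rintro _ ⟨x₀, y, hx₀, hy, g, hg, rfl⟩
  have hax : a ≤ x₀ := (ha.mono hi hSσ).trans hx₀
  have hyb : y ≤ b := hy.trans (hj.mono hb hRσ)
  have hzm : z m < x₀ := by
    refine lt_of_lt_of_le (hi.lt_of_lt hbk ?_) hx₀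
    have := ((hf.isOpen m le_rfl).sub _ (f m).start_mem_support).2
    linarith
  have hw0 : y < w 0 := by
    by_contra hc
    push Not at hc
    have h1 := hj.al_le_of_le h'.hwy (hc.trans hy)
    have h2 := ((hf.isOpen 0 (Nat.zero_le _)).sub _ (f 0).end_mem_support).1
    linarith
  -- `g` meets fence `m`
  have hfm := hf.isOpen m le_rfl
  have hf0 := hf.isOpen 0 (Nat.zero_le _)
  obtain ⟨q, hq, hq'⟩ := (h.crosses h' hlt) hzm (lt_of_lt_of_le hw0 (hf.w_le hbk' le_rfl)) (f m) g
    hfm.univ hg.univ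
  obtain ⟨p, k₁, k₂, rfl, hp, -⟩ := exists_first g {x | x ∈ (f m).support} ⟨q, hq', hq⟩
  -- `k₂` meets fence `0`
  obtain ⟨c₁, c₂, ec⟩ := exists_split (f m) hp
  have hopen : IsOpen H H' Set.univ (c₁.append k₂) := by
    have h1 := hfm
    rw [ec] at h1
    refine ⟨fun _ _ => trivial, fun q hq => ?_, fun q hq => ?_⟩
    · rw [mem_tail_append] at hq
      rcases hq with hq | hq
      · exact h1.fst q (by rw [mem_tail_append]; exact Or.inl hq)
      · exact hg.fst q (by rw [mem_tail_append]; exact Or.inr hq)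
    · rw [mem_dropLast_append] at hq
      rcases hq with hq | hq
      · exact h1.snd q (by rw [mem_dropLast_append]; exact Or.inl hq)
      · exact hg.snd q (by rw [mem_dropLast_append]; exact Or.inr hq)
  have hmeet : ∃ v ∈ k₂.support, v ∈ (f 0).support := by
    rcases Nat.eq_zero_or_pos m with rfl | hm
    · exact ⟨p, k₂.start_mem_support, hp⟩
    · obtain ⟨k, rfl⟩ : ∃ k, m = k + 1 := ⟨m - 1, by omega⟩
      have hz0 : z 0 < z (k + 1) := by
        have : ∀ n, n + 1 ≤ k + 1 → z 0 < z (n + 1) := by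
          intro n
          induction n with
          | zero => intro _; exact hf.z_lt hbk (by omega)
          | succ n ih => intro hn; exact (ih (by omega)).trans (hf.z_lt hbk (by omega))
        exact this k le_rfl
      obtain ⟨v, hv1, hv2⟩ := (h.crosses h' hlt) hz0 hw0 (f 0) (c₁.append k₂) hf0.univ hopen
      rw [mem_support_append] at hv2
      rcases hv2 with hv2 | hv2
      · exfalso
        have h1 := (hfm.sub v (by rw [ec, mem_support_append]; exact Or.inl hv2)).1
        have h2 := (hf0.sub v hv1).2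
        have h3 := hf.lt_zero hκ k le_rfl
        linarith
      · exact ⟨v, hv2, hv1⟩
  obtain ⟨p', l₁, l₂, rfl, hp', -⟩ := exists_first k₂ {x | x ∈ (f 0).support} hmeet
  have hpH : ∀ k, H k ∉ l₁.support := by
    intro k hk
    rw [mem_support_iff_tail] at hk
    rcases hk with hk | hk
    · have h1 : k = x₀ := hg.eq_fst h.hwy.inj (by
        rw [mem_support_append]; exact Or.inl (by rw [hk]; exact k₁.end_mem_support))
      have h2 : k = z m := hfm.eq_fst h.hwy.inj (by rw [hk]; exact hp)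
      omega
    · exact hg.fst k (by
        rw [mem_tail_append, mem_tail_append]; exact Or.inr (Or.inl hk))
  have hpH' : ∀ k, H' k ∉ l₁.support := by
    intro k hk
    rw [mem_support_iff_dropLast] at hk
    rcases hk with hk | hk
    · exact hg.snd k (by
        rw [mem_dropLast_append, mem_dropLast_append]; exact Or.inr (Or.inl hk))
    · have h1 : k = y := hg.eq_snd h'.hwy.inj (by
        rw [mem_support_append, mem_support_append]
        exact Or.inr (Or.inl (by rw [hk]; exact l₁.end_mem_support)))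
      have h2 : k = w 0 := hf0.eq_snd h'.hwy.inj (by rw [hk]; exact hp')
      omega
  have e : k₁.append (l₁.append l₂) = (k₁.append l₁).append l₂ :=
    (SimpleGraph.Walk.append_assoc _ _ _)
  rw [e] at hg
  have := hF.le_val h h' hlt hbk hbk' ht ha hb hS hR hf hz hw hv hax hyb k₁ l₁ l₂ hg hp hp'
    hpH hpH'
  rw [e]
  unfold val at this
  linarith

/-- **Exit lemma with families of fences**: if the lane-restricted cost of `i → j` is larger than
the cost in `A`, then the latter is at least the cost of a leftward crossing of the left family or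
of the right family of cells. -/
theorem exit_fam (h : IsStrip F lo hi H) (h' : IsStrip F lo' hi' H') (hlt : hi < lo')
    (hbk : Back F κ H) (hbk' : Back F κ H') (ht : Nn t) {m : ℕ} (hm : 1 ≤ m)
    {s r : ℕ → ℝ} {x x' : ℕ → ℤ} (hL : FenceFam F κ t H H' m s r x x')
    {u v : ℕ → ℝ} {y y' : ℕ → ℤ} (hR : FenceFam F κ t H H' m u v y y')
    {S R σ σ' lL lR : ℝ} {a b i j : ℤ} (ha : IsPos F H S a) (hb : IsPos F H' R b)
    (hi : IsPos F H σ i) (hj : IsPos F H' σ' j) (hSs : ∀ l ≤ m, S ≤ s l) (hSσ : S ≤ σ)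
    (hSu : ∀ l ≤ m, S ≤ u l) (hRr : ∀ l ≤ m, r l ≤ R) (hRv : ∀ l ≤ m, v l ≤ R) (hRσ : σ' ≤ R)
    (hσ : r m + κ < σ) (hσ' : σ' + F.stp ≤ u 0) (hlL : lL ≤ s 0 - κ - F.esc)
    (hlR : v m + κ + F.esc ≤ lR) {A : Set V} (hne : (routes t H H' A i j).Nonempty)
    (hex : hull t H H' A i j < hull t H H' (A ∩ F.lane lL lR) i j) :
    famLB F κ t H H' a b m s r x x' ≤ sh t H H' a b A i j ∨
      famLB F κ t H H' a b m u v y y' ≤ sh t H H' a b A i j := by
  have hκ : 0 ≤ κ := by have := hbk 0 0 le_rfl; linarith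
  obtain ⟨k, rfl⟩ : ∃ k, m = k + 1 := ⟨m - 1, by omega⟩
  obtain ⟨zL, wL, fL, hfL, hzL, hwL, hvL⟩ := hL.exists_opt h h' hlt ht
  obtain ⟨zR, wR, fR, hfR, hzR, hwR, hvR⟩ := hR.exists_opt h h' hlt ht
  have hPL : IsPair F κ H H' (fL 0) (fL (k + 1)) (s 0) (r 0) (s (k + 1)) (r (k + 1)) :=
    ⟨hfL.isOpen 0 (Nat.zero_le _), hfL.isOpen (k + 1) le_rfl, hfL.lt_zero hκ k le_rfl⟩
  have hPR : IsPair F κ H H' (fR 0) (fR (k + 1)) (u 0) (v 0) (u (k + 1)) (v (k + 1)) :=
    ⟨hfR.isOpen 0 (Nat.zero_le _), hfR.isOpen (k + 1) le_rfl, hfR.lt_zero hκ k le_rfl⟩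
  -- lower bound for all cheap routes
  have key : ∀ c, hull t H H' A i j < c → c ≤ hull t H H' (A ∩ F.lane lL lR) i j →
      (famLB F κ t H H' a b (k + 1) s r x x' < c - hull t H H' Set.univ a b ∨
        famLB F κ t H H' a b (k + 1) u v y y' < c - hull t H H' Set.univ a b) := by
    intro c hc hc'
    obtain ⟨x₀, y₀, hx, hy, g, hg, hgc⟩ := exists_route_lt hne hc
    have hout : ¬ ∀ q ∈ g.support, q ∈ F.lane lL lR := by
      intro hall
      have := hull_le (bddBelow_routes ht H H' (A ∩ F.lane lL lR) i j) hx hy g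
        (hg.inter hall)
      linarith
    push Not at hout
    obtain ⟨q, hq, hql⟩ := hout
    have hax : a ≤ x₀ := (ha.mono hi hSσ).trans hx
    have hyb : y₀ ≤ b := hy.trans (hj.mono hb hRσ)
    have hql' : F.al q < lL ∨ lR < F.al q := by
      by_contra hc
      push Not at hc
      exact hql ⟨hc.1, hc.2⟩
    rcases hql' with hql' | hql'
    · left
      have hzx : zL (k + 1) < x₀ := by
        refine lt_of_lt_of_le (hi.lt_of_lt hbk ?_) hx
        have := ((hfL.isOpen (k + 1) le_rfl).sub _ (fL (k + 1)).start_mem_support).2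
        linarith
      obtain ⟨p, p', k₁, k₂, k₃, rfl, hp, hp', hk, hk'⟩ := left_exit h h' hlt hbk hbk' hPL g hg
        hzx hq (by linarith)
      have := hL.le_val h h' hlt hbk hbk' ht ha hb hSs hRr hfL hzL hwL hvL hax hyb k₁ k₂ k₃ hg
        hp hp' hk hk'
      unfold val at this
      linarith
    · right
      have hyn : y₀ < wR 0 := by
        by_contra hc
        push Not at hc
        have h1 := hj.al_le_of_le h'.hwy (hc.trans hy)
        have h2 := ((hfR.isOpen 0 (Nat.zero_le _)).sub _ (fR 0).end_mem_support).1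
        linarith
      obtain ⟨p, p', k₁, k₂, k₃, rfl, hp, hp', hk, hk'⟩ := right_exit h h' hlt hbk hbk' hPR g hg
        hyn hq (by linarith)
      have := hR.le_val h h' hlt hbk hbk' ht ha hb hSu hRv hfR hzR hwR hvR hax hyb k₁ k₂ k₃ hg
        hp hp' hk hk'
      unfold val at this
      linarith
  -- let `c` tend to the hull
  by_contra hcon
  push Not at hcon
  obtain ⟨h1, h2⟩ := hcon
  set LL := famLB F κ t H H' a b (k + 1) s r x x' with hLL
  set RR := famLB F κ t H H' a b (k + 1) u v y y' with hRR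
  have hsh : sh t H H' a b A i j = hull t H H' A i j - hull t H H' Set.univ a b := rfl
  rw [hsh] at h1 h2
  set c := min (hull t H H' (A ∩ F.lane lL lR) i j)
    (min (LL + hull t H H' Set.univ a b) (RR + hull t H H' Set.univ a b)) with hc
  have hc1 : hull t H H' A i j < c := by
    rw [hc]
    exact lt_min hex (lt_min (by linarith) (by linarith))
  have hc2 : c ≤ hull t H H' (A ∩ F.lane lL lR) i j := min_le_left _ _
  have hc3 : c ≤ LL + hull t H H' Set.univ a b := (min_le_right _ _).trans (min_le_left _ _)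
  have hc4 : c ≤ RR + hull t H H' Set.univ a b := (min_le_right _ _).trans (min_le_right _ _)
  rcases key c hc1 hc2 with hk | hk <;> linarith

end fam

end Crest.Agent.R151.R78
end

-- ▼ part R151/R78O
section

/-!
# R151/R78O — the planar fields `window`, `lane` of `E191.RowA.Law` for the row instance `rowA`,
and the exit inequality through `m` cells (owner helper78)
-/

set_option autoImplicit false

open MeasureTheory Filter ProbabilityTheory Topology Set
open Crest.ProbabilityR.FirstPassage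

namespace Crest.Agent.R151.R78

open Crest.Agent.R151.K
open Q (pos Hwy Inv rg)
open B710 (FlatData)
open M192 (frame frame_al frame_be al_pos be_pos isStrip pe pe_nn Routable skp rowA RowOK Row
  sk_le_sk be_smul_b)

variable {μ : ℝ × ℝ → ℝ} {F : FlatData μ} {h : Hwy F}

/-! ### Labels of the row instance -/

lemma al_smul_b (F : FlatData μ) (y : ℝ) : F.al (y • F.b) = 0 := by
  rw [map_smul, F.al_b, smul_zero]

lemma rg_univ (F : FlatData μ) (θ : ℝ × ℝ) : rg F univ θ = univ := by
  ext z; simp [rg]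

lemma lane_eq_rg (F : FlatData μ) (θ : ℝ × ℝ) (s r : ℝ) :
    (frame F).lane (s - F.al θ) (r - F.al θ) = rg F (Icc s r) θ := by
  ext z
  simp only [Frame.lane, rg, Set.mem_ofPred_eq, Set.mem_Icc, frame_al, al_pos]
  constructor
  · rintro ⟨h1, h2⟩; exact ⟨by linarith, by linarith⟩
  · rintro ⟨h1, h2⟩; exact ⟨by linarith, by linarith⟩

lemma sh_eq_sk (h : Hwy F) (d : ℝ × ℝ) (I : Set ℝ) (L s s' : ℝ) (θ : ℝ × ℝ) (t : Environment)
    (φ : ℝ × ℝ) :
    sh t (h.Lo θ t φ) (h.Up d θ t φ) (h.iL (-L) θ t φ) (h.iU d L θ t φ) (rg F I θ)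
      (h.iL s θ t φ) (h.iU d s' θ t φ) = h.sk d I univ L s s' θ t φ := by
  unfold sh shp Hwy.sk Hwy.hk
  rw [rg_univ]

lemma isPos_iL (h : Hwy F) (s : ℝ) (θ : ℝ × ℝ) (t : Environment) (φ : ℝ × ℝ) :
    IsPos (frame F) (h.Lo θ t φ) (s - F.al θ) (h.iL s θ t φ) := M56.isPos_ix h s φ.1 θ t

lemma isPos_iU (h : Hwy F) (y s : ℝ) (θ : ℝ × ℝ) (t : Environment) (φ : ℝ × ℝ) :
    IsPos (frame F) (h.Up (y • F.b) θ t φ) (s - F.al θ) (h.iU (y • F.b) s θ t φ) := by
  have := M56.isPos_ix h s φ.2 (θ - y • F.b) t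
  rw [map_sub, al_smul_b, sub_zero] at this
  exact this

lemma strip_Lo (h : Hwy F) (θ : ℝ × ℝ) (t : Environment) (φ : ℝ × ℝ) :
    IsStrip (frame F) (-(h.wH / 2) - F.be θ) (h.wH / 2 - F.be θ) (h.Lo θ t φ) :=
  isStrip h φ.1 θ t

lemma strip_Up (h : Hwy F) (d θ : ℝ × ℝ) (t : Environment) (φ : ℝ × ℝ) :
    IsStrip (frame F) (-(h.wH / 2) - F.be (θ - d)) (h.wH / 2 - F.be (θ - d)) (h.Up d θ t φ) :=
  isStrip h φ.2 (θ - d) t

lemma back_Lo (h : Hwy F) (θ : ℝ × ℝ) (t : Environment) (φ : ℝ × ℝ) :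
    Back (frame F) h.κ (h.Lo θ t φ) := M56.back h φ.1 θ t

lemma back_Up (h : Hwy F) (d θ : ℝ × ℝ) (t : Environment) (φ : ℝ × ℝ) :
    Back (frame F) h.κ (h.Up d θ t φ) := M56.back h φ.2 (θ - d) t

/-- fences at the labels `S l → R l` -/
lemma fenceFam_of {y C : ℝ} (hR : Routable h (y • F.b) C) {m : ℕ} {S R : ℕ → ℝ}
    (hlt : ∀ l < m, R l + h.κ < S (l + 1)) (hw : ∀ l ≤ m, S l + 2 * C + h.κ ≤ R l)
    (θ : ℝ × ℝ) (t : Environment) (φ : ℝ × ℝ) :
    FenceFam (frame F) h.κ t (h.Lo θ t φ) (h.Up (y • F.b) θ t φ) m (fun l => S l - F.al θ)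
      (fun l => R l - F.al θ) (fun l => h.iL (S l) θ t φ) (fun l => h.iU (y • F.b) (R l) θ t φ) where
  lt l hl := by have := hlt l hl; linarith
  pos l _ := isPos_iL h (S l) θ t φ
  pos' l _ := isPos_iU h y (R l) θ t φ
  ne l hl := by
    have h1 := hw l hl
    have hκ := h.κ_nonneg
    rw [lane_eq_rg]
    refine hR (Icc (S l) (R l)) (S l + C) (S l + C) θ t φ _ _ ?_ ?_ ?_
    · rw [min_self, max_self]
      exact Icc_subset_Icc (by linarith) (by linarith)
    · exact M192.iL_mono h (by linarith) θ t φ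
    · exact M192.iU_mono h (y • F.b) (by linarith) θ t φ

/-- the lower bound of a family of cells in terms of `sk` -/
lemma famLB_eq (h : Hwy F) (y L : ℝ) (m : ℕ) (S R : ℕ → ℝ) (θ : ℝ × ℝ) (t : Environment)
    (φ : ℝ × ℝ) :
    famLB (frame F) h.κ t (h.Lo θ t φ) (h.Up (y • F.b) θ t φ) (h.iL (-L) θ t φ)
      (h.iU (y • F.b) L θ t φ) m (fun l => S l - F.al θ) (fun l => R l - F.al θ)
      (fun l => h.iL (S l) θ t φ) (fun l => h.iU (y • F.b) (R l) θ t φ) =
    ∑ l ∈ Finset.range m, h.sk (y • F.b) (Icc (S l - h.κ - (frame F).esc)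
        (R (l + 1) + h.κ + (frame F).esc)) univ L (S (l + 1)) (R l) θ t φ -
      2 * ∑ l ∈ Finset.range (m + 1), h.sk (y • F.b) (Icc (S l) (R l)) univ L (S l) (R l)
        θ t φ := by
  unfold famLB
  congr 1
  · refine Finset.sum_congr rfl fun l _ => ?_
    rw [← sh_eq_sk, ← lane_eq_rg]
    have e1 : S l - F.al θ - h.κ - (frame F).esc = S l - h.κ - (frame F).esc - F.al θ := by ring
    have e2 : R (l + 1) - F.al θ + h.κ + (frame F).esc =
        R (l + 1) + h.κ + (frame F).esc - F.al θ := by ring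
    simp only
    rw [e1, e2]
  · congr 1
    refine Finset.sum_congr rfl fun l _ => ?_
    rw [← sh_eq_sk, ← lane_eq_rg]

/-! ### The fields `window` and `lane` -/

/-- the slack conditions used by the planar fields -/
structure Slack (h : Hwy F) (W c : ℝ) : Prop where
  gt : (frame F).esc + h.κ < c
  stp : (frame F).stp ≤ c
  small : 4 * c ≤ 1 / 32 * W

section fields

variable {W L y l c δ v C : ℝ} {T : Set (Row (ℝ × ℝ))}
  (hO : RowOK h W L y l c δ v C) (hs : Slack h W c)
include hO hs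

/-- `cross` is below the lower bound of the family of fences -/
lemma cross_le (x : ℝ) (m : ℕ) (q : Row (ℝ × ℝ)) :
    (rowA h W L y l c δ T).cross x m q ≤
      famLB (frame F) h.κ (pe q.1.2) (h.Lo q.1.1 (pe q.1.2) q.2)
        (h.Up (y • F.b) q.1.1 (pe q.1.2) q.2) (h.iL (-L) q.1.1 (pe q.1.2) q.2)
        (h.iU (y • F.b) L q.1.1 (pe q.1.2) q.2) m
        (fun l => (x + 3 * l / 16) * W + c - F.al q.1.1)
        (fun l => (x + 3 * l / 16 + 1 / 32) * W - c - F.al q.1.1)
        (fun l => h.iL ((x + 3 * l / 16) * W + c) q.1.1 (pe q.1.2) q.2)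
        (fun l => h.iU (y • F.b) ((x + 3 * l / 16 + 1 / 32) * W - c) q.1.1 (pe q.1.2) q.2) / l := by
  have e := famLB_eq h y L m (fun l => (x + 3 * l / 16) * W + c)
    (fun l => (x + 3 * l / 16 + 1 / 32) * W - c) q.1.1 (pe q.1.2) q.2
  rw [e]
  have hl := hO.l_pos
  have hC := hO.C_nonneg
  have hκ := h.κ_nonneg
  have hcg := hO.c_ge
  have hesc := (frame F).esc_nonneg
  have h1 := hs.gt
  have h2 := hs.small
  unfold E191.RowA.cross
  rw [sub_div, Finset.sum_div, mul_div_assoc, Finset.sum_div]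
  refine sub_le_sub ?_ (mul_le_mul_of_nonneg_left ?_ (by norm_num))
  · refine Finset.sum_le_sum fun k _ => ?_
    refine div_le_div_of_nonneg_right ?_ hl.le
    have e1 : (x + 3 * ((k + 1 : ℕ) : ℝ) / 16) * W + c =
        (x + 3 * (k : ℝ) / 16 + 6 / 32) * W + c := by push_cast; ring
    have e2 : (x + 3 * ((k + 1 : ℕ) : ℝ) / 16 + 1 / 32) * W - c =
        (x + 3 * (k : ℝ) / 16 + 7 / 32) * W - c := by push_cast; ring
    rw [e1, e2]
    set x' := x + 3 * (k : ℝ) / 16 with hx'
    have e3 : (x' + 6 / 32) * W = x' * W + 6 / 32 * W := by ring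
    have e4 : (x' + 7 / 32) * W = x' * W + 7 / 32 * W := by ring
    have e5 : (x' + 1 / 32) * W = x' * W + 1 / 32 * W := by ring
    refine sk_le_sk hO.routable (Icc_subset_Icc ?_ ?_) ?_ ?_
      (σ₁ := (x' + 6 / 32) * W + c + C) (σ₂ := (x' + 1 / 32) * W - c - C - h.κ)
      (Icc_subset_Icc ?_ ?_) (by linarith) (by linarith) (pe_nn _) _
    · linarith
    · linarith
    · linarith
    · linarith
    · rw [le_sub_iff_add_le, le_min_iff]
      constructor <;> rw [e3] at * <;> rw [e5] at * <;> linarith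
    · rw [← le_sub_iff_add_le, max_le_iff]
      constructor <;> rw [e4] at * <;> linarith
  · refine Finset.sum_le_sum fun k _ => ?_
    set x' := x + 3 * (k : ℝ) / 16 with hx'
    have : (rowA h W L y l c δ T).F (1 / 32) x' q =
        skp h y l L (Icc (x' * W + c) ((x' + 1 / 32) * W - c)) (x' * W + c)
          ((x' + 1 / 32) * W - c) q := by
      exact if_pos ⟨h2, by norm_num⟩
    rw [this]
    exact le_rfl

/-- the family of fences of `cross x m` -/
lemma fam_cross (x : ℝ) (m : ℕ) (θ : ℝ × ℝ) (t : Environment) (φ : ℝ × ℝ) :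
    FenceFam (frame F) h.κ t (h.Lo θ t φ) (h.Up (y • F.b) θ t φ) m
      (fun l => (x + 3 * l / 16) * W + c - F.al θ)
      (fun l => (x + 3 * l / 16 + 1 / 32) * W - c - F.al θ)
      (fun l => h.iL ((x + 3 * l / 16) * W + c) θ t φ)
      (fun l => h.iU (y • F.b) ((x + 3 * l / 16 + 1 / 32) * W - c) θ t φ) := by
  have hW := hO.W_pos
  have hC := hO.C_nonneg
  have hκ := h.κ_nonneg
  have hcg := hO.c_ge
  have hesc := (frame F).esc_nonneg
  have h1 := hs.gt
  have h2 := hs.small
  refine fenceFam_of (S := fun l => (x + 3 * l / 16) * W + c)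
    (R := fun l => (x + 3 * l / 16 + 1 / 32) * W - c) hO.routable (fun k _ => ?_)
    (fun k _ => ?_) θ t φ
  · push_cast
    nlinarith
  · have e5 : (x + 3 * (k : ℝ) / 16 + 1 / 32) * W = (x + 3 * (k : ℝ) / 16) * W + 1 / 32 * W := by
      ring
    rw [e5]
    linarith

/-- **field `window`** -/
theorem window_rowA (q : Row (ℝ × ℝ)) (s t x : ℝ) (m : ℕ) (hs' : |s| ≤ v) (ht : |t| ≤ v)
    (htx : t ≤ x) (hxs : x + 3 * m / 16 + 1 / 32 ≤ s) :
    (rowA h W L y l c δ T).cross x m q ≤ (rowA h W L y l c δ T).K s t q := by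
  have hW := hO.W_pos
  have hC := hO.C_nonneg
  have hκ := h.κ_nonneg
  have hcg := hO.c_ge
  have hesc := (frame F).esc_nonneg
  have g1 := hs.gt
  have g2 := hs.small
  have g3 := hs.stp
  have hl := hO.l_pos
  rw [abs_le] at hs' ht
  have a1 := hO.lab (x := s) (by rw [abs_le]; constructor <;> linarith)
  have a2 := hO.lab (x := t) (by rw [abs_le]; constructor <;> linarith)
  have b1 : t * W ≤ x * W := mul_le_mul_of_nonneg_right htx hW.le
  have b2 : (x + 3 * m / 16 + 1 / 32) * W ≤ s * W := mul_le_mul_of_nonneg_right hxs hW.le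
  refine (cross_le hO hs x m q).trans ?_
  show _ ≤ skp h y l L univ (s * W) (t * W) q
  unfold skp
  refine div_le_div_of_nonneg_right ?_ hl.le
  have hd : h.wH < F.be (y • F.b) := by rw [be_smul_b]; exact hO.wH_lt
  have key := window_fam (strip_Lo h q.1.1 (pe q.1.2) q.2)
    (strip_Up h (y • F.b) q.1.1 (pe q.1.2) q.2) (h.strips_lt hd q.1.1)
    (back_Lo h q.1.1 (pe q.1.2) q.2) (back_Up h (y • F.b) q.1.1 (pe q.1.2) q.2)
    (pe_nn _) (fam_cross hO hs x m q.1.1 (pe q.1.2) q.2)
    (isPos_iL h (-L) q.1.1 (pe q.1.2) q.2) (isPos_iU h y L q.1.1 (pe q.1.2) q.2)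
    (fun k hk => ?_) (fun k hk => ?_)
    (isPos_iL h (s * W) q.1.1 (pe q.1.2) q.2) (isPos_iU h y (t * W) q.1.1 (pe q.1.2) q.2)
    (by linarith) (by linarith) ?_ ?_ (A := rg F univ q.1.1) ?_
  · rw [sh_eq_sk] at key
    exact key
  · have hk' : (0 : ℝ) ≤ 3 * k / 16 * W := by positivity
    have e : (x + 3 * (k : ℝ) / 16) * W = x * W + 3 * k / 16 * W := by ring
    rw [e]; linarith
  · have hk' : (3 * (k : ℝ) / 16 * W) ≤ 3 * m / 16 * W := by
      have : (k : ℝ) ≤ m := by exact_mod_cast hk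
      have := mul_le_mul_of_nonneg_right this hW.le
      linarith
    have e : (x + 3 * (k : ℝ) / 16 + 1 / 32) * W = (x + 1 / 32) * W + 3 * k / 16 * W := by ring
    have e' : (x + 3 * (m : ℝ) / 16 + 1 / 32) * W = (x + 1 / 32) * W + 3 * m / 16 * W := by ring
    rw [e]; rw [e'] at b2; linarith
  · linarith
  · have e : (x + 3 * ((0 : ℕ) : ℝ) / 16) * W = x * W := by push_cast; ring
    rw [e]; linarith
  · exact hO.routable univ (s * W + C) (t * W - C - h.κ) _ _ _ _ _ (subset_univ _)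
      (M192.iL_mono h (by linarith) _ _ _) (M192.iU_mono h _ (by linarith) _ _ _)

/-- **exit inequality through `m` cells**: an (almost) optimal crossing `s → t` stays in
`lL ≤ al ≤ lR`, or crosses leftwards the `m` cells from `xR`, or the `m` cells from `xL`. -/
theorem exit_rowA (q : Row (ℝ × ℝ)) (s t xL xR lL lR : ℝ) {m : ℕ} (hm : 1 ≤ m)
    (htx : t ≤ xR) (hxs : xL + 3 * m / 16 + 1 / 32 ≤ s) (hlL : lL ≤ xL * W)
    (hlR : (xR + 3 * m / 16 + 1 / 32) * W ≤ lR) (hLL : -L ≤ xL * W) (hLs : -L ≤ t * W)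
    (hLR : (xR + 3 * m / 16 + 1 / 32) * W ≤ L) (hLt : s * W ≤ L) :
    min (skp h y l L (Icc lL lR) (s * W) (t * W) q)
      (min ((rowA h W L y l c δ T).cross xR m q) ((rowA h W L y l c δ T).cross xL m q)) ≤
      (rowA h W L y l c δ T).K s t q := by
  have hW := hO.W_pos
  have hC := hO.C_nonneg
  have hκ := h.κ_nonneg
  have hcg := hO.c_ge
  have hesc := (frame F).esc_nonneg
  have g1 := hs.gt
  have g2 := hs.small
  have g3 := hs.stp
  have hl := hO.l_pos
  have b1 : t * W ≤ xR * W := mul_le_mul_of_nonneg_right htx hW.le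
  have b2 : (xL + 3 * m / 16 + 1 / 32) * W ≤ s * W := mul_le_mul_of_nonneg_right hxs hW.le
  have hmW : 0 ≤ 3 * (m : ℝ) / 16 * W := by positivity
  have eL : (xL + 3 * (m : ℝ) / 16 + 1 / 32) * W = xL * W + 3 * m / 16 * W + 1 / 32 * W := by ring
  have eR : (xR + 3 * (m : ℝ) / 16 + 1 / 32) * W = xR * W + 3 * m / 16 * W + 1 / 32 * W := by ring
  rw [eL] at b2
  rw [eR] at hlR hLR
  have hd : h.wH < F.be (y • F.b) := by rw [be_smul_b]; exact hO.wH_lt
  have hne : (routes (pe q.1.2) (h.Lo q.1.1 (pe q.1.2) q.2) (h.Up (y • F.b) q.1.1 (pe q.1.2) q.2)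
      (rg F univ q.1.1) (h.iL (s * W) q.1.1 (pe q.1.2) q.2)
      (h.iU (y • F.b) (t * W) q.1.1 (pe q.1.2) q.2)).Nonempty :=
    hO.routable univ (s * W + C) (t * W - C - h.κ) _ _ _ _ _ (subset_univ _)
      (M192.iL_mono h (by linarith) _ _ _) (M192.iU_mono h _ (by linarith) _ _ _)
  have hreg : rg F univ q.1.1 ∩ (frame F).lane (lL - F.al q.1.1) (lR - F.al q.1.1) =
      rg F (Icc lL lR) q.1.1 := by
    rw [rg_univ, univ_inter, lane_eq_rg]
  by_cases hex : hull (pe q.1.2) (h.Lo q.1.1 (pe q.1.2) q.2)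
      (h.Up (y • F.b) q.1.1 (pe q.1.2) q.2) (rg F univ q.1.1)
      (h.iL (s * W) q.1.1 (pe q.1.2) q.2) (h.iU (y • F.b) (t * W) q.1.1 (pe q.1.2) q.2) <
      hull (pe q.1.2) (h.Lo q.1.1 (pe q.1.2) q.2)
      (h.Up (y • F.b) q.1.1 (pe q.1.2) q.2)
      (rg F univ q.1.1 ∩ (frame F).lane (lL - F.al q.1.1) (lR - F.al q.1.1))
      (h.iL (s * W) q.1.1 (pe q.1.2) q.2) (h.iU (y • F.b) (t * W) q.1.1 (pe q.1.2) q.2)
  · have hk1 : ∀ k : ℕ, k ≤ m → (0 : ℝ) ≤ 3 * k / 16 * W := fun k _ => by positivity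
    have hk2 : ∀ k : ℕ, k ≤ m → (3 * (k : ℝ) / 16 * W) ≤ 3 * m / 16 * W := fun k hk => by
      have : (k : ℝ) ≤ m := by exact_mod_cast hk
      have := mul_le_mul_of_nonneg_right this hW.le
      linarith
    have e1 : ∀ (x : ℝ) (k : ℕ), (x + 3 * (k : ℝ) / 16) * W = x * W + 3 * k / 16 * W :=
      fun x k => by ring
    have e2 : ∀ (x : ℝ) (k : ℕ), (x + 3 * (k : ℝ) / 16 + 1 / 32) * W =
        x * W + 3 * k / 16 * W + 1 / 32 * W := fun x k => by ring
    have key := exit_fam (strip_Lo h q.1.1 (pe q.1.2) q.2)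
      (strip_Up h (y • F.b) q.1.1 (pe q.1.2) q.2) (h.strips_lt hd q.1.1)
      (back_Lo h q.1.1 (pe q.1.2) q.2) (back_Up h (y • F.b) q.1.1 (pe q.1.2) q.2)
      (pe_nn _) hm (fam_cross hO hs xL m q.1.1 (pe q.1.2) q.2)
      (fam_cross hO hs xR m q.1.1 (pe q.1.2) q.2)
      (lL := lL - F.al q.1.1) (lR := lR - F.al q.1.1)
      (isPos_iL h (-L) q.1.1 (pe q.1.2) q.2) (isPos_iU h y L q.1.1 (pe q.1.2) q.2)
      (isPos_iL h (s * W) q.1.1 (pe q.1.2) q.2) (isPos_iU h y (t * W) q.1.1 (pe q.1.2) q.2)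
      (fun k hk => by
        have := hk1 k hk; rw [e1]; linarith)
      (by linarith)
      (fun k hk => by
        have := hk1 k hk; rw [e1]; linarith)
      (fun k hk => by
        have := hk2 k hk; rw [e2]; linarith)
      (fun k hk => by
        have := hk2 k hk; rw [e2]; linarith)
      (by linarith)
      (by rw [e2]; linarith)
      (by
        have e0 : (xR + 3 * ((0 : ℕ) : ℝ) / 16) * W = xR * W := by push_cast; ring
        rw [e0]; linarith)
      (by
        have e0 : (xL + 3 * ((0 : ℕ) : ℝ) / 16) * W = xL * W := by push_cast; ring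
        rw [e0]; linarith)
      (by rw [e2]; linarith) hne hex
    rw [sh_eq_sk] at key
    rcases key with key | key
    · refine (min_le_right _ _).trans ((min_le_right _ _).trans ?_)
      refine (cross_le hO hs xL m q).trans ?_
      show _ ≤ skp h y l L univ (s * W) (t * W) q
      unfold skp
      exact div_le_div_of_nonneg_right key hl.le
    · refine (min_le_right _ _).trans ((min_le_left _ _).trans ?_)
      refine (cross_le hO hs xR m q).trans ?_
      show _ ≤ skp h y l L univ (s * W) (t * W) q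
      unfold skp
      exact div_le_div_of_nonneg_right key hl.le
  · push Not at hex
    rw [hreg] at hex
    refine (min_le_left _ _).trans ?_
    show _ ≤ skp h y l L univ (s * W) (t * W) q
    unfold skp Hwy.sk Hwy.hk
    refine div_le_div_of_nonneg_right ?_ hl.le
    linarith

/-- **field `lane`** -/
theorem lane_rowA (hδ : δ ≤ 1 / 160) (q : Row (ℝ × ℝ)) (x : ℝ) (hx1 : -(1 / 16) ≤ x)
    (hx2 : x < 1 / 8) :
    min ((rowA h W L y l c δ T).KL x q) (min ((rowA h W L y l c δ T).cross (5 / 32) 1 q)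
      ((rowA h W L y l c δ T).cross (-(11 / 32)) 1 q)) ≤
      (rowA h W L y l c δ T).K x (x + 5 * δ) q := by
  have hW := hO.W_pos
  have hL := hO.L_ge
  have hv := hO.v_ge
  have hvW : 2 * W ≤ (v + 1) * W := mul_le_mul_of_nonneg_right (by linarith) hW.le
  have hδ0 := hO.δ_nonneg
  have b1 : -(1 / 16) * W ≤ x * W := mul_le_mul_of_nonneg_right hx1 hW.le
  have b2 : x * W ≤ 1 / 8 * W := mul_le_mul_of_nonneg_right hx2.le hW.le
  have b3 : 0 ≤ 5 * δ * W := by positivity
  have e : (x + 5 * δ) * W = x * W + 5 * δ * W := by ring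
  refine exit_rowA (T := T) hO hs q x (x + 5 * δ) (-(11 / 32)) (5 / 32) (-(7 / 16 * W))
    (7 / 16 * W) (m := 1) le_rfl (by linarith) (by push_cast; linarith) (by linarith)
    (by push_cast; linarith) (by linarith) (by rw [e]; linarith) (by push_cast; linarith)
    (by linarith)

end fields

end Crest.Agent.R151.R78
end

-- ▼ part R151/R78Q

/-!
# R151/R78Q — the planar fields of `c.rowA T` for configurations, in `Ev` form (owner helper78)
-/

set_option autoImplicit false

open MeasureTheory Filter ProbabilityTheory Topology Set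
open Crest.ProbabilityR.FirstPassage

namespace Crest.Agent.R151.R78

open Crest.Agent.R151.K Crest.Agent.R151.NF
open Q (Hwy)
open B710 (FlatData)
open M192 (RowOK Row skp frame)
open M56 (mg one_le_mg)

variable {μ : ℝ × ℝ → ℝ}

/-- the slack conditions hold eventually, `δ ≤ 1/160`, and the row conditions hold for every range
`V n δ v e` of the positions -/
theorem ev_slack (G : Measure ℝ) (F : FlatData μ) (w0 c0 : ℝ) {K : ℝ} (hK : 0 ≤ K)
    (V : ℕ → ℝ → ℝ → ℝ → ℝ) :
    Ev fun p => ∀ c : Cf G F w0 c0 K p, Slack c.h p.W c.sl ∧ p.δ ≤ 1 / 160 ∧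
      (1 ≤ V p.n p.δ p.v p.e →
        RowOK c.h p.W c.L c.yA c.l c.sl p.δ (V p.n p.δ p.v p.e) (mg F + 1)) := by
  refine (((((ev_soft G F w0 c0 hK).and (le_w ((frame F).esc + (frame F).stp + 1))).and
    (le_δ0 fun _ _ _ _ _ _ => 128 * (K + 1))).and (le_δ fun _ => 160)).and
    ((le_L fun n δ v e => V n δ v e + 1).and (ev_std (G := G) (F := F) (w0 := w0) (c0 := c0)
      (K := K)))).mono ?_
  rintro p ⟨⟨⟨⟨h1, h2⟩, h3⟩, h4⟩, h5, h6⟩ c
  have hs := h6 c
  have hp := hs.toStd
  have hW : 0 < p.W := zero_lt_one.trans_le hp.W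
  have hd : 0 < p.δ0 * p.W := mul_pos hp.δ0_pos hW
  have hesc := (frame F).esc_nonneg
  have hstp : 0 ≤ (frame F).stp := by unfold Frame.stp; positivity
  have hκ := c.κ_le
  have hKd : 0 ≤ K * (p.δ0 * p.W) := mul_nonneg hK hd.le
  have hsl : c.sl = (K + 1) * (p.δ0 * p.W) := rfl
  have hsm : 128 * (K + 1) * p.δ0 * p.W ≤ 1 * p.W := mul_le_mul_of_nonneg_right h3 hW.le
  have hok := (h1 c).ok
  refine ⟨⟨?_, ?_, ?_⟩, by linarith, fun hV => ?_⟩
  · rw [hsl]; linarith
  · rw [hsl]; linarith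
  · rw [hsl]; linarith
  · exact
      { W_pos := hok.W_pos
        l_pos := hok.l_pos
        wH_lt := hok.wH_lt
        C_nonneg := hok.C_nonneg
        routable := hok.routable
        c_ge := hok.c_ge
        L_ge := h5
        v_ge := hV
        δ_nonneg := hok.δ_nonneg
        δ_le := hok.δ_le
        small := hok.small }

/-- **the fields `window` and `lane` of `(c.rowA T).Law`**, for every `T` and all `ω`, positions up to
`V n δ v e` -/
theorem ev_planar (G : Measure ℝ) (F : FlatData μ) (w0 c0 : ℝ) {K : ℝ} (hK : 0 ≤ K)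
    (V : ℕ → ℝ → ℝ → ℝ → ℝ) :
    Ev fun p => ∀ c : Cf G F w0 c0 K p, ∀ T : Set (Row (ℝ × ℝ)),
      (∀ (q : Row (ℝ × ℝ)) (s t x : ℝ) (m : ℕ), |s| ≤ V p.n p.δ p.v p.e →
        |t| ≤ V p.n p.δ p.v p.e → t ≤ x → x + 3 * m / 16 + 1 / 32 ≤ s →
        (c.rowA T).cross x m q ≤ (c.rowA T).K s t q) ∧
      (∀ (q : Row (ℝ × ℝ)) (x : ℝ), -(1 / 16) ≤ x → x < 1 / 8 →
        min ((c.rowA T).KL x q) (min ((c.rowA T).cross (5 / 32) 1 q)
          ((c.rowA T).cross (-(11 / 32)) 1 q)) ≤ (c.rowA T).K x (x + 5 * p.δ) q) := by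
  refine (ev_slack G F w0 c0 hK fun n δ v e => max 1 (V n δ v e)).mono ?_
  rintro p h c T
  obtain ⟨h1, h2, h3⟩ := h c
  have hO := h3 (le_max_left _ _)
  constructor
  · intro q s t x m hs ht htx hxs
    exact window_rowA hO h1 q s t x m (hs.trans (le_max_right _ _)) (ht.trans (le_max_right _ _))
      htx hxs
  · intro q x hx1 hx2
    exact lane_rowA hO h1 h2 q x hx1 hx2

/-- **exit inequality through `m ≥ 1` cells** for configurations: for `Λ ≤ V W`,
`min (window cost) (min (cross xR m) (cross xL m)) ≤ K s t`. -/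
theorem ev_exit (G : Measure ℝ) (F : FlatData μ) (w0 c0 : ℝ) {K : ℝ} (hK : 0 ≤ K)
    (V : ℕ → ℝ → ℝ → ℝ → ℝ) :
    Ev fun p => ∀ c : Cf G F w0 c0 K p, ∀ T : Set (Row (ℝ × ℝ)),
      ∀ (q : Row (ℝ × ℝ)) (s t xL xR lam : ℝ) (m : ℕ), 1 ≤ m → lam ≤ V p.n p.δ p.v p.e →
        t ≤ xR → xR + 3 * m / 16 + 1 / 32 ≤ lam → -lam ≤ xL → xL + 3 * m / 16 + 1 / 32 ≤ s →
        s ≤ lam → -lam ≤ t →
        min (skp c.h c.yA c.l c.L (Icc (-(lam * p.W)) (lam * p.W)) (s * p.W) (t * p.W) q)
          (min ((c.rowA T).cross xR m q) ((c.rowA T).cross xL m q)) ≤ (c.rowA T).K s t q := by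
  refine (ev_slack G F w0 c0 hK fun n δ v e => max 1 (V n δ v e)).mono ?_
  rintro p h c T q s t xL xR lam m hm hlam h4 h5 h6 h7 h8 h9
  obtain ⟨h1, h2, h3⟩ := h c
  have hO := h3 (le_max_left _ _)
  have hW := hO.W_pos
  have hlL : lam * p.W ≤ c.L := by
    have a1 := hO.L_ge
    have a2 : lam ≤ max 1 (V p.n p.δ p.v p.e) + 1 := by
      have := le_max_right 1 (V p.n p.δ p.v p.e)
      linarith
    exact (mul_le_mul_of_nonneg_right a2 hW.le).trans a1
  have e1 := mul_le_mul_of_nonneg_right h5 hW.le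
  have e2 := mul_le_mul_of_nonneg_right h6 hW.le
  have e3 := mul_le_mul_of_nonneg_right h8 hW.le
  have e4 := mul_le_mul_of_nonneg_right h9 hW.le
  exact exit_rowA (T := T) hO h1 q s t xL xR (-(lam * p.W)) (lam * p.W) hm h4 h7
    (by linarith) e1 (by linarith) (by linarith) (by linarith) (by linarith)

end Crest.Agent.R151.R78
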