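import Crest.Agent.R151.Q3
import Crest.Agent.R151.K5
import Crest.Agent.R151.R78A

-- ▼ part R151/U450a
section

/-!
# R151/U450a — deterministic geometry of the lanes: chain walks, band connections (owner helper450)

Positions: `pos θ z = toR z + θ`; nodes: `nr (θ - p)` is a vertex at position `p` up to `1/2`.
`GG F` : a constant dominating the geometry of the flat data.
-/

set_option autoImplicit false

open MeasureTheory Filter ProbabilityTheory Topology
open Crest.ProbabilityR.FirstPassage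
open Crest.Agent.R151.K
open Crest.Agent.R151.Q

namespace Crest.Agent.R151.U450

open B710 (FlatData)

variable {μ : ℝ × ℝ → ℝ}

/-! ### Positions and nodes -/

lemma pos_sub (θ : ℝ × ℝ) (z z' : ℤ × ℤ) : pos θ z - pos θ z' = toR z - toR z' := by
  unfold pos; abel


lemma norm_le_of {v : ℝ × ℝ} {c : ℝ} (h1 : |v.1| ≤ c) (h2 : |v.2| ≤ c) : ‖v‖ ≤ c := by
  rw [Prod.norm_def]
  exact max_le (by rwa [Real.norm_eq_abs]) (by rwa [Real.norm_eq_abs])

lemma abs_fst_le (v : ℝ × ℝ) : |v.1| ≤ ‖v‖ := by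
  rw [← Real.norm_eq_abs]; exact norm_fst_le v

lemma abs_snd_le (v : ℝ × ℝ) : |v.2| ≤ ‖v‖ := by
  rw [← Real.norm_eq_abs]; exact norm_snd_le v

/-- the node `nr (θ - p)` is at distance at most `1/2` from `p` -/
lemma norm_pos_nr (θ p : ℝ × ℝ) : ‖pos θ (nr (θ - p)) - p‖ ≤ 1 / 2 := by
  have h1 := abs_sub_round (θ.1 - p.1)
  have h2 := abs_sub_round (θ.2 - p.2)
  refine norm_le_of ?_ ?_
  · simp only [pos, nr, toR, Prod.fst_add, Prod.fst_sub]
    push_cast
    rw [show -(round (θ.1 - p.1) : ℝ) + θ.1 - p.1 = θ.1 - p.1 - round (θ.1 - p.1) by ring]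
    exact h1
  · simp only [pos, nr, toR, Prod.snd_add, Prod.snd_sub]
    push_cast
    rw [show -(round (θ.2 - p.2) : ℝ) + θ.2 - p.2 = θ.2 - p.2 - round (θ.2 - p.2) by ring]
    exact h2

lemma nr_pos (θ : ℝ × ℝ) (z : ℤ × ℤ) : nr (θ - pos θ z) = z := by
  unfold nr pos toR
  simp only [Prod.fst_sub, Prod.fst_add, Prod.snd_sub, Prod.snd_add]
  rw [show θ.1 - ((z.1 : ℝ) + θ.1) = ((-z.1 : ℤ) : ℝ) by push_cast; ring,
    show θ.2 - ((z.2 : ℝ) + θ.2) = ((-z.2 : ℤ) : ℝ) by push_cast; ring, round_intCast,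
    round_intCast, neg_neg, neg_neg]

lemma nr_add (θ : ℝ × ℝ) (m : ℤ × ℤ) : nr (θ + toR m) = nr θ - m := by
  unfold nr toR
  simp only [Prod.fst_add, Prod.snd_add, round_add_intCast]
  ext <;> simp <;> ring

/-! ### Lattice steps -/

lemma norm_adj {x y : ℤ × ℤ} (h : squareLattice.Adj x y) : ‖toR y - toR x‖ ≤ 1 := by
  obtain ⟨d, rfl⟩ := exists_dir h
  rw [show toR (x + dir d) - toR x = toR (dir d) by rw [toR_add]; abel]
  fin_cases d <;> simp [dir, toR, Prod.norm_def]

/-! ### L-shaped walks -/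

lemma exists_row_walk (a b c : ℤ) : ∃ w : squareLattice.Walk (a, b) (c, b),
    ∀ z ∈ w.support, z.2 = b ∧ |z.1 - a| ≤ |c - a| := by
  have key : ∀ (n : ℕ) (a : ℤ), ∃ w : squareLattice.Walk (a, b) (a + n, b),
      ∀ z ∈ w.support, z.2 = b ∧ a ≤ z.1 ∧ z.1 ≤ a + n := by
    intro n
    induction n with
    | zero =>
      intro a
      refine ⟨(SimpleGraph.Walk.nil : squareLattice.Walk (a, b) (a, b)).copy rfl (by simp), ?_⟩
      intro z hz
      simp only [SimpleGraph.Walk.support_copy, SimpleGraph.Walk.support_nil,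
        List.mem_singleton] at hz
      subst hz
      simp
    | succ n ih =>
      intro a
      obtain ⟨w, hw⟩ := ih a
      refine ⟨(w.append (SimpleGraph.Walk.cons (adj_right (a + n) b)
        SimpleGraph.Walk.nil)).copy rfl (by push_cast; ring_nf), ?_⟩
      intro z hz
      simp only [SimpleGraph.Walk.support_copy, SimpleGraph.Walk.mem_support_append_iff,
        SimpleGraph.Walk.support_cons, SimpleGraph.Walk.support_nil, List.mem_cons,
        List.not_mem_nil, or_false] at hz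
      rcases hz with hz | rfl | rfl
      · obtain ⟨h1, h2, h3⟩ := hw z hz
        exact ⟨h1, h2, by push_cast; omega⟩
      · exact ⟨rfl, by simp, by push_cast; omega⟩
      · exact ⟨rfl, by simp; omega, by push_cast; omega⟩
  rcases le_total a c with h | h
  · obtain ⟨w, hw⟩ := key (c - a).toNat a
    refine ⟨w.copy rfl (by rw [Int.toNat_of_nonneg (by omega), add_sub_cancel]), ?_⟩
    intro z hz
    rw [SimpleGraph.Walk.support_copy] at hz
    obtain ⟨h1, h2, h3⟩ := hw z hz
    rw [Int.toNat_of_nonneg (by omega)] at h3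
    refine ⟨h1, ?_⟩
    rw [abs_of_nonneg (by omega), abs_of_nonneg (by omega)]
    omega
  · obtain ⟨w, hw⟩ := key (a - c).toNat c
    refine ⟨(w.copy rfl (by rw [Int.toNat_of_nonneg (by omega), add_sub_cancel])).reverse, ?_⟩
    intro z hz
    rw [SimpleGraph.Walk.support_reverse, List.mem_reverse, SimpleGraph.Walk.support_copy] at hz
    obtain ⟨h1, h2, h3⟩ := hw z hz
    rw [Int.toNat_of_nonneg (by omega)] at h3
    refine ⟨h1, ?_⟩
    rw [abs_of_nonpos (by omega), abs_of_nonpos (by omega)]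
    omega

lemma exists_col_walk (a b d : ℤ) : ∃ w : squareLattice.Walk (a, b) (a, d),
    ∀ z ∈ w.support, z.1 = a ∧ |z.2 - b| ≤ |d - b| := by
  obtain ⟨w, hw⟩ := exists_row_walk b a d
  have e1 : sw.toHom (b, a) = (a, b) := rfl
  have e2 : sw.toHom (d, a) = (a, d) := rfl
  refine ⟨(w.map sw.toHom).copy e1 e2, ?_⟩
  intro z hz
  rw [SimpleGraph.Walk.support_copy, SimpleGraph.Walk.support_map, List.mem_map] at hz
  obtain ⟨u, hu, rfl⟩ := hz
  exact hw u hu

/-- an L-shaped walk: all vertices within `‖y - x‖` of `x` -/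
lemma exists_L (x y : ℤ × ℤ) : ∃ w : squareLattice.Walk x y,
    ∀ z ∈ w.support, ‖toR z - toR x‖ ≤ ‖toR y - toR x‖ := by
  obtain ⟨a, b⟩ := x
  obtain ⟨c, d⟩ := y
  obtain ⟨w1, h1⟩ := exists_row_walk a b c
  obtain ⟨w2, h2⟩ := exists_col_walk c b d
  have e1 : |(c : ℝ) - a| ≤ ‖toR (c, d) - toR (a, b)‖ := by
    exact abs_fst_le (toR (c, d) - toR (a, b))
  have e2 : |(d : ℝ) - b| ≤ ‖toR (c, d) - toR (a, b)‖ := by
    exact abs_snd_le (toR (c, d) - toR (a, b))
  refine ⟨w1.append w2, ?_⟩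
  intro z hz
  rw [SimpleGraph.Walk.mem_support_append_iff] at hz
  rcases hz with hz | hz
  · obtain ⟨h3, h4⟩ := h1 z hz
    refine norm_le_of ?_ ?_
    · simp only [toR, Prod.fst_sub] at e1 ⊢
      refine le_trans ?_ e1
      exact_mod_cast h4
    · simp only [toR, Prod.snd_sub, h3, sub_self, abs_zero]
      exact norm_nonneg _
  · obtain ⟨h3, h4⟩ := h2 z hz
    refine norm_le_of ?_ ?_
    · simp only [toR, Prod.fst_sub, h3] at e1 ⊢
      exact e1
    · simp only [toR, Prod.snd_sub] at e2 ⊢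
      refine le_trans ?_ e2
      exact_mod_cast h4

/-! ### Chain walks -/

/-- A walk following the points `p + j v`, `j ≤ n`: every vertex is within `5/2` of one of the
points, and the walk does not backtrack by more than `5 C` for every functional `ℓ` of norm at most
`C` which is nonnegative at `v`. -/
lemma chain_walk (θ p v : ℝ × ℝ) (hv : ‖v‖ ≤ 1) (n : ℕ) :
    ∃ w : squareLattice.Walk (nr (θ - p)) (nr (θ - (p + (n : ℝ) • v))),
      (∀ z ∈ w.support, ∃ j : ℕ, j ≤ n ∧ ‖pos θ z - (p + (j : ℝ) • v)‖ ≤ 5 / 2) ∧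
      ∀ (ℓ : ℝ × ℝ →L[ℝ] ℝ) (C : ℝ), (∀ u, |ℓ u| ≤ C * ‖u‖) → 0 ≤ ℓ v →
        w.support.Pairwise fun a b => ℓ (pos θ a) ≤ ℓ (pos θ b) + 5 * C := by
  induction n with
  | zero =>
    refine ⟨(SimpleGraph.Walk.nil : squareLattice.Walk (nr (θ - p)) (nr (θ - p))).copy rfl
      (by simp), ?_, ?_⟩
    · intro z hz
      simp only [SimpleGraph.Walk.support_copy, SimpleGraph.Walk.support_nil,
        List.mem_singleton] at hz
      subst hz
      refine ⟨0, le_rfl, ?_⟩
      have := norm_pos_nr θ p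
      simp only [CharP.cast_eq_zero, zero_smul, add_zero]
      linarith
    · intro ℓ C _ _
      simp
  | succ n ih =>
    obtain ⟨q, hq⟩ : ∃ q : ℝ × ℝ, q = p + (n : ℝ) • v := ⟨_, rfl⟩
    rw [← hq] at ih
    obtain ⟨w, h1, h2⟩ := ih
    have hq' : p + ((n + 1 : ℕ) : ℝ) • v = q + v := by
      rw [hq]; push_cast; rw [add_smul, one_smul, add_assoc]
    obtain ⟨w', h3⟩ := exists_L (nr (θ - q)) (nr (θ - (q + v)))
    have hb1 := norm_pos_nr θ q
    have hb2 := norm_pos_nr θ (q + v)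
    have h4 : ∀ z ∈ w'.support, ‖pos θ z - q‖ ≤ 5 / 2 := by
      intro z hz
      have e1 := h3 z hz
      rw [← pos_sub θ, ← pos_sub θ] at e1
      have e2 : ‖pos θ (nr (θ - (q + v))) - pos θ (nr (θ - q))‖ ≤ 2 := by
        have : pos θ (nr (θ - (q + v))) - pos θ (nr (θ - q))
            = (pos θ (nr (θ - (q + v))) - (q + v)) + v - (pos θ (nr (θ - q)) - q) := by abel
        rw [this]
        refine (norm_sub_le _ _).trans ?_
        have := norm_add_le (pos θ (nr (θ - (q + v))) - (q + v)) v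
        linarith
      have e3 : pos θ z - q = (pos θ z - pos θ (nr (θ - q))) + (pos θ (nr (θ - q)) - q) := by abel
      rw [e3]
      refine (norm_add_le _ _).trans ?_
      linarith
    refine ⟨(w.append w').copy rfl (by rw [hq']), ?_, ?_⟩
    · intro z hz
      rw [SimpleGraph.Walk.support_copy, SimpleGraph.Walk.mem_support_append_iff] at hz
      rcases hz with hz | hz
      · obtain ⟨j, hj, hj2⟩ := h1 z hz
        exact ⟨j, by omega, hj2⟩
      · exact ⟨n, by omega, by rw [← hq]; exact h4 z hz⟩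
    · intro ℓ C hC hv0
      have hCz : ∀ (u u' : ℝ × ℝ), ‖u - u'‖ ≤ 5 / 2 → |ℓ u - ℓ u'| ≤ 5 / 2 * C := by
        intro u u' hu
        rw [← map_sub]
        have hC0 : 0 ≤ C := by
          have := hC (1, 0)
          have h5 : ‖((1 : ℝ), (0 : ℝ))‖ = 1 := by simp [Prod.norm_def]
          rw [h5, mul_one] at this
          exact (abs_nonneg _).trans this
        calc |ℓ (u - u')| ≤ C * ‖u - u'‖ := hC _
          _ ≤ C * (5 / 2) := by gcongr
          _ = 5 / 2 * C := by ring
      rw [SimpleGraph.Walk.support_copy, SimpleGraph.Walk.support_append, List.pairwise_append]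
      refine ⟨h2 ℓ C hC hv0, ?_, ?_⟩
      · have hall : ∀ z ∈ w'.support, |ℓ (pos θ z) - ℓ q| ≤ 5 / 2 * C :=
          fun z hz => hCz _ _ (h4 z hz)
        refine List.Pairwise.imp_of_mem (R := fun _ _ => True) ?_ (List.pairwise_of_forall
          fun _ _ => trivial)
        intro a b ha hb _
        have h5 := hall a (List.mem_of_mem_tail ha)
        have h6 := hall b (List.mem_of_mem_tail hb)
        rw [abs_le] at h5 h6
        linarith
      · intro a ha b hb
        obtain ⟨j, hj, hj2⟩ := h1 a ha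
        have h5 := hCz _ _ hj2
        have h6 := hCz _ _ (h4 b (List.mem_of_mem_tail hb))
        have h7 : ℓ (p + (j : ℝ) • v) ≤ ℓ q := by
          rw [hq, map_add, map_add, map_smul, map_smul, smul_eq_mul, smul_eq_mul]
          have : (j : ℝ) ≤ n := by exact_mod_cast hj
          nlinarith
        rw [abs_le] at h5 h6
        linarith

/-- straight walk between two points of the plane, not too long steps -/
lemma seg_walk (θ p q : ℝ × ℝ) :
    ∃ w : squareLattice.Walk (nr (θ - p)) (nr (θ - q)),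
      (∀ z ∈ w.support, ∃ s : ℝ, 0 ≤ s ∧ s ≤ 1 ∧ ‖pos θ z - (p + s • (q - p))‖ ≤ 5 / 2) ∧
      ∀ (ℓ : ℝ × ℝ →L[ℝ] ℝ) (C : ℝ), (∀ u, |ℓ u| ≤ C * ‖u‖) → ℓ p ≤ ℓ q →
        w.support.Pairwise fun a b => ℓ (pos θ a) ≤ ℓ (pos θ b) + 5 * C := by
  obtain ⟨n, hn⟩ := exists_nat_ge ‖q - p‖
  have hn1 : (0 : ℝ) < ((n + 1 : ℕ) : ℝ) := by positivity
  set v : ℝ × ℝ := (((n + 1 : ℕ) : ℝ))⁻¹ • (q - p) with hv
  have hv1 : ‖v‖ ≤ 1 := by
    rw [hv, norm_smul, norm_inv, Real.norm_natCast, inv_mul_le_iff₀ hn1]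
    push_cast
    linarith
  obtain ⟨w, h1, h2⟩ := chain_walk θ p v hv1 (n + 1)
  have hend : p + ((n + 1 : ℕ) : ℝ) • v = q := by
    rw [hv, smul_smul, mul_inv_cancel₀ hn1.ne', one_smul, add_sub_cancel]
  refine ⟨w.copy rfl (by rw [hend]), ?_, ?_⟩
  · intro z hz
    rw [SimpleGraph.Walk.support_copy] at hz
    obtain ⟨j, hj, hj2⟩ := h1 z hz
    refine ⟨j * (((n + 1 : ℕ) : ℝ))⁻¹, by positivity, ?_, ?_⟩
    · rw [← div_eq_mul_inv, div_le_one hn1]
      exact_mod_cast hj
    · rw [hv, smul_smul] at hj2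
      exact hj2
  · intro ℓ C hC hpq
    rw [SimpleGraph.Walk.support_copy]
    refine h2 ℓ C hC ?_
    rw [hv, map_smul, map_sub, smul_eq_mul]
    have : 0 ≤ ℓ q - ℓ p := by linarith
    positivity

/-! ### The constant of the flat data -/

/-- a constant dominating the geometry of the flat data -/
noncomputable def GG (F : FlatData μ) : ℝ := ‖F.al‖ + ‖F.be‖ + ‖F.a‖ + ‖F.b‖ + 1

lemma one_le_GG (F : FlatData μ) : 1 ≤ GG F := by
  unfold GG
  have := norm_nonneg F.al
  have := norm_nonneg F.be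
  have := norm_nonneg F.a
  have := norm_nonneg F.b
  linarith

lemma al_le (F : FlatData μ) (v : ℝ × ℝ) : |F.al v| ≤ GG F * ‖v‖ := by
  rw [← Real.norm_eq_abs]
  refine (F.al.le_opNorm v).trans ?_
  have : ‖F.al‖ ≤ GG F := by
    unfold GG
    have := norm_nonneg F.be
    have := norm_nonneg F.a
    have := norm_nonneg F.b
    linarith
  gcongr

lemma be_le (F : FlatData μ) (v : ℝ × ℝ) : |F.be v| ≤ GG F * ‖v‖ := by
  rw [← Real.norm_eq_abs]
  refine (F.be.le_opNorm v).trans ?_
  have : ‖F.be‖ ≤ GG F := by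
    unfold GG
    have := norm_nonneg F.al
    have := norm_nonneg F.a
    have := norm_nonneg F.b
    linarith
  gcongr

lemma norm_a_le (F : FlatData μ) : ‖F.a‖ ≤ GG F := by
  unfold GG
  have := norm_nonneg F.al
  have := norm_nonneg F.be
  have := norm_nonneg F.b
  linarith

lemma norm_b_le (F : FlatData μ) : ‖F.b‖ ≤ GG F := by
  unfold GG
  have := norm_nonneg F.al
  have := norm_nonneg F.be
  have := norm_nonneg F.a
  linarith

lemma norm_le_al_be (F : FlatData μ) (v : ℝ × ℝ) : ‖v‖ ≤ GG F * (|F.al v| + |F.be v|) := by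
  conv_lhs => rw [← F.decomp v]
  refine (norm_add_le _ _).trans ?_
  rw [norm_smul, norm_smul, Real.norm_eq_abs, Real.norm_eq_abs, mul_add]
  have h1 := norm_a_le F
  have h2 := norm_b_le F
  have h3 := abs_nonneg (F.al v)
  have h4 := abs_nonneg (F.be v)
  nlinarith

end Crest.Agent.R151.U450
end

-- ▼ part R151/U450b
section

/-!
# R151/U450b — band connections and start connections in the lane (owner helper450)

`Bnd F θ s C w` : vertices of the lane `|be| ≤ w/2` with `|al - s| ≤ C`.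
-/

set_option autoImplicit false

open MeasureTheory Filter ProbabilityTheory Topology
open Crest.ProbabilityR.FirstPassage
open Crest.Agent.R151.K
open Crest.Agent.R151.Q

namespace Crest.Agent.R151.U450

open B710 (FlatData)

variable {μ : ℝ × ℝ → ℝ}

/-- the piece of the lane near level `s` -/
def Bnd (F : FlatData μ) (θ : ℝ × ℝ) (s C w : ℝ) : Set (ℤ × ℤ) :=
  {z | |F.al (pos θ z) - s| ≤ C ∧ |F.be (pos θ z)| ≤ w / 2}

lemma norm_dir (d : Fin 4) : ‖toR (dir d)‖ = 1 := by
  fin_cases d <;> simp [dir, toR, Prod.norm_def]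

lemma exists_dir_pm (ℓ : ℝ × ℝ →L[ℝ] ℝ) {v : ℝ × ℝ} (hv : ℓ v ≠ 0) :
    ∃ η : ℝ, 0 < η ∧ (∃ d, ℓ (toR (dir d)) = η) ∧ ∃ d, ℓ (toR (dir d)) = -η := by
  have h0 : toR (dir 0) = (1, 0) := by simp [dir, toR]
  have h1 : toR (dir 1) = -(1, 0) := by simp [dir, toR]
  have h2 : toR (dir 2) = (0, 1) := by simp [dir, toR]
  have h3 : toR (dir 3) = -(0, 1) := by simp [dir, toR]
  by_cases hx : ℓ (1, 0) = 0
  · have hy : ℓ (0, 1) ≠ 0 := by
      intro hy
      apply hv
      have : v = v.1 • ((1 : ℝ), (0 : ℝ)) + v.2 • ((0 : ℝ), (1 : ℝ)) := by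
        ext <;> simp
      rw [this, map_add, map_smul, map_smul, hx, hy]
      simp
    rcases lt_or_gt_of_ne hy with hy | hy
    · exact ⟨-ℓ (0, 1), by linarith, ⟨3, by rw [h3, map_neg]⟩, ⟨2, by rw [h2, neg_neg]⟩⟩
    · exact ⟨ℓ (0, 1), hy, ⟨2, by rw [h2]⟩, ⟨3, by rw [h3, map_neg]⟩⟩
  · rcases lt_or_gt_of_ne hx with hy | hy
    · exact ⟨-ℓ (1, 0), by linarith, ⟨1, by rw [h1, map_neg]⟩, ⟨0, by rw [h0, neg_neg]⟩⟩
    · exact ⟨ℓ (1, 0), hy, ⟨0, by rw [h0]⟩, ⟨1, by rw [h1, map_neg]⟩⟩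

lemma adj_dir (x : ℤ × ℤ) (d : Fin 4) : squareLattice.Adj x (x + dir d) := by
  obtain ⟨a, b⟩ := x
  fin_cases d
  · have := adj_right a b
    simpa [dir] using this
  · have := (adj_right (a - 1) b).symm
    rw [sub_add_cancel] at this
    simpa [dir, sub_eq_add_neg] using this
  · have := adj_up a b
    simpa [dir] using this
  · have := (adj_up a (b - 1)).symm
    rw [sub_add_cancel] at this
    simpa [dir, sub_eq_add_neg] using this

/-- straight walk in a coordinate direction -/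
lemma straight (u : ℤ × ℤ) (d : Fin 4) (k : ℕ) :
    ∃ w : squareLattice.Walk u (u + k • dir d),
      ∀ z ∈ w.support, ∃ j : ℕ, j ≤ k ∧ z = u + j • dir d := by
  induction k with
  | zero =>
    refine ⟨(SimpleGraph.Walk.nil : squareLattice.Walk u u).copy rfl (by simp), ?_⟩
    intro z hz
    simp only [SimpleGraph.Walk.support_copy, SimpleGraph.Walk.support_nil,
      List.mem_singleton] at hz
    exact ⟨0, le_rfl, by simp [hz]⟩
  | succ k ih =>
    obtain ⟨w, hw⟩ := ih
    have e : u + k • dir d + dir d = u + (k + 1) • dir d := by rw [succ_nsmul, add_assoc]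
    refine ⟨(w.append (SimpleGraph.Walk.cons (adj_dir (u + k • dir d) d)
      SimpleGraph.Walk.nil)).copy rfl e, ?_⟩
    intro z hz
    simp only [SimpleGraph.Walk.support_copy, SimpleGraph.Walk.mem_support_append_iff,
      SimpleGraph.Walk.support_cons, SimpleGraph.Walk.support_nil, List.mem_cons,
      List.not_mem_nil, or_false] at hz
    rcases hz with hz | rfl | rfl
    · obtain ⟨j, hj, rfl⟩ := hw z hz
      exact ⟨j, by omega, rfl⟩
    · exact ⟨k, by omega, rfl⟩
    · exact ⟨k + 1, le_rfl, e⟩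

lemma toR_nsmul (k : ℕ) (z : ℤ × ℤ) : toR (k • z) = (k : ℝ) • toR z := by
  simp [toR]

lemma pos_add_nsmul (θ : ℝ × ℝ) (u : ℤ × ℤ) (j : ℕ) (d : Fin 4) :
    pos θ (u + j • dir d) = pos θ u + (j : ℝ) • toR (dir d) := by
  unfold pos
  rw [toR_add, toR_nsmul]
  abel

/-- **Band connection**: a vertex of the lane near level `s` is connected to the central node of
level `s`, inside the lane and near the level. -/
lemma band_conn (F : FlatData μ) : ∃ C w0 : ℝ, 0 < C ∧ 0 < w0 ∧ ∀ w ≥ w0, ∀ (θ : ℝ × ℝ) (s : ℝ)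
    (u : ℤ × ℤ), |F.al (pos θ u) - s| ≤ GG F → |F.be (pos θ u)| ≤ w / 2 →
    Conn (Bnd F θ s C w) u (nr (θ - s • F.a)) := by
  obtain ⟨η, hη, ⟨dp, hdp⟩, dm, hdm⟩ := exists_dir_pm F.be (v := F.b) (by simp)
  have hG := one_le_GG F
  obtain ⟨k, hk⟩ := exists_nat_ge (3 * GG F / η)
  have hk' : 3 * GG F ≤ k * η := by rwa [div_le_iff₀ hη] at hk
  have hk0 : (0 : ℝ) ≤ k := Nat.cast_nonneg k
  have hηG : η ≤ GG F := by
    have := be_le F (toR (dir dp))
    rw [norm_dir, mul_one, hdp, abs_of_pos hη] at this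
    exact this
  refine ⟨(k + 4) * GG F, 2 * (k + 3) * GG F, by positivity, by positivity, ?_⟩
  intro w hw θ s u hu1 hu2
  -- the inward direction
  obtain ⟨d, hd1, hd2⟩ : ∃ d, (∀ j : ℕ, j ≤ k →
      |F.be (pos θ u) + j * F.be (toR (dir d))| ≤ w / 2) ∧
      |F.be (pos θ u) + k * F.be (toR (dir d))| ≤ w / 2 - 3 * GG F := by
    have hkG : (k : ℝ) * η ≤ k * GG F := by gcongr
    rcases le_total 0 (F.be (pos θ u)) with h | h
    · refine ⟨dm, ?_, ?_⟩
      · intro j hj
        have hj' : (j : ℝ) ≤ k := by exact_mod_cast hj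
        have hj1 : (j : ℝ) * η ≤ k * η := by gcongr
        have hj0 : 0 ≤ (j : ℝ) * η := by positivity
        rw [hdm]
        rw [abs_of_nonneg h] at hu2
        rw [abs_le]
        constructor <;> nlinarith
      · rw [hdm]
        rw [abs_of_nonneg h] at hu2
        rw [abs_le]
        constructor <;> nlinarith
    · refine ⟨dp, ?_, ?_⟩
      · intro j hj
        have hj' : (j : ℝ) ≤ k := by exact_mod_cast hj
        have hj1 : (j : ℝ) * η ≤ k * η := by gcongr
        have hj0 : 0 ≤ (j : ℝ) * η := by positivity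
        rw [hdp]
        rw [abs_of_nonpos h] at hu2
        rw [abs_le]
        constructor <;> nlinarith
      · rw [hdp]
        rw [abs_of_nonpos h] at hu2
        rw [abs_le]
        constructor <;> nlinarith
  have hal : |F.al (toR (dir d))| ≤ GG F := by
    have := al_le F (toR (dir d))
    rwa [norm_dir, mul_one] at this
  set u1 := u + k • dir d with hu1def
  have hu1pos : pos θ u1 = pos θ u + (k : ℝ) • toR (dir d) := pos_add_nsmul θ u k d
  have halj : ∀ j : ℕ, j ≤ k → |F.al (pos θ u) + j * F.al (toR (dir d)) - s| ≤ (k + 1) * GG F := by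
    intro j hj
    have hj' : (j : ℝ) ≤ k := by exact_mod_cast hj
    have h1 : |(j : ℝ) * F.al (toR (dir d))| ≤ k * GG F := by
      rw [abs_mul, abs_of_nonneg (Nat.cast_nonneg j)]
      gcongr
    have e : F.al (pos θ u) + j * F.al (toR (dir d)) - s
        = (F.al (pos θ u) - s) + j * F.al (toR (dir d)) := by ring
    rw [e]
    refine (abs_add_le _ _).trans ?_
    linarith
  have c1 : Conn (Bnd F θ s ((k + 4) * GG F) w) u u1 := by
    obtain ⟨W, hW⟩ := straight u d k
    refine ⟨W, fun z hz => ?_⟩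
    obtain ⟨j, hj, rfl⟩ := hW z hz
    have hp := pos_add_nsmul θ u j d
    refine ⟨?_, ?_⟩
    · rw [hp, map_add, map_smul, smul_eq_mul]
      refine (halj j hj).trans ?_
      nlinarith
    · rw [hp, map_add, map_smul, smul_eq_mul]
      exact hd1 j hj
  have c2 : Conn (Bnd F θ s ((k + 4) * GG F) w) u1 (nr (θ - s • F.a)) := by
    obtain ⟨W, hW, -⟩ := seg_walk θ (pos θ u1) (s • F.a)
    refine ⟨W.copy (nr_pos θ u1) rfl, fun z hz => ?_⟩
    rw [SimpleGraph.Walk.support_copy] at hz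
    obtain ⟨r, hr0, hr1, hr⟩ := hW z hz
    have e1 : pos θ z = (pos θ u1 + r • (s • F.a - pos θ u1))
        + (pos θ z - (pos θ u1 + r • (s • F.a - pos θ u1))) := by abel
    set err := pos θ z - (pos θ u1 + r • (s • F.a - pos θ u1)) with herr
    have a1 := (al_le F err).trans (mul_le_mul_of_nonneg_left hr (by linarith : 0 ≤ GG F))
    have a2 := (be_le F err).trans (mul_le_mul_of_nonneg_left hr (by linarith : 0 ≤ GG F))
    have b1 := halj k le_rfl
    rw [← smul_eq_mul, ← map_smul, ← map_add, ← hu1pos] at b1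
    have b2 := hd2
    rw [← smul_eq_mul, ← map_smul, ← map_add, ← hu1pos] at b2
    refine ⟨?_, ?_⟩
    · rw [e1]
      simp only [map_add, map_smul, map_sub, smul_eq_mul, F.al_a, mul_one]
      have e2 : F.al (pos θ u1) + r * (s - F.al (pos θ u1)) + F.al err - s
          = (1 - r) * (F.al (pos θ u1) - s) + F.al err := by ring
      rw [e2]
      refine (abs_add_le _ _).trans ?_
      rw [abs_mul, abs_of_nonneg (by linarith : 0 ≤ 1 - r)]
      have : (1 - r) * |F.al (pos θ u1) - s| ≤ 1 * |F.al (pos θ u1) - s| := by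
        gcongr; linarith
      linarith
    · rw [e1]
      simp only [map_add, map_smul, map_sub, smul_eq_mul, F.be_a, mul_zero, zero_sub]
      have e2 : F.be (pos θ u1) + r * -F.be (pos θ u1) + F.be err
          = (1 - r) * (F.be (pos θ u1)) + F.be err := by ring
      rw [e2]
      refine (abs_add_le _ _).trans ?_
      rw [abs_mul, abs_of_nonneg (by linarith : 0 ≤ 1 - r)]
      have : (1 - r) * |F.be (pos θ u1)| ≤ 1 * |F.be (pos θ u1)| := by
        gcongr; linarith
      linarith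
  exact c1.trans c2

/-- **Start connection.** -/
lemma start_conn (F : FlatData μ) : ∃ L C w0 : ℝ, 4 * GG F < L ∧ 0 < C ∧ 0 < w0 ∧
    ∀ σ : ℝ, σ = 1 ∨ σ = -1 → ∀ w ≥ w0, ∀ (θ : ℝ × ℝ) (x0 u : ℤ × ℤ),
      |F.be (pos θ x0)| ≤ GG F → |F.be (pos θ u)| ≤ w / 2 →
      |F.al (pos θ u) - (F.al (pos θ x0) + σ * L)| ≤ GG F →
      Conn {z | |F.be (pos θ z)| ≤ w / 2 ∧ (z = x0 ∨ 0 < σ * (F.al (pos θ z) - F.al (pos θ x0))) ∧
        σ * (F.al (pos θ z) - F.al (pos θ x0)) ≤ C} x0 u := by
  obtain ⟨C1, w1, hC1, hw1, hb⟩ := band_conn F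
  obtain ⟨ζ, hζ, ⟨dp, hdp⟩, dm, hdm⟩ := exists_dir_pm F.al (v := F.a) (by simp)
  have hG := one_le_GG F
  obtain ⟨k, hk⟩ := exists_nat_gt ((C1 + 4 * GG F) / ζ)
  have hk' : C1 + 4 * GG F < k * ζ := by rwa [div_lt_iff₀ hζ] at hk
  have hk0 : (0 : ℝ) ≤ k := Nat.cast_nonneg k
  refine ⟨k * ζ, k * ζ + C1, max w1 (2 * (k + 1) * GG F), by linarith, by positivity,
    lt_max_of_lt_left hw1, ?_⟩
  intro σ hσ w hw θ x0 u hx0 hu1 hu2
  have hww1 : w1 ≤ w := (le_max_left _ _).trans hw
  have hww2 : 2 * (k + 1) * GG F ≤ w := (le_max_right _ _).trans hw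
  have hσ2 : σ * σ = 1 := by rcases hσ with rfl | rfl <;> norm_num
  obtain ⟨d, hd⟩ : ∃ d, F.al (toR (dir d)) = σ * ζ := by
    rcases hσ with rfl | rfl
    · exact ⟨dp, by rw [hdp, one_mul]⟩
    · exact ⟨dm, by rw [hdm]; ring⟩
  have hbe : |F.be (toR (dir d))| ≤ GG F := by
    have := be_le F (toR (dir d))
    rwa [norm_dir, mul_one] at this
  set s := F.al (pos θ x0) + σ * (k * ζ) with hs
  set x1 := x0 + k • dir d with hx1
  have hbej : ∀ j : ℕ, j ≤ k → |F.be (pos θ x0) + j * F.be (toR (dir d))| ≤ w / 2 := by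
    intro j hj
    have hj' : (j : ℝ) ≤ k := by exact_mod_cast hj
    have h1 : |(j : ℝ) * F.be (toR (dir d))| ≤ k * GG F := by
      rw [abs_mul, abs_of_nonneg (Nat.cast_nonneg j)]
      gcongr
    refine (abs_add_le _ _).trans ?_
    linarith
  have hx1pos : pos θ x1 = pos θ x0 + (k : ℝ) • toR (dir d) := pos_add_nsmul θ x0 k d
  have hx1al : F.al (pos θ x1) = s := by
    rw [hx1pos, map_add, map_smul, smul_eq_mul, hd, hs]; ring
  have hx1be : |F.be (pos θ x1)| ≤ w / 2 := by
    rw [hx1pos, map_add, map_smul, smul_eq_mul]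
    exact hbej k le_rfl
  have hsub : Bnd F θ s C1 w ⊆ {z | |F.be (pos θ z)| ≤ w / 2 ∧
      (z = x0 ∨ 0 < σ * (F.al (pos θ z) - F.al (pos θ x0))) ∧
        σ * (F.al (pos θ z) - F.al (pos θ x0)) ≤ k * ζ + C1} := by
    rintro z ⟨hz1, hz2⟩
    have e : σ * (F.al (pos θ z) - F.al (pos θ x0)) = k * ζ + σ * (F.al (pos θ z) - s) := by
      rw [hs]
      linear_combination ((k : ℝ) * ζ) * hσ2
    have hz3 : |σ * (F.al (pos θ z) - s)| ≤ C1 := by
      rw [abs_mul]
      rcases hσ with rfl | rfl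
      · simpa using hz1
      · simpa using hz1
    rw [abs_le] at hz3
    refine ⟨hz2, Or.inr ?_, ?_⟩
    · rw [e]; linarith
    · rw [e]; linarith
  have c1 : Conn {z | |F.be (pos θ z)| ≤ w / 2 ∧
      (z = x0 ∨ 0 < σ * (F.al (pos θ z) - F.al (pos θ x0))) ∧
        σ * (F.al (pos θ z) - F.al (pos θ x0)) ≤ k * ζ + C1} x0 x1 := by
    obtain ⟨W, hW⟩ := straight x0 d k
    refine ⟨W, fun z hz => ?_⟩
    obtain ⟨j, hj, rfl⟩ := hW z hz
    have hj' : (j : ℝ) ≤ k := by exact_mod_cast hj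
    have hp := pos_add_nsmul θ x0 j d
    have e : σ * (F.al (pos θ (x0 + j • dir d)) - F.al (pos θ x0)) = j * ζ := by
      rw [hp, map_add, map_smul, smul_eq_mul, hd]
      linear_combination ((j : ℝ) * ζ) * hσ2
    refine ⟨?_, ?_, ?_⟩
    · rw [hp, map_add, map_smul, smul_eq_mul]
      exact hbej j hj
    · rcases Nat.eq_zero_or_pos j with h0 | h0
      · left; rw [h0]; simp
      · right
        rw [e]
        have : (0 : ℝ) < j := by exact_mod_cast h0
        positivity
    · rw [e]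
      have : (j : ℝ) * ζ ≤ k * ζ := by gcongr
      linarith
  have c2 := (hb w hww1 θ s x1 (by rw [hx1al, sub_self, abs_zero]; linarith) hx1be).mono hsub
  have c3 := (hb w hww1 θ s u (by rw [hs]; exact hu2) hu1).mono hsub
  exact (c1.trans c2).trans c3.symm

end Crest.Agent.R151.U450
end

-- ▼ part R151/U450c
section

/-!
# R151/U450c — band sums, glueing of a lane walk into a block path (owner helper450)
-/

set_option autoImplicit false

open MeasureTheory Filter ProbabilityTheory Topology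
open Crest.ProbabilityR.FirstPassage
open Crest.Agent.R151.K
open Crest.Agent.R151.Q

namespace Crest.Agent.R151.U450

open B710 (FlatData)

variable {μ : ℝ × ℝ → ℝ} {t : Environment}

/-! ### Lists of vertices and walks -/

lemma lcost_support {x y : ℤ × ℤ} (w : squareLattice.Walk x y) :
    lcost t w.support = walkCost t w := by
  induction w with
  | nil => simp [lcost, walkCost]
  | @cons u v w h p ih =>
    have e : walkCost t (SimpleGraph.Walk.cons h p) = t s(u, v) + walkCost t p := by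
      simp [walkCost]
    rw [e, ← ih, SimpleGraph.Walk.support_cons]
    have h2 := SimpleGraph.Walk.cons_tail_support p
    rw [← h2]
    rfl

lemma lcost_nonneg (ht : Nn t) : ∀ l : List (ℤ × ℤ), 0 ≤ lcost t l
  | [] => le_rfl
  | [_] => le_rfl
  | x :: y :: l => by
    have := lcost_nonneg ht (y :: l)
    have := ht s(x, y)
    simp only [lcost]
    linarith

lemma mem_pathsBT {Q : Finset (ℤ × ℤ)} {x y : ℤ × ℤ} {h : ℤ × ℤ → ℝ} {κ : ℝ}
    (w : squareLattice.Walk x y) (hw : w.IsPath) (hQ : ∀ z ∈ w.support, z ∈ Q)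
    (hbt : bt h κ w.support) : w.support ∈ pathsBT Q x y h κ := by
  refine ⟨hw.support_nodup, w.isChain_adj_support, hQ, ?_, ?_, hbt⟩
  · rw [← SimpleGraph.Walk.cons_tail_support w]; rfl
  · rw [List.getLast?_eq_some_getLast w.support_ne_nil, SimpleGraph.Walk.getLast_support]

lemma sInf_paths_le (ht : Nn t) {Q : Finset (ℤ × ℤ)} {x y : ℤ × ℤ} {h : ℤ × ℤ → ℝ} {κ : ℝ}
    {l : List (ℤ × ℤ)} (hl : l ∈ pathsBT Q x y h κ) :
    sInf (lcost t '' pathsBT Q x y h κ) ≤ lcost t l :=
  csInf_le ⟨0, by rintro _ ⟨l', -, rfl⟩; exact lcost_nonneg ht l'⟩ ⟨l, hl, rfl⟩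

lemma blkCost_nonneg (ht : Nn t) (F : FlatData μ) (w n0 κ : ℝ) (θ : ℝ × ℝ) :
    0 ≤ blkCost F w n0 κ θ t := by
  unfold blkCost
  refine Real.sInf_nonneg ?_
  rintro _ ⟨l, -, rfl⟩
  exact lcost_nonneg ht l

/-! ### Sets of edges -/

/-- the lattice edges starting at the points of `Z` (to the right and upwards) -/
noncomputable def ED (Z : Finset (ℤ × ℤ)) : Finset (Sym2 (ℤ × ℤ)) := by
  classical
  exact Z.image (fun z => s(z, z + (1, 0))) ∪ Z.image (fun z => s(z, z + (0, 1)))

lemma card_ED_le (Z : Finset (ℤ × ℤ)) : (ED Z).card ≤ 2 * Z.card := by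
  classical
  unfold ED
  refine (Finset.card_union_le _ _).trans ?_
  have h1 := Finset.card_image_le (s := Z) (f := fun z => s(z, z + ((1 : ℤ), (0 : ℤ))))
  have h2 := Finset.card_image_le (s := Z) (f := fun z => s(z, z + ((0 : ℤ), (1 : ℤ))))
  omega

lemma mem_ED_of_adj {Z : Finset (ℤ × ℤ)} {x y : ℤ × ℤ} (h : squareLattice.Adj x y) (hx : x ∈ Z)
    (hy : y ∈ Z) : s(x, y) ∈ ED Z := by
  classical
  unfold ED
  rw [Finset.mem_union, Finset.mem_image, Finset.mem_image]
  obtain ⟨d, rfl⟩ := exists_dir h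
  fin_cases d
  · left; exact ⟨x, hx, by simp [dir]⟩
  · left
    refine ⟨_, hy, ?_⟩
    simp only [dir]
    rw [Sym2.eq_swap]
    congr 1
    rw [add_assoc]
    simp
  · right; exact ⟨x, hx, by simp [dir]⟩
  · right
    refine ⟨_, hy, ?_⟩
    simp only [dir]
    rw [Sym2.eq_swap]
    congr 1
    rw [add_assoc]
    simp

lemma walkCost_le_sum (ht : Nn t) {x y : ℤ × ℤ} (w : squareLattice.Walk x y)
    (hw : w.edges.Nodup) {Z : Finset (ℤ × ℤ)} (hZ : ∀ z ∈ w.support, z ∈ Z) :
    walkCost t w ≤ ∑ e ∈ ED Z, t e := by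
  classical
  have h1 : walkCost t w = ∑ e ∈ w.edges.toFinset, t e := (List.sum_toFinset _ hw).symm
  rw [h1]
  refine Finset.sum_le_sum_of_subset_of_nonneg ?_ fun e _ _ => ht e
  intro e he
  rw [List.mem_toFinset] at he
  induction e with
  | h a b =>
    exact mem_ED_of_adj (w.adj_of_mem_edges he)
      (hZ a (SimpleGraph.Walk.fst_mem_support_of_mem_edges _ he))
      (hZ b (SimpleGraph.Walk.snd_mem_support_of_mem_edges _ he))

/-- a connection inside a region contained in `Z`, as a path, with its cost -/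
lemma Conn.exists_path {R : Set (ℤ × ℤ)} {x y : ℤ × ℤ} (h : Conn R x y) :
    ∃ w : squareLattice.Walk x y, w.IsPath ∧ ∀ z ∈ w.support, z ∈ R := by
  obtain ⟨w, hw⟩ := h
  exact ⟨w.bypass, w.bypass_isPath, fun z hz => hw z (w.support_bypass_subset_support hz)⟩

/-- the lattice points of a parallelogram around the origin -/
noncomputable def BZ (F : FlatData μ) (c w : ℝ) : Finset (ℤ × ℤ) := by
  classical
  exact (box ⌈GG F * (c + w)⌉₊).filter fun z => |F.al (toR z)| ≤ c ∧ |F.be (toR z)| ≤ w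

lemma mem_box_of_norm {n : ℕ} {z : ℤ × ℤ} (h : ‖toR z‖ ≤ n) : z ∈ box n := by
  have h1 := (abs_fst_le (toR z)).trans h
  have h2 := (abs_snd_le (toR z)).trans h
  simp only [toR, abs_le] at h1 h2
  rw [mem_box]
  refine ⟨⟨?_, ?_⟩, ⟨?_, ?_⟩⟩
  · exact_mod_cast h1.1
  · exact_mod_cast h1.2
  · exact_mod_cast h2.1
  · exact_mod_cast h2.2

lemma mem_BZ {F : FlatData μ} {c w : ℝ} {z : ℤ × ℤ} :
    z ∈ BZ F c w ↔ |F.al (toR z)| ≤ c ∧ |F.be (toR z)| ≤ w := by
  classical
  unfold BZ
  rw [Finset.mem_filter]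
  refine ⟨fun h => h.2, fun h => ⟨mem_box_of_norm ?_, h⟩⟩
  refine le_trans ?_ (Nat.le_ceil _)
  refine (norm_le_al_be F _).trans ?_
  have := one_le_GG F
  gcongr
  · exact h.1
  · exact h.2

/-- the sum of the weights of the edges of the parallelogram around `z` -/
noncomputable def DD (F : FlatData μ) (c w : ℝ) (z : ℤ × ℤ) (t : Environment) : ℝ := by
  classical
  exact ∑ e ∈ ED ((BZ F c w).image (· + z)), t e


/-- cost of a path of the parallelogram around `z0` -/
lemma walkCost_le_DD (ht : Nn t) (F : FlatData μ) {c w : ℝ} {z0 x y : ℤ × ℤ}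
    (W : squareLattice.Walk x y) (hW : W.IsPath)
    (h : ∀ z ∈ W.support, |F.al (toR z - toR z0)| ≤ c ∧ |F.be (toR z - toR z0)| ≤ w) :
    walkCost t W ≤ DD F c w z0 t := by
  classical
  unfold DD
  refine walkCost_le_sum ht W hW.isTrail.edges_nodup fun z hz => ?_
  rw [Finset.mem_image]
  refine ⟨z - z0, mem_BZ.2 ?_, sub_add_cancel z z0⟩
  rw [toR_sub]
  exact h z hz

/-! ### The properties proved in U450b, as Props -/

/-- conclusion of `band_conn` -/
def BandProp (F : FlatData μ) (C w0 : ℝ) : Prop :=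
  0 < C ∧ 0 < w0 ∧ ∀ w ≥ w0, ∀ (θ : ℝ × ℝ) (s : ℝ)
    (u : ℤ × ℤ), |F.al (pos θ u) - s| ≤ GG F → |F.be (pos θ u)| ≤ w / 2 →
    Conn (Bnd F θ s C w) u (nr (θ - s • F.a))

/-- conclusion of `start_conn` -/
def StartProp (F : FlatData μ) (L C w0 : ℝ) : Prop :=
  4 * GG F < L ∧ 0 < C ∧ 0 < w0 ∧
    ∀ σ : ℝ, σ = 1 ∨ σ = -1 → ∀ w ≥ w0, ∀ (θ : ℝ × ℝ) (x0 u : ℤ × ℤ),
      |F.be (pos θ x0)| ≤ GG F → |F.be (pos θ u)| ≤ w / 2 →
      |F.al (pos θ u) - (F.al (pos θ x0) + σ * L)| ≤ GG F →
      Conn {z | |F.be (pos θ z)| ≤ w / 2 ∧ (z = x0 ∨ 0 < σ * (F.al (pos θ z) - F.al (pos θ x0))) ∧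
        σ * (F.al (pos θ z) - F.al (pos θ x0)) ≤ C} x0 u

/-! ### The half-open box -/

lemma norm_pos_nxt (F : FlatData μ) (n0 : ℝ) (θ : ℝ × ℝ) :
    ‖pos θ (nxt F n0 θ) - n0 • F.a‖ ≤ 1 / 2 := norm_pos_nr θ _

lemma pos_zero (θ : ℝ × ℝ) : pos θ 0 = θ := by simp [pos, toR]

lemma al_nxt (F : FlatData μ) (n0 : ℝ) (θ : ℝ × ℝ) :
    |F.al (pos θ (nxt F n0 θ)) - n0| ≤ ‖F.al‖ / 2 := by
  have h := (F.al.le_opNorm (pos θ (nxt F n0 θ) - n0 • F.a)).trans
    (mul_le_mul_of_nonneg_left (norm_pos_nxt F n0 θ) (norm_nonneg F.al))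
  rw [map_sub, map_smul, F.al_a, smul_eq_mul, mul_one, Real.norm_eq_abs] at h
  linarith

lemma be_nxt (F : FlatData μ) (n0 : ℝ) (θ : ℝ × ℝ) :
    |F.be (pos θ (nxt F n0 θ))| ≤ GG F / 2 := by
  have h := (be_le F (pos θ (nxt F n0 θ) - n0 • F.a)).trans
    (mul_le_mul_of_nonneg_left (norm_pos_nxt F n0 θ) (by linarith [one_le_GG F]))
  rw [map_sub, map_smul, F.be_a, smul_eq_mul, mul_zero, sub_zero] at h
  linarith

lemma norm_al_le (F : FlatData μ) : ‖F.al‖ ≤ GG F := by
  unfold GG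
  have := norm_nonneg F.be
  have := norm_nonneg F.a
  have := norm_nonneg F.b
  linarith

lemma mem_box_bxN (F : FlatData μ) {w n0 : ℝ} {θ : ℝ × ℝ} {z : ℤ × ℤ} (hθ : ‖θ‖ ≤ 1 / 2)
    (hw : 0 ≤ w) (h1 : |F.be (pos θ z)| ≤ w / 2) (h2 : F.al (pos θ 0) ≤ F.al (pos θ z))
    (h3 : F.al (pos θ z) ≤ F.al (pos θ (nxt F n0 θ))) : z ∈ box (bxN F w n0) := by
  refine mem_box_of_norm ?_
  have e1 : toR z = F.al (pos θ z) • F.a + F.be (pos θ z) • F.b - θ := by
    rw [F.decomp]; unfold pos; abel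
  have h4 : |F.al (pos θ z)| ≤ |n0| + ‖F.al‖ := by
    have h5 := al_nxt F n0 θ
    have h6 : |F.al (pos θ 0)| ≤ ‖F.al‖ / 2 := by
      rw [pos_zero, ← Real.norm_eq_abs]
      refine (F.al.le_opNorm θ).trans ?_
      have := norm_nonneg F.al
      nlinarith
    rw [abs_le] at h5 h6 ⊢
    have h7 := le_abs_self n0
    have h8 := abs_nonneg n0
    have := norm_nonneg F.al
    constructor <;> linarith
  have hle : ‖toR z‖ ≤ (|n0| + ‖F.al‖) * ‖F.a‖ + w / 2 * ‖F.b‖ + 1 / 2 := by
    rw [e1]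
    refine (norm_sub_le _ _).trans (add_le_add ((norm_add_le _ _).trans ?_) hθ)
    rw [norm_smul, norm_smul, Real.norm_eq_abs, Real.norm_eq_abs]
    gcongr
  refine hle.trans ?_
  unfold bxN
  push_cast
  have h9 := Nat.le_ceil ((|n0| + ‖F.al‖ + 1) * ‖F.a‖ + (|w| + 1) * ‖F.b‖)
  have := norm_nonneg F.a
  have := norm_nonneg F.b
  rw [abs_of_nonneg hw] at h9 ⊢
  nlinarith

lemma mem_Qbox_of (F : FlatData μ) {w n0 : ℝ} {θ : ℝ × ℝ} {z : ℤ × ℤ} (hθ : ‖θ‖ ≤ 1 / 2)
    (hw : 0 ≤ w) (h : z = nxt F n0 θ ∨ (|F.be (pos θ z)| ≤ w / 2 ∧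
      F.al (pos θ 0) ≤ F.al (pos θ z) ∧ F.al (pos θ z) < F.al (pos θ (nxt F n0 θ)))) :
    z ∈ Qbox F w n0 θ := by
  unfold Qbox
  rw [Finset.mem_insert, Finset.mem_filter]
  rcases h with h | h
  · exact Or.inl h
  · exact Or.inr ⟨mem_box_bxN F hθ hw h.1 h.2.1 h.2.2.le, h⟩

/-- target node of the block, up to `3/2` -/
noncomputable def zEnd (F : FlatData μ) (n0 : ℝ) : ℤ × ℤ := nr (0 - n0 • F.a)

lemma norm_zEnd (F : FlatData μ) (n0 : ℝ) : ‖toR (zEnd F n0) - n0 • F.a‖ ≤ 1 / 2 := by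
  have := norm_pos_nr 0 (n0 • F.a)
  simpa [pos, zEnd] using this

/-- **Glueing.** A walk `o` in the interior of the block, from near the start to near the end, is
completed to a path of the block. -/
lemma glue (F : FlatData μ) {L C w0 : ℝ} (hS : StartProp F L C w0) {w n0 κ : ℝ} {θ : ℝ × ℝ}
    (hθ : ‖θ‖ ≤ 1 / 2) (hw : w0 ≤ w) (hw2 : 2 * GG F ≤ w) (hn0 : C + GG F < n0)
    (hκ : C ≤ κ) {u v : ℤ × ℤ} (o : squareLattice.Walk u v)
    (hu : |F.al (pos θ u) - (F.al (pos θ 0) + L)| ≤ GG F)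
    (hv : |F.al (pos θ v) - (F.al (pos θ (nxt F n0 θ)) - L)| ≤ GG F)
    (ho : ∀ z ∈ o.support, |F.be (pos θ z)| ≤ w / 2 ∧
      F.al (pos θ 0) + L - 3 * GG F ≤ F.al (pos θ z) ∧
      F.al (pos θ z) ≤ F.al (pos θ (nxt F n0 θ)) - L + 3 * GG F)
    (hbt : bt (fun z => F.al (toR z)) κ o.support) :
    ∃ l ∈ pathsBT (Qbox F w n0 θ) 0 (nxt F n0 θ) (fun z => F.al (toR z)) κ,
      ∀ t, Nn t → lcost t l ≤
        walkCost t o + DD F (C + 2 * GG F) w 0 t + DD F (C + 2 * GG F) w (zEnd F n0) t := by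
  obtain ⟨hL, hC, hw0, hS⟩ := hS
  have hG := one_le_GG F
  have hwpos : 0 ≤ w := by linarith
  have hθal : |F.al (pos θ 0)| ≤ GG F / 2 := by
    rw [pos_zero]
    have := (al_le F θ).trans (mul_le_mul_of_nonneg_left hθ (by linarith : 0 ≤ GG F))
    linarith
  have hθbe : |F.be (pos θ 0)| ≤ GG F / 2 := by
    rw [pos_zero]
    have := (be_le F θ).trans (mul_le_mul_of_nonneg_left hθ (by linarith : 0 ≤ GG F))
    linarith
  have hnal := al_nxt F n0 θ
  have hnbe := be_nxt F n0 θ
  have hnG := norm_al_le F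
  -- the two ends
  obtain ⟨A, hA1, hA2⟩ := Conn.exists_path (hS 1 (Or.inl rfl) w hw θ 0 u (by linarith)
    (ho u o.start_mem_support).1 (by rw [one_mul]; exact hu))
  obtain ⟨B, hB1, hB2⟩ := Conn.exists_path (hS (-1) (Or.inr rfl) w hw θ (nxt F n0 θ) v
    (by linarith) (ho v o.end_mem_support).1 (by
      rw [neg_one_mul, ← sub_eq_add_neg]; exact hv))
  have hB3 : ∀ z ∈ B.reverse.support, z ∈ B.support := by
    intro z hz
    rwa [SimpleGraph.Walk.support_reverse, List.mem_reverse] at hz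
  rw [abs_le] at hθal hnal
  have hA3 : ∀ z ∈ A.support, F.al (pos θ 0) ≤ F.al (pos θ z) ∧
      F.al (pos θ z) ≤ F.al (pos θ 0) + C := by
    intro z hz
    obtain ⟨h1, h2, h3⟩ := hA2 z hz
    rw [one_mul] at h2 h3
    rcases h2 with rfl | h2
    · exact ⟨le_rfl, by linarith⟩
    · exact ⟨by linarith, by linarith⟩
  have hB4 : ∀ z ∈ B.reverse.support, F.al (pos θ (nxt F n0 θ)) - C ≤ F.al (pos θ z) ∧
      F.al (pos θ z) ≤ F.al (pos θ (nxt F n0 θ)) ∧ (z = nxt F n0 θ ∨ F.al (pos θ z) < F.al (pos θ (nxt F n0 θ))) := by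
    intro z hz
    obtain ⟨h1, h2, h3⟩ := hB2 z (hB3 z hz)
    rw [neg_one_mul] at h2 h3
    rcases h2 with rfl | h2
    · exact ⟨by linarith, le_rfl, Or.inl rfl⟩
    · exact ⟨by linarith, by linarith, Or.inr (by linarith)⟩
  set W := (A.append o).append B.reverse with hW
  have hbtW : bt (fun z => F.al (toR z)) κ W.support := by
    have key : ∀ a b : ℤ × ℤ, F.al (pos θ a) ≤ F.al (pos θ b) + κ →
        F.al (toR a) ≤ F.al (toR b) + κ := by
      intro a b h
      unfold pos at h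
      rw [map_add, map_add] at h
      linarith
    unfold bt at hbt ⊢
    rw [hW, SimpleGraph.Walk.support_append, SimpleGraph.Walk.support_append,
      List.pairwise_append, List.pairwise_append]
    refine ⟨⟨?_, hbt.sublist (List.tail_sublist _), ?_⟩, ?_, ?_⟩
    · refine List.Pairwise.imp_of_mem (R := fun _ _ => True) ?_
        (List.pairwise_of_forall fun _ _ => trivial)
      intro a b ha hb _
      have h1 := hA3 a ha
      have h2 := hA3 b hb
      exact key a b (by linarith)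
    · intro a ha b hb
      have h1 := hA3 a ha
      have h2 := ho b (List.mem_of_mem_tail hb)
      exact key a b (by linarith)
    · refine List.Pairwise.imp_of_mem (R := fun _ _ => True) ?_
        (List.pairwise_of_forall fun _ _ => trivial)
      intro a b ha hb _
      have h1 := hB4 a (List.mem_of_mem_tail ha)
      have h2 := hB4 b (List.mem_of_mem_tail hb)
      exact key a b (by linarith)
    · intro a ha b hb
      have h2 := hB4 b (List.mem_of_mem_tail hb)
      rw [List.mem_append] at ha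
      rcases ha with ha | ha
      · have h1 := hA3 a ha
        exact key a b (by linarith)
      · have h1 := ho a (List.mem_of_mem_tail ha)
        exact key a b (by linarith)
  have hQ : ∀ z ∈ W.support, z ∈ Qbox F w n0 θ := by
    intro z hz
    rw [hW, SimpleGraph.Walk.mem_support_append_iff, SimpleGraph.Walk.mem_support_append_iff] at hz
    refine mem_Qbox_of F hθ hwpos ?_
    rcases hz with (hz | hz) | hz
    · right
      have h1 := hA3 z hz
      exact ⟨(hA2 z hz).1, h1.1, by linarith⟩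
    · right
      have h1 := ho z hz
      exact ⟨h1.1, by linarith, by linarith⟩
    · have h1 := hB4 z hz
      rcases h1.2.2 with h2 | h2
      · exact Or.inl h2
      · exact Or.inr ⟨(hB2 z (hB3 z hz)).1, by linarith, h2⟩
  refine ⟨W.bypass.support, mem_pathsBT W.bypass W.bypass_isPath
    (fun z hz => hQ z (W.support_bypass_subset_support hz)) ?_, ?_⟩
  · exact hbtW.sublist W.support_bypass_sublist_support
  · intro t ht
    rw [lcost_support]
    refine (walkCost_bypass_le ht W).trans ?_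
    rw [hW, walkCost_append, walkCost_append, walkCost_reverse]
    have c1 : walkCost t A ≤ DD F (C + 2 * GG F) w 0 t := by
      refine walkCost_le_DD ht F A hA1 fun z hz => ?_
      have h1 := hA3 z hz
      rw [← pos_sub θ, map_sub, map_sub]
      refine ⟨?_, ?_⟩
      · rw [abs_of_nonneg (by linarith)]; linarith
      · refine (abs_sub _ _).trans ?_
        have := (hA2 z hz).1
        linarith
    have c2 : walkCost t B ≤ DD F (C + 2 * GG F) w (zEnd F n0) t := by
      refine walkCost_le_DD ht F B hB1 fun z hz => ?_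
      have h1 := hB4 z (by rwa [SimpleGraph.Walk.support_reverse, List.mem_reverse])
      have h2 := (hB2 z hz).1
      have e1 : toR z - toR (zEnd F n0) = pos θ z - pos θ (nxt F n0 θ) +
          ((pos θ (nxt F n0 θ) - n0 • F.a) - θ - (toR (zEnd F n0) - n0 • F.a)) := by
        unfold pos; abel
      have e2 : ‖(pos θ (nxt F n0 θ) - n0 • F.a) - θ - (toR (zEnd F n0) - n0 • F.a)‖ ≤ 3 / 2 := by
        refine (norm_sub_le _ _).trans ?_
        have h3 := norm_sub_le (pos θ (nxt F n0 θ) - n0 • F.a) θ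
        have h4 := norm_pos_nxt F n0 θ
        have h5 := norm_zEnd F n0
        linarith
      set err := (pos θ (nxt F n0 θ) - n0 • F.a) - θ - (toR (zEnd F n0) - n0 • F.a) with herr
      have a1 := (al_le F err).trans (mul_le_mul_of_nonneg_left e2 (by linarith : 0 ≤ GG F))
      refine ⟨?_, ?_⟩
      · rw [e1, map_add, map_sub]
        refine (abs_add_le _ _).trans ?_
        rw [abs_of_nonpos (by linarith)]
        linarith
      · have e3 : toR z - toR (zEnd F n0) =
            pos θ z - θ - (toR (zEnd F n0) - n0 • F.a) - n0 • F.a := by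
          unfold pos; abel
        have h5 := (be_le F (toR (zEnd F n0) - n0 • F.a)).trans
          (mul_le_mul_of_nonneg_left (norm_zEnd F n0) (by linarith : 0 ≤ GG F))
        rw [e3, map_sub, map_sub, map_sub, map_smul, F.be_a, smul_eq_mul, mul_zero, sub_zero]
        rw [pos_zero] at hθbe
        have h6 := abs_sub (F.be (pos θ z) - F.be θ) (F.be (toR (zEnd F n0) - n0 • F.a))
        have h7 := abs_sub (F.be (pos θ z)) (F.be θ)
        linarith
    linarith

end Crest.Agent.R151.U450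
end

-- ▼ part R151/U450d
section

/-!
# R151/U450d — deterministic bound of the block cost (owner helper450)

`main_det` : outside a bad event, `blkCost ≤ pR (lane) 0 (nxt) + 1 + D(0) + D(end)`.
`fallback` : always `blkCost ≤ D(0) + D(end) + (sum of all the weights of the box)`.
-/

set_option autoImplicit false

open MeasureTheory Filter ProbabilityTheory Topology
open Crest.ProbabilityR.FirstPassage
open Crest.Agent.R151.K
open Crest.Agent.R151.Q

namespace Crest.Agent.R151.U450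

open B710 (FlatData)
open R78 (exists_first exists_last mem_support_append mem_tail_append mem_dropLast_append)

variable {μ : ℝ × ℝ → ℝ} {t : Environment}

/-! ### Walks and heights -/

lemma pairwise_support {x y : ℤ × ℤ} (w : squareLattice.Walk x y) (R : ℤ × ℤ → ℤ × ℤ → Prop)
    (H : ∀ (p q : ℤ × ℤ) (w1 : squareLattice.Walk x p) (w2 : squareLattice.Walk p q)
      (w3 : squareLattice.Walk q y), w = (w1.append w2).append w3 → R p q) :
    w.support.Pairwise R := by
  classical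
  induction w with
  | nil => simp
  | @cons u v y h p ih =>
    rw [SimpleGraph.Walk.support_cons, List.pairwise_cons]
    constructor
    · intro z hz
      refine H u z SimpleGraph.Walk.nil (SimpleGraph.Walk.cons h (p.takeUntil z hz))
        (p.dropUntil z hz) ?_
      rw [SimpleGraph.Walk.nil_append, SimpleGraph.Walk.cons_append, SimpleGraph.Walk.take_spec]
    · refine ih fun p' q' w1 w2 w3 e => H p' q' (SimpleGraph.Walk.cons h w1) w2 w3 ?_
      rw [e, SimpleGraph.Walk.cons_append, SimpleGraph.Walk.cons_append]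

lemma exists_pred {x u : ℤ × ℤ} (a : squareLattice.Walk x u) :
    x = u ∨ ∃ v ∈ a.support.dropLast, squareLattice.Adj v u := by
  induction a with
  | nil => exact Or.inl rfl
  | @cons x v' u h p ih =>
    right
    rw [SimpleGraph.Walk.support_cons, List.dropLast_cons_of_ne_nil p.support_ne_nil]
    rcases ih with rfl | ⟨v, hv, hadj⟩
    · exact ⟨x, List.mem_cons_self, h⟩
    · exact ⟨v, List.mem_cons_of_mem _ hv, hadj⟩

lemma exists_succ {u y : ℤ × ℤ} (b : squareLattice.Walk u y) :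
    u = y ∨ ∃ v ∈ b.support.tail, squareLattice.Adj u v := by
  cases b with
  | nil => exact Or.inl rfl
  | @cons _ v _ h p =>
    right
    exact ⟨v, by simp, h⟩

lemma abs_sub_le_length {h : ℤ × ℤ → ℝ} {C : ℝ}
    (hadj : ∀ x y, squareLattice.Adj x y → |h y - h x| ≤ C) {x y : ℤ × ℤ}
    (w : squareLattice.Walk x y) : |h y - h x| ≤ C * w.length := by
  induction w with
  | nil => simp
  | @cons u v y hh p ih =>
    have h1 := hadj _ _ hh
    rw [SimpleGraph.Walk.length_cons]
    push_cast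
    have e : h y - h u = (h y - h v) + (h v - h u) := by ring
    rw [e]
    refine (abs_add_le _ _).trans ?_
    linarith

/-- a walk crosses every intermediate level -/
lemma exists_cross {h : ℤ × ℤ → ℝ} {C : ℝ} (hC : 0 ≤ C)
    (hadj : ∀ x y, squareLattice.Adj x y → |h y - h x| ≤ C) {x y : ℤ × ℤ}
    (w : squareLattice.Walk x y) {s : ℝ} (hx : h x ≤ s) (hy : s ≤ h y) :
    ∃ (u : ℤ × ℤ) (w1 : squareLattice.Walk x u) (w2 : squareLattice.Walk u y),
      w = w1.append w2 ∧ |h u - s| ≤ C := by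
  obtain ⟨u, a, b, e, hu, ha⟩ := exists_first w {z | s ≤ h z} ⟨y, w.end_mem_support, hy⟩
  refine ⟨u, a, b, e, ?_⟩
  have hu' : s ≤ h u := hu
  rw [abs_of_nonneg (by linarith)]
  rcases exists_pred a with rfl | ⟨v, hv, hvu⟩
  · linarith
  · have h1 := ha v hv
    have h1' : h v < s := lt_of_not_ge h1
    have h2 := hadj v u hvu
    rw [abs_le] at h2
    linarith

lemma al_adj (F : FlatData μ) (θ : ℝ × ℝ) (x y : ℤ × ℤ) (h : squareLattice.Adj x y) :
    |F.al (pos θ y) - F.al (pos θ x)| ≤ GG F := by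
  rw [← map_sub, pos_sub]
  have h1 := al_le F (toR y - toR x)
  have h2 := norm_adj h
  have := one_le_GG F
  nlinarith

lemma Nodup_edges_of_append {x p q y : ℤ × ℤ} {w : squareLattice.Walk x y}
    {w1 : squareLattice.Walk x p} {w2 : squareLattice.Walk p q} {w3 : squareLattice.Walk q y}
    (e : w = (w1.append w2).append w3) (hw : w.edges.Nodup) : w2.edges.Nodup := by
  rw [e, SimpleGraph.Walk.edges_append, SimpleGraph.Walk.edges_append] at hw
  exact (List.Nodup.of_append_right (List.Nodup.of_append_left hw))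

lemma lane_mem {F : FlatData μ} {w : ℝ} {θ : ℝ × ℝ} {z : ℤ × ℤ} :
    z ∈ laneB F.swap w θ ↔ |F.be (pos θ z)| ≤ w / 2 := by
  unfold laneB
  rw [Set.mem_ofPred_eq, F.al_swap]

/-- central nodes of the lane are connected in the lane -/
lemma lane_conn (F : FlatData μ) {w : ℝ} (hw : 5 * GG F ≤ w) (θ : ℝ × ℝ) (s s' : ℝ) :
    Conn (laneB F.swap w θ) (nr (θ - s • F.a)) (nr (θ - s' • F.a)) := by
  obtain ⟨W, h1, -⟩ := seg_walk θ (s • F.a) (s' • F.a)
  refine ⟨W, fun z hz => ?_⟩
  obtain ⟨r, -, -, hr⟩ := h1 z hz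
  rw [lane_mem]
  have h2 := (be_le F _).trans (mul_le_mul_of_nonneg_left hr
    (by linarith [one_le_GG F] : 0 ≤ GG F))
  simp only [map_sub, map_add, map_smul, F.be_a, smul_eq_mul, mul_zero, sub_zero, add_zero] at h2
  linarith

/-- cost of the lane connection of two vertices of nearly the same level -/
lemma pR_le_DD (F : FlatData μ) {C1 w1 : ℝ} (hB : BandProp F C1 w1) (ht : Nn t) {w : ℝ}
    (hw : w1 ≤ w) {θ : ℝ × ℝ} {a q : ℤ × ℤ} (ha : |F.be (pos θ a)| ≤ w / 2)
    (hq : |F.be (pos θ q)| ≤ w / 2) (haq : |F.al (pos θ a) - F.al (pos θ q)| ≤ GG F) :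
    Conn (laneB F.swap w θ) a q ∧ pR t (laneB F.swap w θ) a q ≤ DD F C1 w q t := by
  obtain ⟨hC1, hw1, hB⟩ := hB
  have c1 := hB w hw θ (F.al (pos θ q)) a haq ha
  have c2 := hB w hw θ (F.al (pos θ q)) q (by
    rw [sub_self, abs_zero]; linarith [one_le_GG F]) hq
  obtain ⟨P, hP1, hP2⟩ := Conn.exists_path (c1.trans c2.symm)
  have hPl : ∀ z ∈ P.support, z ∈ laneB F.swap w θ := fun z hz => lane_mem.2 (hP2 z hz).2
  refine ⟨⟨P, hPl⟩, (pR_le ht P hPl).trans ?_⟩
  refine walkCost_le_DD ht F P hP1 fun z hz => ?_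
  have h1 := hP2 z hz
  rw [← pos_sub θ, map_sub, map_sub]
  refine ⟨h1.1, ?_⟩
  refine (abs_sub _ _).trans ?_
  have := h1.2
  linarith

/-- a sub-walk of a nearly optimal walk is nearly optimal -/
lemma near_opt (ht : Nn t) {R : Set (ℤ × ℤ)} {x p q y : ℤ × ℤ} {w : squareLattice.Walk x y}
    {w1 : squareLattice.Walk x p} {w2 : squareLattice.Walk p q} {w3 : squareLattice.Walk q y}
    (e : w = (w1.append w2).append w3) (hR : ∀ z ∈ w.support, z ∈ R) {ε : ℝ}
    (hw : walkCost t w < pR t R x y + ε) (hc : Conn R p q) :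
    walkCost t w2 < pR t R p q + ε := by
  have h1 : pR t R x y - walkCost t w1 - walkCost t w3 ≤ pR t R p q := by
    refine le_pR hc fun r hr => ?_
    have h2 := pR_le (R := R) ht ((w1.append r).append w3) (fun z hz => by
      rw [SimpleGraph.Walk.mem_support_append_iff, SimpleGraph.Walk.mem_support_append_iff] at hz
      rcases hz with (hz | hz) | hz
      · apply hR; rw [e, SimpleGraph.Walk.mem_support_append_iff,
          SimpleGraph.Walk.mem_support_append_iff]; exact Or.inl (Or.inl hz)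
      · exact hr z hz
      · apply hR; rw [e, SimpleGraph.Walk.mem_support_append_iff]; exact Or.inr hz)
    rw [walkCost_append, walkCost_append] at h2
    linarith
  rw [e, walkCost_append, walkCost_append] at hw
  linarith

/-- **Main deterministic estimate.** -/
lemma main_det (F : FlatData μ) {L C w0 C1 w1 : ℝ} (hS : StartProp F L C w0)
    (hB : BandProp F C1 w1) (ht : Nn t) {w n0 κ c0 : ℝ} {m : ℕ} {θ : ℝ × ℝ} (hθ : nr θ = 0)
    (hw : w0 ≤ w) (hw1 : w1 ≤ w) (hw2 : 5 * GG F ≤ w) (hn0 : C + 2 * L + 2 * GG F < n0)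
    (hκ : C ≤ κ) (hm : GG F * m + GG F ≤ κ)
    (hgood : ∀ z ∈ box (bxN F w n0), DD F C1 w z t + 1 < c0 * m ∧ t ∉ Bad c0 m z) :
    blkCost F w n0 κ θ t ≤ pR t (laneB F.swap w θ) 0 (nxt F n0 θ) + 1 +
      (DD F (C + 2 * GG F) w 0 t + DD F (C + 2 * GG F) w (zEnd F n0) t) := by
  have hG := one_le_GG F
  have hL : 4 * GG F < L := hS.1
  have hC : 0 < C := hS.2.1
  have hwpos : 0 ≤ w := by linarith
  have hθn : ‖θ‖ ≤ 1 / 2 := by
    have h := norm_pos_nr θ 0
    simp only [sub_zero] at h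
    rw [hθ, pos_zero] at h
    exact h
  have hθal : |F.al (pos θ 0)| ≤ GG F / 2 := by
    rw [pos_zero]
    have := (al_le F θ).trans (mul_le_mul_of_nonneg_left hθn (by linarith : 0 ≤ GG F))
    linarith
  have hnal := al_nxt F n0 θ
  have hnG := norm_al_le F
  rw [abs_le] at hθal hnal
  -- the nearly optimal path of the lane
  have hconn : Conn (laneB F.swap w θ) 0 (nxt F n0 θ) := by
    have := lane_conn F hw2 θ 0 n0
    rw [zero_smul, sub_zero, hθ] at this
    exact this
  obtain ⟨g0, hg0, hg0c⟩ := exists_walk_lt_pR hconn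
    (show pR t (laneB F.swap w θ) 0 (nxt F n0 θ) < pR t (laneB F.swap w θ) 0 (nxt F n0 θ) + 1 by
      linarith)
  obtain ⟨g, hgp, hgR, hgc⟩ : ∃ g : squareLattice.Walk 0 (nxt F n0 θ), g.IsPath ∧
      (∀ z ∈ g.support, z ∈ laneB F.swap w θ) ∧
      walkCost t g < pR t (laneB F.swap w θ) 0 (nxt F n0 θ) + 1 :=
    ⟨g0.bypass, g0.bypass_isPath, fun z hz => hg0 z (g0.support_bypass_subset_support hz),
      (walkCost_bypass_le ht g0).trans_lt hg0c⟩
  have hs12 : F.al (pos θ 0) + L < F.al (pos θ (nxt F n0 θ)) - L := by linarith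
  -- the middle piece
  obtain ⟨u, a, b', e1, hu, hb'⟩ := exists_last g {z | F.al (pos θ z) ≤ F.al (pos θ 0) + L}
    ⟨0, g.start_mem_support, by
      rw [Set.mem_ofPred_eq]; linarith⟩
  obtain ⟨v, o, c, e2, hv, ho⟩ := exists_first b'
    {z | F.al (pos θ (nxt F n0 θ)) - L ≤ F.al (pos θ z)}
    ⟨nxt F n0 θ, b'.end_mem_support, by
      rw [Set.mem_ofPred_eq]; linarith⟩
  rw [Set.mem_ofPred_eq] at hu hv
  have hb2 : ∀ z ∈ b'.support.tail, F.al (pos θ 0) + L < F.al (pos θ z) :=
    fun z hz => lt_of_not_ge (hb' z hz)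
  have ho2 : ∀ z ∈ o.support.dropLast, F.al (pos θ z) < F.al (pos θ (nxt F n0 θ)) - L :=
    fun z hz => lt_of_not_ge (ho z hz)
  have ho3 : ∀ z ∈ o.support.tail, F.al (pos θ 0) + L < F.al (pos θ z) := by
    intro z hz
    apply hb2
    rw [e2, mem_tail_append]
    exact Or.inl hz
  have hu2 : F.al (pos θ 0) + L - GG F ≤ F.al (pos θ u) := by
    rcases exists_succ b' with h | ⟨z, hz, hadj⟩
    · exfalso
      rw [h] at hu
      linarith
    · have h1 := hb2 z hz
      have h2 := al_adj F θ u z hadj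
      rw [abs_le] at h2
      linarith
  have hv2 : F.al (pos θ v) ≤ F.al (pos θ (nxt F n0 θ)) - L + GG F := by
    rcases exists_pred o with h | ⟨z, hz, hadj⟩
    · exfalso
      rw [h] at hu
      linarith
    · have h1 := ho2 z hz
      have h2 := al_adj F θ z v hadj
      rw [abs_le] at h2
      linarith
  have ho4 : ∀ z ∈ o.support, F.al (pos θ 0) + L - GG F ≤ F.al (pos θ z) ∧
      F.al (pos θ z) ≤ F.al (pos θ (nxt F n0 θ)) - L + GG F := by
    intro z hz
    constructor
    · rcases (R78.mem_support_iff_tail o).1 hz with rfl | hz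
      · exact hu2
      · linarith [ho3 z hz]
    · rcases (R78.mem_support_iff_dropLast o).1 hz with hz | rfl
      · linarith [ho2 z hz]
      · exact hv2
  have eg : g = (a.append o).append c := by rw [e1, e2, SimpleGraph.Walk.append_assoc]
  have hoR : ∀ z ∈ o.support, |F.be (pos θ z)| ≤ w / 2 := by
    intro z hz
    refine lane_mem.1 (hgR z ?_)
    rw [eg, mem_support_append, mem_support_append]
    exact Or.inl (Or.inr hz)
  have hobox : ∀ z ∈ o.support, z ∈ box (bxN F w n0) := by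
    intro z hz
    have h1 := ho4 z hz
    exact mem_box_bxN F hθn hwpos (hoR z hz) (by linarith) (by linarith)
  -- no backtracking
  have hbt : bt (fun z => F.al (toR z)) κ o.support := by
    refine pairwise_support o _ ?_
    intro p q o1 o2 o3 eo
    by_contra hcon
    rw [not_le] at hcon
    have hcon' : F.al (pos θ q) + κ < F.al (pos θ p) := by
      unfold pos
      rw [map_add, map_add]
      linarith
    have hqo : q ∈ o.support := by
      rw [eo, mem_support_append]; exact Or.inr o3.start_mem_support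
    have hcross : ∃ (a' : ℤ × ℤ) (o11 : squareLattice.Walk u a') (o12 : squareLattice.Walk a' p),
        o1 = o11.append o12 ∧ |F.al (pos θ a') - F.al (pos θ q)| ≤ GG F := by
      rcases le_total (F.al (pos θ u)) (F.al (pos θ q)) with h | h
      · exact exists_cross (h := fun z => F.al (pos θ z)) (by linarith) (al_adj F θ) o1 h
          (by linarith)
      · refine ⟨u, SimpleGraph.Walk.nil, o1, rfl, ?_⟩
        have := (ho4 q hqo).1
        rw [abs_of_nonneg (by linarith)]
        linarith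
    obtain ⟨a', o11, o12, e3, ha'⟩ := hcross
    have ha'o : a' ∈ o.support := by
      rw [eo, e3, mem_support_append, mem_support_append, mem_support_append]
      exact Or.inl (Or.inl (Or.inr o12.start_mem_support))
    obtain ⟨hc1, hc2⟩ := pR_le_DD F hB ht hw1 (hoR a' ha'o) (hoR q hqo) ha'
    have eg2 : g = ((a.append o11).append (o12.append o2)).append (o3.append c) := by
      rw [eg, eo, e3]
      simp only [SimpleGraph.Walk.append_assoc]
    have hopt := near_opt ht eg2 hgR hgc hc1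
    have hnd := Nodup_edges_of_append eg2 hgp.isTrail.edges_nodup
    have hlen : m ≤ (o12.append o2).length := by
      have h1 := abs_sub_le_length (h := fun z => F.al (pos θ z)) (al_adj F θ) o12
      rw [SimpleGraph.Walk.length_append]
      have h2 : GG F * m ≤ GG F * o12.length := by
        refine le_trans ?_ h1
        rw [abs_le] at ha'
        refine le_trans ?_ (le_abs_self _)
        linarith
      have h3 : (m : ℝ) ≤ o12.length := le_of_mul_le_mul_left h2 (by linarith)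
      have h4 : m ≤ o12.length := by exact_mod_cast h3
      omega
    have hg1 := hgood q (hobox q hqo)
    have hg2 := hgood a' (hobox a' ha'o)
    have h5 := cost_ge_of_not_Bad ht hg2.2 (o12.append o2) hnd hlen
    linarith
  obtain ⟨l, hl, hlc⟩ := glue F (n0 := n0) hS hθn hw (by linarith) (by linarith) hκ o
    (by rw [abs_le]; constructor <;> linarith) (by rw [abs_le]; constructor <;> linarith)
    (fun z hz => ⟨hoR z hz, by linarith [(ho4 z hz).1], by linarith [(ho4 z hz).2]⟩) hbt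
  refine (sInf_paths_le ht hl).trans ((hlc t ht).trans ?_)
  have h6 : walkCost t o ≤ walkCost t g := by
    rw [eg, walkCost_append, walkCost_append]
    have := walkCost_nonneg ht a
    have := walkCost_nonneg ht c
    linarith
  linarith

/-- **Fallback.** -/
lemma fallback (F : FlatData μ) {L C w0 : ℝ} (hS : StartProp F L C w0)
    (ht : Nn t) {w n0 κ : ℝ} {θ : ℝ × ℝ} (hθ : nr θ = 0)
    (hw : w0 ≤ w) (hw2 : 5 * GG F ≤ w) (hn0 : C + 2 * L + 2 * GG F < n0)
    (hκ : C ≤ κ) (hκ2 : 5 * GG F ≤ κ) :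
    blkCost F w n0 κ θ t ≤ ∑ e ∈ ED (box (bxN F w n0)), t e +
      (DD F (C + 2 * GG F) w 0 t + DD F (C + 2 * GG F) w (zEnd F n0) t) := by
  have hG := one_le_GG F
  have hL : 4 * GG F < L := hS.1
  have hC : 0 < C := hS.2.1
  have hwpos : 0 ≤ w := by linarith
  have hθn : ‖θ‖ ≤ 1 / 2 := by
    have h := norm_pos_nr θ 0
    simp only [sub_zero] at h
    rw [hθ, pos_zero] at h
    exact h
  have hθal : |F.al (pos θ 0)| ≤ GG F / 2 := by
    rw [pos_zero]
    have := (al_le F θ).trans (mul_le_mul_of_nonneg_left hθn (by linarith : 0 ≤ GG F))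
    linarith
  have hnal := al_nxt F n0 θ
  have hnG := norm_al_le F
  rw [abs_le] at hθal hnal
  set s1 := F.al (pos θ 0) + L with hs1
  set s2 := F.al (pos θ (nxt F n0 θ)) - L with hs2
  have hs12 : s1 < s2 := by linarith
  obtain ⟨W0, h1, h2⟩ := seg_walk θ (s1 • F.a) (s2 • F.a)
  have hbt0 : bt (fun z => F.al (toR z)) κ W0.support := by
    have h3 := h2 F.al (GG F) (al_le F) (by
      rw [map_smul, map_smul, F.al_a, smul_eq_mul, smul_eq_mul, mul_one, mul_one]; exact hs12.le)
    refine h3.imp ?_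
    intro a b hab
    unfold pos at hab
    rw [map_add, map_add] at hab
    linarith
  have hW0 : ∀ z ∈ W0.bypass.support, |F.be (pos θ z)| ≤ w / 2 ∧
      s1 - 3 * GG F ≤ F.al (pos θ z) ∧ F.al (pos θ z) ≤ s2 + 3 * GG F := by
    intro z hz
    obtain ⟨r, hr0, hr1, hr⟩ := h1 z (W0.support_bypass_subset_support hz)
    have h3 := (be_le F _).trans (mul_le_mul_of_nonneg_left hr (by linarith : 0 ≤ GG F))
    have h4 := (al_le F _).trans (mul_le_mul_of_nonneg_left hr (by linarith : 0 ≤ GG F))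
    simp only [map_sub, map_add, map_smul, F.be_a, F.al_a, smul_eq_mul, mul_zero, sub_zero,
      add_zero, mul_one] at h3 h4
    rw [abs_le] at h4
    refine ⟨by linarith, ?_, ?_⟩ <;> nlinarith
  have hu : |F.al (pos θ (nr (θ - s1 • F.a))) - s1| ≤ GG F := by
    have h3 := (al_le F _).trans (mul_le_mul_of_nonneg_left (norm_pos_nr θ (s1 • F.a))
      (by linarith : 0 ≤ GG F))
    rw [map_sub, map_smul, F.al_a, smul_eq_mul, mul_one] at h3
    linarith
  have hv : |F.al (pos θ (nr (θ - s2 • F.a))) - s2| ≤ GG F := by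
    have h3 := (al_le F _).trans (mul_le_mul_of_nonneg_left (norm_pos_nr θ (s2 • F.a))
      (by linarith : 0 ≤ GG F))
    rw [map_sub, map_smul, F.al_a, smul_eq_mul, mul_one] at h3
    linarith
  obtain ⟨l, hl, hlc⟩ := glue F (n0 := n0) hS hθn hw (by linarith) (by linarith) hκ W0.bypass
    hu hv hW0 (hbt0.sublist W0.support_bypass_sublist_support)
  refine (sInf_paths_le ht hl).trans ((hlc t ht).trans ?_)
  have h6 : walkCost t W0.bypass ≤ ∑ e ∈ ED (box (bxN F w n0)), t e := by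
    refine walkCost_le_sum ht _ W0.bypass_isPath.isTrail.edges_nodup fun z hz => ?_
    have h7 := hW0 z hz
    exact mem_box_bxN F hθn hwpos h7.1 (by linarith) (by linarith)
  linarith

end Crest.Agent.R151.U450
end

-- ▼ part R151/U450e
section

/-!
# R151/U450e — counting, moments of the band sums, the bad event (owner helper450)
-/

set_option autoImplicit false

open MeasureTheory Filter ProbabilityTheory Topology
open Crest.ProbabilityR.FirstPassage
open Crest.Agent.R151.K
open Crest.Agent.R151.Q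

namespace Crest.Agent.R151.U450

open B710 (FlatData)

variable {μ : ℝ × ℝ → ℝ} {G : Measure ℝ} [IsProbabilityMeasure G] {lam : ℝ}

/-! ### Counting -/

lemma card_BZ_le (F : FlatData μ) {c w : ℝ} (hc : 0 ≤ c) (hw : 1 ≤ w) :
    ((BZ F c w).card : ℝ) ≤ (4 * GG F * c + 3) * (4 * GG F + 3) * w := by
  classical
  have hG := one_le_GG F
  set P : Finset (ℤ × ℤ) := Finset.Icc (-(⌈2 * GG F * c⌉₊ : ℤ)) ⌈2 * GG F * c⌉₊ ×ˢ
    Finset.Icc (-(⌈2 * GG F * w⌉₊ : ℤ)) ⌈2 * GG F * w⌉₊ with hP
  have hfl : ∀ (x r : ℝ), |x| ≤ r → ⌊2 * GG F * x⌋ ∈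
      Finset.Icc (-(⌈2 * GG F * r⌉₊ : ℤ)) ⌈2 * GG F * r⌉₊ := by
    intro x r hx
    rw [abs_le] at hx
    have h1 : 2 * GG F * x ≤ 2 * GG F * r := by
      have : 0 ≤ 2 * GG F := by linarith
      nlinarith
    have h2 : -(2 * GG F * r) ≤ 2 * GG F * x := by
      have : 0 ≤ 2 * GG F := by linarith
      nlinarith
    have h3 := Nat.le_ceil (2 * GG F * r)
    rw [Finset.mem_Icc]
    constructor
    · rw [Int.le_floor]; push_cast; linarith
    · have := Int.floor_le (2 * GG F * x)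
      have h4 : ((⌊2 * GG F * x⌋ : ℤ) : ℝ) ≤ ((⌈2 * GG F * r⌉₊ : ℤ) : ℝ) := by
        push_cast; linarith
      exact_mod_cast h4
  have hcard : (BZ F c w).card ≤ P.card := by
    refine Finset.card_le_card_of_injOn
      (fun z => (⌊2 * GG F * F.al (toR z)⌋, ⌊2 * GG F * F.be (toR z)⌋)) ?_ ?_
    · intro z hz
      have hz' := mem_BZ.1 (Finset.mem_coe.1 hz)
      rw [Finset.mem_coe, hP, Finset.mem_product]
      exact ⟨hfl _ _ hz'.1, hfl _ _ hz'.2⟩
    · intro z _ z' _ hzz
      simp only [Prod.mk.injEq] at hzz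
      have h1 := Int.abs_sub_lt_one_of_floor_eq_floor hzz.1
      have h2 := Int.abs_sub_lt_one_of_floor_eq_floor hzz.2
      have h3 := norm_le_al_be F (toR z - toR z')
      rw [map_sub, map_sub] at h3
      have h4 : ‖toR z - toR z'‖ < 1 := by
        refine lt_of_le_of_lt h3 ?_
        rw [← mul_sub, abs_mul, abs_of_pos (by linarith : 0 < 2 * GG F)] at h1 h2
        nlinarith
      have h5 := (abs_fst_le (toR z - toR z')).trans_lt h4
      have h6 := (abs_snd_le (toR z - toR z')).trans_lt h4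
      simp only [toR, Prod.fst_sub, Prod.snd_sub] at h5 h6
      have h7 : |z.1 - z'.1| < 1 := by exact_mod_cast h5
      have h8 : |z.2 - z'.2| < 1 := by exact_mod_cast h6
      rw [Int.abs_lt_one_iff] at h7 h8
      exact Prod.ext (by omega) (by omega)
  have hPc : (P.card : ℝ) = (2 * ⌈2 * GG F * c⌉₊ + 1) * (2 * ⌈2 * GG F * w⌉₊ + 1) := by
    rw [hP, Finset.card_product, Int.card_Icc, Int.card_Icc]
    have h1 : ∀ n : ℕ, ((n : ℤ) + 1 - -(n : ℤ)).toNat = 2 * n + 1 := by intro n; omega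
    rw [h1, h1]
    push_cast
    ring
  have h9 : ((⌈2 * GG F * c⌉₊ : ℕ) : ℝ) ≤ 2 * GG F * c + 1 :=
    (Nat.ceil_lt_add_one (by positivity)).le
  have h10 : ((⌈2 * GG F * w⌉₊ : ℕ) : ℝ) ≤ 2 * GG F * w + 1 :=
    (Nat.ceil_lt_add_one (by positivity)).le
  calc ((BZ F c w).card : ℝ) ≤ P.card := by exact_mod_cast hcard
    _ = (2 * ⌈2 * GG F * c⌉₊ + 1) * (2 * ⌈2 * GG F * w⌉₊ + 1) := hPc
    _ ≤ (2 * (2 * GG F * c + 1) + 1) * (2 * (2 * GG F * w + 1) + 1) := by gcongr
    _ ≤ (4 * GG F * c + 3) * ((4 * GG F + 3) * w) := by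
        have e1 : 2 * (2 * GG F * c + 1) + 1 = 4 * GG F * c + 3 := by ring
        rw [e1]
        gcongr
        nlinarith
    _ = _ := by ring

/-- number of edges in a band sum -/
lemma card_DD_le (F : FlatData μ) (z : ℤ × ℤ) {c w : ℝ} (hc : 0 ≤ c) (hw : 1 ≤ w) :
    ((ED ((BZ F c w).image (· + z))).card : ℝ) ≤
      2 * ((4 * GG F * c + 3) * (4 * GG F + 3)) * w := by
  classical
  have h1 := card_ED_le ((BZ F c w).image (· + z))
  have h2 := Finset.card_image_le (s := BZ F c w) (f := (· + z))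
  have h3 := card_BZ_le F hc hw
  have h4 : ((ED ((BZ F c w).image (· + z))).card : ℝ) ≤ 2 * (BZ F c w).card := by
    exact_mod_cast h1.trans (by omega)
  linarith

lemma card_EDbox (N : ℕ) : ((ED (box N)).card : ℝ) ≤ 2 * (2 * N + 1) ^ 2 := by
  have h1 := card_ED_le (box N)
  rw [card_box] at h1
  exact_mod_cast h1

/-! ### Sums of weights -/

lemma integrable_edge (h2 : Integrable (fun x : ℝ => x ^ 2) G) (e : Sym2 (ℤ × ℤ)) :
    Integrable (fun t : Environment => t e) (iidLaw G) :=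
  (mp_eval (G := G) e).integrable_comp_of_integrable (integrable_id_of_sq h2)

lemma integral_edge (h2 : Integrable (fun x : ℝ => x ^ 2) G) (e : Sym2 (ℤ × ℤ)) :
    ∫ t : Environment, t e ∂(iidLaw G) = ∫ z, z ∂G := by
  have h := (mp_eval (G := G) e)
  conv_rhs => rw [← h.map_eq]
  rw [integral_map h.measurable.aemeasurable (by rw [h.map_eq]; exact (integrable_id_of_sq h2).1)]

lemma integrable_sum_edges (h2 : Integrable (fun x : ℝ => x ^ 2) G)
    (E : Finset (Sym2 (ℤ × ℤ))) :
    Integrable (fun t : Environment => ∑ e ∈ E, t e) (iidLaw G) :=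
  integrable_finsetSum _ fun e _ => integrable_edge h2 e

lemma integral_sum_edges (h2 : Integrable (fun x : ℝ => x ^ 2) G)
    (E : Finset (Sym2 (ℤ × ℤ))) :
    ∫ t : Environment, ∑ e ∈ E, t e ∂(iidLaw G) = E.card * ∫ z, z ∂G := by
  rw [integral_finsetSum _ fun e _ => integrable_edge h2 e]
  simp [integral_edge h2]

lemma sum_edges_sq (h2 : Integrable (fun x : ℝ => x ^ 2) G)
    (E : Finset (Sym2 (ℤ × ℤ))) :
    Integrable (fun t : Environment => (∑ e ∈ E, t e) ^ 2) (iidLaw G) ∧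
    ∫ t : Environment, (∑ e ∈ E, t e) ^ 2 ∂(iidLaw G) ≤ (E.card : ℝ) ^ 2 * ∫ z, z ^ 2 ∂G := by
  have hint : Integrable (fun t : Environment => (E.card : ℝ) * ∑ e ∈ E, t e ^ 2) (iidLaw G) :=
    (integrable_finsetSum _ fun e _ => integrable_edge_sq h2 e).const_mul _
  have hb : ∀ t : Environment, (∑ e ∈ E, t e) ^ 2 ≤ (E.card : ℝ) * ∑ e ∈ E, t e ^ 2 :=
    fun t => sq_sum_le_card_mul_sum_sq
  have hm : Measurable fun t : Environment => ∑ e ∈ E, t e :=
    Finset.measurable_fun_sum _ fun e _ => measurable_pi_apply e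
  have hi : Integrable (fun t : Environment => (∑ e ∈ E, t e) ^ 2) (iidLaw G) := by
    refine hint.mono' (hm.pow_const 2).aestronglyMeasurable (ae_of_all _ fun t => ?_)
    rw [Real.norm_eq_abs, abs_of_nonneg (sq_nonneg _)]
    exact hb t
  refine ⟨hi, (integral_mono hi hint hb).trans ?_⟩
  rw [integral_const_mul, integral_finsetSum _ fun e _ => integrable_edge_sq h2 e]
  simp only [integral_edge_sq h2, Finset.sum_const, nsmul_eq_mul]
  rw [← mul_assoc, ← sq]

/-- Chernoff upper bound for a sum of weights -/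
lemma chernoff_sum (hlam : 0 < lam)
    (hexp : Integrable (fun x => Real.exp (lam * x)) G) (E : Finset (Sym2 (ℤ × ℤ))) (x : ℝ) :
    (iidLaw G).real {t | x ≤ ∑ e ∈ E, t e} ≤
      Real.exp (-(lam * x)) * (∫ z, Real.exp (lam * z) ∂G) ^ E.card := by
  obtain ⟨h1, h2⟩ := exp_sum hexp E
  have h3 := mul_meas_ge_le_integral_of_nonneg (μ := iidLaw G)
    (f := fun t : Environment => Real.exp (lam * ∑ e ∈ E, t e))
    (Filter.Eventually.of_forall fun t => Real.exp_nonneg _) h1 (Real.exp (lam * x))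
  have h4 : (iidLaw G).real {t : Environment | x ≤ ∑ e ∈ E, t e} ≤
      (iidLaw G).real {t | Real.exp (lam * x) ≤ Real.exp (lam * ∑ e ∈ E, t e)} := by
    refine measureReal_mono ?_
    intro t ht
    simp only [Set.mem_ofPred_eq] at ht ⊢
    exact Real.exp_le_exp.2 (mul_le_mul_of_nonneg_left ht hlam.le)
  rw [h2] at h3
  rw [Real.exp_neg, ← div_eq_inv_mul, le_div_iff₀ (Real.exp_pos _), mul_comm]
  exact (mul_le_mul_of_nonneg_left h4 (Real.exp_pos _).le).trans h3

/-! ### The bad event -/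

/-- the bad event -/
def BadE (F : FlatData μ) (C1 w c0 : ℝ) (m N : ℕ) : Set Environment :=
  {t | ∃ z ∈ box N, c0 * m ≤ DD F C1 w z t + 1 ∨ t ∈ Bad c0 m z}

lemma measurable_DD (F : FlatData μ) (c w : ℝ) (z : ℤ × ℤ) : Measurable (DD F c w z) := by
  classical
  unfold DD
  exact Finset.measurable_fun_sum _ fun e _ => measurable_pi_apply e

lemma BadE_eq (F : FlatData μ) (C1 w c0 : ℝ) (m N : ℕ) : BadE F C1 w c0 m N =
    ⋃ z ∈ box N, ({t | c0 * m - 1 ≤ DD F C1 w z t} ∪ Bad c0 m z) := by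
  ext t
  simp only [BadE, Set.mem_ofPred_eq, Set.mem_iUnion, Set.mem_union, exists_prop]
  constructor
  · rintro ⟨z, hz, h | h⟩
    · exact ⟨z, hz, Or.inl (by linarith)⟩
    · exact ⟨z, hz, Or.inr h⟩
  · rintro ⟨z, hz, h | h⟩
    · exact ⟨z, hz, Or.inl (by linarith)⟩
    · exact ⟨z, hz, Or.inr h⟩

lemma measurableSet_BadE (F : FlatData μ) (C1 w c0 : ℝ) (m N : ℕ) :
    MeasurableSet (BadE F C1 w c0 m N) := by
  rw [BadE_eq]
  refine Finset.measurableSet_biUnion _ fun z _ => ?_
  exact (measurableSet_le measurable_const (measurable_DD F C1 w z)).union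
    (measurableSet_Bad c0 m z)

lemma prob_BadE (F : FlatData μ) (h0 : G (Set.Iio 0) = 0) (hlam : 0 < lam)
    (hexp : Integrable (fun x => Real.exp (lam * x)) G) {C1 c0 : ℝ} (hC1 : 0 ≤ C1)
    (hc0 : 0 < c0) (hBad : ∀ (n : ℕ) (x : ℤ × ℤ), (iidLaw G).real (Bad c0 n x) ≤ (1 / 2) ^ n) :
    ∃ K0 : ℝ, 0 < K0 ∧ ∀ w : ℝ, 1 ≤ w → ∀ m N : ℕ, K0 * w ≤ m →
      (iidLaw G).real (BadE F C1 w c0 m N) ≤
        (2 * N + 1) ^ 2 * ((Real.exp lam + 1) * Real.exp (-w)) := by
  classical
  have hM := one_le_M h0 hlam hexp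
  set M := ∫ x, Real.exp (lam * x) ∂G with hMdef
  have hlogM : 0 ≤ Real.log M := Real.log_nonneg hM
  have hG := one_le_GG F
  set A : ℝ := 2 * ((4 * GG F * C1 + 3) * (4 * GG F + 3)) with hA
  have hA0 : 0 ≤ A := by positivity
  refine ⟨(A * Real.log M + 1) / (lam * c0) + 2, by positivity, ?_⟩
  intro w hw m N hm
  have hm1 : (A * Real.log M + 1) * w ≤ lam * c0 * m := by
    have h1 : (A * Real.log M + 1) / (lam * c0) * w ≤ m := by nlinarith
    rw [div_mul_eq_mul_div, div_le_iff₀ (by positivity)] at h1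
    linarith
  have hm2 : 2 * w ≤ m := by
    have h1 : 0 ≤ (A * Real.log M + 1) / (lam * c0) * w := by positivity
    linarith
  have hone : ∀ z : ℤ × ℤ, (iidLaw G).real ({t | c0 * m - 1 ≤ DD F C1 w z t} ∪ Bad c0 m z) ≤
      (Real.exp lam + 1) * Real.exp (-w) := by
    intro z
    refine (measureReal_union_le _ _).trans ?_
    have e1 : (iidLaw G).real {t | c0 * m - 1 ≤ DD F C1 w z t} ≤
        Real.exp lam * Real.exp (-w) := by
      unfold DD
      refine (chernoff_sum hlam hexp _ _).trans ?_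
      have h1 : M ^ (ED ((BZ F C1 w).image (· + z))).card ≤ Real.exp (A * w * Real.log M) := by
        have h2 : M ^ (ED ((BZ F C1 w).image (· + z))).card =
            Real.exp (((ED ((BZ F C1 w).image (· + z))).card : ℝ) * Real.log M) := by
          rw [mul_comm, Real.exp_mul, Real.exp_log (by linarith), Real.rpow_natCast]
        rw [h2]
        refine Real.exp_le_exp.2 (mul_le_mul_of_nonneg_right ?_ hlogM)
        exact card_DD_le F z hC1 hw
      refine (mul_le_mul_of_nonneg_left h1 (Real.exp_pos _).le).trans ?_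
      rw [← Real.exp_add, ← Real.exp_add]
      refine Real.exp_le_exp.2 ?_
      nlinarith
    have e2 : (iidLaw G).real (Bad c0 m z) ≤ Real.exp (-w) := by
      refine (hBad m z).trans ?_
      have h1 : ((1 : ℝ) / 2) ^ m = Real.exp (-(m * Real.log 2)) := by
        rw [one_div, inv_pow, Real.exp_neg, mul_comm, Real.exp_mul,
          Real.exp_log (by norm_num), Real.rpow_natCast]
      rw [h1]
      refine Real.exp_le_exp.2 ?_
      have := Real.log_two_gt_d9
      nlinarith
    linarith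
  rw [BadE_eq]
  refine (measureReal_biUnion_finset_le _ _).trans ((Finset.sum_le_sum fun z _ => hone z).trans ?_)
  rw [Finset.sum_const, card_box, nsmul_eq_mul]
  push_cast
  exact le_rfl

end Crest.Agent.R151.U450
end

-- ▼ part R151/U450f

/-!
# R151/U450f — lane passage times on `P0`: integrability, stationarity, almost additivity, rate
(owner helper450)

`LT F w s s'` = passage time in the `a`-lane of width `w` between the nodes of levels `s`, `s'`.
-/

set_option autoImplicit false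

open MeasureTheory Filter ProbabilityTheory Topology
open Crest.ProbabilityR.FirstPassage
open Crest.Agent.R151.K
open Crest.Agent.R151.Q

namespace Crest.Agent.R151.U450

open B710 (FlatData)

variable {μ : ℝ × ℝ → ℝ} {G : Measure ℝ} [IsProbabilityMeasure G] {lam : ℝ} {t : Environment}

/-! ### Translation of the band sums -/

lemma mem_ED {Z : Finset (ℤ × ℤ)} {e : Sym2 (ℤ × ℤ)} : e ∈ ED Z ↔
    ∃ d : ℤ × ℤ, (d = (1, 0) ∨ d = (0, 1)) ∧ ∃ z ∈ Z, s(z, z + d) = e := by
  classical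
  unfold ED
  rw [Finset.mem_union, Finset.mem_image, Finset.mem_image]
  constructor
  · rintro (h | h)
    · exact ⟨(1, 0), Or.inl rfl, h⟩
    · exact ⟨(0, 1), Or.inr rfl, h⟩
  · rintro ⟨d, rfl | rfl, h⟩
    · exact Or.inl h
    · exact Or.inr h

lemma DD_act (F : FlatData μ) (c w : ℝ) (z m : ℤ × ℤ) (t : Environment) :
    DD F c w z (act (tr m) t) = DD F c w (z + m) t := by
  classical
  unfold DD act
  have hmap : ∀ u d : ℤ × ℤ, Sym2.map (tr m) s(u, u + d) = s(u + m, u + m + d) := by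
    intro u d
    rw [Sym2.map_mk, tr_apply, tr_apply, add_right_comm]
  refine Finset.sum_bij (fun e _ => Sym2.map (tr m) e) ?_ ?_ ?_ ?_
  · intro e he
    obtain ⟨d, hd, u, hu, rfl⟩ := mem_ED.1 he
    obtain ⟨v, hv, rfl⟩ := Finset.mem_image.1 hu
    refine mem_ED.2 ⟨d, hd, v + (z + m), Finset.mem_image.2 ⟨v, hv, rfl⟩, ?_⟩
    rw [hmap, add_assoc v z m]
  · intro a _ b _ h
    exact Sym2.map.injective (tr m).injective h
  · intro e he
    obtain ⟨d, hd, u, hu, rfl⟩ := mem_ED.1 he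
    obtain ⟨v, hv, rfl⟩ := Finset.mem_image.1 hu
    refine ⟨s(v + z, v + z + d), mem_ED.2 ⟨d, hd, v + z, Finset.mem_image.2 ⟨v, hv, rfl⟩, rfl⟩, ?_⟩
    rw [hmap, add_assoc v z m]
  · intro e _
    rfl

/-! ### Random translations -/

lemma measurable_nr : Measurable nr := by
  unfold nr
  have h : Measurable fun x : ℝ => round x := by
    have : (fun x : ℝ => round x) = fun x : ℝ => ⌊x + 1 / 2⌋ := by
      funext x; exact round_eq x
    rw [this]
    exact Int.measurable_floor.comp (measurable_id.add_const _)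
  exact ((h.comp measurable_fst).neg).prodMk ((h.comp measurable_snd).neg)

lemma mp_act_tr {g : ℝ × ℝ → ℤ × ℤ} (hg : Measurable g) :
    MeasurePreserving (fun p : (ℝ × ℝ) × Environment => act (tr (g p.1)) p.2) (P0 G)
      (iidLaw G) := by
  have h1 : MeasurePreserving (fun p : (ℝ × ℝ) × Environment => (p.1, act (tr (g p.1)) p.2))
      (P0 G) (P0 G) := by
    unfold P0
    refine MeasurePreserving.skew_product (f := fun x : ℝ × ℝ => x)
      (g := fun (x : ℝ × ℝ) (t : Environment) => act (tr (g x)) t) (MeasurePreserving.id _) ?_ ?_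
    · have : (Function.uncurry fun (x : ℝ × ℝ) (t : Environment) => act (tr (g x)) t)
          = (fun p : (ℤ × ℤ) × Environment => act (tr p.1) p.2) ∘
            (fun q : (ℝ × ℝ) × Environment => (g q.1, q.2)) := rfl
      rw [this]
      exact measurable_act_tr.comp ((hg.comp measurable_fst).prodMk measurable_snd)
    · exact ae_of_all _ fun x => (mp_act (G := G) _).map_eq
  exact (measurePreserving_snd (μ := UU2) (ν := iidLaw G)).comp h1

lemma ae_P0_Nn' (h0 : G (Set.Iio 0) = 0) : ∀ᵐ p ∂(P0 G), Nn p.2 ∧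
    p.1 ∈ Set.Ico (0 : ℝ) 1 ×ˢ Set.Ico (0 : ℝ) 1 := by
  have ha : ∀ᵐ p ∂(P0 G), Nn p.2 := by
    unfold P0
    exact (Measure.quasiMeasurePreserving_snd (μ := UU2) (ν := iidLaw G)).ae (ae_Nn h0)
  have hb : ∀ᵐ p ∂(P0 G), p.1 ∈ Set.Ico (0 : ℝ) 1 ×ˢ Set.Ico (0 : ℝ) 1 := by
    unfold P0
    exact (Measure.quasiMeasurePreserving_fst (μ := UU2) (ν := iidLaw G)).ae ae_UU2
  filter_upwards [ha, hb] with p h h' using ⟨h, h'⟩

/-- mean of the band sum around a random node -/
lemma DD_P0 (h2 : Integrable (fun x : ℝ => x ^ 2) G) (h0 : G (Set.Iio 0) = 0) (F : FlatData μ)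
    {c w : ℝ} (hc : 0 ≤ c) (hw : 1 ≤ w) {g : ℝ × ℝ → ℤ × ℤ} (hg : Measurable g) (z : ℤ × ℤ) :
    Integrable (fun p : (ℝ × ℝ) × Environment => DD F c w z (act (tr (g p.1)) p.2)) (P0 G) ∧
    ∫ p, DD F c w z (act (tr (g p.1)) p.2) ∂(P0 G) ≤
      2 * ((4 * GG F * c + 3) * (4 * GG F + 3)) * (∫ z, z ∂G) * w := by
  classical
  have h1 := mp_act_tr (G := G) hg
  have hi : Integrable (DD F c w z) (iidLaw G) := by
    unfold DD; exact integrable_sum_edges h2 _
  refine ⟨h1.integrable_comp_of_integrable hi, ?_⟩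
  have h3 := mp_integral h1 hi.aestronglyMeasurable
  rw [h3]
  unfold DD
  rw [integral_sum_edges h2]
  have h4 := card_DD_le F z hc hw
  have h5 : (0 : ℝ) ≤ ∫ z, z ∂G := integral_nonneg_of_ae (ae_nonneg h0)
  calc _ ≤ 2 * ((4 * GG F * c + 3) * (4 * GG F + 3)) * w * ∫ z, z ∂G := by gcongr
    _ = _ := by ring

/-! ### Lane passage times -/

/-- passage time in the `a`-lane between the nodes of levels `s` and `s'` -/
noncomputable def LT (F : FlatData μ) (w s s' : ℝ) (p : (ℝ × ℝ) × Environment) : ℝ :=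
  pR p.2 (laneB F.swap w p.1) (nr (p.1 - s • F.a)) (nr (p.1 - s' • F.a))

lemma LT_nonneg (F : FlatData μ) (w s s' : ℝ) {p : (ℝ × ℝ) × Environment} (ht : Nn p.2) :
    0 ≤ LT F w s s' p := pR_nonneg ht _ _ _

open Classical in
/-- cost of a walk if it stays in the lane, `∞` otherwise -/
noncomputable def gW (F : FlatData μ) (w : ℝ) {x y : ℤ × ℤ} (W : squareLattice.Walk x y)
    (p : (ℝ × ℝ) × Environment) : ENNReal :=
  if (∀ z ∈ W.support, |F.be (pos p.1 z)| ≤ w / 2) then ENNReal.ofReal (walkCost p.2 W) else ⊤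

lemma measurable_gW (F : FlatData μ) (w : ℝ) {x y : ℤ × ℤ} (W : squareLattice.Walk x y) :
    Measurable (gW F w W) := by
  unfold gW
  refine Measurable.ite ?_ ((measurable_walkCost W).comp measurable_snd).ennreal_ofReal
    measurable_const
  have : {p : (ℝ × ℝ) × Environment | ∀ z ∈ W.support, |F.be (pos p.1 z)| ≤ w / 2} =
      ⋂ z ∈ {z | z ∈ W.support}, {p : (ℝ × ℝ) × Environment | |F.be (pos p.1 z)| ≤ w / 2} := by
    ext p; simp
  rw [this]
  refine MeasurableSet.biInter (Set.to_countable _) fun z _ => ?_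
  refine measurableSet_le ?_ measurable_const
  have h1 : Measurable fun p : (ℝ × ℝ) × Environment => F.be (pos p.1 z) := by
    unfold pos
    exact F.be.continuous.measurable.comp (measurable_const.add measurable_fst)
  exact continuous_abs.measurable.comp h1

lemma iInf_gW (F : FlatData μ) (w : ℝ) {x y : ℤ × ℤ} {p : (ℝ × ℝ) × Environment} (ht : Nn p.2)
    (hc : Conn (laneB F.swap w p.1) x y) :
    (⨅ W : squareLattice.Walk x y, gW F w W p).toReal = pR p.2 (laneB F.swap w p.1) x y := by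
  have h1 : (⨅ W : squareLattice.Walk x y, gW F w W p) =
      ENNReal.ofReal (pR p.2 (laneB F.swap w p.1) x y) := by
    apply le_antisymm
    · by_contra hcon
      rw [not_le] at hcon
      obtain ⟨r, hr0, hr1, hr2⟩ := ENNReal.lt_iff_exists_real_btwn.1 hcon
      have hr1' : pR p.2 (laneB F.swap w p.1) x y < r := by
        by_contra h
        rw [not_lt] at h
        exact absurd (ENNReal.ofReal_le_ofReal h) (not_le.2 hr1)
      obtain ⟨W, hW, hWc⟩ := exists_walk_lt_pR hc hr1'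
      have h2 : gW F w W p = ENNReal.ofReal (walkCost p.2 W) := by
        unfold gW
        rw [if_pos fun z hz => lane_mem.1 (hW z hz)]
      have h3 := (iInf_le (fun W : squareLattice.Walk x y => gW F w W p) W)
      rw [h2] at h3
      exact absurd (h3.trans (ENNReal.ofReal_le_ofReal hWc.le)) (not_le.2 hr2)
    · refine le_iInf fun W => ?_
      unfold gW
      split_ifs with h
      · exact ENNReal.ofReal_le_ofReal (pR_le ht W fun z hz => lane_mem.2 (h z hz))
      · exact le_top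
  rw [h1, ENNReal.toReal_ofReal (pR_nonneg ht _ _ _)]

lemma aesm_LT (h0 : G (Set.Iio 0) = 0) (F : FlatData μ) {w : ℝ} (hw : 5 * GG F ≤ w) (s s' : ℝ) :
    AEStronglyMeasurable (LT F w s s') (P0 G) := by
  have hH : Measurable fun q : ((ℤ × ℤ) × (ℤ × ℤ)) × ((ℝ × ℝ) × Environment) =>
      ⨅ W : squareLattice.Walk q.1.1 q.1.2, gW F w W q.2 := by
    refine measurable_from_prod_countable_right fun m => ?_
    have : Measurable fun y : (ℝ × ℝ) × Environment =>
        ⨅ W : squareLattice.Walk m.1 m.2, gW F w W y :=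
      Measurable.iInf fun W => measurable_gW F w W
    exact this
  have hm : Measurable fun p : (ℝ × ℝ) × Environment =>
      (⨅ W : squareLattice.Walk (nr (p.1 - s • F.a)) (nr (p.1 - s' • F.a)), gW F w W p).toReal := by
    have h1 : Measurable fun p : (ℝ × ℝ) × Environment =>
        (((nr (p.1 - s • F.a), nr (p.1 - s' • F.a)), p) :
          ((ℤ × ℤ) × (ℤ × ℤ)) × ((ℝ × ℝ) × Environment)) :=
      ((measurable_nr.comp (measurable_fst.sub_const _)).prodMk
        (measurable_nr.comp (measurable_fst.sub_const _))).prodMk measurable_id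
    exact (hH.comp h1).ennreal_toReal
  refine ⟨_, hm.stronglyMeasurable, ?_⟩
  filter_upwards [ae_P0_Nn' h0] with p hp
  exact (iInf_gW F w hp.1 (lane_conn F hw p.1 s s')).symm

lemma LT_le_sum (F : FlatData μ) {w : ℝ} (hw : 5 * GG F ≤ w) (s s' : ℝ) {N : ℕ}
    (hN : (|s| + |s'|) * GG F + 4 ≤ N) {p : (ℝ × ℝ) × Environment} (ht : Nn p.2)
    (hξ : p.1 ∈ Set.Ico (0 : ℝ) 1 ×ˢ Set.Ico (0 : ℝ) 1) :
    LT F w s s' p ≤ ∑ e ∈ ED (box N), p.2 e := by
  have hG := one_le_GG F
  obtain ⟨W, h1, -⟩ := seg_walk p.1 (s • F.a) (s' • F.a)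
  have hξn : ‖p.1‖ ≤ 1 := by
    obtain ⟨⟨h1, h2⟩, ⟨h3, h4⟩⟩ := hξ
    refine norm_le_of ?_ ?_ <;> rw [abs_le] <;> constructor <;> linarith
  have hW : ∀ z ∈ W.bypass.support, z ∈ laneB F.swap w p.1 ∧ z ∈ box N := by
    intro z hz
    obtain ⟨r, hr0, hr1, hr⟩ := h1 z (W.support_bypass_subset_support hz)
    constructor
    · rw [lane_mem]
      have h2 := (be_le F _).trans (mul_le_mul_of_nonneg_left hr (by linarith : 0 ≤ GG F))
      simp only [map_sub, map_add, map_smul, F.be_a, smul_eq_mul, mul_zero, sub_zero,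
        add_zero] at h2
      linarith
    · refine mem_box_of_norm ?_
      have e1 : toR z = (pos p.1 z - (s • F.a + r • (s' • F.a - s • F.a))) +
          (s + r * (s' - s)) • F.a - p.1 := by
        unfold pos
        simp only [add_smul, mul_smul, sub_smul]
        abel
      have h3 : |s + r * (s' - s)| ≤ |s| + |s'| := by
        have e2 : s + r * (s' - s) = (1 - r) * s + r * s' := by ring
        rw [e2]
        refine (abs_add_le _ _).trans ?_
        rw [abs_mul, abs_mul, abs_of_nonneg hr0, abs_of_nonneg (by linarith : 0 ≤ 1 - r)]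
        have := abs_nonneg s
        have := abs_nonneg s'
        nlinarith
      rw [e1]
      refine (norm_sub_le _ _).trans ?_
      have h4 := norm_add_le (pos p.1 z - (s • F.a + r • (s' • F.a - s • F.a)))
        ((s + r * (s' - s)) • F.a)
      have h5 : ‖(s + r * (s' - s)) • F.a‖ ≤ (|s| + |s'|) * GG F := by
        rw [norm_smul, Real.norm_eq_abs]
        have := norm_a_le F
        gcongr
      linarith
  refine (pR_le ht W.bypass fun z hz => (hW z hz).1).trans ?_
  exact walkCost_le_sum ht _ W.bypass_isPath.isTrail.edges_nodup fun z hz => (hW z hz).2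

lemma integrable_LT (h0 : G (Set.Iio 0) = 0) (h2 : Integrable (fun x : ℝ => x ^ 2) G)
    (F : FlatData μ) {w : ℝ} (hw : 5 * GG F ≤ w) (s s' : ℝ) :
    Integrable (LT F w s s') (P0 G) := by
  obtain ⟨N, hN⟩ := exists_nat_ge ((|s| + |s'|) * GG F + 4)
  have hint : Integrable (fun p : (ℝ × ℝ) × Environment => ∑ e ∈ ED (box N), p.2 e) (P0 G) := by
    unfold P0
    exact (integrable_sum_edges h2 (ED (box N))).comp_snd UU2
  refine hint.mono' (aesm_LT h0 F hw s s') ?_
  filter_upwards [ae_P0_Nn' h0] with p hp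
  rw [Real.norm_eq_abs, abs_of_nonneg (LT_nonneg F w s s' hp.1)]
  exact LT_le_sum F hw s s' hN hp.1 hp.2

lemma lane_add (F : FlatData μ) (w : ℝ) (θ : ℝ × ℝ) (m : ℤ × ℤ) :
    laneB F.swap w (θ + toR m) = (fun u => u + m) ⁻¹' laneB F.swap w θ := by
  ext z
  rw [Set.mem_preimage, lane_mem, lane_mem]
  have : pos (θ + toR m) z = pos θ (z + m) := by
    unfold pos; rw [toR_add]; abel
  rw [this]

lemma Inv_LT (F : FlatData μ) (w s s' : ℝ) : Inv fun θ t => LT F w s s' (θ, t) := by
  intro m θ t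
  simp only [LT]
  have e1 : ∀ r : ℝ, nr (θ + toR m - r • F.a) = nr (θ - r • F.a) - m := by
    intro r
    rw [show θ + toR m - r • F.a = θ - r • F.a + toR m by abel, nr_add]
  rw [e1, e1, lane_add, pR_tr, sub_add_cancel, sub_add_cancel]

/-- stationarity along the lane -/
lemma integral_LT_shift (h0 : G (Set.Iio 0) = 0)
    (F : FlatData μ) {w : ℝ} (hw : 5 * GG F ≤ w) (s y : ℝ) :
    ∫ p, LT F w s (s + y) p ∂(P0 G) = ∫ p, LT F w 0 y p ∂(P0 G) := by
  have h1 := mp_integral (mp_S (G := G) (-(s • F.a))) (aesm_LT h0 F hw 0 y)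
  rw [← h1]
  refine integral_congr_ae (ae_of_all _ fun p => ?_)
  have h3 := (Inv_LT F w 0 y).shift (-(s • F.a)) p
  simp only at h3 ⊢
  refine Eq.trans ?_ h3
  simp only [LT]
  have e1 : laneB F.swap w (p.1 + -(s • F.a)) = laneB F.swap w p.1 := by
    ext z
    rw [lane_mem, lane_mem]
    have : pos (p.1 + -(s • F.a)) z = pos p.1 z - s • F.a := by unfold pos; abel
    rw [this, map_sub, map_smul, F.be_a, smul_zero, sub_zero]
  have e2 : p.1 + -(s • F.a) - (0 : ℝ) • F.a = p.1 - s • F.a := by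
    rw [zero_smul]; abel
  have e3 : p.1 + -(s • F.a) - y • F.a = p.1 - (s + y) • F.a := by
    rw [add_smul]; abel
  rw [e1, e2, e3]

/-- almost superadditivity, deterministic -/
lemma LT_super (F : FlatData μ) {C1 w1 : ℝ} (hB : BandProp F C1 w1) {w : ℝ}
    (hw : 5 * GG F ≤ w) (hw1 : w1 ≤ w) {y y' : ℝ} (hy : 0 ≤ y) (hy' : 0 ≤ y')
    {p : (ℝ × ℝ) × Environment} (ht : Nn p.2) :
    LT F w 0 y p + LT F w y (y + y') p ≤ LT F w 0 (y + y') p +
      2 * DD F (C1 + GG F) w (nr (p.1 - y • F.a)) p.2 := by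
  have hG := one_le_GG F
  have hc := lane_conn F hw p.1 0 (y + y')
  have hlev : ∀ r : ℝ, |F.al (pos p.1 (nr (p.1 - r • F.a))) - r| ≤ GG F / 2 ∧
      |F.be (pos p.1 (nr (p.1 - r • F.a)))| ≤ GG F / 2 := by
    intro r
    have h1 := (al_le F _).trans (mul_le_mul_of_nonneg_left (norm_pos_nr p.1 (r • F.a))
      (by linarith : 0 ≤ GG F))
    have h2 := (be_le F _).trans (mul_le_mul_of_nonneg_left (norm_pos_nr p.1 (r • F.a))
      (by linarith : 0 ≤ GG F))
    rw [map_sub, map_smul, F.al_a, smul_eq_mul, mul_one] at h1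
    rw [map_sub, map_smul, F.be_a, smul_eq_mul, mul_zero, sub_zero] at h2
    constructor <;> linarith
  -- connection at level `y`
  have hconn : ∀ u : ℤ × ℤ, |F.al (pos p.1 u) - y| ≤ GG F → |F.be (pos p.1 u)| ≤ w / 2 →
      Conn (laneB F.swap w p.1) u (nr (p.1 - y • F.a)) ∧
      pR p.2 (laneB F.swap w p.1) u (nr (p.1 - y • F.a)) ≤
        DD F (C1 + GG F) w (nr (p.1 - y • F.a)) p.2 := by
    intro u hu1 hu2
    obtain ⟨P, hP1, hP2⟩ := Conn.exists_path (hB.2.2 w hw1 p.1 y u hu1 hu2)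
    have hPl : ∀ z ∈ P.support, z ∈ laneB F.swap w p.1 := fun z hz => lane_mem.2 (hP2 z hz).2
    refine ⟨⟨P, hPl⟩, (pR_le ht P hPl).trans ?_⟩
    refine walkCost_le_DD ht F P hP1 fun z hz => ?_
    have h1 := hP2 z hz
    have h2 := hlev y
    rw [← pos_sub p.1, map_sub, map_sub]
    constructor
    · have e : F.al (pos p.1 z) - F.al (pos p.1 (nr (p.1 - y • F.a))) =
          (F.al (pos p.1 z) - y) - (F.al (pos p.1 (nr (p.1 - y • F.a))) - y) := by ring
      rw [e]
      refine (abs_sub _ _).trans ?_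
      have := h1.1
      linarith [h2.1]
    · refine (abs_sub _ _).trans ?_
      have := h1.2
      linarith [h2.2]
  refine le_of_forall_pos_lt_add fun ε hε => ?_
  obtain ⟨g, hgR, hgc⟩ := exists_walk_lt_pR hc (show pR p.2 (laneB F.swap w p.1)
    (nr (p.1 - (0 : ℝ) • F.a)) (nr (p.1 - (y + y') • F.a)) < pR p.2 (laneB F.swap w p.1)
    (nr (p.1 - (0 : ℝ) • F.a)) (nr (p.1 - (y + y') • F.a)) + ε by linarith)
  have h0' := (hlev 0).1
  have h1' := (hlev (y + y')).1
  rw [abs_le] at h0' h1'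
  -- a vertex near level `y`
  obtain ⟨u, g1, g2, eg, hu⟩ : ∃ (u : ℤ × ℤ)
      (g1 : squareLattice.Walk (nr (p.1 - (0 : ℝ) • F.a)) u)
      (g2 : squareLattice.Walk u (nr (p.1 - (y + y') • F.a))), g = g1.append g2 ∧
      |F.al (pos p.1 u) - y| ≤ GG F := by
    rcases le_total (F.al (pos p.1 (nr (p.1 - (0 : ℝ) • F.a)))) y with h | h
    · rcases le_total y (F.al (pos p.1 (nr (p.1 - (y + y') • F.a)))) with h' | h'
      · exact exists_cross (h := fun z => F.al (pos p.1 z)) (by linarith) (al_adj F p.1) g h h'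
      · refine ⟨_, g, SimpleGraph.Walk.nil, by rw [SimpleGraph.Walk.append_nil], ?_⟩
        rw [abs_le]; constructor <;> linarith
    · refine ⟨_, SimpleGraph.Walk.nil, g, by rw [SimpleGraph.Walk.nil_append], ?_⟩
      rw [abs_le]; constructor <;> linarith
  have hu2 : |F.be (pos p.1 u)| ≤ w / 2 := by
    refine lane_mem.1 (hgR u ?_)
    rw [eg, SimpleGraph.Walk.mem_support_append_iff]
    exact Or.inl g1.end_mem_support
  obtain ⟨hc1, hc2⟩ := hconn u hu hu2
  have k1 : Conn (laneB F.swap w p.1) (nr (p.1 - (0 : ℝ) • F.a)) u :=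
    ⟨g1, fun z hz => hgR z (by
      rw [eg, SimpleGraph.Walk.mem_support_append_iff]; exact Or.inl hz)⟩
  have k2 : Conn (laneB F.swap w p.1) u (nr (p.1 - (y + y') • F.a)) :=
    ⟨g2, fun z hz => hgR z (by
      rw [eg, SimpleGraph.Walk.mem_support_append_iff]; exact Or.inr hz)⟩
  have t1 := pR_triangle ht k1 hc1
  have t2 := pR_triangle ht hc1.symm k2
  rw [pR_symm ht _ (nr (p.1 - y • F.a)) u] at t2
  have t3 := pR_le ht g1 (R := laneB F.swap w p.1) (fun z hz => hgR z (by
      rw [eg, SimpleGraph.Walk.mem_support_append_iff]; exact Or.inl hz))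
  have t4 := pR_le ht g2 (R := laneB F.swap w p.1) (fun z hz => hgR z (by
      rw [eg, SimpleGraph.Walk.mem_support_append_iff]; exact Or.inr hz))
  rw [eg, walkCost_append] at hgc
  simp only [LT]
  linarith

/-- mean lane time -/
noncomputable def fL (G : Measure ℝ) (F : FlatData μ) (w y : ℝ) : ℝ := ∫ p, LT F w 0 y p ∂(P0 G)

omit [IsProbabilityMeasure G] in
lemma fL_eq (F : FlatData μ) (w y : ℝ) : fL G F w y = y + eL G F.swap w y := by
  unfold fL eL
  have : ∀ p : (ℝ × ℝ) × Environment, LT F w 0 y p =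
      pR p.2 (laneB F.swap w p.1) (nr p.1) (nr (p.1 - y • F.swap.b)) := by
    intro p
    simp only [LT, zero_smul, sub_zero, FlatData.swap_b]
  simp only [this]
  ring

section rate

variable (h0 : G (Set.Iio 0) = 0) (h2 : Integrable (fun x : ℝ => x ^ 2) G) (F : FlatData μ)
include h0 h2

omit h2 in
lemma fL_nonneg (w y : ℝ) : 0 ≤ fL G F w y :=
  integral_nonneg_of_ae (by filter_upwards [ae_P0_Nn' h0] with p hp using LT_nonneg F w 0 y hp.1)

lemma fL_sub {w : ℝ} (hw : 5 * GG F ≤ w) (y y' : ℝ) :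
    fL G F w (y + y') ≤ fL G F w y + fL G F w y' := by
  unfold fL
  rw [← integral_LT_shift h0 F hw y y', ← integral_add (integrable_LT h0 h2 F hw _ _)
    (integrable_LT h0 h2 F hw _ _)]
  refine integral_mono_ae (integrable_LT h0 h2 F hw _ _)
    ((integrable_LT h0 h2 F hw _ _).add (integrable_LT h0 h2 F hw _ _)) ?_
  filter_upwards [ae_P0_Nn' h0] with p hp
  exact pR_triangle hp.1 (lane_conn F hw p.1 _ _) (lane_conn F hw p.1 _ _)

lemma fL_nsmul {w : ℝ} (hw : 5 * GG F ≤ w) (y : ℝ) (k : ℕ) :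
    fL G F w (((k : ℝ) + 1) * y) ≤ ((k : ℝ) + 1) * fL G F w y := by
  induction k with
  | zero => simp
  | succ k ih =>
    have e : (((k + 1 : ℕ) : ℝ) + 1) * y = ((k : ℝ) + 1) * y + y := by push_cast; ring
    rw [e]
    refine (fL_sub h0 h2 F hw _ _).trans ?_
    push_cast
    linarith

lemma fL_super {C1 w1 : ℝ} (hB : BandProp F C1 w1) {w : ℝ} (hw : 5 * GG F ≤ w) (hw1 : w1 ≤ w)
    {y y' : ℝ} (hy : 0 ≤ y) (hy' : 0 ≤ y') :
    fL G F w y + fL G F w y' ≤ fL G F w (y + y') +
      2 * (2 * ((4 * GG F * (C1 + GG F) + 3) * (4 * GG F + 3)) * (∫ z, z ∂G) * w) := by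
  have hG := one_le_GG F
  have hd := DD_P0 (G := G) h2 h0 F (c := C1 + GG F) (w := w) (by linarith [hB.1]) (by linarith)
    (g := fun ξ => nr (ξ - y • F.a)) (measurable_nr.comp (measurable_id.sub_const _)) 0
  have i1 := integrable_LT h0 h2 F hw 0 y
  have i2 := integrable_LT h0 h2 F hw y (y + y')
  have i3 := integrable_LT h0 h2 F hw 0 (y + y')
  have key : ∫ p, (LT F w 0 y p + LT F w y (y + y') p) ∂(P0 G) ≤
      ∫ p, (LT F w 0 (y + y') p +
        2 * DD F (C1 + GG F) w 0 (act (tr (nr (p.1 - y • F.a))) p.2)) ∂(P0 G) := by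
    refine integral_mono_ae (i1.add i2) (i3.add (hd.1.const_mul 2)) ?_
    filter_upwards [ae_P0_Nn' h0] with p hp
    have h3 := LT_super F hB hw hw1 hy hy' hp.1
    have h4 := DD_act F (C1 + GG F) w 0 (nr (p.1 - y • F.a)) p.2
    rw [zero_add] at h4
    simp only [h4]
    exact h3
  rw [integral_add i1 i2, integral_add i3 (hd.1.const_mul 2), integral_const_mul,
    integral_LT_shift h0 F hw y y'] at key
  unfold fL
  linarith [hd.2]

lemma fL_super_nsmul {C1 w1 : ℝ} (hB : BandProp F C1 w1) {w : ℝ} (hw : 5 * GG F ≤ w)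
    (hw1 : w1 ≤ w) {y r : ℝ} (hy : 0 ≤ y) (hr : 0 ≤ r) (m : ℕ) :
    m * fL G F w y ≤ fL G F w (m * y + r) +
      m * (2 * (2 * ((4 * GG F * (C1 + GG F) + 3) * (4 * GG F + 3)) * (∫ z, z ∂G) * w)) := by
  induction m with
  | zero => simpa using fL_nonneg h0 F w r
  | succ m ih =>
    have h3 := fL_super h0 h2 F hB hw hw1 hy (show 0 ≤ (m : ℝ) * y + r by positivity)
    have e : ((m + 1 : ℕ) : ℝ) * y + r = y + (m * y + r) := by push_cast; ring
    rw [e]
    push_cast
    linarith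

/-- **Rate bound**: the mean lane time is linear up to `C w`. -/
theorem fL_le_rate {C1 w1 : ℝ} (hB : BandProp F C1 w1) {w : ℝ} (hw : 5 * GG F ≤ w)
    (hw1 : w1 ≤ w) {y : ℝ} (hy : 0 < y) :
    fL G F w y ≤ y * (1 + rate G F.swap w) +
      2 * (2 * ((4 * GG F * (C1 + GG F) + 3) * (4 * GG F + 3)) * (∫ z, z ∂G) * w) := by
  set A := 2 * (2 * ((4 * GG F * (C1 + GG F) + 3) * (4 * GG F + 3)) * (∫ z, z ∂G) * w) with hA
  have hG := one_le_GG F
  have key : ∀ n : ℕ, (fL G F w y - A) / y ≤ fL G F w ((n : ℝ) + 1) / ((n : ℝ) + 1) := by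
    intro n
    have hx : (0 : ℝ) < (n : ℝ) + 1 := by positivity
    rw [div_le_div_iff₀ hy hx]
    set x : ℝ := (n : ℝ) + 1 with hxdef
    set D := fL G F w y - A with hD
    have hfx := fL_nonneg (G := G) h0 F w x
    rcases le_total D 0 with hD0 | hD0
    · nlinarith [mul_nonneg hfx hy.le, mul_nonneg (neg_nonneg.2 hD0) hx.le]
    by_contra hcon
    rw [not_le] at hcon
    -- for all k: k * (D * x - f x * y) ≤ D * y
    have hk : ∀ k : ℕ, ((k : ℝ) + 1) * (D * x - fL G F w x * y) ≤ D * y := by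
      intro k
      set m : ℕ := ⌊((k : ℝ) + 1) * x / y⌋₊ with hm
      have hq : 0 ≤ ((k : ℝ) + 1) * x / y := by positivity
      have hm1 : (m : ℝ) ≤ ((k : ℝ) + 1) * x / y := Nat.floor_le hq
      have hm2 : ((k : ℝ) + 1) * x / y < m + 1 := Nat.lt_floor_add_one _
      rw [le_div_iff₀ hy] at hm1
      rw [div_lt_iff₀ hy] at hm2
      have h3 := fL_super_nsmul h0 h2 F hB hw hw1 hy.le
        (show 0 ≤ ((k : ℝ) + 1) * x - m * y by linarith) m
      rw [add_sub_cancel] at h3
      have h4 := fL_nsmul h0 h2 F hw x k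
      have h5 : m * D ≤ ((k : ℝ) + 1) * fL G F w x := by
        rw [hD, mul_sub]
        linarith
      have h6 : ((k : ℝ) + 1) * x * D ≤ (m + 1) * y * D := by
        exact mul_le_mul_of_nonneg_right hm2.le hD0
      nlinarith
    obtain ⟨k, hk2⟩ := exists_nat_gt (D * y / (D * x - fL G F w x * y))
    have hpos : 0 < D * x - fL G F w x * y := by linarith
    rw [div_lt_iff₀ hpos] at hk2
    have := hk k
    nlinarith
  have h1 : (fL G F w y - A) / y - 1 ≤ rate G F.swap w := by
    unfold rate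
    refine le_ciInf fun n => ?_
    have h3 := key n
    rw [fL_eq (G := G) F w ((n : ℝ) + 1)] at h3
    have hx : (0 : ℝ) < (n : ℝ) + 1 := by positivity
    rw [add_div, div_self hx.ne'] at h3
    linarith
  rw [sub_le_iff_le_add, div_le_iff₀ hy] at h1
  linarith

end rate

end Crest.Agent.R151.U450
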