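import Crest.Agent.R151.Q6c
import Crest.Agent.R151.U450f
import Crest.Agent.R151.C710m
import Mathlib
import Crest.Agent.R151.W3a
import Crest.Agent.R151.E191A
import Crest.Agent.R151.NF2
import Crest.Agent.R151.NF3
import Crest.Agent.R151.M192g
import Crest.Agent.R151.M56c

-- ▼ part R151/Q6d
section

/-!
# R151 / S0214 part 2, Q6d — the rate of the constructed highways (owner helper777)
-/

set_option autoImplicit false

open MeasureTheory Filter ProbabilityTheory Topology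
open Crest.ProbabilityR.FirstPassage
open Crest.Agent.R151.K

namespace Crest.Agent.R151.Q

open B710 (FlatData)
open R78 (IsHwy hc hp stepc hc_zero hc_succ hc_sub_eq_sum hc_mono)

variable {G : Measure ℝ} [IsProbabilityMeasure G] {μ : ℝ × ℝ → ℝ} {F : FlatData μ} {w n0 κ : ℝ}

/-- displacement of `φ` between two consecutive nodes -/
noncomputable def dphi (F : FlatData μ) (n0 : ℝ) (θ : ℝ × ℝ) (_t : Environment) : ℝ :=
  phi F (nr (θ - n0 • F.a)) - phi F (nr θ)

lemma measurable_pos_nr (v : ℝ × ℝ) : Measurable fun p : (ℝ × ℝ) × Environment =>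
    F.ρ (pos (p.1 - v) (nr (p.1 - v))) := by
  have h1 : Measurable fun p : (ℝ × ℝ) × Environment => p.1 - v := by fun_prop
  have h2 : Measurable fun θ : ℝ × ℝ => pos θ (nr θ) := by
    unfold pos
    exact ((measurable_of_countable toR).comp measurable_nr).add measurable_id
  have := F.ρ.continuous.measurable.comp (h2.comp h1)
  exact this

lemma integrable_pos_nr (v : ℝ × ℝ) : Integrable (fun p : (ℝ × ℝ) × Environment =>
    F.ρ (pos (p.1 - v) (nr (p.1 - v)))) (P0 G) := by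
  refine Integrable.of_bound (measurable_pos_nr v).aestronglyMeasurable (‖F.ρ‖ * (1 / 2))
    (ae_of_all _ fun p => ?_)
  exact (F.ρ.le_opNorm _).trans (mul_le_mul_of_nonneg_left (norm_pos_nr _) (norm_nonneg _))

lemma dphi_eq (θ : ℝ × ℝ) (t : Environment) : dphi F n0 θ t =
    F.ρ (pos (θ - n0 • F.a) (nr (θ - n0 • F.a))) - F.ρ (pos (θ - 0) (nr (θ - 0))) + n0 := by
  unfold dphi phi pos
  simp only [map_add, map_sub, map_smul, F.ρ_a, smul_eq_mul, sub_zero]
  ring

lemma integral_dphi : Integrable (fun p : (ℝ × ℝ) × Environment => dphi F n0 p.1 p.2) (P0 G) ∧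
    ∫ p, dphi F n0 p.1 p.2 ∂(P0 G) = n0 := by
  simp only [dphi_eq]
  have i1 := integrable_pos_nr (G := G) (F := F) (n0 • F.a)
  have i2 := integrable_pos_nr (G := G) (F := F) 0
  have i3 : Integrable (fun p : (ℝ × ℝ) × Environment =>
      F.ρ (pos (p.1 - n0 • F.a) (nr (p.1 - n0 • F.a))) - F.ρ (pos (p.1 - 0) (nr (p.1 - 0))))
      (P0 G) := i1.sub i2
  refine ⟨i3.add (integrable_const _), ?_⟩
  rw [integral_add i3 (integrable_const _), integral_sub i1 i2]
  have hinv : Inv fun θ (_ : Environment) => F.ρ (pos θ (nr θ)) := by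
    intro m θ t
    show F.ρ (pos (θ + toR m) (nr (θ + toR m))) = F.ρ (pos θ (nr θ))
    rw [nr_add, pos_rel, sub_add_cancel]
  have hm : Measurable (Function.uncurry fun θ (_ : Environment) => F.ρ (pos θ (nr θ))) := by
    have := measurable_pos_nr (F := F) 0
    simp only [sub_zero] at this
    exact this
  have e := hinv.integral_shift (G := G) hm (-(n0 • F.a))
  simp only [← sub_eq_add_neg] at e
  rw [e]
  simp

lemma dphi_inv : Inv fun θ t => dphi F n0 θ t := by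
  intro m θ t
  show dphi F n0 (θ + toR m) (act (tr m) t) = dphi F n0 θ t
  rw [dphi_eq, dphi_eq]
  have e : θ + toR m - n0 • F.a = θ - n0 • F.a + toR m := by abel
  rw [sub_zero, sub_zero, e, nr_add, nr_add, pos_rel, pos_rel, sub_add_cancel, sub_add_cancel]

lemma measurable_dphi : Measurable fun p : (ℝ × ℝ) × Environment => dphi F n0 p.1 p.2 := by
  simp only [dphi_eq]
  exact ((measurable_pos_nr _).sub (measurable_pos_nr _)).add_const _

namespace Adm

variable (h : Adm F w n0 κ)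
include h

/-- potential between the origin index (a node) and the label `0` -/
lemma H_zero (u : ℝ) (θ : ℝ × ℝ) (t : Environment) :
    h.hwy.H u θ t 0 = nr (θ - (u * n0) • F.a) := by
  have h1 := h.HH_node (θ - (u * n0) • F.a) t 0
  rw [cum_zero] at h1
  unfold nods at h1
  simp only [Int.cast_zero, zero_mul, zero_smul, sub_zero] at h1
  exact h1

lemma norm_pos_H_zero {u : ℝ} (hu : u ∈ Set.Ico (0 : ℝ) 1) (θ : ℝ × ℝ) (t : Environment) :
    ‖pos θ (h.hwy.H u θ t 0)‖ ≤ 1 / 2 + n0 * ‖F.a‖ := by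
  rw [h.H_zero]
  have h1 := norm_pos_nr (θ - (u * n0) • F.a)
  have e : pos θ (nr (θ - (u * n0) • F.a)) =
      pos (θ - (u * n0) • F.a) (nr (θ - (u * n0) • F.a)) + (u * n0) • F.a := by
    unfold pos; abel
  rw [e]
  refine (norm_add_le _ _).trans (add_le_add h1 ?_)
  rw [norm_smul, Real.norm_eq_abs]
  refine mul_le_mul_of_nonneg_right ?_ (norm_nonneg _)
  have hn := h.n0_pos
  rw [abs_mul, abs_of_nonneg hu.1, abs_of_pos hn]
  exact mul_le_of_le_one_left hn.le hu.2.le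

/-- potential difference between the label `0` and the origin index -/
noncomputable def Z (u : ℝ) (θ : ℝ × ℝ) (t : Environment) : ℝ :=
  hp t (phi F) (h.hwy.H u θ t) (h.hwy.ix 0 u θ t) - hp t (phi F) (h.hwy.H u θ t) 0

lemma Z_eq (u : ℝ) (θ : ℝ × ℝ) (t : Environment) : h.Z u θ t =
    hc t (h.hwy.H u θ t) (h.hwy.ix 0 u θ t) -
      (phi F (h.hwy.x 0 u θ t) - phi F (h.hwy.H u θ t 0)) := by
  unfold Z hp
  rw [hc_zero]
  unfold Hwy.x
  ring

lemma measurable_Z : Measurable fun q : ℝ × (ℝ × ℝ) × Environment => h.Z q.1 q.2.1 q.2.2 := by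
  simp only [h.Z_eq]
  exact (h.hwy.measurable_hc_ix 0).sub ((h.hwy.measurable_phi_x 0).sub
    ((measurable_of_countable (phi F)).comp (h.hwy.meas 0)))

lemma integrable_Z (h0 : G (Set.Iio 0) = 0) (h2 : Integrable (fun x : ℝ => x ^ 2) G) :
    Integrable (fun q : ℝ × (ℝ × ℝ) × Environment => h.Z q.1 q.2.1 q.2.2) (UU.prod (P0 G)) := by
  simp only [h.Z_eq]
  refine (h.integrable_hc_ix h0 h2 0).sub ?_
  have hm : Measurable fun q : ℝ × (ℝ × ℝ) × Environment =>
      phi F (h.hwy.x 0 q.1 q.2.1 q.2.2) - phi F (h.hwy.H q.1 q.2.1 q.2.2 0) :=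
    (h.hwy.measurable_phi_x 0).sub ((measurable_of_countable (phi F)).comp (h.hwy.meas 0))
  refine Integrable.of_bound hm.aestronglyMeasurable
    (‖F.ρ‖ * ((|0| + ‖F.al‖) * ‖F.a‖ + h.hwy.wH / 2 * ‖F.b‖) +
      ‖F.ρ‖ * (1 / 2 + n0 * ‖F.a‖)) ?_
  filter_upwards [Hwy.ae_UP h0] with q hq
  rw [Hwy.phiq_sub q.2.1]
  refine (norm_sub_le _ _).trans (add_le_add ?_ ?_)
  · exact (F.ρ.le_opNorm _).trans
      (mul_le_mul_of_nonneg_left (h.hwy.norm_pos_x 0 _ _ _) (norm_nonneg _))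
  · exact (F.ρ.le_opNorm _).trans
      (mul_le_mul_of_nonneg_left (h.norm_pos_H_zero hq.2.2 _ _) (norm_nonneg _))

lemma Z_cov (u : ℝ) : Inv fun θ t => h.Z u θ t := by
  intro m θ t
  show h.Z u (θ + toR m) (act (tr m) t) = h.Z u θ t
  rw [h.Z_eq, h.Z_eq, h.hwy.ix_cov, h.hwy.hc_cov, h.hwy.x_cov, h.hwy.cov]
  congr 1
  rw [Hwy.phiq_sub (θ + toR m), Hwy.phiq_sub θ, pos_rel, pos_rel, sub_add_cancel, sub_add_cancel]

lemma integral_Z_shift :
    ∫ q, h.Z q.1 (q.2.1 - n0 • F.a) q.2.2 ∂(UU.prod (P0 G)) =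
      ∫ q, h.Z q.1 q.2.1 q.2.2 ∂(UU.prod (P0 G)) := by
  have m2 : MeasurePreserving (Prod.map (id : ℝ → ℝ) (S (-(n0 • F.a)))) (UU.prod (P0 G))
      (UU.prod (P0 G)) := (MeasurePreserving.id _).prod (mp_S _)
  rw [← mp_integral m2 h.measurable_Z.aestronglyMeasurable]
  refine integral_congr_ae (ae_of_all _ fun q => ?_)
  simp only [Prod.map_fst, Prod.map_snd, id_eq]
  rw [sub_eq_add_neg]
  exact (h.Z_cov q.1).shift (-(n0 • F.a)) q.2

lemma integrable_Z_shift (h0 : G (Set.Iio 0) = 0) (h2 : Integrable (fun x : ℝ => x ^ 2) G) :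
    Integrable (fun q : ℝ × (ℝ × ℝ) × Environment => h.Z q.1 (q.2.1 - n0 • F.a) q.2.2)
      (UU.prod (P0 G)) := by
  have m2 : MeasurePreserving (Prod.map (id : ℝ → ℝ) (S (-(n0 • F.a)))) (UU.prod (P0 G))
      (UU.prod (P0 G)) := (MeasurePreserving.id _).prod (mp_S _)
  refine (m2.integrable_comp_of_integrable (h.integrable_Z h0 h2)).congr
    (ae_of_all _ fun q => ?_)
  simp only [Function.comp_apply, Prod.map_fst, Prod.map_snd, id_eq]
  rw [sub_eq_add_neg]
  exact ((h.Z_cov q.1).shift (-(n0 • F.a)) q.2).symm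

/-- decomposition of the excess over one period -/
lemma Y_period {u : ℝ} (hu : u ∈ Set.Ico (0 : ℝ) 1) (θ : ℝ × ℝ) (t : Environment) :
    h.hwy.Y 0 n0 u θ t = h.Z u (θ - n0 • F.a) t +
      (sgc F w n0 κ (θ + (-(u * n0)) • F.a) t - dphi F n0 (θ + (-(u * n0)) • F.a) t) -
        h.Z u θ t := by
  have hn := h.n0_pos
  have hu' : Int.fract (u + n0 / h.hwy.n0) = u := by
    have e : h.hwy.n0 = n0 := rfl
    rw [e, div_self hn.ne', Int.fract_add_one, Int.fract_eq_self]; exact hu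
  set N := cum (len (segs F w n0 κ (θ - (u * n0) • F.a) t)) 1 with hN
  -- the shifted highway
  have hH : ∀ k, h.hwy.H u (θ - n0 • F.a) t k = h.hwy.H u θ t (k + N) := by
    intro k
    have h1 := h.HH_shift (θ - (u * n0) • F.a) t 1 k
    have e : θ - (u * n0) • F.a - (((1 : ℤ) : ℝ) * n0) • F.a =
        θ - n0 • F.a - (u * n0) • F.a := by
      push_cast; rw [one_mul]; abel
    rw [e] at h1
    exact h1
  have hHf : h.hwy.H u (θ - n0 • F.a) t = fun k => h.hwy.H u θ t (k + N) := by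
    funext k; exact hH k
  have hix : h.hwy.ix 0 u (θ - n0 • F.a) t = h.hwy.ix n0 u θ t - N := by
    unfold Hwy.ix
    have e : (fun k => F.al (pos (θ - n0 • F.a) (h.hwy.H u (θ - n0 • F.a) t k))) =
        fun k => (fun k => F.al (pos θ (h.hwy.H u θ t k)) - n0) (k + N) := by
      funext k
      simp only
      rw [hH, al_pos_sub]
    have ht' : Tendsto (fun k => F.al (pos θ (h.hwy.H u θ t k)) - n0) atTop atTop := by
      simpa [sub_eq_add_neg] using tendsto_atTop_add_const_right atTop (-n0) (h.hwy.top u θ t)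
    have hb' : Tendsto (fun k => F.al (pos θ (h.hwy.H u θ t k)) - n0) atBot atBot := by
      simpa [sub_eq_add_neg] using tendsto_atBot_add_const_right atBot (-n0) (h.hwy.bot u θ t)
    rw [e, firstGe_shift ht' hb', firstGe_sub (h.hwy.top u θ t) (h.hwy.bot u θ t), zero_add]
  have hblock := h.hc_block u θ t 0
  rw [cum_zero, zero_add, hc_zero, ← hN] at hblock
  simp only [Int.cast_zero, add_zero, sub_zero] at hblock
  have hx : h.hwy.x 0 u (θ - n0 • F.a) t = h.hwy.x n0 u θ t := by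
    unfold Hwy.x
    rw [hix, hH, sub_add_cancel]
  have hnode : h.hwy.H u (θ - n0 • F.a) t 0 = nr (θ + (-(u * n0)) • F.a - n0 • F.a) := by
    rw [h.H_zero]
    congr 1
    rw [neg_smul]; abel
  have hnode0 : h.hwy.H u θ t 0 = nr (θ + (-(u * n0)) • F.a) := by
    rw [h.H_zero]
    congr 1
    rw [neg_smul]; abel
  rw [h.Z_eq, h.Z_eq, hx, hnode, hnode0, Hwy.Y_eq, hix, hHf, hc_shift, sub_add_cancel, hblock]
  unfold dphi Hwy.cst
  ring

/-- **the rate** -/
theorem rate_eq (h0 : G (Set.Iio 0) = 0) (h2 : Integrable (fun x : ℝ => x ^ 2) G) :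
    n0 * ∫ q, h.hwy.Y 0 1 q.1 q.2.1 q.2.2 ∂(UU.prod (P0 G)) =
      (∫ p, sgc F w n0 κ p.1 p.2 ∂(P0 G)) - n0 := by
  have hlin := h.hwy.integral_Y_linear (h.integrable_cst h0 h2) h0 0 n0
  rw [sub_zero] at hlin
  rw [← hlin]
  have hv : Measurable fun u : ℝ => (-(u * n0)) • F.a :=
    ((measurable_id.mul_const _).neg).smul_const _
  have i1 := h.integrable_Z_shift h0 h2
  have i2 := h.integrable_Z h0 h2
  have i3 : Integrable (fun q : ℝ × (ℝ × ℝ) × Environment =>
      sgc F w n0 κ (q.2.1 + (-(q.1 * n0)) • F.a) q.2.2) (UU.prod (P0 G)) := by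
    have := Inv.integrable_Su (G := G) (f := fun θ t => sgc F w n0 κ θ t)
      (v := fun u : ℝ => (-(u * n0)) • F.a) sgc_inv hv (integrable_sgc h h0 h2)
    exact this
  have i4 : Integrable (fun q : ℝ × (ℝ × ℝ) × Environment =>
      dphi F n0 (q.2.1 + (-(q.1 * n0)) • F.a) q.2.2) (UU.prod (P0 G)) := by
    have := Inv.integrable_Su (G := G) (f := fun θ t => dphi F n0 θ t)
      (v := fun u : ℝ => (-(u * n0)) • F.a) dphi_inv hv integral_dphi.1
    exact this
  have e3 : ∫ q : ℝ × (ℝ × ℝ) × Environment,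
      sgc F w n0 κ (q.2.1 + (-(q.1 * n0)) • F.a) q.2.2 ∂(UU.prod (P0 G)) =
      ∫ p, sgc F w n0 κ p.1 p.2 ∂(P0 G) := by
    have := Inv.integral_Su (G := G) (f := fun θ t => sgc F w n0 κ θ t)
      (v := fun u : ℝ => (-(u * n0)) • F.a) sgc_inv hv measurable_sgc
    exact this
  have e4 : ∫ q : ℝ × (ℝ × ℝ) × Environment,
      dphi F n0 (q.2.1 + (-(q.1 * n0)) • F.a) q.2.2 ∂(UU.prod (P0 G)) = n0 := by
    have := Inv.integral_Su (G := G) (f := fun θ t => dphi F n0 θ t)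
      (v := fun u : ℝ => (-(u * n0)) • F.a) dphi_inv hv measurable_dphi
    rw [integral_dphi.2] at this
    exact this
  have i34 : Integrable (fun q : ℝ × (ℝ × ℝ) × Environment =>
      sgc F w n0 κ (q.2.1 + (-(q.1 * n0)) • F.a) q.2.2 -
        dphi F n0 (q.2.1 + (-(q.1 * n0)) • F.a) q.2.2) (UU.prod (P0 G)) := i3.sub i4
  have i134 : Integrable (fun q : ℝ × (ℝ × ℝ) × Environment =>
      h.Z q.1 (q.2.1 - n0 • F.a) q.2.2 + (sgc F w n0 κ (q.2.1 + (-(q.1 * n0)) • F.a) q.2.2 -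
        dphi F n0 (q.2.1 + (-(q.1 * n0)) • F.a) q.2.2)) (UU.prod (P0 G)) := i1.add i34
  have e : ∫ q, h.hwy.Y 0 n0 q.1 q.2.1 q.2.2 ∂(UU.prod (P0 G)) =
      ∫ q : ℝ × (ℝ × ℝ) × Environment, (h.Z q.1 (q.2.1 - n0 • F.a) q.2.2 +
        (sgc F w n0 κ (q.2.1 + (-(q.1 * n0)) • F.a) q.2.2 -
        dphi F n0 (q.2.1 + (-(q.1 * n0)) • F.a) q.2.2) - h.Z q.1 q.2.1 q.2.2)
        ∂(UU.prod (P0 G)) := by
    refine integral_congr_ae ?_
    filter_upwards [Hwy.ae_UP h0] with q hq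
    exact h.Y_period hq.2.2 q.2.1 q.2.2
  rw [e, integral_sub i134 i2, integral_add i1 i34, integral_sub i3 i4, h.integral_Z_shift, e3, e4]
  ring

end Adm

/-- **existence of the highways, given the bound for the blocks** -/
theorem highwaysExist (h0 : G (Set.Iio 0) = 0) (h2 : Integrable (fun x : ℝ => x ^ 2) G)
    (hμ : IsTC G μ) (F : FlatData μ) (hB : BlockBound G F) : HighwaysExist G F := by
  obtain ⟨K, w0, C, hK, hw0, hb⟩ := hB
  obtain ⟨w1, n00, hadm⟩ := exists_adm F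
  refine ⟨K, max (max (max w0 w1) (max n00 1)) (max (3 * ‖F.al‖ / K) C), hK, ?_, ?_⟩
  · exact lt_of_lt_of_le hw0 ((le_max_left _ _).trans ((le_max_left _ _).trans (le_max_left _ _)))
  · intro w hw
    have a1 : w0 ≤ w := ((le_max_left _ _).trans ((le_max_left _ _).trans (le_max_left _ _))).trans hw
    have a2 : w1 ≤ w := ((le_max_right _ _).trans ((le_max_left _ _).trans (le_max_left _ _))).trans hw
    have a3 : n00 ≤ w := ((le_max_left _ _).trans ((le_max_right _ _).trans (le_max_left _ _))).trans hw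
    have a4 : 1 ≤ w := ((le_max_right _ _).trans ((le_max_right _ _).trans (le_max_left _ _))).trans hw
    have a5 : 3 * ‖F.al‖ / K ≤ w := ((le_max_left _ _).trans (le_max_right _ _)).trans hw
    have a6 : C ≤ w := ((le_max_right _ _).trans (le_max_right _ _)).trans hw
    have hwpos : 0 < w := by linarith
    have a7 : n00 ≤ w ^ 5 := a3.trans (by
      calc w = w ^ 1 := (pow_one w).symm
        _ ≤ w ^ 5 := pow_le_pow_right₀ a4 (by norm_num))
    have a8 : 3 * ‖F.al‖ ≤ K * w := by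
      rw [div_le_iff₀ hK] at a5; linarith
    have h := hadm w a2 (w ^ 5) a7 (K * w) a8
    refine ⟨h.hwy, rfl, le_rfl, _, h.hwy.hwyMean (h.integrable_cst h0 h2) h0 h2 hμ, ?_⟩
    have hr := h.rate_eq h0 h2
    have hb' := hb w a1
    have e : ∫ p, sgc F w (w ^ 5) (K * w) p.1 p.2 ∂(P0 G) =
        ∫ p, blkCost F w (w ^ 5) (K * w) (p.1 + toR (nr p.1)) (act (tr (nr p.1)) p.2) ∂(P0 G) :=
      integral_congr_ae (ae_of_all _ fun p => sgc_eq_blkCost h p.1 p.2)
    rw [e] at hr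
    set ε := ∫ q, h.hwy.Y 0 1 q.1 q.2.1 q.2.2 ∂(UU.prod (P0 G)) with hε
    have h5 : 0 < w ^ 5 := by positivity
    have h6 : w ^ 5 * ε ≤ w ^ 5 * rate G F.swap w + C * w := by
      rw [hr]; linarith
    have h7 : ε ≤ rate G F.swap w + C / w ^ 4 := by
      have : w ^ 5 * ε ≤ w ^ 5 * (rate G F.swap w + C / w ^ 4) := by
        have e2 : w ^ 5 * (rate G F.swap w + C / w ^ 4) = w ^ 5 * rate G F.swap w + C * w := by
          field_simp
        rw [e2]; exact h6
      exact le_of_mul_le_mul_left this h5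
    have h8 : C / w ^ 4 ≤ 1 / w ^ 3 := by
      rw [div_le_div_iff₀ (by positivity) (by positivity)]
      have : C * w ^ 3 ≤ w * w ^ 3 := mul_le_mul_of_nonneg_right a6 (by positivity)
      calc C * w ^ 3 ≤ w * w ^ 3 := this
        _ = 1 * w ^ 4 := by ring
    linarith

end Crest.Agent.R151.Q
end

-- ▼ part R151/U450g
section

/-!
# R151/U450g — the block bound (owner helper450)

`blockBound` : `BlockBound G F` (target BT of Q3).
-/

set_option autoImplicit false
set_option maxHeartbeats 1000000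

open MeasureTheory Filter ProbabilityTheory Topology
open Crest.ProbabilityR.FirstPassage
open Crest.Agent.R151.K
open Crest.Agent.R151.Q

namespace Crest.Agent.R151.U450

open B710 (FlatData)

variable {μ : ℝ × ℝ → ℝ} {G : Measure ℝ} [IsProbabilityMeasure G] {lam : ℝ} {t : Environment}

/-- the cost of the fallback on the bad event, mean value (arithmetic-geometric mean) -/
lemma integral_bad (h0 : G (Set.Iio 0) = 0) (h2 : Integrable (fun x : ℝ => x ^ 2) G)
    {B : Set Environment} (hB : MeasurableSet B) (E : Finset (Sym2 (ℤ × ℤ))) {r : ℝ}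
    (hr : 0 < r) :
    Integrable (B.indicator fun t : Environment => ∑ e ∈ E, t e) (iidLaw G) ∧
    ∫ t, B.indicator (fun t : Environment => ∑ e ∈ E, t e) t ∂(iidLaw G) ≤
      (r * ((E.card : ℝ) ^ 2 * ∫ z, z ^ 2 ∂G) + (iidLaw G).real B / r) / 2 := by
  have hi := (integrable_sum_edges (G := G) h2 E).indicator hB
  obtain ⟨hs1, hs2⟩ := sum_edges_sq (G := G) h2 E
  refine ⟨hi, ?_⟩
  have hi2 : Integrable (fun t : Environment => r / 2 * (∑ e ∈ E, t e) ^ 2) (iidLaw G) :=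
    hs1.const_mul _
  have hi3 : Integrable (B.indicator fun _ : Environment => 1 / (2 * r)) (iidLaw G) :=
    (integrable_const _).indicator hB
  have h3 : ∫ t, B.indicator (fun t : Environment => ∑ e ∈ E, t e) t ∂(iidLaw G) ≤
      ∫ t, (r / 2 * (∑ e ∈ E, t e) ^ 2 + B.indicator (fun _ => 1 / (2 * r)) t)
        ∂(iidLaw G) := by
    refine integral_mono_ae hi (hi2.add hi3) ?_
    filter_upwards [ae_Nn (G := G) h0] with t ht
    by_cases htB : t ∈ B
    · simp only [Set.indicator_of_mem htB]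
      set S := ∑ e ∈ E, t e with hS
      have h4 : r / 2 * S ^ 2 + 1 / (2 * r) - S = (r * S - 1) ^ 2 / (2 * r) := by
        field_simp
        ring
      have h5 : 0 ≤ (r * S - 1) ^ 2 / (2 * r) := by positivity
      linarith
    · simp only [Set.indicator_of_notMem htB, add_zero]
      positivity
  have h6 : ∫ t, B.indicator (fun _ : Environment => 1 / (2 * r)) t ∂(iidLaw G) =
      (iidLaw G).real B * (1 / (2 * r)) := by
    rw [integral_indicator hB, setIntegral_const, smul_eq_mul]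
  rw [integral_add hi2 hi3, integral_const_mul, h6] at h3
  have h4 : r / 2 * ∫ t : Environment, (∑ e ∈ E, t e) ^ 2 ∂(iidLaw G) ≤
      r / 2 * ((E.card : ℝ) ^ 2 * ∫ z, z ^ 2 ∂G) := by gcongr
  have h5 : (iidLaw G).real B * (1 / (2 * r)) = (iidLaw G).real B / r / 2 := by
    field_simp
  rw [h5] at h3
  linarith

lemma bxN_le (F : FlatData μ) {w : ℝ} (hw : 1 ≤ w) :
    (2 * (bxN F w (w ^ 5) : ℝ) + 1) ≤ (2 * GG F ^ 2 + 8 * GG F + 5) * w ^ 5 := by
  have hG := one_le_GG F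
  have hw5 : w ≤ w ^ 5 := le_self_pow₀ hw (by norm_num)
  have hw5' : 1 ≤ w ^ 5 := hw.trans hw5
  have h1 : ((bxN F w (w ^ 5) : ℕ) : ℝ) ≤
      (|w ^ 5| + ‖F.al‖ + 1) * ‖F.a‖ + (|w| + 1) * ‖F.b‖ + 1 + 1 := by
    unfold bxN
    push_cast
    have := (Nat.ceil_lt_add_one (show 0 ≤ (|w ^ 5| + ‖F.al‖ + 1) * ‖F.a‖ + (|w| + 1) * ‖F.b‖ by
      positivity)).le
    linarith
  rw [abs_of_nonneg (by positivity), abs_of_nonneg (by linarith)] at h1
  have h3 := norm_al_le F
  have h4 := norm_a_le F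
  have h5 := norm_b_le F
  have h6 : (w ^ 5 + ‖F.al‖ + 1) * ‖F.a‖ ≤ (w ^ 5 + GG F + 1) * GG F := by gcongr
  have h7 : (w + 1) * ‖F.b‖ ≤ (w + 1) * GG F := by gcongr
  nlinarith [mul_le_mul_of_nonneg_left hw5' (by positivity : 0 ≤ GG F ^ 2),
    mul_le_mul_of_nonneg_left hw5' (by linarith : 0 ≤ GG F),
    mul_le_mul_of_nonneg_left hw5 (by linarith : 0 ≤ GG F)]

lemma exists_decay (A : ℝ) : ∃ w3 : ℝ, ∀ w ≥ w3, A * w ^ 20 * Real.exp (-(w / 2)) ≤ 1 := by
  have h1 := (Real.tendsto_pow_mul_exp_neg_atTop_nhds_zero 20).comp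
    (tendsto_id.atTop_div_const (show (0 : ℝ) < 2 by norm_num))
  have h2 := h1.const_mul (A * 2 ^ 20)
  rw [mul_zero] at h2
  have h3 := (h2.eventually_le_const (show (0 : ℝ) < 1 by norm_num))
  obtain ⟨w3, hw3⟩ := eventually_atTop.1 h3
  refine ⟨w3, fun w hw => ?_⟩
  have h4 := hw3 w hw
  simp only [Function.comp_apply, id] at h4
  have e : A * w ^ 20 * Real.exp (-(w / 2)) =
      A * 2 ^ 20 * ((w / 2) ^ 20 * Real.exp (-(w / 2))) := by ring
  rw [e]
  exact h4

/-- the fallback term is at most `1` -/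
lemma bad_le_one (h0 : G (Set.Iio 0) = 0) (h2 : Integrable (fun x : ℝ => x ^ 2) G) {A2 w : ℝ}
    (hw1 : 1 ≤ w) {N : ℕ} (hN : 2 * (N : ℝ) + 1 ≤ A2 * w ^ 5) {B : Set Environment}
    (hBm : MeasurableSet B)
    (hP : (iidLaw G).real B ≤ (2 * N + 1) ^ 2 * ((Real.exp lam + 1) * Real.exp (-w)))
    (hw3 : (4 * A2 ^ 4 * (∫ z, z ^ 2 ∂G) + A2 ^ 2 * (Real.exp lam + 1)) / 2 * w ^ 20 *
      Real.exp (-(w / 2)) ≤ 1) :
    ∫ t, B.indicator (fun t : Environment => ∑ e ∈ ED (box N), t e) t ∂(iidLaw G) ≤ 1 := by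
  have hbad := integral_bad (G := G) h0 h2 hBm (ED (box N)) (Real.exp_pos (-(w / 2)))
  set m2 : ℝ := ∫ z, z ^ 2 ∂G with hm2
  have hm2' : 0 ≤ m2 := integral_nonneg fun z => sq_nonneg z
  refine hbad.2.trans ?_
  have hcard : ((ED (box N)).card : ℝ) ≤ 2 * (A2 * w ^ 5) ^ 2 := by
    refine (card_EDbox N).trans ?_
    gcongr
  have hP2 : (iidLaw G).real B ≤ (A2 * w ^ 5) ^ 2 * ((Real.exp lam + 1) * Real.exp (-w)) := by
    refine hP.trans ?_
    have : 0 < Real.exp lam := Real.exp_pos _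
    gcongr
  have h3 : (iidLaw G).real B / Real.exp (-(w / 2)) ≤
      (A2 * w ^ 5) ^ 2 * (Real.exp lam + 1) * Real.exp (-(w / 2)) := by
    rw [div_le_iff₀ (Real.exp_pos _), mul_assoc _ (Real.exp (-(w / 2))), ← Real.exp_add]
    have e : -(w / 2) + -(w / 2) = -w := by ring
    rw [e]
    linarith
  have h4 : Real.exp (-(w / 2)) * (((ED (box N)).card : ℝ) ^ 2 * m2) ≤
      Real.exp (-(w / 2)) * ((2 * (A2 * w ^ 5) ^ 2) ^ 2 * m2) := by
    have := Real.exp_pos (-(w / 2))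
    gcongr
  have h5 : w ^ 10 ≤ w ^ 20 := pow_le_pow_right₀ hw1 (by norm_num)
  have h7 : (Real.exp (-(w / 2)) * ((2 * (A2 * w ^ 5) ^ 2) ^ 2 * m2) +
      (A2 * w ^ 5) ^ 2 * (Real.exp lam + 1) * Real.exp (-(w / 2))) / 2 ≤
      (4 * A2 ^ 4 * m2 + A2 ^ 2 * (Real.exp lam + 1)) / 2 * w ^ 20 * Real.exp (-(w / 2)) := by
    have e1 : (Real.exp (-(w / 2)) * ((2 * (A2 * w ^ 5) ^ 2) ^ 2 * m2) +
      (A2 * w ^ 5) ^ 2 * (Real.exp lam + 1) * Real.exp (-(w / 2))) / 2 =
      (4 * A2 ^ 4 * m2 * w ^ 20 + A2 ^ 2 * (Real.exp lam + 1) * w ^ 10) / 2 *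
        Real.exp (-(w / 2)) := by ring
    rw [e1]
    have h8 : 0 < Real.exp lam := Real.exp_pos _
    have h9 : A2 ^ 2 * (Real.exp lam + 1) * w ^ 10 ≤ A2 ^ 2 * (Real.exp lam + 1) * w ^ 20 := by
      gcongr
    have h10 := Real.exp_pos (-(w / 2))
    refine mul_le_mul_of_nonneg_right ?_ h10.le
    linarith
  linarith

/-- **Block bound.** -/
theorem blockBound (h0 : G (Set.Iio 0) = 0) (hz : G {0} = 0) (hlam : 0 < lam)
    (hexp : Integrable (fun x => Real.exp (lam * x)) G) (F : FlatData μ) : BlockBound G F := by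
  classical
  have h2 := integrable_sq h0 hlam hexp
  obtain ⟨L, C, w0, hL, hC, hw0, hS⟩ := start_conn F
  have hSP : StartProp F L C w0 := ⟨hL, hC, hw0, hS⟩
  obtain ⟨C1, w1, hC1, hw1, hB⟩ := band_conn F
  have hBP : BandProp F C1 w1 := ⟨hC1, hw1, hB⟩
  obtain ⟨c0, hc0, hBad⟩ := prob_Bad_le (G := G) h0 hz
  obtain ⟨K0, hK0, hprob⟩ := prob_BadE F h0 hlam hexp hC1.le hc0 hBad
  have hG := one_le_GG F
  set m2 : ℝ := ∫ z, z ^ 2 ∂G with hm2
  set m1 : ℝ := ∫ z, z ∂G with hm1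
  have hm1' : 0 ≤ m1 := integral_nonneg_of_ae (ae_nonneg h0)
  have hm2' : 0 ≤ m2 := integral_nonneg fun z => sq_nonneg z
  set A2 : ℝ := 2 * GG F ^ 2 + 8 * GG F + 5 with hA2
  have hA2' : 0 < A2 := by positivity
  obtain ⟨w3, hw3⟩ := exists_decay ((4 * A2 ^ 4 * m2 + A2 ^ 2 * (Real.exp lam + 1)) / 2)
  set AF : ℝ := 2 * (2 * ((4 * GG F * (C1 + GG F) + 3) * (4 * GG F + 3)) * m1) with hAF
  set AD : ℝ := 2 * ((4 * GG F * (C + 2 * GG F) + 3) * (4 * GG F + 3)) * m1 with hAD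
  refine ⟨C + 7 * GG F + GG F * K0,
    w0 + w1 + 5 * GG F + (C + 2 * L + 2 * GG F) + |w3| + 1, AF + 2 * AD + 2,
    by positivity, by
      have := abs_nonneg w3
      have : 0 < L := by linarith
      positivity, ?_⟩
  intro w hw
  have hL0 : 0 < L := by linarith
  have hw3a := abs_nonneg w3
  have hw3b := le_abs_self w3
  have hww0 : w0 ≤ w := by linarith
  have hww1 : w1 ≤ w := by linarith
  have hww2 : 5 * GG F ≤ w := by linarith
  have hw1' : 1 ≤ w := by linarith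
  have hww3 : w3 ≤ w := by linarith
  have hw5 : w ≤ w ^ 5 := le_self_pow₀ hw1' (by norm_num)
  have hn0 : C + 2 * L + 2 * GG F < w ^ 5 := by linarith
  set n0 : ℝ := w ^ 5 with hn0def
  set κ : ℝ := (C + 7 * GG F + GG F * K0) * w with hκdef
  set m : ℕ := ⌈K0 * w⌉₊ with hm
  have hmle : (m : ℝ) ≤ K0 * w + 1 := (Nat.ceil_lt_add_one (by positivity)).le
  have hmge : K0 * w ≤ m := Nat.le_ceil _
  have hκ1 : C ≤ κ := by
    have : 0 ≤ GG F * K0 := by positivity
    nlinarith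
  have hκ2 : 5 * GG F ≤ κ := by
    have : 0 ≤ GG F * K0 := by positivity
    nlinarith
  have hκ3 : GG F * m + GG F ≤ κ := by
    have h3 : GG F * m ≤ GG F * (K0 * w + 1) := by gcongr
    nlinarith
  set N : ℕ := bxN F w n0 with hN
  have hNle : 2 * (N : ℝ) + 1 ≤ A2 * w ^ 5 := bxN_le F hw1'
  set B : Set Environment := BadE F C1 w c0 m N with hBdef
  have hBm : MeasurableSet B := measurableSet_BadE F C1 w c0 m N
  set S : Environment → ℝ := fun t => ∑ e ∈ ED (box N), t e with hSdef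
  set T : (ℝ × ℝ) × Environment → Environment := fun p => act (tr (nr p.1)) p.2 with hT
  have hTmp : MeasurePreserving T (P0 G) (iidLaw G) := mp_act_tr measurable_nr
  -- the bad part
  have hbadi : Integrable (B.indicator S) (iidLaw G) :=
    (integrable_sum_edges (G := G) h2 (ED (box N))).indicator hBm
  have hbad1 : ∫ t, B.indicator S t ∂(iidLaw G) ≤ 1 :=
    bad_le_one h0 h2 hw1' hNle hBm (hprob w hw1' m N hmge) (hw3 w hww3)
  -- the dominating function
  have d1 := DD_P0 (G := G) h2 h0 F (c := C + 2 * GG F) (w := w) (by linarith) hw1' measurable_nr 0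
  have d2 := DD_P0 (G := G) h2 h0 F (c := C + 2 * GG F) (w := w) (by linarith) hw1' measurable_nr
    (zEnd F n0)
  have iL := integrable_LT h0 h2 F hww2 0 n0
  have iB : Integrable (fun p => B.indicator S (T p)) (P0 G) :=
    hTmp.integrable_comp_of_integrable hbadi
  have hdom : ∀ᵐ p ∂(P0 G), blkCost F w n0 κ (p.1 + toR (nr p.1)) (act (tr (nr p.1)) p.2) ≤
      (LT F w 0 n0 p + 1) + (DD F (C + 2 * GG F) w 0 (act (tr (nr p.1)) p.2) +
        DD F (C + 2 * GG F) w (zEnd F n0) (act (tr (nr p.1)) p.2)) + B.indicator S (T p) := by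
    filter_upwards [ae_P0_Nn' h0] with p hp
    have ht : Nn (act (tr (nr p.1)) p.2) := fun e => hp.1 _
    have hnr : nr (p.1 + toR (nr p.1)) = 0 := by rw [nr_add, sub_self]
    have hLT : pR (act (tr (nr p.1)) p.2) (laneB F.swap w (p.1 + toR (nr p.1))) 0
        (nxt F n0 (p.1 + toR (nr p.1))) = LT F w 0 n0 p := by
      have h3 := Inv_LT F w 0 n0 (nr p.1) p.1 p.2
      simp only at h3
      rw [← h3]
      simp only [LT, zero_smul, sub_zero]
      rw [hnr]
      rfl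
    by_cases hbp : T p ∈ B
    · rw [Set.indicator_of_mem hbp]
      have h3 := fallback F hSP ht hnr hww0 hww2 hn0 hκ1 hκ2
      have h4 := LT_nonneg F w 0 n0 hp.1
      simp only [hSdef, hT]
      linarith
    · rw [Set.indicator_of_notMem hbp]
      have hgood : ∀ z ∈ box (bxN F w n0), DD F C1 w z (act (tr (nr p.1)) p.2) + 1 < c0 * m ∧
          act (tr (nr p.1)) p.2 ∉ Bad c0 m z := by
        intro z hz
        constructor
        · by_contra hcon
          rw [not_lt] at hcon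
          exact hbp ⟨z, hz, Or.inl hcon⟩
        · intro hcon
          exact hbp ⟨z, hz, Or.inr hcon⟩
      have h3 := main_det F hSP hBP ht hnr hww0 hww1 hww2 hn0 hκ1 hκ3 hgood
      rw [hLT] at h3
      linarith
  have hnn : 0 ≤ᵐ[P0 G] fun p => blkCost F w n0 κ (p.1 + toR (nr p.1))
      (act (tr (nr p.1)) p.2) := by
    filter_upwards [ae_P0_Nn' h0] with p hp
    exact blkCost_nonneg (fun e => hp.1 _) F w n0 κ _
  have iL1 : Integrable (fun p => LT F w 0 n0 p + 1) (P0 G) := iL.add (integrable_const 1)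
  have iD : Integrable (fun p : (ℝ × ℝ) × Environment =>
      DD F (C + 2 * GG F) w 0 (act (tr (nr p.1)) p.2) +
        DD F (C + 2 * GG F) w (zEnd F n0) (act (tr (nr p.1)) p.2)) (P0 G) := d1.1.add d2.1
  have iLD : Integrable (fun p : (ℝ × ℝ) × Environment => (LT F w 0 n0 p + 1) +
      (DD F (C + 2 * GG F) w 0 (act (tr (nr p.1)) p.2) +
        DD F (C + 2 * GG F) w (zEnd F n0) (act (tr (nr p.1)) p.2))) (P0 G) := iL1.add iD
  have key := integral_mono_of_nonneg hnn (iLD.add iB) hdom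
  refine key.trans ?_
  simp only [Pi.add_apply]
  rw [integral_add iLD iB, integral_add iL1 iD, integral_add iL (integrable_const 1),
    integral_add d1.1 d2.1]
  have hT1 : ∫ p, B.indicator S (T p) ∂(P0 G) = ∫ t, B.indicator S t ∂(iidLaw G) :=
    mp_integral hTmp hbadi.aestronglyMeasurable
  rw [hT1]
  have hconst : ∫ _ : (ℝ × ℝ) × Environment, (1 : ℝ) ∂(P0 G) = 1 := by simp
  rw [hconst]
  have hr := fL_le_rate h0 h2 F hBP hww2 hww1 (show 0 < n0 by linarith)
  have hrdef : ∫ p, LT F w 0 n0 p ∂(P0 G) = fL G F w n0 := rfl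
  rw [hrdef]
  have e1 := d1.2
  have e2 := d2.2
  have hAFw : 2 * (2 * ((4 * GG F * (C1 + GG F) + 3) * (4 * GG F + 3)) * m1 * w) = AF * w := by
    rw [hAF]; ring
  have hADw : 2 * ((4 * GG F * (C + 2 * GG F) + 3) * (4 * GG F + 3)) * m1 * w = AD * w := by
    rw [hAD]
  rw [← hm1, hAFw] at hr
  rw [← hm1, hADw] at e1 e2
  nlinarith

end Crest.Agent.R151.U450
end

-- ▼ part R151/Q7
section

/-!
# R151 / Q7 — the highways exist (owner helper777)

`highways` : `HighwaysExist G F` for every law with an exponential moment and no atom at `0`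
(777's `highwaysExist` + 450's `blockBound`); `highways_gamma` the Gamma case.
-/

set_option autoImplicit false

open MeasureTheory Filter ProbabilityTheory Topology
open Crest.ProbabilityR.FirstPassage
open Crest.Agent.R151.K

namespace Crest.Agent.R151.Q

open B710 (FlatData)

variable {μ : ℝ × ℝ → ℝ} {lam : ℝ}

theorem highways {G : Measure ℝ} [IsProbabilityMeasure G] (h0 : G (Set.Iio 0) = 0)
    (hz : G {0} = 0) (hlam : 0 < lam) (hexp : Integrable (fun x => Real.exp (lam * x)) G)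
    (hμ : IsTC G μ) (F : FlatData μ) : HighwaysExist G F :=
  highwaysExist h0 (integrable_sq h0 hlam hexp) hμ F (U450.blockBound h0 hz hlam hexp F)

theorem highways_gamma {κ r : ℝ} (hκ : 0 < κ) (hr : 0 < r)
    (hμ : IsTC (gammaMeasure κ r) μ) (F : FlatData μ) : HighwaysExist (gammaMeasure κ r) F := by
  have hγ := isProbabilityMeasure_gammaMeasure hκ hr
  exact highways (gamma_Iio κ r) (gamma_zero κ r) (half_pos hr) (gamma_exp hκ hr) hμ F

end Crest.Agent.R151.Q
end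

-- ▼ part R151/W3b
section

/-!
R151, S0214 part 2, section 12 (module M): the deterministic half.
Positions in cells, costs in units of `l`.
-/

set_option autoImplicit false

namespace Crest.Agent.R151.W

open Finset

/-- Deterministic Peierls dichotomy. -/
theorem peierls_det {N : ℕ} {T : Finset ℕ} (hT : T ⊆ range N) {i cost : ℕ → ℝ}
    {B : ℕ → Prop} {F : ℕ → Prop} [DecidablePred B] [DecidablePred F]
    {ζ v1 κ' c κ'' V η : ℝ}
    (hζ : 0 < ζ) (hv1 : 1 ≤ v1) (hζ1 : ζ ≤ v1) (hκ' : 0 < κ') (hc : 0 < c)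
    (hκ1 : 64 * v1 * κ'' ≤ κ' * ζ) (hκ2 : 64 * κ'' ≤ c * ζ)
    (hη1 : η ≤ 1 / 64) (hVη : 2 * V * η ≤ ζ / 64) (hVN : 2 * V ≤ ζ * N / 64)
    (hpos : ∀ k ≤ N, |i k| ≤ V) (hat : ((range N \ T).card : ℝ) ≤ η * N)
    (h0 : ∀ k < N, 0 ≤ cost k)
    (H1 : ∀ k ∈ T, i (k + 1) ≤ i k + ζ → ¬ B k → κ' ≤ cost k)
    (H2 : ∀ k ∈ T, v1 ≤ i k - i (k + 1) → ¬ F k → c * (i k - i (k + 1)) ≤ cost k)
    (hsum : ∑ k ∈ range N, cost k ≤ κ'' * N) :
    (ζ * N ≤ 6 * (v1 * (T.filter fun k => i (k + 1) ≤ i k + ζ ∧ B k).card) ∧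
      ∑ k ∈ range N, |i (k + 1) - i k| ≤
        ζ * N / 8 + 4 * (v1 * (T.filter fun k => i (k + 1) ≤ i k + ζ ∧ B k).card)) ∨
    (ζ * N ≤ 6 * ∑ k ∈ T.filter (fun k => v1 ≤ i k - i (k + 1) ∧ F k), (i k - i (k + 1)) ∧
      ∑ k ∈ range N, |i (k + 1) - i k| ≤
        ζ * N / 8 + 4 * ∑ k ∈ T.filter (fun k => v1 ≤ i k - i (k + 1) ∧ F k),
          (i k - i (k + 1))) := by
  classical
  set NB := T.filter fun k => i (k + 1) ≤ i k + ζ ∧ B k with hNB
  set BF := T.filter fun k => v1 ≤ i k - i (k + 1) ∧ F k with hBF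
  set SF := ∑ k ∈ BF, (i k - i (k + 1)) with hSF
  set GB := T.filter fun k => i (k + 1) ≤ i k + ζ ∧ ¬ B k with hGB
  set GF := T.filter fun k => v1 ≤ i k - i (k + 1) ∧ ¬ F k with hGF
  have hN : (0 : ℝ) ≤ N := Nat.cast_nonneg N
  -- f1
  have f1 : κ' * GB.card ≤ κ'' * N := by
    calc κ' * GB.card = ∑ k ∈ GB, κ' := by simp [mul_comm]
      _ ≤ ∑ k ∈ GB, cost k := Finset.sum_le_sum fun k hk => by
          have := Finset.mem_filter.1 hk; exact H1 k this.1 this.2.1 this.2.2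
      _ ≤ ∑ k ∈ range N, cost k := Finset.sum_le_sum_of_subset_of_nonneg
          ((Finset.filter_subset _ _).trans hT) fun k hk _ => h0 k (Finset.mem_range.1 hk)
      _ ≤ _ := hsum
  have f2 : c * ∑ k ∈ GF, (i k - i (k + 1)) ≤ κ'' * N := by
    calc c * ∑ k ∈ GF, (i k - i (k + 1)) = ∑ k ∈ GF, c * (i k - i (k + 1)) := Finset.mul_sum _ _ _
      _ ≤ ∑ k ∈ GF, cost k := Finset.sum_le_sum fun k hk => by
          have := Finset.mem_filter.1 hk; exact H2 k this.1 this.2.1 this.2.2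
      _ ≤ ∑ k ∈ range N, cost k := Finset.sum_le_sum_of_subset_of_nonneg
          ((Finset.filter_subset _ _).trans hT) fun k hk _ => h0 k (Finset.mem_range.1 hk)
      _ ≤ _ := hsum
  have f1' : v1 * GB.card ≤ ζ * N / 64 := by
    have h1 : κ' * (64 * (v1 * GB.card)) ≤ κ' * (ζ * N) := by
      calc κ' * (64 * (v1 * GB.card)) = 64 * v1 * (κ' * GB.card) := by ring
        _ ≤ 64 * v1 * (κ'' * N) := mul_le_mul_of_nonneg_left f1 (by positivity)
        _ = (64 * v1 * κ'') * N := by ring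
        _ ≤ (κ' * ζ) * N := mul_le_mul_of_nonneg_right hκ1 hN
        _ = _ := by ring
    have := le_of_mul_le_mul_left h1 hκ'
    linarith
  have f2' : ∑ k ∈ GF, (i k - i (k + 1)) ≤ ζ * N / 64 := by
    have h1 : c * (64 * ∑ k ∈ GF, (i k - i (k + 1))) ≤ c * (ζ * N) := by
      calc c * (64 * ∑ k ∈ GF, (i k - i (k + 1))) = 64 * (c * ∑ k ∈ GF, (i k - i (k + 1))) := by ring
        _ ≤ 64 * (κ'' * N) := mul_le_mul_of_nonneg_left f2 (by norm_num)
        _ = (64 * κ'') * N := by ring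
        _ ≤ (c * ζ) * N := mul_le_mul_of_nonneg_right hκ2 hN
        _ = _ := by ring
    have := le_of_mul_le_mul_left h1 hc
    linarith
  -- positive parts of the falls over typical rows
  set fall : ℕ → ℝ := fun k => max (i k - i (k + 1)) 0 with hfall
  set rise : ℕ → ℝ := fun k => max (i (k + 1) - i k) 0 with hrise
  have hfr : ∀ k, rise k - fall k = i (k + 1) - i k := by
    intro k; simp only [hfall, hrise]
    rcases le_total (i k) (i (k + 1)) with h | h
    · rw [max_eq_left (by linarith), max_eq_right (by linarith)]; ring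
    · rw [max_eq_right (by linarith), max_eq_left (by linarith)]; ring
  have habs : ∀ k, |i (k + 1) - i k| = rise k + fall k := by
    intro k; simp only [hfall, hrise]
    rcases le_total (i k) (i (k + 1)) with h | h
    · rw [max_eq_left (by linarith), max_eq_right (by linarith), abs_of_nonneg (by linarith)]; ring
    · rw [max_eq_right (by linarith), max_eq_left (by linarith), abs_of_nonpos (by linarith)]; ring
  have f3 : ∑ k ∈ T, fall k ≤ v1 * GB.card + v1 * NB.card +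
      ∑ k ∈ GF, (i k - i (k + 1)) + SF := by
    have e : ∀ (P : ℕ → Prop) [DecidablePred P] (g : ℕ → ℝ),
        ∑ k ∈ T.filter P, g k = ∑ k ∈ T, if P k then g k else 0 := fun P _ g => Finset.sum_filter _ _
    have e1 : v1 * GB.card = ∑ k ∈ GB, v1 := by simp [mul_comm]
    have e2 : v1 * NB.card = ∑ k ∈ NB, v1 := by simp [mul_comm]
    rw [e1, e2, hSF, hGB, hNB, hGF, hBF]
    simp only [e]
    rw [← Finset.sum_add_distrib, ← Finset.sum_add_distrib, ← Finset.sum_add_distrib]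
    refine Finset.sum_le_sum fun k _ => ?_
    simp only [hfall]
    by_cases hA : i (k + 1) ≤ i k + ζ
    · by_cases hL : v1 ≤ i k - i (k + 1)
      · have hm : max (i k - i (k + 1)) 0 = i k - i (k + 1) := max_eq_left (by linarith)
        rw [hm]
        by_cases hb : B k <;> by_cases hf : F k <;> simp [hA, hL, hb, hf] <;> linarith
      · have hm : max (i k - i (k + 1)) 0 ≤ v1 := max_le (by linarith) (by linarith)
        by_cases hb : B k <;> simp only [hA, hL, hb, not_true_eq_false, not_false_eq_true,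
          and_true, and_false, false_and, if_true, if_false] <;> linarith
    · have hm : max (i k - i (k + 1)) 0 = 0 := max_eq_right (by linarith)
      have hL : ¬ v1 ≤ i k - i (k + 1) := by push Not; linarith
      simp only [hA, hL, false_and, if_false, hm]; linarith
  -- atypical rows
  have f4 : ∑ k ∈ range N \ T, fall k ≤ ζ * N / 64 := by
    calc ∑ k ∈ range N \ T, fall k ≤ ∑ k ∈ range N \ T, 2 * V := by
          refine Finset.sum_le_sum fun k hk => ?_
          have hk' : k < N := Finset.mem_range.1 (Finset.mem_sdiff.1 hk).1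
          have a1 := hpos k hk'.le
          have a2 := hpos (k + 1) hk'
          rw [abs_le] at a1 a2
          exact max_le (by linarith) (by linarith)
      _ = (range N \ T).card * (2 * V) := by simp
      _ ≤ (η * N) * (2 * V) := by
          refine mul_le_mul_of_nonneg_right hat ?_
          have := (abs_nonneg _).trans (hpos 0 (Nat.zero_le _)); linarith
      _ = (2 * V * η) * N := by ring
      _ ≤ (ζ / 64) * N := mul_le_mul_of_nonneg_right hVη hN
      _ = _ := by ring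
  have f5 : ∑ k ∈ range N, fall k ≤ ζ * N / 64 + (v1 * GB.card + v1 * NB.card +
      ∑ k ∈ GF, (i k - i (k + 1)) + SF) := by
    rw [← Finset.sum_sdiff hT]; linarith
  have f6 : ∑ k ∈ range N, rise k = ∑ k ∈ range N, fall k + (i N - i 0) := by
    rw [← Finset.sum_range_sub i N, ← Finset.sum_add_distrib]
    exact Finset.sum_congr rfl fun k _ => by linarith [hfr k]
  have hi0 := hpos 0 (Nat.zero_le _)
  have hiN := hpos N le_rfl
  rw [abs_le] at hi0 hiN
  -- rises
  have f7 : ζ * ((T.filter fun k => ¬ i (k + 1) ≤ i k + ζ).card : ℝ) ≤ ∑ k ∈ range N, rise k := by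
    calc ζ * ((T.filter fun k => ¬ i (k + 1) ≤ i k + ζ).card : ℝ)
        = ∑ k ∈ T.filter (fun k => ¬ i (k + 1) ≤ i k + ζ), ζ := by simp [mul_comm]
      _ ≤ ∑ k ∈ T.filter (fun k => ¬ i (k + 1) ≤ i k + ζ), rise k := by
          refine Finset.sum_le_sum fun k hk => ?_
          have := (Finset.mem_filter.1 hk).2
          exact le_max_of_le_left (by push Not at this; linarith)
      _ ≤ ∑ k ∈ range N, rise k := Finset.sum_le_sum_of_subset_of_nonneg
          ((Finset.filter_subset _ _).trans hT) fun k _ _ => le_max_right _ _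
  have f8 : (N : ℝ) = (range N \ T).card + (T.filter fun k => ¬ i (k + 1) ≤ i k + ζ).card +
      (GB.card + NB.card) := by
    have e1 : (T.filter fun k => i (k + 1) ≤ i k + ζ).card = GB.card + NB.card := by
      rw [hGB, hNB, ← Finset.card_union_of_disjoint]
      · congr 1; ext k; simp only [Finset.mem_filter, Finset.mem_union]; tauto
      · rw [Finset.disjoint_left]; intro k h1 h2
        exact (Finset.mem_filter.1 h1).2.2 (Finset.mem_filter.1 h2).2.2
    have e2 := Finset.card_filter_add_card_filter_not (s := T) (fun k => i (k + 1) ≤ i k + ζ)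
    have e3 := Finset.card_sdiff_add_card_eq_card hT
    rw [Finset.card_range] at e3
    have : N = (range N \ T).card + (T.filter fun k => ¬ i (k + 1) ≤ i k + ζ).card +
      (GB.card + NB.card) := by omega
    exact_mod_cast this
  have hGBN : (GB.card : ℝ) * 64 ≤ N := by
    have h1 : ζ * GB.card ≤ v1 * GB.card := mul_le_mul_of_nonneg_right hζ1 (Nat.cast_nonneg _)
    have h2 : ζ * (GB.card * 64) ≤ ζ * N := by linarith
    exact le_of_mul_le_mul_left h2 hζ
  have hatN : ((range N \ T).card : ℝ) ≤ N / 64 := by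
    refine hat.trans ?_
    have := mul_le_mul_of_nonneg_right hη1 hN; linarith
  have f9 : ζ * N * (15 / 16) - ζ * NB.card ≤ ζ * ((T.filter fun k => ¬ i (k + 1) ≤ i k + ζ).card : ℝ) := by
    have h1 : (N : ℝ) * (31 / 32) - NB.card ≤ ((T.filter fun k => ¬ i (k + 1) ≤ i k + ζ).card : ℝ) := by
      linarith
    have h2 := mul_le_mul_of_nonneg_left h1 hζ.le
    have h3 : 0 ≤ ζ * N := by positivity
    nlinarith
  have hNBζ : ζ * NB.card ≤ v1 * NB.card := mul_le_mul_of_nonneg_right hζ1 (Nat.cast_nonneg _)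
  have hzN : 0 ≤ ζ * N := by positivity
  have hkey : ζ * N * (3 / 4) ≤ 2 * (v1 * NB.card) + SF := by linarith
  have htv : ∑ k ∈ range N, |i (k + 1) - i k| ≤ ζ * N / 8 + 2 * (v1 * NB.card + SF) := by
    simp_rw [habs]
    rw [Finset.sum_add_distrib]
    linarith
  rcases le_total SF (v1 * NB.card) with h | h
  · left
    exact ⟨by linarith, by linarith⟩
  · right
    exact ⟨by linarith, by linarith⟩

/-- total variation of the marked positions is controlled by that of the path -/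
theorem tv_le {τ : Type*} {h : ℝ} (hh : 0 < h) :
    ∀ (n : ℕ) (x : ℤ) (i : ℕ → ℝ) (c : Fin n → Option (ℤ × τ)),
      (∀ k : Fin n, ∀ gm ∈ c k, gm.1 = ⌊i k / h⌋) →
      tv n x c ≤ |i 0 / h - x| + (∑ k ∈ range n, |i (k + 1) - i k|) / h +
        2 * ∑ k, (c k).elim 0 (fun _ => (1 : ℝ)) := by
  intro n
  induction n with
  | zero => intro x i c _; simp [tv]
  | succ n ih =>
    intro x i c hc
    have hsum : (∑ k ∈ range (n + 1), |i (k + 1) - i k|) / h =
        |i 1 / h - i 0 / h| + (∑ k ∈ range n, |i (k + 1 + 1) - i (k + 1)|) / h := by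
      rw [Finset.sum_range_succ', add_comm, add_div]
      congr 1
      rw [zero_add, ← sub_div, abs_div, abs_of_pos hh]
    have hs2 : ∑ k, (c k).elim 0 (fun _ => (1 : ℝ)) = (c 0).elim 0 (fun _ => (1 : ℝ)) +
        ∑ k, (Fin.tail c k).elim 0 (fun _ => (1 : ℝ)) := by
      rw [Fin.sum_univ_succ]; rfl
    have ih' := fun y => ih y (fun k => i (k + 1)) (Fin.tail c) (fun k gm hgm => by
      have := hc k.succ gm hgm; simpa using this)
    rw [hsum, hs2, tv]
    rcases h0 : c 0 with _ | gm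
    · simp only [Option.elim_none]
      have h1 := ih' x
      have h2 : |i (0 + 1) / h - x| ≤ |i 0 / h - x| + |i 1 / h - i 0 / h| := by
        rw [zero_add]
        calc |i 1 / h - x| = |(i 0 / h - x) + (i 1 / h - i 0 / h)| := by ring_nf
          _ ≤ _ := abs_add_le _ _
      simp only [zero_add] at h1 h2 ⊢
      linarith
    · simp only [Option.elim_some]
      have hg : gm.1 = ⌊i 0 / h⌋ := by
        have := hc 0 gm (by rw [h0]; rfl); simpa using this
      have hfl : |i 0 / h - gm.1| ≤ 1 := by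
        rw [hg, abs_of_nonneg (by linarith [Int.floor_le (i 0 / h)])]
        linarith [Int.lt_floor_add_one (i 0 / h)]
      have h1 := ih' gm.1
      have h2 : |i (0 + 1) / h - gm.1| ≤ |i 1 / h - i 0 / h| + |i 0 / h - gm.1| := by
        rw [zero_add]
        calc |i 1 / h - gm.1| = |(i 1 / h - i 0 / h) + (i 0 / h - gm.1)| := by ring_nf
          _ ≤ _ := abs_add_le _ _
      have h3 : |((gm.1 - x : ℤ) : ℝ)| ≤ |i 0 / h - x| + |i 0 / h - gm.1| := by
        push_cast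
        calc |(gm.1 : ℝ) - x| = |(i 0 / h - x) - (i 0 / h - gm.1)| := by ring_nf
          _ ≤ _ := abs_sub _ _
      simp only [zero_add] at h1 h2 ⊢
      linarith

end Crest.Agent.R151.W
end

-- ▼ part R151/W3c
section

/-!
R151, S0214 part 2, section 12 (module M): the assembled Peierls theorem.
-/

set_option autoImplicit false

namespace Crest.Agent.R151.W

open MeasureTheory Finset

universe u

/-- the set of environments for which a cheap path exists -/
def cheap {Ω : Type u} (N : ℕ) (T : Finset ℕ) (B : ℕ → ℤ → Set Ω) (F : ℕ → ℤ → ℕ → Set Ω)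
    (ζ v1 h κ' c κ'' V : ℝ) : Set Ω :=
  {ω | ∃ i cost : ℕ → ℝ, (∀ k ≤ N, |i k| ≤ V) ∧ (∀ k < N, 0 ≤ cost k) ∧
    (∀ k ∈ T, i (k + 1) ≤ i k + ζ → ω ∉ B k ⌊i k / h⌋ → κ' ≤ cost k) ∧
    (∀ k ∈ T, v1 ≤ i k - i (k + 1) → ω ∉ F k ⌊i k⌋ ⌊i k - i (k + 1)⌋₊ →
      c * (i k - i (k + 1)) ≤ cost k) ∧
    ∑ k ∈ range N, cost k ≤ κ'' * N}

/-- hypothesis on the small events: joint probabilities over distinct typical rows -/
def ProdB {Ω : Type u} [MeasurableSpace Ω] (μ : Measure Ω) (N : ℕ) (T : Finset ℕ)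
    (B : ℕ → ℤ → Set Ω) (p : ℝ) : Prop :=
  ∀ c : Fin N → Option ℤ, (∀ k : Fin N, (c k).isSome → (k : ℕ) ∈ T) →
    μ (⋂ k : Fin N, (c k).elim Set.univ (B k)) ≤ ENNReal.ofReal (∏ k, (c k).elim 1 fun _ => p)

/-- hypothesis on the large falls -/
def ProdF {Ω : Type u} [MeasurableSpace Ω] (μ : Measure Ω) (N : ℕ) (T : Finset ℕ)
    (F : ℕ → ℤ → ℕ → Set Ω) (c2 : ℝ) (m1 : ℕ) : Prop :=
  ∀ c : Fin N → Option (ℤ × ℕ), (∀ k : Fin N, ∀ gm ∈ c k, (k : ℕ) ∈ T ∧ m1 ≤ gm.2) →
    μ (⋂ k : Fin N, (c k).elim Set.univ fun gm => F k gm.1 gm.2) ≤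
      ENNReal.ofReal (∏ k, (c k).elim 1 fun gm => Real.exp (-c2 * gm.2))

/-- the event of case (I) -/
def evB {Ω : Type u} (N : ℕ) (T : Finset ℕ) (B : ℕ → ℤ → Set Ω) (ζ v1 h V : ℝ) : Set Ω :=
  {ω | ∃ i : ℕ → ℝ, ∃ M : Finset ℕ, M ⊆ T ∧ (∀ k ≤ N, |i k| ≤ V) ∧ (∀ k ∈ M, ω ∈ B k ⌊i k / h⌋) ∧
    ζ * N ≤ 6 * (v1 * M.card) ∧
    ∑ k ∈ range N, |i (k + 1) - i k| ≤ ζ * N / 8 + 4 * (v1 * M.card)}

/-- the event of case (II) -/
def evF {Ω : Type u} (N : ℕ) (T : Finset ℕ) (F : ℕ → ℤ → ℕ → Set Ω) (ζ v1 V : ℝ) : Set Ω :=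
  {ω | ∃ i : ℕ → ℝ, ∃ M : Finset ℕ, M ⊆ T ∧ (∀ k ≤ N, |i k| ≤ V) ∧
    (∀ k ∈ M, v1 ≤ i k - i (k + 1) ∧ ω ∈ F k ⌊i k⌋ ⌊i k - i (k + 1)⌋₊) ∧
    ζ * N ≤ 6 * ∑ k ∈ M, (i k - i (k + 1)) ∧
    ∑ k ∈ range N, |i (k + 1) - i k| ≤ ζ * N / 8 + 4 * ∑ k ∈ M, (i k - i (k + 1))}

theorem cheap_subset {Ω : Type u} {N : ℕ} {T : Finset ℕ} (hT : T ⊆ range N)
    {B : ℕ → ℤ → Set Ω} {F : ℕ → ℤ → ℕ → Set Ω}
    {ζ v1 h κ' c κ'' V η : ℝ}
    (hζ : 0 < ζ) (hv1 : 1 ≤ v1) (hζ1 : ζ ≤ v1) (hκ' : 0 < κ') (hc : 0 < c)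
    (hκ1 : 64 * v1 * κ'' ≤ κ' * ζ) (hκ2 : 64 * κ'' ≤ c * ζ)
    (hη1 : η ≤ 1 / 64) (hVη : 2 * V * η ≤ ζ / 64) (hVN : 2 * V ≤ ζ * N / 64)
    (hat : ((range N \ T).card : ℝ) ≤ η * N) :
    cheap N T B F ζ v1 h κ' c κ'' V ⊆ evB N T B ζ v1 h V ∪ evF N T F ζ v1 V := by
  classical
  rintro ω ⟨i, cost, hpos, h0, H1, H2, hs⟩
  rcases peierls_det hT (i := i) (cost := cost) (B := fun k => ω ∈ B k ⌊i k / h⌋)
    (F := fun k => ω ∈ F k ⌊i k⌋ ⌊i k - i (k + 1)⌋₊) hζ hv1 hζ1 hκ' hc hκ1 hκ2 hη1 hVη hVN hpos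
    hat h0 H1 H2 hs with hh | hh
  · left
    exact ⟨i, _, Finset.filter_subset _ _, hpos, fun k hk => (Finset.mem_filter.1 hk).2.2,
      hh.1, hh.2⟩
  · right
    exact ⟨i, _, Finset.filter_subset _ _, hpos, fun k hk => (Finset.mem_filter.1 hk).2,
      hh.1, hh.2⟩

theorem floor_mem {x V : ℝ} (h : |x| ≤ V) : ⌊x⌋ ∈ Finset.Icc (-(⌈V⌉ + 1)) (⌈V⌉ + 1) := by
  rw [abs_le] at h
  rw [Finset.mem_Icc]
  constructor
  · rw [Int.le_floor]; push_cast; linarith [Int.le_ceil V]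
  · have : (⌊x⌋ : ℝ) ≤ ⌈V⌉ + 1 := by linarith [Int.floor_le x, Int.le_ceil V]
    exact_mod_cast this

theorem measure_evB_le {Ω : Type u} [MeasurableSpace Ω] (μ : Measure Ω) {N : ℕ} {T : Finset ℕ}
    (hT : T ⊆ range N) {B : ℕ → ℤ → Set Ω} {p : ℝ} (hp : 0 ≤ p) (hB : ProdB μ N T B p)
    {ζ v1 h V lam β : ℝ} (hh : 0 < h) (hv1 : 0 < v1) (hl : 0 < lam) (hβ : 0 ≤ β) :
    μ (evB N T B ζ v1 h V) ≤ ENNReal.ofReal
      (Real.exp (lam * ((V + ζ * N / 8) / h) - β * (ζ * N / (6 * v1))) *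
        (1 + 2 / (1 - Real.exp (-lam)) * (p * Real.exp (lam * (4 * v1 / h + 2) + β))) ^ N) := by
  classical
  set Gr : Finset ℤ := Finset.Icc (-(⌈V / h⌉ + 1)) (⌈V / h⌉ + 1) with hGr
  have hub := union_bound (τ := Unit) μ (n := N)
    (fun k g _ => if (k : ℕ) ∈ T then B k g else ∅) (π := fun _ => p) (w := fun _ => 1)
    (fun _ => hp) Gr (by
      intro c
      by_cases hc : ∀ k : Fin N, (c k).isSome → (k : ℕ) ∈ T
      · have := hB (fun k => (c k).map Prod.fst) (by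
          intro k hk; exact hc k (by simpa using hk))
        refine (measure_mono ?_).trans (this.trans (le_of_eq ?_))
        · refine Set.iInter_mono fun k => ?_
          rcases hck : c k with _ | gm
          · simp
          · simp only [Option.elim_some, Option.map_some]
            rw [if_pos (hc k (by simp [hck]))]
        · congr 1
          unfold wt
          refine Finset.prod_congr rfl fun k _ => ?_
          rcases hck : c k with _ | gm <;> simp
      · push Not at hc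
        obtain ⟨k, hk1, hk2⟩ := hc
        obtain ⟨gm, hgm⟩ := Option.isSome_iff_exists.1 hk1
        have : (⋂ k : Fin N, (c k).elim Set.univ fun gm => if (k : ℕ) ∈ T then B k gm.1 else ∅) ⊆
            (∅ : Set Ω) := by
          refine (Set.iInter_subset _ k).trans ?_
          rw [hgm]; simp [hk2]
        refine (measure_mono this).trans ?_
        simp)
    (lam := lam) (β := β) (D := (V + ζ * N / 8) / h) (a := 4 * v1 / h + 2)
    (A₀ := ζ * N / (6 * v1)) hl hβ 0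
  refine (measure_mono ?_).trans (hub.trans (le_of_eq ?_))
  · rintro ω ⟨i, M, hMT, hpos, hMB, h1, h2⟩
    have hmem : ∀ k : Fin N, ⌊i k / h⌋ ∈ Gr := fun k => floor_mem (by
      rw [abs_div, abs_of_pos hh]
      exact div_le_div_of_nonneg_right (hpos k k.2.le) hh.le)
    let cc : Cfg Unit Gr N := fun k =>
      if (k : ℕ) ∈ M then some (⟨⌊i k / h⌋, hmem k⟩, ()) else none
    have hcc : ∀ k : Fin N, cc.toFun k = if (k : ℕ) ∈ M then some (⌊i k / h⌋, ()) else none := by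
      intro k
      simp only [Cfg.toFun, cc]
      split_ifs <;> simp
    have hcard : ∑ k, (cc.toFun k).elim 0 (fun _ => (1 : ℝ)) = M.card := by
      have e1 : ∀ k : Fin N, (cc.toFun k).elim 0 (fun _ => (1 : ℝ)) =
          (fun k : ℕ => if k ∈ M then (1 : ℝ) else 0) k := by
        intro k; rw [hcc]; dsimp only; split_ifs <;> simp
      rw [Finset.sum_congr rfl fun k _ => e1 k,
        Fin.sum_univ_eq_sum_range (fun k : ℕ => if k ∈ M then (1 : ℝ) else 0) N,
        ← Finset.sum_filter, Finset.filter_mem_eq_inter,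
        Finset.inter_eq_right.2 (hMT.trans hT)]
      simp
    refine ⟨cc, ?_, ?_, ?_⟩
    · intro k gm hgm
      rw [hcc] at hgm
      split_ifs at hgm with hk
      · simp only [Option.mem_def, Option.some.injEq] at hgm
        subst hgm
        rw [if_pos (hMT hk)]
        exact hMB k hk
      · simp at hgm
    · rw [hcard]
      have h3 := tv_le hh N 0 i cc.toFun (by
        intro k gm hgm
        rw [hcc] at hgm
        split_ifs at hgm with hk
        · simp only [Option.mem_def, Option.some.injEq] at hgm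
          subst hgm; rfl
        · simp at hgm)
      rw [hcard] at h3
      have h4 : |i 0 / h - ((0 : ℤ) : ℝ)| ≤ V / h := by
        rw [Int.cast_zero, sub_zero, abs_div, abs_of_pos hh]
        exact div_le_div_of_nonneg_right (hpos 0 (Nat.zero_le _)) hh.le
      have h5 := div_le_div_of_nonneg_right h2 hh.le
      calc tv N 0 cc.toFun ≤ V / h + (ζ * N / 8 + 4 * (v1 * M.card)) / h + 2 * M.card := by
            linarith
        _ = _ := by field_simp; ring
    · rw [hcard, div_le_iff₀ (by positivity)]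
      linarith
  · congr 1
    simp

theorem measure_evF_le {Ω : Type u} [MeasurableSpace Ω] (μ : Measure Ω) {N : ℕ} {T : Finset ℕ}
    (hT : T ⊆ range N) {F : ℕ → ℤ → ℕ → Set Ω} {c2 : ℝ} (hc2 : 0 < c2) {m1 : ℕ}
    (hF : ProdF μ N T F c2 m1) {ζ v1 V : ℝ} (hv1 : 1 ≤ v1) (hm1 : (m1 : ℝ) ≤ v1) :
    μ (evF N T F ζ v1 V) ≤ ENNReal.ofReal
      (Real.exp (c2 / 40 * (V + ζ * N / 8) - c2 / 4 * (ζ * N / 12)) *
        (1 + 2 / (1 - Real.exp (-(c2 / 40))) *
          (Real.exp (-(c2 * m1 / 2)) / (1 - Real.exp (-(c2 / 2))))) ^ N) := by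
  classical
  set Gr : Finset ℤ := Finset.Icc (-(⌈V⌉ + 1)) (⌈V⌉ + 1) with hGr
  set Mx : ℕ := ⌊2 * V⌋₊ with hMx
  have hub := union_bound (τ := Fin (Mx + 1)) μ (n := N)
    (fun k g m => if (k : ℕ) ∈ T ∧ m1 ≤ (m : ℕ) then F k g m else ∅)
    (π := fun m => if m1 ≤ (m : ℕ) then Real.exp (-c2 * (m : ℕ)) else 0)
    (w := fun m => ((m : ℕ) : ℝ))
    (fun m => by split_ifs <;> positivity) Gr (by
      intro c
      by_cases hc : ∀ k : Fin N, ∀ gm ∈ c k, (k : ℕ) ∈ T ∧ m1 ≤ (gm.2 : ℕ)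
      · have := hF (fun k => (c k).map fun gm => (gm.1, (gm.2 : ℕ))) (by
          intro k gm hgm
          rcases hck : c k with _ | gm'
          · simp [hck] at hgm
          · simp only [hck, Option.map_some, Option.mem_def, Option.some.injEq] at hgm
            subst hgm
            exact hc k gm' (by rw [hck]; rfl))
        refine (measure_mono ?_).trans (this.trans (le_of_eq ?_))
        · refine Set.iInter_mono fun k => ?_
          rcases hck : c k with _ | gm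
          · simp
          · simp only [Option.elim_some, Option.map_some]
            rw [if_pos (hc k gm (by rw [hck]; rfl))]
        · congr 1
          unfold wt
          refine Finset.prod_congr rfl fun k _ => ?_
          rcases hck : c k with _ | gm
          · simp
          · simp only [Option.elim_some, Option.map_some]
            rw [if_pos (hc k gm (by rw [hck]; rfl)).2]
      · push Not at hc
        obtain ⟨k, gm, hk1, hk2⟩ := hc
        have : (⋂ k : Fin N, (c k).elim Set.univ fun gm => if (k : ℕ) ∈ T ∧ m1 ≤ (gm.2 : ℕ)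
            then F k gm.1 gm.2 else ∅) ⊆ (∅ : Set Ω) := by
          refine (Set.iInter_subset _ k).trans ?_
          rw [Option.mem_def.1 hk1]
          simp only [Option.elim_some]
          rw [if_neg]
          rintro ⟨h1, h2⟩
          exact absurd h2 (not_le.2 (hk2 h1))
        refine (measure_mono this).trans ?_
        simp)
    (lam := c2 / 40) (β := c2 / 4) (D := V + ζ * N / 8) (a := 10)
    (A₀ := ζ * N / 12) (by positivity) (by positivity) 0
  refine (measure_mono ?_).trans (hub.trans (ENNReal.ofReal_le_ofReal ?_))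
  · rintro ω ⟨i, M, hMT, hpos, hMF, h1, h2⟩
    have hmem : ∀ k : Fin N, ⌊i k⌋ ∈ Gr := fun k => floor_mem (hpos k k.2.le)
    have hfl : ∀ k ∈ M, ⌊i k - i (k + 1)⌋₊ < Mx + 1 := by
      intro k hk
      have hkN : k < N := Finset.mem_range.1 (hT (hMT hk))
      refine Nat.lt_succ_of_le (Nat.floor_le_floor ?_)
      have a1 := hpos k hkN.le
      have a2 := hpos (k + 1) hkN
      rw [abs_le] at a1 a2
      linarith
    let cc : Cfg (Fin (Mx + 1)) Gr N := fun k =>
      if hk : (k : ℕ) ∈ M then some (⟨⌊i k⌋, hmem k⟩, ⟨⌊i k - i (k + 1)⌋₊, hfl k hk⟩) else none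
    have hcc : ∀ k : Fin N, ∀ hk : (k : ℕ) ∈ M, cc.toFun k =
        some (⌊i k⌋, ⟨⌊i k - i (k + 1)⌋₊, hfl k hk⟩) := by
      intro k hk
      simp only [Cfg.toFun, cc, dif_pos hk, Option.map_some]
    have hcc' : ∀ k : Fin N, (k : ℕ) ∉ M → cc.toFun k = none := by
      intro k hk
      simp only [Cfg.toFun, cc, dif_neg hk, Option.map_none]
    have hsum : ∀ f : ℕ → ℝ, ∀ g : ℤ × Fin (Mx + 1) → ℝ,
        (∀ k : Fin N, ∀ hk : (k : ℕ) ∈ M, g (⌊i k⌋, ⟨⌊i k - i (k + 1)⌋₊, hfl k hk⟩) = f k) →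
        ∑ k, (cc.toFun k).elim 0 g = ∑ k ∈ M, f k := by
      intro f g hfg
      have e1 : ∀ k : Fin N, (cc.toFun k).elim 0 g =
          (fun k : ℕ => if k ∈ M then f k else 0) k := by
        intro k
        dsimp only
        by_cases hk : (k : ℕ) ∈ M
        · rw [hcc k hk, if_pos hk]; exact hfg k hk
        · rw [hcc' k hk, if_neg hk]; rfl
      rw [Finset.sum_congr rfl fun k _ => e1 k,
        Fin.sum_univ_eq_sum_range (fun k : ℕ => if k ∈ M then f k else 0) N,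
        ← Finset.sum_filter, Finset.filter_mem_eq_inter,
        Finset.inter_eq_right.2 (hMT.trans hT)]
    have hw := hsum (fun k => ((⌊i k - i (k + 1)⌋₊ : ℕ) : ℝ)) (fun gm => ((gm.2 : ℕ) : ℝ))
      (fun k hk => rfl)
    have hcard := hsum (fun _ => (1 : ℝ)) (fun _ => (1 : ℝ)) (fun k hk => rfl)
    -- floor bounds
    have hfloor : ∀ k ∈ M, (i k - i (k + 1)) / 2 ≤ ((⌊i k - i (k + 1)⌋₊ : ℕ) : ℝ) ∧
        1 ≤ ((⌊i k - i (k + 1)⌋₊ : ℕ) : ℝ) := by
      intro k hk
      have hf := (hMF k hk).1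
      have hf1 : 1 ≤ i k - i (k + 1) := hv1.trans hf
      have h3 : 1 ≤ ⌊i k - i (k + 1)⌋₊ := Nat.le_floor (by simpa using hf1)
      have h4 : (1 : ℝ) ≤ ((⌊i k - i (k + 1)⌋₊ : ℕ) : ℝ) := by exact_mod_cast h3
      have h5 := Nat.lt_floor_add_one (i k - i (k + 1))
      exact ⟨by linarith, h4⟩
    have hS2 : (∑ k ∈ M, (i k - i (k + 1))) / 2 ≤
        ∑ k ∈ M, ((⌊i k - i (k + 1)⌋₊ : ℕ) : ℝ) := by
      rw [Finset.sum_div]; exact Finset.sum_le_sum fun k hk => (hfloor k hk).1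
    have hS1 : ∑ k ∈ M, (1 : ℝ) ≤ ∑ k ∈ M, ((⌊i k - i (k + 1)⌋₊ : ℕ) : ℝ) :=
      Finset.sum_le_sum fun k hk => (hfloor k hk).2
    refine ⟨cc, ?_, ?_, ?_⟩
    · intro k gm hgm
      by_cases hk : (k : ℕ) ∈ M
      · rw [hcc k hk] at hgm
        simp only [Option.mem_def, Option.some.injEq] at hgm
        subst hgm
        have hle : m1 ≤ ⌊i k - i (k + 1)⌋₊ := Nat.le_floor (hm1.trans (hMF k hk).1)
        rw [if_pos ⟨hMT hk, hle⟩]
        exact (hMF k hk).2
      · rw [hcc' k hk] at hgm; simp at hgm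
    · have h3 := tv_le (h := 1) one_pos N 0 i cc.toFun (by
        intro k gm hgm
        by_cases hk : (k : ℕ) ∈ M
        · rw [hcc k hk] at hgm
          simp only [Option.mem_def, Option.some.injEq] at hgm
          subst hgm; simp
        · rw [hcc' k hk] at hgm; simp at hgm)
      rw [hcard] at h3
      rw [hw]
      have h4 : |i 0 / 1 - ((0 : ℤ) : ℝ)| ≤ V := by
        rw [Int.cast_zero, sub_zero, div_one]
        exact hpos 0 (Nat.zero_le _)
      simp only [div_one] at h3 h4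
      linarith
    · rw [hw]; linarith
  · have hexp1 : Real.exp (-(c2 / 2)) < 1 := by rw [Real.exp_lt_one_iff]; linarith
    have hexp2 : Real.exp (-(c2 / 40)) < 1 := by rw [Real.exp_lt_one_iff]; linarith
    refine mul_le_mul_of_nonneg_left ?_ (Real.exp_pos _).le
    have hZ : ∑ m : Fin (Mx + 1), (if m1 ≤ (m : ℕ) then Real.exp (-c2 * (m : ℕ)) else 0) *
        Real.exp ((c2 / 40 * 10 + c2 / 4) * ((m : ℕ) : ℝ)) ≤
        Real.exp (-(c2 * m1 / 2)) / (1 - Real.exp (-(c2 / 2))) := by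
      rw [Fin.sum_univ_eq_sum_range (fun m : ℕ => (if m1 ≤ m then Real.exp (-c2 * m) else 0) *
        Real.exp ((c2 / 40 * 10 + c2 / 4) * (m : ℝ))) (Mx + 1)]
      have e1 : ∀ m : ℕ, (if m1 ≤ m then Real.exp (-c2 * m) else 0) *
          Real.exp ((c2 / 40 * 10 + c2 / 4) * (m : ℝ)) =
          if m1 ≤ m then Real.exp (-(c2 * m1 / 2)) * Real.exp (-(c2 / 2)) ^ (m - m1) else 0 := by
        intro m
        split_ifs with hm
        · rw [← Real.exp_add, ← Real.exp_nat_mul, ← Real.exp_add]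
          congr 1
          rw [Nat.cast_sub hm]; ring
        · simp
      rw [Finset.sum_congr rfl fun m _ => e1 m, ← Finset.sum_filter, ← Finset.mul_sum,
        div_eq_mul_inv]
      refine mul_le_mul_of_nonneg_left ?_ (Real.exp_pos _).le
      rw [← tsum_geometric_of_lt_one (Real.exp_pos _).le hexp1,
        ← Finset.sum_image (f := fun d : ℕ => Real.exp (-(c2 / 2)) ^ d) (g := fun m : ℕ => m - m1)
        (by
          intro a ha b hb hab
          simp only [Finset.coe_filter, Set.mem_ofPred_eq] at ha hb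
          dsimp only at hab
          omega)]
      exact (summable_geometric_of_lt_one (Real.exp_pos _).le hexp1).sum_le_tsum _
        (fun _ _ => by positivity)
    have hC : 0 ≤ 2 / (1 - Real.exp (-(c2 / 40))) := div_nonneg (by norm_num) (by linarith)
    have hZ0 : 0 ≤ ∑ m : Fin (Mx + 1), (if m1 ≤ (m : ℕ) then Real.exp (-c2 * (m : ℕ)) else 0) *
        Real.exp ((c2 / 40 * 10 + c2 / 4) * ((m : ℕ) : ℝ)) :=
      Finset.sum_nonneg fun m _ => by split_ifs <;> positivity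
    refine pow_le_pow_left₀ (by positivity) ?_ N
    have := mul_le_mul_of_nonneg_left hZ hC
    linarith

/-- Core of the Peierls theorem of section 12: all constants with their constraints. -/
theorem peierls_core {ζ v1 h c c2 : ℝ} {m1 : ℕ} (hζ : 0 < ζ) (hv1 : 1 ≤ v1)
    (hh : 0 < h) (hc : 0 < c) (hc2 : 0 < c2) (hm1 : (m1 : ℝ) ≤ v1)
    (hv : 2 / (1 - Real.exp (-(c2 / 40))) *
      (Real.exp (-(c2 * m1 / 2)) / (1 - Real.exp (-(c2 / 2)))) ≤ c2 * ζ / 100) :
    ∃ p₀ : ℝ, 0 < p₀ ∧ ∀ κ' : ℝ, 0 < κ' → ∃ κ'' : ℝ, 0 < κ'' ∧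
      (64 * v1 * κ'' ≤ κ' * ζ ∧ 64 * κ'' ≤ c * ζ) ∧ ∀ V : ℝ, 0 ≤ V →
      ∃ η : ℝ, 0 < η ∧ (η ≤ 1 / 64 ∧ 2 * V * η ≤ ζ / 64) ∧
      ∀ ε : ℝ, 0 < ε → ∃ N₀ : ℕ, ∀ N : ℕ, N₀ ≤ N → 2 * V ≤ ζ * N / 64 ∧
      ∀ (Ω : Type u) [MeasurableSpace Ω] (μ : Measure Ω) (T : Finset ℕ), T ⊆ range N →
        ∀ (B : ℕ → ℤ → Set Ω) (F : ℕ → ℤ → ℕ → Set Ω), ProdB μ N T B p₀ → ProdF μ N T F c2 m1 →
        μ (evB N T B ζ v1 h V ∪ evF N T F ζ v1 V) ≤ ENNReal.ofReal ε := by
  have hv0 : 0 < v1 := by linarith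
  set a : ℝ := 4 * v1 / h + 2 with ha
  have ha0 : 0 < a := by positivity
  set s0 : ℝ := min (Real.exp (-1)) (ζ / (96 * Real.exp 1 * v1 * (a + 1))) with hs0
  have hs0p : 0 < s0 := lt_min (Real.exp_pos _) (by positivity)
  have hs01 : s0 ≤ Real.exp (-1) := min_le_left _ _
  have hs02 : s0 ≤ ζ / (96 * Real.exp 1 * v1 * (a + 1)) := min_le_right _ _
  refine ⟨s0 ^ 2, by positivity, fun κ' hκ' => ?_⟩
  have hκ1 : 64 * v1 * min (κ' * ζ / (64 * v1)) (c * ζ / 64) ≤ κ' * ζ := by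
    calc 64 * v1 * min (κ' * ζ / (64 * v1)) (c * ζ / 64) ≤ 64 * v1 * (κ' * ζ / (64 * v1)) :=
          mul_le_mul_of_nonneg_left (min_le_left _ _) (by positivity)
      _ = κ' * ζ := by field_simp
  have hκ2 : 64 * min (κ' * ζ / (64 * v1)) (c * ζ / 64) ≤ c * ζ := by
    have := min_le_right (κ' * ζ / (64 * v1)) (c * ζ / 64); linarith
  refine ⟨min (κ' * ζ / (64 * v1)) (c * ζ / 64), lt_min (by positivity) (by positivity),
    ⟨hκ1, hκ2⟩, fun V hV => ?_⟩
  have hVη : 2 * V * min (1 / 64) (ζ / (128 * (V + 1))) ≤ ζ / 64 := by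
    calc 2 * V * min (1 / 64) (ζ / (128 * (V + 1))) ≤ 2 * V * (ζ / (128 * (V + 1))) :=
          mul_le_mul_of_nonneg_left (min_le_right _ _) (by positivity)
      _ = ζ / 64 * (V / (V + 1)) := by field_simp; ring
      _ ≤ ζ / 64 * 1 := mul_le_mul_of_nonneg_left (by
          rw [div_le_one (by positivity)]; linarith) (by positivity)
      _ = _ := mul_one _
  refine ⟨min (1 / 64) (ζ / (128 * (V + 1))), lt_min (by norm_num) (by positivity),
    ⟨min_le_left _ _, hVη⟩, fun ε hε => ?_⟩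
  -- limits
  have lim : ∀ A b : ℝ, 0 < b → ∀ᶠ N : ℕ in Filter.atTop, Real.exp (A - b * N) ≤ ε / 2 := by
    intro A b hb
    have h1 : Filter.Tendsto (fun N : ℕ => Real.exp (A - b * N)) Filter.atTop (nhds 0) := by
      refine Real.tendsto_exp_atBot.comp ?_
      have h2 : Filter.Tendsto (fun N : ℕ => b * (N : ℝ)) Filter.atTop Filter.atTop :=
        Filter.Tendsto.const_mul_atTop hb tendsto_natCast_atTop_atTop
      have h3 := Filter.tendsto_atBot_add_const_left Filter.atTop A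
        (Filter.tendsto_neg_atTop_atBot.comp h2)
      refine h3.congr fun N => ?_
      simp [sub_eq_add_neg]
    exact h1.eventually_le_const (by positivity)
  have lim2 : ∀ᶠ N : ℕ in Filter.atTop, 2 * V ≤ ζ * N / 64 := by
    have h2 : Filter.Tendsto (fun N : ℕ => ζ / 64 * (N : ℝ)) Filter.atTop Filter.atTop :=
      Filter.Tendsto.const_mul_atTop (by positivity) tendsto_natCast_atTop_atTop
    filter_upwards [h2.eventually_ge_atTop (2 * V)] with N hN
    linarith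
  obtain ⟨N₀, hN₀⟩ := Filter.eventually_atTop.1
    (((lim (V / (4 * v1)) (11 / 96 * (ζ / v1)) (by positivity)).and
      (lim (c2 / 40 * V) (c2 * ζ * (1 / 48 - 1 / 320 - 1 / 100)) (by
        have : (0:ℝ) < 1 / 48 - 1 / 320 - 1 / 100 := by norm_num
        positivity))).and lim2)
  refine ⟨N₀, fun N hN => ?_⟩
  obtain ⟨⟨l1, l2⟩, l3⟩ := hN₀ N hN
  refine ⟨l3, fun Ω _ μ T hT B F hB hF => ?_⟩
  refine (measure_union_le _ _).trans ?_
  have hN0 : (0 : ℝ) ≤ N := Nat.cast_nonneg N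
  -- case (I)
  have hI : μ (evB N T B ζ v1 h V) ≤ ENNReal.ofReal (ε / 2) := by
    refine (measure_evB_le μ hT (sq_nonneg s0) hB (ζ := ζ) (v1 := v1) (h := h) (V := V)
      (lam := 1 / a) (β := - Real.log s0) hh hv0 (by positivity) ?_).trans
      (ENNReal.ofReal_le_ofReal (le_trans ?_ l1))
    · have : Real.log s0 ≤ -1 := by
        have := Real.log_le_log hs0p hs01
        rwa [Real.log_exp] at this
      linarith
    have hlog : 1 ≤ - Real.log s0 := by
      have := Real.log_le_log hs0p hs01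
      rw [Real.log_exp] at this; linarith
    have e1 : s0 ^ 2 * Real.exp (1 / a * (4 * v1 / h + 2) + - Real.log s0) = Real.exp 1 * s0 := by
      rw [← ha, one_div, inv_mul_cancel₀ ha0.ne', Real.exp_add, Real.exp_neg, Real.exp_log hs0p]
      field_simp
    rw [e1]
    have e2 : 2 / (1 - Real.exp (-(1 / a))) ≤ 2 * (a + 1) := by
      have h1 : 1 - Real.exp (-(1 / a)) ≥ 1 / (a + 1) := by
        have h2 : Real.exp (-(1 / a)) ≤ 1 / (1 + 1 / a) := by
          rw [Real.exp_neg, ← one_div]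
          exact one_div_le_one_div_of_le (by positivity) (by linarith [Real.add_one_le_exp (1 / a)])
        have h3 : (1 : ℝ) / (1 + 1 / a) = a / (a + 1) := by field_simp
        have h4 : 1 - a / (a + 1) = 1 / (a + 1) := by field_simp; ring
        rw [h3] at h2; linarith
      have hpos : 0 < 1 / (a + 1) := by positivity
      calc 2 / (1 - Real.exp (-(1 / a))) ≤ 2 / (1 / (a + 1)) :=
            div_le_div_of_nonneg_left (by norm_num) hpos h1
        _ = 2 * (a + 1) := by field_simp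
    have e3 : 2 / (1 - Real.exp (-(1 / a))) * (Real.exp 1 * s0) ≤ ζ / (48 * v1) := by
      calc 2 / (1 - Real.exp (-(1 / a))) * (Real.exp 1 * s0)
          ≤ 2 * (a + 1) * (Real.exp 1 * (ζ / (96 * Real.exp 1 * v1 * (a + 1)))) := by
            refine mul_le_mul e2 (mul_le_mul_of_nonneg_left hs02 (Real.exp_pos _).le)
              (by positivity) (by positivity)
        _ = ζ / (48 * v1) := by field_simp; ring
    have e0 : 0 ≤ 2 / (1 - Real.exp (-(1 / a))) * (Real.exp 1 * s0) := by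
      have : Real.exp (-(1 / a)) < 1 := by
        rw [Real.exp_lt_one_iff]; have : 0 < 1 / a := by positivity
        linarith
      exact mul_nonneg (div_nonneg (by norm_num) (by linarith)) (by positivity)
    have e4 : (1 + 2 / (1 - Real.exp (-(1 / a))) * (Real.exp 1 * s0)) ^ N ≤
        Real.exp (N * (ζ / (48 * v1))) := by
      rw [Real.exp_nat_mul]
      refine pow_le_pow_left₀ (by linarith) ?_ N
      have := Real.add_one_le_exp (ζ / (48 * v1)); linarith
    have e5 : 1 / a * ((V + ζ * N / 8) / h) ≤ (V + ζ * N / 8) / (4 * v1) := by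
      have h1 : 4 * v1 ≤ a * h := by
        rw [ha, add_mul, div_mul_cancel₀ _ hh.ne']; linarith
      calc 1 / a * ((V + ζ * N / 8) / h) = (V + ζ * N / 8) / (a * h) := by
            field_simp
        _ ≤ _ := div_le_div_of_nonneg_left (by positivity) (by positivity) h1
    have e6 : ζ * N / (6 * v1) ≤ - Real.log s0 * (ζ * N / (6 * v1)) :=
      le_mul_of_one_le_left (by positivity) hlog
    calc _ ≤ Real.exp ((V + ζ * N / 8) / (4 * v1) - ζ * N / (6 * v1)) *
          Real.exp (N * (ζ / (48 * v1))) := by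
          refine mul_le_mul (Real.exp_le_exp.2 (by linarith)) e4 (by positivity) (by positivity)
      _ = Real.exp (V / (4 * v1) - 11 / 96 * (ζ / v1) * N) := by
          rw [← Real.exp_add]; congr 1; field_simp; ring
  have hII : μ (evF N T F ζ v1 V) ≤ ENNReal.ofReal (ε / 2) := by
    refine (measure_evF_le μ hT hc2 hF (ζ := ζ) (v1 := v1) (V := V) hv1 hm1).trans
      (ENNReal.ofReal_le_ofReal (le_trans ?_ l2))
    have hexp1 : Real.exp (-(c2 / 2)) < 1 := by rw [Real.exp_lt_one_iff]; linarith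
    have hexp2 : Real.exp (-(c2 / 40)) < 1 := by rw [Real.exp_lt_one_iff]; linarith
    have e0 : 0 ≤ 2 / (1 - Real.exp (-(c2 / 40))) *
        (Real.exp (-(c2 * m1 / 2)) / (1 - Real.exp (-(c2 / 2)))) :=
      mul_nonneg (div_nonneg (by norm_num) (by linarith))
        (div_nonneg (Real.exp_pos _).le (by linarith))
    have e4 : (1 + 2 / (1 - Real.exp (-(c2 / 40))) *
        (Real.exp (-(c2 * m1 / 2)) / (1 - Real.exp (-(c2 / 2))))) ^ N ≤
        Real.exp (N * (c2 * ζ / 100)) := by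
      rw [Real.exp_nat_mul]
      refine pow_le_pow_left₀ (by linarith) ?_ N
      have := Real.add_one_le_exp (c2 * ζ / 100); linarith
    calc _ ≤ Real.exp (c2 / 40 * (V + ζ * N / 8) - c2 / 4 * (ζ * N / 12)) *
          Real.exp (N * (c2 * ζ / 100)) :=
          mul_le_mul_of_nonneg_left e4 (Real.exp_pos _).le
      _ = Real.exp (c2 / 40 * V - c2 * ζ * (1 / 48 - 1 / 320 - 1 / 100) * N) := by
          rw [← Real.exp_add]; congr 1; ring
  calc μ (evB N T B ζ v1 h V) + μ (evF N T F ζ v1 V) ≤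
        ENNReal.ofReal (ε / 2) + ENNReal.ofReal (ε / 2) := add_le_add hI hII
    _ = ENNReal.ofReal ε := by
        rw [← ENNReal.ofReal_add (by positivity) (by positivity)]; congr 1; ring


/-- environments for which there is a set `T` of at least `(1 - η) N` typical rows and a cheap
path -/
def cheapR {Ω : Type u} (N : ℕ) (η : ℝ) (B : ℕ → ℤ → Set Ω) (F : ℕ → ℤ → ℕ → Set Ω)
    (ζ v1 h κ' c κ'' V : ℝ) : Set Ω :=
  {ω | ∃ T ⊆ range N, ((range N \ T).card : ℝ) ≤ η * N ∧ ω ∈ cheap N T B F ζ v1 h κ' c κ'' V}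

theorem evB_mono {Ω : Type u} {N : ℕ} {T T' : Finset ℕ} (h : T ⊆ T') {B : ℕ → ℤ → Set Ω}
    {ζ v1 h V : ℝ} : evB N T B ζ v1 h V ⊆ evB N T' B ζ v1 h V := by
  rintro ω ⟨i, M, hM, h1⟩
  exact ⟨i, M, hM.trans ‹T ⊆ T'›, h1⟩

theorem evF_mono {Ω : Type u} {N : ℕ} {T T' : Finset ℕ} (h : T ⊆ T') {F : ℕ → ℤ → ℕ → Set Ω}
    {ζ v1 V : ℝ} : evF N T F ζ v1 V ⊆ evF N T' F ζ v1 V := by
  rintro ω ⟨i, M, hM, h1⟩
  exact ⟨i, M, hM.trans h, h1⟩

/-- **Peierls theorem of section 12**, version for independent rows: the set `T` of typical rows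
(gap events) may depend on the environment in an arbitrary way. -/
theorem peierls_random {ζ v1 h c c2 : ℝ} {m1 : ℕ} (hζ : 0 < ζ) (hv1 : 1 ≤ v1) (hζ1 : ζ ≤ v1)
    (hh : 0 < h) (hc : 0 < c) (hc2 : 0 < c2) (hm1 : (m1 : ℝ) ≤ v1)
    (hv : 2 / (1 - Real.exp (-(c2 / 40))) *
      (Real.exp (-(c2 * m1 / 2)) / (1 - Real.exp (-(c2 / 2)))) ≤ c2 * ζ / 100) :
    ∃ p₀ : ℝ, 0 < p₀ ∧ ∀ κ' : ℝ, 0 < κ' → ∃ κ'' : ℝ, 0 < κ'' ∧ ∀ V : ℝ, 0 ≤ V →
      ∃ η : ℝ, 0 < η ∧ ∀ ε : ℝ, 0 < ε → ∃ N₀ : ℕ, ∀ N : ℕ, N₀ ≤ N →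
      ∀ (Ω : Type u) [MeasurableSpace Ω] (μ : Measure Ω)
        (B : ℕ → ℤ → Set Ω) (F : ℕ → ℤ → ℕ → Set Ω),
        ProdB μ N (range N) B p₀ → ProdF μ N (range N) F c2 m1 →
        μ (cheapR N η B F ζ v1 h κ' c κ'' V) ≤ ENNReal.ofReal ε := by
  obtain ⟨p₀, hp, H⟩ := peierls_core hζ hv1 hh hc hc2 hm1 hv
  refine ⟨p₀, hp, fun κ' hκ' => ?_⟩
  obtain ⟨κ'', hκ, ⟨k1, k2⟩, H⟩ := H κ' hκ'
  refine ⟨κ'', hκ, fun V hV => ?_⟩
  obtain ⟨η, hη, ⟨e1, e2⟩, H⟩ := H V hV
  refine ⟨η, hη, fun ε hε => ?_⟩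
  obtain ⟨N₀, H⟩ := H ε hε
  refine ⟨N₀, fun N hN Ω _ μ B F hB hF => ?_⟩
  obtain ⟨l3, H⟩ := H N hN
  refine (measure_mono ?_).trans (H Ω μ (range N) (Finset.Subset.refl _) B F hB hF)
  rintro ω ⟨T, hT, hat, hω⟩
  rcases cheap_subset hT hζ hv1 hζ1 hκ' hc k1 k2 e1 e2 l3 hat hω with h1 | h1
  · exact Or.inl (evB_mono hT h1)
  · exact Or.inr (evF_mono hT h1)

end Crest.Agent.R151.W
end

-- ▼ part R151/W3d
section

/-!
R151, S0214 part 2, section 12: `ProdB` and `ProdF` from independence of the rows.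
-/

set_option autoImplicit false

namespace Crest.Agent.R151.W

open MeasureTheory ProbabilityTheory Finset

universe u

variable {Ω : Type u} [m0 : MeasurableSpace Ω] {μ : Measure Ω}

theorem prodB_of_iIndep [IsProbabilityMeasure μ] {N : ℕ} {T : Finset ℕ} {B : ℕ → ℤ → Set Ω} {p : ℝ}
    (hp : 0 ≤ p) {m : Fin N → MeasurableSpace Ω} (hind : iIndep m μ)
    (hmeas : ∀ k : Fin N, (k : ℕ) ∈ T → ∀ g, MeasurableSet[m k] (B k g))
    (hB : ∀ k : Fin N, (k : ℕ) ∈ T → ∀ g, μ (B k g) ≤ ENNReal.ofReal p) : ProdB μ N T B p := by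
  intro c hc
  rw [hind.meas_iInter, ENNReal.ofReal_prod_of_nonneg]
  · refine Finset.prod_le_prod' fun k _ => ?_
    rcases h : c k with _ | g
    · simp
    · exact hB k (hc k (by simp [h])) g
  · intro k _
    rcases c k with _ | g
    · exact zero_le_one
    · exact hp
  · intro k
    rcases h : c k with _ | g
    · exact MeasurableSet.univ
    · exact hmeas k (hc k (by simp [h])) g

theorem prodF_of_iIndep [IsProbabilityMeasure μ] {N : ℕ} {T : Finset ℕ} {F : ℕ → ℤ → ℕ → Set Ω}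
    {c2 : ℝ} {m1 : ℕ} {m : Fin N → MeasurableSpace Ω} (hind : iIndep m μ)
    (hmeas : ∀ k : Fin N, (k : ℕ) ∈ T → ∀ g n, m1 ≤ n → MeasurableSet[m k] (F k g n))
    (hF : ∀ k : Fin N, (k : ℕ) ∈ T → ∀ g n, m1 ≤ n →
      μ (F k g n) ≤ ENNReal.ofReal (Real.exp (-c2 * n))) : ProdF μ N T F c2 m1 := by
  intro c hc
  rw [hind.meas_iInter, ENNReal.ofReal_prod_of_nonneg]
  · refine Finset.prod_le_prod' fun k _ => ?_
    rcases h : c k with _ | gm
    · simp
    · have := hc k gm (by rw [h]; rfl)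
      exact hF k this.1 gm.1 gm.2 this.2
  · intro k _
    rcases c k with _ | g
    · exact zero_le_one
    · exact (Real.exp_pos _).le
  · intro k
    rcases h : c k with _ | gm
    · exact MeasurableSet.univ
    · have := hc k gm (by rw [h]; rfl)
      exact hmeas k this.1 gm.1 gm.2 this.2



end Crest.Agent.R151.W
end

-- ▼ part R151/E685P
section

/-!
# R151 / S0214 part 2, E685P — the costly half of the endgame (owner helper685)

On 191's `Model` (E191A): if all rows are `Costly` and the far lane of width `v` has cheap walks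
(`Paths`), we get a contradiction (Peierls argument, `W.peierls_random`).
-/

set_option autoImplicit false

namespace Crest.Agent.R151.E685

open Crest.Agent.R151.E191
open MeasureTheory ProbabilityTheory Set Filter

universe u

/-! ## deterministic part -/

section det

variable {Ω : Type u}

/-- clamped grid position -/
noncomputable def gpos (δ v : ℝ) (g : ℤ) : ℝ := max (-v) (min ((g : ℝ) * (δ / 2)) (v - δ))

/-- small event of row `k` at the grid position `g` -/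
def evSmall (R : RowA Ω) (δ v κ : ℝ) (g : ℤ) : Set Ω :=
  {ω | R.K (gpos δ v g) (gpos δ v g + δ) ω ≤ κ} ∩ R.T

/-- large fall event: `n` cells to the left of the integer position `g` -/
def evFall (R : RowA Ω) (v : ℝ) (g : ℤ) (n : ℕ) : Set Ω :=
  {ω | |((g : ℝ) + 2 - n)| ≤ v ∧ |((g : ℝ) + 2 - n) + 3 * n / 16 + 1 / 32| ≤ v ∧
    R.cross ((g : ℝ) + 2 - n) n ω ≤ n} ∩ R.T

lemma gpos_mem {δ v : ℝ} (hδ : 0 < δ) (hv : δ ≤ v) (g : ℤ) :
    -v ≤ gpos δ v g ∧ gpos δ v g ≤ v - δ := by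
  unfold gpos
  exact ⟨le_max_left _ _, max_le (by linarith) (min_le_right _ _)⟩

lemma gpos_floor {δ v z : ℝ} (hδ : 0 < δ) (hz : |z| ≤ v) :
    gpos δ v ⌊z / (δ / 2)⌋ ≤ z ∧ min (z + δ / 2) v ≤ gpos δ v ⌊z / (δ / 2)⌋ + δ := by
  have h1 := Int.floor_le (z / (δ / 2))
  have h2 := Int.lt_floor_add_one (z / (δ / 2))
  have hd : (0 : ℝ) < δ / 2 := by linarith
  have h3 : (⌊z / (δ / 2)⌋ : ℝ) * (δ / 2) ≤ z := by
    rw [le_div_iff₀ hd] at h1; exact h1
  have h4 : z < (⌊z / (δ / 2)⌋ : ℝ) * (δ / 2) + δ / 2 := by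
    rw [div_lt_iff₀ hd] at h2; linarith
  rw [abs_le] at hz
  unfold gpos
  constructor
  · exact max_le hz.1 ((min_le_left _ _).trans h3)
  · rcases le_total ((⌊z / (δ / 2)⌋ : ℝ) * (δ / 2)) (v - δ) with h | h
    · rw [min_eq_left h]
      refine (min_le_left _ _).trans ?_
      have := le_max_right (-v) ((⌊z / (δ / 2)⌋ : ℝ) * (δ / 2))
      linarith
    · rw [min_eq_right h]
      refine (min_le_right _ _).trans ?_
      have := le_max_right (-v) (v - δ)
      linarith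

/-- cost of one row and one gap on typical rows: flat moves -/
lemma small_of_not {R : RowA Ω} {δ v κ e z z' w gap : ℝ} {ω : Ω} (hδ : 0 < δ) (hδv : δ ≤ v)
    (he : 0 < e) (hκe : 8 * (e * κ) ≤ δ) (hT : ω ∈ R.T)
    (Kn : ∀ s t, |s| ≤ v → |t| ≤ v → 0 ≤ R.K s t ω)
    (Km : ∀ s s' t, |s| ≤ v → |s'| ≤ v → |t| ≤ v → s ≤ s' → R.K s t ω ≤ R.K s' t ω)
    (Ka : ∀ s t t', |s| ≤ v → |t| ≤ v → |t'| ≤ v → t ≤ t' → R.K s t' ω ≤ R.K s t ω)
    (hz : |z| ≤ v) (hw : |w| ≤ v) (hg : 0 ≤ gap)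
    (hgap : δ / 8 < w - z' → (w - z') / e ≤ gap)
    (hflat : z' ≤ z + δ / 4) (hB : ω ∉ evSmall R δ v κ ⌊z / (δ / 2)⌋) :
    κ ≤ R.K z w ω + gap := by
  by_cases hback : δ / 8 < w - z'
  · have h1 := hgap hback
    have h2 : κ ≤ (w - z') / e := by
      rw [le_div_iff₀ he]; nlinarith
    linarith [Kn z w hz hw]
  push Not at hback
  set x := gpos δ v ⌊z / (δ / 2)⌋ with hx
  have hxm := gpos_mem hδ hδv ⌊z / (δ / 2)⌋
  rw [← hx] at hxm
  obtain ⟨hx1, hx2⟩ := gpos_floor hδ hz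
  rw [← hx] at hx1 hx2
  have hxv : |x| ≤ v := by rw [abs_le]; constructor <;> linarith
  have hxv' : |x + δ| ≤ v := by rw [abs_le]; constructor <;> linarith
  have hwx : w ≤ x + δ := by
    refine le_trans (le_min (by linarith) ?_) hx2
    exact (abs_le.1 hw).2
  have hK1 := Km x z w hxv hz hw hx1
  have hK2 := Ka x w (x + δ) hxv hw hxv' hwx
  have hK3 : κ < R.K x (x + δ) ω := by
    by_contra hcon
    push Not at hcon
    exact hB ⟨hcon, hT⟩
  linarith

/-- cost of one row and one gap on typical rows: large falls -/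
lemma fall_of_not {R : RowA Ω} {δ v e z z' w gap : ℝ} {ω : Ω} (hδ1 : δ ≤ 1)
    (he : 0 < e) (hev : 8 * (e * v) ≤ δ) (hT : ω ∈ R.T)
    (Kn : ∀ s t, |s| ≤ v → |t| ≤ v → 0 ≤ R.K s t ω)
    (Kw : ∀ (s t x : ℝ) (m : ℕ), |s| ≤ v → |t| ≤ v → t ≤ x → x + 3 * m / 16 + 1 / 32 ≤ s →
      R.cross x m ω ≤ R.K s t ω)
    (hz : |z| ≤ v) (hw : |w| ≤ v) (hz' : |z'| ≤ v) (hg : 0 ≤ gap)
    (hgap : δ / 8 < w - z' → (w - z') / e ≤ gap)
    (hfall : 3 ≤ z - z') (hF : ω ∉ evFall R v ⌊z⌋ ⌊z - z'⌋₊) :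
    1 / 2 * (z - z') ≤ R.K z w ω + gap := by
  have hzz : z - z' ≤ 2 * v := by
    rw [abs_le] at hz hz'; linarith
  by_cases hback : δ / 8 < w - z'
  · have h1 := hgap hback
    have h2 : v ≤ (w - z') / e := by
      rw [le_div_iff₀ he]; nlinarith
    linarith [Kn z w hz hw]
  push Not at hback
  set g : ℤ := ⌊z⌋ with hgd
  set n : ℕ := ⌊z - z'⌋₊ with hn
  have hg1 : (g : ℝ) ≤ z := Int.floor_le z
  have hg2 : z < g + 1 := Int.lt_floor_add_one z
  have hn1 : (n : ℝ) ≤ z - z' := Nat.floor_le (by linarith)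
  have hn2 : z - z' < n + 1 := Nat.lt_floor_add_one _
  have hn3 : (3 : ℝ) ≤ n := by
    have : 3 ≤ n := Nat.le_floor (by exact_mod_cast hfall)
    exact_mod_cast this
  rw [abs_le] at hz hz'
  have hx1 : |((g : ℝ) + 2 - n)| ≤ v := by
    rw [abs_le]; constructor <;> linarith
  have hx2 : |((g : ℝ) + 2 - n) + 3 * n / 16 + 1 / 32| ≤ v := by
    rw [abs_le]; constructor <;> linarith
  have hcr : (n : ℝ) < R.cross ((g : ℝ) + 2 - n) n ω := by
    by_contra hcon
    push Not at hcon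
    exact hF ⟨⟨hx1, hx2, hcon⟩, hT⟩
  have hK := Kw z w ((g : ℝ) + 2 - n) n (abs_le.2 hz) hw (by linarith) (by linarith)
  linarith

end det

/-! ## probabilistic part -/

section prob

variable {Ω : Type u} [mΩ : MeasurableSpace Ω] {P : Measure Ω}
  {C0 θ : ℝ} {n : ℕ} {δ v e : ℝ}

lemma evSmall_meas {R : RowA Ω} {m : ℕ → MeasurableSpace Ω} {k : ℕ}
    (h : R.Law P (m k) C0 n δ v e)
    (hδ : 0 < δ) (hδv : δ ≤ v) (κ : ℝ) (g : ℤ) : MeasurableSet[m k] (evSmall R δ v κ g) := by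
  have hx := gpos_mem hδ hδv g
  have h1 : |gpos δ v g| ≤ v := by rw [abs_le]; constructor <;> linarith
  have h2 : |gpos δ v g + δ| ≤ v := by rw [abs_le]; constructor <;> linarith
  exact (measurableSet_le (h.K_meas _ _ h1 h2) measurable_const).inter h.T_meas

lemma evFall_meas {R : RowA Ω} {m : ℕ → MeasurableSpace Ω} {k : ℕ}
    (h : R.Law P (m k) C0 n δ v e)
    (g : ℤ) (j : ℕ) : MeasurableSet[m k] (evFall R v g j) := by
  by_cases h1 : |((g : ℝ) + 2 - j)| ≤ v ∧ |((g : ℝ) + 2 - j) + 3 * j / 16 + 1 / 32| ≤ v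
  · have hcr : Measurable[m k] (R.cross ((g : ℝ) + 2 - j) j) := by
      obtain ⟨ha, hb⟩ := h1
      rw [abs_le] at ha hb
      unfold RowA.cross
      refine Measurable.sub ?_ (Measurable.const_mul ?_ 2)
      · refine Finset.measurable_fun_sum _ fun l hl => ?_
        have hl' : (l : ℝ) + 1 ≤ j := by exact_mod_cast Finset.mem_range.1 hl
        have hl0 : (0 : ℝ) ≤ l := Nat.cast_nonneg l
        refine h.cell_meas _ ?_ ?_
        · rw [abs_le]; constructor <;> linarith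
        · rw [abs_le]; constructor <;> linarith
      · refine Finset.measurable_fun_sum _ fun l hl => ?_
        have hl' : (l : ℝ) ≤ j := by exact_mod_cast Nat.lt_succ_iff.1 (Finset.mem_range.1 hl)
        have hl0 : (0 : ℝ) ≤ l := Nat.cast_nonneg l
        refine h.F_meas _ _ ?_
        rw [abs_le]; constructor <;> linarith
    have : evFall R v g j = {ω | R.cross ((g : ℝ) + 2 - j) j ω ≤ j} ∩ R.T := by
      ext ω
      simp only [evFall, mem_inter_iff, mem_ofPred_eq]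
      tauto
    rw [this]
    exact (measurableSet_le hcr measurable_const).inter h.T_meas
  · have : evFall R v g j = ∅ := by
      ext ω
      simp only [evFall, mem_inter_iff, mem_ofPred_eq, mem_empty_iff_false, iff_false]
      tauto
    rw [this]
    exact @MeasurableSet.empty _ (m k)

variable [IsProbabilityMeasure P]

lemma evSmall_prob {R : RowA Ω} (h : R.Costly P C0 δ v e) (hδ : 0 < δ) (hδv : δ ≤ v) {κ p : ℝ}
    (hκ : 0 ≤ κ) (hp : C0 * κ + e ≤ p) (g : ℤ) : P (evSmall R δ v κ g) ≤ ENNReal.ofReal p := by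
  have hx := gpos_mem hδ hδv g
  have h1 : |gpos δ v g| ≤ v := by rw [abs_le]; constructor <;> linarith
  have h2 : |gpos δ v g + δ| ≤ v := by rw [abs_le]; constructor <;> linarith
  have h3 := (h _ κ h1 h2 hκ).trans hp
  rw [← ENNReal.ofReal_toReal (measure_ne_top P (evSmall R δ v κ g))]
  exact ENNReal.ofReal_le_ofReal h3

lemma evFall_prob {R : RowA Ω} {m : ℕ → MeasurableSpace Ω} {k : ℕ}
    (h : R.Law P (m k) C0 n δ v e)
    (g : ℤ) (j : ℕ) :
    P (evFall R v g j) ≤ ENNReal.ofReal (Real.exp (-(Real.log n / C0 - C0) * j)) := by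
  rw [← ENNReal.ofReal_toReal (measure_ne_top P (evFall R v g j))]
  refine ENNReal.ofReal_le_ofReal ?_
  by_cases h1 : |((g : ℝ) + 2 - j)| ≤ v ∧ |((g : ℝ) + 2 - j) + 3 * j / 16 + 1 / 32| ≤ v
  · have h2 := h.cells_large _ j h1.1 h1.2
    rw [neg_mul]
    refine le_trans (measureReal_mono ?_ (measure_ne_top _ _)) h2
    rintro ω ⟨⟨-, -, h3⟩, h4⟩
    exact ⟨h3, h4⟩
  · have : evFall R v g j = ∅ := by
      ext ω
      simp only [evFall, mem_inter_iff, mem_ofPred_eq, mem_empty_iff_false, iff_false]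
      tauto
    rw [this, measure_empty, ENNReal.toReal_zero]
    exact (Real.exp_pos _).le

open Classical in
/-- few atypical rows -/
lemma prob_many_bad {A : ℕ → Set Ω} (hA : ∀ k, MeasurableSet (A k)) {q : ℝ}
    (hq : ∀ k, P.real (A k)ᶜ ≤ q) {η : ℝ} (hη : 0 < η) {N : ℕ} (hN : 0 < N) :
    P.real {ω | η * N < (((Finset.range N).filter fun k => ω ∉ A k).card : ℝ)} ≤ q / η := by
  set f : Ω → ℝ := fun ω => ∑ k ∈ Finset.range N, (A k)ᶜ.indicator (fun _ => (1 : ℝ)) ω with hf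
  have hcard : ∀ ω, (((Finset.range N).filter fun k => ω ∉ A k).card : ℝ) = f ω := by
    intro ω
    rw [hf, Finset.card_filter]
    push_cast
    refine Finset.sum_congr rfl fun k _ => ?_
    by_cases h : ω ∈ A k
    · simp [h]
    · simp [h]
  have hi : ∀ k, Integrable ((A k)ᶜ.indicator fun _ => (1 : ℝ)) P := fun k =>
    (integrable_const (1 : ℝ)).indicator (hA k).compl
  have hint : Integrable f P := integrable_finsetSum _ fun k _ => hi k
  have hE : ∫ ω, f ω ∂P ≤ N * q := by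
    rw [hf, integral_finsetSum _ fun k _ => hi k]
    refine (Finset.sum_le_sum (g := fun _ => q) fun k _ => ?_).trans (by simp)
    rw [integral_indicator_const _ (hA k).compl]
    simpa using hq k
  have h0 : 0 ≤ᵐ[P] f := Eventually.of_forall fun ω =>
    Finset.sum_nonneg fun k _ => Set.indicator_nonneg (fun _ _ => zero_le_one) ω
  have h1 := mul_meas_ge_le_integral_of_nonneg h0 hint (η * N)
  have h2 : P.real {ω | η * N < (((Finset.range N).filter fun k => ω ∉ A k).card : ℝ)} ≤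
      P.real {ω | η * N ≤ f ω} := by
    refine measureReal_mono ?_ (measure_ne_top _ _)
    intro ω hω
    simp only [mem_ofPred_eq] at hω ⊢
    rw [← hcard]
    exact hω.le
  refine h2.trans ?_
  have hNR : (0 : ℝ) < N := by exact_mod_cast hN
  rw [le_div_iff₀ hη]
  have h3 : η * N * P.real {ω | η * N ≤ f ω} ≤ N * q := h1.trans hE
  have h4 : N * (P.real {ω | η * N ≤ f ω} * η) ≤ N * q := by linarith
  exact le_of_mul_le_mul_left h4 hNR

open Classical in
/-- for one number of rows: the probability of a cheap walk is small -/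
lemma prob_cheap_le {m : ℕ → MeasurableSpace Ω} (hind : iIndep m P)
    {R : ℕ → RowA Ω} (law : ∀ k, (R k).Law P (m k) C0 n δ v e)
    (hco : ∀ k, (R k).Costly P C0 δ v e) (hδ : 0 < δ) (hδ1 : δ ≤ 1) (hδv : δ ≤ v)
    (he : 0 < e) {c2 : ℝ} (hc2 : c2 = Real.log n / C0 - C0)
    {m1 : ℕ} (hm1 : 3 ≤ m1) {κ' κ'' η p₀ : ℝ} (hp₀ : 0 ≤ p₀) (hκ' : 0 ≤ κ')
    (hp : C0 * κ' + e ≤ p₀) (heκ : 8 * (e * κ') ≤ δ) (hev : 8 * (e * v) ≤ δ)
    {N : ℕ}
    (hpei : ∀ (B : ℕ → ℤ → Set Ω) (F : ℕ → ℤ → ℕ → Set Ω),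
        W.ProdB P N (Finset.range N) B p₀ → W.ProdF P N (Finset.range N) F c2 m1 →
        P (W.cheapR N η B F (δ / 4) m1 (δ / 2) κ' (1 / 2) κ'' v) ≤ ENNReal.ofReal (1 / 4))
    {GD : ℕ → Set Ω} :
    P.real {ω | (((Finset.range N).filter fun k => ω ∉ (R k).T ∩ GD k).card : ℝ) ≤ η * N ∧
      ∃ z w gap : ℕ → ℝ, (∀ k ≤ N, |z k| ≤ v) ∧ (∀ k < N, |w k| ≤ v) ∧
      (∀ k < N, 0 ≤ gap k) ∧
      (∀ k < N, ω ∈ GD k → δ / 8 < w k - z (k + 1) → (w k - z (k + 1)) / e ≤ gap k) ∧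
      ∑ k ∈ Finset.range N, (R k).K (z k) (w k) ω + ∑ k ∈ Finset.range N, gap k ≤ κ'' * N}
      ≤ 1 / 4 := by
  set B : ℕ → ℤ → Set Ω := fun k g => evSmall (R k) δ v κ' g with hB
  set F : ℕ → ℤ → ℕ → Set Ω := fun k g j => evFall (R k) v g j with hF
  have hPB : W.ProdB P N (Finset.range N) B p₀ := by
    refine W.prodB_of_iIndep (m := fun k : Fin N => m k) hp₀
      (hind.precomp (g := fun k : Fin N => (k : ℕ)) Fin.val_injective) ?_ ?_
    · intro k _ g
      exact evSmall_meas (law k) hδ hδv κ' g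
    · intro k _ g
      exact evSmall_prob (hco k) hδ hδv hκ' hp g
  have hPF : W.ProdF P N (Finset.range N) F c2 m1 := by
    refine W.prodF_of_iIndep (m := fun k : Fin N => m k)
      (hind.precomp (g := fun k : Fin N => (k : ℕ)) Fin.val_injective) ?_ ?_
    · intro k _ g j _
      exact evFall_meas (law k) g j
    · intro k _ g j _
      rw [hc2]
      exact evFall_prob (law k) g j
  have h1 := hpei B F hPB hPF
  have h2 : P.real (W.cheapR N η B F (δ / 4) m1 (δ / 2) κ' (1 / 2) κ'' v) ≤ 1 / 4 := by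
    have := ENNReal.toReal_mono ENNReal.ofReal_ne_top h1
    rwa [ENNReal.toReal_ofReal (by norm_num)] at this
  refine le_trans (measureReal_mono ?_ (measure_ne_top _ _)) h2
  rintro ω ⟨hcard, z, w, gap, hz, hw, hg, hgap, hsum⟩
  refine ⟨(Finset.range N).filter fun k => ω ∈ (R k).T ∩ GD k, Finset.filter_subset _ _, ?_, ?_⟩
  · have : Finset.range N \ ((Finset.range N).filter fun k => ω ∈ (R k).T ∩ GD k) =
        (Finset.range N).filter fun k => ω ∉ (R k).T ∩ GD k := by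
      ext k
      simp only [Finset.mem_sdiff, Finset.mem_filter]
      tauto
    rw [this]
    exact hcard
  · have hm1R : (3 : ℝ) ≤ m1 := by exact_mod_cast hm1
    refine ⟨z, fun k => (R k).K (z k) (w k) ω + gap k, hz, ?_, ?_, ?_, ?_⟩
    · intro k hk
      exact add_nonneg ((law k).K_nonneg _ _ ω (hz k hk.le) (hw k hk)) (hg k hk)
    · intro k hk hflat hnB
      obtain ⟨hk1, hk2, hk3⟩ := Finset.mem_filter.1 hk
      have hkN : k < N := Finset.mem_range.1 hk1
      exact small_of_not hδ hδv he heκ hk2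
        (fun s t hs ht => (law k).K_nonneg s t ω hs ht)
        (fun s s' t hs hs' ht hss => (law k).K_mono s s' t ω hs hs' ht hss)
        (fun s t t' hs ht ht' htt => (law k).K_anti s t t' ω hs ht ht' htt)
        (hz k hkN.le) (hw k hkN) (hg k hkN) (hgap k hkN hk3) hflat hnB
    · intro k hk hfall hnF
      obtain ⟨hk1, hk2, hk3⟩ := Finset.mem_filter.1 hk
      have hkN : k < N := Finset.mem_range.1 hk1
      exact fall_of_not hδ1 he hev hk2
        (fun s t hs ht => (law k).K_nonneg s t ω hs ht)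
        (fun s t x j hs ht htx hxs => (law k).window ω hk2 s t x j hs ht htx hxs)
        (hz k hkN.le) (hw k hkN) (hz (k + 1) hkN) (hg k hkN) (hgap k hkN hk3)
        (by linarith) hnF
    · rw [Finset.sum_add_distrib]
      exact hsum

end prob

/-- contradiction from the paths, for one large number of rows -/
lemma costly_core {Ω : Type u} [mΩ : MeasurableSpace Ω] {P : Measure Ω} [IsProbabilityMeasure P]
    {C0 θ : ℝ} {n : ℕ} {δ v e : ℝ}
    {m : ℕ → MeasurableSpace Ω} (hle : ∀ k, m k ≤ mΩ) (hind : iIndep m P)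
    {R : ℕ → RowA Ω} (law : ∀ k, (R k).Law P (m k) C0 n δ v e)
    (hco : ∀ k, (R k).Costly P C0 δ v e) (pa : Paths R P C0 θ δ v e)
    (hδ : 0 < δ) (hδ1 : δ ≤ 1) (hδv : δ ≤ v)
    (he : 0 < e) {m1 : ℕ} (hm1 : 3 ≤ m1) {κ' κ'' η p₀ : ℝ} (hη : 0 < η) (hp₀ : 0 ≤ p₀)
    (hκ' : 0 ≤ κ') (hκ'' : 0 < κ'')
    (hp : C0 * κ' + e ≤ p₀) (heκ : 8 * (e * κ') ≤ δ) (hev : 8 * (e * v) ≤ δ)
    (heη : 8 * e ≤ η) (hrate : C0 * v ^ (θ - 1) + e ≤ κ'' / 4) {N₀ : ℕ}
    (hpei : ∀ N : ℕ, N₀ ≤ N → ∀ (B : ℕ → ℤ → Set Ω) (F : ℕ → ℤ → ℕ → Set Ω),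
        W.ProdB P N (Finset.range N) B p₀ →
        W.ProdF P N (Finset.range N) F (Real.log n / C0 - C0) m1 →
        P (W.cheapR N η B F (δ / 4) m1 (δ / 2) κ' (1 / 2) κ'' v) ≤ ENNReal.ofReal (1 / 4)) :
    False := by
  classical
  obtain ⟨Nc, hNc⟩ := exists_nat_gt (4 * |pa.C'| / κ'')
  set N : ℕ := max (max N₀ Nc) 1 with hN
  have hN0 : N₀ ≤ N := (le_max_left _ _).trans (le_max_left _ _)
  have hN1 : 0 < N := lt_of_lt_of_le one_pos (le_max_right _ _)
  have hN2 : 4 * |pa.C'| < κ'' * N := by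
    have h1 : (Nc : ℝ) ≤ N := by exact_mod_cast (le_max_right _ _).trans (le_max_left _ _)
    rw [div_lt_iff₀ hκ''] at hNc
    nlinarith
  have hNR : (0 : ℝ) < N := by exact_mod_cast hN1
  obtain ⟨Y, hYi, hYm, hY⟩ := pa.path N
  set S : Set Ω := {ω | (((Finset.range N).filter fun k => ω ∉ (R k).T ∩ pa.GD k).card : ℝ) ≤
      η * N ∧
      ∃ z w gap : ℕ → ℝ, (∀ k ≤ N, |z k| ≤ v) ∧ (∀ k < N, |w k| ≤ v) ∧
      (∀ k < N, 0 ≤ gap k) ∧
      (∀ k < N, ω ∈ pa.GD k → δ / 8 < w k - z (k + 1) → (w k - z (k + 1)) / e ≤ gap k) ∧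
      ∑ k ∈ Finset.range N, (R k).K (z k) (w k) ω + ∑ k ∈ Finset.range N, gap k ≤ κ'' * N}
    with hS
  have hSp : P.real S ≤ 1 / 4 := by
    have := prob_cheap_le (P := P) hind law hco hδ hδ1 hδv he rfl hm1 (κ'' := κ'') (η := η) hp₀
      hκ' hp heκ hev (N := N) (hpei N hN0) (GD := pa.GD)
    rw [hS]
    convert this using 6
  set Q : Set Ω := {ω | η * N < (((Finset.range N).filter fun k =>
    ω ∉ (R k).T ∩ pa.GD k).card : ℝ)} with hQ
  have hQp : P.real Q ≤ 1 / 4 := by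
    have h1 := prob_many_bad (P := P) (A := fun k => (R k).T ∩ pa.GD k) (q := 2 * e)
      (fun k => (hle k _ (law k).T_meas).inter (pa.GD_meas k)) (fun k => by
        rw [Set.compl_inter]
        refine (measureReal_union_le _ _).trans ?_
        have h2 := (law k).T_prob
        have h3 := pa.GD_prob k
        linarith) hη hN1
    have h2 : 2 * e / η ≤ 1 / 4 := by
      rw [div_le_iff₀ hη]; linarith
    refine le_trans (measureReal_mono (fun ω hω => ?_) (measure_ne_top _ _)) (h1.trans h2)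
    rw [hQ] at hω
    simp only [mem_ofPred_eq] at hω ⊢
    convert hω using 4
  -- nonnegativity of Y
  have hY0 : 0 ≤ᵐ[P] Y := by
    filter_upwards [hY] with ω hω
    obtain ⟨z, w, gap, hz, hw, hg, -, hsum⟩ := hω
    refine le_trans (add_nonneg ?_ ?_) hsum
    · exact Finset.sum_nonneg fun k hk => (law k).K_nonneg _ _ ω
        ((hz k (Finset.mem_range.1 hk).le).trans (by linarith))
        ((hw k (Finset.mem_range.1 hk)).trans (by linarith))
    · exact Finset.sum_nonneg fun k hk => hg k (Finset.mem_range.1 hk)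
  -- Y is large with probability at least one half
  have hcov : ∀ᵐ ω ∂P, ω ∈ (Set.univ : Set Ω) → ω ∈ {ω | κ'' * N ≤ Y ω} ∪ (S ∪ Q) := by
    filter_upwards [hY] with ω hω _
    by_cases h1 : κ'' * N ≤ Y ω
    · exact Or.inl h1
    right
    push Not at h1
    by_cases h2 : ω ∈ Q
    · exact Or.inr h2
    left
    obtain ⟨z, w, gap, hz, hw, hg, hgap, hsum⟩ := hω
    refine ⟨?_, z, w, gap, fun k hk => (hz k hk).trans (by linarith),
      fun k hk => (hw k hk).trans (by linarith), hg, hgap, hsum.trans h1.le⟩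
    rw [hQ] at h2
    simp only [mem_ofPred_eq, not_lt] at h2
    exact h2
  have h1 : (1 : ℝ) ≤ P.real {ω | κ'' * N ≤ Y ω} + (1 / 4 + 1 / 4) := by
    have h2 : P.real (Set.univ : Set Ω) ≤ P.real ({ω | κ'' * N ≤ Y ω} ∪ (S ∪ Q)) :=
      ENNReal.toReal_mono (measure_ne_top _ _) (measure_mono_ae hcov)
    rw [probReal_univ] at h2
    refine h2.trans ((measureReal_union_le _ _).trans ?_)
    have h3 := measureReal_union_le (μ := P) S Q
    linarith
  have h2 := mul_meas_ge_le_integral_of_nonneg hY0 hYi (κ'' * N)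
  have h3 : κ'' * N * (1 / 2) ≤ κ'' * N * P.real {ω | κ'' * N ≤ Y ω} :=
    mul_le_mul_of_nonneg_left (by linarith) (by positivity)
  have h4 : (C0 * v ^ (θ - 1) + e) * N ≤ κ'' / 4 * N := mul_le_mul_of_nonneg_right hrate hNR.le
  have h5 := le_abs_self pa.C'
  nlinarith

/-- **The costly half of the endgame.** -/
theorem costly_false (C0 θ : ℝ) (hC0 : 1 ≤ C0) (hθ : θ < 1) :
    ∃ n0 : ℕ, ∀ n ≥ n0, ∃ δ0 > 0, ∀ δ : ℝ, 0 < δ → δ ≤ δ0 → ∃ v0 : ℝ, ∀ v ≥ v0, ∃ e0 > 0,
      ∀ e : ℝ, 0 < e → e ≤ e0 → ∀ Mo : Model.{u} C0 θ n δ v e,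
        (∀ k, @RowA.Costly Mo.Ω (Mo.R k) Mo.mΩ Mo.P C0 δ v e) → False := by
  obtain ⟨n0, hn0⟩ := exists_nat_ge (Real.exp (C0 * (C0 + 1)))
  refine ⟨n0, fun n hn => ⟨1, one_pos, fun δ hδ hδ1 => ?_⟩⟩
  set c2 : ℝ := Real.log n / C0 - C0 with hc2
  have hC0p : 0 < C0 := by linarith
  have hc2p : 1 ≤ c2 := by
    have h1 : C0 * (C0 + 1) ≤ Real.log n := by
      rw [Real.le_log_iff_exp_le]
      · exact hn0.trans (by exact_mod_cast hn)
      · exact (Real.exp_pos _).trans_le (hn0.trans (by exact_mod_cast hn))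
    have h2 : C0 + 1 ≤ Real.log n / C0 := by
      rw [le_div_iff₀ hC0p]; linarith
    linarith
  have hc2' : 0 < c2 := by linarith
  -- choice of m1
  have hexp1 : Real.exp (-(c2 / 40)) < 1 := by rw [Real.exp_lt_one_iff]; linarith
  have hexp2 : Real.exp (-(c2 / 2)) < 1 := by rw [Real.exp_lt_one_iff]; linarith
  have hlim : Tendsto (fun j : ℕ => 2 / (1 - Real.exp (-(c2 / 40))) *
      (Real.exp (-(c2 * j / 2)) / (1 - Real.exp (-(c2 / 2))))) atTop (nhds
        (2 / (1 - Real.exp (-(c2 / 40))) * (0 / (1 - Real.exp (-(c2 / 2)))))) := by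
    refine Tendsto.const_mul _ (Tendsto.div_const ?_ _)
    refine Real.tendsto_exp_atBot.comp ?_
    have h2 : Tendsto (fun j : ℕ => c2 / 2 * (j : ℝ)) atTop atTop :=
      Tendsto.const_mul_atTop (by positivity) tendsto_natCast_atTop_atTop
    refine (tendsto_neg_atTop_atBot.comp h2).congr fun j => ?_
    simp only [Function.comp_apply]
    ring
  have hev1 : ∀ᶠ j : ℕ in atTop, 2 / (1 - Real.exp (-(c2 / 40))) *
      (Real.exp (-(c2 * j / 2)) / (1 - Real.exp (-(c2 / 2)))) < c2 * (δ / 4) / 100 := by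
    refine hlim.eventually_lt_const ?_
    rw [zero_div, mul_zero]
    positivity
  obtain ⟨m1, hm1a, hm1b⟩ := (hev1.and (eventually_ge_atTop 3)).exists
  have hm1R : (3 : ℝ) ≤ m1 := by exact_mod_cast hm1b
  obtain ⟨p₀, hp₀, H⟩ := W.peierls_random.{u} (ζ := δ / 4) (v1 := m1) (h := δ / 2) (c := 1 / 2)
    (c2 := c2) (m1 := m1) (by positivity) (by linarith) (by linarith) (by positivity)
    (by norm_num) hc2' le_rfl hm1a.le
  obtain ⟨κ'', hκ'', H⟩ := H (p₀ / (2 * C0)) (by positivity)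
  set κ' : ℝ := p₀ / (2 * C0) with hκ'
  have hκ'p : 0 < κ' := by positivity
  -- choice of v0
  have hlimv : Tendsto (fun v : ℝ => C0 * v ^ (θ - 1)) atTop (nhds (C0 * 0)) := by
    have h1 := tendsto_rpow_neg_atTop (y := 1 - θ) (by linarith)
    rw [show -(1 - θ) = θ - 1 by ring] at h1
    exact h1.const_mul C0
  have hevv : ∀ᶠ v : ℝ in atTop, C0 * v ^ (θ - 1) < κ'' / 8 := by
    refine hlimv.eventually_lt_const ?_
    rw [mul_zero]; positivity
  obtain ⟨v1, hv1⟩ := eventually_atTop.1 hevv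
  refine ⟨max v1 1, fun v hv => ?_⟩
  have hv1' : 1 ≤ v := (le_max_right _ _).trans hv
  have hvr := hv1 v ((le_max_left _ _).trans hv)
  obtain ⟨η, hη, H⟩ := H v (by linarith)
  obtain ⟨N₀, H⟩ := H (1 / 4) (by norm_num)
  refine ⟨min (min (p₀ / 2) (η / 8)) (min (δ / (8 * (κ' + v))) (κ'' / 8)),
    lt_min (lt_min (by positivity) (by positivity)) (lt_min (by positivity) (by positivity)),
    fun e he hee Mo hco => ?_⟩
  have he1 : e ≤ p₀ / 2 := hee.trans ((min_le_left _ _).trans (min_le_left _ _))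
  have he2 : e ≤ η / 8 := hee.trans ((min_le_left _ _).trans (min_le_right _ _))
  have he3 : e ≤ δ / (8 * (κ' + v)) := hee.trans ((min_le_right _ _).trans (min_le_left _ _))
  have he4 : e ≤ κ'' / 8 := hee.trans ((min_le_right _ _).trans (min_le_right _ _))
  rw [le_div_iff₀ (by positivity)] at he3
  let _ := Mo.mΩ
  have _ := Mo.prob
  have hp : C0 * κ' + e ≤ p₀ := by
    have : C0 * κ' = p₀ / 2 := by rw [hκ']; field_simp
    linarith
  exact costly_core Mo.m_le Mo.indep Mo.law hco Mo.paths hδ hδ1 (by linarith) he hm1b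
    (κ' := κ') (κ'' := κ'') hη hp₀.le hκ'p.le hκ'' hp (by nlinarith) (by nlinarith)
    (by linarith) (by linarith) (N₀ := N₀)
    (fun N hN B F hB hF => H N hN Mo.Ω Mo.P B F hB hF)

end Crest.Agent.R151.E685
end

-- ▼ part R151/E685S
section

/-!
# R151 / S0214 part 2, E685S — the cheap half of the endgame (owner helper685)

On 191's `Model` (E191A): if the A-rows are `Cheap`, the strategy beats the rate of the lane.
-/

set_option autoImplicit false

namespace Crest.Agent.R151.E685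

open Crest.Agent.R151.E191
open MeasureTheory ProbabilityTheory Set Filter

universe u

/-! ## truncated means -/

section tail

variable {Ω : Type u} [mΩ : MeasurableSpace Ω] {P : Measure Ω} [IsProbabilityMeasure P]

/-- mean over a part of `T` of a variable with an exponential tail on `T` -/
lemma setIntegral_le_of_tail {f : Ω → ℝ} (hf : Measurable f) (hfi : Integrable f P)
    {T A : Set Ω} (hAT : A ⊆ T) {C c Y : ℝ}
    (hC : 0 ≤ C) (hc : 0 < c)
    (htail : ∀ t : ℝ, 0 ≤ t → P.real ({ω | t ≤ f ω} ∩ T) ≤ C * Real.exp (-t / c))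
    (hY : 0 ≤ Y) :
    ∫ ω in A, f ω ∂P ≤ Y * P.real A + C * c * Real.exp (-Y / c) := by
  have hgi : Integrable (fun ω => max (f ω - Y) 0) P := by
    have h1 : Integrable (fun ω => f ω - Y) P := hfi.sub (integrable_const _)
    exact h1.pos_part
  have h1 : ∫ ω in A, f ω ∂P ≤ ∫ ω in A, (Y + max (f ω - Y) 0) ∂P := by
    refine integral_mono hfi.integrableOn ((integrable_const _).add hgi).integrableOn ?_
    intro ω
    have := le_max_left (f ω - Y) 0
    simp only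
    linarith
  have h2 : ∫ ω in A, (Y + max (f ω - Y) 0) ∂P = Y * P.real A + ∫ ω in A, max (f ω - Y) 0 ∂P := by
    rw [integral_add (integrable_const _).integrableOn hgi.integrableOn, setIntegral_const,
      smul_eq_mul, mul_comm]
  have h3 : ∫ ω in A, max (f ω - Y) 0 ∂P ≤ ∫ ω in T, max (f ω - Y) 0 ∂P := by
    refine setIntegral_mono_set hgi.integrableOn ?_ (Eventually.of_forall hAT)
    exact Eventually.of_forall fun ω => le_max_right _ _
  have h4 : ∫ ω in T, max (f ω - Y) 0 ∂P ≤ C * c * Real.exp (-Y / c) := by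
    have h5 : ENNReal.ofReal (∫ ω in T, max (f ω - Y) 0 ∂P) ≤
        ENNReal.ofReal (C * c * Real.exp (-Y / c)) := by
      rw [ofReal_integral_eq_lintegral_ofReal hgi.integrableOn
        (Eventually.of_forall fun ω => le_max_right _ _),
        lintegral_eq_lintegral_meas_le (P.restrict T) (f := fun ω => max (f ω - Y) 0)
        (Eventually.of_forall fun ω => le_max_right _ _)
        ((hf.sub_const Y).max measurable_const).aemeasurable]
      have h6 : ∀ t ∈ Ioi (0 : ℝ), (P.restrict T) {ω | t ≤ max (f ω - Y) 0} ≤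
          ENNReal.ofReal (C * Real.exp (-Y / c) * Real.exp ((-(1 / c)) * t)) := by
        intro t ht
        have ht : (0 : ℝ) < t := ht
        have h7 : {ω | t ≤ max (f ω - Y) 0} = {ω | Y + t ≤ f ω} := by
          ext ω
          simp only [Set.mem_ofPred_eq, le_max_iff]
          constructor
          · rintro (h | h)
            · linarith
            · linarith
          · intro h; left; linarith
        rw [h7, Measure.restrict_apply (measurableSet_le measurable_const hf),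
          ← ENNReal.ofReal_toReal (measure_ne_top P ({ω | Y + t ≤ f ω} ∩ T))]
        refine ENNReal.ofReal_le_ofReal ((htail (Y + t) (by linarith)).trans (le_of_eq ?_))
        rw [mul_assoc, ← Real.exp_add]
        congr 2
        field_simp
        ring
      refine (setLIntegral_mono' measurableSet_Ioi h6).trans ?_
      rw [← ofReal_integral_eq_lintegral_ofReal]
      · refine ENNReal.ofReal_le_ofReal ?_
        rw [integral_const_mul, integral_exp_mul_Ioi (by
          have : 0 < 1 / c := by positivity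
          linarith)]
        apply le_of_eq
        simp only [mul_zero, Real.exp_zero]
        field_simp
      · refine Integrable.const_mul ?_ _
        exact exp_neg_integrableOn_Ioi 0 (b := 1 / c) (by positivity)
      · exact Eventually.of_forall fun t => by positivity
    exact (ENNReal.ofReal_le_ofReal_iff (by positivity)).1 h5
  linarith

end tail

/-! ## one A-row -/

section stepA

variable {Ω : Type u} [mΩ : MeasurableSpace Ω] {P : Measure Ω} [IsProbabilityMeasure P]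
  {C0 : ℝ} {n : ℕ} {δ v e : ℝ} {R : RowA Ω} {m : ℕ → MeasurableSpace Ω} {k : ℕ}

/-- the set where the fence is used -/
def badB (R : RowA Ω) (δ x : ℝ) : Set Ω := R.Tᶜ ∪ {ω | R.K x (x + 5 * δ) ω < R.KL x ω}

lemma badB_meas (h : R.Law P (m k) C0 n δ v e) (hδ : 0 < δ) (hδ1 : δ ≤ 1 / 64) (hv : 1 ≤ v)
    {x : ℝ} (hx : -(1 / 16) ≤ x) (hx' : x < 1 / 8) : MeasurableSet[m k] (badB R δ x) := by
  have h1 : |x| ≤ v := by rw [abs_le]; constructor <;> linarith
  have h2 : |x + 5 * δ| ≤ v := by rw [abs_le]; constructor <;> linarith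
  exact (h.T_meas.compl).union (measurableSet_lt (h.K_meas _ _ h1 h2) (h.KL_meas x hx hx'))

lemma badB_compl {x : ℝ} {ω : Ω} (h : ω ∈ (badB R δ x)ᶜ) :
    ω ∈ R.T ∧ R.KL x ω ≤ R.K x (x + 5 * δ) ω := by
  simp only [badB, mem_compl_iff, mem_union, not_or, not_not, mem_ofPred_eq, not_lt] at h
  exact h

lemma stepA_int (h : R.Law P (m k) C0 n δ v e) (hle : m k ≤ mΩ) (hc : R.Cheap P C0 δ)
    (hδ : 0 < δ) (hδ1 : δ ≤ 1 / 64) (hv : 1 ≤ v)
    {x : ℝ} (hx : -(1 / 16) ≤ x) (hx' : x < 1 / 8) :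
    IntegrableOn (R.KL x) (badB R δ x)ᶜ P ∧ ∫ ω in (badB R δ x)ᶜ, R.KL x ω ∂P ≤ 1 / 32 := by
  have h1 : |x| ≤ v := by rw [abs_le]; constructor <;> linarith
  have h2 : |x + 5 * δ| ≤ v := by rw [abs_le]; constructor <;> linarith
  have hsub : (badB R δ x)ᶜ ⊆ R.T := fun ω hω => (badB_compl hω).1
  have hKi : IntegrableOn (R.K x (x + 5 * δ)) (badB R δ x)ᶜ P :=
    (hc.int x hx hx').mono_set hsub
  have hBm : MeasurableSet (badB R δ x)ᶜ := (hle _ (badB_meas h hδ hδ1 hv hx hx')).compl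
  have hae : ∀ᵐ ω ∂(P.restrict (badB R δ x)ᶜ), R.KL x ω ≤ R.K x (x + 5 * δ) ω := by
    filter_upwards [ae_restrict_mem hBm] with ω hω using (badB_compl hω).2
  have hi : IntegrableOn (R.KL x) (badB R δ x)ᶜ P := by
    refine Integrable.mono' hKi ((h.KL_meas x hx hx').mono hle le_rfl).aestronglyMeasurable ?_
    filter_upwards [hae] with ω hω
    rw [Real.norm_eq_abs, abs_of_nonneg (h.KL_nonneg x ω hx hx')]
    exact hω
  refine ⟨hi, ?_⟩
  refine (integral_mono_ae hi hKi hae).trans ?_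
  refine le_trans (setIntegral_mono_set (hc.int x hx hx') ?_ (Eventually.of_forall hsub))
    (hc.mean x hx hx')
  exact Eventually.of_forall fun ω => h.K_nonneg _ _ ω h1 h2

lemma stepA_prob (h : R.Law P (m k) C0 n δ v e) (hC0 : 1 ≤ C0) (hc : R.Cheap P C0 δ)
    (hv : 1 ≤ v) {x : ℝ} (hx : -(1 / 16) ≤ x) (hx' : x < 1 / 8) {y : ℝ} (hy : 0 ≤ y) :
    P.real (badB R δ x ∩ R.T) ≤
      10 * C0 * y / n ^ 5 + 2 * e + 5 * C0 * Real.exp (-y / (C0 ^ 2 * 32 ^ 3)) := by
  set c0 : ℝ := C0 ^ 2 * 32 ^ 3 with hc0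
  have hC0p : 0 < C0 := by linarith
  have hc0p : 0 < c0 := by positivity
  -- fences
  have hF : ∀ a : ℝ, |a| ≤ v → P.real ({ω | y ≤ R.F (1 / 32) a ω} ∩ R.T) ≤
      C0 * Real.exp (-y / c0) := by
    intro a ha
    have h1 := h.F_tail (1 / 32) a (y / (C0 * 32 ^ 3)) (Or.inl rfl) ha (by positivity)
    have e1 : y / (C0 * 32 ^ 3) * (C0 / (1 / 32) ^ 3) = y := by
      field_simp
    have e2 : -(y / (C0 * 32 ^ 3)) / C0 = -y / c0 := by
      rw [hc0]; field_simp
    rw [e1, e2] at h1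
    exact h1
  have hK : P.real ({ω | y ≤ R.K x (x + 5 * δ) ω} ∩ R.T) ≤ C0 * Real.exp (-y / c0) := by
    refine (hc.tail x y hx hx' hy).trans ?_
    refine mul_le_mul_of_nonneg_left (Real.exp_le_exp.2 ?_) hC0p.le
    rw [neg_div, neg_div, neg_le_neg_iff]
    refine div_le_div_of_nonneg_left hy hC0p ?_
    rw [hc0]; nlinarith
  have hcell : ∀ a : ℝ, |a| ≤ v → |a + 7 / 32| ≤ v →
      P.real ({ω | R.cell a ω ≤ 5 * y} ∩ R.T) ≤ 5 * C0 * y / n ^ 5 + e := by
    intro a ha ha'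
    refine (h.cell_small a (5 * y) ha ha' (by positivity)).trans (le_of_eq ?_)
    ring
  have hcross : ∀ (a : ℝ) (ω : Ω), R.cross a 1 ω =
      R.cell a ω - 2 * (R.F (1 / 32) a ω + R.F (1 / 32) (a + 3 / 16) ω) := by
    intro a ω
    simp only [RowA.cross, Finset.sum_range_succ, Finset.sum_range_zero, Nat.cast_zero,
      Nat.cast_one, mul_zero, zero_div, add_zero, zero_add, mul_one]
  have ha1 : |(5 / 32 : ℝ)| ≤ v := by rw [abs_le]; constructor <;> linarith
  have ha2 : |(5 / 32 + 3 / 16 : ℝ)| ≤ v := by rw [abs_le]; constructor <;> linarith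
  have ha3 : |(5 / 32 + 7 / 32 : ℝ)| ≤ v := by rw [abs_le]; constructor <;> linarith
  have hb1 : |(-(11 / 32) : ℝ)| ≤ v := by rw [abs_le]; constructor <;> linarith
  have hb2 : |(-(11 / 32) + 3 / 16 : ℝ)| ≤ v := by rw [abs_le]; constructor <;> linarith
  have hb3 : |(-(11 / 32) + 7 / 32 : ℝ)| ≤ v := by rw [abs_le]; constructor <;> linarith
  have hsub : badB R δ x ∩ R.T ⊆
      (({ω | R.cell (5 / 32) ω ≤ 5 * y} ∩ R.T) ∪ ({ω | R.cell (-(11 / 32)) ω ≤ 5 * y} ∩ R.T)) ∪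
      ((({ω | y ≤ R.F (1 / 32) (5 / 32) ω} ∩ R.T) ∪
        ({ω | y ≤ R.F (1 / 32) (5 / 32 + 3 / 16) ω} ∩ R.T)) ∪
      ((({ω | y ≤ R.F (1 / 32) (-(11 / 32)) ω} ∩ R.T) ∪
        ({ω | y ≤ R.F (1 / 32) (-(11 / 32) + 3 / 16) ω} ∩ R.T)) ∪
        ({ω | y ≤ R.K x (x + 5 * δ) ω} ∩ R.T))) := by
    rintro ω ⟨hB, hT⟩
    have hKL : R.K x (x + 5 * δ) ω < R.KL x ω := by
      rcases hB with hB | hB
      · exact absurd hT hB
      · exact hB
    have hl := h.lane ω hT x hx hx'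
    rw [hcross, hcross] at hl
    simp only [mem_union, mem_inter_iff, mem_ofPred_eq, hT, and_true]
    by_contra hcon
    push Not at hcon
    obtain ⟨⟨g1, g2⟩, ⟨g3, g4⟩, ⟨g5, g6⟩, g7⟩ := hcon
    have h3 : R.K x (x + 5 * δ) ω < min (R.KL x ω)
        (min (R.cell (5 / 32) ω - 2 * (R.F (1 / 32) (5 / 32) ω +
          R.F (1 / 32) (5 / 32 + 3 / 16) ω))
        (R.cell (-(11 / 32)) ω - 2 * (R.F (1 / 32) (-(11 / 32)) ω +
          R.F (1 / 32) (-(11 / 32) + 3 / 16) ω))) := by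
      refine lt_min hKL (lt_min ?_ ?_) <;> linarith
    linarith
  have hu := measureReal_mono (μ := P) hsub (measure_ne_top _ _)
  have e5 : ∀ A B : Set Ω, P.real (A ∪ B) ≤ P.real A + P.real B := fun A B =>
    measureReal_union_le A B
  refine hu.trans ?_
  refine (e5 _ _).trans ?_
  have t1 := e5 ({ω | R.cell (5 / 32) ω ≤ 5 * y} ∩ R.T) ({ω | R.cell (-(11 / 32)) ω ≤ 5 * y} ∩ R.T)
  have t2 := e5 (({ω | y ≤ R.F (1 / 32) (5 / 32) ω} ∩ R.T) ∪
        ({ω | y ≤ R.F (1 / 32) (5 / 32 + 3 / 16) ω} ∩ R.T))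
      ((({ω | y ≤ R.F (1 / 32) (-(11 / 32)) ω} ∩ R.T) ∪
        ({ω | y ≤ R.F (1 / 32) (-(11 / 32) + 3 / 16) ω} ∩ R.T)) ∪
        ({ω | y ≤ R.K x (x + 5 * δ) ω} ∩ R.T))
  have t3 := e5 ({ω | y ≤ R.F (1 / 32) (5 / 32) ω} ∩ R.T)
        ({ω | y ≤ R.F (1 / 32) (5 / 32 + 3 / 16) ω} ∩ R.T)
  have t4 := e5 (({ω | y ≤ R.F (1 / 32) (-(11 / 32)) ω} ∩ R.T) ∪
        ({ω | y ≤ R.F (1 / 32) (-(11 / 32) + 3 / 16) ω} ∩ R.T))
        ({ω | y ≤ R.K x (x + 5 * δ) ω} ∩ R.T)
  have t5 := e5 ({ω | y ≤ R.F (1 / 32) (-(11 / 32)) ω} ∩ R.T)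
        ({ω | y ≤ R.F (1 / 32) (-(11 / 32) + 3 / 16) ω} ∩ R.T)
  have s1 := hcell _ ha1 ha3
  have s2 := hcell _ hb1 hb3
  have s3 := hF _ ha1
  have s4 := hF _ ha2
  have s5 := hF _ hb1
  have s6 := hF _ hb2
  have e6 : 10 * C0 * y / (n : ℝ) ^ 5 = 5 * C0 * y / n ^ 5 + 5 * C0 * y / n ^ 5 := by ring
  rw [e6]
  linarith

lemma stepA_fence (h : R.Law P (m k) C0 n δ v e) (hle : m k ≤ mΩ) (hC0 : 1 ≤ C0) (hn : 1 ≤ n)
    (hδ : 0 < δ) (hδ1 : δ ≤ 1 / 64) (hv : 1 ≤ v)
    {x : ℝ} (hx : -(1 / 16) ≤ x) (hx' : x < 1 / 8) {Y : ℝ} (hY : 0 ≤ Y) :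
    ∫ ω in badB R δ x, R.F (1 / (4 * n)) x ω ∂P ≤ e + Y * P.real (badB R δ x ∩ R.T) +
      C0 * (C0 ^ 2 * (4 * n) ^ 3) * Real.exp (-Y / (C0 ^ 2 * (4 * n) ^ 3)) := by
  have h1 : |x| ≤ v := by rw [abs_le]; constructor <;> linarith
  have hnR : (1 : ℝ) ≤ n := by exact_mod_cast hn
  have hC0p : 0 < C0 := by linarith
  have hBm : MeasurableSet (badB R δ x) := hle _ (badB_meas h hδ hδ1 hv hx hx')
  have hTm : MeasurableSet R.T := hle _ h.T_meas
  have hFm : Measurable (R.F (1 / (4 * n)) x) := (h.F_meas _ x h1).mono hle le_rfl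
  have hFi := h.F_int x h1
  have hsplit : ∫ ω in badB R δ x, R.F (1 / (4 * n)) x ω ∂P =
      ∫ ω in badB R δ x ∩ R.T, R.F (1 / (4 * n)) x ω ∂P +
      ∫ ω in badB R δ x ∩ R.Tᶜ, R.F (1 / (4 * n)) x ω ∂P := by
    rw [← setIntegral_union ?_ (hBm.inter hTm.compl) hFi.integrableOn hFi.integrableOn]
    · congr 2
      rw [← inter_union_distrib_left, union_compl_self, inter_univ]
    · exact disjoint_compl_right.mono inter_subset_right inter_subset_right
  have h2 : ∫ ω in badB R δ x ∩ R.Tᶜ, R.F (1 / (4 * n)) x ω ∂P ≤ e := by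
    refine le_trans (setIntegral_mono_set hFi.integrableOn ?_
      (Eventually.of_forall inter_subset_right)) (h.F_ui x h1)
    exact Eventually.of_forall fun ω => h.F_nonneg _ _ ω h1
  have h3 := setIntegral_le_of_tail hFm hFi (T := R.T) (A := badB R δ x ∩ R.T) inter_subset_right
    (C := C0) (c := C0 ^ 2 * (4 * n) ^ 3) (Y := Y) hC0p.le (by positivity) (fun t ht => by
      have h4 := h.F_tail (1 / (4 * n)) x (t / (C0 * (4 * n) ^ 3)) (Or.inr rfl) h1 (by positivity)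
      have e1 : t / (C0 * (4 * (n : ℝ)) ^ 3) * (C0 / (1 / (4 * n)) ^ 3) = t := by
        field_simp
      have e2 : -(t / (C0 * (4 * (n : ℝ)) ^ 3)) / C0 = -t / (C0 ^ 2 * (4 * n) ^ 3) := by
        field_simp
      rw [e1, e2] at h4
      exact h4) hY
  linarith

end stepA


/-! ## potential -/

/-- repulsion from the right end `3 / 16` of the zone of the B-rows -/
noncomputable def phi (x : ℝ) : ℝ := 1 / (3 / 16 - x) ^ 3

/-- potential -/
noncomputable def Psi (lam x : ℝ) : ℝ := lam * (x + 1) + phi x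

lemma phi_nonneg {x : ℝ} (hx : x < 3 / 16) : 0 ≤ phi x := by
  unfold phi
  have : 0 < 3 / 16 - x := by linarith
  positivity

lemma phi_lip_aux {a b : ℝ} (ha : 1 / 32 ≤ a) (hab : a ≤ b) (hb : b ≤ 1) :
    1 / a ^ 3 - 1 / b ^ 3 ≤ 3 * 32 ^ 4 * (b - a) := by
  have ha0 : 0 < a := by linarith
  have hb0 : 0 < b := by linarith
  have hy : 1 / a ≤ 32 := by
    rw [div_le_iff₀ ha0]; linarith
  have hz : 1 / b ≤ 1 / a := one_div_le_one_div_of_le ha0 hab
  have hz0 : 0 < 1 / b := by positivity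
  have h1 : 1 / a - 1 / b ≤ 32 ^ 2 * (b - a) := by
    have : 1 / a - 1 / b = (1 / a) * (1 / b) * (b - a) := by field_simp
    rw [this]
    refine mul_le_mul_of_nonneg_right ?_ (by linarith)
    nlinarith
  have h2 : 1 / a ^ 3 - 1 / b ^ 3 =
      (1 / a - 1 / b) * ((1 / a) ^ 2 + (1 / a) * (1 / b) + (1 / b) ^ 2) := by
    field_simp
    ring
  rw [h2]
  have h3 : (1 / a) ^ 2 + (1 / a) * (1 / b) + (1 / b) ^ 2 ≤ 3 * 32 ^ 2 := by nlinarith
  have h4 : 0 ≤ (1 / a) ^ 2 + (1 / a) * (1 / b) + (1 / b) ^ 2 := by positivity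
  calc (1 / a - 1 / b) * ((1 / a) ^ 2 + (1 / a) * (1 / b) + (1 / b) ^ 2)
      ≤ (32 ^ 2 * (b - a)) * (3 * 32 ^ 2) := mul_le_mul h1 h3 h4 (by nlinarith)
    _ = 3 * 32 ^ 4 * (b - a) := by ring

lemma Psi_lip {lam x y : ℝ} (hx : -(1 / 16) ≤ x) (hxy : x ≤ y) (hy : y ≤ 5 / 32) :
    Psi lam y ≤ Psi lam x + (lam + 3 * 32 ^ 4) * (y - x) := by
  have := phi_lip_aux (a := 3 / 16 - y) (b := 3 / 16 - x) (by linarith) (by linarith) (by linarith)
  unfold Psi phi
  linarith

lemma phi_back {x a : ℝ} (hx : 0 ≤ x) (hx' : x < 3 / 16) (ha : 0 < a) (ha' : a ≤ 1 / 2) :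
    phi (x - a) ≤ (1 - a) * phi x := by
  unfold phi
  set u : ℝ := 3 / 16 - x with hu
  have hu0 : 0 < u := by linarith
  have hu1 : u ≤ 3 / 16 := by linarith
  have e1 : 3 / 16 - (x - a) = u + a := by rw [hu]; ring
  rw [e1, mul_one_div, div_le_div_iff₀ (by positivity) (by positivity), one_mul]
  have h1 : u ≤ (1 - a) * (u + a) := by nlinarith
  have h2 : u ^ 2 ≤ (u + a) ^ 2 := by nlinarith
  calc u ^ 3 = u * u ^ 2 := by ring
    _ ≤ ((1 - a) * (u + a)) * (u + a) ^ 2 := mul_le_mul h1 h2 (by positivity) (by nlinarith)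
    _ = (1 - a) * (u + a) ^ 3 := by ring

lemma phi_fwd {x : ℝ} (hx' : x < 3 / 16) :
    phi (x + 3 * ((3 / 16 - x) / 4) / 2) = 512 / 125 * phi x := by
  unfold phi
  have hu0 : 0 < 3 / 16 - x := by linarith
  have e1 : 3 / 16 - (x + 3 * ((3 / 16 - x) / 4) / 2) = 5 / 8 * (3 / 16 - x) := by ring
  rw [e1]
  field_simp
  norm_num

lemma stepB_arith {E lam a p e x y M D F f1 f2 : ℝ} (hp0 : 0 ≤ p) (hpe : p ≤ e)
    (he1 : e ≤ 1) (hlam : 0 ≤ lam) (hE0 : 0 ≤ E) (hE : 2 * E ≤ lam * a) (hE' : e * lam ≤ E)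
    (ha0 : 0 ≤ a) (ha1 : a ≤ 1 / 32) (hea : 69 * e ≤ a) (hph : 0 ≤ phi x)
    (h1 : F ≤ E + 64 * e * phi x + (1 - p) * f1 + p * f2)
    (hf1 : f1 ≤ M / 2 + Psi lam (x - a) + D) (hf2 : f2 ≤ M / 2 + Psi lam y + D)
    (hy : y ≤ x + 9 / 128) (hPa : phi (x - a) ≤ (1 - a) * phi x)
    (hPf : phi y = 512 / 125 * phi x) :
    F ≤ (M + 2) / 2 + Psi lam x + D := by
  have g1 : f1 ≤ M / 2 + D + lam * (x + 1) - lam * a + (1 - a) * phi x := by
    unfold Psi at hf1
    have : lam * (x - a + 1) = lam * (x + 1) - lam * a := by ring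
    linarith
  have g2 : f2 ≤ M / 2 + D + lam * (x + 1) + lam * (9 / 128) + 512 / 125 * phi x := by
    unfold Psi at hf2
    have : lam * (y + 1) ≤ lam * (x + 1) + lam * (9 / 128) := by
      rw [← mul_add]
      exact mul_le_mul_of_nonneg_left (by linarith) hlam
    linarith
  have g3 := mul_le_mul_of_nonneg_left g1 (show (0 : ℝ) ≤ 1 - p by linarith)
  have g4 := mul_le_mul_of_nonneg_left g2 hp0
  set L := lam * (x + 1) with hL
  set A := (1 - a) * phi x with hA
  have hA0 : 0 ≤ A := mul_nonneg (by linarith) hph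
  have g5 : F ≤ E + 64 * e * phi x + (M / 2 + D + L) - lam * a + A + p * (lam * a + lam * (9 / 128))
      + p * (512 / 125 * phi x) - p * A := by linarith
  have g6 : p * (lam * a + lam * (9 / 128)) ≤ e * lam := by
    refine mul_le_mul hpe ?_ ?_ (by linarith)
    · have : lam * a ≤ lam * (1 / 32) := mul_le_mul_of_nonneg_left ha1 hlam
      linarith
    · positivity
  have g7 : p * (512 / 125 * phi x) ≤ 5 * e * phi x := by
    have : p * phi x ≤ e * phi x := mul_le_mul_of_nonneg_right hpe hph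
    have : 0 ≤ e * phi x := mul_nonneg (by linarith) hph
    linarith
  have g8 : 0 ≤ p * A := mul_nonneg hp0 hA0
  have g9 : 69 * e * phi x ≤ a * phi x := mul_le_mul_of_nonneg_right hea hph
  have g10 : Psi lam x = L + phi x := rfl
  have g11 : A = phi x - a * phi x := by rw [hA]; ring
  rw [g10]
  linarith

/-! ## the induction -/

/-- upper bounds for the value functions -/
lemma strategy_bound {Ω : Type u} [mΩ : MeasurableSpace Ω] {P : Measure Ω}
    [IsProbabilityMeasure P] {R : RowA Ω} {m : ℕ → MeasurableSpace Ω} {k : ℕ} (hle : m k ≤ mΩ)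
    {C0 : ℝ} {n : ℕ} {δ e : ℝ} (S : Strategy R P (m k) C0 n δ e) (hC0 : 1 ≤ C0) (hn : 16 ≤ n)
    (hδ : 0 < δ) (hδ1 : 6 * δ ≤ 1 / 32) (hδ2 : δ ≤ 1 / (4 * n))
    (he : 0 < e) (he1 : e ≤ 1 / (1000 * n)) {lam : ℝ} (hlam : lam = 8 * C0 * n ^ 5)
    (hrow : ∀ x : ℝ, -(1 / 16) ≤ x → x < 1 / 8 → ∃ B : Set Ω, MeasurableSet[m k] B ∧
      IntegrableOn (R.KL x) Bᶜ P ∧
      ∫ ω in Bᶜ, R.KL x ω ∂P + ∫ ω in B, R.F (1 / (4 * n)) x ω ∂P + e +
        6 * δ * (lam + 3 * 32 ^ 4) +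
        P.real B * ((1 / (4 * n) + δ) * (lam + 3 * 32 ^ 4)) ≤ 1 / 2) :
    ∀ N : ℕ, (∀ x : ℝ, -(1 / 16) ≤ x → x < 1 / 8 → S.fA N x ≤ N / 2 + Psi lam x + |S.C'|) ∧
      (∀ x : ℝ, 0 ≤ x → x < 3 / 16 → S.fB N x ≤ N / 2 + Psi lam x + |S.C'|) := by
  have hnR : (16 : ℝ) ≤ n := by exact_mod_cast hn
  have hn0 : (0 : ℝ) < n := by linarith
  have hC0p : 0 < C0 := by linarith
  have hlam0 : 0 < lam := by rw [hlam]; positivity
  have hD := le_abs_self S.C'
  have hD0 := abs_nonneg S.C'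
  have hq : 1 / (4 * (n : ℝ)) ≤ 1 / 64 := by
    refine one_div_le_one_div_of_le (by norm_num) (by linarith)
  have hq0 : 0 < 1 / (4 * (n : ℝ)) := by positivity
  have hq2 : 1 / (2 * (n : ℝ)) = 2 * (1 / (4 * n)) := by
    field_simp; ring
  have heq : e ≤ 1 / (4 * (n : ℝ)) / 250 := by
    have : 1 / (1000 * (n : ℝ)) = 1 / (4 * (n : ℝ)) / 250 := by field_simp; ring
    linarith
  have hPsi0 : ∀ x : ℝ, -(1 / 16) ≤ x → x < 3 / 16 → 0 ≤ Psi lam x := by
    intro x hx hx'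
    unfold Psi
    have := phi_nonneg hx'
    have h2 : 0 ≤ lam * (x + 1) := mul_nonneg hlam0.le (by linarith)
    linarith
  intro N
  induction N using Nat.strong_induction_on with
  | _ N ih =>
    rcases Nat.lt_or_ge N 2 with hN | hN
    · have hN' : N ≤ 1 := by omega
      have hNn : (0 : ℝ) ≤ N := Nat.cast_nonneg N
      refine ⟨fun x hx hx' => ?_, fun x hx hx' => ?_⟩
      · have h1 := S.base_A N hN' x hx hx'
        have h2 := hPsi0 x hx (by linarith)
        linarith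
      · have h1 := S.base_B N hN' x hx hx'
        have h2 := hPsi0 x (by linarith) hx'
        linarith
    obtain ⟨M, rfl⟩ : ∃ M, N = M + 2 := ⟨N - 2, by omega⟩
    have hMc : ((M + 2 : ℕ) : ℝ) = M + 2 := by push_cast; ring
    have hM1c : ((M + 1 : ℕ) : ℝ) = M + 1 := by push_cast; ring
    -- rows of type A
    have hA : ∀ x : ℝ, -(1 / 16) ≤ x → x < 1 / 8 →
        S.fA (M + 2) x ≤ (M + 2 : ℕ) / 2 + Psi lam x + |S.C'| := by
      intro x hx hx'
      obtain ⟨B, hBm, hBi, hB⟩ := hrow x hx hx'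
      have hBm' : MeasurableSet B := hle _ hBm
      have hpc : P.real Bᶜ = 1 - P.real B := by
        rw [measureReal_compl hBm', probReal_univ]
      have hp0 : 0 ≤ P.real B := measureReal_nonneg
      have hp1 : P.real B ≤ 1 := measureReal_le_one
      obtain ⟨ihA, ihB⟩ := ih (M + 1) (by omega)
      have key : ∃ f, (f = S.fA ∨ f = S.fB) ∧
          f (M + 1) (x + 6 * δ) ≤ (M + 1 : ℕ) / 2 + Psi lam (x + 6 * δ) + |S.C'| ∧
          f (M + 1) (x + 1 / (4 * n) + δ) ≤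
            (M + 1 : ℕ) / 2 + Psi lam (x + 1 / (4 * n) + δ) + |S.C'| := by
        by_cases hc : x + 6 * δ < 1 / 8 ∧ x + 1 / (4 * n) + δ < 1 / 8
        · exact ⟨S.fA, Or.inl rfl, ihA _ (by linarith) hc.1, ihA _ (by linarith) hc.2⟩
        · have hx2 : 1 / 8 - 1 / 32 ≤ x := by
            by_contra hcon
            push Not at hcon
            exact hc ⟨by linarith, by linarith⟩
          exact ⟨S.fB, Or.inr rfl, ihB _ (by linarith) (by linarith),
            ihB _ (by linarith) (by linarith)⟩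
      obtain ⟨f, hf, hf1, hf2⟩ := key
      have h1 := S.recA f hf (M + 1) x hx hx' B hBm hBi
      have h2 := Psi_lip (lam := lam) (x := x) (y := x + 6 * δ) hx (by linarith) (by linarith)
      have h3 := Psi_lip (lam := lam) (x := x) (y := x + 1 / (4 * n) + δ) hx (by linarith)
        (by linarith)
      have h4 : P.real Bᶜ * f (M + 1) (x + 6 * δ) ≤
          P.real Bᶜ * ((M + 1 : ℕ) / 2 + Psi lam x + |S.C'| + 6 * δ * (lam + 3 * 32 ^ 4)) :=
        mul_le_mul_of_nonneg_left (by linarith) measureReal_nonneg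
      have h5 : P.real B * f (M + 1) (x + 1 / (4 * n) + δ) ≤
          P.real B * ((M + 1 : ℕ) / 2 + Psi lam x + |S.C'| +
            (1 / (4 * n) + δ) * (lam + 3 * 32 ^ 4)) :=
        mul_le_mul_of_nonneg_left (by linarith) measureReal_nonneg
      rw [hpc] at h4 h1
      have h6 : 0 ≤ P.real B * (6 * δ * (lam + 3 * 32 ^ 4)) := by positivity
      rw [show M + 1 + 1 = M + 2 by rfl] at h1
      rw [hM1c] at h4 h5
      rw [hMc]
      linarith
    refine ⟨hA, fun x hx hx' => ?_⟩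
    set u : ℝ := 3 / 16 - x with hu
    have hu0 : 0 < u := by linarith
    rcases le_or_gt u (4 * S.wmin) with hw | hw
    · have h1 := S.top (M + 2) x hx hx'
      have h2 := hA 0 (by norm_num) (by norm_num)
      have h3 := S.Acr_le
      have h4 : 1 / (4 * S.wmin) ^ 3 ≤ 1 / u ^ 3 :=
        one_div_le_one_div_of_le (by positivity) (pow_le_pow_left₀ hu0.le hw 3)
      have h5 : Psi lam 0 ≤ lam + 152 := by
        unfold Psi phi; norm_num
      have h6 : Psi lam x = lam * (x + 1) + 1 / u ^ 3 := rfl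
      have h7 : 0 ≤ lam * x := mul_nonneg hlam0.le hx
      rw [h6]
      linarith
    · obtain ⟨ihA, ihB⟩ := ih M (by omega)
      set a : ℝ := 1 / (2 * n) - δ with ha
      have ha1 : 1 / (4 * (n : ℝ)) ≤ a := by rw [ha, hq2]; linarith
      have ha2 : a ≤ 1 / 32 := by rw [ha, hq2]; linarith
      have hxa : x - 1 / (2 * n) + δ = x - a := by rw [ha]; ring
      have key : ∃ f, (f = S.fA ∨ f = S.fB) ∧
          f M (x - a) ≤ (M : ℝ) / 2 + Psi lam (x - a) + |S.C'| ∧
          f M (x + 3 * (u / 4) / 2) ≤ (M : ℝ) / 2 + Psi lam (x + 3 * (u / 4) / 2) + |S.C'| := by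
        by_cases hc : x < 7 / 80
        · exact ⟨S.fA, Or.inl rfl, ihA _ (by linarith) (by linarith),
            ihA _ (by linarith) (by rw [hu]; linarith)⟩
        · push Not at hc
          exact ⟨S.fB, Or.inr rfl, ihB _ (by linarith) (by linarith),
            ihB _ (by linarith) (by rw [hu]; linarith)⟩
      obtain ⟨f, hf, hf1, hf2⟩ := key
      obtain ⟨p, hp0, hpe, h1⟩ := S.recB f hf M x (u / 4) hx hx' (by linarith) (by linarith)
      rw [hxa] at h1
      have hp1 : p ≤ 1 := by linarith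
      have h2 : (1 - p) * f M (x - a) ≤ (1 - p) * ((M : ℝ) / 2 + Psi lam (x - a) + |S.C'|) :=
        mul_le_mul_of_nonneg_left hf1 (by linarith)
      have h3 : p * f M (x + 3 * (u / 4) / 2) ≤
          p * ((M : ℝ) / 2 + Psi lam (x + 3 * (u / 4) / 2) + |S.C'|) :=
        mul_le_mul_of_nonneg_left hf2 hp0
      have hphi0 : 0 ≤ phi x := phi_nonneg hx'
      have h4 := phi_back hx hx' (lt_of_lt_of_le hq0 ha1) (by linarith)
      have h5 := phi_fwd hx'
      rw [← hu] at h5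
      have h6 : e / (u / 4) ^ 3 = 64 * e * phi x := by
        unfold phi
        rw [← hu]
        field_simp
        norm_num
      rw [h6] at h1
      rw [hMc]
      refine stepB_arith hp0 hpe (by linarith) hlam0.le (E := C0 * n ^ 4)
        (by positivity) ?_ ?_ (by linarith) ha2 (by linarith) hphi0 h1 hf1 hf2
        (by rw [hu]; linarith) h4 h5
      · have : lam * (1 / (4 * n)) = 2 * (C0 * n ^ 4) := by
          rw [hlam]; field_simp; ring
        rw [← this]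
        exact mul_le_mul_of_nonneg_left ha1 hlam0.le
      · have t2 : e * lam ≤ (1 / (4 * (n : ℝ)) / 250) * lam :=
          mul_le_mul_of_nonneg_right heq hlam0.le
        have t3 : (1 / (4 * (n : ℝ)) / 250) * lam = 2 * (C0 * n ^ 4) / 250 := by
          rw [hlam]; field_simp; ring
        have t4 : 0 ≤ C0 * n ^ 4 := by positivity
        linarith


/-! ## choice of the constants -/

lemma exp_neg_le_pow {x : ℝ} (hx : 0 < x) : Real.exp (-x) ≤ (Nat.factorial 9 : ℝ) / x ^ 9 := by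
  have h1 := Real.pow_div_factorial_le_exp x hx.le 9
  rw [Real.exp_neg, inv_le_comm₀ (Real.exp_pos x) (by positivity), inv_div]
  exact h1

set_option maxHeartbeats 1000000 in
/-- the row inequality with explicit constants -/
lemma row_bound {Ω : Type u} [mΩ : MeasurableSpace Ω] {P : Measure Ω}
    [IsProbabilityMeasure P] {R : RowA Ω} {m : ℕ → MeasurableSpace Ω} {k : ℕ} (hle : m k ≤ mΩ)
    {C0 : ℝ} {n : ℕ} {δ v e : ℝ} (h : R.Law P (m k) C0 n δ v e) (hc : R.Cheap P C0 δ)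
    (hC0 : 1 ≤ C0) (hn : 16 ≤ n) (hδ : 0 < δ) (hδ1 : δ ≤ 1 / 64) (hδ2 : δ ≤ 1 / (4 * n))
    (hv : 1 ≤ v) (he : 0 < e) {lam C1 r K L : ℝ} (hlam : lam = 8 * C0 * n ^ 5)
    (hL : L = 3 * 32 ^ 4) (hr : 0 < r) (hrn : r ^ 2 = n)
    (hC1 : C1 = 10 * C0 + 5 * C0 * (Nat.factorial 9 * (C0 ^ 2 * 32 ^ 3) ^ 9))
    (hK : K = 64 * C0 ^ 2 * C1 + 64 * Nat.factorial 9 * C0 ^ 3 + 4 * C0 * C1 + C1 * L)
    (hrK : 32 * K ≤ r) (hδ3 : 6 * δ * (lam + L) ≤ 1 / 32)
    (he3 : e * (2 + 128 * C0 ^ 2 * r ^ 7 + 3 * (lam + L)) ≤ 1 / 32)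
    {x : ℝ} (hx : -(1 / 16) ≤ x) (hx' : x < 1 / 8) :
    ∫ ω in (badB R δ x)ᶜ, R.KL x ω ∂P + ∫ ω in badB R δ x, R.F (1 / (4 * n)) x ω ∂P + e +
        6 * δ * (lam + L) + P.real (badB R δ x) * ((1 / (4 * n) + δ) * (lam + L)) ≤ 1 / 2 := by
  have hnR : (16 : ℝ) ≤ n := by exact_mod_cast hn
  have hn0 : (0 : ℝ) < n := by linarith
  have hC0p : 0 < C0 := by linarith
  have hfac : (0 : ℝ) < (Nat.factorial 9 : ℝ) := by positivity
  have hC1p : 0 < C1 := by rw [hC1]; positivity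
  have hLp : 0 < L := by rw [hL]; norm_num
  have hlp : 0 < lam := by rw [hlam]; positivity
  have hr1 : 1 ≤ r := by nlinarith
  set PT : ℝ := P.real (badB R δ x ∩ R.T) with hPT
  have hPT0 : 0 ≤ PT := measureReal_nonneg
  have hBm : MeasurableSet (badB R δ x) := hle _ (badB_meas h hδ hδ1 hv hx hx')
  -- probability
  have hP : PT ≤ C1 / r ^ 9 + 2 * e := by
    have h1 := stepA_prob h hC0 hc hv hx hx' hr.le
    have h2 : 10 * C0 * r / (n : ℝ) ^ 5 = 10 * C0 / r ^ 9 := by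
      rw [← hrn]; field_simp
    have h3 := exp_neg_le_pow (x := r / (C0 ^ 2 * 32 ^ 3)) (by positivity)
    have h4 : (Nat.factorial 9 : ℝ) / (r / (C0 ^ 2 * 32 ^ 3)) ^ 9 =
        (Nat.factorial 9 * (C0 ^ 2 * 32 ^ 3) ^ 9) / r ^ 9 := by
      rw [div_pow, div_div_eq_mul_div]
    have h5 : 5 * C0 * Real.exp (-r / (C0 ^ 2 * 32 ^ 3)) ≤
        5 * C0 * ((Nat.factorial 9 * (C0 ^ 2 * 32 ^ 3) ^ 9) / r ^ 9) := by
      rw [← h4, neg_div]
      exact mul_le_mul_of_nonneg_left h3 (by positivity)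
    have h6 : C1 / r ^ 9 = 10 * C0 / r ^ 9 +
        5 * C0 * ((Nat.factorial 9 * (C0 ^ 2 * 32 ^ 3) ^ 9) / r ^ 9) := by
      rw [hC1]; ring
    rw [h2] at h1
    rw [h6]
    linarith
  have hPB : P.real (badB R δ x) ≤ PT + e := by
    have h1 : badB R δ x ⊆ (badB R δ x ∩ R.T) ∪ R.Tᶜ := by
      intro ω hω
      by_cases hT : ω ∈ R.T
      · exact Or.inl ⟨hω, hT⟩
      · exact Or.inr hT
    refine (measureReal_mono h1 (measure_ne_top _ _)).trans ((measureReal_union_le _ _).trans ?_)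
    have := h.T_prob
    linarith
  -- the lane
  have t1 := (stepA_int h hle hc hδ hδ1 hv hx hx').2
  -- the fence
  set W : ℝ := C0 ^ 2 * (4 * n) ^ 3 with hW
  have hWp : 0 < W := by positivity
  have hW' : W = 64 * C0 ^ 2 * r ^ 6 := by
    rw [hW, ← hrn]; ring
  have t2 := stepA_fence h hle hC0 (by omega) hδ hδ1 hv hx hx' (Y := r * W) (by positivity)
  rw [← hW, ← hPT] at t2
  have e1 : -(r * W) / W = -r := by field_simp
  rw [e1] at t2
  have t3 : r * W * PT ≤ 64 * C0 ^ 2 * C1 / r + 128 * C0 ^ 2 * r ^ 7 * e := by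
    have h1 : r * W * PT ≤ r * W * (C1 / r ^ 9 + 2 * e) :=
      mul_le_mul_of_nonneg_left hP (by positivity)
    have h2 : r * W * (C1 / r ^ 9 + 2 * e) =
        64 * C0 ^ 2 * C1 / r ^ 2 + 128 * C0 ^ 2 * r ^ 7 * e := by
      rw [hW']; field_simp; ring
    have h3 : 64 * C0 ^ 2 * C1 / r ^ 2 ≤ 64 * C0 ^ 2 * C1 / r := by
      refine div_le_div_of_nonneg_left (by positivity) hr ?_
      nlinarith
    linarith
  have t4 : C0 * W * Real.exp (-r) ≤ 64 * Nat.factorial 9 * C0 ^ 3 / r := by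
    have h1 : C0 * W * Real.exp (-r) ≤ C0 * W * ((Nat.factorial 9 : ℝ) / r ^ 9) :=
      mul_le_mul_of_nonneg_left (exp_neg_le_pow hr) (by positivity)
    have h2 : C0 * W * ((Nat.factorial 9 : ℝ) / r ^ 9) =
        64 * Nat.factorial 9 * C0 ^ 3 / r ^ 3 := by
      rw [hW']; field_simp
    have h3 : 64 * (Nat.factorial 9 : ℝ) * C0 ^ 3 / r ^ 3 ≤
        64 * Nat.factorial 9 * C0 ^ 3 / r := by
      refine div_le_div_of_nonneg_left (by positivity) hr ?_
      have : r ^ 1 ≤ r ^ 3 := pow_le_pow_right₀ hr1 (by norm_num)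
      linarith
    linarith
  -- the potential
  have t5 : P.real (badB R δ x) * ((1 / (4 * n) + δ) * (lam + L)) ≤
      4 * C0 * C1 / r + C1 * L / r + 3 * e * (lam + L) := by
    have h1 : (1 / (4 * n) + δ) ≤ 1 / (2 * r ^ 2) := by
      have : 1 / (2 * r ^ 2) = 1 / (4 * (n : ℝ)) + 1 / (4 * n) := by
        rw [hrn]; field_simp; ring
      linarith
    have h2 : P.real (badB R δ x) * ((1 / (4 * n) + δ) * (lam + L)) ≤
        (C1 / r ^ 9 + 3 * e) * (1 / (2 * r ^ 2) * (lam + L)) := by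
      refine mul_le_mul (by linarith) ?_ (by positivity) (by positivity)
      exact mul_le_mul_of_nonneg_right h1 (by positivity)
    have h3 : (C1 / r ^ 9 + 3 * e) * (1 / (2 * r ^ 2) * (lam + L)) =
        4 * C0 * C1 / r + C1 * L / (2 * r ^ 11) + 3 * e * (lam + L) / (2 * r ^ 2) := by
      rw [hlam, ← hrn]; field_simp; ring
    have h4 : C1 * L / (2 * r ^ 11) ≤ C1 * L / r := by
      refine div_le_div_of_nonneg_left (by positivity) hr ?_
      have : r ^ 1 ≤ r ^ 11 := pow_le_pow_right₀ hr1 (by norm_num)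
      linarith
    have h5 : 3 * e * (lam + L) / (2 * r ^ 2) ≤ 3 * e * (lam + L) := by
      refine div_le_self (by positivity) ?_
      have : r ^ 1 ≤ r ^ 2 := pow_le_pow_right₀ hr1 (by norm_num)
      linarith
    linarith
  have t6 : 64 * C0 ^ 2 * C1 / r + 64 * Nat.factorial 9 * C0 ^ 3 / r + 4 * C0 * C1 / r +
      C1 * L / r ≤ 1 / 32 := by
    have : 64 * C0 ^ 2 * C1 / r + 64 * Nat.factorial 9 * C0 ^ 3 / r + 4 * C0 * C1 / r +
        C1 * L / r = K / r := by rw [hK]; ring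
    rw [this, div_le_iff₀ hr]
    linarith
  have t7 : 2 * e + 128 * C0 ^ 2 * r ^ 7 * e + 3 * e * (lam + L) ≤ 1 / 32 := by
    have : e * (2 + 128 * C0 ^ 2 * r ^ 7 + 3 * (lam + L)) =
      2 * e + 128 * C0 ^ 2 * r ^ 7 * e + 3 * e * (lam + L) := by ring
    linarith
  linarith

/-- **The cheap half of the endgame.** -/
theorem cheap_false (C0 θ : ℝ) (hC0 : 1 ≤ C0) :
    ∃ n0 : ℕ, ∀ n ≥ n0, ∃ δ0 > 0, ∀ δ : ℝ, 0 < δ → δ ≤ δ0 → ∃ v0 : ℝ, ∀ v ≥ v0, ∃ e0 > 0,
      ∀ e : ℝ, 0 < e → e ≤ e0 → ∀ Mo : Model.{u} C0 θ n δ v e,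
        @RowA.Cheap Mo.Ω (Mo.R 0) Mo.mΩ Mo.P C0 δ → False := by
  have hC0p : 0 < C0 := by linarith
  set C1 : ℝ := 10 * C0 + 5 * C0 * (Nat.factorial 9 * (C0 ^ 2 * 32 ^ 3) ^ 9) with hC1
  set L : ℝ := 3 * 32 ^ 4 with hL
  set K : ℝ := 64 * C0 ^ 2 * C1 + 64 * Nat.factorial 9 * C0 ^ 3 + 4 * C0 * C1 + C1 * L with hK
  have hC1p : 0 < C1 := by rw [hC1]; positivity
  have hLp : 0 < L := by rw [hL]; norm_num
  have hKp : 0 < K := by rw [hK]; positivity
  obtain ⟨n0, hn0⟩ := exists_nat_ge ((32 * K) ^ 2)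
  refine ⟨max n0 16, fun n hn => ?_⟩
  have hn16 : 16 ≤ n := (le_max_right _ _).trans hn
  have hnR : (16 : ℝ) ≤ n := by exact_mod_cast hn16
  have hnp : (0 : ℝ) < n := by linarith
  have hn1 : (32 * K) ^ 2 ≤ n := hn0.trans (by exact_mod_cast (le_max_left _ _).trans hn)
  set r : ℝ := Real.sqrt n with hr
  have hrp : 0 < r := Real.sqrt_pos.2 hnp
  have hrn : r ^ 2 = n := Real.sq_sqrt hnp.le
  have hrK : 32 * K ≤ r := Real.le_sqrt_of_sq_le hn1
  set lam : ℝ := 8 * C0 * n ^ 5 with hlam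
  have hlp : 0 < lam := by rw [hlam]; positivity
  refine ⟨min (min (1 / 192) (1 / (4 * n))) (1 / (192 * (lam + L))),
    lt_min (lt_min (by norm_num) (by positivity)) (by positivity), fun δ hδ hδ0 => ?_⟩
  have hδ1 : δ ≤ 1 / 192 := hδ0.trans ((min_le_left _ _).trans (min_le_left _ _))
  have hδ2 : δ ≤ 1 / (4 * n) := hδ0.trans ((min_le_left _ _).trans (min_le_right _ _))
  have hδ3 : δ ≤ 1 / (192 * (lam + L)) := hδ0.trans (min_le_right _ _)
  rw [le_div_iff₀ (by positivity)] at hδ3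
  refine ⟨1, fun v hv => ?_⟩
  refine ⟨min (1 / (1000 * n)) (1 / (32 * (2 + 128 * C0 ^ 2 * r ^ 7 + 3 * (lam + L)))),
    lt_min (by positivity) (by positivity), fun e he hee Mo hch => ?_⟩
  have he1 : e ≤ 1 / (1000 * n) := hee.trans (min_le_left _ _)
  have he2 : e ≤ 1 / (32 * (2 + 128 * C0 ^ 2 * r ^ 7 + 3 * (lam + L))) :=
    hee.trans (min_le_right _ _)
  rw [le_div_iff₀ (by positivity)] at he2
  let _ := Mo.mΩ
  have _ := Mo.prob
  have hbd := strategy_bound (Mo.m_le 0) Mo.strat hC0 hn16 hδ (by linarith) hδ2 he he1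
    (lam := lam) hlam (fun x hx hx' => ⟨badB (Mo.R 0) δ x,
      badB_meas (Mo.law 0) hδ (by linarith) hv hx hx',
      (stepA_int (Mo.law 0) (Mo.m_le 0) hch hδ (by linarith) hv hx hx').1,
      row_bound (Mo.m_le 0) (Mo.law 0) hch hC0 hn16 hδ (by linarith) hδ2 hv he hlam hL hrp hrn
        hC1 hK hrK (by linarith) (by linarith) hx hx'⟩)
  obtain ⟨N, hN⟩ := exists_nat_gt (2 * (Mo.strat.C' + Psi lam 0 + |Mo.strat.C'|))
  have h1 := (hbd N).1 0 (by norm_num) (by norm_num)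
  have h2 := Mo.strat.low N
  linarith

/-- **The endgame** (from `E685P.costly_false` and `cheap_false`). -/
theorem endgame : Endgame.{u} := by
  intro C0 θ hC0 hθ
  obtain ⟨n1, H1⟩ := costly_false.{u} C0 θ hC0 hθ
  obtain ⟨n2, H2⟩ := cheap_false.{u} C0 θ hC0
  refine ⟨max n1 n2, fun n hn => ?_⟩
  obtain ⟨δ1, hδ1, H1⟩ := H1 n ((le_max_left _ _).trans hn)
  obtain ⟨δ2, hδ2, H2⟩ := H2 n ((le_max_right _ _).trans hn)
  refine ⟨min δ1 δ2, lt_min hδ1 hδ2, fun δ hδ hδ0 => ?_⟩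
  obtain ⟨v1, H1⟩ := H1 δ hδ (hδ0.trans (min_le_left _ _))
  obtain ⟨v2, H2⟩ := H2 δ hδ (hδ0.trans (min_le_right _ _))
  refine ⟨max v1 v2, fun v hv => ?_⟩
  obtain ⟨e1, he1, H1⟩ := H1 v ((le_max_left _ _).trans hv)
  obtain ⟨e2, he2, H2⟩ := H2 v ((le_max_right _ _).trans hv)
  refine ⟨min e1 e2, lt_min he1 he2, fun e he he0 => ⟨fun Mo => ?_⟩⟩
  rcases Mo.dich with h | h
  · exact H2 e he (he0.trans (min_le_right _ _)) Mo h
  · exact H1 e he (he0.trans (min_le_left _ _)) Mo h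

end Crest.Agent.R151.E685

namespace Crest.Agent.R151.E191

universe u

/-- **The endgame** (official name, see `E685.endgame`). -/
theorem endgame : Endgame.{u} := E685.endgame.{u}

end Crest.Agent.R151.E191
end

-- ▼ part R151/NF5

/-!
# R151 / S0214 part 2, NF5 — side conditions for every configuration, NOFLAT from the five remaining
inputs `select, law, dich, strat, paths` (helper710)
-/

set_option autoImplicit false

open MeasureTheory Filter ProbabilityTheory Topology Set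
open Crest.ProbabilityR.FirstPassage
open Crest.Agent.R151.K Crest.Agent.R151.Q

namespace Crest.Agent.R151.NF

open B710 (FlatData)

variable {μ : ℝ × ℝ → ℝ}

/-- routes exist in every row of height `y > wH + 2 mg` -/
lemma routable_of {F : FlatData μ} {h : Hwy F} {y : ℝ} (hy : h.wH + 2 * M56.mg F < y) :
    M192.Routable h (y • F.b) (M56.mg F + 1) := by
  intro I σ₁ σ₂ θ t φ i j hI hi hj
  have hal : F.al (y • F.b) = 0 := by rw [map_smul, F.al_b, smul_zero]
  have h1 := M56.row_nonempty (h := h) (d := y • F.b) (s := σ₁ - (M56.mg F + 1))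
    (s' := σ₂ + (M56.mg F + 1) + h.κ) (σ₁ := σ₁) (σ₂ := σ₂) (I := I)
    (by rw [M192.be_smul_b]; exact hy) (by linarith) (by rw [hal]; linarith)
    (subset_trans (Icc_subset_Icc (by linarith) (by linarith)) hI) θ t φ
  exact h1.mono (R78.routes_mono subset_rfl hi hj)

/-- **the side conditions hold for every configuration** -/
theorem ev_soft5 {G : Measure ℝ} {F : FlatData μ} {w0 c0 K : ℝ} :
    Ev fun p => ∀ c : Cf G F w0 c0 K p, c.Soft (M56.mg F + 1) := by
  have a1 := ev_std (G := G) (F := F) (w0 := w0) (c0 := c0) (K := K)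
  have a2 := le_w (2 * M56.mg F + 2 * cF F + 2)
  have a3 := strip_le_gap fun _ _ _ _ _ _ => 2 + |K|
  have a4 := le_L fun _ _ v _ => v + 1
  have a5 := le_δ fun _ => 32
  have a6 := gap_le fun _ _ _ _ _ => 32
  refine (((((a1.and a2).and a3).and a4).and a5).and a6).mono ?_
  rintro p ⟨⟨⟨⟨⟨a1, a2⟩, a3⟩, a4⟩, a5⟩, a6⟩ c
  have hc := a1 c
  have hp := hc.toStd
  have hmg := M56.one_le_mg F
  have hcF := cF_nonneg F
  have hW : 0 < p.W := zero_lt_one.trans_le hp.W
  have hD : 0 < p.δ0 * p.W := mul_pos hp.δ0_pos hW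
  have hκ := c.κ_le
  have hκ0 := c.h.κ_nonneg
  have hK : K * (p.δ0 * p.W) ≤ |K| * (p.δ0 * p.W) :=
    mul_le_mul_of_nonneg_right (le_abs_self _) hD.le
  have hKn : 0 ≤ |K| * (p.δ0 * p.W) := by positivity
  have hwH := c.wH
  have hg := c.g_eq
  have hyA := c.yA_eq
  have hy := hc.y_pos
  have hgp := hc.g_pos
  have hwy : c.h.wH + 2 * M56.mg F < c.yA := by
    rw [hyA, hwH, hg]
    linarith
  refine ⟨⟨hW, hc.l_pos, by linarith, by linarith, routable_of hwy, ?_, ?_, hp.v, hp.δ_pos.le,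
    by linarith, ?_⟩, ?_⟩
  · show M56.mg F + 1 + c.h.κ ≤ (K + 1) * (p.δ0 * p.W)
    linarith
  · rw [c.L_eq]; exact a4
  · linarith
  · rw [hwH, hg]
    linarith

/-- OUTPUTS of the five remaining blocks, for a typical set `typ` -/
structure Inputs5 (G : Measure ℝ) (F : FlatData μ) (w0 c0 K : ℝ)
    (typ : ∀ {p : Num}, Cf G F w0 c0 K p → Set (M192.Row (ℝ × ℝ))) : Prop where
  /-- helper792 -/
  select : Select G F w0 c0 K
  /-- helper338, 52, 191, 684, 192 -/
  law : ∃ C0 : ℝ, 0 < C0 ∧ Ev fun p => ∀ c : Cf G F w0 c0 K p,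
    (c.rowA (typ c)).Law (nuR G) c.mB C0 p.n p.δ p.v p.e
  /-- helper354 -/
  dich : ∃ C0 : ℝ, 0 < C0 ∧ Ev fun p => ∀ c : Cf G F w0 c0 K p,
    (c.rowA (typ c)).Cheap (nuR G) C0 p.δ ∨ (c.rowA (typ c)).Costly (nuR G) C0 p.δ p.v p.e
  /-- helper69, 684, 685, 617 -/
  strat : ∃ C0 : ℝ, Ev fun p => ∀ c : Cf G F w0 c0 K p,
    Nonempty (E191.Strategy (c.rowA (typ c)) (nuR G) c.mB C0 p.n p.δ p.e)
  /-- helper192, 821 -/
  paths : ∃ C0 : ℝ, Ev fun p => ∀ c : Cf G F w0 c0 K p,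
    Nonempty (E191.Paths (c.rows (typ c)) c.PSt C0 0.97 p.δ p.v p.e)

theorem Inputs5.inputs {G : Measure ℝ} [IsProbabilityMeasure G] {F : FlatData μ} {w0 c0 K : ℝ}
    {typ : ∀ {p : Num}, Cf G F w0 c0 K p → Set (M192.Row (ℝ × ℝ))}
    (H : Inputs5 G F w0 c0 K typ) : Inputs G F w0 c0 K typ where
  select := H.select
  law := H.law
  dich := H.dich
  strat := H.strat
  paths := H.paths
  model := fun _ => ev_soft5.mono fun _ hs c hL hd hS hP => Cf.model_of (hs c) hL hd hS hP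

/-- **NOFLAT from the five remaining inputs** -/
theorem noFlat_of
    (hin : ∀ {μ : ℝ × ℝ → ℝ}, IsTC (gammaMeasure 1 1) μ → ∀ (F : FlatData μ) (w0 c0 K : ℝ),
      0 < c0 → 0 < K → ∃ typ : ∀ {p : Num}, Cf (gammaMeasure 1 1) F w0 c0 K p →
        Set (M192.Row (ℝ × ℝ)), Inputs5 (gammaMeasure 1 1) F w0 c0 K typ)
    (μ : ℝ × ℝ → ℝ) (hμ : B710.IsTimeConstant 1 1 μ) (hn : B710.NormLike μ)
    (F : FlatData μ) : False := by
  have : IsProbabilityMeasure (gammaMeasure 1 1) :=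
    isProbabilityMeasure_gammaMeasure one_pos one_pos
  refine noFlat_of_inputs E191.endgame (fun hμ F => highways_gamma one_pos one_pos hμ F) ?_ μ hμ
    hn F
  intro μ hμ F w0 c0 K hc0 hK
  obtain ⟨typ, H⟩ := hin hμ F w0 c0 K hc0 hK
  exact ⟨typ, H.inputs⟩

end Crest.Agent.R151.NF
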