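import Crest.Agent.R151.M56a
import Crest.Agent.R151.G338j
import Crest.Agent.R151.M56d
import Crest.Agent.R151.G338l
import Crest.Agent.R151.M56f

-- ▼ part R151/U750m1
section

/-!
# R151 (S0214 part 2): mean values of the gap fence errors, fixed displacement (helper750)

* `gE_eq` : `gE = hkY - gY + Y + Y` (excess form);
* `Y_mean_lo`, `Y_mean_up` : mean of the highway increments on the row space;
* `gE_fixed` : integrability and mean of `gE` for a fixed displacement;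
* `jitter_lo`, `jitter_up` : measure preserving maps (outer row, inner row) -> (jitter, gap row);
* `integrable_jitter`, `integral_jitter_le` : from fixed jitter to random jitter.
-/

set_option autoImplicit false
set_option linter.unusedSectionVars false

open MeasureTheory Filter ProbabilityTheory Topology Set
open Crest.ProbabilityR.FirstPassage

namespace Crest.Agent.R151.MN750

open Crest.Agent.R151.K Crest.Agent.R151.Q
open R78 (V Wk IsHwy hc hp hull routes hullY ptY gapK)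
open M56 (nu gY_integrable gY_nonneg)
open M192 (hp_tr)
open B710 (FlatData)

variable {μ : ℝ × ℝ → ℝ} {F : FlatData μ} (h : Hwy F)

/-! ### Algebra -/

lemma hk_eq_hkY (d : ℝ × ℝ) (I : Set ℝ) (s s' : ℝ) (θ : ℝ × ℝ) (t : Environment) (φ : ℝ × ℝ) :
    h.hk d I s s' θ t φ = h.hkY d I s s' θ t φ + hp t (phi F) (h.Lo θ t φ) (h.iL s θ t φ) -
      hp t (phi F) (h.Up d θ t φ) (h.iU d s' θ t φ) := by
  unfold Hwy.hkY hullY Hwy.hk
  ring

lemma gK_eq_gY (d : ℝ × ℝ) (s s' : ℝ) (θ : ℝ × ℝ) (t : Environment) (φ : ℝ × ℝ) :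
    h.gK d s s' θ t φ = h.gY d s s' θ t φ + hp t (phi F) (h.Lo θ t φ) (h.iL s θ t φ) -
      hp t (phi F) (h.Up d θ t φ) (h.iU d s' θ t φ) := by
  unfold Hwy.gY ptY Hwy.gK gapK hp
  ring

lemma gE_eq (d : ℝ × ℝ) (I : Set ℝ) (L s s' : ℝ) (θ : ℝ × ℝ) (t : Environment) (φ : ℝ × ℝ) :
    h.gE d I L s s' θ t φ = h.hkY d I s s' θ t φ - h.gY d (-L) L θ t φ +
      h.Y (-L) s φ.1 θ t + h.Y s' L φ.2 (θ - d) t := by
  unfold Hwy.gE
  rw [hk_eq_hkY, gK_eq_gY]
  unfold Hwy.Y Hwy.Lo Hwy.Up Hwy.iL Hwy.iU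
  ring

/-! ### Highway increments on the row space -/

lemma Y_inv (s s' u : ℝ) : Inv fun θ t => h.Y s s' u θ t := by
  intro m θ t
  have e : h.H u (θ + toR m) (act (tr m) t) = fun k => h.H u θ t k - m :=
    funext fun k => h.cov u θ t m k
  simp only [Hwy.Y]
  rw [M192.ix_cov h s u θ t m, M192.ix_cov h s' u θ t m, e, hp_tr, hp_tr]
  ring

variable {G : Measure ℝ} [IsProbabilityMeasure G] {ε : ℝ}

lemma Y_mean_lo (hM : HwyMean G h ε) (s s' : ℝ) :
    Integrable (fun q : ((ℝ × ℝ) × Environment) × (ℝ × ℝ) => h.Y s s' q.2.1 q.1.1 q.1.2) (nu G) ∧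
    ∫ q, h.Y s s' q.2.1 q.1.1 q.1.2 ∂(nu G) = (s' - s) * ε := by
  have m1 : MeasurePreserving (Prod.map (id : (ℝ × ℝ) × Environment → _)
      (fun f : ℝ × ℝ => f.1)) (nu G) ((P0 G).prod UU) :=
    (MeasurePreserving.id _).prod measurePreserving_fst
  have m2 : MeasurePreserving (Prod.swap : ((ℝ × ℝ) × Environment) × ℝ → _)
      ((P0 G).prod UU) (UU.prod (P0 G)) := Measure.measurePreserving_swap
  have m3 := m2.comp m1
  refine ⟨m3.integrable_comp_of_integrable (hM.int s s'), ?_⟩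
  rw [← hM.mean s s', ← mp_integral m3 (hM.int s s').aestronglyMeasurable]
  rfl

lemma Y_mean_up (hM : HwyMean G h ε) (s s' : ℝ) (d : ℝ × ℝ) :
    Integrable (fun q : ((ℝ × ℝ) × Environment) × (ℝ × ℝ) =>
      h.Y s s' q.2.2 (q.1.1 - d) q.1.2) (nu G) ∧
    ∫ q, h.Y s s' q.2.2 (q.1.1 - d) q.1.2 ∂(nu G) = (s' - s) * ε := by
  have m1 : MeasurePreserving (Prod.map (id : (ℝ × ℝ) × Environment → _)
      (fun f : ℝ × ℝ => f.2)) (nu G) ((P0 G).prod UU) :=
    (MeasurePreserving.id _).prod measurePreserving_snd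
  have m2 : MeasurePreserving (Prod.swap : ((ℝ × ℝ) × Environment) × ℝ → _)
      ((P0 G).prod UU) (UU.prod (P0 G)) := Measure.measurePreserving_swap
  have m3 := m2.comp m1
  have hinv : ∀ ψ : ℝ × ℝ, Inv fun θ t => h.Y s s' ψ.2 θ t := fun ψ => Y_inv h s s' ψ.2
  have i0 : Integrable (fun q : ((ℝ × ℝ) × Environment) × (ℝ × ℝ) =>
      h.Y s s' q.2.2 q.1.1 q.1.2) ((P0 G).prod (UU.prod UU)) :=
    m3.integrable_comp_of_integrable (hM.int s s')
  have i1 := integrable_shift_prod (G := G) (ν := UU.prod UU) hinv (-d) i0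
  refine ⟨?_, ?_⟩
  · simp only [← sub_eq_add_neg] at i1
    exact i1
  · have hp : MeasurePreserving (Prod.map (S (-d)) (id : ℝ × ℝ → ℝ × ℝ))
        ((P0 G).prod (UU.prod UU)) ((P0 G).prod (UU.prod UU)) :=
      (mp_S (-d)).prod (MeasurePreserving.id _)
    have e1 := mp_integral hp i0.aestronglyMeasurable
    rw [← hM.mean s s', ← mp_integral m3 (hM.int s s').aestronglyMeasurable]
    refine Eq.trans ?_ e1
    unfold nu
    refine integral_congr_ae (ae_of_all _ fun q => ?_)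
    have := (hinv q.2).shift (-d) q.1
    simp only [← sub_eq_add_neg] at this
    exact this

/-! ### Fixed displacement -/

/-- input for one fence of the row with displacement `d` (R3, R4 and existence of routes) -/
structure FenceIn (G : Measure ℝ) (h : Hwy F) (d : ℝ × ℝ) (I : Set ℝ) (s s' M : ℝ) : Prop where
  int : Integrable (fun q : ((ℝ × ℝ) × Environment) × (ℝ × ℝ) =>
    h.hkY d I s s' q.1.1 q.1.2 q.2) (nu G)
  le : ∫ q, h.hkY d I s s' q.1.1 q.1.2 q.2 ∂(nu G) ≤ M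
  ne : ∀ θ t φ, (routes t (h.Lo θ t φ) (h.Up d θ t φ) (rg F I θ) (h.iL s θ t φ)
    (h.iU d s' θ t φ)).Nonempty

lemma gE_inv (d : ℝ × ℝ) (I : Set ℝ) (L s s' : ℝ) (φ : ℝ × ℝ) :
    Inv fun θ t => h.gE d I L s s' θ t φ := by
  intro m θ t
  have h1 := h.hk_inv d I s s' φ m θ t
  have h2 := h.gK_inv d (-L) L φ m θ t
  simp only at h1 h2
  simp only [Hwy.gE]
  rw [h1, h2]

/-- mean of `gE` for a fixed displacement -/
theorem gE_fixed (h0 : G (Set.Iio 0) = 0) (h2 : Integrable (fun x : ℝ => x ^ 2) G)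
    (hμ : IsTC G μ) (hM : HwyMean G h ε) {d : ℝ × ℝ} {I : Set ℝ} {s s' M : ℝ}
    (hin : FenceIn G h d I s s' M) (L : ℝ) :
    Integrable (fun q : ((ℝ × ℝ) × Environment) × (ℝ × ℝ) =>
      h.gE d I L s s' q.1.1 q.1.2 q.2) (nu G) ∧
    ∫ q, h.gE d I L s s' q.1.1 q.1.2 q.2 ∂(nu G) ≤ M + (2 * L + s - s') * ε := by
  have i1 := hin.int
  have i2 := gY_integrable h h0 h2 d (-L) L
  have i3 := Y_mean_lo h hM (-L) s
  have i4 := Y_mean_up h hM s' L d
  have e : (fun q : ((ℝ × ℝ) × Environment) × (ℝ × ℝ) => h.gE d I L s s' q.1.1 q.1.2 q.2) =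
      fun q => h.hkY d I s s' q.1.1 q.1.2 q.2 - h.gY d (-L) L q.1.1 q.1.2 q.2 +
        h.Y (-L) s q.2.1 q.1.1 q.1.2 + h.Y s' L q.2.2 (q.1.1 - d) q.1.2 :=
    funext fun q => gE_eq h d I L s s' q.1.1 q.1.2 q.2
  rw [e]
  have j12 : Integrable (fun q : ((ℝ × ℝ) × Environment) × (ℝ × ℝ) =>
      h.hkY d I s s' q.1.1 q.1.2 q.2 - h.gY d (-L) L q.1.1 q.1.2 q.2) (nu G) := i1.sub i2
  have j123 : Integrable (fun q : ((ℝ × ℝ) × Environment) × (ℝ × ℝ) =>
      h.hkY d I s s' q.1.1 q.1.2 q.2 - h.gY d (-L) L q.1.1 q.1.2 q.2 +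
        h.Y (-L) s q.2.1 q.1.1 q.1.2) (nu G) := j12.add i3.1
  refine ⟨j123.add i4.1, ?_⟩
  have e1 : ∫ q, (h.hkY d I s s' q.1.1 q.1.2 q.2 - h.gY d (-L) L q.1.1 q.1.2 q.2 +
        h.Y (-L) s q.2.1 q.1.1 q.1.2 + h.Y s' L q.2.2 (q.1.1 - d) q.1.2) ∂(nu G) =
      ∫ q, h.hkY d I s s' q.1.1 q.1.2 q.2 ∂(nu G) - ∫ q, h.gY d (-L) L q.1.1 q.1.2 q.2 ∂(nu G) +
        (s - -L) * ε + (L - s') * ε := by
    rw [← i3.2, ← i4.2, ← integral_sub i1 i2, ← integral_add j12 i3.1,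
      ← integral_add j123 i4.1]
  rw [e1]
  have h5 := gY_nonneg h h0 h2 hμ d (-L) L
  have h6 := hin.le
  linarith

/-- `gE` is nonnegative -/
lemma gE_nonneg' {d : ℝ × ℝ} {I : Set ℝ} {s s' M L : ℝ} (hin : FenceIn G h d I s s' M)
    (hs : -L ≤ s) (hs' : s' ≤ L) {θ : ℝ × ℝ} {t : Environment} (ht : Nn t) (φ : ℝ × ℝ) :
    0 ≤ h.gE d I L s s' θ t φ :=
  Hwy.gE_nonneg ht hs hs' (hin.ne θ t φ)

/-! ### Measurability with a random displacement -/

section meas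

variable {Ω : Type*} [MeasurableSpace Ω] {d θ : Ω → ℝ × ℝ} {t : Ω → Environment} {φ : Ω → ℝ × ℝ}
  {lo hi : Ω → ℝ}

lemma meas_rg' (hlo : Measurable lo) (hhi : Measurable hi) (hθ : Measurable θ) (v : ℤ × ℤ) :
    MeasurableSet {ω | v ∈ rg F (Icc (lo ω) (hi ω)) (θ ω)} := by
  have h1 : Measurable fun ω => F.al (pos (θ ω) v) :=
    F.al.continuous.measurable.comp (Hwy.meas_pos hθ measurable_const)
  exact (measurableSet_le hlo h1).inter (measurableSet_le h1 hhi)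

variable (hd : Measurable d) (hθ : Measurable θ) (ht : Measurable t) (hφ : Measurable φ)
include hd hθ ht hφ

lemma meas_Up' (k : ℤ) : Measurable fun ω => h.Up (d ω) (θ ω) (t ω) (φ ω) k :=
  h.meas_H (measurable_snd.comp hφ) (hθ.sub hd) ht k

lemma meas_iU' (s : ℝ) : Measurable fun ω => h.iU (d ω) s (θ ω) (t ω) (φ ω) :=
  h.meas_ix s (measurable_snd.comp hφ) (hθ.sub hd) ht

theorem meas_hk' (hlo : Measurable lo) (hhi : Measurable hi) (s s' : ℝ) :
    Measurable fun ω => h.hk (d ω) (Icc (lo ω) (hi ω)) s s' (θ ω) (t ω) (φ ω) :=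
  measurable_hull ht (h.meas_Lo hθ ht hφ) (meas_Up' h hd hθ ht hφ) (meas_rg' hlo hhi hθ)
    (h.meas_iL hθ ht hφ s) (meas_iU' h hd hθ ht hφ s')


theorem meas_gK' (s s' : ℝ) :
    Measurable fun ω => h.gK (d ω) s s' (θ ω) (t ω) (φ ω) := by
  unfold Hwy.gK gapK
  have hx := measurable_at (h.meas_Lo hθ ht hφ) (h.meas_iL hθ ht hφ s)
  have hy := measurable_at (meas_Up' h hd hθ ht hφ) (meas_iU' h hd hθ ht hφ s')
  refine ((measurable_at (fun k => measurable_hc ht (h.meas_Lo hθ ht hφ) k)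
    (h.meas_iL hθ ht hφ s)).add (Hwy.meas_pt hθ ht hφ hx hy)).sub ?_
  exact measurable_at (fun k => measurable_hc ht (meas_Up' h hd hθ ht hφ) k)
    (meas_iU' h hd hθ ht hφ s')

theorem meas_gE' (hlo : Measurable lo) (hhi : Measurable hi) (L s s' : ℝ) :
    Measurable fun ω => h.gE (d ω) (Icc (lo ω) (hi ω)) L s s' (θ ω) (t ω) (φ ω) :=
  (meas_hk' h hd hθ ht hφ hlo hhi s s').sub (meas_gK' h hd hθ ht hφ (-L) L)

end meas

/-! ### The measure preserving maps -/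

section mp

variable {α β γ : Type*} [MeasurableSpace α] [MeasurableSpace β] [MeasurableSpace γ]
  {a : Measure α} {b : Measure β} {c : Measure γ} [IsProbabilityMeasure a] [IsProbabilityMeasure b]
  [IsProbabilityMeasure c]

/-- exchange of the first two factors -/
lemma mp_leftComm : MeasurePreserving (fun x : α × β × γ => (x.2.1, x.1, x.2.2))
    (a.prod (b.prod c)) (b.prod (a.prod c)) := by
  have h1 := (measurePreserving_prodAssoc a b c).symm
  have h2 : MeasurePreserving (Prod.map (Prod.swap : α × β → β × α) (id : γ → γ))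
      ((a.prod b).prod c) ((b.prod a).prod c) :=
    Measure.measurePreserving_swap.prod (MeasurePreserving.id c)
  have h3 := measurePreserving_prodAssoc b a c
  exact h3.comp (h2.comp h1)

end mp

/-- the space of (outer row, (jitter, inner phases)) -/
abbrev Big : Type := (((ℝ × ℝ) × Environment) × (ℝ × ℝ)) × ((ℝ × ℝ) × (ℝ × ℝ))

/-- its law -/
noncomputable def big (G : Measure ℝ) : Measure Big := (nu G).prod (UU2.prod (UU.prod UU))

instance : IsProbabilityMeasure (big G) := by unfold big; infer_instance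

/-- (jitter, lower gap row) -/
def mlo (q : Big) : (ℝ × ℝ) × (((ℝ × ℝ) × Environment) × (ℝ × ℝ)) :=
  (q.2.1, (q.1.1, (q.1.2.1, q.2.2.1)))

/-- (jitter, upper gap row) -/
def mup (q : Big) : (ℝ × ℝ) × (((ℝ × ℝ) × Environment) × (ℝ × ℝ)) :=
  (q.2.1, (q.1.1, (q.2.2.2, q.1.2.2)))


lemma mp_mlo : MeasurePreserving mlo (big G) (UU2.prod (nu G)) := by
  -- ((p,(a,b)),(η,(c,d))) -> ((p,a),(η,c))
  have h1 : MeasurePreserving
      (Prod.map (Prod.map (id : (ℝ × ℝ) × Environment → _) (fun f : ℝ × ℝ => f.1))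
        (Prod.map (id : ℝ × ℝ → _) (fun f : ℝ × ℝ => f.1))) (big G)
      (((P0 G).prod UU).prod (UU2.prod UU)) :=
    ((MeasurePreserving.id _).prod measurePreserving_fst).prod
      ((MeasurePreserving.id _).prod measurePreserving_fst)
  -- -> (p,(a,(η,c)))
  have h2 := measurePreserving_prodAssoc (P0 G) UU (UU2.prod UU)
  -- -> (p,(η,(a,c)))
  have h3 : MeasurePreserving (Prod.map (id : (ℝ × ℝ) × Environment → _)
      (fun x : ℝ × (ℝ × ℝ) × ℝ => (x.2.1, x.1, x.2.2)))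
      ((P0 G).prod (UU.prod (UU2.prod UU))) ((P0 G).prod (UU2.prod (UU.prod UU))) :=
    (MeasurePreserving.id _).prod mp_leftComm
  -- -> (η,(p,(a,c)))
  have h4 : MeasurePreserving (fun x : ((ℝ × ℝ) × Environment) × (ℝ × ℝ) × (ℝ × ℝ) =>
      (x.2.1, x.1, x.2.2)) ((P0 G).prod (UU2.prod (UU.prod UU)))
      (UU2.prod ((P0 G).prod (UU.prod UU))) := mp_leftComm
  exact h4.comp (h3.comp (h2.comp h1))

lemma mp_mup : MeasurePreserving mup (big G) (UU2.prod (nu G)) := by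
  -- ((p,(a,b)),(η,(c,d))) -> ((p,b),(η,d))
  have h1 : MeasurePreserving
      (Prod.map (Prod.map (id : (ℝ × ℝ) × Environment → _) (fun f : ℝ × ℝ => f.2))
        (Prod.map (id : ℝ × ℝ → _) (fun f : ℝ × ℝ => f.2))) (big G)
      (((P0 G).prod UU).prod (UU2.prod UU)) :=
    ((MeasurePreserving.id _).prod measurePreserving_snd).prod
      ((MeasurePreserving.id _).prod measurePreserving_snd)
  have h2 := measurePreserving_prodAssoc (P0 G) UU (UU2.prod UU)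
  have h3 : MeasurePreserving (Prod.map (id : (ℝ × ℝ) × Environment → _)
      (fun x : ℝ × (ℝ × ℝ) × ℝ => (x.2.1, x.1, x.2.2)))
      ((P0 G).prod (UU.prod (UU2.prod UU))) ((P0 G).prod (UU2.prod (UU.prod UU))) :=
    (MeasurePreserving.id _).prod mp_leftComm
  have h4 : MeasurePreserving (fun x : ((ℝ × ℝ) × Environment) × (ℝ × ℝ) × (ℝ × ℝ) =>
      (x.2.1, x.1, x.2.2)) ((P0 G).prod (UU2.prod (UU.prod UU)))
      (UU2.prod ((P0 G).prod (UU.prod UU))) := mp_leftComm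
  -- (η,(p,(b,d))) -> (η,(p,(d,b)))
  have h5 : MeasurePreserving (Prod.map (id : ℝ × ℝ → _)
      (Prod.map (id : (ℝ × ℝ) × Environment → _) (Prod.swap : ℝ × ℝ → ℝ × ℝ)))
      (UU2.prod ((P0 G).prod (UU.prod UU))) (UU2.prod ((P0 G).prod (UU.prod UU))) :=
    (MeasurePreserving.id _).prod ((MeasurePreserving.id _).prod Measure.measurePreserving_swap)
  exact h5.comp (h4.comp (h3.comp (h2.comp h1)))


/-! ### From fixed jitter to random jitter -/

/-- nonnegative functions: integrability and mean over the random jitter -/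
theorem integrable_jitter {Ω : Type*} [MeasurableSpace Ω] {ν : Measure Ω} [IsProbabilityMeasure ν]
    {K : (ℝ × ℝ) × Ω → ℝ} (hK : Measurable K)
    (hint : ∀ η ∈ Ico (0 : ℝ) 1 ×ˢ Ico (0 : ℝ) 1, Integrable (fun ω => K (η, ω)) ν)
    (hnn : ∀ η ∈ Ico (0 : ℝ) 1 ×ˢ Ico (0 : ℝ) 1, ∀ᵐ ω ∂ν, 0 ≤ K (η, ω)) {M : ℝ}
    (hM : ∀ η ∈ Ico (0 : ℝ) 1 ×ˢ Ico (0 : ℝ) 1, ∫ ω, K (η, ω) ∂ν ≤ M) :
    Integrable K (UU2.prod ν) ∧ ∫ x, K x ∂(UU2.prod ν) ≤ M := by
  have hnorm : ∀ η ∈ Ico (0 : ℝ) 1 ×ˢ Ico (0 : ℝ) 1, ∫ ω, ‖K (η, ω)‖ ∂ν ≤ M := by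
    intro η hη
    refine le_trans (le_of_eq ?_) (hM η hη)
    refine integral_congr_ae ?_
    filter_upwards [hnn η hη] with ω hω
    rw [Real.norm_eq_abs, abs_of_nonneg hω]
  have hi : Integrable K (UU2.prod ν) := by
    rw [integrable_prod_iff hK.aestronglyMeasurable]
    refine ⟨?_, ?_⟩
    · filter_upwards [ae_UU2] with η hη using hint η hη
    · refine Integrable.of_bound (C := M) ?_ ?_
      · exact (hK.aestronglyMeasurable.norm.integral_prod_right' (μ := UU2) (ν := ν))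
      · filter_upwards [ae_UU2] with η hη
        rw [Real.norm_eq_abs, abs_of_nonneg (integral_nonneg fun _ => norm_nonneg _)]
        exact hnorm η hη
  refine ⟨hi, ?_⟩
  rw [integral_prod _ hi]
  have h1 : ∫ η, (∫ ω, K (η, ω) ∂ν) ∂UU2 ≤ ∫ _η : ℝ × ℝ, M ∂UU2 := by
    refine integral_mono_ae hi.integral_prod_left (integrable_const M) ?_
    filter_upwards [ae_UU2] with η hη using hM η hη
  simpa using h1

end Crest.Agent.R151.MN750
end

-- ▼ part R151/U750m2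
section

/-!
# R151 (S0214 part 2): means (M2), (M3) of the closeness estimate (helper750)

* `gE_low_jitter` : lower gap, (M2);
* `gE_up_jitter` : upper gap, (M2);
* `gauge_window` : (M3).
-/

set_option autoImplicit false
set_option linter.unusedSectionVars false

open MeasureTheory Filter ProbabilityTheory Topology Set
open Crest.ProbabilityR.FirstPassage

namespace Crest.Agent.R151.MN750

open Crest.Agent.R151.K Crest.Agent.R151.Q
open R78 (V Wk IsHwy hc hp hull routes hullY ptY gapK)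
open M56 (nu gY_integrable gY_nonneg)
open B710 (FlatData)

variable {μ : ℝ × ℝ → ℝ} {F : FlatData μ} {h : Hwy F}
variable {G : Measure ℝ} [IsProbabilityMeasure G] {ε : ℝ}

lemma ae_nu_Nn (h0 : G (Set.Iio 0) = 0) : ∀ᵐ q ∂(nu G), Nn q.1.2 := by
  unfold nu
  filter_upwards [ae_P0_Nn (Ψ := ℝ × ℝ) (ν := UU.prod UU) h0] with q hq using hq.1

lemma ae_big_Nn (h0 : G (Set.Iio 0) = 0) : ∀ᵐ q ∂(big G), Nn q.1.1.2 :=
  (Measure.quasiMeasurePreserving_fst (μ := nu G) (ν := UU2.prod (UU.prod UU))).ae (ae_nu_Nn h0)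

section

variable (h0 : G (Set.Iio 0) = 0) (h2 : Integrable (fun x : ℝ => x ^ 2) G)
  (hμ : IsTC G μ) (hM : HwyMean G h ε)
include h0 h2 hμ hM

/-- **(M2), lower gap** -/
theorem gE_low_jitter {off : ℝ × ℝ → ℝ × ℝ} (hoff : Measurable off) {α β s s' M L : ℝ}
    (hin : ∀ η ∈ Ico (0 : ℝ) 1 ×ˢ Ico (0 : ℝ) 1, FenceIn G h (off η) (Icc α β) s s' M)
    (hs : -L ≤ s) (hs' : s' ≤ L) :
    Integrable (fun q : Big => h.gE (off q.2.1) (Icc α β) L s s' q.1.1.1 q.1.1.2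
      (Hwy.φlo q.1.2 q.2.2)) (big G) ∧
    ∫ q, h.gE (off q.2.1) (Icc α β) L s s' q.1.1.1 q.1.1.2 (Hwy.φlo q.1.2 q.2.2) ∂(big G) ≤
      M + (2 * L + s - s') * ε := by
  set K : (ℝ × ℝ) × (((ℝ × ℝ) × Environment) × (ℝ × ℝ)) → ℝ := fun x =>
    h.gE (off x.1) (Icc α β) L s s' x.2.1.1 x.2.1.2 x.2.2 with hK
  have a1 : Measurable fun x : (ℝ × ℝ) × (((ℝ × ℝ) × Environment) × (ℝ × ℝ)) => off x.1 :=
    hoff.comp measurable_fst
  have a2 : Measurable fun x : (ℝ × ℝ) × (((ℝ × ℝ) × Environment) × (ℝ × ℝ)) => x.2.1.1 :=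
    measurable_fst.comp (measurable_fst.comp measurable_snd)
  have a3 : Measurable fun x : (ℝ × ℝ) × (((ℝ × ℝ) × Environment) × (ℝ × ℝ)) => x.2.1.2 :=
    measurable_snd.comp (measurable_fst.comp measurable_snd)
  have a4 : Measurable fun x : (ℝ × ℝ) × (((ℝ × ℝ) × Environment) × (ℝ × ℝ)) => x.2.2 :=
    measurable_snd.comp measurable_snd
  have hKm : Measurable K := by
    have := meas_gE' h a1 a2 a3 a4 (lo := fun _ => α) (hi := fun _ => β) measurable_const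
      measurable_const L s s'
    exact this
  obtain ⟨i1, i2⟩ := integrable_jitter (ν := nu G) hKm
    (fun η hη => (gE_fixed h h0 h2 hμ hM (hin η hη) L).1)
    (fun η hη => by
      filter_upwards [ae_nu_Nn h0] with q hq using gE_nonneg' h (hin η hη) hs hs' hq _)
    (M := M + (2 * L + s - s') * ε)
    (fun η hη => (gE_fixed h h0 h2 hμ hM (hin η hη) L).2)
  refine ⟨mp_mlo.integrable_comp_of_integrable i1, ?_⟩
  rw [← mp_integral (mp_mlo (G := G)) i1.aestronglyMeasurable] at i2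
  exact i2

/-- shifted base point: mean of `gE` for a fixed displacement -/
theorem gE_fixed_shift {d : ℝ × ℝ} {I : Set ℝ} {s s' M : ℝ} (hin : FenceIn G h d I s s' M)
    (L : ℝ) (v w : ℝ × ℝ) :
    Integrable (fun q : ((ℝ × ℝ) × Environment) × (ℝ × ℝ) =>
      h.gE d I L s s' (q.1.1 - v - w) q.1.2 q.2) (nu G) ∧
    ∫ q, h.gE d I L s s' (q.1.1 - v - w) q.1.2 q.2 ∂(nu G) ≤ M + (2 * L + s - s') * ε := by
  obtain ⟨i1, i2⟩ := gE_fixed h h0 h2 hμ hM hin L
  have hinv : ∀ ψ : ℝ × ℝ, Inv fun θ t => h.gE d I L s s' θ t ψ :=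
    fun ψ => gE_inv h d I L s s' ψ
  have e : ∀ x : ℝ × ℝ, x - v - w = x + -(v + w) := fun x => by abel
  simp only [e]
  refine ⟨integrable_shift_prod (G := G) (ν := UU.prod UU) hinv (-(v + w)) i1, ?_⟩
  have hp : MeasurePreserving (Prod.map (S (-(v + w))) (id : ℝ × ℝ → ℝ × ℝ))
      ((P0 G).prod (UU.prod UU)) ((P0 G).prod (UU.prod UU)) :=
    (mp_S _).prod (MeasurePreserving.id _)
  have e1 := mp_integral hp (g := fun q => h.gE d I L s s' q.1.1 q.1.2 q.2)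
    i1.aestronglyMeasurable
  refine le_trans (le_of_eq ?_) i2
  refine Eq.trans ?_ e1
  unfold nu
  refine integral_congr_ae (ae_of_all _ fun q => ?_)
  exact (hinv q.2).shift (-(v + w)) q.1

/-- **(M2), upper gap** -/
theorem gE_up_jitter {off d : ℝ × ℝ → ℝ × ℝ} (hoff : Measurable off) (hd : Measurable d)
    {lo hi : ℝ × ℝ → ℝ} (hlo : Measurable lo) (hhi : Measurable hi) (dI : ℝ × ℝ)
    {s s' M L : ℝ}
    (hin : ∀ η ∈ Ico (0 : ℝ) 1 ×ˢ Ico (0 : ℝ) 1,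
      FenceIn G h (d η) (Icc (lo η) (hi η)) s s' M)
    (hs : -L ≤ s) (hs' : s' ≤ L) :
    Integrable (fun q : Big => h.gE (d q.2.1) (Icc (lo q.2.1) (hi q.2.1)) L s s'
      (q.1.1.1 - off q.2.1 - dI) q.1.1.2 (Hwy.φup q.1.2 q.2.2)) (big G) ∧
    ∫ q, h.gE (d q.2.1) (Icc (lo q.2.1) (hi q.2.1)) L s s'
      (q.1.1.1 - off q.2.1 - dI) q.1.1.2 (Hwy.φup q.1.2 q.2.2) ∂(big G) ≤
      M + (2 * L + s - s') * ε := by
  set K : (ℝ × ℝ) × (((ℝ × ℝ) × Environment) × (ℝ × ℝ)) → ℝ := fun x =>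
    h.gE (d x.1) (Icc (lo x.1) (hi x.1)) L s s' (x.2.1.1 - off x.1 - dI) x.2.1.2 x.2.2 with hK
  have a1 : Measurable fun x : (ℝ × ℝ) × (((ℝ × ℝ) × Environment) × (ℝ × ℝ)) => d x.1 :=
    hd.comp measurable_fst
  have a0 : Measurable fun x : (ℝ × ℝ) × (((ℝ × ℝ) × Environment) × (ℝ × ℝ)) => x.2.1.1 :=
    measurable_fst.comp (measurable_fst.comp measurable_snd)
  have a2 : Measurable fun x : (ℝ × ℝ) × (((ℝ × ℝ) × Environment) × (ℝ × ℝ)) =>
      x.2.1.1 - off x.1 - dI :=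
    (a0.sub (hoff.comp measurable_fst)).sub_const dI
  have a3 : Measurable fun x : (ℝ × ℝ) × (((ℝ × ℝ) × Environment) × (ℝ × ℝ)) => x.2.1.2 :=
    measurable_snd.comp (measurable_fst.comp measurable_snd)
  have a4 : Measurable fun x : (ℝ × ℝ) × (((ℝ × ℝ) × Environment) × (ℝ × ℝ)) => x.2.2 :=
    measurable_snd.comp measurable_snd
  have a5 : Measurable fun x : (ℝ × ℝ) × (((ℝ × ℝ) × Environment) × (ℝ × ℝ)) => lo x.1 :=
    hlo.comp measurable_fst
  have a6 : Measurable fun x : (ℝ × ℝ) × (((ℝ × ℝ) × Environment) × (ℝ × ℝ)) => hi x.1 :=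
    hhi.comp measurable_fst
  have hKm : Measurable K := by
    have := meas_gE' h a1 a2 a3 a4 a5 a6 L s s'
    exact this
  obtain ⟨i1, i2⟩ := integrable_jitter (ν := nu G) hKm
    (fun η hη => (gE_fixed_shift h0 h2 hμ hM (hin η hη) L (off η) dI).1)
    (fun η hη => by
      filter_upwards [ae_nu_Nn h0] with q hq using gE_nonneg' h (hin η hη) hs hs' hq _)
    (M := M + (2 * L + s - s') * ε)
    (fun η hη => (gE_fixed_shift h0 h2 hμ hM (hin η hη) L (off η) dI).2)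
  refine ⟨mp_mup.integrable_comp_of_integrable i1, ?_⟩
  rw [← mp_integral (mp_mup (G := G)) i1.aestronglyMeasurable] at i2
  exact i2

end

/-- **(M3)**: window gauge minus full gauge -/
theorem gauge_window (h0 : G (Set.Iio 0) = 0) {d : ℝ × ℝ} {J : Set ℝ} {L M : ℝ}
    (hin : FenceIn G h d J (-L) L M)
    (hu : Integrable (fun q : ((ℝ × ℝ) × Environment) × (ℝ × ℝ) =>
      h.hkY d Set.univ (-L) L q.1.1 q.1.2 q.2) (nu G))
    (hu0 : 0 ≤ ∫ q, h.hkY d Set.univ (-L) L q.1.1 q.1.2 q.2 ∂(nu G)) :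
    (∀ θ t φ, Nn t → 0 ≤ h.hk d J (-L) L θ t φ - h.hk d Set.univ (-L) L θ t φ) ∧
    (∀ᵐ q ∂(nu G), 0 ≤ h.hk d J (-L) L q.1.1 q.1.2 q.2 -
      h.hk d Set.univ (-L) L q.1.1 q.1.2 q.2) ∧
    Integrable (fun q : ((ℝ × ℝ) × Environment) × (ℝ × ℝ) =>
      h.hk d J (-L) L q.1.1 q.1.2 q.2 - h.hk d Set.univ (-L) L q.1.1 q.1.2 q.2) (nu G) ∧
    ∫ q, (h.hk d J (-L) L q.1.1 q.1.2 q.2 - h.hk d Set.univ (-L) L q.1.1 q.1.2 q.2) ∂(nu G) ≤
      M := by
  have hnn : ∀ θ t φ, Nn t → 0 ≤ h.hk d J (-L) L θ t φ - h.hk d Set.univ (-L) L θ t φ := by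
    intro θ t φ ht
    have := Hwy.hk_mono (h := h) ht d (Set.subset_univ J) (le_refl (-L)) (le_refl L)
      (hin.ne θ t φ)
    linarith
  have e : (fun q : ((ℝ × ℝ) × Environment) × (ℝ × ℝ) =>
      h.hk d J (-L) L q.1.1 q.1.2 q.2 - h.hk d Set.univ (-L) L q.1.1 q.1.2 q.2) =
      fun q => h.hkY d J (-L) L q.1.1 q.1.2 q.2 - h.hkY d Set.univ (-L) L q.1.1 q.1.2 q.2 := by
    funext q
    rw [hk_eq_hkY, hk_eq_hkY]
    ring
  refine ⟨hnn, ?_, ?_, ?_⟩
  · filter_upwards [ae_nu_Nn h0] with q hq using hnn _ _ _ hq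
  · rw [e]; exact hin.int.sub hu
  · rw [e, integral_sub hin.int hu]
    have := hin.le
    linarith

end Crest.Agent.R151.MN750
end

-- ▼ part R151/U750m3
section

/-!
# R151 (S0214 part 2): means of the observables `obLo`, `obUp`, `obJ` of 338's G338l (helper750)

Input R4 (56's fence_mean) is the hypothesis `FenceMean G h ε`.
-/

set_option autoImplicit false
set_option linter.unusedSectionVars false

open MeasureTheory Filter ProbabilityTheory Topology Set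
open Crest.ProbabilityR.FirstPassage

namespace Crest.Agent.R151.MN750

open Crest.Agent.R151.K Crest.Agent.R151.Q
open R78 (V Wk IsHwy hc hp hull routes hullY ptY gapK)
open M56 (nu gY_integrable gY_nonneg mg one_le_mg hkY_integrable hkY_nonneg row_nonempty)
open M192 (RowS PR)
open B710 (FlatData)

variable {μ : ℝ × ℝ → ℝ} {F : FlatData μ}

/-- input R4: mean of a fence (56's `fence_mean`) -/
def FenceMean (G : Measure ℝ) (h : Hwy F) (ε : ℝ) : Prop :=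
  ∀ (d : ℝ × ℝ) (s s2 α β y2 : ℝ), h.wH + 2 * mg F < F.be d → h.wH + 2 * mg F < y2 - F.be d →
    s ≤ α → β + h.κ < s2 + F.al d → 2 * mg F ≤ β - α →
    ∫ q, h.hkY d (Icc α β) s s2 q.1.1 q.1.2 q.2 ∂(nu G) ≤
      y2 * rate G F (β - α) + (s2 - s + (β - α) + h.κ + 1 + F.al d) * ε

variable {h : Hwy F} {G : Measure ℝ} [IsProbabilityMeasure G] {ε : ℝ}

/-- routes of a fence -/
lemma rt_fence {d : ℝ × ℝ} {s s2 α β : ℝ} (hd : h.wH + 2 * mg F < F.be d) (hs : s ≤ α)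
    (hs2 : β + h.κ < s2 + F.al d) (hαβ : 2 * mg F ≤ β - α) : Rt h d (Icc α β) s s2 := by
  intro θ t φ
  refine row_nonempty (σ₁ := (α + β) / 2) (σ₂ := (α + β) / 2) hd ?_ ?_ ?_ θ t φ
  · linarith
  · linarith
  · rw [min_self, max_self]
    exact Icc_subset_Icc (by linarith) (by linarith)

section

variable (h0 : G (Set.Iio 0) = 0) (h2 : Integrable (fun x : ℝ => x ^ 2) G)
  (hM : HwyMean G h ε)
include h0 h2 hM

lemma hkY_fence_integrable {d : ℝ × ℝ} {s s2 α β : ℝ} (hd : h.wH + 2 * mg F < F.be d)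
    (hs : s ≤ α) (hs2 : β + h.κ < s2 + F.al d) (hαβ : 2 * mg F ≤ β - α) :
    Integrable (fun q : ((ℝ × ℝ) × Environment) × (ℝ × ℝ) =>
      h.hkY d (Icc α β) s s2 q.1.1 q.1.2 q.2) (nu G) := by
  refine hkY_integrable (σ₁ := (α + β) / 2) (σ₂ := (α + β) / 2) hM h0 h2 hd measurableSet_Icc
    ?_ ?_ ?_
  · linarith
  · linarith
  · rw [min_self, max_self]
    exact Icc_subset_Icc (by linarith) (by linarith)

/-- one fence -/
theorem fenceIn (hF : FenceMean G h ε) {d : ℝ × ℝ} {s s2 α β y2 : ℝ}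
    (hd : h.wH + 2 * mg F < F.be d) (hy : h.wH + 2 * mg F < y2 - F.be d)
    (hs : s ≤ α) (hs2 : β + h.κ < s2 + F.al d) (hαβ : 2 * mg F ≤ β - α) {M : ℝ}
    (hMle : y2 * rate G F (β - α) + (s2 - s + (β - α) + h.κ + 1 + F.al d) * ε ≤ M) :
    FenceIn G h d (Icc α β) s s2 M where
  int := hkY_fence_integrable h0 h2 hM hd hs hs2 hαβ
  le := (hF d s s2 α β y2 hd hy hs hs2 hαβ).trans hMle
  ne := rt_fence hd hs hs2 hαβ

variable (hμ : IsTC G μ) (hF : FenceMean G h ε) {y g c α β L : ℝ}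
include hμ hF

/-- **(M2), lower gap** -/
theorem obLo_mean {s s₁ : ℝ} (hg : h.wH + 2 * mg F + cF F < g) (hs : s ≤ α)
    (hs₁ : β + h.κ + cF F < s₁ + c) (hαβ : 2 * mg F ≤ β - α) (hsL : -L ≤ s) (hs₁L : s₁ ≤ L) :
    (∀ᵐ q ∂((PR G).prod PF), 0 ≤ obLo h g c α β L s s₁ q.1.1.1 q.1.1.2 q.1.2 q.2) ∧
    Integrable (fun q : RowS × ((ℝ × ℝ) × (ℝ × ℝ)) =>
      obLo h g c α β L s s₁ q.1.1.1 q.1.1.2 q.1.2 q.2) ((PR G).prod PF) ∧
    ∫ q, obLo h g c α β L s s₁ q.1.1.1 q.1.1.2 q.1.2 q.2 ∂((PR G).prod PF) ≤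
      2 * g * rate G F (β - α) + (2 * L + (β - α) + h.κ + 1 + |c| + cF F) * ε := by
  have hin : ∀ η ∈ Ico (0 : ℝ) 1 ×ˢ Ico (0 : ℝ) 1, FenceIn G h (offv F g c η) (Icc α β) s s₁
      (2 * g * rate G F (β - α) + (s₁ - s + (β - α) + h.κ + 1 + |c| + cF F) * ε) := by
    intro η hη
    have hn := norm_jitter hη
    have h1 := abs_le.1 (abs_al_le' F hn)
    have h3 := abs_le.1 (abs_be_le' F hn)
    have hc := le_abs_self c
    refine fenceIn h0 h2 hM hF (y2 := 2 * g) ?_ ?_ hs ?_ hαβ ?_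
    · rw [be_offv]; linarith [h3.1]
    · rw [be_offv]; linarith [h3.2]
    · rw [al_offv]; linarith [h1.1]
    · rw [al_offv]
      have : (s₁ - s + (β - α) + h.κ + 1 + (c + F.al η)) * ε ≤
          (s₁ - s + (β - α) + h.κ + 1 + |c| + cF F) * ε :=
        mul_le_mul_of_nonneg_right (by linarith [h1.2]) hM.nonneg
      linarith
  have hoff : Measurable fun η : ℝ × ℝ => offv F g c η := by
    unfold offv
    exact measurable_const.add measurable_id
  obtain ⟨i1, i2⟩ := gE_low_jitter h0 h2 hμ hM hoff (L := L) hin hsL hs₁L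
  refine ⟨?_, i1, ?_⟩
  · have hae : ∀ᵐ q ∂(big G), q.2.1 ∈ Ico (0 : ℝ) 1 ×ˢ Ico (0 : ℝ) 1 := by
      have h5 : ∀ᵐ x ∂(UU2.prod (UU.prod UU)), x.1 ∈ Ico (0 : ℝ) 1 ×ˢ Ico (0 : ℝ) 1 :=
        Measure.quasiMeasurePreserving_fst.ae ae_UU2
      exact Measure.quasiMeasurePreserving_snd.ae h5
    have hae2 : ∀ᵐ q ∂(big G), 0 ≤ obLo h g c α β L s s₁ q.1.1.1 q.1.1.2 q.1.2 q.2 := by
      filter_upwards [hae, ae_big_Nn (G := G) h0] with q hq hq2
      exact gE_nonneg' h (hin _ hq) hsL hs₁L hq2 _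
    exact hae2
  · refine i2.trans (le_of_eq ?_)
    ring

/-- **(M2), upper gap** -/
theorem obUp_mean {s₂ s' : ℝ} (hg : h.wH + 2 * mg F + cF F < g) (hs : s₂ + c + cF F ≤ α)
    (hs' : β + h.κ < s') (hαβ : 2 * mg F ≤ β - α) (hsL : -L ≤ s₂) (hs'L : s' ≤ L) :
    (∀ᵐ q ∂((PR G).prod PF), 0 ≤ obUp h y g c α β L s₂ s' q.1.1.1 q.1.1.2 q.1.2 q.2) ∧
    Integrable (fun q : RowS × ((ℝ × ℝ) × (ℝ × ℝ)) =>
      obUp h y g c α β L s₂ s' q.1.1.1 q.1.1.2 q.1.2 q.2) ((PR G).prod PF) ∧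
    ∫ q, obUp h y g c α β L s₂ s' q.1.1.1 q.1.1.2 q.1.2 q.2 ∂((PR G).prod PF) ≤
      2 * g * rate G F (β - α) + (2 * L + (β - α) + h.κ + 1 + |c| + cF F) * ε := by
  have hyb : F.al (y • F.b) = 0 := by simp
  have hin : ∀ η ∈ Ico (0 : ℝ) 1 ×ˢ Ico (0 : ℝ) 1,
      FenceIn G h (Hwy.dU (offv F g c η) (y • F.b) (dOv F y g))
        (Icc (α - F.al (offv F g c η) - F.al (y • F.b))
          (β - F.al (offv F g c η) - F.al (y • F.b))) s₂ s'
      (2 * g * rate G F (β - α) + (s' - s₂ + (β - α) + h.κ + 1 + |c| + cF F) * ε) := by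
    intro η hη
    have hn := norm_jitter hη
    have h1 := abs_le.1 (abs_al_le' F hn)
    have h3 := abs_le.1 (abs_be_le' F hn)
    have hc := neg_abs_le c
    have e : β - F.al (offv F g c η) - F.al (y • F.b) -
        (α - F.al (offv F g c η) - F.al (y • F.b)) = β - α := by ring
    refine fenceIn h0 h2 hM hF (y2 := 2 * g) ?_ ?_ ?_ ?_ ?_ ?_
    · rw [be_dU]; linarith [h3.2]
    · rw [be_dU]; linarith [h3.1]
    · rw [al_offv, hyb]; linarith [h1.2]
    · rw [al_dU, al_offv, hyb]; linarith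
    · rw [e]; exact hαβ
    · rw [e, al_dU]
      have : (s' - s₂ + (β - α) + h.κ + 1 + (-c - F.al η)) * ε ≤
          (s' - s₂ + (β - α) + h.κ + 1 + |c| + cF F) * ε :=
        mul_le_mul_of_nonneg_right (by linarith [h1.1]) hM.nonneg
      linarith
  have hoff : Measurable fun η : ℝ × ℝ => offv F g c η := by
    unfold offv
    exact measurable_const.add measurable_id
  have hd : Measurable fun η : ℝ × ℝ => Hwy.dU (offv F g c η) (y • F.b) (dOv F y g) := by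
    unfold Hwy.dU
    exact (measurable_const.sub hoff).sub_const _
  have hal : Measurable fun η : ℝ × ℝ => F.al (offv F g c η) :=
    F.al.continuous.measurable.comp hoff
  obtain ⟨i1, i2⟩ := gE_up_jitter h0 h2 hμ hM hoff hd
    (lo := fun η => α - F.al (offv F g c η) - F.al (y • F.b))
    (hi := fun η => β - F.al (offv F g c η) - F.al (y • F.b))
    ((measurable_const.sub hal).sub_const _) ((measurable_const.sub hal).sub_const _)
    (y • F.b) (L := L) hin hsL hs'L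
  refine ⟨?_, i1, ?_⟩
  · have hae : ∀ᵐ q ∂(big G), q.2.1 ∈ Ico (0 : ℝ) 1 ×ˢ Ico (0 : ℝ) 1 := by
      have h5 : ∀ᵐ x ∂(UU2.prod (UU.prod UU)), x.1 ∈ Ico (0 : ℝ) 1 ×ˢ Ico (0 : ℝ) 1 :=
        Measure.quasiMeasurePreserving_fst.ae ae_UU2
      exact Measure.quasiMeasurePreserving_snd.ae h5
    have hae2 : ∀ᵐ q ∂(big G), 0 ≤ obUp h y g c α β L s₂ s' q.1.1.1 q.1.1.2 q.1.2 q.2 := by
      filter_upwards [hae, ae_big_Nn (G := G) h0] with q hq hq2
      exact gE_nonneg' h (hin _ hq) hsL hs'L hq2 _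
    exact hae2
  · refine i2.trans (le_of_eq ?_)
    ring

/-- **(M3)** -/
theorem obJ_mean {Λ : ℝ} (hg : h.wH + 2 * mg F < g) (hy : 0 ≤ y) (hg0 : 0 ≤ g)
    (hΛ : mg F ≤ Λ) (hL : Λ + h.κ < L) :
    (∀ᵐ q ∂((PR G).prod PF), 0 ≤ obJ h y g Λ L q.1.1.1 q.1.1.2 q.1.2 q.2) ∧
    Integrable (fun q : RowS × ((ℝ × ℝ) × (ℝ × ℝ)) =>
      obJ h y g Λ L q.1.1.1 q.1.1.2 q.1.2 q.2) ((PR G).prod PF) ∧
    ∫ q, obJ h y g Λ L q.1.1.1 q.1.1.2 q.1.2 q.2 ∂((PR G).prod PF) ≤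
      (y + 4 * g) * rate G F (2 * Λ) + (2 * L + 2 * Λ + h.κ + 1) * ε := by
  have hκ := h.κ_nonneg
  have hmg := one_le_mg F
  have hbe : F.be (dOv F y g) = y + 2 * g := be_dOv y g
  have hal : F.al (dOv F y g) = 0 := al_dOv y g
  have hd : h.wH + 2 * mg F < F.be (dOv F y g) := by rw [hbe]; linarith
  have e : Λ - -Λ = 2 * Λ := by ring
  have hin : FenceIn G h (dOv F y g) (Icc (-Λ) Λ) (-L) L
      ((y + 4 * g) * rate G F (2 * Λ) + (2 * L + 2 * Λ + h.κ + 1) * ε) := by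
    refine fenceIn h0 h2 hM hF (y2 := y + 4 * g) hd ?_ ?_ ?_ ?_ ?_
    · rw [hbe]; linarith
    · linarith
    · rw [hal]; linarith
    · linarith
    · rw [e, hal]
      refine le_of_eq ?_
      ring
  have hu : Integrable (fun q : ((ℝ × ℝ) × Environment) × (ℝ × ℝ) =>
      h.hkY (dOv F y g) Set.univ (-L) L q.1.1 q.1.2 q.2) (nu G) :=
    hkY_integrable (σ₁ := 0) (σ₂ := 0) hM h0 h2 hd MeasurableSet.univ (by linarith)
      (by rw [hal]; linarith) (Set.subset_univ _)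
  have hu0 : 0 ≤ ∫ q, h.hkY (dOv F y g) Set.univ (-L) L q.1.1 q.1.2 q.2 ∂(nu G) :=
    hkY_nonneg (σ₁ := 0) (σ₂ := 0) hM h0 h2 hd MeasurableSet.univ (by linarith)
      (by rw [hal]; linarith) (Set.subset_univ _) hμ
  obtain ⟨-, j2, j3, j4⟩ := gauge_window h0 hin hu hu0
  refine ⟨?_, ?_, ?_⟩
  · exact Measure.quasiMeasurePreserving_fst.ae j2
  · exact j3.comp_fst PF
  · have hp : MeasurePreserving (Prod.fst : RowS × ((ℝ × ℝ) × (ℝ × ℝ)) → RowS)
        ((PR G).prod PF) (PR G) := measurePreserving_fst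
    have := mp_integral hp j3.aestronglyMeasurable
    refine le_trans (le_of_eq ?_) j4
    exact this

end

/-! ### Measurability of the observables -/

section measOb

variable (h) (y g c α β L : ℝ)

lemma meas_obLo (s s₁ : ℝ) : (obLo h g c α β L s s₁).Meas := by
  have a1 : Measurable fun q : RowS × ((ℝ × ℝ) × (ℝ × ℝ)) => offv F g c q.2.1 := by
    unfold offv
    exact measurable_const.add (measurable_fst.comp measurable_snd)
  have a2 : Measurable fun q : RowS × ((ℝ × ℝ) × (ℝ × ℝ)) => q.1.1.1 :=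
    measurable_fst.comp (measurable_fst.comp measurable_fst)
  have a3 : Measurable fun q : RowS × ((ℝ × ℝ) × (ℝ × ℝ)) => q.1.1.2 :=
    measurable_snd.comp (measurable_fst.comp measurable_fst)
  have b1 : Measurable fun q : RowS × ((ℝ × ℝ) × (ℝ × ℝ)) => q.1.2.1 :=
    measurable_fst.comp (measurable_snd.comp measurable_fst)
  have b2 : Measurable fun q : RowS × ((ℝ × ℝ) × (ℝ × ℝ)) => q.2.2.1 :=
    measurable_fst.comp (measurable_snd.comp measurable_snd)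
  have a4 := b1.prodMk b2
  have := meas_gE' h a1 a2 a3 a4 (lo := fun _ => α) (hi := fun _ => β) measurable_const
    measurable_const L s s₁
  exact this

lemma meas_obUp (s₂ s' : ℝ) : (obUp h y g c α β L s₂ s').Meas := by
  have a0 : Measurable fun q : RowS × ((ℝ × ℝ) × (ℝ × ℝ)) => offv F g c q.2.1 := by
    unfold offv
    exact measurable_const.add (measurable_fst.comp measurable_snd)
  have a1 : Measurable fun q : RowS × ((ℝ × ℝ) × (ℝ × ℝ)) =>
      Hwy.dU (offv F g c q.2.1) (y • F.b) (dOv F y g) := by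
    unfold Hwy.dU
    exact (measurable_const.sub a0).sub_const _
  have a2' : Measurable fun q : RowS × ((ℝ × ℝ) × (ℝ × ℝ)) => q.1.1.1 :=
    measurable_fst.comp (measurable_fst.comp measurable_fst)
  have a2 : Measurable fun q : RowS × ((ℝ × ℝ) × (ℝ × ℝ)) =>
      q.1.1.1 - offv F g c q.2.1 - y • F.b := (a2'.sub a0).sub_const _
  have a3 : Measurable fun q : RowS × ((ℝ × ℝ) × (ℝ × ℝ)) => q.1.1.2 :=
    measurable_snd.comp (measurable_fst.comp measurable_fst)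
  have b1 : Measurable fun q : RowS × ((ℝ × ℝ) × (ℝ × ℝ)) => q.2.2.2 :=
    measurable_snd.comp (measurable_snd.comp measurable_snd)
  have b2 : Measurable fun q : RowS × ((ℝ × ℝ) × (ℝ × ℝ)) => q.1.2.2 :=
    measurable_snd.comp (measurable_snd.comp measurable_fst)
  have a4 := b1.prodMk b2
  have hal : Measurable fun q : RowS × ((ℝ × ℝ) × (ℝ × ℝ)) => F.al (offv F g c q.2.1) :=
    F.al.continuous.measurable.comp a0
  have a5 : Measurable fun q : RowS × ((ℝ × ℝ) × (ℝ × ℝ)) =>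
      α - F.al (offv F g c q.2.1) - F.al (y • F.b) := (measurable_const.sub hal).sub_const _
  have a6 : Measurable fun q : RowS × ((ℝ × ℝ) × (ℝ × ℝ)) =>
      β - F.al (offv F g c q.2.1) - F.al (y • F.b) := (measurable_const.sub hal).sub_const _
  have := meas_gE' h a1 a2 a3 a4 a5 a6 L s₂ s'
  exact this

lemma meas_obJ (Λ : ℝ) : (obJ h y g Λ L).Meas := by
  have a2 : Measurable fun q : RowS × ((ℝ × ℝ) × (ℝ × ℝ)) => q.1.1.1 :=
    measurable_fst.comp (measurable_fst.comp measurable_fst)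
  have a3 : Measurable fun q : RowS × ((ℝ × ℝ) × (ℝ × ℝ)) => q.1.1.2 :=
    measurable_snd.comp (measurable_fst.comp measurable_fst)
  have a4 : Measurable fun q : RowS × ((ℝ × ℝ) × (ℝ × ℝ)) => q.1.2 :=
    measurable_snd.comp measurable_fst
  have h1 := h.meas_hk a2 a3 a4 (dOv F y g) (I := Jw Λ) measurableSet_Icc (-L) L
  have h2 := h.meas_hk a2 a3 a4 (dOv F y g) (I := Set.univ) MeasurableSet.univ (-L) L
  exact h1.sub h2

end measOb

/-- `∫ |f| = ∫ f` for a.e. nonnegative `f` (form used by `markov_cpr`) -/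
lemma integral_abs_of_ae {Ω : Type*} [MeasurableSpace Ω] {P : Measure Ω} {f : Ω → ℝ}
    (hf : ∀ᵐ q ∂P, 0 ≤ f q) : ∫ q, |f q| ∂P = ∫ q, f q ∂P :=
  integral_congr_ae (by filter_upwards [hf] with q hq using abs_of_nonneg hq)

end Crest.Agent.R151.MN750
end

-- ▼ part R151/U750m4

/-!
# R151 (S0214 part 2): (M2), (M3), unconditional (helper750)

R4 (56's `fence_mean'`) is plugged in.
-/

set_option autoImplicit false
set_option linter.unusedSectionVars false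

open MeasureTheory Filter ProbabilityTheory Topology Set
open Crest.ProbabilityR.FirstPassage

namespace Crest.Agent.R151.MN750

open Crest.Agent.R151.K Crest.Agent.R151.Q
open M56 (nu mg one_le_mg)
open M192 (RowS PR)
open B710 (FlatData)

variable {μ : ℝ × ℝ → ℝ} {F : FlatData μ} {h : Hwy F} {G : Measure ℝ} [IsProbabilityMeasure G]
  {ε : ℝ} (h0 : G (Set.Iio 0) = 0) (h2 : Integrable (fun x : ℝ => x ^ 2) G)
  (hM : HwyMean G h ε) (hμ : IsTC G μ)
include h0 h2 hM hμ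

/-- R4 -/
theorem fenceMean : FenceMean G h ε := by
  intro d s s2 α β y2 hd hy hs hs2 hw
  have hmg := one_le_mg F
  have := M56.fence_mean' hM h0 h2 hd measurableSet_Icc hs hs2 (Set.Subset.refl _) hw hμ
    (y2 := y2) (by linarith)
  refine this.trans (le_of_eq ?_)
  ring

variable {y g c α β L : ℝ}

/-- **(M2), lower gap** -/
theorem obLo_mean' {s s₁ : ℝ} (hg : h.wH + 2 * mg F + cF F < g) (hs : s ≤ α)
    (hs₁ : β + h.κ + cF F < s₁ + c) (hαβ : 2 * mg F ≤ β - α) (hsL : -L ≤ s) (hs₁L : s₁ ≤ L) :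
    Integrable (fun q : RowS × ((ℝ × ℝ) × (ℝ × ℝ)) =>
      obLo h g c α β L s s₁ q.1.1.1 q.1.1.2 q.1.2 q.2) ((PR G).prod PF) ∧
    ∫ q, |obLo h g c α β L s s₁ q.1.1.1 q.1.1.2 q.1.2 q.2| ∂((PR G).prod PF) ≤
      2 * g * rate G F (β - α) + (2 * L + (β - α) + h.κ + 1 + |c| + cF F) * ε := by
  obtain ⟨a, b, e⟩ := obLo_mean h0 h2 hM hμ (fenceMean h0 h2 hM hμ) hg hs hs₁ hαβ hsL hs₁L
  exact ⟨b, (integral_abs_of_ae a).le.trans e⟩

/-- **(M2), upper gap** -/
theorem obUp_mean' {s₂ s' : ℝ} (hg : h.wH + 2 * mg F + cF F < g) (hs : s₂ + c + cF F ≤ α)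
    (hs' : β + h.κ < s') (hαβ : 2 * mg F ≤ β - α) (hsL : -L ≤ s₂) (hs'L : s' ≤ L) :
    Integrable (fun q : RowS × ((ℝ × ℝ) × (ℝ × ℝ)) =>
      obUp h y g c α β L s₂ s' q.1.1.1 q.1.1.2 q.1.2 q.2) ((PR G).prod PF) ∧
    ∫ q, |obUp h y g c α β L s₂ s' q.1.1.1 q.1.1.2 q.1.2 q.2| ∂((PR G).prod PF) ≤
      2 * g * rate G F (β - α) + (2 * L + (β - α) + h.κ + 1 + |c| + cF F) * ε := by
  obtain ⟨a, b, e⟩ := obUp_mean (y := y) h0 h2 hM hμ (fenceMean h0 h2 hM hμ) hg hs hs' hαβ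
    hsL hs'L
  exact ⟨b, (integral_abs_of_ae a).le.trans e⟩

/-- **(M3)** -/
theorem obJ_mean' {Λ : ℝ} (hg : h.wH + 2 * mg F < g) (hy : 0 ≤ y) (hg0 : 0 ≤ g)
    (hΛ : mg F ≤ Λ) (hL : Λ + h.κ < L) :
    Integrable (fun q : RowS × ((ℝ × ℝ) × (ℝ × ℝ)) =>
      obJ h y g Λ L q.1.1.1 q.1.1.2 q.1.2 q.2) ((PR G).prod PF) ∧
    ∫ q, |obJ h y g Λ L q.1.1.1 q.1.1.2 q.1.2 q.2| ∂((PR G).prod PF) ≤
      (y + 4 * g) * rate G F (2 * Λ) + (2 * L + 2 * Λ + h.κ + 1) * ε := by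
  obtain ⟨a, b, e⟩ := obJ_mean h0 h2 hM hμ (fenceMean h0 h2 hM hμ) hg hy hg0 hΛ hL
  exact ⟨b, (integral_abs_of_ae a).le.trans e⟩


end Crest.Agent.R151.MN750
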