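import Crest.Agent.R151.V22
import Crest.Agent.R151.NF5
import Crest.Agent.R151.G338o
import Crest.Agent.R151.U750m4
import Crest.Agent.R151.Q8c

-- ▼ part R151/V23
section

/-!
# R151/V23 — uniform integrability without typical sets (helper52)

`SData.ui_all` : for `A ∈ σ(S)`, level `d`, inner scale `t`, cut `b ≥ 4 t`:
`∫_{(A ∩ {|D| ≤ d})ᶜ} R# ≤ 2 ((1 + 120/q²) m₁ + (40/q²) m₂) + (5/q) t P(Aᶜ) + (40/q²) (m₁ + m₂)
  + m₁ + b m₁ / d + (12/q) t exp (- (q/12) b / t)`, `m₁ = E|D|`, `m₂ = E|err|`.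
-/

set_option autoImplicit false
set_option linter.unusedSectionVars false

open MeasureTheory ProbabilityTheory Set
open scoped ENNReal NNReal
open Crest.ProbabilityR.FirstPassage

namespace Crest.Agent.R151.V

open Crest.Agent.R151.K
open Q (P0)
open M192 (Row)

variable {Φ : Type*} [MeasurableSpace Φ] {E : ℝ × ℝ → Set (Sym2 (ℤ × ℤ))}
  {G : Measure ℝ} [IsProbabilityMeasure G] {ν : Measure Φ} [IsProbabilityMeasure ν]
  {X D : Row Φ → ℝ} {Ω : Type*} [MeasurableSpace Ω] {κ : Measure Ω} [IsProbabilityMeasure κ]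

/-- rows at which the conditional means of `|D|` and of `|err|` are at most `a` -/
def goodM (G : Measure ℝ) (E : ℝ × ℝ → Set (Sym2 (ℤ × ℤ))) (κ : Measure Ω) (D : Row Φ → ℝ)
    (err : Row Φ × Ω → ℝ) (a : ℝ) : Set (Row Φ) :=
  {p | ∫⁻ t, ENNReal.ofReal |D (cs E p t)| ∂(iidLaw G) ≤ ENNReal.ofReal a} ∩
    {p | ∫⁻ x, ENNReal.ofReal |err (cs E p x.1, x.2)| ∂((iidLaw G).prod κ) ≤ ENNReal.ofReal a}

lemma sInv_goodM (err : Row Φ × Ω → ℝ) (a : ℝ) : SInv E (goodM G E κ D err a) := by
  intro p t
  simp only [goodM, mem_inter_iff, mem_ofPred_eq, cs_cs]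

lemma measurable_gD (hE : ∀ e, MeasurableSet {θ | e ∈ E θ}) (hD : Measurable D) :
    Measurable fun p : Row Φ => ∫⁻ t, ENNReal.ofReal |D (cs E p t)| ∂(iidLaw G) := by
  have h1 : Measurable fun x : Row Φ × Environment => ENNReal.ofReal |D (cs E x.1 x.2)| :=
    (ENNReal.measurable_ofReal.comp hD.abs).comp (measurable_cs hE)
  exact h1.lintegral_prod_right'

lemma measurable_gE (hE : ∀ e, MeasurableSet {θ | e ∈ E θ}) {err : Row Φ × Ω → ℝ}
    (he : Measurable err) : Measurable fun p : Row Φ =>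
      ∫⁻ x, ENNReal.ofReal |err (cs E p x.1, x.2)| ∂((iidLaw G).prod κ) := by
  have h1 : Measurable fun y : Row Φ × (Environment × Ω) =>
      ENNReal.ofReal |err (cs E y.1 y.2.1, y.2.2)| :=
    (ENNReal.measurable_ofReal.comp he.abs).comp (measurable_cs2 hE)
  exact h1.lintegral_prod_right'

lemma measurableSet_goodM (hE : ∀ e, MeasurableSet {θ | e ∈ E θ}) (hD : Measurable D)
    {err : Row Φ × Ω → ℝ} (he : Measurable err) (a : ℝ) :
    MeasurableSet (goodM G E κ D err a) :=
  (measurableSet_le (measurable_gD hE hD) measurable_const).inter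
    (measurableSet_le (measurable_gE hE he) measurable_const)

/-- Markov -/
theorem goodM_compl_le (hE : ∀ e, MeasurableSet {θ | e ∈ E θ}) (hD : Measurable D)
    (hDi : Integrable D ((P0 G).prod ν)) {err : Row Φ × Ω → ℝ} (he : Measurable err)
    (hei : Integrable err (((P0 G).prod ν).prod κ)) {a : ℝ} (ha : 0 < a) :
    ((P0 G).prod ν).real (goodM G E κ D err a)ᶜ ≤
      (∫ p, |D p| ∂((P0 G).prod ν) + ∫ y, |err y| ∂(((P0 G).prod ν).prod κ)) / a := by
  set P := (P0 G).prod ν with hP
  have hDo : Measurable fun p => ENNReal.ofReal |D p| := ENNReal.measurable_ofReal.comp hD.abs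
  have hEo : Measurable fun y => ENNReal.ofReal |err y| := ENNReal.measurable_ofReal.comp he.abs
  have hI1 : 0 ≤ ∫ p, |D p| ∂P := integral_nonneg fun _ => abs_nonneg _
  have hI2 : 0 ≤ ∫ y, |err y| ∂(P.prod κ) := integral_nonneg fun _ => abs_nonneg _
  have m1 := measurable_gD (G := G) (E := E) hE hD
  have m2 := measurable_gE (G := G) (E := E) (κ := κ) hE he
  have h1 : P.real {p | ENNReal.ofReal a < ∫⁻ t, ENNReal.ofReal |D (cs E p t)| ∂(iidLaw G)} ≤
      (∫ p, |D p| ∂P) / a := by
    have h2 := mul_meas_ge_le_lintegral₀ (μ := P) m1.aemeasurable (ENNReal.ofReal a)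
    rw [lintegral_cs hE hDo,
      ← ofReal_integral_eq_lintegral_ofReal hDi.abs (ae_of_all _ fun _ => abs_nonneg _)] at h2
    have h3 : ENNReal.ofReal a *
        P {p | ENNReal.ofReal a < ∫⁻ t, ENNReal.ofReal |D (cs E p t)| ∂(iidLaw G)} ≤
        ENNReal.ofReal (∫ p, |D p| ∂P) := by
      refine (mul_le_mul_right (measure_mono ?_) _).trans h2
      intro p hp
      simp only [mem_ofPred_eq] at hp ⊢
      exact hp.le
    have h5 := ENNReal.toReal_mono ENNReal.ofReal_ne_top h3
    rw [ENNReal.toReal_mul, ENNReal.toReal_ofReal ha.le, ENNReal.toReal_ofReal hI1] at h5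
    rw [le_div_iff₀ ha, mul_comm]
    exact h5
  have h1' : P.real {p | ENNReal.ofReal a <
      ∫⁻ x, ENNReal.ofReal |err (cs E p x.1, x.2)| ∂((iidLaw G).prod κ)} ≤
      (∫ y, |err y| ∂(P.prod κ)) / a := by
    have h2 := mul_meas_ge_le_lintegral₀ (μ := P) m2.aemeasurable (ENNReal.ofReal a)
    rw [lintegral_cs2 hE hEo,
      ← ofReal_integral_eq_lintegral_ofReal hei.abs (ae_of_all _ fun _ => abs_nonneg _)] at h2
    have h3 : ENNReal.ofReal a * P {p | ENNReal.ofReal a <
        ∫⁻ x, ENNReal.ofReal |err (cs E p x.1, x.2)| ∂((iidLaw G).prod κ)} ≤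
        ENNReal.ofReal (∫ y, |err y| ∂(P.prod κ)) := by
      refine (mul_le_mul_right (measure_mono ?_) _).trans h2
      intro p hp
      simp only [mem_ofPred_eq] at hp ⊢
      exact hp.le
    have h5 := ENNReal.toReal_mono ENNReal.ofReal_ne_top h3
    rw [ENNReal.toReal_mul, ENNReal.toReal_ofReal ha.le, ENNReal.toReal_ofReal hI2] at h5
    rw [le_div_iff₀ ha, mul_comm]
    exact h5
  have hsub : (goodM G E κ D err a)ᶜ ⊆
      {p | ENNReal.ofReal a < ∫⁻ t, ENNReal.ofReal |D (cs E p t)| ∂(iidLaw G)} ∪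
      {p | ENNReal.ofReal a <
        ∫⁻ x, ENNReal.ofReal |err (cs E p x.1, x.2)| ∂((iidLaw G).prod κ)} := by
    intro p hp
    by_contra hcon
    simp only [mem_union, mem_ofPred_eq, not_or, not_lt] at hcon
    exact hp ⟨hcon.1, hcon.2⟩
  calc P.real (goodM G E κ D err a)ᶜ ≤ _ := measureReal_mono hsub (measure_ne_top _ _)
    _ ≤ _ := measureReal_union_le _ _
    _ ≤ (∫ p, |D p| ∂P) / a + (∫ y, |err y| ∂(P.prod κ)) / a := add_le_add h1 h1'
    _ = _ := by rw [add_div]

/-- conditional Markov on `goodM`, for `|D|` -/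
lemma condD_of_goodM {err : Row Φ × Ω → ℝ} {a t : ℝ} (ha : 0 ≤ a) (ht : 0 < t) {p : Row Φ}
    (hD : Measurable D) (hp : p ∈ goodM G E κ D err a) :
    (iidLaw G).real {x | t < |D (cs E p x)|} ≤ a / t := by
  have h1 : Measurable fun x => ENNReal.ofReal |D (cs E p x)| :=
    ENNReal.measurable_ofReal.comp ((hD.comp (measurable_cs_right E p)).abs)
  have h2 := mul_meas_ge_le_lintegral₀ (μ := iidLaw G) h1.aemeasurable (ENNReal.ofReal t)
  have h3 : ENNReal.ofReal t * (iidLaw G) {x | t < |D (cs E p x)|} ≤ ENNReal.ofReal a := by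
    refine (mul_le_mul_right (measure_mono ?_) _).trans (h2.trans hp.1)
    intro x hx
    exact ENNReal.ofReal_le_ofReal (le_of_lt hx)
  have h5 := ENNReal.toReal_mono ENNReal.ofReal_ne_top h3
  rw [ENNReal.toReal_mul, ENNReal.toReal_ofReal ht.le, ENNReal.toReal_ofReal ha] at h5
  rw [le_div_iff₀ ht, mul_comm]
  exact h5

lemma condE_of_goodM {err : Row Φ × Ω → ℝ} {a t : ℝ} (ha : 0 ≤ a) (ht : 0 < t) {p : Row Φ}
    (he : Measurable err) (hp : p ∈ goodM G E κ D err a) :
    ((iidLaw G).prod κ).real {x | t < |err (cs E p x.1, x.2)|} ≤ a / t := by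
  have h0 : Measurable fun x : Environment × Ω => (cs E p x.1, x.2) :=
    ((measurable_cs_right E p).comp measurable_fst).prodMk measurable_snd
  have h1 : Measurable fun x : Environment × Ω => ENNReal.ofReal |err (cs E p x.1, x.2)| :=
    ENNReal.measurable_ofReal.comp ((he.comp h0).abs)
  have h2 := mul_meas_ge_le_lintegral₀ (μ := (iidLaw G).prod κ) h1.aemeasurable
    (ENNReal.ofReal t)
  have h3 : ENNReal.ofReal t * ((iidLaw G).prod κ) {x | t < |err (cs E p x.1, x.2)|} ≤
      ENNReal.ofReal a := by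
    refine (mul_le_mul_right (measure_mono ?_) _).trans (h2.trans hp.2)
    intro x hx
    exact ENNReal.ofReal_le_ofReal (le_of_lt hx)
  have h5 := ENNReal.toReal_mono ENNReal.ofReal_ne_top h3
  rw [ENNReal.toReal_mul, ENNReal.toReal_ofReal ht.le, ENNReal.toReal_ofReal ha] at h5
  rw [le_div_iff₀ ht, mul_comm]
  exact h5

/-- **uniform integrability, no typical set** -/
theorem SData.ui_all (h : SData G ν E X D) {A : Set (Row Φ)} (hA : MeasurableSet A)
    (hS : SInv E A) {q t d b : ℝ} (hq0 : 0 < q) (hq1 : q ≤ 1) (ht : 0 < t) (hd : 0 < d)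
    (hb : 4 * t ≤ b) {V err : Row Φ × Ω → ℝ} (he : Measurable err)
    (hei : Integrable err (((P0 G).prod ν).prod κ))
    (hI : ∀ᵐ p ∂((P0 G).prod ν),
      q ≤ ((iidLaw G).prod κ).real {x | V (cs E p x.1, x.2) ≤ t})
    (hle : ∀ᵐ y ∂(((P0 G).prod ν).prod κ), X y.1 - D y.1 ≤ V y + err y) :
    IntegrableOn (fun p => X p - D p) (A ∩ {p | |D p| ≤ d})ᶜ ((P0 G).prod ν) ∧
      ∫ p in (A ∩ {p | |D p| ≤ d})ᶜ, (X p - D p) ∂((P0 G).prod ν) ≤
        ((1 + 120 / q ^ 2) * ∫ p, |D p| ∂((P0 G).prod ν) +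
          (40 / q ^ 2) * ∫ y, |err y| ∂(((P0 G).prod ν).prod κ) +
          (5 / q) * t * ((P0 G).prod ν).real Aᶜ) +
        ((1 + 120 / q ^ 2) * ∫ p, |D p| ∂((P0 G).prod ν) +
          (40 / q ^ 2) * ∫ y, |err y| ∂(((P0 G).prod ν).prod κ) +
          (40 / q ^ 2) * (∫ p, |D p| ∂((P0 G).prod ν) +
            ∫ y, |err y| ∂(((P0 G).prod ν).prod κ))) +
        (∫ p, |D p| ∂((P0 G).prod ν) + b * ((∫ p, |D p| ∂((P0 G).prod ν)) / d) +
          (12 / q) * t * Real.exp (-(q / 12) * (b / t))) := by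
  set P := (P0 G).prod ν with hP
  set m1 := ∫ p, |D p| ∂P with hm1
  set m2 := ∫ y, |err y| ∂(P.prod κ) with hm2
  have hm10 : 0 ≤ m1 := integral_nonneg fun _ => abs_nonneg _
  have hm20 : 0 ≤ m2 := integral_nonneg fun _ => abs_nonneg _
  have hb0 : 0 < b := by linarith
  set a : ℝ := q / 8 * t with ha
  have ha0 : 0 < a := by positivity
  set Gd := goodM G E κ D err a with hGd
  have hGm : MeasurableSet Gd := measurableSet_goodM h.hE h.hD he a
  have hGS : SInv E Gd := sInv_goodM err a
  -- the three parts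
  have p1 := (h.mean_all (κ := κ) hA.compl hS.compl hq0 hq1 ht.le he hei hI hle)
  have p2 := (h.mean_all (κ := κ) hGm.compl hGS.compl hq0 hq1 ht.le he hei hI hle)
  have hGc : P.real Gdᶜ ≤ (m1 + m2) / a := goodM_compl_le h.hE h.hD h.hDi he hei ha0
  have hle' : ∀ᵐ p ∂P, ∀ᵐ x ∂((iidLaw G).prod κ),
      X (cs E p x.1) - D (cs E p x.1) ≤ V (cs E p x.1, x.2) + err (cs E p x.1, x.2) :=
    Measure.ae_ae_of_ae_prod ((mp_cs2 (G := G) (ν := ν) (κ := κ) h.hE).quasiMeasurePreserving.ae hle)
  have hXo : Measurable fun p => ENNReal.ofReal (X p - b) :=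
    ENNReal.measurable_ofReal.comp (h.hX.sub_const b)
  have p3 : ∫⁻ p in Gd, ENNReal.ofReal (X p - b) ∂P ≤
      ENNReal.ofReal ((12 / q) * t * Real.exp (-(q / 12) * (b / t))) := by
    have h2 := lintegral_inter_le (G := G) (ν := ν) h.hE hGm hGS hXo
      (c := ENNReal.ofReal ((12 / q) * t * Real.exp (-(q / 12) * (b / t)))) (by
        filter_upwards [h.lc, ae_cs h.hE h.nonneg, hle', hI] with p hlc h0 hl hIp hpG
        have c1 : (iidLaw G).real {x | t < |D (cs E p x)|} ≤ q / 8 := by
          have := condD_of_goodM (t := t) ha0.le ht h.hD hpG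
          rwa [ha, mul_div_assoc, div_self ht.ne', mul_one] at this
        have c2 : ((iidLaw G).prod κ).real {x | t < |err (cs E p x.1, x.2)|} ≤ q / 8 := by
          have := condE_of_goodM (t := t) ha0.le ht he hpG
          rwa [ha, mul_div_assoc, div_self ht.ne', mul_one] at this
        have c3 : q - q / 8 ≤ (iidLaw G).real
            {x | X (cs E p x) - D (cs E p x) ≤ 2 * t} := by
          have e2 : ((iidLaw G).prod κ).real
              ({x | X (cs E p x) - D (cs E p x) ≤ 2 * t} ×ˢ univ) =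
              (iidLaw G).real {x | X (cs E p x) - D (cs E p x) ≤ 2 * t} := by
            unfold Measure.real
            rw [Measure.prod_prod, measure_univ, mul_one]
          have e3 : ((iidLaw G).prod κ).real {x | V (cs E p x.1, x.2) ≤ t} ≤
              ((iidLaw G).prod κ).real ({x | X (cs E p x) - D (cs E p x) ≤ 2 * t} ×ˢ univ ∪
                {x | t < |err (cs E p x.1, x.2)|}) := by
            unfold Measure.real
            refine ENNReal.toReal_mono (measure_ne_top _ _) (measure_mono_ae ?_)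
            filter_upwards [hl] with x hx hxV
            by_cases h4 : t < |err (cs E p x.1, x.2)|
            · exact Or.inr h4
            · left
              refine ⟨?_, mem_univ _⟩
              push Not at h4
              have h5 := le_abs_self (err (cs E p x.1, x.2))
              have h6 : V (cs E p x.1, x.2) ≤ t := hxV
              show X (cs E p x.1) - D (cs E p x.1) ≤ 2 * t
              linarith
          have e4 := measureReal_union_le (μ := (iidLaw G).prod κ)
            ({x | X (cs E p x) - D (cs E p x) ≤ 2 * t} ×ˢ (univ : Set Ω))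
            {x | t < |err (cs E p x.1, x.2)|}
          linarith
        have h3 := hlc.pert_lintegral (h.hX.comp (measurable_cs_right E p)) (Z := fun t =>
          X (cs E p t) - D (cs E p t)) (d := t) (δ := q / 8) (t := 2 * t) (q := q - q / 8)
          (x := b) ht (by positivity) (by linarith) (by linarith) (by linarith)
          (cond_err' h0 c1) c3 (by linarith)
        refine h3.trans (ENNReal.ofReal_le_ofReal ?_)
        have h4 := one_sub_pow_le (q := q - q / 8) (x := (b + t) / (2 * t + 3 * t))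
          (by linarith) (by positivity)
        have h5 : (2 * t + 3 * t) * (2 / (q - q / 8)) ≤ 12 / q * t := by
          have : 2 / (q - q / 8) = 16 / 7 / q := by field_simp; norm_num
          rw [this]
          have : (2 * t + 3 * t) * (16 / 7 / q) = 80 / 7 / q * t := by ring
          rw [this]
          gcongr
          norm_num
        have h6 : (1 - (q - q / 8) / 2) ^ ((b + t) / (2 * t + 3 * t)) ≤
            Real.exp (-(q / 12) * (b / t)) := by
          refine h4.trans (Real.exp_le_exp.2 ?_)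
          have e1 : (b + t) / (2 * t + 3 * t) = (b / t + 1) / 5 := by field_simp; norm_num
          rw [e1]
          have e2 : 0 ≤ b / t := by positivity
          nlinarith
        have h7 : (0 : ℝ) ≤ (1 - (q - q / 8) / 2) ^ ((b + t) / (2 * t + 3 * t)) :=
          Real.rpow_nonneg (by linarith) _
        exact mul_le_mul h5 h6 h7 (by positivity))
    exact h2.trans (mul_le_of_le_one_right zero_le prob_le_one)
  -- the part `Gd ∩ {|D| > d}`
  set T : Set (Row Φ) := {p | d < |D p|} with hT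
  have hPT : P T ≤ ENNReal.ofReal (m1 / d) := by
    have h2 : P.real T ≤ m1 / d := by
      rw [le_div_iff₀ hd, mul_comm]
      have h3 := mul_meas_ge_le_integral_of_nonneg (μ := P) (f := fun p => |D p|)
        (ae_of_all _ fun p => abs_nonneg _) h.hDi.abs d
      refine le_trans ?_ h3
      refine mul_le_mul_of_nonneg_left ?_ hd.le
      refine measureReal_mono ?_ (measure_ne_top _ _)
      intro p hp
      exact le_of_lt (show d < |D p| from hp)
    exact (ENNReal.le_ofReal_iff_toReal_le (measure_ne_top _ _) (by positivity)).2 h2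
  have hDo : Measurable fun p => ENNReal.ofReal |D p| :=
    ENNReal.measurable_ofReal.comp h.hD.abs
  have p4 : ∫⁻ p in Gd ∩ T, ENNReal.ofReal (X p - D p) ∂P ≤
      ENNReal.ofReal (m1 + b * (m1 / d) + (12 / q) * t * Real.exp (-(q / 12) * (b / t))) := by
    calc ∫⁻ p in Gd ∩ T, ENNReal.ofReal (X p - D p) ∂P
        ≤ ∫⁻ p in Gd ∩ T, (ENNReal.ofReal |D p| + (ENNReal.ofReal b +
            ENNReal.ofReal (X p - b))) ∂P := by
          refine lintegral_mono fun p => ?_
          have h3 : X p - D p ≤ |D p| + (b + max (X p - b) 0) := by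
            have := neg_abs_le (D p)
            have := le_max_left (X p - b) 0
            linarith
          calc ENNReal.ofReal (X p - D p)
              ≤ ENNReal.ofReal (|D p| + (b + max (X p - b) 0)) := ENNReal.ofReal_le_ofReal h3
            _ = _ := by
              rw [ENNReal.ofReal_add (abs_nonneg _) (by positivity),
                ENNReal.ofReal_add hb0.le (le_max_right _ _), ENNReal.ofReal_max]
              simp
      _ = ∫⁻ p in Gd ∩ T, ENNReal.ofReal |D p| ∂P + (ENNReal.ofReal b * P (Gd ∩ T) +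
            ∫⁻ p in Gd ∩ T, ENNReal.ofReal (X p - b) ∂P) := by
          rw [lintegral_add_left hDo, lintegral_add_left measurable_const, setLIntegral_const]
      _ ≤ ∫⁻ p, ENNReal.ofReal |D p| ∂P + (ENNReal.ofReal b * P T +
            ∫⁻ p in Gd, ENNReal.ofReal (X p - b) ∂P) := by
          refine add_le_add (setLIntegral_le_lintegral _ _) (add_le_add ?_ ?_)
          · exact mul_le_mul_right (measure_mono inter_subset_right) _
          · exact lintegral_mono_set inter_subset_left
      _ ≤ ENNReal.ofReal m1 + (ENNReal.ofReal b * ENNReal.ofReal (m1 / d) +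
            ENNReal.ofReal ((12 / q) * t * Real.exp (-(q / 12) * (b / t)))) := by
          rw [h.lintegral_abs]
          gcongr
      _ = _ := by
          rw [← ENNReal.ofReal_mul hb0.le, ← ENNReal.ofReal_add (by positivity) (by positivity),
            ← ENNReal.ofReal_add hm10 (by positivity)]
          congr 1
          ring
  have q1 : ∀ {B : Set (Row Φ)} {c : ℝ}, 0 ≤ c →
      IntegrableOn (fun p => X p - D p) B P ∧ ∫ p in B, (X p - D p) ∂P ≤ c →
      ∫⁻ p in B, ENNReal.ofReal (X p - D p) ∂P ≤ ENNReal.ofReal c := by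
    intro B c hc hh
    rw [← ofReal_integral_eq_lintegral_ofReal hh.1 (ae_restrict_of_ae h.nonneg)]
    exact ENNReal.ofReal_le_ofReal hh.2
  have hPA : 0 ≤ P.real Aᶜ := measureReal_nonneg
  have r1 := q1 (by positivity) p1
  have p2' : IntegrableOn (fun p => X p - D p) Gdᶜ P ∧ ∫ p in Gdᶜ, (X p - D p) ∂P ≤
      (1 + 120 / q ^ 2) * m1 + (40 / q ^ 2) * m2 + (40 / q ^ 2) * (m1 + m2) := by
    refine ⟨p2.1, p2.2.trans ?_⟩
    have h1 : 5 / q * t * P.real Gdᶜ ≤ 5 / q * t * ((m1 + m2) / a) :=
      mul_le_mul_of_nonneg_left hGc (by positivity)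
    have h2 : 5 / q * t * ((m1 + m2) / a) = 40 / q ^ 2 * (m1 + m2) := by
      rw [ha]; field_simp; ring
    linarith
  have r2 := q1 (by positivity) p2'
  have hsub : (A ∩ {p | |D p| ≤ d})ᶜ ⊆ (Aᶜ ∪ Gdᶜ) ∪ (Gd ∩ T) := by
    intro p hp
    by_cases hpA : p ∈ A
    · by_cases hpG : p ∈ Gd
      · right
        refine ⟨hpG, ?_⟩
        by_contra hcon
        simp only [hT, mem_ofPred_eq, not_lt] at hcon
        exact hp ⟨hpA, hcon⟩
      · exact Or.inl (Or.inr hpG)
    · exact Or.inl (Or.inl hpA)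
  refine toReal_bound (h.hX.sub h.hD) h.nonneg (by positivity) ?_
  calc ∫⁻ p in (A ∩ {p | |D p| ≤ d})ᶜ, ENNReal.ofReal (X p - D p) ∂P
      ≤ ∫⁻ p in (Aᶜ ∪ Gdᶜ) ∪ (Gd ∩ T), ENNReal.ofReal (X p - D p) ∂P := lintegral_mono_set hsub
    _ ≤ ∫⁻ p in Aᶜ ∪ Gdᶜ, ENNReal.ofReal (X p - D p) ∂P +
          ∫⁻ p in Gd ∩ T, ENNReal.ofReal (X p - D p) ∂P := lintegral_union_le _ _ _
    _ ≤ (∫⁻ p in Aᶜ, ENNReal.ofReal (X p - D p) ∂P +
          ∫⁻ p in Gdᶜ, ENNReal.ofReal (X p - D p) ∂P) +
          ∫⁻ p in Gd ∩ T, ENNReal.ofReal (X p - D p) ∂P :=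
        add_le_add (lintegral_union_le _ _ _) le_rfl
    _ ≤ _ := by
        refine (add_le_add (add_le_add r1 r2) p4).trans ?_
        rw [← ENNReal.ofReal_add (by positivity) (by positivity),
          ← ENNReal.ofReal_add (by positivity) (by positivity)]

end Crest.Agent.R151.V
end

-- ▼ part R151/V24

/-!
# R151/V24 — fields `F_int` of `c.rowA T` (all `T`), fences: data of the upper bound, inner medians,
means of the errors (helper52)
-/

set_option autoImplicit false
set_option linter.unusedSectionVars false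

open MeasureTheory ProbabilityTheory Set Filter Topology
open scoped ENNReal
open Crest.ProbabilityR.FirstPassage

namespace Crest.Agent.R151.V

open Crest.Agent.R151.K
open Q (pos Hwy HwyMean P0 UU UU2 phi rg Inv rate cF cF_nonneg dOv offv Geo UpData obI obLo obUp obJ
  sko ski Jw PF Rt)
open M192 (Row RowS PR mIL mB skp ae_skp RowOK)
open M56 (mg one_le_mg nu)
open B710 (FlatData)
open NF

variable {μ : ℝ × ℝ → ℝ} {F : FlatData μ} {h : Hwy F}

/-! ### `F_int` -/

/-- the fences of the row instance are integrable -/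
theorem rowA_F_int {G : Measure ℝ} [IsProbabilityMeasure G] {ε : ℝ} (hM : HwyMean G h ε)
    (h0 : G (Set.Iio 0) = 0) (h2 : Integrable (fun x : ℝ => x ^ 2) G) {W L y l c δ v : ℝ}
    (hO : RowOK h W L y l c δ v (mg F + 1)) (hy : h.wH + 2 * mg F < y)
    (T : Set (Row (ℝ × ℝ))) (w x : ℝ) :
    Integrable ((M192.rowA h W L y l c δ T).F w x) (nuR G) := by
  by_cases hw : 4 * c ≤ w * W ∧ w ≤ 1
  · have e1 : (M192.rowA h W L y l c δ T).F w x =
        skp h y l L (Icc (x * W + c) ((x + w) * W - c)) (x * W + c) ((x + w) * W - c) := by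
      funext q; exact if_pos hw
    rw [e1]
    have hκ := h.κ_nonneg
    have hc := hO.c_ge
    have hmg := one_le_mg F
    have e : (x + w) * W = x * W + w * W := by ring
    have hal : F.al (y • F.b) = 0 := by rw [map_smul, F.al_b, smul_zero]
    have i1 := sk_integrable (G := G) (h := h) hM h0 h2 (d := y • F.b)
      (by rw [M192.be_smul_b]; exact hy)
      (I := Icc (x * W + c) ((x + w) * W - c)) measurableSet_Icc
      (s := x * W + c) (s' := (x + w) * W - c) (σ₁ := x * W + c + mg F) (σ₂ := x * W + c + mg F)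
      le_rfl (by rw [hal, e]; linarith [hw.1]) (by
        rw [min_self, max_self]
        refine Icc_subset_Icc (by linarith) ?_
        rw [e]; linarith [hw.1]) L
    refine (i1.div_const l).congr ?_
    filter_upwards [ae_skp h0 h y l L (Icc (x * W + c) ((x + w) * W - c)) (x * W + c)
      ((x + w) * W - c)] with q hq
    exact hq.symm
  · have e1 : (M192.rowA h W L y l c δ T).F w x = fun _ => 0 := by
      funext q; exact if_neg hw
    rw [e1]
    exact integrable_zero _ _ _

section ev

variable {G : Measure ℝ} {w0 c0 K : ℝ}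

/-- height conditions of the rows -/
theorem ev_height : Ev fun p => ∀ c : Cf G F w0 c0 K p,
    c.h.wH + 2 * mg F + cF F < c.g ∧ c.h.wH + 2 * mg F < c.y / 2 := by
  have a1 := ev_std (G := G) (F := F) (w0 := w0) (c0 := c0) (K := K)
  have a2 := le_w (2 * mg F + cF F + 1)
  have a3 := strip_le_gap fun _ _ _ _ _ _ => 3
  refine ((a1.and a2).and a3).mono ?_
  rintro p ⟨⟨a1, a2⟩, a3⟩ c
  have hc := a1 c
  have hp := hc.toStd
  have hg := c.g_eq
  have hwH := c.wH
  have hmg := one_le_mg F
  have hcF := cF_nonneg F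
  have hgy := hc.g_le
  constructor
  · rw [hwH, hg]; linarith
  · rw [hwH]; linarith

/-- **field `F_int`**, every typical set, all widths and positions -/
theorem ev_F_int [IsProbabilityMeasure G] (h0 : G (Set.Iio 0) = 0)
    (h2 : Integrable (fun x : ℝ => x ^ 2) G) : Ev fun p => ∀ c : Cf G F w0 c0 K p,
    ∀ (T : Set (Row (ℝ × ℝ))) (w x : ℝ), Integrable ((c.rowA T).F w x) (nuR G) := by
  have a1 := ev_soft5 (G := G) (F := F) (w0 := w0) (c0 := c0) (K := K)
  have a2 := ev_height (G := G) (F := F) (w0 := w0) (c0 := c0) (K := K)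
  have a3 := ev_std (G := G) (F := F) (w0 := w0) (c0 := c0) (K := K)
  refine ((a1.and a2).and a3).mono ?_
  rintro p ⟨⟨a1, a2⟩, a3⟩ c T w x
  refine rowA_F_int c.mean h0 h2 (a1 c).1 ?_ T w x
  have := (a2 c).2
  have := (a3 c).half
  linarith

end ev

end Crest.Agent.R151.V
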