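import Crest.Agent.R151.CL684b
import Crest.Agent.R151.NF6
import Crest.Agent.R151.Q8c
import Crest.Agent.R151.G338o
import Crest.Agent.R151.G338p
import Crest.Agent.R151.V22
import Crest.Agent.R151.R78Q
import Crest.Agent.R151.E191F
import Crest.Agent.R151.V24

-- ▼ part R151/CL684d
section

/-!
# R151 / S0214 part 2, CL684d — (T1) for the cells of a configuration (owner helper684)

`ev_cellLow` : LowData of a cell; `ev_cellT1` : small balls of one cell given the strips.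
-/

set_option autoImplicit false
set_option maxHeartbeats 400000

open MeasureTheory ProbabilityTheory Filter Set
open scoped ENNReal
open Crest.ProbabilityR.FirstPassage

namespace Crest.Agent.R151.CL

open Crest.Agent.R151.K
open B710 (FlatData)
open Q (Hwy P0 UU UU2 rg pos rate cF cF_nonneg LowData Geo Rt Jw dOv obK obD obG NS PF ski sko
  rt_out rt_gauge_out)
open V (E0 cs posS typ hkR)
open NF
open M56 (mg)
open M192 (RowS PR)

variable {μ : ℝ × ℝ → ℝ} {G : Measure ℝ} {F : FlatData μ} {w0 c0 K : ℝ}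

lemma mg_nonneg (F : FlatData μ) : 0 ≤ mg F := zero_le_one.trans (M56.one_le_mg F)

/-- **LowData of the cell at `x`** (outer row = A-row, inner row of height `y / 2`, moved by `cg`) -/
theorem ev_cellLow (V : ℕ → ℝ → ℝ → ℝ → ℝ) :
    Ev fun p => ∀ c : Cf G F w0 c0 K p, ∀ (x cg : ℝ) (N : ℕ), |x| ≤ V p.n p.δ p.v p.e →
      (x + 5 / 32) * p.W + p.W / 128 ≤ cg → cg ≤ (x + 6 / 32) * p.W - p.W / 128 →
      2 * c.L * ‖F.a‖ + p.W * ‖F.b‖ + 1 ≤ N →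
      LowData c.h (c.y / 2) c.g cg c.lam c.L (Icc (x * p.W) ((x + 7 / 32) * p.W))
        (Icc (-(7 / 32 * p.W)) (7 / 32 * p.W)) ((x + 6 / 32) * p.W) ((x + 1 / 32) * p.W) 0
        (-(p.W / 8)) (p.W / 256) N := by
  refine (((ev_lens (G := G) (F := F) (w0 := w0) (c0 := c0) (K := K)).and
    (NF.ev_geo (G := G) (F := F) (w0 := w0) (c0 := c0) (K := K)
      fun n δ v e => V n δ v e + 1)).and
    ((gap_le fun _ _ _ _ _ => 1024).and (le_v' fun n δ v e => V n δ v e + 2))).mono ?_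
  rintro p ⟨⟨hlen, hgeo⟩, hgap, hv'⟩ c x cg N hx h1 h2 hN
  have hl := hlen c
  have hW : 0 < p.W := zero_lt_one.trans_le hl.W
  have hgap : 1024 * c.g ≤ p.W := hgap
  have hgp := hl.g_pos
  have hw := hl.wH_eq
  have hmg := mg_nonneg F
  have hcF := cF_nonneg F
  have hκ0 := c.h.κ_nonneg
  have hk := hl.κ_le'
  have hm := hl.mg_le
  have hsl := hl.sl_le
  have hsl0 := hl.sl_nonneg
  have hlam : (V p.n p.δ p.v p.e + 2) * p.W ≤ c.lam := by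
    unfold Cf.lam
    exact mul_le_mul_of_nonneg_right hv' hW.le
  have hL := hl.lam_eq
  have hV0 : 0 ≤ V p.n p.δ p.v p.e := (abs_nonneg x).trans hx
  have hx' := abs_le.1 hx
  have hxW1 : -(V p.n p.δ p.v p.e * p.W) ≤ x * p.W := by
    have := mul_le_mul_of_nonneg_right hx'.1 hW.le
    linarith
  have hxW2 : x * p.W ≤ V p.n p.δ p.v p.e * p.W := mul_le_mul_of_nonneg_right hx'.2 hW.le
  have hVW : 0 ≤ V p.n p.δ p.v p.e * p.W := mul_nonneg hV0 hW.le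
  have hcg : |cg| ≤ (V p.n p.δ p.v p.e + 1) * p.W := by
    rw [abs_le]
    constructor <;> linarith
  have hrow := hl.row (Cf.htA (c := c) hl.toC)
  have hyd : c.h.wH + 2 * mg F < c.y / 2 + 2 * c.g := by
    have := hrow.1
    rwa [Q.be_dOv] at this
  refine
    { geo := hgeo c _ _ (Cf.htA (c := c) hl.toC) cg hcg
      hIJ := ?_
      hII' := ?_
      hs1 := by linarith
      hs2 := by linarith
      hs3 := by linarith
      hs4 := by linarith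
      hσ := by linarith
      hσ' := by linarith
      hΔ := by linarith
      hN := ?_
      hne := ?_
      hneJ := ?_ }
  · unfold Jw
    exact Icc_subset_Icc (by linarith) (by linarith)
  · intro z hz u hu
    have hu' := abs_le.1 hu
    exact ⟨by linarith [hz.1], by linarith [hz.2]⟩
  · refine le_trans ?_ hN
    have e1 : (c.L + 2 * cF F + |cg|) * ‖F.a‖ ≤ (2 * c.L) * ‖F.a‖ :=
      mul_le_mul_of_nonneg_right (by linarith) (norm_nonneg _)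
    have e2 : (c.h.wH + c.g + cF F) * ‖F.b‖ ≤ p.W * ‖F.b‖ :=
      mul_le_mul_of_nonneg_right (by linarith) (norm_nonneg _)
    linarith
  · refine rt_out (σ₁ := (x + 13 / 64) * p.W) (σ₂ := (x + 1 / 64) * p.W) hyd ?_ ?_ ?_
    · linarith
    · linarith
    · have e1 : min ((x + 13 / 64) * p.W) ((x + 1 / 64) * p.W) = (x + 1 / 64) * p.W :=
        min_eq_right (by linarith)
      have e2 : max ((x + 13 / 64) * p.W) ((x + 1 / 64) * p.W) = (x + 13 / 64) * p.W :=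
        max_eq_left (by linarith)
      rw [e1, e2]
      exact Icc_subset_Icc (by linarith) (by linarith)
  · exact rt_gauge_out hyd (by linarith) (by linarith)

/-- the inner row of height `y / 2` is expensive with probability `1/2` -/
lemma half_le_ski {G : Measure ℝ} [IsProbabilityMeasure G] {p : NF.Num}
    (c : Cf G F w0 c0 K p) : (1 : ℝ) / 2 ≤ (PR G).real {q | p.n ^ 5 * (c.y / 2 * rate G F p.W) ≤
      ski c.h (c.y / 2) (Icc (-(7 / 32 * p.W)) (7 / 32 * p.W)) c.L 0 (-(p.W / 8)) q} := by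
  have h1 := c.q_gt
  unfold Qm at h1
  push Not at h1
  have hm : MeasurableSet {q : RowS | ski c.h (c.y / 2) (Icc (-(7 / 32 * p.W)) (7 / 32 * p.W))
      c.L 0 (-(p.W / 8)) q ≤ p.n ^ 5 * (c.y / 2 * rate G F p.W)} :=
    measurableSet_le (Q.measurable_ski c.h _ measurableSet_Icc _ _ _) measurable_const
  have h2 : (PR G).real {q : RowS | ski c.h (c.y / 2) (Icc (-(7 / 32 * p.W)) (7 / 32 * p.W))
      c.L 0 (-(p.W / 8)) q ≤ p.n ^ 5 * (c.y / 2 * rate G F p.W)} < 1 / 2 := h1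
  have h3 := probReal_compl_eq_one_sub (μ := PR G) hm
  have h4 : (PR G).real {q : RowS | ski c.h (c.y / 2) (Icc (-(7 / 32 * p.W)) (7 / 32 * p.W))
      c.L 0 (-(p.W / 8)) q ≤ p.n ^ 5 * (c.y / 2 * rate G F p.W)}ᶜ ≤
      (PR G).real {q | p.n ^ 5 * (c.y / 2 * rate G F p.W) ≤
      ski c.h (c.y / 2) (Icc (-(7 / 32 * p.W)) (7 / 32 * p.W)) c.L 0 (-(p.W / 8)) q} := by
    refine measureReal_mono ?_ (measure_ne_top _ _)
    intro q hq
    simp only [mem_compl_iff, mem_ofPred_eq, not_le] at hq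
    exact hq.le
  linarith

/-- **(T1) for the cells**: small balls of a cell, given the strips -/
theorem ev_cellT1 {r₀ : ℝ} (hr : 0 < r₀) [IsProbabilityMeasure (gammaMeasure 1 r₀)]
    (h0 : gammaMeasure 1 r₀ (Set.Iio 0) = 0) (hμ : B710.NormLike μ) (V : ℕ → ℝ → ℝ → ℝ → ℝ) :
    ∃ e₂ : ℝ, 0 < e₂ ∧ Ev fun p => ∀ c : Cf (gammaMeasure 1 r₀) F w0 c0 K p,
      ∀ (x cg e₁ : ℝ) (N : ℕ) (ρ : RowS → ℝ), |x| ≤ V p.n p.δ p.v p.e →
      (x + 5 / 32) * p.W + p.W / 128 ≤ cg → cg ≤ (x + 6 / 32) * p.W - p.W / 128 →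
      2 * c.L * ‖F.a‖ + p.W * ‖F.b‖ + 1 ≤ N → 0 < e₁ → 16 * p.n ^ 5 * e₁ ≤ 1 → e₁ ≤ e₂ →
      Measurable ρ → (∀ p₀ t, ρ (cs (E0 c.h (dOv F (c.y / 2) c.g)) p₀ t) = ρ p₀) →
      ∀ p₀ : RowS, p₀ ∈ posS c.h (dOv F (c.y / 2) c.g) →
      p₀ ∈ typ (gammaMeasure 1 r₀) (E0 c.h (dOv F (c.y / 2) c.g)) PF
        (NS (obK c.h (c.y / 2) c.g cg c.lam c.L) (e₁ * c.l)) e₁ →
      p₀ ∈ typ (gammaMeasure 1 r₀) (E0 c.h (dOv F (c.y / 2) c.g)) PF
        (NS (obD F (c.y / 2) c.g N) (e₁ * p.W)) e₁ →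
      p₀ ∈ typ (gammaMeasure 1 r₀) (E0 c.h (dOv F (c.y / 2) c.g)) PF
        (NS (obG c.h (c.y / 2) c.g c.L ρ) (e₁ * c.l)) e₁ →
      ∀ a : ℝ, 0 ≤ a →
      (iidLaw (gammaMeasure 1 r₀)).real {t | sko c.h (c.y / 2) c.g
        (Icc (x * p.W) ((x + 7 / 32) * p.W)) c.L ((x + 6 / 32) * p.W) ((x + 1 / 32) * p.W)
        (cs (E0 c.h (dOv F (c.y / 2) c.g)) p₀ t) ≤ a * c.l} ≤ 50 * a / p.n ^ 5 + 150 * e₁ ∧
      (iidLaw (gammaMeasure 1 r₀)).real {t | cellk c.h p.W (c.yA • F.b) x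
        (cs (E0 c.h (c.yA • F.b)) p₀ t) - ρ p₀ ≤ a * c.l} ≤ 50 * a / p.n ^ 5 + 250 * e₁ := by
  obtain ⟨cψ, hcψ, hpsi⟩ := Q.exists_psi_low hμ F
  refine ⟨cψ / 4096, by positivity, ?_⟩
  refine (((ev_lens (G := gammaMeasure 1 r₀) (F := F) (w0 := w0) (c0 := c0) (K := K)).and
    (ev_cellLow (G := gammaMeasure 1 r₀) (F := F) (w0 := w0) (c0 := c0) (K := K) V)).and
    (le_J fun n _ _ _ _ _ _ => 1024 * (n : ℝ) ^ 5 / cψ)).mono ?_
  rintro p ⟨⟨hlen, hlow⟩, hJ⟩ c x cg e₁ N ρ hx h1 h2 hN he₁ hen he₂ hρm hρS p₀ hpos hK hD hG a ha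
  have hl := hlen c
  have H := hlow c x cg N hx h1 h2 hN
  have hW : 0 < p.W := zero_lt_one.trans_le hl.W
  have hJ0 : 0 < p.J := zero_lt_one.trans_le hl.J
  have hl0 := hl.l_pos
  have hn1 : (1 : ℝ) ≤ p.n := by exact_mod_cast hl.n
  have hn5 : (1 : ℝ) ≤ (p.n : ℝ) ^ 5 := one_le_pow₀ hn1
  have hr0 := c.rt_pos
  set τ : ℝ := (p.n : ℝ) ^ 5 * (c.y / 2 * rate (gammaMeasure 1 r₀) F p.W) with hτ
  have hτ1 : (p.n : ℝ) ^ 5 * c.l / 2 ≤ τ := by
    have e1 : c.l ≤ c.y * rate (gammaMeasure 1 r₀) F p.W := by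
      rw [c.l_eq]
      exact mul_le_mul_of_nonneg_right hl.P_le hr0.le
    rw [hτ]
    nlinarith
  have hτ2 : τ ≤ cψ * (p.W / 256) - 4 * (e₁ * p.W) := by
    have e1 : c.y * rate (gammaMeasure 1 r₀) F p.W ≤ p.W / p.J := c.y_le
    have e2 : τ ≤ (p.n : ℝ) ^ 5 * (p.W / p.J) / 2 := by
      rw [hτ]
      nlinarith
    have e3 : (p.n : ℝ) ^ 5 * (p.W / p.J) ≤ cψ / 1024 * p.W := by
      rw [div_le_iff₀ hcψ] at hJ
      rw [mul_div_assoc', div_le_iff₀ hJ0]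
      nlinarith
    have e4 : e₁ * p.W ≤ cψ / 4096 * p.W := mul_le_mul_of_nonneg_right he₂ hW.le
    have e5 : 0 < cψ * p.W := mul_pos hcψ hW
    linarith
  have he16 : 16 * e₁ ≤ 1 := by nlinarith
  have hel : e₁ * c.l ≤ 1 / 16 * c.l := mul_le_mul_of_nonneg_right (by linarith) hl0.le
  have hnl : 1 * c.l ≤ (p.n : ℝ) ^ 5 * c.l := mul_le_mul_of_nonneg_right hn5 hl0.le
  have hA : e₁ * c.l < τ := by linarith
  have hA2 : (p.n : ℝ) ^ 5 * c.l / 4 ≤ τ - e₁ * c.l := by linarith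
  have hA3 : 0 < (p.n : ℝ) ^ 5 * c.l / 4 := by positivity
  have key := Q.T1c hr h0 hμ hpsi H measurableSet_Icc measurableSet_Icc hρm hρS
    (A := e₁ * c.l) (B := e₁ * p.W) (e := e₁) (τ := τ) (q₀ := 1 / 2) (a := a * c.l) (p := p₀)
    (by positivity) he₁.le hA hτ2 (by norm_num) (by nlinarith) (by positivity) hpos hK hD hG
    (half_le_ski c)
  have hlog : Real.log (6 / (1 / 2)) ≤ 11 := by
    have := Real.log_le_sub_one_of_pos (x := 6 / (1 / 2)) (by norm_num)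
    linarith
  have hlog0 : 0 ≤ Real.log (6 / (1 / 2)) := Real.log_nonneg (by norm_num)
  have hb : ∀ k : ℝ, 0 ≤ k → (a * c.l + k * (e₁ * c.l)) / (τ - e₁ * c.l) *
      Real.log (6 / (1 / 2)) ≤ 44 * (a + k * e₁) / (p.n : ℝ) ^ 5 := by
    intro k hk
    have e1 : (a * c.l + k * (e₁ * c.l)) / (τ - e₁ * c.l) ≤
        (a * c.l + k * (e₁ * c.l)) / ((p.n : ℝ) ^ 5 * c.l / 4) :=
      div_le_div_of_nonneg_left (by positivity) hA3 hA2
    have e2 : (a * c.l + k * (e₁ * c.l)) / ((p.n : ℝ) ^ 5 * c.l / 4) =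
        4 * (a + k * e₁) / (p.n : ℝ) ^ 5 := by
      have : (p.n : ℝ) ^ 5 ≠ 0 := by positivity
      field_simp
    rw [e2] at e1
    have e3 : 0 ≤ (a * c.l + k * (e₁ * c.l)) / (τ - e₁ * c.l) :=
      div_nonneg (by positivity) (by linarith)
    calc _ ≤ (a * c.l + k * (e₁ * c.l)) / (τ - e₁ * c.l) * 11 :=
          mul_le_mul_of_nonneg_left hlog e3
      _ ≤ 4 * (a + k * e₁) / (p.n : ℝ) ^ 5 * 11 := mul_le_mul_of_nonneg_right e1 (by norm_num)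
      _ = 44 * (a + k * e₁) / (p.n : ℝ) ^ 5 := by ring
  refine ⟨key.1.trans ?_, ?_⟩
  · have h3 := hb 3 (by norm_num)
    have h4 : 44 * (a + 3 * e₁) / (p.n : ℝ) ^ 5 ≤ 44 * a / (p.n : ℝ) ^ 5 + 132 * e₁ := by
      have : 44 * (a + 3 * e₁) / (p.n : ℝ) ^ 5 =
        44 * a / (p.n : ℝ) ^ 5 + 132 * e₁ / (p.n : ℝ) ^ 5 := by ring
      rw [this]
      have : 132 * e₁ / (p.n : ℝ) ^ 5 ≤ 132 * e₁ := div_le_self (by positivity) hn5
      linarith
    have h5 : 44 * a / (p.n : ℝ) ^ 5 ≤ 50 * a / (p.n : ℝ) ^ 5 := by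
      apply div_le_div_of_nonneg_right _ (by positivity)
      linarith
    linarith
  · have h2 := key.2
    have e0 : {t | cellk c.h p.W (c.yA • F.b) x (cs (E0 c.h (c.yA • F.b)) p₀ t) - ρ p₀ ≤
        a * c.l} = {t | hkR c.h (dOv F (c.y / 2) c.g) (Icc (x * p.W) ((x + 7 / 32) * p.W))
        ((x + 6 / 32) * p.W) ((x + 1 / 32) * p.W)
        (cs (E0 c.h (dOv F (c.y / 2) c.g)) p₀ t) - ρ p₀ ≤ a * c.l} := rfl
    rw [e0]
    refine h2.trans ?_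
    have h3 := hb 4 (by norm_num)
    have h4 : 44 * (a + 4 * e₁) / (p.n : ℝ) ^ 5 ≤ 44 * a / (p.n : ℝ) ^ 5 + 176 * e₁ := by
      have : 44 * (a + 4 * e₁) / (p.n : ℝ) ^ 5 =
        44 * a / (p.n : ℝ) ^ 5 + 176 * e₁ / (p.n : ℝ) ^ 5 := by ring
      rw [this]
      have : 176 * e₁ / (p.n : ℝ) ^ 5 ≤ 176 * e₁ := div_le_self (by positivity) hn5
      linarith
    have h5 : 44 * a / (p.n : ℝ) ^ 5 ≤ 50 * a / (p.n : ℝ) ^ 5 := by
      apply div_le_div_of_nonneg_right _ (by positivity)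
      linarith
    linarith

end Crest.Agent.R151.CL
end

-- ▼ part R151/CL684e
section

/-!
# R151 / S0214 part 2, CL684e — (T2) for the fences of a configuration (owner helper684)

`ev_innerFence` : median of the inner fence; `ev_fenUp` : UpData of a fence (translation `0`);
`ev_fenT2` : exponential tail of a fence given the strips.
-/

set_option autoImplicit false
set_option maxHeartbeats 400000

open MeasureTheory ProbabilityTheory Filter Set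
open scoped ENNReal
open Crest.ProbabilityR.FirstPassage

namespace Crest.Agent.R151.CL

open Crest.Agent.R151.K
open B710 (FlatData)
open Q (Hwy P0 UU UU2 rg pos rate cF cF_nonneg UpData Geo Rt Jw dOv obK obD obG obJ obLo obUp NS
  PF ski sko rt_out rt_gauge_out rt_lo rt_up rt_inn)
open V (E0 cs posS typ hkR)
open NF
open M56 (mg)
open M192 (RowS PR)

variable {μ : ℝ × ℝ → ℝ} {G : Measure ℝ} {F : FlatData μ} {w0 c0 K : ℝ}

/-- smallness of the lengths with respect to `w W` -/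
structure Sm {p : NF.Num} (c : Cf G F w0 c0 K p) (w : ℝ) : Prop where
  w_pos : 0 < w
  w_le : w ≤ 1
  gw : 1024 * c.g ≤ w * p.W
  w0 : w0 ≤ w / 2 * p.W

/-- median of the inner fence `Icc αi (αi + w W / 2)` -/
theorem ev_innerFence [IsProbabilityMeasure G] (h0 : G (Set.Iio 0) = 0)
    (h2 : Integrable (fun x : ℝ => x ^ 2) G) (hμ : IsTC G μ) (hc0 : 0 < c0)
    (Vf : ℕ → ℝ → ℝ → ℝ → ℝ) :
    Ev fun p => ∀ c : Cf G F w0 c0 K p, ∀ w αi : ℝ, Sm c w → |αi| ≤ Vf p.n p.δ p.v p.e * p.W →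
      (1 : ℝ) / 2 ≤ (PR G).real {q | ski c.h (c.y / 2) (Icc αi (αi + w / 2 * p.W)) c.L αi
        (αi + w / 2 * p.W + c.g) q ≤ 130 / w ^ 3 * c.l} := by
  refine (((ev_lens (G := G) (F := F) (w0 := w0) (c0 := c0) (K := K)).and
    (highway_small (G := G) (F := F) (w0 := w0) (K := K) hc0
      fun _ _ _ _ v' _ _ => 2 + 4 * v')).and
    ((gap_le fun _ _ _ _ _ => 1024).and (le_v' fun n δ v e => Vf n δ v e + 2))).mono ?_
  rintro p ⟨⟨hlen, hhw⟩, hgap, hv'⟩ c w αi hw hαi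
  have hl := hlen c
  have hW : 0 < p.W := zero_lt_one.trans_le hl.W
  have hgap : 1024 * c.g ≤ p.W := hgap
  have hgp := hl.g_pos
  have hwH := hl.wH_eq
  have hmg := mg_nonneg F
  have hcF := cF_nonneg F
  have hκ0 := c.h.κ_nonneg
  have hk := hl.κ_le'
  have hm := hl.mg_le
  have hsl := hl.sl_le
  have hsl0 := hl.sl_nonneg
  have hg1 := hw.gw
  have hlam : (Vf p.n p.δ p.v p.e + 2) * p.W ≤ c.lam := by
    unfold Cf.lam
    exact mul_le_mul_of_nonneg_right hv' hW.le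
  have hL := hl.lam_eq
  have hα := abs_le.1 hαi
  have hrow := hl.row (Cf.htA (c := c) hl.toC)
  have hbe : F.be ((c.y / 2) • F.b) = c.y / 2 := M192.be_smul_b F _
  have hal : F.al ((c.y / 2) • F.b) = 0 := by rw [map_smul, F.al_b, smul_zero]
  have hwW : w * p.W ≤ p.W := by
    have := mul_le_mul_of_nonneg_right hw.w_le hW.le
    linarith
  have hε := c.mean.nonneg
  have hd : c.h.wH + 2 * mg F < F.be ((c.y / 2) • F.b) := by rw [hbe]; exact hrow.2.2.2.1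
  have hs2 : αi + w / 2 * p.W + c.h.κ < αi + w / 2 * p.W + c.g + F.al ((c.y / 2) • F.b) := by
    rw [hal]; linarith
  have hfm := M56.fence_mean' (G := G) (I := Icc αi (αi + w / 2 * p.W)) (α := αi)
    (β := αi + w / 2 * p.W) (s := αi) (s2 := αi + w / 2 * p.W + c.g) (d := (c.y / 2) • F.b)
    c.mean h0 h2 hd measurableSet_Icc le_rfl hs2 subset_rfl (by linarith) hμ
    (y2 := c.y / 2 + c.g) (by rw [hbe]; linarith)
  have hrate : c.P * rate G F (w / 2 * p.W) ≤ 64 / w ^ 3 * c.l := by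
    have := P_rate_near c hl.toC (t := w / 2) (by linarith [hw.w_pos]) (by linarith [hw.w_le])
      hw.w0
    refine this.trans (le_of_eq ?_)
    ring
  have e0 : αi + w / 2 * p.W - αi = w / 2 * p.W := by ring
  have hrate0 : 0 ≤ rate G F (w / 2 * p.W) := C710.rate_nonneg h0 h2 hμ F (by
    have h1 := C710.fn_nonneg F.al
    have h3 := C710.fn_nonneg F.be
    have h4 : mg F = 3 * (C710.fn F.al + C710.fn F.be) + 1 := rfl
    linarith)
  have hy2 : (c.y / 2 + c.g) * rate G F (w / 2 * p.W) ≤ c.P * rate G F (w / 2 * p.W) := by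
    refine mul_le_mul_of_nonneg_right ?_ hrate0
    have := c.P_eq
    linarith
  have hε2 : (αi + w / 2 * p.W + c.g - αi + (αi + w / 2 * p.W) - αi + c.h.κ + 1 +
      F.al ((c.y / 2) • F.b)) * c.ε ≤ 2 * p.W * c.ε := by
    refine mul_le_mul_of_nonneg_right ?_ hε
    rw [hal]
    linarith [hl.one_le_w]
  have hh : (2 + 4 * p.v') * (p.W * c.ε) ≤ c.l := hhw c
  have hLε : (2 * c.L + αi - (αi + w / 2 * p.W + c.g)) * c.ε ≤ 2 * c.L * c.ε := by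
    refine mul_le_mul_of_nonneg_right ?_ hε
    have := mul_pos (half_pos hw.w_pos) hW
    linarith
  have hLe : 2 * c.L * c.ε = 4 * p.v' * (p.W * c.ε) := by rw [c.L_eq]; ring
  have hl1 : c.l ≤ 1 / w ^ 3 * c.l := by
    have : 1 ≤ 1 / w ^ 3 := by
      rw [le_div_iff₀ (by have := hw.w_pos; positivity)]
      have := pow_le_one₀ hw.w_pos.le hw.w_le (n := 3)
      linarith
    have h3 := mul_le_mul_of_nonneg_right this hl.l_pos.le
    linarith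
  have hmean : ∫ q : M192.Row (ℝ × ℝ), c.h.hkY ((c.y / 2) • F.b) (Icc αi (αi + w / 2 * p.W)) αi
      (αi + w / 2 * p.W + c.g) q.1.1 q.1.2 q.2 ∂(M56.nu G) +
      (2 * c.L + αi - (αi + w / 2 * p.W + c.g)) * c.ε ≤ 65 / w ^ 3 * c.l := by
    rw [e0] at hfm
    have e1 : 65 / w ^ 3 * c.l = 64 / w ^ 3 * c.l + 1 / w ^ 3 * c.l := by ring
    rw [e1]
    linarith
  have hmed := V.sk_median (G := G) (h := c.h) (d := (c.y / 2) • F.b) c.mean h0 h2 hd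
    (I := Icc αi (αi + w / 2 * p.W)) measurableSet_Icc (s := αi)
    (s' := αi + w / 2 * p.W + c.g) (σ₁ := αi + w / 4 * p.W) (σ₂ := αi + w / 4 * p.W)
    (by linarith) (by rw [hal]; linarith) (by
      rw [min_self, max_self]
      exact Icc_subset_Icc (by linarith) (by linarith)) hμ (L := c.L) (m := 65 / w ^ 3 * c.l)
    (by linarith) (by linarith) hmean (k := 2) (by norm_num) (by
      have := hw.w_pos
      have := hl.l_pos
      positivity)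
  have e2 : 2 * (65 / w ^ 3 * c.l) = 130 / w ^ 3 * c.l := by ring
  rw [e2] at hmed
  norm_num at hmed ⊢
  exact hmed

/-- **UpData of the fence** `[x W + sl, (x + w) W - sl]` -/
theorem ev_fenUp (Vf : ℕ → ℝ → ℝ → ℝ → ℝ) :
    Ev fun p => ∀ c : Cf G F w0 c0 K p, ∀ x w z f₀ f₁ : ℝ, |x| ≤ Vf p.n p.δ p.v p.e → Sm c w →
      32 * z ≤ w → 32 * c.g ≤ z * p.W →
      x * p.W + c.sl + c.h.κ ≤ f₀ → f₀ ≤ x * p.W + c.sl + c.h.κ + w / 32 * p.W →
      f₀ + (3 * z + w / 2) * p.W + c.g ≤ f₁ → f₁ ≤ f₀ + (3 * z + w / 2 + w / 32) * p.W + c.g →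
      UpData c.h (c.y / 2) c.g 0 c.lam c.L (x * p.W + c.sl + c.h.κ)
        ((x + w) * p.W - c.sl - c.h.κ) (x * p.W + c.sl) ((x + w) * p.W - c.sl)
        (f₀ + 2 * z * p.W) (f₀ + 2 * z * p.W + w / 2 * p.W) (f₀ + 2 * z * p.W)
        (f₀ + 2 * z * p.W + w / 2 * p.W + c.g)
        f₀ (f₀ + z * p.W) f₀ (f₀ + z * p.W + c.g - 0)
        f₁ (f₁ + z * p.W) (f₁ - 0 - c.g) (f₁ + z * p.W + c.g) := by
  refine (((ev_lens (G := G) (F := F) (w0 := w0) (c0 := c0) (K := K)).and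
    (NF.ev_geo (G := G) (F := F) (w0 := w0) (c0 := c0) (K := K)
      fun n δ v e => Vf n δ v e + 1)).and
    ((gap_le fun _ _ _ _ _ => 1024).and (le_v' fun n δ v e => Vf n δ v e + 2))).mono ?_
  rintro p ⟨⟨hlen, hgeo⟩, hgap, hv'⟩ c x w z f₀ f₁ hx hw hz hg2 a1 a2 a3 a4
  have hl := hlen c
  have hW : 0 < p.W := zero_lt_one.trans_le hl.W
  have hgap : 1024 * c.g ≤ p.W := hgap
  have hgp := hl.g_pos
  have hwH := hl.wH_eq
  have hmg := mg_nonneg F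
  have hcF := cF_nonneg F
  have hκ0 := c.h.κ_nonneg
  have hk := hl.κ_le'
  have hm := hl.mg_le
  have hsl := hl.sl_le
  have hsl0 := hl.sl_nonneg
  have hg1 := hw.gw
  have hlam : (Vf p.n p.δ p.v p.e + 2) * p.W ≤ c.lam := by
    unfold Cf.lam
    exact mul_le_mul_of_nonneg_right hv' hW.le
  have hL := hl.lam_eq
  have hV0 : 0 ≤ Vf p.n p.δ p.v p.e := (abs_nonneg x).trans hx
  have hx' := abs_le.1 hx
  have hxW1 : -(Vf p.n p.δ p.v p.e * p.W) ≤ x * p.W := by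
    have := mul_le_mul_of_nonneg_right hx'.1 hW.le
    linarith
  have hxW2 : x * p.W ≤ Vf p.n p.δ p.v p.e * p.W := mul_le_mul_of_nonneg_right hx'.2 hW.le
  have hVW : 0 ≤ Vf p.n p.δ p.v p.e * p.W := mul_nonneg hV0 hW.le
  have hrow := hl.row (Cf.htA (c := c) hl.toC)
  have hyd : c.h.wH + 2 * mg F < c.y / 2 + 2 * c.g := by
    have := hrow.1
    rwa [Q.be_dOv] at this
  have hwW : w * p.W ≤ p.W := by
    have := mul_le_mul_of_nonneg_right hw.w_le hW.le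
    linarith
  have hzW : 32 * (z * p.W) ≤ w * p.W := by
    have := mul_le_mul_of_nonneg_right hz hW.le
    linarith
  have hz0 : 0 ≤ z * p.W := by linarith
  have hg3 : c.h.wH + 2 * mg F + cF F < c.g := by linarith [hl.one_le_w]
  refine
    { geo := hgeo c _ _ (Cf.htA (c := c) hl.toC) 0 (by rw [abs_zero]; positivity)
      hs1 := by linarith
      hs4 := by linarith
      hα₀ := a1
      hβ₀ := by linarith
      ha₀ := by linarith
      hb₀ := by linarith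
      hα₁ := by linarith
      hβ₁ := by linarith
      ha₁ := by linarith
      hb₁ := by linarith
      hαi := by linarith
      hβi := by linarith
      hne0 := ?_
      hne2 := ?_
      hnei := ?_
      hne := ?_
      hneJ := ?_ }
  · refine rt_lo (σ₁ := f₀ + z / 2 * p.W) (σ₂ := f₀ + z / 2 * p.W) hg3 ?_ ?_ ?_ ?_ ?_ ?_ <;>
      linarith
  · refine rt_up (σ₁ := f₁ + z / 2 * p.W) (σ₂ := f₁ + z / 2 * p.W) hg3 ?_ ?_ ?_ ?_ ?_ ?_ <;>
      linarith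
  · refine rt_inn (σ₁ := f₀ + 2 * z * p.W + w / 4 * p.W) (σ₂ := f₀ + 2 * z * p.W + w / 4 * p.W)
      hrow.2.2.2.1 ?_ ?_ ?_ ?_ ?_ ?_ <;>
      linarith
  · refine rt_out (σ₁ := (x + w / 2) * p.W) (σ₂ := (x + w / 2) * p.W) hyd ?_ ?_ ?_
    · linarith
    · linarith
    · rw [min_self, max_self]
      exact Icc_subset_Icc (by linarith) (by linarith)
  · exact rt_gauge_out hyd (by linarith) (by linarith)

/-- **(T2) for the fences**: exponential tail of a fence, given the strips -/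
theorem ev_fenT2 {r₀ : ℝ} (hr : 0 < r₀) [IsProbabilityMeasure (gammaMeasure 1 r₀)]
    (h0 : gammaMeasure 1 r₀ (Set.Iio 0) = 0)
    (h2 : Integrable (fun x : ℝ => x ^ 2) (gammaMeasure 1 r₀)) (hμ : IsTC (gammaMeasure 1 r₀) μ)
    (hc0 : 0 < c0) (Vf : ℕ → ℝ → ℝ → ℝ → ℝ) :
    Ev fun p => ∀ c : Cf (gammaMeasure 1 r₀) F w0 c0 K p,
      ∀ (x w z f₀ f₁ e₁ : ℝ) (ρ : RowS → ℝ), |x| ≤ Vf p.n p.δ p.v p.e → Sm c w →
      32 * z ≤ w → 32 * c.g ≤ z * p.W →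
      x * p.W + c.sl + c.h.κ ≤ f₀ → f₀ ≤ x * p.W + c.sl + c.h.κ + w / 32 * p.W →
      f₀ + (3 * z + w / 2) * p.W + c.g ≤ f₁ → f₁ ≤ f₀ + (3 * z + w / 2 + w / 32) * p.W + c.g →
      0 < e₁ → 16 * e₁ ≤ 1 →
      Measurable ρ → (∀ p₀ t, ρ (cs (E0 c.h (dOv F (c.y / 2) c.g)) p₀ t) = ρ p₀) →
      ∀ p₀ : RowS, p₀ ∈ posS c.h (dOv F (c.y / 2) c.g) →
      p₀ ∈ typ (gammaMeasure 1 r₀) (E0 c.h (dOv F (c.y / 2) c.g)) PF
        (NS (fLo c c.g 0 f₀ (z * p.W)) (e₁ * c.l)) e₁ →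
      p₀ ∈ typ (gammaMeasure 1 r₀) (E0 c.h (dOv F (c.y / 2) c.g)) PF
        (NS (fUp c (c.y / 2) c.g 0 f₁ (z * p.W)) (e₁ * c.l)) e₁ →
      p₀ ∈ typ (gammaMeasure 1 r₀) (E0 c.h (dOv F (c.y / 2) c.g)) PF
        (NS (obJ c.h (c.y / 2) c.g c.lam c.L) (e₁ * c.l)) e₁ →
      p₀ ∈ typ (gammaMeasure 1 r₀) (E0 c.h (dOv F (c.y / 2) c.g)) PF
        (NS (obG c.h (c.y / 2) c.g c.L ρ) (e₁ * c.l)) e₁ →
      ∀ a : ℝ, 0 ≤ a →
      (iidLaw (gammaMeasure 1 r₀)).real {t | a * c.l ≤ fenk c.h p.W c.sl w (c.yA • F.b) x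
        (cs (E0 c.h (c.yA • F.b)) p₀ t) - ρ p₀} ≤ 2 * Real.exp (-(a * w ^ 3 / 1100)) := by
  refine (((ev_lens (G := gammaMeasure 1 r₀) (F := F) (w0 := w0) (c0 := c0) (K := K)).and
    (ev_fenUp (G := gammaMeasure 1 r₀) (F := F) (w0 := w0) (c0 := c0) (K := K) Vf)).and
    (ev_innerFence (G := gammaMeasure 1 r₀) (F := F) (w0 := w0) (c0 := c0) (K := K) h0 h2 hμ hc0
      fun n δ v e => Vf n δ v e + 1)).mono ?_
  rintro p ⟨⟨hlen, hup⟩, hin⟩ c x w z f₀ f₁ e₁ ρ hx hw hz hg2 a1 a2 a3 a4 he he16 hρm hρS p₀ hpos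
    hLo hUp hJ hG a ha
  have hl := hlen c
  have H := hup c x w z f₀ f₁ hx hw hz hg2 a1 a2 a3 a4
  have hW : 0 < p.W := zero_lt_one.trans_le hl.W
  have hlp := hl.l_pos
  have hw0 := hw.w_pos
  have hx' := abs_le.1 hx
  have hκ0 := c.h.κ_nonneg
  have hk := hl.κ_le'
  have hsl := hl.sl_le
  have hsl0 := hl.sl_nonneg
  have hgW := hl.gW
  have hone := hl.one_le_w
  have hxW1 : -(Vf p.n p.δ p.v p.e * p.W) ≤ x * p.W := by
    have := mul_le_mul_of_nonneg_right hx'.1 hW.le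
    linarith
  have hxW2 : x * p.W ≤ Vf p.n p.δ p.v p.e * p.W := mul_le_mul_of_nonneg_right hx'.2 hW.le
  have hzW : 32 * (z * p.W) ≤ p.W := by
    have h3 := mul_le_mul_of_nonneg_right hz hW.le
    have h4 := mul_le_mul_of_nonneg_right hw.w_le hW.le
    linarith
  have hwW : w * p.W ≤ p.W := by
    have := mul_le_mul_of_nonneg_right hw.w_le hW.le
    linarith
  have hz0 : 0 ≤ z * p.W := by linarith [hl.g_pos]
  have hαi : |f₀ + 2 * z * p.W| ≤ (Vf p.n p.δ p.v p.e + 1) * p.W := by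
    rw [abs_le]
    constructor <;> linarith
  have hmed := hin c w (f₀ + 2 * z * p.W) hw hαi
  have hτ0 : 0 ≤ 130 / w ^ 3 * c.l := by positivity
  have hA : 0 < e₁ * c.l := mul_pos he hlp
  have key := Q.T2c hr h0 H hρm hρS (A := e₁ * c.l) (e := e₁) (τ := 130 / w ^ 3 * c.l)
    (q₀ := 1 / 2) (a := a * c.l + e₁ * c.l) (p := p₀) hA he.le hτ0 (by norm_num) (by linarith)
    (by positivity) hpos hLo hUp hJ hG hmed
  have e0 : {t | a * c.l ≤ fenk c.h p.W c.sl w (c.yA • F.b) x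
        (cs (E0 c.h (c.yA • F.b)) p₀ t) - ρ p₀} =
      {t | a * c.l + e₁ * c.l - e₁ * c.l ≤ hkR c.h (dOv F (c.y / 2) c.g)
        (Set.Icc (x * p.W + c.sl + c.h.κ - c.h.κ) ((x + w) * p.W - c.sl - c.h.κ + c.h.κ))
        (x * p.W + c.sl) ((x + w) * p.W - c.sl)
        (cs (E0 c.h (dOv F (c.y / 2) c.g)) p₀ t) - ρ p₀} := by
    have e1 : x * p.W + c.sl + c.h.κ - c.h.κ = x * p.W + c.sl := by ring
    have e2 : (x + w) * p.W - c.sl - c.h.κ + c.h.κ = (x + w) * p.W - c.sl := by ring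
    have e3 : a * c.l + e₁ * c.l - e₁ * c.l = a * c.l := by ring
    rw [e1, e2, e3]
    rfl
  rw [e0]
  refine key.trans ?_
  refine mul_le_mul_of_nonneg_left (Real.exp_le_exp.2 ?_) (by norm_num)
  have hw3 : 0 < w ^ 3 := by positivity
  have hw31 : w ^ 3 ≤ 1 := pow_le_one₀ hw0.le hw.w_le
  have hden : 130 / w ^ 3 * c.l + 6 * (e₁ * c.l) ≤ 131 / w ^ 3 * c.l := by
    have h5 : 6 * e₁ ≤ 1 / w ^ 3 := by
      rw [le_div_iff₀ hw3]
      nlinarith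
    have h6 := mul_le_mul_of_nonneg_right h5 hlp.le
    have h7 : 131 / w ^ 3 * c.l = 130 / w ^ 3 * c.l + 1 / w ^ 3 * c.l := by ring
    linarith
  have hpos2 : 0 < 130 / w ^ 3 * c.l + 6 * (e₁ * c.l) := by positivity
  have h8 : a * w ^ 3 / 131 ≤ (a * c.l + e₁ * c.l) / (130 / w ^ 3 * c.l + 6 * (e₁ * c.l)) := by
    have h9 : a * c.l / (131 / w ^ 3 * c.l) = a * w ^ 3 / 131 := by
      field_simp
    rw [← h9]
    calc a * c.l / (131 / w ^ 3 * c.l) ≤ a * c.l / (130 / w ^ 3 * c.l + 6 * (e₁ * c.l)) :=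
          div_le_div_of_nonneg_left (by positivity) hpos2 hden
      _ ≤ _ := div_le_div_of_nonneg_right (by linarith) hpos2.le
  have h10 : 0 ≤ a * w ^ 3 := by positivity
  have h11 : -(1 / 2 / 4) * ((a * c.l + e₁ * c.l) / (130 / w ^ 3 * c.l + 6 * (e₁ * c.l))) ≤
      -(1 / 8) * (a * w ^ 3 / 131) := by
    have := mul_le_mul_of_nonneg_left h8 (by norm_num : (0 : ℝ) ≤ 1 / 8)
    linarith
  linarith

end Crest.Agent.R151.CL
end

-- ▼ part R151/CL684f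
section

/-!
# R151 / S0214 part 2, CL684f — conditional inputs of the row law (owner helper684)

`GT c S ρ e₁ z η R N` : what is needed from the typical strips `S`; `ev_hsm`, `ev_htl`.
-/

set_option autoImplicit false
set_option maxHeartbeats 400000

open MeasureTheory ProbabilityTheory Filter Set
open scoped ENNReal
open Crest.ProbabilityR.FirstPassage

namespace Crest.Agent.R151.CL

open Crest.Agent.R151.K
open B710 (FlatData)
open Q (Hwy P0 UU UU2 rg pos rate cF cF_nonneg UpData Geo Rt Jw dOv obK obD obG obJ obLo obUp NS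
  PF ski sko rt_out rt_gauge_out rt_lo rt_up rt_inn)
open V (E0 cs posS typ hkR SInv)
open NF
open M56 (mg)
open M192 (RowS PR)

variable {μ : ℝ × ℝ → ℝ} {G : Measure ℝ} {F : FlatData μ} {w0 c0 K : ℝ}

/-- **typical strips**: `e₁` = level and thresholds, `z W` = width of the gap fences, `η` = mesh of
the grids, `R` = range of the grids (units of `W`), `N` = box -/
structure GT {p : NF.Num} (c : Cf G F w0 c0 K p) (S : Set RowS) (ρ : RowS → ℝ) (e₁ z η R : ℝ)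
    (N : ℕ) : Prop where
  meas : MeasurableSet S
  sinv : SInv (E0 c.h (dOv F (c.y / 2) c.g)) S
  pos : S ⊆ posS c.h (dOv F (c.y / 2) c.g)
  ρm : Measurable ρ
  ρS : ∀ p₀ t, ρ (cs (E0 c.h (dOv F (c.y / 2) c.g)) p₀ t) = ρ p₀
  N_ge : 2 * c.L * ‖F.a‖ + p.W * ‖F.b‖ + 1 ≤ N
  tD : S ⊆ typ G (E0 c.h (dOv F (c.y / 2) c.g)) PF (NS (obD F (c.y / 2) c.g N) (e₁ * p.W)) e₁
  tG : S ⊆ typ G (E0 c.h (dOv F (c.y / 2) c.g)) PF
    (NS (obG c.h (c.y / 2) c.g c.L ρ) (e₁ * c.l)) e₁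
  tJ : S ⊆ typ G (E0 c.h (dOv F (c.y / 2) c.g)) PF
    (NS (obJ c.h (c.y / 2) c.g c.lam c.L) (e₁ * c.l)) e₁
  tK : ∀ r : ℝ, |r| ≤ R * p.W → ∃ cg, r ≤ cg ∧ cg ≤ r + η * p.W ∧
    S ⊆ typ G (E0 c.h (dOv F (c.y / 2) c.g)) PF
      (NS (obK c.h (c.y / 2) c.g cg c.lam c.L) (e₁ * c.l)) e₁
  tLo : ∀ r : ℝ, |r| ≤ R * p.W → ∃ f, r ≤ f ∧ f ≤ r + η * p.W ∧
    S ⊆ typ G (E0 c.h (dOv F (c.y / 2) c.g)) PF
      (NS (fLo c c.g 0 f (z * p.W)) (e₁ * c.l)) e₁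
  tUp : ∀ r : ℝ, |r| ≤ R * p.W → ∃ f, r ≤ f ∧ f ≤ r + η * p.W ∧
    S ⊆ typ G (E0 c.h (dOv F (c.y / 2) c.g)) PF
      (NS (fUp c (c.y / 2) c.g 0 f (z * p.W)) (e₁ * c.l)) e₁

/-- (T1) for the cells of `GT` -/
theorem ev_gtT1 {r₀ : ℝ} (hr : 0 < r₀) [IsProbabilityMeasure (gammaMeasure 1 r₀)]
    (h0 : gammaMeasure 1 r₀ (Set.Iio 0) = 0) (hμ : B710.NormLike μ) (Vf : ℕ → ℝ → ℝ → ℝ → ℝ) :
    ∃ e₂ : ℝ, 0 < e₂ ∧ Ev fun p => ∀ (c : Cf (gammaMeasure 1 r₀) F w0 c0 K p) (S : Set RowS)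
      (ρ : RowS → ℝ) (e₁ z η R : ℝ) (N : ℕ), GT c S ρ e₁ z η R N →
      0 < e₁ → 16 * p.n ^ 5 * e₁ ≤ 1 → e₁ ≤ e₂ → 64 * η ≤ 1 → Vf p.n p.δ p.v p.e + 1 ≤ R →
      ∀ x : ℝ, |x| ≤ Vf p.n p.δ p.v p.e → ∀ p₀ ∈ S, ∀ a : ℝ, 0 ≤ a →
      (iidLaw (gammaMeasure 1 r₀)).real {t | sko c.h (c.y / 2) c.g
        (Icc (x * p.W) ((x + 7 / 32) * p.W)) c.L ((x + 6 / 32) * p.W) ((x + 1 / 32) * p.W)
        (cs (E0 c.h (dOv F (c.y / 2) c.g)) p₀ t) ≤ a * c.l} ≤ 50 * a / p.n ^ 5 + 150 * e₁ ∧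
      (iidLaw (gammaMeasure 1 r₀)).real {t | cellk c.h p.W (c.yA • F.b) x
        (cs (E0 c.h (c.yA • F.b)) p₀ t) - ρ p₀ ≤ a * c.l} ≤ 50 * a / p.n ^ 5 + 250 * e₁ := by
  obtain ⟨e₂, he₂, h⟩ := ev_cellT1 (F := F) (w0 := w0) (c0 := c0) (K := K) hr h0 hμ Vf
  refine ⟨e₂, he₂, (h.and Ev.std).mono ?_⟩
  rintro p ⟨h, hp⟩ c S ρ e₁ z η R N gt he1 he2 he3 hη hR x hx p₀ hp₀ a ha
  have hW : 0 < p.W := zero_lt_one.trans_le hp.W
  have hx' := abs_le.1 hx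
  have hRW := mul_le_mul_of_nonneg_right hR hW.le
  have hηW := mul_le_mul_of_nonneg_right hη hW.le
  have hxW1 : -(Vf p.n p.δ p.v p.e * p.W) ≤ x * p.W := by
    have := mul_le_mul_of_nonneg_right hx'.1 hW.le
    linarith
  have hxW2 : x * p.W ≤ Vf p.n p.δ p.v p.e * p.W := mul_le_mul_of_nonneg_right hx'.2 hW.le
  obtain ⟨cg, h1, h2, h3⟩ := gt.tK ((x + 5 / 32) * p.W + p.W / 128) (by
    rw [abs_le]; constructor <;> linarith)
  exact h c x cg e₁ N ρ hx h1 (by linarith) gt.N_ge he1 he2 he3 gt.ρm gt.ρS p₀ (gt.pos hp₀)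
    (h3 hp₀) (gt.tD hp₀) (gt.tG hp₀) a ha

/-- (T2) for the fences of `GT` -/
theorem ev_gtT2 {r₀ : ℝ} (hr : 0 < r₀) [IsProbabilityMeasure (gammaMeasure 1 r₀)]
    (h0 : gammaMeasure 1 r₀ (Set.Iio 0) = 0)
    (h2 : Integrable (fun x : ℝ => x ^ 2) (gammaMeasure 1 r₀)) (hμ : IsTC (gammaMeasure 1 r₀) μ)
    (hc0 : 0 < c0) (Vf : ℕ → ℝ → ℝ → ℝ → ℝ) :
    Ev fun p => ∀ (c : Cf (gammaMeasure 1 r₀) F w0 c0 K p) (S : Set RowS)
      (ρ : RowS → ℝ) (e₁ z η R : ℝ) (N : ℕ), GT c S ρ e₁ z η R N →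
      0 < e₁ → 16 * e₁ ≤ 1 → ∀ x w : ℝ, |x| ≤ Vf p.n p.δ p.v p.e → Sm c w → 32 * z ≤ w →
      32 * c.g ≤ z * p.W → 32 * η ≤ w → Vf p.n p.δ p.v p.e + 2 ≤ R → ∀ p₀ ∈ S, ∀ a : ℝ, 0 ≤ a →
      (iidLaw (gammaMeasure 1 r₀)).real {t | a * c.l ≤ fenk c.h p.W c.sl w (c.yA • F.b) x
        (cs (E0 c.h (c.yA • F.b)) p₀ t) - ρ p₀} ≤ 2 * Real.exp (-(a * w ^ 3 / 1100)) := by
  refine ((ev_fenT2 (F := F) (w0 := w0) (c0 := c0) (K := K) hr h0 h2 hμ hc0 Vf).and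
    (ev_lens (G := gammaMeasure 1 r₀) (F := F) (w0 := w0) (c0 := c0) (K := K))).mono ?_
  rintro p ⟨h, hlen⟩ c S ρ e₁ z η R N gt he1 he2 x w hx hw hz hg hη hR p₀ hp₀ a ha
  have hl := hlen c
  have hW : 0 < p.W := zero_lt_one.trans_le hl.W
  have hx' := abs_le.1 hx
  have hRW := mul_le_mul_of_nonneg_right hR hW.le
  have hηW := mul_le_mul_of_nonneg_right hη hW.le
  have hzW := mul_le_mul_of_nonneg_right hz hW.le
  have hwW := mul_le_mul_of_nonneg_right hw.w_le hW.le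
  have hκ0 := c.h.κ_nonneg
  have hk := hl.κ_le'
  have hsl := hl.sl_le
  have hsl0 := hl.sl_nonneg
  have hgW := hl.gW
  have hg0 := hl.g_pos
  have hone := hl.one_le_w
  have hxW1 : -(Vf p.n p.δ p.v p.e * p.W) ≤ x * p.W := by
    have := mul_le_mul_of_nonneg_right hx'.1 hW.le
    linarith
  have hxW2 : x * p.W ≤ Vf p.n p.δ p.v p.e * p.W := mul_le_mul_of_nonneg_right hx'.2 hW.le
  have hw0 : 0 < w * p.W := mul_pos hw.w_pos hW
  obtain ⟨f₀, a1, a2, a3⟩ := gt.tLo (x * p.W + c.sl + c.h.κ) (by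
    rw [abs_le]; constructor <;> linarith)
  obtain ⟨f₁, b1, b2, b3⟩ := gt.tUp (f₀ + (3 * z + w / 2) * p.W + c.g) (by
    rw [abs_le]; constructor <;> linarith)
  exact h c x w z f₀ f₁ e₁ ρ hx hw hz hg a1 (by linarith) b1 (by linarith) he1 he2 gt.ρm gt.ρS p₀
    (gt.pos hp₀) (a3 hp₀) (b3 hp₀) (gt.tJ hp₀) (gt.tG hp₀) a ha

/-- numerics of the fences of width `1 / 32` and `1 / (4 n)` -/
theorem ev_sm : Ev fun p => ∀ (c : Cf G F w0 c0 K p) (w : ℝ), (w = 1 / 32 ∨ w = 1 / (4 * p.n)) →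
    Sm c w ∧ 32 * (p.δ / 16) ≤ w ∧ 32 * (p.δ / 128) ≤ w ∧ 32 * c.g ≤ p.δ / 16 * p.W := by
  refine (((ev_lens (G := G) (F := F) (w0 := w0) (c0 := c0) (K := K)).and
    (le_δ fun n => 8 * n + 64)).and
    (((gap_le fun n _ _ _ _ => 4096 * n + 32768).and (gap_le fun n δ _ _ _ => 512 / δ)).and
    (le_W fun n _ _ _ _ _ _ _ => (8 * n + 64) * |w0|))).mono ?_
  rintro p ⟨⟨hlen, hδ⟩, ⟨hg1, hg2⟩, hW0⟩ c w hw
  have hl := hlen c
  have hW : 0 < p.W := zero_lt_one.trans_le hl.W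
  have hn1 : (1 : ℝ) ≤ p.n := by exact_mod_cast hl.n
  have hδ0 := hl.δ_pos
  have hg0 := hl.g_pos
  have hg1 : (4096 * p.n + 32768) * c.g ≤ p.W := hg1
  have hg2 : 512 / p.δ * c.g ≤ p.W := hg2
  have hab := abs_nonneg w0
  have hab2 := le_abs_self w0
  have h4 : 32 * c.g ≤ p.δ / 16 * p.W := by
    rw [div_mul_eq_mul_div, div_le_iff₀ hδ0] at hg2
    linarith
  have hng : 0 ≤ (p.n : ℝ) * c.g := by positivity
  have hnw : 0 ≤ (p.n : ℝ) * |w0| := by positivity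
  have hnδ : 0 ≤ (p.n : ℝ) * p.δ := by positivity
  rcases hw with rfl | rfl
  · refine ⟨⟨by norm_num, by norm_num, by linarith, ?_⟩, by linarith, by linarith, h4⟩
    linarith
  · have h5 : 0 < 4 * (p.n : ℝ) := by linarith
    refine ⟨⟨by positivity, ?_, ?_, ?_⟩, ?_, ?_, h4⟩
    · rw [div_le_one h5]; linarith
    · rw [div_mul_eq_mul_div, le_div_iff₀ h5]
      linarith
    · rw [div_div, div_mul_eq_mul_div, le_div_iff₀ (by linarith)]
      nlinarith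
    · rw [le_div_iff₀ h5]
      linarith
    · rw [le_div_iff₀ h5]
      linarith

/-- **conditional small balls of the cells**, in the form of `E191.law_of_cond` -/
theorem ev_hsm {r₀ : ℝ} (hr : 0 < r₀) [IsProbabilityMeasure (gammaMeasure 1 r₀)]
    (h0 : gammaMeasure 1 r₀ (Set.Iio 0) = 0) (hμ : B710.NormLike μ) :
    Ev fun p => ∀ (c : Cf (gammaMeasure 1 r₀) F w0 c0 K p) (S : Set RowS)
      (ρ : RowS → ℝ) (R : ℝ) (N : ℕ), GT c S ρ (p.e ^ 2) (p.δ / 16) (p.δ / 128) R N →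
      p.v + 1 / p.e + 1 ≤ R → ∀ x : ℝ, |x| ≤ p.v + 1 / p.e → ∀ p₀ ∈ S, ∀ y' : ℝ, 0 ≤ y' →
      (iidLaw (gammaMeasure 1 r₀)).real {t | cellk c.h p.W (c.yA • F.b) x
        (cs (E0 c.h (c.yA • F.b)) p₀ t) - ρ p₀ ≤ y' * c.l} ≤
        1100 * y' / (p.n : ℝ) ^ 5 + 250 * p.e ^ 2 := by
  obtain ⟨e₂, he₂, h⟩ := ev_gtT1 (F := F) (w0 := w0) (c0 := c0) (K := K) hr h0 hμ
    fun _ _ v e => v + 1 / e
  refine ((h.and Ev.std).and (le_e fun n _ _ => 16 * (n : ℝ) ^ 5 + 1 / e₂)).mono ?_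
  rintro p ⟨⟨h, hp⟩, he⟩ c S ρ R N gt hR x hx p₀ hp₀ y' hy'
  have he0 := hp.e_pos
  have he1 := hp.e_le
  have hδ1 := hp.δ_le
  have hn0 : 0 ≤ (p.n : ℝ) ^ 5 := by positivity
  have h1 : 0 < 1 / e₂ := by positivity
  have hee : p.e ^ 2 ≤ p.e := by nlinarith
  have h3 : 16 * (p.n : ℝ) ^ 5 * p.e ^ 2 ≤ 1 := by
    have : 16 * (p.n : ℝ) ^ 5 * p.e ^ 2 ≤ 16 * (p.n : ℝ) ^ 5 * p.e :=
      mul_le_mul_of_nonneg_left hee (by positivity)
    have : 0 ≤ 1 / e₂ * p.e := by positivity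
    linarith
  have h4 : p.e ^ 2 ≤ e₂ := by
    have h5 : 1 / e₂ * p.e ≤ 1 := by
      have : 0 ≤ 16 * (p.n : ℝ) ^ 5 * p.e := by positivity
      linarith
    rw [div_mul_eq_mul_div, div_le_one he₂, one_mul] at h5
    linarith
  have h6 := (h c S ρ (p.e ^ 2) (p.δ / 16) (p.δ / 128) R N gt (by positivity) h3 h4
    (by linarith) hR x hx p₀ hp₀ y' hy').2
  refine h6.trans ?_
  have h7 : 50 * y' / (p.n : ℝ) ^ 5 ≤ 1100 * y' / (p.n : ℝ) ^ 5 :=
    div_le_div_of_nonneg_right (by linarith) hn0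
  linarith

/-- **conditional tails of the fences**, in the form of `E191.law_of_cond` -/
theorem ev_htl {r₀ : ℝ} (hr : 0 < r₀) [IsProbabilityMeasure (gammaMeasure 1 r₀)]
    (h0 : gammaMeasure 1 r₀ (Set.Iio 0) = 0)
    (h2 : Integrable (fun x : ℝ => x ^ 2) (gammaMeasure 1 r₀)) (hμ : IsTC (gammaMeasure 1 r₀) μ)
    (hc0 : 0 < c0) :
    Ev fun p => ∀ (c : Cf (gammaMeasure 1 r₀) F w0 c0 K p) (S : Set RowS)
      (ρ : RowS → ℝ) (R : ℝ) (N : ℕ), GT c S ρ (p.e ^ 2) (p.δ / 16) (p.δ / 128) R N →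
      p.v + 1 / p.e + 2 ≤ R → ∀ w x : ℝ, (w = 1 / 32 ∨ w = 1 / (4 * p.n)) → |x| ≤ p.v + 1 / p.e →
      ∀ p₀ ∈ S, ∀ y' : ℝ, 0 ≤ y' →
      (iidLaw (gammaMeasure 1 r₀)).real {t | y' * (1100 / w ^ 3) * c.l ≤
        fenk c.h p.W c.sl w (c.yA • F.b) x (cs (E0 c.h (c.yA • F.b)) p₀ t) - ρ p₀} ≤
        1100 * Real.exp (-y' / 1100) := by
  refine (((ev_gtT2 (F := F) (w0 := w0) (c0 := c0) (K := K) hr h0 h2 hμ hc0
    fun _ _ v e => v + 1 / e).and Ev.std).and ((le_e fun _ _ _ => 16).and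
    (ev_sm (G := gammaMeasure 1 r₀) (F := F) (w0 := w0) (c0 := c0) (K := K)))).mono ?_
  rintro p ⟨⟨h, hp⟩, he, hsm⟩ c S ρ R N gt hR w x hw hx p₀ hp₀ y' hy'
  obtain ⟨h1, h3, h4, h5⟩ := hsm c w hw
  have he0 := hp.e_pos
  have he1 := hp.e_le
  have hw0 := h1.w_pos
  have hee : p.e ^ 2 ≤ p.e := by nlinarith
  have hw3 : 0 < w ^ 3 := by positivity
  have h6 := h c S ρ (p.e ^ 2) (p.δ / 16) (p.δ / 128) R N gt (by positivity) (by linarith) x w hx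
    h1 h3 h5 h4 hR p₀ hp₀ (y' * (1100 / w ^ 3)) (by positivity)
  refine h6.trans ?_
  have e1 : y' * (1100 / w ^ 3) * w ^ 3 / 1100 = y' := by field_simp
  rw [e1]
  have h7 : Real.exp (-y') ≤ Real.exp (-y' / 1100) := by
    apply Real.exp_le_exp.2
    linarith
  have h8 := Real.exp_pos (-y' / 1100)
  linarith

end Crest.Agent.R151.CL
end

-- ▼ part R151/CL684g

/-!
# R151 / S0214 part 2, CL684g — assembly of the field `law` (owner helper684)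

`ev_law_of` : `E191.law_of_cond` with the conditional inputs `ev_hsm`, `ev_htl` (684), `window`,
`lane` (78), `F_int` (52); open: typical strips `GT`/`TOK`, `T_prob`, `F_ui`.
Positions up to `v + 1 / e`.
-/

set_option autoImplicit false
set_option maxHeartbeats 400000

open MeasureTheory ProbabilityTheory Filter Set
open scoped ENNReal
open Crest.ProbabilityR.FirstPassage

namespace Crest.Agent.R151.CL

open Crest.Agent.R151.K
open B710 (FlatData)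
open Q (Hwy P0 UU UU2)
open NF
open M192 (RowS PR)

variable {μ : ℝ × ℝ → ℝ} {F : FlatData μ} {w0 c0 K : ℝ}

/-- **assembly of the law** -/
theorem ev_law_of {r₀ : ℝ} (hr : 0 < r₀) [IsProbabilityMeasure (gammaMeasure 1 r₀)]
    (h0 : gammaMeasure 1 r₀ (Set.Iio 0) = 0)
    (h2 : Integrable (fun x : ℝ => x ^ 2) (gammaMeasure 1 r₀)) (hμ : IsTC (gammaMeasure 1 r₀) μ)
    (hn : B710.NormLike μ) (hc0 : 0 < c0) (hK : 0 ≤ K) :
    Ev fun p => ∀ (c : Cf (gammaMeasure 1 r₀) F w0 c0 K p) (S T : Set RowS)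
      (ρ : RowS → ℝ) (R : ℝ) (N : ℕ), GT c S ρ (p.e ^ 2) (p.δ / 16) (p.δ / 128) R N →
      p.v + 1 / p.e + 2 ≤ R → E191.TOK c.h (c.yA • F.b) S ρ →
      T = E191.trow c.h (c.yA • F.b) c.L S ρ (p.e ^ 2 * c.l) →
      (nuR (gammaMeasure 1 r₀)).real Tᶜ ≤ p.e →
      (∀ x : ℝ, |x| ≤ p.v + 1 / p.e → ∫ ω in Tᶜ, (c.rowA T).F (1 / (4 * p.n)) x ω
        ∂(nuR (gammaMeasure 1 r₀)) ≤ p.e) →
      (c.rowA T).Law (nuR (gammaMeasure 1 r₀)) c.mB (E191.CF 1100) p.n p.δ (p.v + 1 / p.e) p.e := by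
  have a1 := ev_hsm (F := F) (w0 := w0) (c0 := c0) (K := K) hr h0 hn
  have a2 := ev_htl (F := F) (w0 := w0) (c0 := c0) (K := K) hr h0 h2 hμ hc0
  have a3 := R78.ev_slack (gammaMeasure 1 r₀) F w0 c0 hK fun _ _ v e => v + 1 / e
  have a4 := R78.ev_planar (gammaMeasure 1 r₀) F w0 c0 hK fun _ _ v e => v + 1 / e
  have a5 := V.ev_F_int (F := F) (w0 := w0) (c0 := c0) (K := K) h0 h2
  have a6 := le_e fun n _ _ => 250 * (n : ℝ) ^ 5 + 2000
  refine (((a1.and a2).and (a3.and a4)).and ((a5.and a6).and Ev.std)).mono ?_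
  rintro p ⟨⟨⟨a1, a2⟩, a3, a4⟩, ⟨a5, a6⟩, hp⟩ c S T ρ R N gt hR hT hTT T_prob F_ui
  have he0 := hp.e_pos
  have he1 := hp.e_le
  have hv := hp.v
  have hie : 0 < 1 / p.e := by positivity
  have hn0 : 0 ≤ (p.n : ℝ) ^ 5 := by positivity
  have hne : 0 ≤ (p.n : ℝ) ^ 5 * p.e := by positivity
  obtain ⟨hs, -, hO⟩ := a3 c
  obtain ⟨w1, w2⟩ := a4 c T
  have b1 : 250 * p.e ^ 2 * (p.n : ℝ) ^ 5 ≤ 1 := by
    have : 250 * p.e ^ 2 * (p.n : ℝ) ^ 5 = 250 * ((p.n : ℝ) ^ 5 * p.e) * p.e := by ring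
    rw [this]
    have h5 : 250 * ((p.n : ℝ) ^ 5 * p.e) ≤ 1 := by linarith
    nlinarith
  have b2 : 1100 * p.e ^ 2 + 250 * p.e ^ 2 ≤ p.e := by
    have h5 : 2000 * p.e ≤ 1 := by linarith
    nlinarith
  exact E191.law_of_cond (n := p.n) h0 (hO (by linarith)) hs.small hp.n hT
    (A := p.e ^ 2) (C1 := 1100) (e1 := 250 * p.e ^ 2) (e := p.e) (T := T) (by positivity)
    (by nlinarith) (by norm_num) (by positivity) b1 b2 hTT T_prob
    (fun x hx _ => ae_of_all _ fun q hq y' hy' => a1 c S ρ R N gt (by linarith) x hx q hq y' hy')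
    (fun w x hw hx => ae_of_all _ fun q hq y' hy' => a2 c S ρ R N gt hR w x hw hx q hq y' hy')
    (fun x _ => a5 c T _ x) F_ui (fun q _ s t x m hs ht htx hxs => w1 q s t x m hs ht htx hxs)
    (fun q _ x hx1 hx2 => w2 q x hx1 hx2)

end Crest.Agent.R151.CL
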