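import Crest.Agent.R151.B710
import Crest.Agent.R151.K1c

/-!
# R151 / S0213, D411a: geometry of a smooth norm with the symmetries of the square lattice

`SmoothNorm μ`: `μ` is norm-like, invariant under the symmetries of the lattice and differentiable
off `0`.

* `exists_slope`: there is `0 < m < 1` such that the diagonal facets are in the open cones
  `m < slope < 1/m` and the axial facets in `|slope| < m`.
* `exists_diag`: if `μ v - ρ v` is small compared with `|v|` (`ρ` the gradient at a diagonal vector)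
  then `v` is in the corresponding diagonal cone.
* `exists_pair`: if `u` is in the sector of the axis direction `d` and `μ (u + w)` is close to
  `μ u + μ w` then `w` is also in a (wider) sector of `d`.
-/

set_option autoImplicit false

namespace Crest.Agent.R151.D411

open Filter Topology Set
open Crest.Agent.R151.B710
open Crest.Agent.R151.K (l1 toR n1)

/-- A norm with the symmetries of the square lattice which is differentiable off `0`. -/
structure SmoothNorm (μ : ℝ × ℝ → ℝ) : Prop where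
  norm : NormLike μ
  swap : ∀ x y, μ (y, x) = μ (x, y)
  refl : ∀ x y, μ (-x, y) = μ (x, y)
  diff : ∀ v : ℝ × ℝ, v ≠ 0 → DifferentiableAt ℝ μ v

/-- Two linear functionals below a norm that touch it at the same point are equal, if the norm is
differentiable there. -/
theorem grad_unique {μ : ℝ × ℝ → ℝ} {ρ ρ' : ℝ × ℝ →L[ℝ] ℝ} {v : ℝ × ℝ}
    (hd : DifferentiableAt ℝ μ v) (hρ : ∀ w, ρ w ≤ μ w) (hρ' : ∀ w, ρ' w ≤ μ w)
    (h1 : ρ v = μ v) (h2 : ρ' v = μ v) : ρ = ρ' := by
  have key : ∀ σ : ℝ × ℝ →L[ℝ] ℝ, (∀ w, σ w ≤ μ w) → σ v = μ v → σ = fderiv ℝ μ v := by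
    intro σ hσ h
    have hmin : IsLocalMin (fun w => μ w - σ w) v := by
      refine Filter.Eventually.of_forall fun w => ?_
      have := hσ w
      simp only [h]
      linarith
    have h0 := hmin.fderiv_eq_zero
    rw [fderiv_fun_sub hd σ.differentiableAt, ContinuousLinearMap.fderiv] at h0
    exact (sub_eq_zero.1 h0).symm
  rw [key ρ hρ h1, key ρ' hρ' h2]

/-- the functional `(p, q)` -/
noncomputable def lfun (p q : ℝ) : ℝ × ℝ →L[ℝ] ℝ :=
  p • ContinuousLinearMap.fst ℝ ℝ ℝ + q • ContinuousLinearMap.snd ℝ ℝ ℝ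

@[simp] theorem lfun_apply (p q : ℝ) (v : ℝ × ℝ) : lfun p q v = p * v.1 + q * v.2 := by
  simp [lfun]

theorem lfun_inj {p q p' q' : ℝ} (h : lfun p q = lfun p' q') : p = p' ∧ q = q' := by
  constructor
  · have := congrArg (fun f => f (1, 0)) h
    simpa using this
  · have := congrArg (fun f => f (0, 1)) h
    simpa using this

/-- a positive homogeneous continuous function that is positive on a closed cone is bounded below
there by a multiple of the norm -/
theorem exists_lower {E : Type*} [NormedAddCommGroup E] [NormedSpace ℝ E] [ProperSpace E]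
    {f : E → ℝ} (hf : Continuous f) (hhom : ∀ (s : ℝ) (v : E), 0 ≤ s → f (s • v) = s * f v)
    {K : Set E} (hK : IsClosed K) (hcone : ∀ v ∈ K, ∀ s : ℝ, 0 < s → s • v ∈ K)
    (hpos : ∀ v ∈ K, v ≠ 0 → 0 < f v) : ∃ c, 0 < c ∧ ∀ v ∈ K, c * ‖v‖ ≤ f v := by
  have hf0 : f 0 = 0 := by
    have := hhom 0 0 le_rfl
    simpa using this
  set S : Set E := Metric.sphere 0 1 ∩ K with hS
  have hSc : IsCompact S := (isCompact_sphere (0 : E) 1).inter_right hK
  rcases S.eq_empty_or_nonempty with he | hne
  · refine ⟨1, one_pos, fun v hv => ?_⟩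
    by_cases hv0 : v = 0
    · subst hv0
      simp [hf0]
    · exfalso
      have hn : 0 < ‖v‖ := norm_pos_iff.mpr hv0
      have : ‖v‖⁻¹ • v ∈ S :=
        ⟨by simp [norm_smul, hn.ne'], hcone v hv _ (by positivity)⟩
      rw [he] at this
      exact this
  · obtain ⟨v0, hv0, hmin⟩ := hSc.exists_isMinOn hne hf.continuousOn
    have hv00 : v0 ≠ 0 := by
      rintro rfl
      have := hv0.1
      simp at this
    have hpos0 := hpos v0 hv0.2 hv00
    refine ⟨f v0, hpos0, fun v hv => ?_⟩
    by_cases hv0' : v = 0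
    · subst hv0'
      simp [hf0]
    · have hn : 0 < ‖v‖ := norm_pos_iff.mpr hv0'
      have hm : ‖v‖⁻¹ • v ∈ S :=
        ⟨by simp [norm_smul, hn.ne'], hcone v hv _ (by positivity)⟩
      have h1 : f v0 ≤ f (‖v‖⁻¹ • v) := hmin hm
      rw [hhom _ _ (by positivity)] at h1
      calc f v0 * ‖v‖ ≤ (‖v‖⁻¹ * f v) * ‖v‖ := mul_le_mul_of_nonneg_right h1 hn.le
        _ = f v := by field_simp

/-- the four axis directions -/
inductive Ax
  | E | N | W | S
  deriving DecidableEq

/-- the coordinate in the axis direction -/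
def al : Ax → ℝ × ℝ → ℝ
  | .E, z => z.1
  | .N, z => z.2
  | .W, z => -z.1
  | .S, z => -z.2

/-- the transversal coordinate -/
def be : Ax → ℝ × ℝ → ℝ
  | .E, z => z.2
  | .N, z => z.1
  | .W, z => z.2
  | .S, z => z.1

/-- the closed sector of the axis direction `d` -/
def Sec (m : ℝ) (d : Ax) (z : ℝ × ℝ) : Prop := m * |be d z| ≤ al d z

theorem continuous_al (d : Ax) : Continuous (al d) := by
  cases d
  · exact continuous_fst
  · exact continuous_snd
  · exact continuous_fst.neg
  · exact continuous_snd.neg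

theorem continuous_be (d : Ax) : Continuous (be d) := by
  cases d
  · exact continuous_snd
  · exact continuous_fst
  · exact continuous_snd
  · exact continuous_fst

theorem al_add (d : Ax) (u v : ℝ × ℝ) : al d (u + v) = al d u + al d v := by
  cases d <;> simp [al] <;> ring

theorem al_smul (d : Ax) (s : ℝ) (v : ℝ × ℝ) : al d (s • v) = s * al d v := by
  cases d <;> simp [al]

theorem be_smul (d : Ax) (s : ℝ) (v : ℝ × ℝ) : be d (s • v) = s * be d v := by
  cases d <;> simp [be]

theorem abs_al_add_abs_be (d : Ax) (v : ℝ × ℝ) : |al d v| + |be d v| = l1 v := by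
  cases d <;> simp [al, be, l1, add_comm]

theorem Sec.smul {m : ℝ} {d : Ax} {z : ℝ × ℝ} (h : Sec m d z) {s : ℝ} (hs : 0 ≤ s) :
    Sec m d (s • z) := by
  unfold Sec at *
  rw [al_smul, be_smul, abs_mul, abs_of_nonneg hs]
  nlinarith [mul_le_mul_of_nonneg_left h hs]

theorem l1_pos {v : ℝ × ℝ} (hv : v ≠ 0) : 0 < l1 v := by
  unfold l1
  by_contra hcon
  push Not at hcon
  have h1 : |v.1| = 0 := le_antisymm (by linarith [abs_nonneg v.2]) (abs_nonneg _)
  have h2 : |v.2| = 0 := le_antisymm (by linarith [abs_nonneg v.1]) (abs_nonneg _)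
  exact hv (Prod.ext (abs_eq_zero.mp h1) (abs_eq_zero.mp h2))

theorem Sec.al_pos {m : ℝ} (hm : 0 < m) {d : Ax} {z : ℝ × ℝ} (h : Sec m d z) (hz : z ≠ 0) :
    0 < al d z := by
  unfold Sec at h
  have h0 : 0 ≤ al d z := (by positivity : (0 : ℝ) ≤ m * |be d z|).trans h
  rcases h0.eq_or_lt with h1 | h1
  · exfalso
    rw [← h1] at h
    have h2 : |be d z| = 0 := by
      have := abs_nonneg (be d z)
      nlinarith
    have h3 := abs_al_add_abs_be d z
    rw [← h1, h2] at h3
    have := l1_pos hz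
    simp at h3
    linarith
  · exact h1

theorem Sec.lower {m : ℝ} (hm : 0 < m) {d : Ax} {z : ℝ × ℝ} (h : Sec m d z) :
    m / (1 + m) * l1 z ≤ al d z := by
  unfold Sec at h
  rw [← abs_al_add_abs_be d z, div_mul_eq_mul_div, div_le_iff₀ (by linarith)]
  have h0 : 0 ≤ al d z := (by positivity : (0 : ℝ) ≤ m * |be d z|).trans h
  rw [abs_of_nonneg h0]
  nlinarith


namespace SmoothNorm

variable {μ : ℝ × ℝ → ℝ} (h : SmoothNorm μ)
include h

theorem refl' (x y : ℝ) : μ (x, -y) = μ (x, y) := by
  have := h.norm.neg (x, -y)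
  rw [← this]
  simp [h.refl]

theorem abs_eq (v : ℝ × ℝ) : μ (|v.1|, |v.2|) = μ v := by
  rcases abs_choice v.1 with h1 | h1 <;> rcases abs_choice v.2 with h2 | h2 <;>
    rw [h1, h2] <;> simp [h.refl, h.refl']

/-- the supporting functional at `e1` -/
theorem axis_le (v : ℝ × ℝ) : μ (1, 0) * |v.1| ≤ μ v := by
  rw [← h.abs_eq v]
  have h1 := h.norm.add (|v.1|, |v.2|) (|v.1|, -|v.2|)
  rw [h.refl'] at h1
  have h2 : ((|v.1|, |v.2|) + (|v.1|, -|v.2|) : ℝ × ℝ) = (2 * |v.1|) • ((1, 0) : ℝ × ℝ) := by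
    ext <;> simp; ring
  rw [h2, h.norm.smul _ _ (by positivity)] at h1
  linarith

/-- the supporting functional at the diagonal -/
theorem diag_le (v : ℝ × ℝ) : μ (1, 1) / 2 * l1 v ≤ μ v := by
  rw [← h.abs_eq v]
  have h1 := h.norm.add (|v.1|, |v.2|) (|v.2|, |v.1|)
  rw [h.swap |v.1| |v.2|] at h1
  have h2 : ((|v.1|, |v.2|) + (|v.2|, |v.1|) : ℝ × ℝ) = (l1 v) • ((1, 1) : ℝ × ℝ) := by
    unfold l1
    ext <;> simp; ring
  rw [h2, h.norm.smul _ _ (by unfold l1; positivity)] at h1
  linarith

/-- a slope between the axial and the diagonal facets -/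
theorem exists_slope : ∃ m : ℝ, 0 < m ∧ m < 1 ∧ μ (1, 0) < μ (1, m) ∧
    μ (1, 1) / 2 * (1 + m) < μ (1, m) := by
  set a := μ (1, 1) / 2 with ha
  have ha0 : 0 < a := by
    have := h.norm.pos (v := ((1, 1) : ℝ × ℝ)) (by simp)
    rw [ha]; linarith
  set A : Set ℝ := {t | μ (1, t) ≤ μ (1, 0)} with hA
  set B : Set ℝ := {t | μ (1, t) ≤ a * (1 + t)} with hB
  have hc : Continuous fun t : ℝ => μ (1, t) := h.norm.continuous.comp (by fun_prop)
  have hAc : IsClosed A := isClosed_le hc continuous_const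
  have hBc : IsClosed B := isClosed_le hc (by fun_prop)
  by_contra hcon
  push Not at hcon
  have hcov : Icc (0 : ℝ) 1 ⊆ A ∪ B := by
    intro t ht
    by_cases h0 : t = 0
    · left; simp [hA, h0]
    by_cases h1 : t = 1
    · right
      simp only [hB, Set.mem_ofPred_eq, h1, ha]
      linarith
    by_cases h2 : t ∈ A
    · exact Or.inl h2
    · right
      simp only [hA, Set.mem_ofPred_eq, not_le] at h2
      exact hcon t (lt_of_le_of_ne ht.1 (Ne.symm h0)) (lt_of_le_of_ne ht.2 h1) h2
  obtain ⟨t, ht, htA, htB⟩ := isPreconnected_closed_iff.1 (isPreconnected_Icc (a := (0 : ℝ)) (b := 1)) A B hAc hBc hcov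
    ⟨0, by simp, by simp [hA]⟩ ⟨1, by simp, by simp only [hB, Set.mem_ofPred_eq, ha]; linarith⟩
  -- both functionals touch at `(1, t)`
  have hne : ((1, t) : ℝ × ℝ) ≠ 0 := by simp
  have h1 : lfun (μ (1, 0)) 0 = lfun a a := by
    refine grad_unique (h.diff _ hne) (fun w => ?_) (fun w => ?_) ?_ ?_
    · rw [lfun_apply]
      have := h.axis_le w
      have h2 := le_abs_self w.1
      have h3 := h.norm.nonneg (1, 0)
      nlinarith
    · rw [lfun_apply]
      have := h.diag_le w
      rw [← ha] at this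
      unfold l1 at this
      have h2 := le_abs_self w.1
      have h3 := le_abs_self w.2
      nlinarith
    · rw [lfun_apply]
      apply le_antisymm
      · have := h.axis_le (1, t)
        simpa using this
      · simpa [hA] using htA
    · rw [lfun_apply]
      apply le_antisymm
      · have := h.diag_le (1, t)
        unfold l1 at this
        simp only [abs_one] at this
        rw [abs_of_nonneg ht.1] at this
        simpa [mul_add] using this
      · simpa [hB, mul_add] using htB
  have h2 := (lfun_inj h1).2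
  linarith

/-- vectors that are not close to the horizontal axis are not in the facet of `e1` -/
theorem axis_lt {m : ℝ} (hm : 0 < m) (hm1 : μ (1, 0) < μ (1, m)) {u : ℝ × ℝ} (hu : u ≠ 0)
    (h1 : m * |u.1| ≤ |u.2|) : μ (1, 0) * |u.1| < μ u := by
  rcases (abs_nonneg u.1).eq_or_lt with hx | hx
  · rw [← hx, mul_zero]
    exact h.norm.pos hu
  · have hy : 0 < |u.2| := lt_of_lt_of_le (by positivity) h1
    rw [← h.abs_eq u]
    set x := |u.1| with hxd
    set y := |u.2| with hyd
    -- `(x, m x)` is between `(x, y)` and `(x, -y)`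
    set lam : ℝ := (1 + m * x / y) / 2 with hlam
    have hq : m * x / y ≤ 1 := by rw [div_le_one hy]; exact h1
    have hq0 : 0 ≤ m * x / y := by positivity
    have hlam0 : 0 ≤ lam := by rw [hlam]; linarith
    have hlam1 : lam ≤ 1 := by rw [hlam]; linarith
    have e : ((x, m * x) : ℝ × ℝ) = lam • ((x, y) : ℝ × ℝ) + (1 - lam) • ((x, -y) : ℝ × ℝ) := by
      ext
      · simp; ring
      · simp only [Prod.snd_add, Prod.smul_snd, smul_eq_mul, hlam]
        field_simp
        ring
    have h2 : μ (x, m * x) ≤ μ (x, y) := by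
      rw [e]
      calc μ _ ≤ μ (lam • ((x, y) : ℝ × ℝ)) + μ ((1 - lam) • ((x, -y) : ℝ × ℝ)) := h.norm.add _ _
        _ = lam * μ (x, y) + (1 - lam) * μ (x, -y) := by
            rw [h.norm.smul _ _ hlam0, h.norm.smul _ _ (by linarith)]
        _ = μ (x, y) := by rw [h.refl']; ring
    have h3 : μ (x, m * x) = x * μ (1, m) := by
      rw [← h.norm.smul _ _ hx.le]
      congr 1
      ext <;> simp [mul_comm]
    calc μ (1, 0) * x < μ (1, m) * x := mul_lt_mul_of_pos_right hm1 hx
      _ = μ (x, m * x) := by rw [h3]; ring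
      _ ≤ μ (x, y) := h2

/-- a vector of the sector of `d` is not in the facet of a vector on the transversal axis -/
theorem sec_ne_axis {m : ℝ} (hm : 0 < m) (hm1 : μ (1, 0) < μ (1, m)) {d : Ax} {u z : ℝ × ℝ}
    (hu : u ≠ 0) (hz : z ≠ 0) (hs : Sec m d u) (hz0 : al d z = 0) {ρ : ℝ × ℝ →L[ℝ] ℝ}
    (hρ : ∀ w, ρ w ≤ μ w) (h1 : ρ u = μ u) (h2 : ρ z = μ z) : False := by
  have hpos := hs.al_pos hm hu
  unfold Sec at hs
  -- the functional of the transversal axis
  have main : ∀ (p q : ℝ) (hpq : ∀ w, lfun p q w ≤ μ w) (hzz : lfun p q z = μ z),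
      lfun p q u = μ u := by
    intro p q hpq hzz
    rw [← grad_unique (h.diff z hz) hρ hpq h2 hzz]
    exact h1
  have hμz : 0 ≤ μ (1, 0) := h.norm.nonneg _
  have vert : ∀ w : ℝ × ℝ, μ (1, 0) * |w.2| ≤ μ w := by
    intro w
    have := h.axis_le (w.2, w.1)
    rwa [h.swap w.1 w.2] at this
  have zabs1 : z.2 = 0 → μ z = μ (1, 0) * |z.1| := by
    intro hh
    have : ((|z.1|, |z.2|) : ℝ × ℝ) = |z.1| • ((1, 0) : ℝ × ℝ) := by ext <;> simp [hh]
    rw [← h.abs_eq z, this, h.norm.smul _ _ (abs_nonneg _), mul_comm]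
  have zabs2 : z.1 = 0 → μ z = μ (1, 0) * |z.2| := by
    intro hh
    have e : ((|z.1|, |z.2|) : ℝ × ℝ) = |z.2| • ((0, 1) : ℝ × ℝ) := by ext <;> simp [hh]
    have e2 : μ (0, 1) = μ (1, 0) := h.swap 1 0
    rw [← h.abs_eq z, e, h.norm.smul _ _ (abs_nonneg _), mul_comm, e2]
  -- contradiction in the two cases
  have hor : z.2 = 0 → m * |u.1| ≤ |u.2| → False := by
    intro hz2 hu2
    have hlt := h.axis_lt hm hm1 hu hu2
    rcases le_total 0 z.1 with hs1 | hs1
    · have := main (μ (1, 0)) 0 (fun w => by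
        rw [lfun_apply]
        have := h.axis_le w
        have h2 := le_abs_self w.1
        nlinarith) (by rw [lfun_apply, zabs1 hz2, abs_of_nonneg hs1]; ring)
      rw [lfun_apply] at this
      have h2 := le_abs_self u.1
      nlinarith
    · have := main (-μ (1, 0)) 0 (fun w => by
        rw [lfun_apply]
        have := h.axis_le w
        have h2 := neg_abs_le w.1
        nlinarith) (by rw [lfun_apply, zabs1 hz2, abs_of_nonpos hs1]; ring)
      rw [lfun_apply] at this
      have h2 := neg_abs_le u.1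
      nlinarith
  have ver : z.1 = 0 → m * |u.2| ≤ |u.1| → False := by
    intro hz2 hu2
    have hlt : μ (1, 0) * |u.2| < μ u := by
      have := h.axis_lt hm hm1 (u := (u.2, u.1)) (by
        intro h0
        apply hu
        have e1 := congrArg Prod.fst h0
        have e2 := congrArg Prod.snd h0
        exact Prod.ext e2 e1) hu2
      rwa [h.swap u.1 u.2] at this
    rcases le_total 0 z.2 with hs1 | hs1
    · have := main 0 (μ (1, 0)) (fun w => by
        rw [lfun_apply]
        have := vert w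
        have h2 := le_abs_self w.2
        nlinarith) (by rw [lfun_apply, zabs2 hz2, abs_of_nonneg hs1]; ring)
      rw [lfun_apply] at this
      have h2 := le_abs_self u.2
      nlinarith
    · have := main 0 (-μ (1, 0)) (fun w => by
        rw [lfun_apply]
        have := vert w
        have h2 := neg_abs_le w.2
        nlinarith) (by rw [lfun_apply, zabs2 hz2, abs_of_nonpos hs1]; ring)
      rw [lfun_apply] at this
      have h2 := neg_abs_le u.2
      nlinarith
  cases d with
  | E => exact ver hz0 (hs.trans (le_abs_self _))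
  | N => exact hor hz0 (hs.trans (le_abs_self _))
  | W => exact ver (neg_eq_zero.1 hz0) (hs.trans (neg_le_abs _))
  | S => exact hor (neg_eq_zero.1 hz0) (hs.trans (neg_le_abs _))

/-- if `u` is in the sector of `d` and `μ` is additive on `u, w`, then `w` points in the same
half plane -/
theorem al_pos_of_add {m : ℝ} (hm : 0 < m) (hm1 : μ (1, 0) < μ (1, m)) {d : Ax} {u w : ℝ × ℝ}
    (hu : u ≠ 0) (hw : w ≠ 0) (hs : Sec m d u) (hadd : μ u + μ w ≤ μ (u + w)) : 0 < al d w := by
  by_contra hcon
  push Not at hcon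
  have hpu := hs.al_pos hm hu
  have huw : u + w ≠ 0 := by
    intro h0
    rw [h0, h.norm.zero] at hadd
    have := h.norm.pos hu
    have := h.norm.pos hw
    linarith
  set ρ := fderiv ℝ μ (u + w) with hρ
  have hρle : ∀ v, ρ v ≤ μ v := fun v => h.norm.fderiv_le (h.diff _ huw) v
  have hρ1 : ρ u + ρ w = μ (u + w) := by
    rw [← map_add, hρ, h.norm.fderiv_self (h.diff _ huw)]
  have hu1 : ρ u = μ u := by
    apply le_antisymm (hρle u)
    have := hρle w
    linarith
  have hw1 : ρ w = μ w := by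
    apply le_antisymm (hρle w)
    have := hρle u
    linarith
  set lam : ℝ := -al d w / al d u with hlam
  have hlam0 : 0 ≤ lam := div_nonneg (by linarith) hpu.le
  set z := lam • u + w with hz
  have hz1 : ρ z = lam * μ u + μ w := by
    rw [hz, map_add, map_smul, hu1, hw1, smul_eq_mul]
  have hz2 : ρ z = μ z := by
    apply le_antisymm (hρle z)
    rw [hz1]
    calc μ z ≤ μ (lam • u) + μ w := h.norm.add _ _
      _ = lam * μ u + μ w := by rw [h.norm.smul _ _ hlam0]
  have hz0 : z ≠ 0 := by
    intro h0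
    rw [h0, map_zero] at hz1
    have := h.norm.pos hw
    have := mul_nonneg hlam0 (h.norm.nonneg u)
    linarith
  have hal : al d z = 0 := by
    rw [hz, al_add, al_smul, hlam]
    field_simp
    ring
  exact h.sec_ne_axis hm hm1 hu hz0 hs hal hρle hu1 hz2

/-- moreover `w` is not in the facet of the transversal axis -/
theorem axis_lt_of_add {m : ℝ} (hm : 0 < m) (hm1 : μ (1, 0) < μ (1, m)) {d : Ax} {u w : ℝ × ℝ}
    (hu : u ≠ 0) (hw : w ≠ 0) (hs : Sec m d u) (hadd : μ u + μ w ≤ μ (u + w)) :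
    μ (1, 0) * |be d w| < μ w := by
  by_contra hcon
  push Not at hcon
  have huw : u + w ≠ 0 := by
    intro h0
    rw [h0, h.norm.zero] at hadd
    have := h.norm.pos hu
    have := h.norm.pos hw
    linarith
  set ρ := fderiv ℝ μ (u + w) with hρ
  have hρle : ∀ v, ρ v ≤ μ v := fun v => h.norm.fderiv_le (h.diff _ huw) v
  have hρ1 : ρ u + ρ w = μ (u + w) := by
    rw [← map_add, hρ, h.norm.fderiv_self (h.diff _ huw)]
  have hu1 : ρ u = μ u := by
    apply le_antisymm (hρle u)
    have := hρle w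
    linarith
  have hw1 : ρ w = μ w := by
    apply le_antisymm (hρle w)
    have := hρle u
    linarith
  have hμz : 0 ≤ μ (1, 0) := h.norm.nonneg _
  have vert : ∀ w : ℝ × ℝ, μ (1, 0) * |w.2| ≤ μ w := by
    intro w
    have := h.axis_le (w.2, w.1)
    rwa [h.swap w.1 w.2] at this
  have e2 : μ (0, 1) = μ (1, 0) := h.swap 1 0
  have e3 : μ (-1, 0) = μ (1, 0) := h.refl 1 0
  have e4 : μ (0, -1) = μ (1, 0) := by rw [h.refl', e2]
  -- the functional `± μ(e1)` in the direction of `w`
  have fin : ∀ (p q : ℝ) (z : ℝ × ℝ), z ≠ 0 → al d z = 0 → (∀ v, lfun p q v ≤ μ v) →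
      lfun p q w = μ w → lfun p q z = μ z → False := by
    intro p q z hz hz0 hle htw htz
    have e : ρ = lfun p q := grad_unique (h.diff w hw) hρle hle hw1 htw
    exact h.sec_ne_axis hm hm1 hu hz hs hz0 hρle hu1 (by rw [e]; exact htz)
  have hor : al d (1, 0) = 0 → |be d w| = |w.1| → False := by
    intro hd hb
    rw [hb] at hcon
    have hc : μ w = μ (1, 0) * |w.1| := le_antisymm hcon (h.axis_le w)
    rcases le_total 0 w.1 with h1 | h1
    · refine fin (μ (1, 0)) 0 (1, 0) (by simp) hd (fun v => ?_) ?_ ?_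
      · rw [lfun_apply]
        have := h.axis_le v
        have h2 := le_abs_self v.1
        nlinarith
      · rw [lfun_apply, hc, abs_of_nonneg h1]; ring
      · rw [lfun_apply]; simp
    · refine fin (-μ (1, 0)) 0 (-1, 0) (by simp) ?_ (fun v => ?_) ?_ ?_
      · have := al_smul d (-1) (1, 0)
        rw [hd] at this
        simpa using this
      · rw [lfun_apply]
        have := h.axis_le v
        have h2 := neg_abs_le v.1
        nlinarith
      · rw [lfun_apply, hc, abs_of_nonpos h1]; ring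
      · rw [lfun_apply, e3]; simp
  have ver : al d (0, 1) = 0 → |be d w| = |w.2| → False := by
    intro hd hb
    rw [hb] at hcon
    have hc : μ w = μ (1, 0) * |w.2| := le_antisymm hcon (vert w)
    rcases le_total 0 w.2 with h1 | h1
    · refine fin 0 (μ (1, 0)) (0, 1) (by simp) hd (fun v => ?_) ?_ ?_
      · rw [lfun_apply]
        have := vert v
        have h2 := le_abs_self v.2
        nlinarith
      · rw [lfun_apply, hc, abs_of_nonneg h1]; ring
      · rw [lfun_apply, e2]; simp
    · refine fin 0 (-μ (1, 0)) (0, -1) (by simp) ?_ (fun v => ?_) ?_ ?_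
      · have := al_smul d (-1) (0, 1)
        rw [hd] at this
        simpa using this
      · rw [lfun_apply]
        have := vert v
        have h2 := neg_abs_le v.2
        nlinarith
      · rw [lfun_apply, hc, abs_of_nonpos h1]; ring
      · rw [lfun_apply, e4]; simp
  cases d with
  | E => exact ver rfl rfl
  | N => exact hor rfl rfl
  | W => exact ver (by simp [al]) rfl
  | S => exact hor (by simp [al]) rfl

/-- monotonicity: `μ (b, ·)` is monotone on `[0, ∞)` -/
theorem mono_snd {b x y : ℝ} (hx : 0 ≤ x) (hxy : x ≤ y) : μ (b, x) ≤ μ (b, y) := by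
  rcases (hx.trans hxy).eq_or_lt with hy | hy
  · have : x = 0 := by linarith
    rw [this, ← hy]
  · set lam : ℝ := (1 + x / y) / 2 with hlam
    have hq : x / y ≤ 1 := by rw [div_le_one hy]; exact hxy
    have hq0 : 0 ≤ x / y := by positivity
    have e : ((b, x) : ℝ × ℝ) = lam • ((b, y) : ℝ × ℝ) + (1 - lam) • ((b, -y) : ℝ × ℝ) := by
      ext
      · simp; ring
      · simp only [Prod.snd_add, Prod.smul_snd, smul_eq_mul, hlam]
        field_simp
        ring
    rw [e]
    calc μ _ ≤ μ (lam • ((b, y) : ℝ × ℝ)) + μ ((1 - lam) • ((b, -y) : ℝ × ℝ)) := h.norm.add _ _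
      _ = lam * μ (b, y) + (1 - lam) * μ (b, -y) := by
          rw [h.norm.smul _ _ (by rw [hlam]; linarith), h.norm.smul _ _ (by rw [hlam]; linarith)]
      _ = μ (b, y) := by rw [h.refl']; ring

theorem al_be (d : Ax) (v : ℝ × ℝ) : μ (|be d v|, |al d v|) = μ v := by
  rw [← h.abs_eq v]
  cases d <;> simp [al, be, h.swap |v.1| |v.2|]

/-- quantitative version -/
theorem exists_pair {m : ℝ} (hm : 0 < m) (hm1 : μ (1, 0) < μ (1, m)) (d : Ax) :
    ∃ m' c : ℝ, 0 < m' ∧ m' ≤ m ∧ μ (1, 0) < μ (1, m') ∧ 0 < c ∧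
      ∀ u w : ℝ × ℝ, l1 u = l1 w → Sec m d u →
        μ u + μ w - μ (u + w) ≤ c * l1 u → Sec m' d w := by
  set K : Set ((ℝ × ℝ) × (ℝ × ℝ)) := {p | l1 p.1 = l1 p.2 ∧ Sec m d p.1} with hK
  set f : (ℝ × ℝ) × (ℝ × ℝ) → ℝ := fun p =>
    (μ p.1 + μ p.2 - μ (p.1 + p.2)) + max (min (al d p.2) (μ p.2 - μ (1, 0) * |be d p.2|)) 0 with hf
  have hμc := h.norm.continuous
  have cl1 : Continuous l1 := by unfold l1; fun_prop
  have hfc : Continuous f := by
    have := continuous_al d
    have := continuous_be d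
    simp only [hf]
    fun_prop
  have hhom : ∀ (s : ℝ) (v : (ℝ × ℝ) × (ℝ × ℝ)), 0 ≤ s → f (s • v) = s * f v := by
    intro s v hs
    simp only [hf, Prod.smul_fst, Prod.smul_snd]
    rw [← smul_add, h.norm.smul _ _ hs, h.norm.smul _ _ hs, h.norm.smul _ _ hs, al_smul, be_smul,
      abs_mul, abs_of_nonneg hs]
    have : max (min (s * al d v.2) (s * μ v.2 - μ (1, 0) * (s * |be d v.2|))) 0
        = s * max (min (al d v.2) (μ v.2 - μ (1, 0) * |be d v.2|)) 0 := by
      rw [mul_max_of_nonneg _ _ hs, mul_zero, mul_min_of_nonneg _ _ hs]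
      congr 2
      ring
    rw [this]
    ring
  have hKc : IsClosed K := by
    have c1 := continuous_al d
    have c2 := continuous_be d
    have e1 : IsClosed {p : (ℝ × ℝ) × (ℝ × ℝ) | l1 p.1 = l1 p.2} :=
      isClosed_eq (cl1.comp continuous_fst) (cl1.comp continuous_snd)
    have e2 : IsClosed {p : (ℝ × ℝ) × (ℝ × ℝ) | m * |be d p.1| ≤ al d p.1} :=
      isClosed_le (by fun_prop) (by fun_prop)
    exact e1.inter e2
  have hcone : ∀ v ∈ K, ∀ s : ℝ, 0 < s → s • v ∈ K := by
    rintro v ⟨h1, h2⟩ s hs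
    refine ⟨?_, h2.smul hs.le⟩
    simp only [Prod.smul_fst, Prod.smul_snd]
    have : ∀ z : ℝ × ℝ, l1 (s • z) = s * l1 z := by
      intro z
      unfold l1
      simp [abs_mul, abs_of_pos hs]
      ring
    rw [this, this, h1]
  have hpos : ∀ v ∈ K, v ≠ 0 → 0 < f v := by
    rintro v ⟨h1, h2⟩ hv
    have hv1 : v.1 ≠ 0 := by
      intro h0
      apply hv
      have : v.2 = 0 := by
        by_contra hne
        have := l1_pos hne
        rw [← h1, h0] at this
        simp [l1] at this
      exact Prod.ext h0 this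
    have hv2 : v.2 ≠ 0 := by
      intro h0
      have := l1_pos hv1
      rw [h1, h0] at this
      simp [l1] at this
    have hn : 0 ≤ μ v.1 + μ v.2 - μ (v.1 + v.2) := by
      have := h.norm.add v.1 v.2
      linarith
    simp only [hf]
    rcases hn.eq_or_lt with h0 | h0
    · have a1 := h.al_pos_of_add hm hm1 hv1 hv2 h2 (by linarith)
      have a2 := h.axis_lt_of_add hm hm1 hv1 hv2 h2 (by linarith)
      have a3 : 0 < min (al d v.2) (μ v.2 - μ (1, 0) * |be d v.2|) := lt_min a1 (by linarith)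
      have := le_max_left (min (al d v.2) (μ v.2 - μ (1, 0) * |be d v.2|)) 0
      linarith
    · have := le_max_right (min (al d v.2) (μ v.2 - μ (1, 0) * |be d v.2|)) 0
      linarith
  obtain ⟨c, hc, hlow⟩ := exists_lower hfc hhom hKc hcone hpos
  -- choice of `m'`
  have hg : Continuous fun t : ℝ => μ (1, t) := hμc.comp (by fun_prop)
  set y : ℝ := μ (1, 0) + min (c / 4) (μ (1, m) - μ (1, 0)) / 2 with hy
  have hmin : 0 < min (c / 4) (μ (1, m) - μ (1, 0)) := lt_min (by positivity) (by linarith)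
  have hy1 : μ (1, 0) < y := by rw [hy]; linarith
  have hy2 : y ≤ μ (1, m) := by
    have := min_le_right (c / 4) (μ (1, m) - μ (1, 0))
    rw [hy]; linarith
  have hy3 : y < μ (1, 0) + c / 4 := by
    have := min_le_left (c / 4) (μ (1, m) - μ (1, 0))
    rw [hy]; linarith
  obtain ⟨m', hm'1, hm'2⟩ := intermediate_value_Icc hm.le hg.continuousOn ⟨hy1.le, hy2⟩
  simp only at hm'2
  have hm'0 : 0 < m' := by
    rcases hm'1.1.eq_or_lt with h0 | h0
    · exfalso
      rw [← h0] at hm'2
      linarith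
    · exact h0
  refine ⟨m', c / 4, hm'0, hm'1.2, by rw [hm'2]; exact hy1, by positivity,
    fun u w huw hs hle => ?_⟩
  have h1 := hlow (u, w) ⟨huw, hs⟩
  have h2 : l1 w ≤ 2 * ‖((u, w) : (ℝ × ℝ) × (ℝ × ℝ))‖ := by
    have e1 : |w.1| ≤ ‖((u, w) : (ℝ × ℝ) × (ℝ × ℝ))‖ :=
      (le_max_left |w.1| |w.2|).trans (le_max_right ‖u‖ ‖w‖)
    have e2 : |w.2| ≤ ‖((u, w) : (ℝ × ℝ) × (ℝ × ℝ))‖ :=
      (le_max_right |w.1| |w.2|).trans (le_max_right ‖u‖ ‖w‖)
    unfold l1
    linarith
  simp only [hf] at h1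
  have hl1 : 0 ≤ l1 w := by unfold l1; positivity
  rw [huw] at hle
  have h3 : c / 4 * l1 w ≤ max (min (al d w) (μ w - μ (1, 0) * |be d w|)) 0 := by nlinarith
  by_cases hw : w = 0
  · rw [hw]
    unfold Sec
    cases d <;> simp [be, al]
  · have hlw := l1_pos hw
    have h4 : 0 < c / 4 * l1 w := by positivity
    have h5 : c / 4 * l1 w ≤ min (al d w) (μ w - μ (1, 0) * |be d w|) := by
      rcases le_total (min (al d w) (μ w - μ (1, 0) * |be d w|)) 0 with h6 | h6
      · rw [max_eq_right h6] at h3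
        linarith
      · rwa [max_eq_left h6] at h3
    have h6 := h5.trans (min_le_left _ _)
    have h7 := h5.trans (min_le_right _ _)
    have hal : 0 < al d w := lt_of_lt_of_le h4 h6
    unfold Sec
    by_contra hcon
    push Not at hcon
    have hb : 0 < |be d w| := by
      by_contra hb
      push Not at hb
      nlinarith
    have h8 : μ w ≤ |be d w| * μ (1, m') := by
      rw [← h.al_be d w, abs_of_pos hal, ← h.norm.smul _ _ hb.le]
      simp only [Prod.smul_mk, smul_eq_mul, mul_one]
      refine h.mono_snd hal.le ?_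
      rw [mul_comm]
      exact hcon.le
    have h9 : |be d w| ≤ l1 w := by
      rw [← abs_al_add_abs_be d w]
      have := abs_nonneg (al d w)
      linarith
    rw [hm'2] at h8
    have h10 : |be d w| * y < |be d w| * (μ (1, 0) + c / 4) := mul_lt_mul_of_pos_left hy3 hb
    nlinarith

end SmoothNorm

/-- the diagonal cone with signs `σ, τ` -/
def Diag (m : ℝ) (σ τ : ℝ) (z : ℝ × ℝ) : Prop :=
  m * (σ * z.1) < τ * z.2 ∧ m * (τ * z.2) < σ * z.1

/-- directions close to the facet of a diagonal vector are in the diagonal cone -/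
theorem SmoothNorm.exists_diag {μ : ℝ × ℝ → ℝ} (h : SmoothNorm μ) {m : ℝ} (_hm : 0 < m)
    (hm1 : m < 1) (hm2 : μ (1, 1) / 2 * (1 + m) < μ (1, m)) :
    ∃ η : ℝ, 0 < η ∧ ∀ σ τ : ℝ, |σ| = 1 → |τ| = 1 → ∀ v : ℝ × ℝ, v ≠ 0 →
      μ v - μ (1, 1) / 2 * (σ * v.1 + τ * v.2) ≤ η * l1 v → Diag m σ τ v := by
  set a := μ (1, 1) / 2 with ha
  have ha0 : 0 < a := by
    have := h.norm.pos (v := ((1, 1) : ℝ × ℝ)) (by simp)
    rw [ha]; linarith
  have hμc := h.norm.continuous
  -- the first quadrant
  have key : ∀ v : ℝ × ℝ, v ≠ 0 → μ v ≤ a * (v.1 + v.2) → m * v.1 < v.2 ∧ m * v.2 < v.1 := by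
    intro v hv hle
    have h1 := h.diag_le v
    rw [← ha] at h1
    unfold l1 at h1
    have hx : |v.1| + |v.2| ≤ v.1 + v.2 := by
      have : a * (|v.1| + |v.2|) ≤ a * (v.1 + v.2) := h1.trans hle
      exact le_of_mul_le_mul_left this ha0
    have hx1 : 0 ≤ v.1 := by
      have := abs_nonneg v.1
      have := le_abs_self v.2
      by_contra hc
      push Not at hc
      rw [abs_of_neg hc] at hx
      linarith
    have hx2 : 0 ≤ v.2 := by
      have := abs_nonneg v.2
      have := le_abs_self v.1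
      by_contra hc
      push Not at hc
      rw [abs_of_neg hc] at hx
      linarith
    -- `(x, y)` with `y ≤ m x` and contact is impossible
    have imp : ∀ x y : ℝ, ((x, y) : ℝ × ℝ) ≠ 0 → 0 ≤ x → 0 ≤ y → μ (x, y) ≤ a * (x + y) →
        y ≤ m * x → False := by
      intro x y hne hx hy hc hyx
      have hxp : 0 < x := by
        rcases hx.eq_or_lt with h0 | h0
        · exfalso
          rw [← h0, mul_zero] at hyx
          have : y = 0 := le_antisymm hyx hy
          apply hne
          rw [← h0, this]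
          rfl
        · exact h0
      -- `(x, m x) = (1 - θ) (x, y) + θ (x, x)`
      have hden : 0 < x - y := by nlinarith
      set θ := (m * x - y) / (x - y) with hθ
      have hθ0 : 0 ≤ θ := div_nonneg (by linarith) hden.le
      have hθ1 : θ ≤ 1 := by
        rw [hθ, div_le_one hden]
        nlinarith
      have e : ((x, m * x) : ℝ × ℝ) = (1 - θ) • ((x, y) : ℝ × ℝ) + θ • ((x, x) : ℝ × ℝ) := by
        ext
        · simp; ring
        · simp only [Prod.snd_add, Prod.smul_snd, smul_eq_mul, hθ]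
          field_simp
          ring
      have hxx : μ (x, x) = x * μ (1, 1) := by
        rw [← h.norm.smul _ _ hx]
        congr 1
        ext <;> simp
      have hxm : μ (x, m * x) = x * μ (1, m) := by
        rw [← h.norm.smul _ _ hx]
        congr 1
        ext <;> simp [mul_comm]
      have h4 : μ (x, m * x) ≤ (1 - θ) * μ (x, y) + θ * μ (x, x) := by
        rw [e]
        calc μ _ ≤ μ ((1 - θ) • ((x, y) : ℝ × ℝ)) + μ (θ • ((x, x) : ℝ × ℝ)) := h.norm.add _ _
          _ = _ := by rw [h.norm.smul _ _ (by linarith), h.norm.smul _ _ hθ0]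
      have h5 : (1 - θ) * μ (x, y) ≤ (1 - θ) * (a * (x + y)) :=
        mul_le_mul_of_nonneg_left hc (by linarith)
      have h6 : (1 - θ) * (x + y) + θ * (x + x) = x * (1 + m) := by
        rw [hθ]
        field_simp
        ring
      rw [hxx, hxm] at h4
      have h7 : μ (1, 1) = 2 * a := by rw [ha]; ring
      rw [h7] at h4
      have h8 : a * (1 + m) * x < μ (1, m) * x := mul_lt_mul_of_pos_right hm2 hxp
      have h9 : a * ((1 - θ) * (x + y) + θ * (x + x)) = a * (x * (1 + m)) := by rw [h6]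
      nlinarith
    constructor
    · by_contra hc
      push Not at hc
      exact imp v.1 v.2 hv hx1 hx2 hle hc
    · by_contra hc
      push Not at hc
      refine imp v.2 v.1 ?_ hx2 hx1 ?_ hc
      · intro h0
        apply hv
        have e1 := congrArg Prod.fst h0
        have e2 := congrArg Prod.snd h0
        exact Prod.ext e2 e1
      · rw [h.swap]
        linarith
  obtain ⟨c, hc, hlow⟩ := exists_lower (E := ℝ × ℝ) (f := fun v => μ v - a * (v.1 + v.2))
    (K := {v | v.2 ≤ m * v.1 ∨ v.1 ≤ m * v.2}) (by fun_prop)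
    (by
      intro s v hs
      simp only [Prod.smul_fst, Prod.smul_snd, smul_eq_mul]
      rw [h.norm.smul _ _ hs]
      ring)
    (by
      have e1 : IsClosed {v : ℝ × ℝ | v.2 ≤ m * v.1} := isClosed_le (by fun_prop) (by fun_prop)
      have e2 : IsClosed {v : ℝ × ℝ | v.1 ≤ m * v.2} := isClosed_le (by fun_prop) (by fun_prop)
      exact e1.union e2)
    (by
      rintro v hv s hs
      simp only [Set.mem_ofPred_eq, Prod.smul_fst, Prod.smul_snd, smul_eq_mul] at hv ⊢
      rcases hv with hv | hv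
      · left
        nlinarith [mul_le_mul_of_nonneg_left hv hs.le]
      · right
        nlinarith [mul_le_mul_of_nonneg_left hv hs.le])
    (by
      rintro v hv hv0
      by_contra hcon
      push Not at hcon
      obtain ⟨h1, h2⟩ := key v hv0 (by linarith)
      simp only [Set.mem_ofPred_eq] at hv
      rcases hv with hv | hv <;> linarith)
  refine ⟨c / 4, by positivity, fun σ τ hσ hτ v hv hle => ?_⟩
  -- reflect to the first quadrant
  set w : ℝ × ℝ := (σ * v.1, τ * v.2) with hw
  have hμw : μ w = μ v := by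
    rw [← h.abs_eq w, ← h.abs_eq v]
    simp [hw, abs_mul, hσ, hτ]
  have hl : l1 w = l1 v := by
    simp [hw, l1, abs_mul, hσ, hτ]
  have hnw : 0 < ‖w‖ := by
    rw [norm_pos_iff]
    intro h0
    have := l1_pos hv
    rw [← hl, h0] at this
    simp [l1] at this
  have hl1w : l1 w ≤ 2 * ‖w‖ := by
    have e1 : |w.1| ≤ ‖w‖ := le_max_left |w.1| |w.2|
    have e2 : |w.2| ≤ ‖w‖ := le_max_right |w.1| |w.2|
    unfold l1
    linarith
  by_contra hcon
  have hmem : w ∈ {v : ℝ × ℝ | v.2 ≤ m * v.1 ∨ v.1 ≤ m * v.2} := by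
    simp only [Set.mem_ofPred_eq, hw]
    unfold Diag at hcon
    by_contra hc
    push Not at hc
    exact hcon hc
  have h1 : c * ‖w‖ ≤ μ w - a * (w.1 + w.2) := hlow w hmem
  rw [hμw] at h1
  rw [← hl] at hle
  have : c * ‖w‖ ≤ c / 4 * (2 * ‖w‖) := by
    calc c * ‖w‖ ≤ μ v - a * (w.1 + w.2) := h1
      _ ≤ c / 4 * l1 w := hle
      _ ≤ c / 4 * (2 * ‖w‖) := by gcongr
  nlinarith

end Crest.Agent.R151.D411
private theorem rz_0be9d2dc84 : type_of% @_root_.Crest.Agent.R151.D411.al.eq_1 := @_root_.Crest.Agent.R151.D411.al.eq_1 -- L110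
private theorem rz_1313be5274 : type_of% @_root_.Crest.Agent.R151.D411.be.eq_1 := @_root_.Crest.Agent.R151.D411.be.eq_1 -- L117
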