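import Mathlib
import Crest.Prelude.Def_PlanarFPP
import Crest.Agent.R151.K4a

/-!
# R151, F1: passage times on a general graph

`wcost t w` is the cost of a walk `w` of a simple graph `H : SimpleGraph V` in the environment
`t : Sym2 V → ℝ`; `pt H t x y` the infimum of the costs of the walks of `H` from `x` to `y`.
For `H = squareLattice` this is `passageTime`.  Restricting to a region is taking a smaller `H`.
-/

set_option autoImplicit false

open Crest.ProbabilityR.FirstPassage
open scoped Classical

namespace Crest.Agent.R151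

variable {V : Type*}

/-- The cost of a walk. -/
noncomputable def wcost (t : Sym2 V → ℝ) {H : SimpleGraph V} {x y : V} (w : H.Walk x y) : ℝ :=
  (w.edges.map t).sum

/-- The passage time in the graph `H`. -/
noncomputable def pt (H : SimpleGraph V) (t : Sym2 V → ℝ) (x y : V) : ℝ :=
  ⨅ w : H.Walk x y, wcost t w

theorem walkCost_eq_wcost (t : Environment) {x y : ℤ × ℤ} (w : squareLattice.Walk x y) :
    walkCost t w = wcost t w := rfl

theorem passageTime_eq_pt (t : Environment) (x y : ℤ × ℤ) :
    passageTime t x y = pt squareLattice t x y := rfl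

section cost

variable {H : SimpleGraph V} (t : Sym2 V → ℝ) {x y z : V}

@[simp] theorem wcost_nil : wcost t (SimpleGraph.Walk.nil : H.Walk x x) = 0 := by
  simp [wcost]

@[simp] theorem wcost_cons (h : H.Adj x y) (w : H.Walk y z) :
    wcost t (SimpleGraph.Walk.cons h w) = t s(x, y) + wcost t w := by
  simp [wcost]

@[simp] theorem wcost_append (w : H.Walk x y) (w' : H.Walk y z) :
    wcost t (w.append w') = wcost t w + wcost t w' := by
  simp [wcost]

@[simp] theorem wcost_reverse (w : H.Walk x y) : wcost t w.reverse = wcost t w := by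
  simp [wcost, List.sum_reverse]

@[simp] theorem wcost_copy {x' y' : V} (w : H.Walk x y) (hx : x = x') (hy : y = y') :
    wcost t (w.copy hx hy) = wcost t w := by
  simp [wcost]

@[simp] theorem wcost_toWalk (h : H.Adj x y) : wcost t h.toWalk = t s(x, y) := by
  simp [wcost]

@[simp] theorem wcost_mapLe {H' : SimpleGraph V} (h : H ≤ H') (w : H.Walk x y) :
    wcost t (w.mapLe h) = wcost t w := by
  simp [wcost]

@[simp] theorem wcost_transfer {H' : SimpleGraph V} (w : H.Walk x y) (hp) :
    wcost t (w.transfer H' hp) = wcost t w := by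
  simp [wcost]

theorem wcost_map {V' : Type*} {H' : SimpleGraph V'} (t' : Sym2 V' → ℝ) (f : H →g H')
    (w : H.Walk x y) : wcost t' (w.map f) = wcost (fun e => t' (e.map f)) w := by
  simp [wcost, List.map_map, Function.comp_def]

variable {t}

theorem wcost_nonneg (ht : ∀ e, 0 ≤ t e) (w : H.Walk x y) : 0 ≤ wcost t w := by
  unfold wcost
  apply List.sum_nonneg
  intro a ha
  rw [List.mem_map] at ha
  obtain ⟨e, -, rfl⟩ := ha
  exact ht e

theorem wcost_mono {t t' : Sym2 V → ℝ} (w : H.Walk x y) (h : ∀ e ∈ w.edges, t e ≤ t' e) :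
    wcost t w ≤ wcost t' w :=
  List.sum_le_sum h

theorem wcost_congr {t t' : Sym2 V → ℝ} (w : H.Walk x y) (h : ∀ e ∈ w.edges, t e = t' e) :
    wcost t w = wcost t' w := by
  unfold wcost
  rw [List.map_congr_left h]




/-- The cost of a trail is the sum over the finset of its edges. -/
theorem wcost_eq_sum_toFinset {t : Sym2 V → ℝ} {w : H.Walk x y} (hw : w.IsTrail) :
    wcost t w = ∑ e ∈ w.edges.toFinset, t e := by
  unfold wcost
  rw [List.sum_toFinset _ hw.edges_nodup]


theorem wcost_takeUntil_add_dropUntil (t : Sym2 V → ℝ) (w : H.Walk x y) (h : z ∈ w.support) :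
    wcost t (w.takeUntil z h) + wcost t (w.dropUntil z h) = wcost t w := by
  rw [← wcost_append, SimpleGraph.Walk.take_spec]


theorem wcost_bypass_le (ht : ∀ e, 0 ≤ t e) (w : H.Walk x y) :
    wcost t w.bypass ≤ wcost t w := by
  induction w with
  | nil => simp [SimpleGraph.Walk.bypass]
  | @cons a b c h p ih =>
    simp only [SimpleGraph.Walk.bypass]
    split_ifs with hs
    · have h1 := wcost_takeUntil_add_dropUntil t p.bypass hs
      have h2 := wcost_nonneg ht (p.bypass.takeUntil _ hs)
      rw [wcost_cons]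
      have h3 := ht s(a, b)
      linarith
    · rw [wcost_cons, wcost_cons]
      linarith


end cost

section passage

variable {H : SimpleGraph V} {t : Sym2 V → ℝ} {x y z : V}

theorem bddBelow_wcost (ht : ∀ e, 0 ≤ t e) :
    BddBelow (Set.range fun w : H.Walk x y => wcost t w) :=
  ⟨0, by rintro _ ⟨w, rfl⟩; exact wcost_nonneg ht w⟩

theorem pt_nonneg (ht : ∀ e, 0 ≤ t e) : 0 ≤ pt H t x y :=
  Real.iInf_nonneg fun w => wcost_nonneg ht w

theorem pt_le_wcost (ht : ∀ e, 0 ≤ t e) (w : H.Walk x y) : pt H t x y ≤ wcost t w :=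
  ciInf_le (bddBelow_wcost ht) w

theorem le_pt (h : H.Reachable x y) {a : ℝ} (ha : ∀ w : H.Walk x y, a ≤ wcost t w) :
    a ≤ pt H t x y := by
  have : Nonempty (H.Walk x y) := h
  exact le_ciInf ha

theorem le_pt_of_paths (ht : ∀ e, 0 ≤ t e) (h : H.Reachable x y) {a : ℝ}
    (ha : ∀ w : H.Walk x y, w.IsPath → a ≤ wcost t w) : a ≤ pt H t x y :=
  le_pt h fun w => (ha _ w.bypass_isPath).trans (wcost_bypass_le ht w)

theorem exists_wcost_lt (h : H.Reachable x y) {a : ℝ} (ha : pt H t x y < a) :
    ∃ w : H.Walk x y, wcost t w < a := by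
  have : Nonempty (H.Walk x y) := h
  exact exists_lt_of_ciInf_lt ha

theorem exists_path_wcost_lt (ht : ∀ e, 0 ≤ t e) (h : H.Reachable x y) {a : ℝ}
    (ha : pt H t x y < a) : ∃ w : H.Walk x y, w.IsPath ∧ wcost t w < a := by
  obtain ⟨w, hw⟩ := exists_wcost_lt h ha
  exact ⟨w.bypass, w.bypass_isPath, (wcost_bypass_le ht w).trans_lt hw⟩

@[simp] theorem pt_self (ht : ∀ e, 0 ≤ t e) : pt H t x x = 0 :=
  le_antisymm ((pt_le_wcost ht SimpleGraph.Walk.nil).trans_eq (wcost_nil t)) (pt_nonneg ht)

theorem pt_comm (H : SimpleGraph V) (t : Sym2 V → ℝ) (x y : V) : pt H t x y = pt H t y x := by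
  unfold pt
  refine Function.Surjective.iInf_congr (g := fun w : H.Walk y x => wcost t w)
    (fun w : H.Walk x y => w.reverse) ?_ ?_
  · intro w
    exact ⟨w.reverse, by simp⟩
  · intro w
    simp

theorem pt_le_of_adj (ht : ∀ e, 0 ≤ t e) (h : H.Adj x y) : pt H t x y ≤ t s(x, y) :=
  (pt_le_wcost ht h.toWalk).trans_eq (wcost_toWalk t h)

theorem pt_triangle (ht : ∀ e, 0 ≤ t e) (hxy : H.Reachable x y) (hyz : H.Reachable y z) :
    pt H t x z ≤ pt H t x y + pt H t y z := by
  apply le_of_forall_pos_le_add
  intro ε hε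
  obtain ⟨w, hw⟩ := exists_wcost_lt (t := t) hxy (a := pt H t x y + ε / 2) (by linarith)
  obtain ⟨w', hw'⟩ := exists_wcost_lt (t := t) hyz (a := pt H t y z + ε / 2) (by linarith)
  have h := pt_le_wcost ht (w.append w')
  rw [wcost_append] at h
  linarith

/-- If there is no walk the passage time is `0` by convention. -/
theorem pt_eq_zero_of_not_reachable (h : ¬ H.Reachable x y) : pt H t x y = 0 := by
  have : IsEmpty (H.Walk x y) := by
    rw [← not_nonempty_iff]
    exact h
  exact Real.iInf_of_isEmpty _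

/-- Larger graphs have smaller passage times. -/
theorem pt_anti {H H' : SimpleGraph V} (hH : H ≤ H') (ht : ∀ e, 0 ≤ t e) (h : H.Reachable x y) :
    pt H' t x y ≤ pt H t x y := by
  refine le_pt h fun w => ?_
  rw [← wcost_mapLe t hH w]
  exact pt_le_wcost ht _

theorem pt_mono {t t' : Sym2 V → ℝ} (ht : ∀ e, 0 ≤ t e) (htt : ∀ e ∈ H.edgeSet, t e ≤ t' e) :
    pt H t x y ≤ pt H t' x y := by
  by_cases h : H.Reachable x y
  · refine le_pt h fun w => (pt_le_wcost ht w).trans (wcost_mono w ?_)
    intro e he
    exact htt e (w.edges_subset_edgeSet he)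
  · rw [pt_eq_zero_of_not_reachable h, pt_eq_zero_of_not_reachable h]

theorem pt_congr {t t' : Sym2 V → ℝ} (htt : ∀ e ∈ H.edgeSet, t e = t' e) :
    pt H t x y = pt H t' x y := by
  unfold pt
  congr 1
  ext w
  exact wcost_congr w fun e he => htt e (w.edges_subset_edgeSet he)





end passage

section geodesic

variable {H : SimpleGraph V} {t : Sym2 V → ℝ} {x y z : V}

/-- `w` is a geodesic of `H` in the environment `t`: it realises the passage time. -/
def IsGeo (t : Sym2 V → ℝ) {H : SimpleGraph V} {x y : V} (w : H.Walk x y) : Prop :=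
  wcost t w = pt H t x y

theorem isGeo_iff_le (ht : ∀ e, 0 ≤ t e) (w : H.Walk x y) :
    IsGeo t w ↔ ∀ w' : H.Walk x y, wcost t w ≤ wcost t w' := by
  constructor
  · intro h w'
    rw [h]
    exact pt_le_wcost ht w'
  · intro h
    exact le_antisymm (le_pt ⟨w⟩ h) (pt_le_wcost ht w)

theorem IsGeo.reverse {w : H.Walk x y} (h : IsGeo t w) : IsGeo t w.reverse := by
  unfold IsGeo at *
  rw [wcost_reverse, pt_comm, h]

theorem IsGeo.of_append_left (ht : ∀ e, 0 ≤ t e) {w : H.Walk x y} {w' : H.Walk y z}
    (h : IsGeo t (w.append w')) : IsGeo t w := by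
  rw [isGeo_iff_le ht] at *
  intro v
  have := h (v.append w')
  rw [wcost_append, wcost_append] at this
  linarith

theorem IsGeo.of_append_right (ht : ∀ e, 0 ≤ t e) {w : H.Walk x y} {w' : H.Walk y z}
    (h : IsGeo t (w.append w')) : IsGeo t w' := by
  rw [isGeo_iff_le ht] at *
  intro v
  have := h (w.append v)
  rw [wcost_append, wcost_append] at this
  linarith

theorem IsGeo.takeUntil (ht : ∀ e, 0 ≤ t e) {w : H.Walk x y} (h : IsGeo t w)
    (hz : z ∈ w.support) : IsGeo t (w.takeUntil z hz) := by
  apply IsGeo.of_append_left ht (w' := w.dropUntil z hz)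
  rwa [SimpleGraph.Walk.take_spec]

theorem IsGeo.dropUntil (ht : ∀ e, 0 ≤ t e) {w : H.Walk x y} (h : IsGeo t w)
    (hz : z ∈ w.support) : IsGeo t (w.dropUntil z hz) := by
  apply IsGeo.of_append_right ht (w := w.takeUntil z hz)
  rwa [SimpleGraph.Walk.take_spec]

theorem IsGeo.take (ht : ∀ e, 0 ≤ t e) {w : H.Walk x y} (h : IsGeo t w)
    (n : ℕ) : IsGeo t (w.take n) := by
  apply IsGeo.of_append_left ht (w' := w.drop n)
  have : (w.take n).append (w.drop n) = w := by
    apply SimpleGraph.Walk.edges_injective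
    rw [SimpleGraph.Walk.edges_append, SimpleGraph.Walk.edges_take, SimpleGraph.Walk.edges_drop,
      List.take_append_drop]
  rwa [this]

theorem IsGeo.drop (ht : ∀ e, 0 ≤ t e) {w : H.Walk x y} (h : IsGeo t w)
    (n : ℕ) : IsGeo t (w.drop n) := by
  apply IsGeo.of_append_right ht (w := w.take n)
  have : (w.take n).append (w.drop n) = w := by
    apply SimpleGraph.Walk.edges_injective
    rw [SimpleGraph.Walk.edges_append, SimpleGraph.Walk.edges_take, SimpleGraph.Walk.edges_drop,
      List.take_append_drop]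
  rwa [this]

/-- passage times add along a geodesic -/
theorem IsGeo.pt_add (ht : ∀ e, 0 ≤ t e) {w : H.Walk x y} (h : IsGeo t w)
    (hz : z ∈ w.support) : pt H t x z + pt H t z y = pt H t x y := by
  rw [← h, ← h.takeUntil ht hz, ← h.dropUntil ht hz, wcost_takeUntil_add_dropUntil]

/-- concatenation of geodesics is a geodesic iff the passage times add -/
theorem IsGeo.append {w : H.Walk x y} {w' : H.Walk y z} (h : IsGeo t w) (h' : IsGeo t w')
    (hadd : pt H t x y + pt H t y z = pt H t x z) : IsGeo t (w.append w') := by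
  unfold IsGeo at *
  rw [wcost_append, h, h', hadd]

/-- With positive weights a geodesic is a path. -/
theorem IsGeo.isPath (ht : ∀ e ∈ H.edgeSet, 0 < t e) (ht0 : ∀ e, 0 ≤ t e) {w : H.Walk x y}
    (h : IsGeo t w) : w.IsPath := by
  induction w with
  | nil => simp
  | @cons a b c hab p ih =>
    have hp : IsGeo t p := by
      apply IsGeo.of_append_right ht0 (w := hab.toWalk)
      simpa using h
    refine SimpleGraph.Walk.IsPath.cons (ih hp) ?_
    intro ha
    have h1 := (isGeo_iff_le ht0 _).1 h (p.dropUntil a ha)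
    have h2 := wcost_takeUntil_add_dropUntil t p ha
    have h3 := wcost_nonneg ht0 (p.takeUntil a ha)
    rw [wcost_cons] at h1
    have h4 := ht s(a, b) hab
    linarith


/-- The finiteness condition that gives geodesics: paths from `x` with many steps are costly. -/
def GeoFin (H : SimpleGraph V) (t : Sym2 V → ℝ) (x : V) : Prop :=
  ∀ M : ℝ, ∃ n : ℕ, ∀ (y : V) (w : H.Walk x y), w.IsPath → n ≤ w.length → M ≤ wcost t w

theorem exists_isGeo [H.LocallyFinite] (ht : ∀ e, 0 ≤ t e) (hfin : GeoFin H t x)
    (h : H.Reachable x y) : ∃ w : H.Walk x y, w.IsPath ∧ IsGeo t w := by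
  obtain ⟨n, hn⟩ := hfin (pt H t x y + 1)
  -- the finite set of paths of length `< n`
  have hfinite : {w : H.Walk x y | w.IsPath ∧ w.length < n}.Finite := by
    have : {w : H.Walk x y | w.IsPath ∧ w.length < n} ⊆
        ⋃ m ∈ Finset.range n, {w : H.Walk x y | w.length = m} := by
      intro w hw
      simp only [Set.mem_iUnion, Finset.mem_range, Set.mem_ofPred_eq, exists_prop]
      exact ⟨w.length, hw.2, rfl⟩
    refine Set.Finite.subset ?_ this
    refine Set.Finite.biUnion (Finset.finite_toSet _) ?_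
    intro m _
    exact Set.toFinite _
  have hne : {w : H.Walk x y | w.IsPath ∧ w.length < n}.Nonempty := by
    obtain ⟨w, hw, hw'⟩ := exists_path_wcost_lt ht h (a := pt H t x y + 1) (by linarith)
    refine ⟨w, hw, ?_⟩
    by_contra hcon
    have := hn y w hw (not_lt.1 hcon)
    linarith
  obtain ⟨w, hw, hmin⟩ := hfinite.exists_minimalFor (fun w => wcost t w) _ hne
  refine ⟨w, hw.1, le_antisymm (le_pt_of_paths ht h fun v hv => ?_) (pt_le_wcost ht w)⟩
  by_cases hv' : v.length < n
  · by_contra hcon
    have h1 : wcost t v ≤ wcost t w := by linarith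
    have h2 := hmin (j := v) ⟨hv, hv'⟩ h1
    linarith
  · have h1 := hn y v hv (not_lt.1 hv')
    obtain ⟨u, hu, hu'⟩ := exists_path_wcost_lt ht h (a := pt H t x y + 1) (by linarith)
    have h3 : u.length < n := by
      by_contra hcon
      have := hn y u hu (not_lt.1 hcon)
      linarith
    rcases le_total (wcost t u) (wcost t w) with h4 | h4
    · have h5 := hmin (j := u) ⟨hu, h3⟩ h4
      linarith
    · linarith

end geodesic

section uniqueness

variable {H : SimpleGraph V} {t : Sym2 V → ℝ} {x y z : V}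

/-- No two different finite sets of pairs have the same total weight. -/
def NoTies (t : Sym2 V → ℝ) : Prop :=
  ∀ A B : Finset (Sym2 V), ∑ e ∈ A, t e = ∑ e ∈ B, t e → A = B

theorem NoTies.ne_zero (h : NoTies t) (e : Sym2 V) : t e ≠ 0 := by
  intro h0
  have := h {e} ∅ (by simp [h0])
  simp at this

theorem NoTies.pos (h : NoTies t) (ht : ∀ e, 0 ≤ t e) (e : Sym2 V) : 0 < t e :=
  lt_of_le_of_ne (ht e) (h.ne_zero e).symm

/-- A path is determined by its end points and its set of edges. -/
theorem path_eq_of_edges {p q : H.Walk x y} (hp : p.IsPath) (hq : q.IsPath)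
    (h : ∀ e, e ∈ p.edges ↔ e ∈ q.edges) : p = q := by
  induction p with
  | @nil u =>
    cases q with
    | nil => rfl
    | @cons _ v _ hab q' =>
      have := (h s(u, v)).2 (by simp)
      simp at this
  | @cons a b c hab p' ih =>
    cases q with
    | nil =>
      have := (h s(a, b)).1 (by simp)
      simp at this
    | @cons _ b' _ hab' q' =>
      rw [SimpleGraph.Walk.cons_isPath_iff] at hp hq
      have hbb : b = b' := by
        have h1 := (h s(a, b)).1 (by simp)
        rw [SimpleGraph.Walk.edges_cons, List.mem_cons] at h1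
        rcases h1 with h1 | h1
        · rw [Sym2.eq_iff] at h1
          rcases h1 with ⟨_, h1⟩ | ⟨h1, h2⟩
          · exact h1
          · exact (h2.trans h1)
        · exact absurd (q'.fst_mem_support_of_mem_edges h1) hq.2
      subst hbb
      have hpq : p' = q' := by
        refine ih hp.1 hq.1 fun e => ?_
        have he := h e
        rw [SimpleGraph.Walk.edges_cons, SimpleGraph.Walk.edges_cons, List.mem_cons,
          List.mem_cons] at he
        constructor
        · intro hep
          rcases he.1 (Or.inr hep) with h1 | h1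
          · subst h1
            exact absurd (p'.fst_mem_support_of_mem_edges hep) hp.2
          · exact h1
        · intro heq
          rcases he.2 (Or.inr heq) with h1 | h1
          · subst h1
            exact absurd (q'.fst_mem_support_of_mem_edges heq) hq.2
          · exact h1
      rw [hpq]

/-- Uniqueness of geodesic paths. -/
theorem IsGeo.unique (hnt : NoTies t) {p q : H.Walk x y} (hp : p.IsPath) (hq : q.IsPath)
    (hgp : IsGeo t p) (hgq : IsGeo t q) : p = q := by
  have h1 : ∑ e ∈ p.edges.toFinset, t e = ∑ e ∈ q.edges.toFinset, t e := by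
    rw [← wcost_eq_sum_toFinset hp.isTrail, ← wcost_eq_sum_toFinset hq.isTrail, hgp, hgq]
  have h2 := hnt _ _ h1
  refine path_eq_of_edges hp hq fun e => ?_
  rw [← List.mem_toFinset, ← List.mem_toFinset, h2]

/-- With no ties and nonnegative weights all geodesics with given ends are equal. -/
theorem IsGeo.unique' (hnt : NoTies t) (ht : ∀ e, 0 ≤ t e) {p q : H.Walk x y}
    (hgp : IsGeo t p) (hgq : IsGeo t q) : p = q :=
  IsGeo.unique hnt (hgp.isPath (fun e _ => hnt.pos ht e) ht)
    (hgq.isPath (fun e _ => hnt.pos ht e) ht) hgp hgq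

end uniqueness

section region

/-- The square lattice restricted to the region `R` (same vertex type). -/
def reg (R : Set (ℤ × ℤ)) : SimpleGraph (ℤ × ℤ) where
  Adj x y := squareLattice.Adj x y ∧ x ∈ R ∧ y ∈ R
  symm := ⟨fun _ _ h => ⟨h.1.symm, h.2.2, h.2.1⟩⟩
  loopless := ⟨fun _ h => h.1.ne rfl⟩

theorem reg_adj {R : Set (ℤ × ℤ)} {x y : ℤ × ℤ} :
    (reg R).Adj x y ↔ squareLattice.Adj x y ∧ x ∈ R ∧ y ∈ R := Iff.rfl

theorem reg_le (R : Set (ℤ × ℤ)) : reg R ≤ squareLattice := fun _ _ h => h.1

theorem reg_mono {R R' : Set (ℤ × ℤ)} (h : R ⊆ R') : reg R ≤ reg R' :=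
  fun _ _ hxy => ⟨hxy.1, h hxy.2.1, h hxy.2.2⟩


/-- Walks of `reg R` from a vertex of `R` stay in `R`. -/
theorem reg_support {R : Set (ℤ × ℤ)} {x y : ℤ × ℤ} (w : (reg R).Walk x y) (hx : x ∈ R) :
    ∀ z ∈ w.support, z ∈ R := by
  induction w with
  | nil => intro z hz; simp at hz; rwa [hz]
  | cons h p ih =>
    intro z hz
    rw [SimpleGraph.Walk.support_cons, List.mem_cons] at hz
    rcases hz with rfl | hz
    · exact hx
    · exact ih h.2.2 z hz

/-- Lift a walk with all vertices in `R` to `reg R`. -/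
theorem exists_reg_walk {R : Set (ℤ × ℤ)} {x y : ℤ × ℤ} (w : squareLattice.Walk x y)
    (hw : ∀ z ∈ w.support, z ∈ R) : ∃ w' : (reg R).Walk x y, w'.edges = w.edges := by
  have hp : ∀ e ∈ w.edges, e ∈ (reg R).edgeSet := by
    intro e he
    induction e using Sym2.ind with
    | _ a b =>
      rw [SimpleGraph.mem_edgeSet]
      exact ⟨w.adj_of_mem_edges he, hw _ (w.fst_mem_support_of_mem_edges he),
        hw _ (w.snd_mem_support_of_mem_edges he)⟩
  exact ⟨w.transfer (reg R) hp, w.edges_transfer hp⟩

theorem pR_eq_pt {R : Set (ℤ × ℤ)} {x y : ℤ × ℤ} (hx : x ∈ R) (t : Environment) :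
    K.pR t R x y = pt (reg R) t x y := by
  unfold K.pR pt
  refine Function.Surjective.iInf_congr
    (g := fun w : (reg R).Walk x y => wcost t w)
    (fun w => Classical.choose (exists_reg_walk w.1 w.2)) ?_ ?_
  · intro w
    refine ⟨⟨w.mapLe (reg_le R), ?_⟩, ?_⟩
    · intro z hz
      rw [SimpleGraph.Walk.support_mapLe_eq_support] at hz
      exact reg_support w hx z hz
    · apply SimpleGraph.Walk.edges_injective
      have := Classical.choose_spec (exists_reg_walk (w.mapLe (reg_le R)) (by
        intro z hz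
        rw [SimpleGraph.Walk.support_mapLe_eq_support] at hz
        exact reg_support w hx z hz))
      rw [this, SimpleGraph.Walk.edges_mapLe_eq_edges]
  · intro w
    have := Classical.choose_spec (exists_reg_walk w.1 w.2)
    unfold wcost walkCost
    rw [this]

theorem conn_iff_reachable {R : Set (ℤ × ℤ)} {x y : ℤ × ℤ} (hx : x ∈ R) :
    K.Conn R x y ↔ (reg R).Reachable x y := by
  constructor
  · rintro ⟨w, hw⟩
    obtain ⟨w', -⟩ := exists_reg_walk w hw
    exact ⟨w'⟩
  · rintro ⟨w⟩
    refine ⟨w.mapLe (reg_le R), ?_⟩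
    intro z hz
    rw [SimpleGraph.Walk.support_mapLe_eq_support] at hz
    exact reg_support w hx z hz

end region

end Crest.Agent.R151
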