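import Mathlib
import Crest.Prelude.Def_PlanarFPP
import Crest.Agent.R151.F1

/-!
# R151, Y635A: geodesic rays (deterministic layer)

`V` is any vertex set, `H : SimpleGraph V` any graph (a region of the square lattice is `reg R`),
`t : Sym2 V → ℝ` a fixed environment.

* `seqWalk`: the walk along an adjacent sequence.
* `IsRay t H v`: `v : ℕ → V` is a one-sided geodesic of `H`.
* tails, restriction to subgraphs, injectivity, coincidence between two common vertices,
  concatenation of a finite geodesic and a ray.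
-/

set_option autoImplicit false

open Crest.ProbabilityR.FirstPassage
open scoped Classical

namespace Crest.Agent.R151.Y

open Crest.Agent.R151

variable {V : Type*} {H : SimpleGraph V} {t : Sym2 V → ℝ}

section seqWalk

/-- The walk along an adjacent sequence: `n` steps from index `i`. -/
def seqWalk (v : ℕ → V) (hv : ∀ k, H.Adj (v k) (v (k + 1))) (i : ℕ) :
    (n : ℕ) → H.Walk (v i) (v (i + n))
  | 0 => SimpleGraph.Walk.nil
  | n + 1 => (seqWalk v hv i n).concat (hv (i + n))

variable {v : ℕ → V} {hv : ∀ k, H.Adj (v k) (v (k + 1))}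

@[simp] theorem length_seqWalk (i n : ℕ) : (seqWalk v hv i n).length = n := by
  induction n with
  | zero => rfl
  | succ n ih => simp [seqWalk, ih]

theorem support_seqWalk (i n : ℕ) :
    (seqWalk v hv i n).support = (List.range (n + 1)).map fun k => v (i + k) := by
  induction n with
  | zero => simp [seqWalk]
  | succ n ih =>
    rw [seqWalk, SimpleGraph.Walk.support_concat, ih, List.range_succ (n := n + 1), List.map_append]
    simp

theorem mem_support_seqWalk {i n : ℕ} {x : V} :
    x ∈ (seqWalk v hv i n).support ↔ ∃ k, k ≤ n ∧ v (i + k) = x := by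
  rw [support_seqWalk]
  simp

theorem edges_seqWalk (i n : ℕ) :
    (seqWalk v hv i n).edges = (List.range n).map fun k => s(v (i + k), v (i + k + 1)) := by
  induction n with
  | zero => simp [seqWalk]
  | succ n ih =>
    rw [seqWalk, SimpleGraph.Walk.edges_concat, ih, List.range_succ, List.map_append]
    simp only [List.concat_eq_append, List.map_cons, List.map_nil]
    rfl

theorem wcost_seqWalk (t : Sym2 V → ℝ) (i n : ℕ) :
    wcost t (seqWalk v hv i n) = ∑ k ∈ Finset.range n, t s(v (i + k), v (i + k + 1)) := by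
  unfold wcost
  rw [edges_seqWalk, List.map_map]
  rw [← List.sum_toFinset _ (List.nodup_range)]
  simp [List.toFinset_range]

theorem getVert_seqWalk (i n k : ℕ) (hk : k ≤ n) : (seqWalk v hv i n).getVert k = v (i + k) := by
  have h1 := (seqWalk v hv i n).getVert_eq_support_getElem (n := k) (by simpa using hk)
  rw [h1]
  simp [support_seqWalk]

/-- cost written with `Finset.Ico` -/
theorem wcost_seqWalk_Ico (t : Sym2 V → ℝ) {i j : ℕ} (_hij : i ≤ j) :
    wcost t (seqWalk v hv i (j - i)) = ∑ k ∈ Finset.Ico i j, t s(v k, v (k + 1)) := by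
  rw [wcost_seqWalk, Finset.sum_Ico_eq_sum_range]

end seqWalk

/-- A geodesic ray of `H` in the environment `t`. -/
structure IsRay (t : Sym2 V → ℝ) (H : SimpleGraph V) (v : ℕ → V) : Prop where
  adj : ∀ k, H.Adj (v k) (v (k + 1))
  geo : ∀ i j, i ≤ j → ∑ k ∈ Finset.Ico i j, t s(v k, v (k + 1)) = pt H t (v i) (v j)

namespace IsRay

variable {v : ℕ → V}

theorem reachable (h : IsRay t H v) {i j : ℕ} : H.Reachable (v i) (v j) := by
  have key : ∀ n, H.Reachable (v 0) (v n) := by
    intro n
    have := (seqWalk v h.adj 0 n).reachable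
    rwa [Nat.zero_add] at this
  exact (key i).symm.trans (key j)

theorem isGeo_seqWalk (h : IsRay t H v) (i n : ℕ) : IsGeo t (seqWalk v h.adj i n) := by
  unfold IsGeo
  have := h.geo i (i + n) (Nat.le_add_right _ _)
  rw [Finset.sum_Ico_eq_sum_range, Nat.add_sub_cancel_left] at this
  rw [wcost_seqWalk, this]

/-- A sequence all of whose initial segments are geodesics is a ray. -/
theorem of_initial (ht : ∀ e, 0 ≤ t e) (hadj : ∀ k, H.Adj (v k) (v (k + 1)))
    (h : ∀ n, ∃ m, n ≤ m ∧ ∑ k ∈ Finset.Ico 0 m, t s(v k, v (k + 1)) ≤ pt H t (v 0) (v m)) :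
    IsRay t H v := by
  refine ⟨hadj, fun i j hij => ?_⟩
  obtain ⟨m, hm, hle⟩ := h j
  have r : ∀ a b, H.Reachable (v a) (v b) := by
    have key : ∀ n, H.Reachable (v 0) (v n) := by
      intro n
      have := (seqWalk v hadj 0 n).reachable
      rwa [Nat.zero_add] at this
    exact fun a b => (key a).symm.trans (key b)
  have c : ∀ a b, a ≤ b → pt H t (v a) (v b) ≤ ∑ k ∈ Finset.Ico a b, t s(v k, v (k + 1)) := by
    intro a b hab
    obtain ⟨d, rfl⟩ := Nat.exists_eq_add_of_le hab
    have h1 := pt_le_wcost ht (seqWalk v hadj a d)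
    have h2 := wcost_seqWalk_Ico (v := v) (hv := hadj) t hab
    rw [Nat.add_sub_cancel_left] at h2
    rwa [h2] at h1
  have t1 : pt H t (v 0) (v m) ≤ pt H t (v 0) (v i) + pt H t (v i) (v m) :=
    pt_triangle ht (r _ _) (r _ _)
  have t2 : pt H t (v i) (v m) ≤ pt H t (v i) (v j) + pt H t (v j) (v m) :=
    pt_triangle ht (r _ _) (r _ _)
  have s1 := Finset.sum_Ico_consecutive (fun k => t s(v k, v (k + 1))) (Nat.zero_le i)
    (hij.trans hm)
  have s2 := Finset.sum_Ico_consecutive (fun k => t s(v k, v (k + 1))) hij hm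
  have c1 := c 0 i (Nat.zero_le i)
  have c2 := c i j hij
  have c3 := c j m hm
  linarith

theorem tail (h : IsRay t H v) (n : ℕ) : IsRay t H fun k => v (n + k) := by
  refine ⟨fun k => h.adj (n + k), fun i j hij => ?_⟩
  rw [← h.geo (n + i) (n + j) (by omega), Finset.sum_Ico_eq_sum_range,
    Finset.sum_Ico_eq_sum_range]
  have : n + j - (n + i) = j - i := by omega
  rw [this]
  refine Finset.sum_congr rfl fun k _ => ?_
  rw [show n + (i + k) = n + i + k by ring, show n + (i + k + 1) = n + i + k + 1 by ring]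

theorem pt_add (h : IsRay t H v) {i j k : ℕ} (hij : i ≤ j) (hjk : j ≤ k) :
    pt H t (v i) (v j) + pt H t (v j) (v k) = pt H t (v i) (v k) := by
  rw [← h.geo i j hij, ← h.geo j k hjk, ← h.geo i k (hij.trans hjk),
    Finset.sum_Ico_consecutive _ hij hjk]

theorem pt_succ (h : IsRay t H v) (n : ℕ) : pt H t (v n) (v (n + 1)) = t s(v n, v (n + 1)) := by
  rw [← h.geo n (n + 1) (Nat.le_succ n)]
  simp

theorem pt_pos (h : IsRay t H v) (ht : ∀ e, 0 < t e) {i j : ℕ} (hij : i < j) :
    0 < pt H t (v i) (v j) := by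
  rw [← h.geo i j hij.le]
  exact Finset.sum_pos (fun k _ => ht _) ⟨i, Finset.mem_Ico.2 ⟨le_rfl, hij⟩⟩

theorem injective (h : IsRay t H v) (ht : ∀ e, 0 < t e) : Function.Injective v := by
  intro i j hij
  by_contra hne
  rcases lt_or_gt_of_ne hne with h1 | h1
  · have := h.pt_pos ht h1
    rw [hij, pt_self fun e => (ht e).le] at this
    exact lt_irrefl _ this
  · have := h.pt_pos ht h1
    rw [hij, pt_self fun e => (ht e).le] at this
    exact lt_irrefl _ this


/-- A ray leaves every finite set. -/
theorem tendsto_cofinite (h : IsRay t H v) (ht : ∀ e, 0 < t e) :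
    Filter.Tendsto v Filter.atTop Filter.cofinite := by
  rw [← Nat.cofinite_eq_atTop]
  exact (h.injective ht).tendsto_cofinite

theorem eventually_notMem (h : IsRay t H v) (ht : ∀ e, 0 < t e) {S : Set V} (hS : S.Finite) :
    ∃ n, ∀ k, n ≤ k → v k ∉ S := by
  have := (h.tendsto_cofinite ht).eventually (hS.compl_mem_cofinite)
  rw [Filter.eventually_atTop] at this
  exact this

/-- A ray of `H` with all its edges in the subgraph `H'` is a ray of `H'`. -/
theorem of_le {H' : SimpleGraph V} (h : IsRay t H v) (ht : ∀ e, 0 ≤ t e) (hH : H' ≤ H)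
    (hadj : ∀ k, H'.Adj (v k) (v (k + 1))) : IsRay t H' v := by
  refine ⟨hadj, fun i j hij => ?_⟩
  obtain ⟨d, rfl⟩ := Nat.exists_eq_add_of_le hij
  have h1 := pt_le_wcost ht (seqWalk v hadj i d)
  have h2 := wcost_seqWalk_Ico (v := v) (hv := hadj) t hij
  rw [Nat.add_sub_cancel_left] at h2
  rw [h2] at h1
  refine le_antisymm ?_ h1
  rw [h.geo _ _ hij]
  exact pt_anti hH ht (seqWalk v hadj i d).reachable

/-- Passage times of the subgraph and of the graph agree along a ray that lives in the subgraph -/
theorem pt_eq_of_le {H' : SimpleGraph V} (h : IsRay t H v) (ht : ∀ e, 0 ≤ t e) (hH : H' ≤ H)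
    (hadj : ∀ k, H'.Adj (v k) (v (k + 1))) {i j : ℕ} (hij : i ≤ j) :
    pt H' t (v i) (v j) = pt H t (v i) (v j) := by
  rw [← h.geo i j hij, (h.of_le ht hH hadj).geo i j hij]

end IsRay

section congr

/-- rays only read the edges of the graph -/
theorem IsRay.congr {t t' : Sym2 V → ℝ} {v : ℕ → V} (h : IsRay t H v)
    (htt : ∀ e ∈ H.edgeSet, t e = t' e) : IsRay t' H v := by
  refine ⟨h.adj, fun i j hij => ?_⟩
  rw [← pt_congr htt, ← h.geo i j hij]
  exact Finset.sum_congr rfl fun k _ => (htt _ (h.adj k)).symm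

end congr

section coincide

variable {v w : ℕ → V}

/-- Two rays with two common vertices in the same order coincide between them. -/
theorem IsRay.coincide (hnt : NoTies t) (ht : ∀ e, 0 ≤ t e) (hv : IsRay t H v) (hw : IsRay t H w)
    {i j m n : ℕ} (h1 : v i = w j) (h2 : v (i + m) = w (j + n)) :
    m = n ∧ ∀ k, k ≤ m → v (i + k) = w (j + k) := by
  have e : seqWalk v hv.adj i m = (seqWalk w hw.adj j n).copy h1.symm h2.symm := by
    refine IsGeo.unique' hnt ht (hv.isGeo_seqWalk i m) ?_
    have := hw.isGeo_seqWalk j n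
    unfold IsGeo at this ⊢
    rw [wcost_copy, this, h1, h2]
  have hmn : m = n := by
    have := congrArg SimpleGraph.Walk.length e
    simpa using this
  subst hmn
  refine ⟨rfl, fun k hk => ?_⟩
  rw [← getVert_seqWalk (hv := hv.adj) i m k hk, ← getVert_seqWalk (hv := hw.adj) j m k hk, e]
  simp

/-- The two tails coincide. -/
def Coal (v w : ℕ → V) : Prop := ∃ i j, ∀ k, v (i + k) = w (j + k)

theorem Coal.refl (v : ℕ → V) : Coal v v := ⟨0, 0, fun _ => rfl⟩

theorem Coal.symm {v w : ℕ → V} (h : Coal v w) : Coal w v := by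
  obtain ⟨i, j, h⟩ := h
  exact ⟨j, i, fun k => (h k).symm⟩

theorem Coal.trans {u v w : ℕ → V} (h : Coal u v) (h' : Coal v w) : Coal u w := by
  obtain ⟨i, j, h⟩ := h
  obtain ⟨a, b, h'⟩ := h'
  refine ⟨i + a, b + j, fun k => ?_⟩
  rw [show i + a + k = i + (a + k) by ring, h, show j + (a + k) = a + (j + k) by ring, h',
    show b + (j + k) = b + j + k by ring]

theorem Coal.tail (v : ℕ → V) (n : ℕ) : Coal v fun k => v (n + k) :=
  ⟨n, 0, fun k => by simp⟩


/-- Two rays with infinitely many common vertices coalesce. -/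
theorem IsRay.coal_of_frequently (hnt : NoTies t) (ht : ∀ e, 0 ≤ t e) (hv : IsRay t H v)
    (hw : IsRay t H w) (h : ∀ n, ∃ i j, n ≤ i ∧ v i = w j) : Coal v w := by
  have hpos := fun e => hnt.pos ht e
  obtain ⟨i0, j0, -, h0⟩ := h 0
  -- from the first common vertex on
  refine ⟨i0, j0, fun k => ?_⟩
  -- vertices of `w` up to `j0` are visited only finitely often
  obtain ⟨N, hN⟩ := hv.eventually_notMem hpos
    (S := (Finset.range (j0 + 1)).image w) (Finset.finite_toSet _)
  obtain ⟨i, j, hi, hij⟩ := h (N + i0 + k)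
  have hj : j0 ≤ j := by
    by_contra hcon
    apply hN i (by omega)
    rw [hij]
    simp only [Finset.coe_image, Finset.coe_range, Set.mem_image, Set.mem_Iio]
    exact ⟨j, by omega, rfl⟩
  obtain ⟨m, rfl⟩ := Nat.exists_eq_add_of_le (show i0 ≤ i by omega)
  obtain ⟨n, rfl⟩ := Nat.exists_eq_add_of_le hj
  exact (IsRay.coincide hnt ht hv hw h0 hij).2 k (by omega)

/-- Coalescing rays coincide after each pair of common vertices in the right order; in particular
from the first common vertex if they coalesce. -/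
theorem IsRay.coal_from (hnt : NoTies t) (ht : ∀ e, 0 ≤ t e) (hv : IsRay t H v)
    (hw : IsRay t H w) (h : Coal v w) {i j : ℕ} (hij : v i = w j) (k : ℕ) :
    v (i + k) = w (j + k) := by
  have hpos := fun e => hnt.pos ht e
  obtain ⟨a, b, hab⟩ := h
  -- common vertex far away on both
  have e1 := hab (i + j + k + a + b)
  obtain ⟨m, hm⟩ := Nat.exists_eq_add_of_le (show i ≤ a + (i + j + k + a + b) by omega)
  obtain ⟨n, hn⟩ := Nat.exists_eq_add_of_le (show j ≤ b + (i + j + k + a + b) by omega)
  rw [hm, hn] at e1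
  exact (IsRay.coincide hnt ht hv hw hij e1).2 k (by omega)

end coincide

section concat

/-- Follow the finite walk `w` to `v n`, then the sequence `v`. -/
def follow {x : V} {v : ℕ → V} {n : ℕ} (w : H.Walk x (v n)) : ℕ → V := fun k =>
  if k ≤ w.length then w.getVert k else v (n + (k - w.length))

variable {x : V} {v : ℕ → V} {n : ℕ}

@[simp] theorem follow_zero (w : H.Walk x (v n)) : follow w 0 = x := by
  simp [follow]





theorem sum_getVert (t : Sym2 V → ℝ) {x y : V} (w : H.Walk x y) :
    ∑ k ∈ Finset.range w.length, t s(w.getVert k, w.getVert (k + 1)) = wcost t w := by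
  induction w with
  | nil => simp
  | cons h p ih =>
    rw [SimpleGraph.Walk.length_cons, Finset.sum_range_succ']
    simp only [SimpleGraph.Walk.getVert_cons_succ, SimpleGraph.Walk.getVert_zero, wcost_cons]
    rw [ih]
    ring



end concat

section bigeodesic

/-- the forward half of a bigeodesic -/
theorem isRay_of_isBigeodesic {t : Environment} {v : ℤ → ℤ × ℤ} (h : IsBigeodesic t v)
    (ht : ∀ e, 0 ≤ t e) (i : ℤ) : IsRay t squareLattice fun k : ℕ => v (i + k) := by
  refine ⟨fun k => ?_, fun a b hab => ?_⟩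
  · have := h.2.1 (i + k)
    push_cast
    rwa [← add_assoc]
  · rcases hab.eq_or_lt with rfl | hab
    · simp [pt_self ht]
    · have := h.2.2 (i + a) (i + b) (by omega)
      rw [passageTime_eq_pt] at this
      rw [← this]
      refine Finset.sum_bij (fun k _ => i + (k : ℤ)) ?_ ?_ ?_ ?_
      · intro k hk
        rw [Finset.mem_Ico] at *
        omega
      · intro a₁ _ a₂ _ h
        simpa using h
      · intro k hk
        rw [Finset.mem_Ico] at hk
        refine ⟨(k - i).toNat, ?_, ?_⟩
        · rw [Finset.mem_Ico]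
          omega
        · omega
      · intro k _
        push_cast
        rw [← add_assoc]

/-- reversing a bigeodesic -/
theorem isBigeodesic_neg {t : Environment} {v : ℤ → ℤ × ℤ} (h : IsBigeodesic t v) :
    IsBigeodesic t fun k => v (-k) := by
  refine ⟨fun a b hab => ?_, fun i => ?_, fun i j hij => ?_⟩
  · have := h.1 hab
    omega
  · have := (h.2.1 (-(i + 1))).symm
    rwa [show -(i + 1) + 1 = -i by ring] at this
  · have := h.2.2 (-j) (-i) (by omega)
    rw [passageTime_eq_pt, pt_comm, ← passageTime_eq_pt] at this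
    rw [← this]
    refine Finset.sum_bij (fun k _ => -(k + 1)) ?_ ?_ ?_ ?_
    · intro k hk
      rw [Finset.mem_Ico] at *
      omega
    · intro a₁ _ a₂ _ h
      simpa using h
    · intro k hk
      rw [Finset.mem_Ico] at hk
      refine ⟨-k - 1, ?_, ?_⟩
      · rw [Finset.mem_Ico]
        omega
      · omega
    · intro k _
      rw [show -(k + 1) + 1 = -k by ring, Sym2.eq_swap]

/-- the backward half of a bigeodesic -/
theorem isRay_of_isBigeodesic_neg {t : Environment} {v : ℤ → ℤ × ℤ} (h : IsBigeodesic t v)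
    (ht : ∀ e, 0 ≤ t e) (i : ℤ) : IsRay t squareLattice fun k : ℕ => v (i - k) := by
  have := isRay_of_isBigeodesic (isBigeodesic_neg h) ht (-i)
  refine ⟨fun k => ?_, fun a b hab => ?_⟩
  · have h1 := this.adj k
    simpa [sub_eq_add_neg, add_comm] using h1
  · have h1 := this.geo a b hab
    simpa [sub_eq_add_neg, add_comm] using h1

/-- passage times add along a bigeodesic -/
theorem IsBigeodesic.pt_add {t : Environment} {v : ℤ → ℤ × ℤ} (h : IsBigeodesic t v)
    (ht : ∀ e, 0 ≤ t e) {i j k : ℤ} (hij : i ≤ j) (hjk : j ≤ k) :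
    pt squareLattice t (v i) (v j) + pt squareLattice t (v j) (v k) =
      pt squareLattice t (v i) (v k) := by
  have hr := isRay_of_isBigeodesic h ht i
  have := hr.pt_add (i := 0) (j := (j - i).toNat) (k := (k - i).toNat) (Nat.zero_le _) (by omega)
  simp only [Nat.cast_zero, add_zero] at this
  rwa [show i + ((j - i).toNat : ℤ) = j by omega, show i + ((k - i).toNat : ℤ) = k by omega]
    at this

end bigeodesic

end Crest.Agent.R151.Y
private theorem rz_f7994e78ab : type_of% @_root_.Crest.Agent.R151.Y.seqWalk.eq_def := @_root_.Crest.Agent.R151.Y.seqWalk.eq_def -- L31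
private theorem rz_a0f4b38754 : type_of% @_root_.Crest.Agent.R151.Y.seqWalk.eq_1 := @_root_.Crest.Agent.R151.Y.seqWalk.eq_1 -- L31
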