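import Crest.Agent.R151.D411a
import Crest.Agent.R151.Pl4
import Crest.Agent.R151.Y635A
import Crest.Agent.R151.K2b

-- ▼ part R151/D411b
section

/-!
# R151 / S0213, D411b: a sequence that avoids two diagonal barriers stays in a sector

`east`: let `b, b'` be lattice paths going to infinity in the cones around `(1,1)` and `(1,-1)`,
`r` a path going to infinity which eventually avoids `b` and `b'`. If `r` visits (late) the core
`|y| < m x` of the east sector, then it stays in the east sector `m |y| ≤ x`.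
-/

set_option autoImplicit false

namespace Crest.Agent.R151.D411

open Filter Topology Set
open Crest.ProbabilityR.FirstPassage
open Crest.Agent.R151.K (l1 toR n1)
open Crest.Agent.R151.Pl (exists_rt exists_lf exists_up exists_dn exists_box exists_bound cross lin)

/-- a lattice path -/
def IsSeq (v : ℕ → ℤ × ℤ) : Prop := ∀ k, squareLattice.Adj (v k) (v (k + 1))

theorem exists_walk' (p q : ℤ × ℤ) : Nonempty (squareLattice.Walk p q) := by
  have h1 : Nonempty (squareLattice.Walk p (q.1, p.2)) := by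
    rcases le_total p.1 q.1 with h | h
    · obtain ⟨r, -⟩ := exists_rt p q.1 h
      exact ⟨r⟩
    · obtain ⟨r, -⟩ := exists_lf p q.1 h
      exact ⟨r⟩
  have h2 : Nonempty (squareLattice.Walk (q.1, p.2) q) := by
    rcases le_total p.2 q.2 with h | h
    · obtain ⟨r, -⟩ := exists_up (q.1, p.2) q.2 h
      exact ⟨r⟩
    · obtain ⟨r, -⟩ := exists_dn (q.1, p.2) q.2 h
      exact ⟨r⟩
  obtain ⟨w1⟩ := h1
  obtain ⟨w2⟩ := h2
  exact ⟨w1.append w2⟩

/-- the piece of a path between two late vertices -/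
theorem exists_piece {r : ℕ → ℤ × ℤ} (hr : IsSeq r) {n0 i j : ℕ} (hi : n0 ≤ i) (hj : n0 ≤ j) :
    ∃ w : squareLattice.Walk (r i) (r j), ∀ x ∈ w.support, ∃ k, n0 ≤ k ∧ x = r k := by
  have key : ∀ i j, n0 ≤ i → i ≤ j →
      ∃ w : squareLattice.Walk (r i) (r j), ∀ x ∈ w.support, ∃ k, n0 ≤ k ∧ x = r k := by
    intro i j hi hij
    obtain ⟨d, rfl⟩ := Nat.exists_eq_add_of_le hij
    refine ⟨Y.seqWalk r hr i d, fun x hx => ?_⟩
    rw [Y.mem_support_seqWalk] at hx
    obtain ⟨k, -, rfl⟩ := hx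
    exact ⟨i + k, by omega, rfl⟩
  rcases le_total i j with h | h
  · exact key i j hi h
  · obtain ⟨w, hw⟩ := key j i hj h
    refine ⟨w.reverse, fun x hx => ?_⟩
    rw [SimpleGraph.Walk.support_reverse, List.mem_reverse] at hx
    exact hw x hx

/-- the box of radius `C` is left -/
theorem eventually_out {ι : Type*} {l : Filter ι} {r : ι → ℤ × ℤ} (hr : Tendsto r l cofinite)
    (C : ℝ) : ∀ᶠ n in l, C < |((r n).1 : ℝ)| ∨ C < |((r n).2 : ℝ)| := by
  obtain ⟨N, hN⟩ := exists_nat_ge C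
  have hfin : (Set.Icc (-(N : ℤ)) N ×ˢ Set.Icc (-(N : ℤ)) N : Set (ℤ × ℤ)).Finite :=
    (Set.finite_Icc _ _).prod (Set.finite_Icc _ _)
  filter_upwards [hr.eventually hfin.compl_mem_cofinite] with n hn
  by_contra hcon
  push Not at hcon
  apply hn
  have h1 := hcon.1.trans hN
  have h2 := hcon.2.trans hN
  rw [abs_le] at h1 h2
  refine ⟨⟨?_, ?_⟩, ⟨?_, ?_⟩⟩
  · exact_mod_cast h1.1
  · exact_mod_cast h1.2
  · exact_mod_cast h2.1
  · exact_mod_cast h2.2

theorem Diag.pos {m σ τ : ℝ} (hm : 0 < m) (hm1 : m < 1) {z : ℝ × ℝ} (h : Diag m σ τ z) :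
    0 < σ * z.1 ∧ 0 < τ * z.2 := by
  obtain ⟨h1, h2⟩ := h
  have a : 0 < τ * z.2 := by
    by_contra hc
    push Not at hc
    have hX : σ * z.1 < 0 := by
      by_contra hX
      push Not at hX
      have := mul_nonneg hm.le hX
      linarith
    have h3 : m * (m * (σ * z.1)) < m * (τ * z.2) := mul_lt_mul_of_pos_left h1 hm
    have h4 : m * m < 1 := by nlinarith
    have h5 : (σ * z.1) < m * m * (σ * z.1) := by nlinarith
    linarith
  refine ⟨?_, a⟩
  have := mul_pos hm a
  linarith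

/-- in a diagonal cone the height tends to infinity -/
theorem eventually_high {m : ℝ} (hm : 0 < m) (hm1 : m < 1) {τ : ℝ} (hτ : |τ| = 1)
    {b : ℕ → ℤ × ℤ} (hb : Tendsto b atTop cofinite)
    (hc : ∀ᶠ k in atTop, Diag m 1 τ (toR (b k))) (U : ℝ) :
    ∀ᶠ k in atTop, U < τ * ((b k).2 : ℝ) := by
  filter_upwards [hc, eventually_out hb (|U| / m + |U|)] with k h1 h2
  obtain ⟨p1, p2⟩ := h1.pos hm hm1
  obtain ⟨q1, q2⟩ := h1
  simp only [toR, one_mul] at p1 p2 q1 q2
  by_contra hcon
  push Not at hcon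
  have hU : τ * ((b k).2 : ℝ) ≤ |U| := hcon.trans (le_abs_self U)
  have e2 : |((b k).2 : ℝ)| = τ * ((b k).2 : ℝ) := by
    rw [← abs_of_pos p2, abs_mul, hτ, one_mul]
  have e1 : |((b k).1 : ℝ)| = ((b k).1 : ℝ) := abs_of_pos p1
  have hd : 0 ≤ |U| / m := by positivity
  rcases h2 with h2 | h2
  · rw [e1] at h2
    have : ((b k).1 : ℝ) < |U| / m := by
      rw [lt_div_iff₀ hm]
      linarith
    have := abs_nonneg U
    linarith
  · rw [e2] at h2
    linarith

/-- a finite initial part is bounded -/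
theorem exists_initial_bound (b : ℕ → ℤ × ℤ) (K : ℕ) :
    ∃ C : ℝ, ∀ k < K, |((b k).1 : ℝ)| ≤ C ∧ |((b k).2 : ℝ)| ≤ C := by
  induction K with
  | zero => exact ⟨0, fun k hk => absurd hk (Nat.not_lt_zero _)⟩
  | succ K ih =>
    obtain ⟨C, hC⟩ := ih
    refine ⟨max C (max |((b K).1 : ℝ)| |((b K).2 : ℝ)|), fun k hk => ?_⟩
    rcases Nat.lt_succ_iff_lt_or_eq.1 hk with h | rfl
    · exact ⟨(hC k h).1.trans (le_max_left _ _), (hC k h).2.trans (le_max_left _ _)⟩
    · exact ⟨(le_max_left _ _).trans (le_max_right _ _), (le_max_right _ _).trans (le_max_right _ _)⟩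

/-- **Planar separation by two diagonal barriers.** -/
theorem east {m : ℝ} (hm : 0 < m) (hm1 : m < 1) {b b' r : ℕ → ℤ × ℤ}
    (hb : IsSeq b) (hb' : IsSeq b') (hr : IsSeq r)
    (hbt : Tendsto b atTop cofinite) (hbt' : Tendsto b' atTop cofinite)
    (hrt : Tendsto r atTop cofinite)
    (hbc : ∀ᶠ k in atTop, Diag m 1 1 (toR (b k)))
    (hbc' : ∀ᶠ k in atTop, Diag m 1 (-1) (toR (b' k)))
    (hdis : ∀ᶠ n in atTop, ∀ k, r n ≠ b k) (hdis' : ∀ᶠ n in atTop, ∀ k, r n ≠ b' k) :
    ∃ n1, (∃ n ≥ n1, |((r n).2 : ℝ)| < m * ((r n).1 : ℝ)) →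
      ∀ n ≥ n1, m * |((r n).2 : ℝ)| ≤ ((r n).1 : ℝ) := by
  obtain ⟨cw⟩ := exists_walk' (b' 0) (b 0)
  obtain ⟨N, hN⟩ := exists_box cw
  obtain ⟨K0, hK0⟩ := eventually_atTop.1 hbc
  obtain ⟨K0', hK0'⟩ := eventually_atTop.1 hbc'
  obtain ⟨C1, hC1⟩ := exists_initial_bound b K0
  obtain ⟨C2, hC2⟩ := exists_initial_bound b' K0'
  -- the bound of the central part
  set C : ℝ := (N : ℝ) + |C1| + |C2| with hC
  have hCN : (N : ℝ) ≤ C := by
    have := abs_nonneg C1
    have := abs_nonneg C2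
    linarith
  have hC0 : 0 ≤ C := le_trans (Nat.cast_nonneg N) hCN
  have hCC1 : C1 ≤ C := by
    have := le_abs_self C1
    have := abs_nonneg C2
    have : (0 : ℝ) ≤ N := Nat.cast_nonneg N
    linarith
  have hCC2 : C2 ≤ C := by
    have := le_abs_self C2
    have := abs_nonneg C1
    have : (0 : ℝ) ≤ N := Nat.cast_nonneg N
    linarith
  have hcw : ∀ x ∈ cw.support, |(x.1 : ℝ)| ≤ C ∧ |(x.2 : ℝ)| ≤ C := by
    intro x hx
    obtain ⟨h1, h2⟩ := hN x hx
    constructor
    · refine le_trans ?_ hCN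
      exact_mod_cast h1
    · refine le_trans ?_ hCN
      exact_mod_cast h2
  -- points of `b`: central or in the cone
  have memb : ∀ k, (|((b k).1 : ℝ)| ≤ C ∧ |((b k).2 : ℝ)| ≤ C) ∨
      (m * ((b k).1 : ℝ) < ((b k).2 : ℝ) ∧ m * ((b k).2 : ℝ) < ((b k).1 : ℝ) ∧
        0 < ((b k).1 : ℝ) ∧ 0 < ((b k).2 : ℝ)) := by
    intro k
    rcases lt_or_ge k K0 with h | h
    · exact Or.inl ⟨(hC1 k h).1.trans hCC1, (hC1 k h).2.trans hCC1⟩
    · right
      have h1 := hK0 k h
      obtain ⟨p1, p2⟩ := h1.pos hm hm1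
      obtain ⟨q1, q2⟩ := h1
      simp only [toR, one_mul] at p1 p2 q1 q2
      exact ⟨q1, q2, p1, p2⟩
  have memb' : ∀ k, (|((b' k).1 : ℝ)| ≤ C ∧ |((b' k).2 : ℝ)| ≤ C) ∨
      (m * ((b' k).1 : ℝ) < -((b' k).2 : ℝ) ∧ m * (-((b' k).2 : ℝ)) < ((b' k).1 : ℝ) ∧
        0 < ((b' k).1 : ℝ) ∧ ((b' k).2 : ℝ) < 0) := by
    intro k
    rcases lt_or_ge k K0' with h | h
    · exact Or.inl ⟨(hC2 k h).1.trans hCC2, (hC2 k h).2.trans hCC2⟩
    · right
      have h1 := hK0' k h
      obtain ⟨p1, p2⟩ := h1.pos hm hm1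
      obtain ⟨q1, q2⟩ := h1
      simp only [toR, one_mul, neg_one_mul] at p1 p2 q1 q2
      exact ⟨q1, q2, p1, by linarith⟩
  obtain ⟨n1, hn1⟩ := eventually_atTop.1
    ((hdis.and hdis').and (eventually_out hrt (2 * C + 1 + 2 * C / m)))
  refine ⟨n1, ?_⟩
  rintro ⟨n, hn, hcore⟩ n' hn'
  by_contra hcon
  push Not at hcon
  -- `p = r n` in the core, `q = r n'` not in the sector
  obtain ⟨β0, hβ0⟩ := exists_piece hr hn' hn
  obtain ⟨U, hU⟩ := exists_bound β0 0 1
  have hU' : ∀ x ∈ β0.support, |(x.2 : ℝ)| ≤ U := by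
    intro x hx
    have := hU x hx
    simpa [lin] using this
  -- long pieces of the barriers
  obtain ⟨K, hK⟩ := (eventually_high hm hm1 (τ := 1) (by simp) hbt hbc U).exists
  obtain ⟨K', hK'⟩ := (eventually_high hm hm1 (τ := -1) (by simp) hbt' hbc' U).exists
  rw [one_mul] at hK
  obtain ⟨w1, hw1⟩ := exists_piece hb' (Nat.zero_le K') (Nat.zero_le 0)
  obtain ⟨w2, hw2⟩ := exists_piece hb (Nat.zero_le 0) (Nat.zero_le K)
  set α := (w1.append cw).append w2 with hα
  have memα : ∀ x ∈ α.support, (∃ k, x = b' k) ∨ x ∈ cw.support ∨ (∃ k, x = b k) := by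
    intro x hx
    simp only [hα, SimpleGraph.Walk.mem_support_append_iff] at hx
    rcases hx with (h | h) | h
    · obtain ⟨k, -, hk⟩ := hw1 x h
      exact Or.inl ⟨k, hk⟩
    · exact Or.inr (Or.inl h)
    · obtain ⟨k, -, hk⟩ := hw2 x h
      exact Or.inr (Or.inr ⟨k, hk⟩)
  obtain ⟨M, hM⟩ := exists_box α
  -- horizontal extensions of `β0`
  have hMq : -(M : ℤ) - 1 - |(r n').1| ≤ (r n').1 := by
    have := neg_abs_le (r n').1
    omega
  have hMp : (r n).1 ≤ (M : ℤ) + 1 + |(r n).1| := by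
    have := le_abs_self (r n).1
    omega
  obtain ⟨wl, hwl⟩ := exists_lf (r n') (-(M : ℤ) - 1 - |(r n').1|) hMq
  obtain ⟨wr, hwr⟩ := exists_rt (r n) ((M : ℤ) + 1 + |(r n).1|) hMp
  set β := (wl.reverse.append β0).append wr with hβ
  have memβ : ∀ x ∈ β.support, (x.2 = (r n').2 ∧ x.1 ≤ (r n').1) ∨ x ∈ β0.support ∨
      (x.2 = (r n).2 ∧ (r n).1 ≤ x.1) := by
    intro x hx
    simp only [hβ, SimpleGraph.Walk.mem_support_append_iff, SimpleGraph.Walk.support_reverse,
      List.mem_reverse] at hx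
    rcases hx with (h | h) | h
    · have := hwl x h
      exact Or.inl ⟨this.1, this.2.2⟩
    · exact Or.inr (Or.inl h)
    · have := hwr x h
      exact Or.inr (Or.inr ⟨this.1, this.2.1⟩)
  obtain ⟨x, hxα, hxβ⟩ := cross (n11 := 0) (n12 := 1) (n21 := 1) (n22 := 0) (by norm_num) α β
    (by
      intro x hx
      have hx2 : |(x.2 : ℝ)| ≤ U := by
        rcases memβ x hx with h | h | h
        · rw [h.1]
          exact hU' _ β0.start_mem_support
        · exact hU' x h
        · rw [h.1]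
          exact hU' _ β0.end_mem_support
      rw [abs_le] at hx2
      simp only [lin, zero_mul, one_mul, zero_add]
      constructor <;> linarith)
    (by
      intro x hx
      have h := (hM x hx).1
      rw [abs_le] at h
      have h1 : -(M : ℝ) ≤ x.1 := by exact_mod_cast h.1
      have h2 : (x.1 : ℝ) ≤ M := by exact_mod_cast h.2
      simp only [lin, zero_mul, one_mul, add_zero]
      push_cast
      have a1 : (0 : ℝ) ≤ |((r n').1 : ℝ)| := abs_nonneg _
      have a2 : (0 : ℝ) ≤ |((r n).1 : ℝ)| := abs_nonneg _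
      constructor <;> linarith)
  -- exclude all cases
  obtain ⟨⟨-, -⟩, hout⟩ := hn1 n hn
  obtain ⟨⟨-, -⟩, hout'⟩ := hn1 n' hn'
  have hCm : 0 ≤ 2 * C / m := by positivity
  have hp1 : 0 < ((r n).1 : ℝ) := by
    by_contra hc
    push Not at hc
    have := abs_nonneg ((r n).2 : ℝ)
    nlinarith
  have hpC : C < ((r n).1 : ℝ) := by
    rcases hout with h | h
    · rw [abs_of_pos hp1] at h
      linarith
    · nlinarith
  -- not central
  have excl : ∀ x : ℤ × ℤ, |(x.1 : ℝ)| ≤ C → |(x.2 : ℝ)| ≤ C → x ∈ β.support → False := by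
    intro x h1 h2 hx
    rcases memβ x hx with ⟨h3, h4⟩ | h | ⟨h3, h4⟩
    · -- left extension
      have h4' : (x.1 : ℝ) ≤ ((r n').1 : ℝ) := by exact_mod_cast h4
      have h3' : (x.2 : ℝ) = ((r n').2 : ℝ) := by exact_mod_cast h3
      rw [h3'] at h2
      rw [abs_le] at h1
      rcases hout' with h | h
      · rcases abs_cases ((r n').1 : ℝ) with ⟨e, -⟩ | ⟨e, -⟩
        · rw [e] at h
          nlinarith
        · rw [e] at h
          linarith
      · linarith
    · obtain ⟨k, hk, rfl⟩ := hβ0 x h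
      obtain ⟨-, h3⟩ := hn1 k hk
      rcases h3 with h3 | h3 <;> linarith
    · have h4' : ((r n).1 : ℝ) ≤ (x.1 : ℝ) := by exact_mod_cast h4
      rw [abs_le] at h1
      linarith
  rcases memα x hxα with ⟨k, hk⟩ | hx | ⟨k, hk⟩
  · rcases memb' k with ⟨h1, h2⟩ | ⟨h1, h2, h3, h4⟩
    · exact excl x (by rw [hk]; exact h1) (by rw [hk]; exact h2) hxβ
    · rcases memβ x hxβ with ⟨h5, h6⟩ | h | ⟨h5, h6⟩
      · rw [hk] at h5 h6
        have h5' : ((b' k).2 : ℝ) = ((r n').2 : ℝ) := by exact_mod_cast h5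
        have h6' : ((b' k).1 : ℝ) ≤ ((r n').1 : ℝ) := by exact_mod_cast h6
        rw [← h5', abs_of_neg h4] at hcon
        linarith
      · obtain ⟨j, hj, hj'⟩ := hβ0 x h
        exact (hn1 j hj).1.2 k (hj'.symm.trans hk)
      · rw [hk] at h5 h6
        have h5' : ((b' k).2 : ℝ) = ((r n).2 : ℝ) := by exact_mod_cast h5
        have h6' : ((r n).1 : ℝ) ≤ ((b' k).1 : ℝ) := by exact_mod_cast h6
        rw [← h5', abs_of_neg h4] at hcore
        nlinarith
  · obtain ⟨h1, h2⟩ := hcw x hx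
    exact excl x h1 h2 hxβ
  · rcases memb k with ⟨h1, h2⟩ | ⟨h1, h2, h3, h4⟩
    · exact excl x (by rw [hk]; exact h1) (by rw [hk]; exact h2) hxβ
    · rcases memβ x hxβ with ⟨h5, h6⟩ | h | ⟨h5, h6⟩
      · rw [hk] at h5 h6
        have h5' : ((b k).2 : ℝ) = ((r n').2 : ℝ) := by exact_mod_cast h5
        have h6' : ((b k).1 : ℝ) ≤ ((r n').1 : ℝ) := by exact_mod_cast h6
        rw [← h5', abs_of_pos h4] at hcon
        linarith
      · obtain ⟨j, hj, hj'⟩ := hβ0 x h
        exact (hn1 j hj).1.1 k (hj'.symm.trans hk)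
      · rw [hk] at h5 h6
        have h5' : ((b k).2 : ℝ) = ((r n).2 : ℝ) := by exact_mod_cast h5
        have h6' : ((r n).1 : ℝ) ≤ ((b k).1 : ℝ) := by exact_mod_cast h6
        rw [← h5', abs_of_pos h4] at hcore
        nlinarith

end Crest.Agent.R151.D411
end

-- ▼ part R151/D411c
section

/-!
# R151 / S0213, D411c: every ray is eventually in one sector

`ray_sector`: if in each of the four diagonal cones there is a barrier ray, then every ray of the
plane is eventually in one of the four closed sectors `Sec m d`.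
-/

set_option autoImplicit false

namespace Crest.Agent.R151.D411

open Filter Topology Set
open Crest.ProbabilityR.FirstPassage
open Crest.Agent.R151.K (l1 toR n1)
open Crest.Agent.R151.Y (IsRay Coal)

/-- a barrier in the diagonal cone with signs `σ, τ` avoided by `r` -/
structure Bar (m σ τ : ℝ) (r b : ℕ → ℤ × ℤ) : Prop where
  seq : IsSeq b
  out : Tendsto b atTop cofinite
  cone : ∀ᶠ k in atTop, Diag m σ τ (toR (b k))
  dis : ∀ᶠ n in atTop, ∀ k, r n ≠ b k

theorem Bar.map {m σ τ σ' τ' : ℝ} {r b : ℕ → ℤ × ℤ} (h : Bar m σ τ r b) {φ : ℤ × ℤ → ℤ × ℤ}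
    (hinj : Function.Injective φ)
    (hadj : ∀ x y, squareLattice.Adj x y → squareLattice.Adj (φ x) (φ y))
    (hd : ∀ z : ℤ × ℤ, Diag m σ τ (toR z) → Diag m σ' τ' (toR (φ z))) :
    Bar m σ' τ' (fun n => φ (r n)) (fun n => φ (b n)) :=
  ⟨fun k => hadj _ _ (h.seq k), hinj.tendsto_cofinite.comp h.out,
    h.cone.mono fun _ hk => hd _ hk, h.dis.mono fun _ hn k hnk => hn k (hinj hnk)⟩

/-- the rotation of the direction `d` to the east -/
def rotE : Ax → ℤ × ℤ → ℤ × ℤ
  | .E, z => z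
  | .N, z => (z.2, -z.1)
  | .W, z => (-z.1, -z.2)
  | .S, z => (-z.2, z.1)

theorem rotE_inj (d : Ax) : Function.Injective (rotE d) := by
  rintro ⟨a, b⟩ ⟨a', b'⟩ h
  cases d <;> simp only [rotE, Prod.mk.injEq] at h ⊢ <;> omega

theorem rotE_adj (d : Ax) (x y : ℤ × ℤ) (h : squareLattice.Adj x y) :
    squareLattice.Adj (rotE d x) (rotE d y) := by
  rw [Pl.adj_iff] at h ⊢
  obtain ⟨a, b⟩ := x
  obtain ⟨a', b'⟩ := y
  cases d <;> simp only [rotE, Prod.mk.injEq] at h ⊢ <;> omega

theorem rotE_fst (d : Ax) (z : ℤ × ℤ) : ((rotE d z).1 : ℝ) = al d (toR z) := by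
  cases d <;> simp [rotE, al, toR]

theorem rotE_snd (d : Ax) (z : ℤ × ℤ) : |((rotE d z).2 : ℝ)| = |be d (toR z)| := by
  cases d <;> simp [rotE, be, toR]

theorem core_sec {m : ℝ} (hm : 0 < m) (hm1 : m < 1) (d : Ax) {r : ℕ → ℤ × ℤ} (hr : IsSeq r)
    (hrt : Tendsto r atTop cofinite)
    (hbar : ∀ σ τ : ℝ, |σ| = 1 → |τ| = 1 → ∃ b, Bar m σ τ r b) :
    ∃ n1, (∃ n ≥ n1, |be d (toR (r n))| < m * al d (toR (r n))) →
      ∀ n ≥ n1, Sec m d (toR (r n)) := by
  obtain ⟨b, b', hb, hb'⟩ : ∃ b b', Bar m 1 1 (fun n => rotE d (r n)) b ∧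
      Bar m 1 (-1) (fun n => rotE d (r n)) b' := by
    obtain ⟨b1, h1⟩ := hbar 1 1 (by simp) (by simp)
    obtain ⟨b2, h2⟩ := hbar (-1) 1 (by simp) (by simp)
    obtain ⟨b3, h3⟩ := hbar (-1) (-1) (by simp) (by simp)
    obtain ⟨b4, h4⟩ := hbar 1 (-1) (by simp) (by simp)
    cases d with
    | E => exact ⟨b1, b4, h1, h4⟩
    | N =>
      refine ⟨_, _, h2.map (rotE_inj .N) (rotE_adj .N) ?_, h1.map (rotE_inj .N) (rotE_adj .N) ?_⟩
      · intro z hz
        simp only [Diag, toR, rotE] at hz ⊢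
        push_cast
        constructor <;> linarith [hz.1, hz.2]
      · intro z hz
        simp only [Diag, toR, rotE] at hz ⊢
        push_cast
        constructor <;> linarith [hz.1, hz.2]
    | W =>
      refine ⟨_, _, h3.map (rotE_inj .W) (rotE_adj .W) ?_, h2.map (rotE_inj .W) (rotE_adj .W) ?_⟩
      · intro z hz
        simp only [Diag, toR, rotE] at hz ⊢
        push_cast
        constructor <;> linarith [hz.1, hz.2]
      · intro z hz
        simp only [Diag, toR, rotE] at hz ⊢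
        push_cast
        constructor <;> linarith [hz.1, hz.2]
    | S =>
      refine ⟨_, _, h4.map (rotE_inj .S) (rotE_adj .S) ?_, h3.map (rotE_inj .S) (rotE_adj .S) ?_⟩
      · intro z hz
        simp only [Diag, toR, rotE] at hz ⊢
        push_cast
        constructor <;> linarith [hz.1, hz.2]
      · intro z hz
        simp only [Diag, toR, rotE] at hz ⊢
        push_cast
        constructor <;> linarith [hz.1, hz.2]
  obtain ⟨n1, h⟩ := east hm hm1 hb.seq hb'.seq (fun k => rotE_adj d _ _ (hr k)) hb.out hb'.out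
    ((rotE_inj d).tendsto_cofinite.comp hrt) hb.cone hb'.cone hb.dis hb'.dis
  refine ⟨n1, ?_⟩
  rintro ⟨n, hn, hcore⟩ k hk
  have := h ⟨n, hn, by rw [rotE_fst, rotE_snd]; exact hcore⟩ k hk
  rw [rotE_fst, rotE_snd] at this
  exact this

/-- a path that avoids the four barriers is eventually in one sector -/
theorem seq_sector {m : ℝ} (hm : 0 < m) (hm1 : m < 1) {r : ℕ → ℤ × ℤ} (hr : IsSeq r)
    (hrt : Tendsto r atTop cofinite)
    (hbar : ∀ σ τ : ℝ, |σ| = 1 → |τ| = 1 → ∃ b, Bar m σ τ r b) :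
    ∃ d, ∀ᶠ n in atTop, Sec m d (toR (r n)) := by
  choose N hN using fun d : Ax => core_sec hm hm1 d hr hrt hbar
  obtain ⟨N0, hN0⟩ := eventually_atTop.1 (eventually_out hrt 1)
  set n2 : ℕ := max (max (N .E) (N .N)) (max (max (N .W) (N .S)) N0) with hn2
  have hE : N .E ≤ n2 := by omega
  have hNN : N .N ≤ n2 := by omega
  have hW : N .W ≤ n2 := by omega
  have hS : N .S ≤ n2 := by omega
  have h0 : N0 ≤ n2 := by omega
  by_cases hc : ∃ d : Ax, ∃ n ≥ n2, |be d (toR (r n))| < m * al d (toR (r n))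
  · obtain ⟨d, n, hn, hcore⟩ := hc
    have hd : N d ≤ n2 := by cases d <;> assumption
    refine ⟨d, eventually_atTop.2 ⟨n2, fun k hk => ?_⟩⟩
    exact hN d ⟨n, hd.trans hn, hcore⟩ k (hd.trans hk)
  · push Not at hc
    have key : ∀ n ≥ n2, m * |((r n).1 : ℝ)| ≤ |((r n).2 : ℝ)| ∧ (r n).2 ≠ 0 := by
      intro n hn
      have e := hc .E n hn
      have nn := hc .N n hn
      have w := hc .W n hn
      have s := hc .S n hn
      simp only [al, be, toR] at e nn w s
      have h1 : m * |((r n).1 : ℝ)| ≤ |((r n).2 : ℝ)| := by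
        rcases abs_cases ((r n).1 : ℝ) with ⟨h, -⟩ | ⟨h, -⟩ <;> rw [h] <;> assumption
      have h2 : m * |((r n).2 : ℝ)| ≤ |((r n).1 : ℝ)| := by
        rcases abs_cases ((r n).2 : ℝ) with ⟨h, -⟩ | ⟨h, -⟩ <;> rw [h] <;> assumption
      refine ⟨h1, fun h3 => ?_⟩
      rw [h3] at h1
      simp only [Int.cast_zero, abs_zero] at h1
      have h4 : |((r n).1 : ℝ)| = 0 := by
        have := abs_nonneg ((r n).1 : ℝ)
        nlinarith
      rcases hN0 n (h0.trans hn) with h5 | h5
      · rw [h4] at h5; linarith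
      · rw [h3] at h5; simp at h5; linarith
    have step : ∀ n, |(r (n + 1)).2 - (r n).2| ≤ 1 := by
      intro n
      have := hr n
      rw [Pl.adj_iff] at this
      rw [abs_le]
      rcases this with h | h | h | h <;> rw [h] <;> simp
    rcases lt_or_gt_of_ne (key n2 le_rfl).2 with hs | hs
    · -- south
      have hneg : ∀ k, (r (n2 + k)).2 < 0 := by
        intro k
        induction k with
        | zero => exact hs
        | succ k ih =>
          have h1 := step (n2 + k)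
          have h2 := (key (n2 + k + 1) (by omega)).2
          rw [abs_le] at h1
          rw [← add_assoc]
          omega
      refine ⟨.S, eventually_atTop.2 ⟨n2, fun k hk => ?_⟩⟩
      obtain ⟨j, rfl⟩ := Nat.exists_eq_add_of_le hk
      have h1 := (key (n2 + j) (by omega)).1
      have h2 : ((r (n2 + j)).2 : ℝ) < 0 := by exact_mod_cast hneg j
      rw [abs_of_neg h2] at h1
      exact h1
    · have hpos : ∀ k, 0 < (r (n2 + k)).2 := by
        intro k
        induction k with
        | zero => exact hs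
        | succ k ih =>
          have h1 := step (n2 + k)
          have h2 := (key (n2 + k + 1) (by omega)).2
          rw [abs_le] at h1
          rw [← add_assoc]
          omega
      refine ⟨.N, eventually_atTop.2 ⟨n2, fun k hk => ?_⟩⟩
      obtain ⟨j, rfl⟩ := Nat.exists_eq_add_of_le hk
      have h1 := (key (n2 + j) (by omega)).1
      have h2 : 0 < ((r (n2 + j)).2 : ℝ) := by exact_mod_cast hpos j
      rw [abs_of_pos h2] at h1
      exact h1

theorem Diag.sec {m σ τ : ℝ} (hm : 0 < m) (hm1 : m < 1) (hσ : |σ| = 1) (hτ : |τ| = 1)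
    {z : ℝ × ℝ} (h : Diag m σ τ z) : Sec m (if τ = 1 then .N else .S) z := by
  obtain ⟨h1, h2⟩ := h.pos hm hm1
  have e : |z.1| = σ * z.1 := by
    rw [← abs_of_pos h1, abs_mul, hσ, one_mul]
  obtain ⟨h3, -⟩ := h
  rcases eq_or_ne τ 1 with ht | ht
  · rw [if_pos ht]
    simp only [Sec, al, be]
    rw [e]
    rw [ht, one_mul] at h3
    exact h3.le
  · rw [if_neg ht]
    have : τ = -1 := by
      rcases abs_cases τ with ⟨h5, -⟩ | ⟨h5, -⟩
      · exact absurd (h5.symm.trans hτ) ht
      · linarith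
    simp only [Sec, al, be]
    rw [e]
    rw [this, neg_one_mul] at h3
    exact h3.le

/-- **(DIR2)** Every ray is eventually in one sector. -/
theorem ray_sector {m : ℝ} (hm : 0 < m) (hm1 : m < 1) {t : Environment} (ht : ∀ e, 0 ≤ t e)
    (hnt : NoTies t)
    (hbar : ∀ σ τ : ℝ, |σ| = 1 → |τ| = 1 → ∃ b : ℕ → ℤ × ℤ, IsRay t squareLattice b ∧
      ∀ᶠ k in atTop, Diag m σ τ (toR (b k)))
    {r : ℕ → ℤ × ℤ} (hr : IsRay t squareLattice r) :
    ∃ d, ∀ᶠ n in atTop, Sec m d (toR (r n)) := by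
  have hpos : ∀ e, 0 < t e := fun e => hnt.pos ht e
  have hto : ∀ v : ℕ → ℤ × ℤ, IsRay t squareLattice v → Tendsto v atTop cofinite :=
    fun v hv => hv.tendsto_cofinite hpos
  by_cases hc : ∃ σ τ : ℝ, |σ| = 1 ∧ |τ| = 1 ∧ ∃ b : ℕ → ℤ × ℤ, IsRay t squareLattice b ∧
      (∀ᶠ k in atTop, Diag m σ τ (toR (b k))) ∧ Coal r b
  · obtain ⟨σ, τ, hσ, hτ, b, -, hb2, i, j, hij⟩ := hc
    refine ⟨if τ = 1 then .N else .S, ?_⟩
    obtain ⟨K, hK⟩ := eventually_atTop.1 hb2
    refine eventually_atTop.2 ⟨i + K, fun n hn => ?_⟩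
    obtain ⟨k, rfl⟩ := Nat.exists_eq_add_of_le (show i ≤ n by omega)
    rw [hij k]
    exact (hK (j + k) (by omega)).sec hm hm1 hσ hτ
  · push Not at hc
    refine seq_sector hm hm1 hr.adj (hto r hr) fun σ τ hσ hτ => ?_
    obtain ⟨b, hb1, hb2⟩ := hbar σ τ hσ hτ
    refine ⟨b, hb1.adj, hto b hb1, hb2, ?_⟩
    have hnc := hc σ τ hσ hτ b hb1 hb2
    by_contra hcon
    apply hnc
    refine hr.coal_of_frequently hnt ht hb1 fun n => ?_
    rw [Filter.not_eventually] at hcon
    obtain ⟨i, hi, h⟩ := (frequently_atTop.1 hcon) n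
    push Not at h
    obtain ⟨j, hj⟩ := h
    exact ⟨i, j, hi, hj⟩

end Crest.Agent.R151.D411
private theorem rz_2c9c3d793b : type_of% @_root_.Crest.Agent.R151.D411.rotE.eq_1 := @_root_.Crest.Agent.R151.D411.rotE.eq_1 -- L35
end

-- ▼ part R151/D411d

/-!
# R151 / S0213, D411d: every bigeodesic is proper

`exists_properUp`: if the time constant `μ` is a smooth norm then there is a constant `C0` such
that `(C0, 1)` is not in the facet of `e1` and every bigeodesic of an environment with the uniform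
shape theorem and barrier rays is, after time reversal and/or the swap of the coordinates, proper:
its ends are in the cones `|x| ≤ C0 y` and `|x| ≤ -C0 y`.
-/

set_option autoImplicit false

namespace Crest.Agent.R151.D411

open Filter Topology Set
open Crest.ProbabilityR.FirstPassage
open Crest.Agent.R151.K (l1 toR n1)
open Crest.Agent.R151.Y (IsRay Coal)

/-- the path goes upwards: its ends are in the cones `|x| ≤ C y` and `|x| ≤ -C y` -/
def ProperUp (C : ℝ) (v : ℤ → ℤ × ℤ) : Prop :=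
  (∀ᶠ n in atTop, |((v n).1 : ℝ)| ≤ C * (v n).2) ∧
    (∀ᶠ n in atBot, |((v n).1 : ℝ)| ≤ -(C * (v n).2)) ∧
      Tendsto (fun n => (v n).2) atTop atTop ∧ Tendsto (fun n => (v n).2) atBot atBot

/-- in each diagonal cone there is a ray of the environment `t` -/
def Barriers (μ : ℝ × ℝ → ℝ) (t : Environment) : Prop :=
  ∀ η > 0, ∀ σ τ : ℝ, |σ| = 1 → |τ| = 1 → ∃ b : ℕ → ℤ × ℤ, IsRay t squareLattice b ∧
    ∀ᶠ k in atTop, μ (toR (b k)) - μ (1, 1) / 2 * (σ * (b k).1 + τ * (b k).2) ≤ η * l1 (toR (b k))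

/-- the uniform shape theorem holds for the environment `t` -/
def UShape (μ : ℝ × ℝ → ℝ) (t : Environment) : Prop :=
  ∀ ε > 0, ∀ᶠ n : ℕ in atTop, K.dev μ n t ≤ ε * n

theorem n1_adj {x y : ℤ × ℤ} (h : squareLattice.Adj x y) : n1 y ≤ n1 x + 1 := by
  rw [Pl.adj_iff] at h
  unfold n1
  rcases h with rfl | rfl | rfl | rfl <;> simp only <;> omega

/-- discrete intermediate value theorem for the norm along a path -/
theorem exists_n1_eq {v : ℕ → ℤ × ℤ} (hv : IsSeq v) (hvt : Tendsto v atTop cofinite) {J R : ℕ}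
    (hR : n1 (v J) ≤ R) : ∃ j ≥ J, n1 (v j) = R := by
  have hex : ∃ j, J ≤ j ∧ R ≤ n1 (v j) := by
    obtain ⟨N, hN⟩ := eventually_atTop.1 (eventually_out hvt R)
    refine ⟨max N J, le_max_right _ _, ?_⟩
    have h := hN (max N J) (le_max_left _ _)
    have e : ((n1 (v (max N J)) : ℕ) : ℝ) = |((v (max N J)).1 : ℝ)| + |((v (max N J)).2 : ℝ)| := by
      unfold n1
      push_cast
      rw [Nat.cast_natAbs, Nat.cast_natAbs, Int.cast_abs, Int.cast_abs]
    have : (R : ℝ) ≤ n1 (v (max N J)) := by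
      rw [e]
      have a1 := abs_nonneg ((v (max N J)).1 : ℝ)
      have a2 := abs_nonneg ((v (max N J)).2 : ℝ)
      rcases h with h | h <;> linarith
    exact_mod_cast this
  classical
  obtain ⟨h1, h2⟩ := Nat.find_spec hex
  set j := Nat.find hex with hj
  refine ⟨j, h1, le_antisymm ?_ h2⟩
  rcases h1.eq_or_lt with h3 | h3
  · rw [← h3]; exact hR
  · obtain ⟨i, hi⟩ : ∃ i, j = i + 1 := ⟨j - 1, by omega⟩
    have h4 := Nat.find_min hex (m := i) (by omega)
    have h5 : n1 (v i) < R := by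
      by_contra hc
      push Not at hc
      exact h4 ⟨by omega, hc⟩
    have h6 := n1_adj (hv i)
    rw [hi]
    omega

theorem Sec.mono {m m' : ℝ} (h : m' ≤ m) {d : Ax} {z : ℝ × ℝ} (hz : Sec m d z) : Sec m' d z := by
  unfold Sec at *
  have := mul_le_mul_of_nonneg_right h (abs_nonneg (be d z))
  linarith

theorem mem_box_of_n1_le {n : ℕ} {x : ℤ × ℤ} (h : n1 x ≤ n) : x ∈ K.box n := by
  rw [K.mem_box]
  unfold n1 at h
  omega

/-- **(DIR3)** The backward end of a bigeodesic is in the sector opposite to the forward end. -/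
theorem back_sector {μ : ℝ × ℝ → ℝ} (h : SmoothNorm μ) {m m' c : ℝ} {d : Ax} (hc : 0 < c)
    (hpair : ∀ u w : ℝ × ℝ, l1 u = l1 w → Sec m d u →
      μ u + μ w - μ (u + w) ≤ c * l1 u → Sec m' d w)
    {t : Environment} (ht : ∀ e, 0 ≤ t e) (hsh : UShape μ t) {v : ℤ → ℤ × ℤ}
    (hv : IsBigeodesic t v) (hfw : ∀ᶠ n in atTop, Sec m d (toR (v n))) :
    ∀ᶠ n in atBot, Sec m' d (-toR (v n)) := by
  have hvc : Tendsto v cofinite cofinite := hv.1.tendsto_cofinite
  have hvT : Tendsto v atTop cofinite := hvc.mono_left (by rw [Int.cofinite_eq]; exact le_sup_right)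
  have hvB : Tendsto v atBot cofinite := hvc.mono_left (by rw [Int.cofinite_eq]; exact le_sup_left)
  set f : ℕ → ℤ × ℤ := fun k => v k with hf
  have hfs : IsSeq f := fun k => by
    have := hv.2.1 k
    simpa [hf] using this
  have hft : Tendsto f atTop cofinite := hvT.comp tendsto_natCast_atTop_atTop
  obtain ⟨J, hJ⟩ := eventually_atTop.1 hfw
  obtain ⟨N, hN⟩ := eventually_atTop.1 (hsh (c / 6) (by positivity))
  have hμ0 := h.norm.nonneg (toR (v 0))
  -- far enough
  set B : ℝ := (N : ℝ) + n1 (f J.toNat) + n1 (v 0) + 4 * μ (toR (v 0)) / c with hB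
  filter_upwards [eventually_out hvB B, eventually_lt_atBot (0 : ℤ)] with i hi hi0
  set R : ℕ := n1 (v i) with hR
  have eR : (R : ℝ) = |((v i).1 : ℝ)| + |((v i).2 : ℝ)| := by
    rw [hR]
    unfold n1
    push_cast
    rw [Nat.cast_natAbs, Nat.cast_natAbs, Int.cast_abs, Int.cast_abs]
  have hBR : B < R := by
    rw [eR]
    have a1 := abs_nonneg ((v i).1 : ℝ)
    have a2 := abs_nonneg ((v i).2 : ℝ)
    rcases hi with h | h <;> linarith
  have p1 : (0 : ℝ) ≤ N := Nat.cast_nonneg _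
  have p2 : (0 : ℝ) ≤ n1 (f J.toNat) := Nat.cast_nonneg _
  have p3 : (0 : ℝ) ≤ n1 (v 0) := Nat.cast_nonneg _
  have p4 : 0 ≤ 4 * μ (toR (v 0)) / c := by positivity
  have hNR : N ≤ R := by
    have : (N : ℝ) ≤ R := by linarith
    exact_mod_cast this
  have hJR : n1 (f J.toNat) ≤ R := by
    have : (n1 (f J.toNat) : ℝ) ≤ R := by linarith
    exact_mod_cast this
  have h0R : n1 (v 0) ≤ R := by
    have : (n1 (v 0) : ℝ) ≤ R := by linarith
    exact_mod_cast this
  have hμR : 4 * μ (toR (v 0)) ≤ c * R := by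
    have : 4 * μ (toR (v 0)) / c ≤ R := by linarith
    rw [div_le_iff₀ hc] at this
    linarith
  obtain ⟨j, hj, hjR⟩ := exists_n1_eq hfs hft hJR
  have hJj : J ≤ (j : ℤ) := by omega
  have hs : Sec m d (toR (v j)) := hJ j hJj
  -- passage times
  have hdev := hN R hNR
  have hi0' : i < 0 := hi0
  have t1 : passageTime t (v i) (v 0) + passageTime t (v 0) (v j) = passageTime t (v i) (v j) := by
    simp only [passageTime_eq_pt]
    exact Y.IsBigeodesic.pt_add hv ht hi0'.le (Int.natCast_nonneg j)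
  have b1 : v i ∈ K.box R := mem_box_of_n1_le le_rfl
  have b2 : v 0 ∈ K.box R := mem_box_of_n1_le h0R
  have b3 : v (j : ℤ) ∈ K.box R := mem_box_of_n1_le (le_of_eq hjR)
  have d1 := (K.le_dev μ t b1 b3).trans hdev
  have d2 := (K.le_dev μ t b1 b2).trans hdev
  have d3 := (K.le_dev μ t b2 b3).trans hdev
  rw [abs_le] at d1 d2 d3
  have e1 : toR (v (j : ℤ) - v i) = toR (v (j : ℤ)) + -toR (v i) := by
    ext <;> simp [toR] <;> ring
  have e2 : μ (-toR (v i)) ≤ μ (toR (v 0 - v i)) + μ (toR (v 0)) := by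
    have : -toR (v i) = toR (v 0 - v i) + -toR (v 0) := by
      ext <;> simp [toR] <;> ring
    rw [this]
    refine (h.norm.add _ _).trans ?_
    rw [h.norm.neg]
  have e3 : μ (toR (v (j : ℤ))) ≤ μ (toR (v (j : ℤ) - v 0)) + μ (toR (v 0)) := by
    have : toR (v (j : ℤ)) = toR (v (j : ℤ) - v 0) + toR (v 0) := by
      ext <;> simp [toR]
    conv_lhs => rw [this]
    exact h.norm.add _ _
  rw [e1] at d1
  have l1u : l1 (toR (v (j : ℤ))) = R := by
    rw [K.l1_toR]
    exact_mod_cast hjR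
  have l1w : l1 (-toR (v i)) = R := by
    rw [eR]
    simp [l1, toR]
  refine hpair (toR (v (j : ℤ))) (-toR (v i)) (by rw [l1u, l1w]) hs ?_
  rw [l1u]
  have : c / 6 * (R : ℝ) = c * R / 6 := by ring
  rw [this] at d1 d2 d3
  linarith [d1.2, d2.1, d3.1]

theorem properUp_of {m : ℝ} (hm : 0 < m) {v : ℤ → ℤ × ℤ} (hinj : Function.Injective v)
    (h1 : ∀ᶠ n in atTop, m * |((v n).1 : ℝ)| ≤ (v n).2)
    (h2 : ∀ᶠ n in atBot, m * |((v n).1 : ℝ)| ≤ -(v n).2) : ProperUp (1 / m) v := by
  have hvc : Tendsto v cofinite cofinite := hinj.tendsto_cofinite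
  have hvT : Tendsto v atTop cofinite := hvc.mono_left (by rw [Int.cofinite_eq]; exact le_sup_right)
  have hvB : Tendsto v atBot cofinite := hvc.mono_left (by rw [Int.cofinite_eq]; exact le_sup_left)
  refine ⟨?_, ?_, ?_, ?_⟩
  · filter_upwards [h1] with n hn
    rw [div_mul_eq_mul_div, one_mul, le_div_iff₀ hm, mul_comm]
    exact hn
  · filter_upwards [h2] with n hn
    rw [div_mul_eq_mul_div, one_mul, ← neg_div, le_div_iff₀ hm, mul_comm]
    exact hn
  · rw [tendsto_atTop]
    intro U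
    filter_upwards [h1, eventually_out hvT (|(U : ℝ)| / m + |(U : ℝ)|)] with n hn hout
    by_contra hcon
    push Not at hcon
    have hc : ((v n).2 : ℝ) < U := by exact_mod_cast hcon
    have h0 : 0 ≤ m * |((v n).1 : ℝ)| := by positivity
    have hU := le_abs_self (U : ℝ)
    have hq : 0 ≤ |(U : ℝ)| / m := by positivity
    rcases hout with h | h
    · have : |((v n).1 : ℝ)| ≤ |(U : ℝ)| / m := by
        rw [le_div_iff₀ hm]
        linarith
      have := abs_nonneg (U : ℝ)
      linarith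
    · rw [abs_of_nonneg (h0.trans hn)] at h
      linarith
  · rw [tendsto_atBot]
    intro U
    filter_upwards [h2, eventually_out hvB (|(U : ℝ)| / m + |(U : ℝ)|)] with n hn hout
    by_contra hcon
    push Not at hcon
    have hc : (U : ℝ) < ((v n).2 : ℝ) := by exact_mod_cast hcon
    have h0 : 0 ≤ m * |((v n).1 : ℝ)| := by positivity
    have hU := neg_abs_le (U : ℝ)
    have hq : 0 ≤ |(U : ℝ)| / m := by positivity
    rcases hout with h | h
    · have : |((v n).1 : ℝ)| ≤ |(U : ℝ)| / m := by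
        rw [le_div_iff₀ hm]
        linarith
      have := abs_nonneg (U : ℝ)
      linarith
    · rw [← abs_neg ((v n).2 : ℝ), abs_of_nonneg (h0.trans hn)] at h
      linarith

/-- **Every bigeodesic is proper** (up to time reversal and the swap of the coordinates). -/
theorem exists_properUp {μ : ℝ × ℝ → ℝ} (h : SmoothNorm μ) :
    ∃ C0 : ℝ, 0 < C0 ∧ μ (1, 0) * C0 < μ (C0, 1) ∧ ∀ t : Environment, (∀ e, 0 ≤ t e) →
      NoTies t → UShape μ t → Barriers μ t → ∀ v, IsBigeodesic t v →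
        ProperUp C0 v ∨ ProperUp C0 (fun n => v (-n)) ∨ ProperUp C0 (fun n => (v n).swap) ∨
          ProperUp C0 (fun n => (v (-n)).swap) := by
  obtain ⟨m, hm, hm1, hm2, hm3⟩ := h.exists_slope
  obtain ⟨η, hη, hdiag⟩ := h.exists_diag hm hm1 hm3
  choose M c hM0 hMm hM2 hc hpair using fun d : Ax => h.exists_pair hm hm2 d
  set ms : ℝ := min (min (M .E) (M .N)) (min (M .W) (M .S)) with hms
  have hms0 : 0 < ms := lt_min (lt_min (hM0 _) (hM0 _)) (lt_min (hM0 _) (hM0 _))
  have hmsM : ∀ d, ms ≤ M d := by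
    intro d
    cases d
    · exact (min_le_left _ _).trans (min_le_left _ _)
    · exact (min_le_left _ _).trans (min_le_right _ _)
    · exact (min_le_right _ _).trans (min_le_left _ _)
    · exact (min_le_right _ _).trans (min_le_right _ _)
  have hms2 : μ (1, 0) < μ (1, ms) := by
    rcases min_choice (min (M .E) (M .N)) (min (M .W) (M .S)) with e | e
    · rw [hms, e]
      rcases min_choice (M .E) (M .N) with e | e <;> rw [e] <;> exact hM2 _
    · rw [hms, e]
      rcases min_choice (M .W) (M .S) with e | e <;> rw [e] <;> exact hM2 _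
  refine ⟨1 / ms, by positivity, ?_, ?_⟩
  · have e : ((1 / ms, 1) : ℝ × ℝ) = (1 / ms) • ((1, ms) : ℝ × ℝ) := by
      ext
      · simp
      · simp [hms0.ne']
    rw [e, h.norm.smul _ _ (by positivity), mul_comm]
    exact mul_lt_mul_of_pos_left hms2 (by positivity)
  · intro t ht hnt hsh hbar v hv
    have hbar' : ∀ σ τ : ℝ, |σ| = 1 → |τ| = 1 → ∃ b : ℕ → ℤ × ℤ, IsRay t squareLattice b ∧
        ∀ᶠ k in atTop, Diag m σ τ (toR (b k)) := by
      intro σ τ hσ hτ
      obtain ⟨b, hb1, hb2⟩ := hbar η hη σ τ hσ hτ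
      refine ⟨b, hb1, ?_⟩
      have hbt : Tendsto b atTop cofinite := hb1.tendsto_cofinite fun e => hnt.pos ht e
      filter_upwards [hb2, eventually_out hbt 0] with k hk hk0
      refine hdiag σ τ hσ hτ (toR (b k)) ?_ hk
      intro h0
      have e1 := congrArg Prod.fst h0
      have e2 := congrArg Prod.snd h0
      simp only [toR, Prod.fst_zero, Prod.snd_zero] at e1 e2
      rw [e1, e2] at hk0
      simp at hk0
    obtain ⟨d, hd⟩ := ray_sector hm hm1 ht hnt hbar' (Y.isRay_of_isBigeodesic hv ht 0)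
    have hfw : ∀ᶠ n : ℤ in atTop, Sec m d (toR (v n)) := by
      obtain ⟨N, hN⟩ := eventually_atTop.1 hd
      refine eventually_atTop.2 ⟨N, fun n hn => ?_⟩
      have := hN n.toNat (by omega)
      simp only [zero_add] at this
      rwa [Int.toNat_of_nonneg (by omega)] at this
    have hbw := back_sector h (hc d) (hpair d) ht hsh hv hfw
    have hfw' : ∀ᶠ n : ℤ in atTop, Sec ms d (toR (v n)) :=
      hfw.mono fun n hn => hn.mono ((hmsM d).trans (hMm d))
    have hbw' : ∀ᶠ n : ℤ in atBot, Sec ms d (-toR (v n)) :=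
      hbw.mono fun n hn => hn.mono (hmsM d)
    have hneg : Function.Injective fun n : ℤ => v (-n) := fun a b hab => by
      have := hv.1 hab
      omega
    cases d with
    | N =>
      left
      refine properUp_of hms0 hv.1 ?_ ?_
      · filter_upwards [hfw'] with n hn
        simpa [Sec, al, be, toR] using hn
      · filter_upwards [hbw'] with n hn
        simpa [Sec, al, be, toR] using hn
    | S =>
      right; left
      refine properUp_of hms0 hneg ?_ ?_
      · have := tendsto_neg_atTop_atBot.eventually hbw'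
        filter_upwards [this] with n hn
        simpa [Sec, al, be, toR] using hn
      · have := tendsto_neg_atBot_atTop.eventually hfw'
        filter_upwards [this] with n hn
        simpa [Sec, al, be, toR] using hn
    | E =>
      right; right; left
      refine properUp_of hms0 (Prod.swap_injective.comp hv.1) ?_ ?_
      · filter_upwards [hfw'] with n hn
        simpa [Sec, al, be, toR] using hn
      · filter_upwards [hbw'] with n hn
        simpa [Sec, al, be, toR] using hn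
    | W =>
      right; right; right
      refine properUp_of hms0 (Prod.swap_injective.comp hneg) ?_ ?_
      · have := tendsto_neg_atTop_atBot.eventually hbw'
        filter_upwards [this] with n hn
        simpa [Sec, al, be, toR] using hn
      · have := tendsto_neg_atBot_atTop.eventually hfw'
        filter_upwards [this] with n hn
        simpa [Sec, al, be, toR] using hn

end Crest.Agent.R151.D411
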