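import Crest.Agent.R151.Pl4

/-!
# R151, planarity toolkit, part 5: strips and half-planes with end points on the boundary
-/

set_option autoImplicit false

open Crest.ProbabilityR.FirstPassage

namespace Crest.Agent.R151.Pl

/-- two walks in a horizontal strip from the bottom to the top with (weakly) interchanged end
points meet -/
theorem strip_cross {lo hi : ℤ} {a b c d : Pt} (α : squareLattice.Walk a d)
    (β : squareLattice.Walk b c)
    (hα : ∀ x ∈ α.support, lo ≤ x.2 ∧ x.2 ≤ hi) (hβ : ∀ x ∈ β.support, lo ≤ x.2 ∧ x.2 ≤ hi)
    (ha : a.2 = lo) (hb : b.2 = lo) (hd : d.2 = hi) (hc : c.2 = hi)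
    (hab : a.1 ≤ b.1) (hcd : c.1 ≤ d.1) : ∃ x, x ∈ α.support ∧ x ∈ β.support := by
  by_contra hno
  push Not at hno
  have ext : ∀ {p q : Pt}, p.1 = q.1 → p.2 = q.2 → p = q := fun h1 h2 => Prod.ext h1 h2
  have nab : a.1 ≠ b.1 := fun h => hno a α.start_mem_support
    (by rw [ext h (ha.trans hb.symm)]; exact β.start_mem_support)
  have ncd : c.1 ≠ d.1 := fun h => hno d α.end_mem_support
    (by rw [← ext h (hc.trans hd.symm)]; exact β.end_mem_support)
  obtain ⟨x, h1, h2⟩ := ray_theorem α β .dn .up .dn .up
    (fun x hx h => hno a α.start_mem_support (by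
      have e : x = a := ext h.1 (le_antisymm h.2 (by rw [ha]; exact (hβ x hx).1))
      rwa [← e]))
    (fun x hx h => hno d α.end_mem_support (by
      have e : x = d := ext h.1 (le_antisymm (by rw [hd]; exact (hβ x hx).2) h.2)
      rwa [← e]))
    (fun x hx h => hno x hx (by
      have e : x = b := ext h.1 (le_antisymm h.2 (by rw [hb]; exact (hα x hx).1))
      rw [e]; exact β.start_mem_support))
    (fun x hx h => hno x hx (by
      have e : x = c := ext h.1 (le_antisymm (by rw [hc]; exact (hα x hx).2) h.2)
      rw [e]; exact β.end_mem_support))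
    (fun x h h' => nab (h.1.symm.trans h'.1))
    (fun x h h' => hno a α.start_mem_support (by
      -- the ray down from `a` and the ray up from `c` meet: then `lo = hi` and `a = c`
      have e1 : x.2 ≤ lo := h.2.trans ha.le
      have e2 : hi ≤ x.2 := hc.symm.le.trans h'.2
      have e3 : lo ≤ hi := by
        have := hα a α.start_mem_support; omega
      have e : a = c := ext (h.1.symm.trans h'.1) (by omega)
      rw [e]; exact β.end_mem_support))
    (fun x h h' => hno d α.end_mem_support (by
      have e1 : x.2 ≤ lo := h'.2.trans hb.le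
      have e2 : hi ≤ x.2 := hd.symm.le.trans h.2
      have e3 : lo ≤ hi := by
        have := hα a α.start_mem_support; omega
      have e : d = b := ext (h.1.symm.trans h'.1) (by omega)
      rw [e]; exact β.start_mem_support))
    (fun x h h' => ncd (h'.1.symm.trans h.1))
    (by
      rw [ind_neg (P := prec .dn a .dn b) (by simp only [prec, rk, co]; omega),
        ind_neg (P := prec .up d .up c) (by simp only [prec, rk, co]; omega),
        ind_pos (P := prec .dn a .up c) (Or.inl (by simp [rk])),
        ind_neg (P := prec .up d .dn b) (by simp only [prec, rk, co]; omega)]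
      norm_num)
  exact hno x h1 h2


end Crest.Agent.R151.Pl
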