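import Crest.Agent.R151.F1
import Crest.Agent.R151.Pl5

-- ▼ part R151/D624a
section

/-!
# R151, D624a: last entrances into the half planes `{k ≤ y}` (deterministic part)

`Hp k` upper half plane, `gH k` its graph, `Vt t w h` the weight of the vertical edge
`(w,h-1) - (w,h)`.  For a boundary function `φ` on the line `y = h`,
`Phi t k h φ z w = T^k(z,(w,h-1)) + Vt t w h + φ w` is the value of entering `Hp h` for the last
time at `(w,h)`.
-/

set_option autoImplicit false

open Crest.ProbabilityR.FirstPassage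

namespace Crest.Agent.R151.D624

/-- the upper half plane `{k ≤ y}` -/
def Hp (k : ℤ) : Set (ℤ × ℤ) := {z | k ≤ z.2}

@[simp] theorem mem_Hp {k : ℤ} {z : ℤ × ℤ} : z ∈ Hp k ↔ k ≤ z.2 := Iff.rfl

/-- the graph of the upper half plane `{k ≤ y}` -/
abbrev gH (k : ℤ) : SimpleGraph (ℤ × ℤ) := reg (Hp k)

theorem Hp_anti {k h : ℤ} (hkh : k ≤ h) : Hp h ⊆ Hp k := fun _ hz => le_trans hkh hz

theorem gH_anti {k h : ℤ} (hkh : k ≤ h) : gH h ≤ gH k := reg_mono (Hp_anti hkh)

theorem gH_le (k : ℤ) : gH k ≤ squareLattice := reg_le _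

/-- lattice neighbours -/
theorem lat_adj {x y : ℤ × ℤ} : squareLattice.Adj x y ↔
    (x.1 = y.1 ∧ (y.2 = x.2 + 1 ∨ x.2 = y.2 + 1)) ∨
      (x.2 = y.2 ∧ (y.1 = x.1 + 1 ∨ x.1 = y.1 + 1)) := by
  unfold squareLattice
  rw [SimpleGraph.fromRel_adj]
  constructor
  · rintro ⟨_, h | h⟩
    · rcases h with h | h
      · exact Or.inl ⟨h.1, Or.inl h.2⟩
      · exact Or.inr ⟨h.1, Or.inl h.2⟩
    · rcases h with h | h
      · exact Or.inl ⟨h.1.symm, Or.inr h.2⟩
      · exact Or.inr ⟨h.1.symm, Or.inr h.2⟩
  · rintro (⟨h1, h2⟩ | ⟨h1, h2⟩)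
    · refine ⟨fun h => ?_, ?_⟩
      · rcases h2 with h2 | h2 <;> rw [h] at h2 <;> omega
      · rcases h2 with h2 | h2
        · exact Or.inl (Or.inl ⟨h1, h2⟩)
        · exact Or.inr (Or.inl ⟨h1.symm, h2⟩)
    · refine ⟨fun h => ?_, ?_⟩
      · rcases h2 with h2 | h2 <;> rw [h] at h2 <;> omega
      · rcases h2 with h2 | h2
        · exact Or.inl (Or.inr ⟨h1, h2⟩)
        · exact Or.inr (Or.inr ⟨h1.symm, h2⟩)

theorem adj_vert (w h : ℤ) : squareLattice.Adj (w, h - 1) (w, h) := by
  rw [lat_adj]
  exact Or.inl ⟨rfl, Or.inl (by simp)⟩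

theorem gH_vert {k h : ℤ} (hkh : k < h) (w : ℤ) : (gH k).Adj (w, h - 1) (w, h) := by
  rw [reg_adj]
  exact ⟨adj_vert w h, by simp only [mem_Hp]; omega, by simp only [mem_Hp]; omega⟩

/-- half planes are connected -/
theorem gH_reachable {k : ℤ} {x y : ℤ × ℤ} (hx : k ≤ x.2) (hy : k ≤ y.2) :
    (gH k).Reachable x y := by
  -- horizontal moves
  have hor : ∀ (h : ℤ), k ≤ h → ∀ (n : ℕ) (a : ℤ), (gH k).Reachable (a, h) (a + n, h) := by
    intro h hh n
    induction n with
    | zero => intro a; simp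
    | succ n ih =>
      intro a
      refine (ih a).trans (SimpleGraph.Adj.reachable ?_)
      rw [reg_adj, lat_adj]
      refine ⟨Or.inr ⟨rfl, Or.inl ?_⟩, hh, hh⟩
      push_cast
      ring
  have hor' : ∀ (h : ℤ), k ≤ h → ∀ a b : ℤ, (gH k).Reachable (a, h) (b, h) := by
    intro h hh a b
    rcases le_total a b with hab | hab
    · have := hor h hh (b - a).toNat a
      rwa [show a + ((b - a).toNat : ℤ) = b by omega] at this
    · have := hor h hh (a - b).toNat b
      rw [show b + ((a - b).toNat : ℤ) = a by omega] at this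
      exact this.symm
  have ver : ∀ (a : ℤ) (n : ℕ) (h : ℤ), k ≤ h → (gH k).Reachable (a, h) (a, h + n) := by
    intro a n
    induction n with
    | zero => intro h _; simp
    | succ n ih =>
      intro h hh
      refine (ih h hh).trans (SimpleGraph.Adj.reachable ?_)
      rw [reg_adj, lat_adj]
      refine ⟨Or.inl ⟨rfl, Or.inl ?_⟩, ?_, ?_⟩
      · push_cast; ring
      · simp only [mem_Hp]; omega
      · simp only [mem_Hp]; push_cast; omega
  have ver' : ∀ a h : ℤ, k ≤ h → (gH k).Reachable (a, k) (a, h) := by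
    intro a h hh
    have := ver a (h - k).toNat k le_rfl
    rwa [show k + ((h - k).toNat : ℤ) = h by omega] at this
  have h1 := ver' x.1 x.2 hx
  have h2 := ver' y.1 y.2 hy
  exact h1.symm.trans ((hor' k le_rfl _ _).trans h2)

theorem gH_support {k : ℤ} {x y : ℤ × ℤ} (w : (gH k).Walk x y) (hx : k ≤ x.2) :
    ∀ z ∈ w.support, k ≤ z.2 := reg_support w hx

/-- the weight of the vertical edge from `(w,h-1)` to `(w,h)` -/
def Vt (t : Environment) (w h : ℤ) : ℝ := t s((w, h - 1), (w, h))

/-- the value of entering `Hp h` for the last time at `(w,h)` -/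
noncomputable def Phi (t : Environment) (k h : ℤ) (φ : ℤ → ℝ) (z : ℤ × ℤ) (w : ℤ) : ℝ :=
  pt (gH k) t z (w, h - 1) + Vt t w h + φ w

/-- `w` is an optimal last entrance into `Hp h` -/
def Opt (t : Environment) (k h : ℤ) (φ : ℤ → ℝ) (z : ℤ × ℤ) (w : ℤ) : Prop :=
  ∀ w', Phi t k h φ z w ≤ Phi t k h φ z w'

/-! ### decompositions of walks -/

/-- last entrance into `Hp h` -/
theorem last_entrance {k h : ℤ} (hkh : k < h) : ∀ {z y : ℤ × ℤ} (q : (gH k).Walk z y),
    h ≤ y.2 → ((∀ v ∈ q.support, h ≤ v.2) ∨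
      ∃ w, ∃ q1 : (gH k).Walk z (w, h - 1), ∃ q2 : (gH h).Walk (w, h) y,
        q.edges = q1.edges ++ s((w, h - 1), (w, h)) :: q2.edges)
  | z, _, .nil, hy => Or.inl (by simpa using hy)
  | z, y, .cons (v := v) a q, hy => by
      rcases last_entrance hkh q hy with hq | ⟨w, q1, q2, hq⟩
      · by_cases hz : h ≤ z.2
        · left
          intro u hu
          rw [SimpleGraph.Walk.support_cons, List.mem_cons] at hu
          rcases hu with rfl | hu
          · exact hz
          · exact hq u hu
        · right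
          have hv : h ≤ v.2 := hq v q.start_mem_support
          have ha := lat_adj.1 (reg_adj.1 a).1
          have h1 : z.1 = v.1 := by rcases ha with h | h <;> omega
          have h2 : v.2 = h := by rcases ha with h | h <;> omega
          have h3 : z.2 = h - 1 := by rcases ha with h | h <;> omega
          have hz' : z = (v.1, h - 1) := Prod.ext h1 h3
          have hv' : v = (v.1, h) := Prod.ext rfl h2
          -- the walk inside `Hp h`
          have hin : ∀ e ∈ q.edges, e ∈ (gH h).edgeSet := by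
            intro e he
            induction e with
            | _ b c =>
              have hb := hq b (q.fst_mem_support_of_mem_edges he)
              have hc := hq c (q.snd_mem_support_of_mem_edges he)
              have hadj := q.adj_of_mem_edges he
              rw [SimpleGraph.mem_edgeSet, reg_adj]
              exact ⟨(reg_adj.1 hadj).1, hb, hc⟩
          refine ⟨v.1, (SimpleGraph.Walk.nil : (gH k).Walk z z).copy rfl hz',
            (q.transfer (gH h) hin).copy hv' rfl, ?_⟩
          rw [SimpleGraph.Walk.edges_cons, SimpleGraph.Walk.edges_copy,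
            SimpleGraph.Walk.edges_copy, SimpleGraph.Walk.edges_transfer,
            SimpleGraph.Walk.edges_nil, List.nil_append]
          congr 1
          rw [← hz', ← hv']
      · right
        refine ⟨w, .cons a q1, q2, ?_⟩
        simp [hq]

/-- cost form of the last entrance -/
theorem last_entrance_cost {k h : ℤ} (hkh : k < h) (t : Environment) {z y : ℤ × ℤ}
    (q : (gH k).Walk z y) (hz : z.2 < h) (hy : h ≤ y.2) :
    ∃ w, ∃ q1 : (gH k).Walk z (w, h - 1), ∃ q2 : (gH h).Walk (w, h) y,
      wcost t q = wcost t q1 + Vt t w h + wcost t q2 := by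
  rcases last_entrance hkh q hy with hq | ⟨w, q1, q2, hq⟩
  · exact absurd (hq z q.start_mem_support) (by omega)
  · refine ⟨w, q1, q2, ?_⟩
    unfold wcost Vt
    rw [hq]
    simp [add_assoc]

/-- first hit of the line `y = N` -/
theorem first_hit {k N : ℤ} : ∀ {z y : ℤ × ℤ} (q : (gH k).Walk z y), z.2 ≤ N → N ≤ y.2 →
    ∃ w, ∃ q1 : (gH k).Walk z (w, N), (∀ v ∈ q1.support, v.2 ≤ N) ∧
      ∀ v ∈ q1.support, v ∈ q.support
  | z, _, .nil, hz, hy => by
      have h : z.2 = N := le_antisymm hz hy
      have hz' : z = (z.1, N) := Prod.ext rfl h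
      refine ⟨z.1, (SimpleGraph.Walk.nil : (gH k).Walk z z).copy rfl hz', ?_, ?_⟩
      · intro v hv
        simp only [SimpleGraph.Walk.support_copy, SimpleGraph.Walk.support_nil,
          List.mem_singleton] at hv
        rw [hv, h]
      · intro v hv
        simpa using hv
  | z, y, .cons (v := v) a q, hz, hy => by
      by_cases h : z.2 = N
      · have hz' : z = (z.1, N) := Prod.ext rfl h
        refine ⟨z.1, (SimpleGraph.Walk.nil : (gH k).Walk z z).copy rfl hz', ?_, ?_⟩
        · intro v hv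
          simp only [SimpleGraph.Walk.support_copy, SimpleGraph.Walk.support_nil,
            List.mem_singleton] at hv
          rw [hv, h]
        · intro v hv
          simp only [SimpleGraph.Walk.support_copy, SimpleGraph.Walk.support_nil,
            List.mem_singleton] at hv
          rw [hv]
          exact SimpleGraph.Walk.start_mem_support _
      · have ha := lat_adj.1 (reg_adj.1 a).1
        have hv : v.2 ≤ N := by rcases ha with h' | h' <;> omega
        obtain ⟨w, q1, h1, h2⟩ := first_hit q hv hy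
        refine ⟨w, .cons a q1, ?_, ?_⟩
        · intro u hu
          rw [SimpleGraph.Walk.support_cons, List.mem_cons] at hu
          rcases hu with rfl | hu
          · exact hz
          · exact h1 u hu
        · intro u hu
          rw [SimpleGraph.Walk.support_cons, List.mem_cons] at hu ⊢
          rcases hu with rfl | hu
          · exact Or.inl rfl
          · exact Or.inr (h2 u hu)

/-- decomposition at the last edge of a set `A` -/
theorem last_edge {V : Type*} {H : SimpleGraph V} (A : Set (Sym2 V)) :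
    ∀ {x y : V} (q : H.Walk x y), (∃ e ∈ q.edges, e ∈ A) →
      ∃ p, ∃ q1 : H.Walk x p, ∃ q2 : H.Walk p y, q = q1.append q2 ∧
        (∃ e ∈ A, p ∈ e) ∧ ∀ e ∈ q2.edges, e ∉ A
  | x, _, .nil, h => by simp at h
  | x, y, .cons (v := v) a q, h => by
      by_cases hq : ∃ e ∈ q.edges, e ∈ A
      · obtain ⟨p, q1, q2, h1, h2, h3⟩ := last_edge A q hq
        exact ⟨p, .cons a q1, q2, by rw [h1]; rfl, h2, h3⟩
      · push Not at hq
        obtain ⟨e, he, heA⟩ := h
        rw [SimpleGraph.Walk.edges_cons, List.mem_cons] at he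
        rcases he with rfl | he
        · exact ⟨v, .cons a .nil, q, rfl, ⟨_, heA, Sym2.mem_mk_right _ _⟩, hq⟩
        · exact absurd heA (hq e he)

end Crest.Agent.R151.D624
end

-- ▼ part R151/D624b

/-!
# R151, D624b: the flow of last entrances (deterministic)

`Fam t f`: boundary functions `f k` on the lines `y = k`, Lipschitz for `T^k`, linked by Hopf-Lax,
with unique optimal last entrances `W t f k h x`.  Flow property, switching, monotonicity
up to coalescence, and the lowering theorem.
-/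

set_option autoImplicit false

open Crest.ProbabilityR.FirstPassage

namespace Crest.Agent.R151.D624

/-- deterministic conditions on the environment -/
structure Nice (t : Environment) : Prop where
  pos : ∀ e, 0 < t e
  nt : NoTies t
  geo : ∀ k x y, (gH k).Reachable x y → ∃ p : (gH k).Walk x y, p.IsPath ∧ IsGeo t p

theorem Nice.nonneg {t : Environment} (h : Nice t) : ∀ e, 0 ≤ t e := fun e => (h.pos e).le

/-- a family of boundary functions linked by Hopf-Lax, unique last entrances -/
structure Fam (t : Environment) (f : ℤ → ℤ → ℝ) : Prop where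
  nice : Nice t
  lip : ∀ h x y, f h x - f h y ≤ pt (gH h) t (x, h) (y, h)
  hl : ∀ k h, k < h → ∃ C, ∀ x, (∀ w, f k x ≤ C + pt (gH k) t (x, k) (w, h) + f h w) ∧
      (∃ w, f k x = C + pt (gH k) t (x, k) (w, h) + f h w)
  uniq : ∀ k h, k < h → ∀ x w w', Opt t k h (f h) (x, k) w → Opt t k h (f h) (x, k) w' → w = w'

variable {t : Environment} {f : ℤ → ℤ → ℝ} {k h N : ℤ}

/-- the optimal last entrance -/
noncomputable def W (t : Environment) (f : ℤ → ℤ → ℝ) (k h x : ℤ) : ℤ :=
  Classical.epsilon (Opt t k h (f h) (x, k))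

theorem pt_vert_le (ht : ∀ e, 0 ≤ t e) (hkh : k < h) (w : ℤ) :
    pt (gH k) t (w, h - 1) (w, h) ≤ Vt t w h := pt_le_of_adj ht (gH_vert hkh w)

theorem pt_le_Phi (ht : ∀ e, 0 ≤ t e) (hkh : k < h) {z : ℤ × ℤ} (hz : k ≤ z.2) (φ : ℤ → ℝ)
    (w : ℤ) : pt (gH k) t z (w, h) + φ w ≤ Phi t k h φ z w := by
  have h1 : pt (gH k) t z (w, h) ≤ pt (gH k) t z (w, h - 1) + pt (gH k) t (w, h - 1) (w, h) :=
    pt_triangle ht (gH_reachable hz (by simp only; omega))
      (gH_reachable (by simp only; omega) (by simp only; omega))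
  have h2 := pt_vert_le ht hkh w
  unfold Phi
  linarith

/-- every walk to the line `y = h` dominates some last entrance value -/
theorem exists_Phi_le (ht : ∀ e, 0 ≤ t e) (hlip : ∀ x y, f h x - f h y ≤ pt (gH h) t (x, h) (y, h))
    (hkh : k < h) {z : ℤ × ℤ} (hz : z.2 < h) {w' : ℤ} (q : (gH k).Walk z (w', h)) :
    ∃ w, Phi t k h (f h) z w ≤ wcost t q + f h w' := by
  obtain ⟨w, q1, q2, hq⟩ := last_entrance_cost hkh t q hz (by simp)
  refine ⟨w, ?_⟩
  have h1 := pt_le_wcost ht q1
  have h2 := pt_le_wcost ht q2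
  have h3 := hlip w w'
  unfold Phi
  linarith

namespace Fam

theorem nonneg (F : Fam t f) : ∀ e, 0 ≤ t e := F.nice.nonneg

theorem exists_value (F : Fam t f) (hkh : k < h) : ∃ C, ∀ x,
    (∀ w, f k x ≤ C + Phi t k h (f h) (x, k) w) ∧
      ∃ w, Opt t k h (f h) (x, k) w ∧ f k x = C + Phi t k h (f h) (x, k) w := by
  obtain ⟨C, hC⟩ := F.hl k h hkh
  refine ⟨C, fun x => ?_⟩
  have h1 : ∀ w, f k x ≤ C + Phi t k h (f h) (x, k) w := by
    intro w
    have := (hC x).1 w
    have h2 := pt_le_Phi F.nonneg hkh (z := (x, k)) le_rfl (f h) w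
    linarith
  refine ⟨h1, ?_⟩
  obtain ⟨w0, hw0⟩ := (hC x).2
  obtain ⟨q, -, hq⟩ := F.nice.geo k (x, k) (w0, h) (gH_reachable le_rfl hkh.le)
  obtain ⟨w, hw⟩ := exists_Phi_le F.nonneg (F.lip h) hkh (z := (x, k)) hkh q
  have hq' : wcost t q = pt (gH k) t (x, k) (w0, h) := hq
  have h2 : f k x = C + Phi t k h (f h) (x, k) w := by
    have := h1 w
    linarith
  refine ⟨w, fun w' => ?_, h2⟩
  have := h1 w'
  linarith

theorem W_spec (F : Fam t f) (hkh : k < h) (x : ℤ) : Opt t k h (f h) (x, k) (W t f k h x) := by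
  obtain ⟨C, hC⟩ := F.exists_value hkh
  obtain ⟨w, hw, -⟩ := (hC x).2
  exact Classical.epsilon_spec (p := Opt t k h (f h) (x, k)) ⟨w, hw⟩

theorem W_eq (F : Fam t f) (hkh : k < h) {x w : ℤ} (hw : Opt t k h (f h) (x, k) w) :
    w = W t f k h x := F.uniq k h hkh x w _ hw (F.W_spec hkh x)

theorem exists_value' (F : Fam t f) (hkh : k < h) : ∃ C, ∀ x,
    (∀ w, f k x ≤ C + Phi t k h (f h) (x, k) w) ∧
      f k x = C + Phi t k h (f h) (x, k) (W t f k h x) := by
  obtain ⟨C, hC⟩ := F.exists_value hkh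
  refine ⟨C, fun x => ⟨(hC x).1, ?_⟩⟩
  obtain ⟨w, hw, hv⟩ := (hC x).2
  rw [← F.W_eq hkh hw]
  exact hv

/-- Flow property, together with additivity of the values. -/
theorem flow (F : Fam t f) {h' : ℤ} (hkh : k < h) (hhh : h < h') (x : ℤ) :
    W t f k h' x = W t f h h' (W t f k h x) ∧
      Phi t k h' (f h') (x, k) (W t f h h' (W t f k h x)) =
        Phi t k h (f h) (x, k) (W t f k h x) - f h (W t f k h x) +
          Phi t h h' (f h') (W t f k h x, h) (W t f h h' (W t f k h x)) := by
  have ht := F.nonneg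
  obtain ⟨C, hC⟩ := F.exists_value' hhh
  set w1 := W t f k h x with hw1
  set w2 := W t f h h' w1 with hw2
  have hkh' : k < h' := hkh.trans hhh
  -- lower bound for every last entrance
  have low : ∀ w'', Phi t k h (f h) (x, k) w1 - C ≤ Phi t k h' (f h') (x, k) w'' := by
    intro w''
    obtain ⟨q, -, hq⟩ := F.nice.geo k (x, k) (w'', h' - 1)
      (gH_reachable le_rfl (by simp only; omega))
    obtain ⟨u, q1, q2, hq12⟩ := last_entrance_cost hkh t q hkh (by simp only; omega)
    have hq' : wcost t q = pt (gH k) t (x, k) (w'', h' - 1) := hq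
    have e1 := pt_le_wcost ht q1
    have e2 := pt_le_wcost ht q2
    have e3 := (hC u).1 w''
    have e4 := F.W_spec hkh x u
    rw [← hw1] at e4
    unfold Phi at e3 e4 ⊢
    linarith
  have up : Phi t k h' (f h') (x, k) w2 ≤
      Phi t k h (f h) (x, k) w1 - f h w1 + Phi t h h' (f h') (w1, h) w2 := by
    have e1 : pt (gH k) t (x, k) (w2, h' - 1) ≤ pt (gH k) t (x, k) (w1, h) +
        pt (gH k) t (w1, h) (w2, h' - 1) :=
      pt_triangle ht (gH_reachable le_rfl (by simp only; omega))
        (gH_reachable (by simp only; omega) (by simp only; omega))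
    have e2 := pt_le_Phi ht hkh (z := (x, k)) le_rfl (f h) w1
    have e3 : pt (gH k) t (w1, h) (w2, h' - 1) ≤ pt (gH h) t (w1, h) (w2, h' - 1) :=
      pt_anti (gH_anti hkh.le) ht (gH_reachable le_rfl (by simp only; omega))
    unfold Phi at e2 ⊢
    linarith
  have e := (hC w1).2
  rw [← hw2] at e
  have opt : Opt t k h' (f h') (x, k) w2 := by
    intro w''
    have := low w''
    linarith
  refine ⟨(F.W_eq hkh' opt).symm, ?_⟩
  have := low w2
  linarith

theorem W_W (F : Fam t f) {h' : ℤ} (hkh : k < h) (hhh : h < h') (x : ℤ) :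
    W t f h h' (W t f k h x) = W t f k h' x := (F.flow hkh hhh x).1.symm

/-- concatenation of optimal pieces -/
def cat (hkh : k < h) {w : ℤ} {x y : ℤ × ℤ} (q1 : (gH k).Walk x (w, h - 1))
    (q2 : (gH h).Walk (w, h) y) : (gH k).Walk x y :=
  q1.append (.cons (gH_vert hkh w) (q2.mapLe (gH_anti hkh.le)))

theorem wcost_cat (hkh : k < h) {w : ℤ} {x y : ℤ × ℤ} (q1 : (gH k).Walk x (w, h - 1))
    (q2 : (gH h).Walk (w, h) y) : wcost t (cat hkh q1 q2) = wcost t q1 + Vt t w h + wcost t q2 := by
  unfold cat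
  rw [wcost_append, wcost_cons, wcost_mapLe]
  unfold Vt
  ring

theorem mem_support_cat (hkh : k < h) {w : ℤ} {x y : ℤ × ℤ} (q1 : (gH k).Walk x (w, h - 1))
    (q2 : (gH h).Walk (w, h) y) (v : ℤ × ℤ) :
    v ∈ (cat hkh q1 q2).support ↔ v ∈ q1.support ∨ v ∈ q2.support := by
  unfold cat
  rw [SimpleGraph.Walk.mem_support_append_iff, SimpleGraph.Walk.support_cons, List.mem_cons,
    SimpleGraph.Walk.support_mapLe_eq_support]
  constructor
  · rintro (h1 | rfl | h1)
    · exact Or.inl h1
    · exact Or.inl q1.end_mem_support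
    · exact Or.inr h1
  · rintro (h1 | h1)
    · exact Or.inl h1
    · exact Or.inr (Or.inr h1)

theorem isGeo_cat (F : Fam t f) {h' : ℤ} (hkh : k < h) (hhh : h < h') {x : ℤ}
    {q1 : (gH k).Walk (x, k) (W t f k h x, h - 1)}
    {q2 : (gH h).Walk (W t f k h x, h) (W t f k h' x, h' - 1)} (h1 : IsGeo t q1)
    (h2 : IsGeo t q2) : IsGeo t (cat hkh q1 q2) := by
  have h1' : wcost t q1 = pt (gH k) t (x, k) (W t f k h x, h - 1) := h1
  have h2' : wcost t q2 = pt (gH h) t (W t f k h x, h) (W t f k h' x, h' - 1) := h2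
  show wcost t (cat hkh q1 q2) = pt (gH k) t (x, k) (W t f k h' x, h' - 1)
  have := (F.flow hkh hhh x).2
  rw [F.W_W hkh hhh] at this
  rw [wcost_cat, h1', h2']
  unfold Phi at this
  linarith

/-- Switching at a common vertex. -/
theorem switch (F : Fam t f) (hkN : k < N) {x y : ℤ}
    {q1 : (gH k).Walk (x, k) (W t f k N x, N - 1)} {q2 : (gH k).Walk (y, k) (W t f k N y, N - 1)}
    (h1 : IsGeo t q1) (h2 : IsGeo t q2) {v : ℤ × ℤ} (hv1 : v ∈ q1.support)
    (hv2 : v ∈ q2.support) : W t f k N x = W t f k N y := by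
  classical
  have ht := F.nonneg
  have h1' : wcost t q1 = pt (gH k) t (x, k) (W t f k N x, N - 1) := h1
  have h2' : wcost t q2 = pt (gH k) t (y, k) (W t f k N y, N - 1) := h2
  obtain ⟨p1, r1, e1⟩ := SimpleGraph.Walk.mem_support_iff_exists_append.1 hv1
  obtain ⟨p2, r2, e2⟩ := SimpleGraph.Walk.mem_support_iff_exists_append.1 hv2
  rw [e1, wcost_append] at h1'
  rw [e2, wcost_append] at h2'
  have c1 := pt_le_wcost ht (p2.append r1)
  have c2 := pt_le_wcost ht (p1.append r2)
  rw [wcost_append] at c1 c2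
  have o2 := F.W_spec hkN y (W t f k N x)
  have opt : Opt t k N (f N) (x, k) (W t f k N y) := by
    intro w'
    refine le_trans ?_ (F.W_spec hkN x w')
    unfold Phi at o2 ⊢
    linarith
  exact (F.W_eq hkN opt).symm

/-- If the flow reverses an order then the two points coalesce. -/
theorem mono (F : Fam t f) (hkh : k < h) {x y : ℤ} (hxy : x ≤ y)
    (hW : W t f k h y < W t f k h x) : ∃ N, h < N ∧ W t f k N x = W t f k N y := by
  classical
  obtain ⟨α0, -, hα0⟩ := F.nice.geo k (x, k) (W t f k h x, h - 1)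
    (gH_reachable le_rfl (by simp only; omega))
  obtain ⟨β0, -, hβ0⟩ := F.nice.geo k (y, k) (W t f k h y, h - 1)
    (gH_reachable le_rfl (by simp only; omega))
  -- a level above everything
  obtain ⟨M, hM⟩ : ∃ M : ℤ, ∀ v ∈ α0.support ++ β0.support, v.2 ≤ M := by
    have : ∀ l : List (ℤ × ℤ), ∃ M : ℤ, ∀ v ∈ l, v.2 ≤ M := by
      intro l
      induction l with
      | nil => exact ⟨0, by simp⟩
      | cons a l ih =>
        obtain ⟨M, hM⟩ := ih
        refine ⟨max a.2 M, fun v hv => ?_⟩
        rw [List.mem_cons] at hv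
        rcases hv with rfl | hv
        · exact le_max_left _ _
        · exact (hM v hv).trans (le_max_right _ _)
    exact this _
  set N : ℤ := max M h + 2 with hN
  have hMN : M ≤ N - 1 := by
    have := le_max_left M h
    omega
  have hhN : h < N - 1 := by
    have := le_max_right M h
    omega
  have hhN' : h < N := by omega
  refine ⟨N, hhN', ?_⟩
  obtain ⟨γa, -, hγa⟩ := F.nice.geo h (W t f k h x, h) (W t f k N x, N - 1)
    (gH_reachable le_rfl (by simp only; omega))
  obtain ⟨γb, -, hγb⟩ := F.nice.geo h (W t f k h y, h) (W t f k N y, N - 1)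
    (gH_reachable le_rfl (by simp only; omega))
  have g1 := F.isGeo_cat hkh hhN' hα0 hγa
  have g2 := F.isGeo_cat hkh hhN' hβ0 hγb
  obtain ⟨a, qa, ha1, ha2⟩ := first_hit (N := N - 1) γa (by simp only; omega) (by simp)
  obtain ⟨b, qb, hb1, hb2⟩ := first_hit (N := N - 1) γb (by simp only; omega) (by simp)
  have key : ∃ v, v ∈ (cat hkh α0 γa).support ∧ v ∈ (cat hkh β0 γb).support := by
    rcases le_or_gt b a with hba | hba
    · obtain ⟨v, hv1, hv2⟩ := Pl.strip_cross (lo := k) (hi := N - 1)
        ((cat hkh α0 qa).mapLe (gH_le k)) ((cat hkh β0 qb).mapLe (gH_le k))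
        (by
          intro v hv
          rw [SimpleGraph.Walk.support_mapLe_eq_support] at hv
          refine ⟨gH_support _ le_rfl v hv, ?_⟩
          rw [mem_support_cat] at hv
          rcases hv with hv | hv
          · exact (hM v (List.mem_append_left _ hv)).trans hMN
          · exact ha1 v hv)
        (by
          intro v hv
          rw [SimpleGraph.Walk.support_mapLe_eq_support] at hv
          refine ⟨gH_support _ le_rfl v hv, ?_⟩
          rw [mem_support_cat] at hv
          rcases hv with hv | hv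
          · exact (hM v (List.mem_append_right _ hv)).trans hMN
          · exact hb1 v hv)
        rfl rfl rfl rfl hxy hba
      rw [SimpleGraph.Walk.support_mapLe_eq_support, mem_support_cat] at hv1 hv2
      refine ⟨v, (mem_support_cat hkh _ _ _).2 ?_, (mem_support_cat hkh _ _ _).2 ?_⟩
      · exact hv1.imp id (ha2 v)
      · exact hv2.imp id (hb2 v)
    · obtain ⟨v, hv1, hv2⟩ := Pl.strip_cross (lo := h) (hi := N - 1)
        (qb.mapLe (gH_le h)) (qa.mapLe (gH_le h))
        (by
          intro v hv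
          rw [SimpleGraph.Walk.support_mapLe_eq_support] at hv
          exact ⟨gH_support _ le_rfl v hv, hb1 v hv⟩)
        (by
          intro v hv
          rw [SimpleGraph.Walk.support_mapLe_eq_support] at hv
          exact ⟨gH_support _ le_rfl v hv, ha1 v hv⟩)
        rfl rfl rfl rfl hW.le hba.le
      rw [SimpleGraph.Walk.support_mapLe_eq_support] at hv1 hv2
      exact ⟨v, (mem_support_cat hkh _ _ _).2 (Or.inr (ha2 v hv2)),
        (mem_support_cat hkh _ _ _).2 (Or.inr (hb2 v hv1))⟩
  obtain ⟨v, hv1, hv2⟩ := key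
  exact F.switch (hkh.trans hhN') g1 g2 hv1 hv2

end Fam

/-! ### coalescence classes -/

/-- `x` and `y` (on the line `y = k`) coalesce -/
def Sim (t : Environment) (f : ℤ → ℤ → ℝ) (k x y : ℤ) : Prop :=
  ∃ N, k < N ∧ W t f k N x = W t f k N y

theorem Sim.refl (t : Environment) (f : ℤ → ℤ → ℝ) (k x : ℤ) : Sim t f k x x :=
  ⟨k + 1, by omega, rfl⟩

theorem Sim.symm {x y : ℤ} (h : Sim t f k x y) : Sim t f k y x := by
  obtain ⟨N, hN, h⟩ := h
  exact ⟨N, hN, h.symm⟩

namespace Fam

theorem persist (F : Fam t f) {N N' x y : ℤ} (hN : k < N) (hNN : N ≤ N')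
    (h : W t f k N x = W t f k N y) : W t f k N' x = W t f k N' y := by
  rcases hNN.eq_or_lt with rfl | hlt
  · exact h
  · rw [← F.W_W hN hlt x, ← F.W_W hN hlt y, h]

theorem sim_trans (F : Fam t f) {x y z : ℤ} (h : Sim t f k x y) (h' : Sim t f k y z) :
    Sim t f k x z := by
  obtain ⟨N, hN, h⟩ := h
  obtain ⟨N', hN', h'⟩ := h'
  exact ⟨max N N', lt_of_lt_of_le hN (le_max_left _ _),
    (F.persist hN (le_max_left _ _) h).trans (F.persist hN' (le_max_right _ _) h')⟩

theorem lt_of_not_sim (F : Fam t f) (hkh : k < h) {x y : ℤ} (hxy : x < y)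
    (hs : ¬ Sim t f k x y) : W t f k h x < W t f k h y := by
  rcases lt_trichotomy (W t f k h x) (W t f k h y) with h1 | h1 | h1
  · exact h1
  · exact absurd ⟨h, hkh, h1⟩ hs
  · obtain ⟨N, hN, h2⟩ := F.mono hkh hxy.le h1
    exact absurd ⟨N, hkh.trans hN, h2⟩ hs

theorem sim_of_between (F : Fam t f) {x y z : ℤ} (hxy : x ≤ y) (hyz : y ≤ z)
    (hs : Sim t f k x z) : Sim t f k x y := by
  by_contra hcon
  have hcon' : ¬ Sim t f k y z := fun h => hcon (F.sim_trans hs h.symm)
  have h1 : x < y := lt_of_le_of_ne hxy (fun h => hcon (h ▸ Sim.refl _ _ _ _))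
  have h2 : y < z := lt_of_le_of_ne hyz (fun h => hcon' (h ▸ Sim.refl _ _ _ _))
  obtain ⟨N, hN, h3⟩ := hs
  have h4 := F.lt_of_not_sim hN h1 hcon
  have h5 := F.lt_of_not_sim hN h2 hcon'
  omega

theorem sim_W_iff (F : Fam t f) (hkh : k < h) {x y : ℤ} :
    Sim t f h (W t f k h x) (W t f k h y) ↔ Sim t f k x y := by
  constructor
  · rintro ⟨N, hN, h1⟩
    rw [F.W_W hkh hN, F.W_W hkh hN] at h1
    exact ⟨N, hkh.trans hN, h1⟩
  · rintro ⟨N, hN, h1⟩
    refine ⟨max N (h + 1), by have := le_max_right N (h + 1); omega, ?_⟩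
    have h2 : h < max N (h + 1) := by have := le_max_right N (h + 1); omega
    rw [F.W_W hkh h2, F.W_W hkh h2]
    exact F.persist hN (le_max_left _ _) h1

/-- right ends of classes exist as soon as there is a class boundary to the right -/
theorem exists_right_end (F : Fam t f) {x b : ℤ} (hxb : x ≤ b) (hb : ¬ Sim t f k b (b + 1)) :
    ∃ y, x ≤ y ∧ y ≤ b ∧ Sim t f k x y ∧ ¬ Sim t f k y (y + 1) := by
  by_contra hcon
  push Not at hcon
  have : ∀ n : ℕ, x + n ≤ b → Sim t f k x (x + n) := by
    intro n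
    induction n with
    | zero => intro _; simpa using Sim.refl t f k x
    | succ n ih =>
      intro hn
      have h1 := ih (by push_cast at hn; omega)
      have h2 := hcon (x + n) (by omega) (by push_cast at hn; omega) h1
      have := F.sim_trans h1 h2
      push_cast
      rwa [← add_assoc]
  have h1 := this (b - x).toNat (by omega)
  rw [show x + ((b - x).toNat : ℤ) = b by omega] at h1
  exact hb (hcon b hxb le_rfl h1)

theorem right_end_unique (F : Fam t f) {x y y' : ℤ} (h1 : Sim t f k x y)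
    (h2 : ¬ Sim t f k y (y + 1)) (h1' : Sim t f k x y') (h2' : ¬ Sim t f k y' (y' + 1)) :
    y = y' := by
  have hyy : Sim t f k y y' := F.sim_trans h1.symm h1'
  rcases lt_trichotomy y y' with h | h | h
  · exact absurd (F.sim_of_between (by omega) (by omega) hyy) h2
  · exact h
  · exact absurd (F.sim_of_between (y := y' + 1) (by omega) (by omega) hyy.symm) h2'

end Fam

end Crest.Agent.R151.D624
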