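import Crest.Agent.R151.A565a
import Crest.Agent.R151.K1a

/-!
# R151, block X (helper684), part a: tubes, restricted crossings, measurability, covariance

`ht s x` is the height of `x` above the line of slope `s`; `tube s u w` the pairs both of whose ends
are within `w` of height `u`; `lin α β` the linear functional; `Cr S x y c t`: there is a walk from
`x` to `y` with edges in `S` and cost at most `c`; `CrE α β S x y v t`: the same with energy
(cost minus the functional of the displacement) at most `v`.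
-/

set_option autoImplicit false

open MeasureTheory ProbabilityTheory Filter Topology
open Crest.ProbabilityR.FirstPassage
open Crest.Agent.R151.A (shift eShift block sig eX)
open Crest.Agent.R151.K (Nn)

namespace Crest.Agent.R151.X

/-- height above the line of slope `s` -/
def ht (s : ℝ) (x : ℤ × ℤ) : ℝ := (x.2 : ℝ) - s * x.1

lemma ht_add (s : ℝ) (x z : ℤ × ℤ) : ht s (x + z) = ht s x + ht s z := by
  simp only [ht, Prod.fst_add, Prod.snd_add]; push_cast; ring

/-- pairs within `w` of the line of height `u` -/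
def tube (s u w : ℝ) : Set (Sym2 (ℤ × ℤ)) := {e | ∀ x ∈ e, |ht s x - u| ≤ w}

lemma mem_tube {s u w : ℝ} {x y : ℤ × ℤ} :
    s(x, y) ∈ tube s u w ↔ |ht s x - u| ≤ w ∧ |ht s y - u| ≤ w := by
  constructor
  · intro h
    exact ⟨h x (Sym2.mem_mk_left x y), h y (Sym2.mem_mk_right x y)⟩
  · rintro ⟨h1, h2⟩ z hz
    rcases Sym2.mem_iff.1 hz with rfl | rfl
    · exact h1
    · exact h2

lemma tube_mono {s u w u' w' : ℝ} (h : |u - u'| + w ≤ w') : tube s u w ⊆ tube s u' w' := by
  intro e he x hx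
  have h1 := he x hx
  have h2 : ht s x - u' = (ht s x - u) + (u - u') := by ring
  rw [h2]
  exact (abs_add_le _ _).trans (by linarith)

/-- the linear functional `α x + β y` -/
def lin (α β : ℝ) (x : ℤ × ℤ) : ℝ := α * x.1 + β * x.2

lemma lin_add (α β : ℝ) (x z : ℤ × ℤ) : lin α β (x + z) = lin α β x + lin α β z := by
  simp only [lin, Prod.fst_add, Prod.snd_add]; push_cast; ring

/-- a walk from `x` to `y` with edges in `S` and cost at most `c` -/
def Cr (S : Set (Sym2 (ℤ × ℤ))) (x y : ℤ × ℤ) (c : ℝ) (t : Environment) : Prop :=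
  ∃ w : squareLattice.Walk x y, (∀ e ∈ w.edges, e ∈ S) ∧ walkCost t w ≤ c

/-- a walk from `x` to `y` with edges in `S` and energy at most `v` -/
def CrE (α β : ℝ) (S : Set (Sym2 (ℤ × ℤ))) (x y : ℤ × ℤ) (v : ℝ) (t : Environment) : Prop :=
  Cr S x y (lin α β y - lin α β x + v) t

lemma Cr.mono {S S' : Set (Sym2 (ℤ × ℤ))} {x y : ℤ × ℤ} {c c' : ℝ} {t : Environment}
    (h : Cr S x y c t) (hS : S ⊆ S') (hc : c ≤ c') : Cr S' x y c' t := by
  obtain ⟨w, h1, h2⟩ := h
  exact ⟨w, fun e he => hS (h1 e he), h2.trans hc⟩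

lemma Cr.trans {S : Set (Sym2 (ℤ × ℤ))} {x y z : ℤ × ℤ} {c c' : ℝ} {t : Environment}
    (h : Cr S x y c t) (h' : Cr S y z c' t) : Cr S x z (c + c') t := by
  obtain ⟨w, h1, h2⟩ := h
  obtain ⟨w', h1', h2'⟩ := h'
  refine ⟨w.append w', ?_, ?_⟩
  · intro e he
    rw [SimpleGraph.Walk.edges_append, List.mem_append] at he
    rcases he with he | he
    · exact h1 e he
    · exact h1' e he
  · rw [K.walkCost_append]; linarith

lemma Cr.symm {S : Set (Sym2 (ℤ × ℤ))} {x y : ℤ × ℤ} {c : ℝ} {t : Environment}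
    (h : Cr S x y c t) : Cr S y x c t := by
  obtain ⟨w, h1, h2⟩ := h
  refine ⟨w.reverse, ?_, ?_⟩
  · intro e he
    rw [SimpleGraph.Walk.edges_reverse, List.mem_reverse] at he
    exact h1 e he
  · rwa [K.walkCost_reverse]

lemma Cr.refl {S : Set (Sym2 (ℤ × ℤ))} (x : ℤ × ℤ) {c : ℝ} (hc : 0 ≤ c) (t : Environment) :
    Cr S x x c t :=
  ⟨SimpleGraph.Walk.nil, by simp, by simpa [K.walkCost_nil] using hc⟩

lemma CrE.mono {α β : ℝ} {S S' : Set (Sym2 (ℤ × ℤ))} {x y : ℤ × ℤ} {c c' : ℝ} {t : Environment}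
    (h : CrE α β S x y c t) (hS : S ⊆ S') (hc : c ≤ c') : CrE α β S' x y c' t :=
  Cr.mono h hS (by linarith)

lemma CrE.trans {α β : ℝ} {S : Set (Sym2 (ℤ × ℤ))} {x y z : ℤ × ℤ} {c c' : ℝ} {t : Environment}
    (h : CrE α β S x y c t) (h' : CrE α β S y z c' t) : CrE α β S x z (c + c') t :=
  (Cr.trans h h').mono le_rfl (by linarith)

/-! ## Measurability -/

lemma sig_mono {S S' : Set (Sym2 (ℤ × ℤ))} (h : S ⊆ S') : sig S ≤ sig S' :=
  iSup₂_le fun e he => le_iSup₂_of_le e (h he) le_rfl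

lemma sig_le (S : Set (Sym2 (ℤ × ℤ))) : sig S ≤ MeasurableSpace.pi :=
  iSup₂_le fun e _ => (measurable_pi_apply e).comap_le

lemma measurable_eval_sig {S : Set (Sym2 (ℤ × ℤ))} {e : Sym2 (ℤ × ℤ)} (he : e ∈ S) :
    Measurable[sig S] (fun t : Environment => t e) :=
  Measurable.mono (comap_measurable (fun t : Environment => t e))
    (le_iSup₂_of_le e he le_rfl) le_rfl

lemma measurable_walkCost_sig {S : Set (Sym2 (ℤ × ℤ))} {x y : ℤ × ℤ}
    (w : squareLattice.Walk x y) (hw : ∀ e ∈ w.edges, e ∈ S) :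
    Measurable[sig S] (fun t : Environment => walkCost t w) := by
  unfold walkCost
  have key : ∀ l : List (Sym2 (ℤ × ℤ)), (∀ e ∈ l, e ∈ S) →
      Measurable[sig S] fun t : Environment => (l.map t).sum := by
    intro l
    induction l with
    | nil => intro _; exact @measurable_const _ _ _ (sig S) 0
    | cons e l ih =>
      intro h
      simp only [List.map_cons, List.sum_cons]
      exact (measurable_eval_sig (h e (by simp))).add (ih fun e' he' => h e' (by simp [he']))
  exact key _ hw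

lemma measurableSet_Cr (S : Set (Sym2 (ℤ × ℤ))) (x y : ℤ × ℤ) (c : ℝ) :
    MeasurableSet[sig S] {t | Cr S x y c t} := by
  have : {t | Cr S x y c t} =
      ⋃ w : squareLattice.Walk x y, {t | (∀ e ∈ w.edges, e ∈ S) ∧ walkCost t w ≤ c} := by
    ext t; simp [Cr]
  rw [this]
  refine MeasurableSet.iUnion fun w => ?_
  by_cases hw : ∀ e ∈ w.edges, e ∈ S
  · have h1 : {t : Environment | (∀ e ∈ w.edges, e ∈ S) ∧ walkCost t w ≤ c} =
        (fun t => walkCost t w) ⁻¹' Set.Iic c := by
      ext t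
      simp only [Set.mem_ofPred_eq, Set.mem_preimage, Set.mem_Iic]
      exact ⟨fun h => h.2, fun h => ⟨hw, h⟩⟩
    rw [h1]
    exact measurable_walkCost_sig w hw measurableSet_Iic
  · have h1 : {t : Environment | (∀ e ∈ w.edges, e ∈ S) ∧ walkCost t w ≤ c} = ∅ := by
      ext t
      simp only [Set.mem_ofPred_eq, Set.mem_empty_iff_false, iff_false]
      exact fun h => hw h.1
    rw [h1]
    exact @MeasurableSet.empty _ (sig S)

lemma measurableSet_CrE (α β : ℝ) (S : Set (Sym2 (ℤ × ℤ))) (x y : ℤ × ℤ) (c : ℝ) :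
    MeasurableSet[sig S] {t | CrE α β S x y c t} :=
  measurableSet_Cr S x y _

/-- independence of events of disjoint edge sets -/
lemma measure_inter_sig (G : Measure ℝ) [IsProbabilityMeasure G] {S T : Set (Sym2 (ℤ × ℤ))}
    (h : Disjoint S T) {E F : Set Environment} (hE : MeasurableSet[sig S] E)
    (hF : MeasurableSet[sig T] F) :
    (iidLaw G).real (E ∩ F) = (iidLaw G).real E * (iidLaw G).real F := by
  have h1 := (Indep_iff _ _ _).1 (A.indep_sig G h) E F hE hF
  simp only [Measure.real, h1, ENNReal.toReal_mul]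

/-! ## Covariance -/

lemma walk_map_spec (φ : squareLattice →g squareLattice) {x y x' y' : ℤ × ℤ}
    (w : squareLattice.Walk x y) (hx : φ x = x') (hy : φ y = y') :
    ∃ w' : squareLattice.Walk x' y', (∀ e ∈ w'.edges, ∃ e0 ∈ w.edges, Sym2.map φ e0 = e) ∧
      ∀ t : Environment, walkCost t w' = walkCost (fun e => t (Sym2.map φ e)) w := by
  subst hx hy
  refine ⟨w.map φ, ?_, fun t => K.walkCost_map t φ w⟩
  intro e he
  rw [SimpleGraph.Walk.edges_map, List.mem_map] at he
  exact he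

lemma Cr_shift {S S' : Set (Sym2 (ℤ × ℤ))} (z : ℤ × ℤ) (h : ∀ e, e ∈ S ↔ eShift z e ∈ S')
    (x y : ℤ × ℤ) (c : ℝ) (t : Environment) :
    Cr S x y c (shift z t) ↔ Cr S' (x + z) (y + z) c t := by
  constructor
  · rintro ⟨w, h1, h2⟩
    obtain ⟨w', h3, h4⟩ := walk_map_spec (K.tr z).toHom w (x' := x + z) (y' := y + z) rfl rfl
    refine ⟨w', ?_, ?_⟩
    · intro e he
      obtain ⟨e0, he0, rfl⟩ := h3 e he
      exact (h e0).1 (h1 e0 he0)
    · rw [h4]
      exact h2
  · rintro ⟨w, h1, h2⟩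
    obtain ⟨w', h3, h4⟩ := walk_map_spec (K.tr (-z)).toHom w (x' := x) (y' := y)
      (show x + z + -z = x by simp) (show y + z + -z = y by simp)
    refine ⟨w', ?_, ?_⟩
    · intro e he
      obtain ⟨e0, he0, rfl⟩ := h3 e he
      rw [h]
      have : eShift z (Sym2.map (K.tr (-z)).toHom e0) = e0 := by
        induction e0 with
        | _ a b =>
          show s(a + -z + z, b + -z + z) = s(a, b)
          simp
      rw [this]
      exact h1 e0 he0
    · rw [h4]
      have h5 : (fun e => shift z t (Sym2.map (K.tr (-z)).toHom e)) = t := by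
        funext e
        induction e with
        | _ a b =>
          show t s(a + -z + z, b + -z + z) = t s(a, b)
          simp
      rw [h5]
      exact h2

lemma mem_block_shift (z : ℤ × ℤ) (a b : ℤ) (e : Sym2 (ℤ × ℤ)) :
    e ∈ block a b ↔ eShift z e ∈ block (a + z.1) (b + z.1) := by
  simp only [block, Set.mem_ofPred_eq, A.eX_eShift]
  omega

lemma mem_tube_shift (z : ℤ × ℤ) (s u w : ℝ) (e : Sym2 (ℤ × ℤ)) :
    e ∈ tube s u w ↔ eShift z e ∈ tube s (u + ht s z) w := by
  induction e with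
  | _ x y =>
    rw [A.eShift_mk, mem_tube, mem_tube, ht_add, ht_add]
    ring_nf

lemma CrE_shift {S S' : Set (Sym2 (ℤ × ℤ))} (α β : ℝ) (z : ℤ × ℤ)
    (h : ∀ e, e ∈ S ↔ eShift z e ∈ S') (x y : ℤ × ℤ) (c : ℝ) (t : Environment) :
    CrE α β S x y c (shift z t) ↔ CrE α β S' (x + z) (y + z) c t := by
  unfold CrE
  rw [Cr_shift z h]
  have : lin α β (y + z) - lin α β (x + z) + c = lin α β y - lin α β x + c := by
    rw [lin_add, lin_add]; ring
  rw [this]

/-- half-open slab of columns `[a, b)` intersected with a tube -/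
def sl (s u w : ℝ) (a b : ℤ) : Set (Sym2 (ℤ × ℤ)) := block a b ∩ tube s u w

lemma mem_sl_shift (z : ℤ × ℤ) (s u w : ℝ) (a b : ℤ) (e : Sym2 (ℤ × ℤ)) :
    e ∈ sl s u w a b ↔ eShift z e ∈ sl s (u + ht s z) w (a + z.1) (b + z.1) := by
  simp only [sl, Set.mem_inter_iff, ← mem_block_shift z a b e, ← mem_tube_shift z s u w e]

lemma sl_mono {s u w u' w' : ℝ} {a b a' b' : ℤ} (h : |u - u'| + w ≤ w') (ha : a' ≤ a)
    (hb : b ≤ b') : sl s u w a b ⊆ sl s u' w' a' b' :=
  Set.inter_subset_inter (A.block_mono ha hb) (tube_mono h)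


/-! ## Walk decompositions -/

lemma adj_fst_le {x y : ℤ × ℤ} (h : squareLattice.Adj x y) : |x.1 - y.1| ≤ 1 := by
  rw [squareLattice, SimpleGraph.fromRel_adj] at h
  rw [abs_le]
  omega

/-- decomposition at the first visit of a column -/
lemma first_hit (c : ℤ) : ∀ {x y : ℤ × ℤ} (w : squareLattice.Walk x y), x.1 ≤ c → c ≤ y.1 →
    ∃ (z : ℤ × ℤ) (w1 : squareLattice.Walk x z) (w2 : squareLattice.Walk z y),
      w = w1.append w2 ∧ z.1 = c ∧ ∀ e ∈ w1.edges, eX e < c := by
  intro x y w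
  induction w with
  | nil =>
    intro hx hy
    exact ⟨_, SimpleGraph.Walk.nil, SimpleGraph.Walk.nil, rfl, le_antisymm hx hy, by simp⟩
  | @cons a b y h p ih =>
    intro hx hy
    rcases hx.lt_or_eq with hx | hx
    · have h1 := adj_fst_le h
      rw [abs_le] at h1
      obtain ⟨z, w1, w2, h2, h3, h4⟩ := ih (by omega) hy
      refine ⟨z, SimpleGraph.Walk.cons h w1, w2, by rw [h2]; rfl, h3, ?_⟩
      intro e he
      rw [SimpleGraph.Walk.edges_cons, List.mem_cons] at he
      rcases he with rfl | he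
      · rw [A.eX_mk]
        exact (min_le_left _ _).trans_lt hx
      · exact h4 e he
    · exact ⟨_, SimpleGraph.Walk.nil, SimpleGraph.Walk.cons h p, rfl, hx, by simp⟩

/-- decomposition at the last visit of a column -/
lemma last_visit (c : ℤ) {x y : ℤ × ℤ} (w : squareLattice.Walk x y) (hx : x.1 ≤ c)
    (hy : c ≤ y.1) :
    ∃ (z : ℤ × ℤ) (w1 : squareLattice.Walk x z) (w2 : squareLattice.Walk z y),
      w = w1.append w2 ∧ z.1 = c ∧ ∀ e ∈ w2.edges, c ≤ eX e := by
  -- generalised statement: either the walk stays strictly to the right of `c`, or it splits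
  have key : ∀ {x y : ℤ × ℤ} (w : squareLattice.Walk x y), c ≤ y.1 →
      (c < x.1 ∧ ∀ e ∈ w.edges, c ≤ eX e) ∨
      ∃ (z : ℤ × ℤ) (w1 : squareLattice.Walk x z) (w2 : squareLattice.Walk z y),
        w = w1.append w2 ∧ z.1 = c ∧ ∀ e ∈ w2.edges, c ≤ eX e := by
    intro x y w
    induction w with
    | @nil x =>
      intro hy
      rcases hy.lt_or_eq with hy | hy
      · exact Or.inl ⟨hy, by simp⟩
      · exact Or.inr ⟨_, SimpleGraph.Walk.nil, SimpleGraph.Walk.nil, rfl, hy.symm, by simp⟩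
    | @cons a b y h p ih =>
      intro hy
      rcases ih hy with ⟨h1, h2⟩ | ⟨z, w1, w2, h1, h2, h3⟩
      · have h3 := adj_fst_le h
        rw [abs_le] at h3
        have h4 : ∀ e ∈ (SimpleGraph.Walk.cons h p).edges, c ≤ eX e := by
          intro e he
          rw [SimpleGraph.Walk.edges_cons, List.mem_cons] at he
          rcases he with rfl | he
          · rw [A.eX_mk]
            exact le_min (by omega) (by omega)
          · exact h2 e he
        rcases lt_or_ge c a.1 with h5 | h5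
        · exact Or.inl ⟨h5, h4⟩
        · exact Or.inr ⟨a, SimpleGraph.Walk.nil, SimpleGraph.Walk.cons h p, rfl, by omega, h4⟩
      · exact Or.inr ⟨z, SimpleGraph.Walk.cons h w1, w2, by rw [h1]; rfl, h2, h3⟩
  rcases key w hy with ⟨h1, _⟩ | h
  · omega
  · exact h

end Crest.Agent.R151.X
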