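import Crest.Agent.R151.V8
import Crest.Agent.R151.X684a
import Crest.Agent.R151.K5

-- ▼ part R151/V9
section

/-!
# R151, block V9 (helper52): anticoncentration of restricted crossings, general atomless law (AC)
-/

set_option autoImplicit false
set_option linter.unusedSectionVars false

open MeasureTheory ProbabilityTheory Set Filter
open scoped ENNReal Topology
open Crest.ProbabilityR.FirstPassage

namespace Crest.Agent.R151.V

section count

variable {I Y : Type*} [MeasurableSpace Y] (ν : Measure Y) [IsProbabilityMeasure ν]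

open Classical in
/-- lower tail of the number of successes -/
theorem few_flips (E : Finset I) {D : Set Y} (hD : MeasurableSet D) {δ : ℝ} (hδ0 : 0 ≤ δ)
    (hδ1 : δ ≤ 1) (hν : ν D = ENNReal.ofReal δ) :
    (Measure.infinitePi fun _ : I => ν).real
      {ξ | ((E.filter fun i => ξ i ∈ D).card : ℝ) < δ * E.card / 2} ≤
      Real.exp (-(δ * E.card / 10)) := by
  classical
  set f : Y → ℝ≥0∞ := fun y => D.indicator (fun _ => ENNReal.ofReal (Real.exp (-1))) y +
    Dᶜ.indicator (fun _ => 1) y with hf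
  have hfm : Measurable f := (measurable_const.indicator hD).add
    (measurable_const.indicator hD.compl)
  have hDc : ν Dᶜ = ENNReal.ofReal (1 - δ) := by
    rw [prob_compl_eq_one_sub hD, hν, ← ENNReal.ofReal_one, ENNReal.ofReal_sub _ hδ0]
  have he1 : Real.exp (-1) ≤ 0.4 := by
    rw [Real.exp_neg]
    have := Real.exp_one_gt_d9
    rw [inv_le_comm₀ (by positivity) (by norm_num)]
    norm_num
    linarith
  have hint : ∫⁻ y, f y ∂ν ≤ ENNReal.ofReal (Real.exp (-(0.6 * δ))) := by
    rw [hf, lintegral_add_left (measurable_const.indicator hD), lintegral_indicator hD,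
      lintegral_indicator hD.compl, setLIntegral_const, setLIntegral_const, hν, hDc,
      ← ENNReal.ofReal_mul (Real.exp_pos _).le, one_mul,
      ← ENNReal.ofReal_add (by positivity) (by linarith)]
    apply ENNReal.ofReal_le_ofReal
    have := Real.add_one_le_exp (-(0.6 * δ))
    nlinarith
  have hprod := lintegral_prod_infinitePi (fun _ : I => ν) E (fun _ => f) (fun _ => hfm)
  rw [Finset.prod_const] at hprod
  have hM : Measurable fun ξ : I → Y => ∏ i ∈ E, f (ξ i) := by
    apply Finset.measurable_fun_prod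
    intro i _
    exact hfm.comp (measurable_pi_apply i)
  have hmarkov := meas_ge_le_lintegral_div (μ := Measure.infinitePi fun _ : I => ν)
    hM.aemeasurable (ε := ENNReal.ofReal (Real.exp (-(δ * E.card / 2))))
    (by simp [Real.exp_pos]) ENNReal.ofReal_ne_top
  have hsub : {ξ : I → Y | ((E.filter fun i => ξ i ∈ D).card : ℝ) < δ * E.card / 2} ⊆
      {ξ | ENNReal.ofReal (Real.exp (-(δ * E.card / 2))) ≤ ∏ i ∈ E, f (ξ i)} := by
    intro ξ hξ
    simp only [Set.mem_ofPred_eq] at hξ ⊢
    have h1 : ∏ i ∈ E, f (ξ i) = ENNReal.ofReal (Real.exp (-((E.filter fun i => ξ i ∈ D).card : ℝ))) := by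
      have h2 : ∀ i ∈ E, f (ξ i) = if ξ i ∈ D then ENNReal.ofReal (Real.exp (-1)) else 1 := by
        intro i _
        by_cases hi : ξ i ∈ D
        · simp [hf, hi]
        · simp [hf, hi]
      rw [Finset.prod_congr rfl h2, Finset.prod_ite, Finset.prod_const, Finset.prod_const_one,
        mul_one, ← ENNReal.ofReal_pow (Real.exp_pos _).le, ← Real.exp_nat_mul]
      congr 2
      ring
    rw [h1]
    apply ENNReal.ofReal_le_ofReal
    exact Real.exp_le_exp.2 (by linarith)
  have h3 : (Measure.infinitePi fun _ : I => ν)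
      {ξ | ((E.filter fun i => ξ i ∈ D).card : ℝ) < δ * E.card / 2} ≤
      ENNReal.ofReal (Real.exp (-(δ * E.card / 10))) := by
    refine (measure_mono hsub).trans (hmarkov.trans ?_)
    rw [hprod]
    have h4 : (∫⁻ y, f y ∂ν) ^ E.card ≤ ENNReal.ofReal (Real.exp (-(0.6 * δ)) ^ E.card) := by
      rw [ENNReal.ofReal_pow (Real.exp_pos _).le]
      exact pow_le_pow_left₀ bot_le hint _
    refine (ENNReal.div_le_div_right h4 _).trans ?_
    rw [← ENNReal.ofReal_div_of_pos (Real.exp_pos _)]
    apply ENNReal.ofReal_le_ofReal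
    rw [← Real.exp_nat_mul, ← Real.exp_sub]
    apply Real.exp_le_exp.2
    have : 0 ≤ δ * E.card := by positivity
    have e : (E.card : ℝ) * -(0.6 * δ) - -(δ * E.card / 2) = -(δ * E.card / 10) := by ring
    rw [e]
  exact ENNReal.toReal_le_of_le_ofReal (Real.exp_pos _).le h3

end count

section drop

variable {U : Type*} [MeasurableSpace U] (υ : Measure U) [IsProbabilityMeasure υ]
  (G : Measure ℝ) [IsProbabilityMeasure G] {I : Type*}

open Classical in
/-- for a fixed environment the flips lower the cost of a given edge set -/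
theorem flips_drop (t : I → ℝ) (E F : Finset I) (hEF : E ⊆ F) {a b : ℝ} (hab : a < b)
    {D : Set U} (hD : MeasurableSet D) {δ : ℝ} (hδ0 : 0 ≤ δ) (hδ1 : δ ≤ 1)
    (hυ : υ D = ENNReal.ofReal δ) (hg : 0 < G.real (Iio a)) {m : ℝ}
    (hm : m ≤ ((E.filter fun e => b ≤ t e).card : ℝ)) :
    (Measure.infinitePi fun _ : I => υ.prod (ProbabilityTheory.cond G (Iio a))).real
      {ξ | ¬ (∑ e ∈ E, flE F (Ici b) D t ξ e ≤ ∑ e ∈ E, t e - (b - a) * (δ * m / 2))} ≤
      Real.exp (-(δ * m / 10)) := by
  classical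
  have hGL : G (Iio a) ≠ 0 := by
    intro h
    rw [Measure.real, h] at hg
    simp at hg
  have hc : IsProbabilityMeasure (ProbabilityTheory.cond G (Iio a)) :=
    cond_isProbabilityMeasure hGL
  set ν := υ.prod (ProbabilityTheory.cond G (Iio a)) with hν
  set E' := E.filter fun e => b ≤ t e with hE'
  have hνD : ν (Prod.fst ⁻¹' D) = ENNReal.ofReal δ := by
    rw [hν, ← Set.prod_univ, Measure.prod_prod, measure_univ, mul_one, hυ]
  have h1 := few_flips ν E' (D := Prod.fst ⁻¹' D) (measurable_fst hD) hδ0 hδ1 hνD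
  have hlow : ∀ᵐ ξ ∂(Measure.infinitePi fun _ : I => ν), ∀ e ∈ F, (ξ e).2 < a := by
    rw [Finset.eventually_all]
    intro e _
    have h2 : ∀ᵐ y ∂ν, y.2 < a := by
      have h3 : ∀ᵐ x ∂(ProbabilityTheory.cond G (Iio a)), x < a := by
        have := ProbabilityTheory.ae_cond_mem (μ := G) (s := Iio a) measurableSet_Iio
        exact this
      rw [hν]
      exact Measure.quasiMeasurePreserving_snd.ae h3
    exact (measurePreserving_eval_infinitePi (fun _ : I => ν) e).quasiMeasurePreserving.ae h2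
  have hsub : ∀ᵐ ξ ∂(Measure.infinitePi fun _ : I => ν),
      ¬ (∑ e ∈ E, flE F (Ici b) D t ξ e ≤ ∑ e ∈ E, t e - (b - a) * (δ * m / 2)) →
      ((E'.filter fun i => ξ i ∈ (Prod.fst ⁻¹' D : Set (U × ℝ))).card : ℝ) < δ * E'.card / 2 := by
    filter_upwards [hlow] with ξ hξ hnot
    by_contra hcon
    push Not at hcon
    apply hnot
    have h3 : ∀ e ∈ E, flE F (Ici b) D t ξ e ≤ t e -
        (if e ∈ E'.filter (fun i => ξ i ∈ (Prod.fst ⁻¹' D : Set (U × ℝ))) then (b - a) else 0) := by
      intro e he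
      have heF := hEF he
      simp only [flE, heF, if_true, fl, hE', Finset.mem_filter, he, true_and, Set.mem_Ici,
        Set.mem_preimage]
      by_cases h4 : b ≤ t e ∧ (ξ e).1 ∈ D
      · rw [if_pos h4, if_pos h4]
        have := hξ e heF
        linarith [h4.1]
      · rw [if_neg h4, if_neg h4]
        linarith
    have h5 := Finset.sum_le_sum h3
    rw [Finset.sum_sub_distrib] at h5
    have h6 : ∑ e ∈ E, (if e ∈ E'.filter (fun i => ξ i ∈ (Prod.fst ⁻¹' D : Set (U × ℝ)))
        then (b - a) else 0) = ((E'.filter fun i => ξ i ∈ (Prod.fst ⁻¹' D : Set (U × ℝ))).card : ℝ)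
          * (b - a) := by
      rw [Finset.sum_ite_mem, Finset.sum_const, nsmul_eq_mul]
      congr 3
      apply Finset.inter_eq_right.2
      exact (Finset.filter_subset _ _).trans (Finset.filter_subset _ _)
    rw [h6] at h5
    have h7 : δ * m / 2 ≤ ((E'.filter fun i => ξ i ∈ (Prod.fst ⁻¹' D : Set (U × ℝ))).card : ℝ) := by
      refine le_trans ?_ hcon
      have : δ * m ≤ δ * E'.card := mul_le_mul_of_nonneg_left hm hδ0
      linarith
    have h8 := mul_le_mul_of_nonneg_right h7 (sub_nonneg.2 hab.le)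
    linarith
  refine le_trans (ENNReal.toReal_mono (measure_ne_top _ _) (measure_mono_ae hsub)) ?_
  refine h1.trans ?_
  apply Real.exp_le_exp.2
  have : δ * m ≤ δ * E'.card := mul_le_mul_of_nonneg_left hm hδ0
  linarith

end drop

end Crest.Agent.R151.V
end

-- ▼ part R151/V10

/-!
# R151, block V10 (helper52): anticoncentration of restricted crossings (AC), every atomless law
-/

set_option autoImplicit false
set_option linter.unusedSectionVars false

open MeasureTheory ProbabilityTheory Set Filter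
open scoped ENNReal Topology
open Crest.ProbabilityR.FirstPassage
open Crest.Agent.R151.K (Nn Bad cst eds n1)
open Crest.Agent.R151.X (Cr)

namespace Crest.Agent.R151.V

variable {G : Measure ℝ} [IsProbabilityMeasure G]

/-- the infimum of the support -/
lemma exists_infsupp (h0 : G (Iio 0) = 0) :
    ∃ r0 : ℝ, G (Iio r0) = 0 ∧ ∀ ε : ℝ, 0 < ε → 0 < G.real (Iio (r0 + ε)) := by
  set Z : Set ℝ := {r | G (Iio r) = 0} with hZ
  have hne : Z.Nonempty := ⟨0, h0⟩
  have hlim : Tendsto (fun n : ℕ => G (Iio (n : ℝ))) atTop (𝓝 (G univ)) := by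
    have hmono : Monotone fun n : ℕ => Iio (n : ℝ) := fun a b hab =>
      Iio_subset_Iio (by exact_mod_cast hab)
    have := tendsto_measure_iUnion_atTop (μ := G) hmono
    have hU : (⋃ n : ℕ, Iio (n : ℝ)) = univ := by
      ext x
      simp only [mem_iUnion, mem_Iio, mem_univ, iff_true]
      exact exists_nat_gt x
    rwa [hU] at this
  obtain ⟨n, hn⟩ : ∃ n : ℕ, 0 < G (Iio (n : ℝ)) := by
    rw [measure_univ] at hlim
    exact (hlim.eventually (lt_mem_nhds zero_lt_one)).exists
  have hbdd : BddAbove Z := by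
    refine ⟨n, fun r hr => ?_⟩
    by_contra hcon
    push Not at hcon
    have : G (Iio (n : ℝ)) ≤ G (Iio r) := measure_mono (Iio_subset_Iio hcon.le)
    rw [hr] at this
    exact absurd hn (not_lt.2 this)
  refine ⟨sSup Z, ?_, ?_⟩
  · have hU : Iio (sSup Z) ⊆ ⋃ k : ℕ, Iio (sSup Z - 1 / ((k : ℝ) + 1)) := by
      intro x hx
      have hx : x < sSup Z := hx
      obtain ⟨k, hk⟩ := exists_nat_one_div_lt (sub_pos.2 hx)
      exact mem_iUnion.2 ⟨k, by simp only [mem_Iio]; linarith⟩
    refine measure_mono_null hU (measure_iUnion_null fun k => ?_)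
    have hpos : (0:ℝ) < 1 / ((k : ℝ) + 1) := by positivity
    obtain ⟨r, hr, hr2⟩ := exists_lt_of_lt_csSup hne (show sSup Z - 1 / ((k : ℝ) + 1) < sSup Z by
      linarith)
    exact measure_mono_null (Iio_subset_Iio hr2.le) hr
  · intro ε hε
    rw [measureReal_def, ENNReal.toReal_pos_iff]
    refine ⟨?_, measure_lt_top _ _⟩
    rw [pos_iff_ne_zero]
    intro hcon
    have := le_csSup hbdd (show sSup Z + ε ∈ Z from hcon)
    linarith

open Classical in
/-- off an event of probability `2^-n` every trail of length `≥ n` from `x` has a positive fraction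
of edges with weight at least `b > r0 = inf supp G`. -/
theorem exists_high [NullSingletonClass G] (h0 : G (Iio 0) = 0) :
    ∃ a b c : ℝ, a < b ∧ 0 < c ∧ 0 < G.real (Iio a) ∧ ∀ (n : ℕ) (x : ℤ × ℤ),
      ∃ B : Set Environment, MeasurableSet B ∧ (iidLaw G).real B ≤ (1 / 2) ^ n ∧
        ∀ t, t ∉ B → ∀ (y : ℤ × ℤ) (w : squareLattice.Walk x y), w.edges.Nodup → n ≤ w.length →
          c * n ≤ ((w.edges.toFinset.filter fun e => b ≤ t e).card : ℝ) := by
  obtain ⟨r0, hr0, hr1⟩ := exists_infsupp h0
  set φ : ℝ → ℝ := fun x => min (x - r0) 1 with hφ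
  have hφm : Measurable φ := by fun_prop
  set Gh := G.map φ with hGh
  have hpr : IsProbabilityMeasure Gh := Measure.isProbabilityMeasure_map hφm.aemeasurable
  have hh0 : Gh (Iio 0) = 0 := by
    rw [hGh, Measure.map_apply hφm measurableSet_Iio]
    refine measure_mono_null ?_ hr0
    intro x hx
    simp only [hφ, mem_preimage, mem_Iio, min_lt_iff] at hx ⊢
    rcases hx with hx | hx
    · linarith
    · norm_num at hx
  have hhz : Gh {0} = 0 := by
    rw [hGh, Measure.map_apply hφm (measurableSet_singleton _)]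
    refine measure_mono_null (t := {r0}) ?_ (measure_singleton r0)
    intro x hx
    simp only [hφ, mem_preimage, mem_singleton_iff] at hx ⊢
    rcases min_choice (x - r0) 1 with h | h
    · rw [h] at hx; linarith
    · rw [h] at hx; norm_num at hx
  obtain ⟨c1, hc1, hbad⟩ := K.prob_Bad_le (G := Gh) hh0 hhz
  set c := c1 / 2 with hc
  have hcpos : 0 < c := by positivity
  set Φ : Environment → Environment := fun t e => φ (t e) with hΦ
  have hΦm : Measurable Φ := by
    rw [measurable_pi_iff]
    intro e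
    exact hφm.comp (measurable_pi_apply e)
  have hlaw : (iidLaw G).map Φ = iidLaw Gh := by
    unfold iidLaw
    exact Measure.infinitePi_map_pi (fun _ : Sym2 (ℤ × ℤ) => G) (f := fun _ => φ) (fun _ => hφm)
  refine ⟨r0 + c / 2, r0 + c, c, by linarith, hcpos, hr1 _ (by positivity), ?_⟩
  intro n x
  refine ⟨Φ ⁻¹' (Bad c1 n x), hΦm (K.measurableSet_Bad _ _ _), ?_, ?_⟩
  · have := hbad n x
    rwa [← hlaw, map_measureReal_apply hΦm (K.measurableSet_Bad _ _ _)] at this
  · intro t ht y w hw hn
    by_contra hcon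
    push Not at hcon
    apply ht
    obtain ⟨f, hf⟩ := K.exists_eds w
    have hlen : f.length = w.length := by
      rw [← K.length_eds x f, ← hf, SimpleGraph.Walk.length_edges]
    have hlen2 : (f.take n).length = n := by rw [List.length_take, hlen]; omega
    obtain ⟨g, hg⟩ : ∃ g : Fin n → Fin 4, List.ofFn g = f.take n := by
      refine ⟨fun i => (f.take n).get (i.cast hlen2.symm), ?_⟩
      apply List.ext_getElem
      · simp [hlen2]
      · intro i h1 h2
        simp
    have hsubl : List.Sublist (eds x (List.ofFn g)) w.edges := by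
      rw [hg, ← K.eds_take, ← hf]
      exact List.take_sublist _ _
    have hnd : (eds x (List.ofFn g)).Nodup := hw.sublist hsubl
    refine ⟨g, hnd, ?_⟩
    have hcard : (eds x (List.ofFn g)).toFinset.card = n := by
      rw [List.toFinset_card_of_nodup hnd, K.length_eds, List.length_ofFn]
    set E := (eds x (List.ofFn g)).toFinset with hE
    have hcst : cst (Φ t) x (List.ofFn g) = ∑ e ∈ E, φ (t e) := by
      rw [cst, hE, List.sum_toFinset _ hnd]
    rw [hcst]
    have hle : ∀ e ∈ E, φ (t e) ≤ (if r0 + c ≤ t e then (1:ℝ) else 0) + c := by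
      intro e _
      by_cases h : r0 + c ≤ t e
      · rw [if_pos h]
        exact (min_le_right _ _).trans (by linarith)
      · rw [if_neg h]
        push Not at h
        exact (min_le_left _ _).trans (by linarith)
    have h2 := Finset.sum_le_sum hle
    rw [Finset.sum_add_distrib, Finset.sum_const, hcard, nsmul_eq_mul, ← Finset.sum_filter,
      Finset.sum_const, nsmul_eq_mul, mul_one] at h2
    have h3 : ((E.filter fun e => r0 + c ≤ t e).card : ℝ) ≤
        ((w.edges.toFinset.filter fun e => r0 + c ≤ t e).card : ℝ) := by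
      have : E.filter (fun e => r0 + c ≤ t e) ⊆ w.edges.toFinset.filter fun e => r0 + c ≤ t e := by
        apply Finset.filter_subset_filter
        intro e he
        rw [hE, List.mem_toFinset] at he
        exact List.mem_toFinset.2 (hsubl.subset he)
      exact_mod_cast Finset.card_le_card this
    have h4 : c1 * n = c * n + c * n := by rw [hc]; ring
    have h5 : (n : ℝ) * c = c * n := mul_comm _ _
    linarith

/-- existence of a crossing from `A` to `B` inside `S` with energy at most `v` -/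
def EX (S : Set (Sym2 (ℤ × ℤ))) (A B : Set (ℤ × ℤ)) (th : ℤ × ℤ → ℝ) (v : ℝ) :
    Set Environment :=
  {t | ∃ x ∈ A, ∃ y ∈ B, Cr S x y (th y - th x + v) t}

lemma measurableSet_EX (S : Set (Sym2 (ℤ × ℤ))) (A B : Set (ℤ × ℤ)) (th : ℤ × ℤ → ℝ) (v : ℝ) :
    MeasurableSet (EX S A B th v) := by
  have : EX S A B th v = ⋃ x ∈ A, ⋃ y ∈ B, {t | Cr S x y (th y - th x + v) t} := by
    ext t; simp [EX]
  rw [this]
  refine MeasurableSet.biUnion (Set.to_countable _) fun x _ =>
    MeasurableSet.biUnion (Set.to_countable _) fun y _ => ?_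
  exact X.sig_le S _ (X.measurableSet_Cr S x y _)


lemma sq_le_two_pow (n : ℕ) : n ^ 2 ≤ 2 * 2 ^ n := by
  induction n with
  | zero => norm_num
  | succ n ih =>
    rcases Nat.lt_or_ge n 3 with h | h
    · interval_cases n <;> norm_num
    · have h1 : (n + 1) ^ 2 ≤ 2 * n ^ 2 := by nlinarith
      calc (n + 1) ^ 2 ≤ 2 * n ^ 2 := h1
        _ ≤ 2 * (2 * 2 ^ n) := by omega
        _ = 2 * 2 ^ (n + 1) := by ring

/-- the uniform law used for the flips -/
noncomputable def unif : Measure ℝ := volume.restrict (Ioc 0 1)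

instance : IsProbabilityMeasure unif := by
  constructor
  simp [unif]

lemma unif_Iic {δ : ℝ} (hδ0 : 0 ≤ δ) (hδ1 : δ ≤ 1) : unif (Iic δ) = ENNReal.ofReal δ := by
  unfold unif
  rw [Measure.restrict_apply measurableSet_Iic]
  have : Iic δ ∩ Ioc 0 1 = Ioc 0 δ := by
    ext x
    simp only [mem_inter_iff, mem_Iic, mem_Ioc]
    constructor
    · rintro ⟨h1, h2, h3⟩; exact ⟨h2, h1⟩
    · rintro ⟨h1, h2⟩; exact ⟨h2, h1, h2.trans hδ1⟩
  rw [this, Real.volume_Ioc, sub_zero]

/-- the vertices of a finite set of edges -/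
def verts (F : Finset (Sym2 (ℤ × ℤ))) : Finset (ℤ × ℤ) := F.biUnion fun e => e.toFinset

lemma card_verts_le (F : Finset (Sym2 (ℤ × ℤ))) : (verts F).card ≤ 2 * F.card := by
  unfold verts
  refine (Finset.card_biUnion_le).trans ?_
  calc ∑ e ∈ F, e.toFinset.card ≤ ∑ _e ∈ F, 2 := by
        apply Finset.sum_le_sum
        intro e _
        rw [Sym2.card_toFinset]
        split_ifs <;> norm_num
    _ = 2 * F.card := by rw [Finset.sum_const, smul_eq_mul, mul_comm]

lemma mem_verts_of_walk {F : Finset (Sym2 (ℤ × ℤ))} {x y : ℤ × ℤ} (w : squareLattice.Walk x y)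
    (hw : ∀ e ∈ w.edges, e ∈ F) (hl : 1 ≤ w.length) : x ∈ verts F := by
  cases w with
  | nil => simp at hl
  | @cons _ v _ h p =>
    unfold verts
    rw [Finset.mem_biUnion]
    refine ⟨s(x, v), hw _ (by simp), ?_⟩
    rw [Sym2.mem_toFinset]
    exact Sym2.mem_mk_left _ _

set_option maxHeartbeats 4000000 in
open Classical in
/-- **Anticoncentration (AC)** of restricted crossings, for every atomless law on `[0, ∞)`. -/
theorem AC [NullSingletonClass G] (h0 : G (Iio 0) = 0) :
    ∃ c : ℝ, 0 < c ∧ ∃ C : ℝ, 0 < C ∧ ∀ (S : Set (Sym2 (ℤ × ℤ))) (F : Finset (Sym2 (ℤ × ℤ))),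
      S ⊆ ↑F → ∀ n N : ℕ, 1 ≤ n → F.card ≤ N → ∀ A B : Set (ℤ × ℤ),
      (∀ x ∈ A, ∀ y ∈ B, n ≤ n1 (y - x)) → ∀ h : ℝ, 0 < h → h ≤ 1 → ∀ (th : ℤ × ℤ → ℝ) (v : ℝ),
      (iidLaw G).real (EX S A B th v) ≤
        (iidLaw G).real (EX S A B th (v - c * h * n / √N)) + C * h + C * √N / (h * n) := by
  obtain ⟨a, b, c, hab, hc, hga, hhigh⟩ := exists_high (G := G) h0
  choose Bd hBm hBp hBh using hhigh
  set gL := G.real (Iio a) with hgL
  have hGL : G (Iio a) ≠ 0 := by
    intro h
    rw [hgL, Measure.real, h] at hga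
    simp at hga
  have hcond : IsProbabilityMeasure (ProbabilityTheory.cond G (Iio a)) :=
    cond_isProbabilityMeasure hGL
  set C1 : ℝ := √(2 / gL * Real.exp (2 / gL)) with hC1
  have hC1pos : 0 < C1 := Real.sqrt_pos.2 (by positivity)
  refine ⟨(b - a) * c / 2, by have := sub_pos.2 hab; positivity, C1 + 4 + 10 / c + 1,
    by positivity, ?_⟩
  intro S F hSF n N hn hN A B hAB h hh0 hh1 th v
  have hn0 : (0:ℝ) < n := by exact_mod_cast hn
  rcases Nat.eq_zero_or_pos N with hN0 | hN0
  · subst hN0
    have e1 : v - (b - a) * c / 2 * h * n / √((0:ℕ):ℝ) = v := by simp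
    rw [e1]
    have e2 : (C1 + 4 + 10 / c + 1) * √((0:ℕ):ℝ) / (h * n) = 0 := by simp
    rw [e2]
    have : 0 ≤ (C1 + 4 + 10 / c + 1) * h := by positivity
    linarith
  have hNr : (0:ℝ) < N := by exact_mod_cast hN0
  have hN1 : (1:ℝ) ≤ N := by exact_mod_cast hN0
  have hsN : 0 < √(N:ℝ) := Real.sqrt_pos.2 hNr
  have hsN1 : 1 ≤ √(N:ℝ) := Real.one_le_sqrt.2 hN1
  set δ : ℝ := h / √N with hδ
  have hδ0 : 0 < δ := div_pos hh0 hsN
  have hδ1 : δ ≤ 1 := by
    rw [hδ, div_le_one hsN]
    linarith
  set v' := v - (b - a) * (δ * (c * n) / 2) with hv'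
  have hv'e : v - (b - a) * c / 2 * h * n / √N = v' := by
    rw [hv', hδ]
    ring
  rw [hv'e]
  set ν := unif.prod (ProbabilityTheory.cond G (Iio a)) with hν
  set D : Set ℝ := Iic δ with hD
  have hDm : MeasurableSet D := measurableSet_Iic
  have hυ : unif D = ENNReal.ofReal δ := unif_Iic hδ0.le hδ1
  set μ := iidLaw G with hμ
  set ρ := Measure.infinitePi fun _ : Sym2 (ℤ × ℤ) => ν with hρ
  have hHL : Disjoint (Ici b) (Iio a) := by
    rw [Set.disjoint_left]
    intro x hx hx'
    simp only [mem_Ici, mem_Iio] at hx hx'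
    linarith
  -- the bad event
  set Bs : Set Environment := ⋃ x ∈ verts F, Bd n x with hBs
  have hBsm : MeasurableSet Bs := Finset.measurableSet_biUnion _ fun x _ => hBm n x
  have hBsp : μ.real Bs ≤ 2 * N * (1 / 2) ^ n := by
    calc μ.real Bs ≤ ∑ x ∈ verts F, μ.real (Bd n x) := measureReal_biUnion_finset_le _ _
      _ ≤ ∑ _x ∈ verts F, (1 / 2 : ℝ) ^ n := Finset.sum_le_sum fun x _ => hBp n x
      _ = (verts F).card * (1 / 2 : ℝ) ^ n := by rw [Finset.sum_const, nsmul_eq_mul]
      _ ≤ 2 * N * (1 / 2) ^ n := by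
        have : ((verts F).card : ℝ) ≤ 2 * N := by
          exact_mod_cast (card_verts_le F).trans (by omega)
        gcongr
  have hEm := measurableSet_EX S A B th v
  have hEm' := measurableSet_EX S A B th v'
  have hflm := measurable_flE (U := ℝ) F (H := Ici b) (D := D) measurableSet_Ici hDm
  -- step 1
  have hstep1 : μ.real (EX S A B th v) = (μ.prod ρ).real {q | q.1 ∈ EX S A B th v} := by
    have : {q : Environment × (Sym2 (ℤ × ℤ) → ℝ × ℝ) | q.1 ∈ EX S A B th v} =
        (EX S A B th v) ×ˢ univ := by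
      ext q; simp
    rw [this, measureReal_prod_prod, probReal_univ, mul_one]
  -- step 2
  have hstep2 : (μ.prod ρ).real {q | q.1 ∈ EX S A B th v} ≤
      (μ.prod ρ).real {q | flE F (Ici b) D q.1 q.2 ∈ EX S A B th v'} +
      (μ.prod ρ).real {q | q.1 ∈ EX S A B th v ∧ flE F (Ici b) D q.1 q.2 ∉ EX S A B th v'} := by
    refine (measureReal_mono ?_ (measure_ne_top _ _)).trans (measureReal_union_le _ _)
    intro q hq
    by_cases h1 : flE F (Ici b) D q.1 q.2 ∈ EX S A B th v'
    · exact Or.inl h1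
    · exact Or.inr ⟨hq, h1⟩
  -- step 3
  have hTV : (μ.prod ρ).real {q | flE F (Ici b) D q.1 q.2 ∈ EX S A B th v'} ≤
      μ.real (EX S A B th v') + C1 * h := by
    have h1 := flE_sub_le unif G F (H := Ici b) (L := Iio a) (D := D) measurableSet_Ici
      measurableSet_Iio hHL hDm hδ0.le hδ1 hυ hga hEm'
    have h2 := (abs_le.1 h1).2
    have h3 : √((1 + 2 * δ ^ 2 / gL) ^ F.card - 1) / 2 ≤ C1 * h := by
      have h4 : (1 + 2 * δ ^ 2 / gL) ^ F.card ≤ Real.exp (2 * h ^ 2 / gL) := by
        have h5 : 1 + 2 * δ ^ 2 / gL ≤ Real.exp (2 * δ ^ 2 / gL) := by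
          have := Real.add_one_le_exp (2 * δ ^ 2 / gL)
          linarith
        have h6 : (0:ℝ) ≤ 1 + 2 * δ ^ 2 / gL := by positivity
        calc (1 + 2 * δ ^ 2 / gL) ^ F.card ≤ (Real.exp (2 * δ ^ 2 / gL)) ^ F.card :=
              pow_le_pow_left₀ h6 h5 _
          _ = Real.exp (F.card * (2 * δ ^ 2 / gL)) := by rw [← Real.exp_nat_mul]
          _ ≤ _ := by
            apply Real.exp_le_exp.2
            have h7 : (F.card : ℝ) ≤ N := by exact_mod_cast hN
            have h8 : (0:ℝ) ≤ 2 * δ ^ 2 / gL := by positivity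
            calc (F.card : ℝ) * (2 * δ ^ 2 / gL) ≤ N * (2 * δ ^ 2 / gL) :=
                  mul_le_mul_of_nonneg_right h7 h8
              _ = 2 * h ^ 2 / gL := by
                rw [hδ, div_pow, Real.sq_sqrt hNr.le]
                field_simp
      have h9 : Real.exp (2 * h ^ 2 / gL) - 1 ≤ (C1 * h) ^ 2 := by
        have hx0 : 0 ≤ 2 * h ^ 2 / gL := by positivity
        have h10 : Real.exp (2 * h ^ 2 / gL) - 1 ≤ 2 * h ^ 2 / gL * Real.exp (2 * h ^ 2 / gL) := by
          have h11 := Real.add_one_le_exp (-(2 * h ^ 2 / gL))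
          have h12 : Real.exp (2 * h ^ 2 / gL) * Real.exp (-(2 * h ^ 2 / gL)) = 1 := by
            rw [← Real.exp_add]; simp
          nlinarith [Real.exp_pos (2 * h ^ 2 / gL)]
        have h13 : 2 * h ^ 2 / gL ≤ 2 / gL := by
          gcongr
          nlinarith
        have h14 : Real.exp (2 * h ^ 2 / gL) ≤ Real.exp (2 / gL) := Real.exp_le_exp.2 h13
        have h15 : (C1 * h) ^ 2 = 2 / gL * Real.exp (2 / gL) * h ^ 2 := by
          rw [mul_pow, hC1, Real.sq_sqrt (by positivity)]
        rw [h15]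
        calc Real.exp (2 * h ^ 2 / gL) - 1 ≤ 2 * h ^ 2 / gL * Real.exp (2 * h ^ 2 / gL) := h10
          _ ≤ 2 * h ^ 2 / gL * Real.exp (2 / gL) := mul_le_mul_of_nonneg_left h14 hx0
          _ = _ := by ring
      have h16 : √((1 + 2 * δ ^ 2 / gL) ^ F.card - 1) ≤ C1 * h := by
        rw [← Real.sqrt_sq (by positivity : 0 ≤ C1 * h)]
        apply Real.sqrt_le_sqrt
        linarith
      have h17 := Real.sqrt_nonneg ((1 + 2 * δ ^ 2 / gL) ^ F.card - 1)
      linarith
    have h18 : (μ.prod ρ).real {q | flE F (Ici b) D q.1 q.2 ∈ EX S A B th v'} -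
        μ.real (EX S A B th v') ≤ √((1 + 2 * δ ^ 2 / gL) ^ F.card - 1) / 2 := h2
    linarith
  have hflip : (μ.prod ρ).real
      {q | q.1 ∈ EX S A B th v ∧ flE F (Ici b) D q.1 q.2 ∉ EX S A B th v'} ≤
      μ.real Bs + Real.exp (-(δ * (c * n) / 10)) := by
    have hset : MeasurableSet
        {q : Environment × (Sym2 (ℤ × ℤ) → ℝ × ℝ) | q.1 ∈ EX S A B th v ∧
          flE F (Ici b) D q.1 q.2 ∉ EX S A B th v'} :=
      (measurable_fst hEm).inter (hflm hEm'.compl)
    have hENN : (μ.prod ρ) {q | q.1 ∈ EX S A B th v ∧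
        flE F (Ici b) D q.1 q.2 ∉ EX S A B th v'} ≤
        ENNReal.ofReal (μ.real Bs + Real.exp (-(δ * (c * n) / 10))) := by
      rw [Measure.prod_apply hset]
      have hpt : ∀ᵐ t ∂μ, ρ (Prod.mk t ⁻¹' {q : Environment × (Sym2 (ℤ × ℤ) → ℝ × ℝ) |
          q.1 ∈ EX S A B th v ∧ flE F (Ici b) D q.1 q.2 ∉ EX S A B th v'}) ≤
          Bs.indicator 1 t + ENNReal.ofReal (Real.exp (-(δ * (c * n) / 10))) := by
        filter_upwards [K.ae_Nn (G := G) h0] with t ht
        by_cases htB : t ∈ Bs
        · rw [indicator_of_mem htB]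
          exact prob_le_one.trans (by simp)
        rw [indicator_of_notMem htB, zero_add]
        by_cases htE : t ∈ EX S A B th v
        swap
        · have : (Prod.mk t ⁻¹' {q : Environment × (Sym2 (ℤ × ℤ) → ℝ × ℝ) |
            q.1 ∈ EX S A B th v ∧ flE F (Ici b) D q.1 q.2 ∉ EX S A B th v'}) = ∅ := by
            ext ξ
            simp [htE]
          rw [this, measure_empty]
          exact bot_le
        obtain ⟨x, hx, y, hy, w, hwS, hwc⟩ := htE
        have hnd : w.bypass.edges.Nodup := w.bypass_isPath.isTrail.edges_nodup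
        have hsub : ∀ e ∈ w.bypass.edges, e ∈ S := fun e he =>
          hwS e ((SimpleGraph.Walk.edges_bypass_sublist_edges w).subset he)
        have hlen : n ≤ w.bypass.length := (hAB x hx y hy).trans (K.n1_le_length _)
        have hxV : x ∈ verts F := mem_verts_of_walk w.bypass (fun e he => hSF (hsub e he))
          (hn.trans hlen)
        have htx : t ∉ Bd n x := fun h => htB (mem_iUnion₂.2 ⟨x, hxV, h⟩)
        have hcnt := hBh n x t htx y w.bypass hnd hlen
        set E := w.bypass.edges.toFinset with hE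
        have hEF : E ⊆ F := by
          intro e he
          rw [hE, List.mem_toFinset] at he
          exact hSF (hsub e he)
        have hdrop := flips_drop (U := ℝ) unif G t E F hEF hab hDm hδ0.le hδ1 hυ hga hcnt
        rw [← ofReal_measureReal (measure_ne_top ρ _)]
        apply ENNReal.ofReal_le_ofReal
        refine le_trans (measureReal_mono ?_ (measure_ne_top _ _)) hdrop
        intro ξ hξ
        simp only [Set.mem_preimage, Set.mem_ofPred_eq] at hξ ⊢
        intro hle
        apply hξ.2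
        refine ⟨x, hx, y, hy, w.bypass, hsub, ?_⟩
        have e1 : walkCost (flE F (Ici b) D t ξ) w.bypass = ∑ e ∈ E, flE F (Ici b) D t ξ e := by
          rw [walkCost, hE, List.sum_toFinset _ hnd]
        have e2 : walkCost t w.bypass = ∑ e ∈ E, t e := by
          rw [walkCost, hE, List.sum_toFinset _ hnd]
        have h3 := K.walkCost_bypass_le ht w
        rw [e1]
        rw [e2] at h3
        linarith
      refine (lintegral_mono_ae hpt).trans ?_
      rw [lintegral_add_left (measurable_one.indicator hBsm), lintegral_indicator_one hBsm,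
        lintegral_const, measure_univ, mul_one,
        ENNReal.ofReal_add measureReal_nonneg (Real.exp_pos _).le,
        ofReal_measureReal (measure_ne_top _ _)]
    exact ENNReal.toReal_le_of_le_ofReal (by positivity) hENN
  -- arithmetic
  have hexp : Real.exp (-(δ * (c * n) / 10)) ≤ 10 / c * (√N / (h * n)) := by
    have hx : 0 < δ * (c * n) / 10 := by positivity
    have h1 : Real.exp (-(δ * (c * n) / 10)) ≤ 1 / (δ * (c * n) / 10) := by
      rw [Real.exp_neg, ← one_div]
      apply one_div_le_one_div_of_le hx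
      have := Real.add_one_le_exp (δ * (c * n) / 10)
      linarith
    refine h1.trans (le_of_eq ?_)
    rw [hδ]
    field_simp
  rcases le_or_gt (n : ℝ) (√N) with hcase | hcase
  · -- trivial case
    have h1 : 1 ≤ √N / (h * n) := by
      rw [le_div_iff₀ (by positivity)]
      nlinarith
    have h2 : μ.real (EX S A B th v) ≤ 1 := measureReal_le_one
    have h3 : 0 ≤ μ.real (EX S A B th v') := measureReal_nonneg
    have h4 : 1 ≤ (C1 + 4 + 10 / c + 1) * √N / (h * n) := by
      rw [mul_div_assoc]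
      have : 0 < 10 / c := by positivity
      nlinarith
    have h5 : 0 ≤ (C1 + 4 + 10 / c + 1) * h := by positivity
    linarith
  · have hBs2 : μ.real Bs ≤ 4 * (√N / (h * n)) := by
      refine hBsp.trans ?_
      have h1 : (n:ℝ) ^ 2 ≤ 2 * 2 ^ n := by exact_mod_cast sq_le_two_pow n
      have h2 : (N:ℝ) = √N * √N := (Real.mul_self_sqrt hNr.le).symm
      have h3 : (N:ℝ) ≤ √N * n := by
        nth_rw 1 [h2]
        exact mul_le_mul_of_nonneg_left hcase.le hsN.le
      have h4 : ((1:ℝ) / 2) ^ n ≤ 2 / n ^ 2 := by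
        rw [div_pow, one_pow, div_le_div_iff₀ (by positivity) (by positivity)]
        linarith
      calc 2 * (N:ℝ) * (1 / 2) ^ n ≤ 2 * (√N * n) * (2 / n ^ 2) := by gcongr
        _ = 4 * (√N / n) := by field_simp; ring
        _ ≤ 4 * (√N / (h * n)) := by
          gcongr
          nlinarith
    have h5 : (C1 + 4 + 10 / c + 1) * √N / (h * n) =
        C1 * (√N / (h * n)) + 4 * (√N / (h * n)) + 10 / c * (√N / (h * n)) + √N / (h * n) := by
      ring
    have h6 : 0 ≤ √N / (h * n) := by positivity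
    have h7 : 0 ≤ C1 * (√N / (h * n)) := by positivity
    have h8 : C1 * h ≤ (C1 + 4 + 10 / c + 1) * h := by
      have : 0 < 10 / c := by positivity
      nlinarith
    rw [h5]
    linarith [hstep1, hstep2, hTV, hflip]

end Crest.Agent.R151.V
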