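import Crest.Agent.R151.D624d
import Crest.Agent.R151.V10

-- ▼ part R151/D624e
section

/-!
# R151, D624e: stationarity and mass transport for the coalescence classes

Main result `HL.ae_hit` : if classes do not coalesce with positive probability, then almost surely
every class on the line `y = h` is the image of a class on the line `y = k` (`k < h`), and class
boundaries are unbounded in both directions.
-/

set_option autoImplicit false

open MeasureTheory Filter Topology ProbabilityTheory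
open Crest.ProbabilityR.FirstPassage
open scoped ENNReal

namespace Crest.Agent.R151.D624

section covariance

theorem pt_map_le {V V' : Type*} {H : SimpleGraph V} {H' : SimpleGraph V'} {t' : Sym2 V' → ℝ}
    (ht' : ∀ e, 0 ≤ t' e) (φ : H →g H') {x y : V} (h : H.Reachable x y) :
    pt H' t' (φ x) (φ y) ≤ pt H (fun e => t' (e.map φ)) x y :=
  le_pt h fun w => (pt_le_wcost ht' (w.map φ)).trans (wcost_map t' φ w).le

/-- translation as a homomorphism -/
def trHom (z : ℤ × ℤ) (k : ℤ) : gH k →g gH (k + z.2) where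
  toFun v := v + z
  map_rel' := by
    intro a b hab
    rw [reg_adj] at hab ⊢
    obtain ⟨h1, h2, h3⟩ := hab
    rw [lat_adj] at h1 ⊢
    rw [mem_Hp] at h2 h3 ⊢
    rw [mem_Hp]
    simp only [Prod.fst_add, Prod.snd_add]
    refine ⟨?_, by omega, by omega⟩
    rcases h1 with h1 | h1
    · left; omega
    · right; omega

theorem pt_shift_gH {t : Environment} (ht : ∀ e, 0 ≤ t e) (z : ℤ × ℤ) {k : ℤ} {x y : ℤ × ℤ}
    (hx : k ≤ x.2) (hy : k ≤ y.2) :
    pt (gH k) (A.shift z t) x y = pt (gH (k + z.2)) t (x + z) (y + z) := by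
  apply le_antisymm
  · have h1 := pt_map_le (t' := A.shift z t) (fun e => ht _) (trHom (-z) (k + z.2))
      (x := x + z) (y := y + z)
      (gH_reachable (by simp only [Prod.snd_add]; omega) (by simp only [Prod.snd_add]; omega))
    have e1 : (trHom (-z) (k + z.2)) (x + z) = x := by
      show x + z + -z = x
      abel
    have e2 : (trHom (-z) (k + z.2)) (y + z) = y := by
      show y + z + -z = y
      abel
    have e3 : k + z.2 + (-z).2 = k := by simp
    have e4 : (fun e : Sym2 (ℤ × ℤ) => A.shift z t (e.map (trHom (-z) (k + z.2)))) = t := by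
      funext e
      induction e with
      | _ a b =>
        show t s(a + -z + z, b + -z + z) = t s(a, b)
        rw [neg_add_cancel_right, neg_add_cancel_right]
    rw [e1, e2, e4, e3] at h1
    exact h1
  · exact pt_map_le ht (trHom z k) (gH_reachable hx hy)

/-- the family of boundary functions of an environment -/
abbrev fam (f : ℤ → Environment → ℤ → ℝ) (t : Environment) : ℤ → ℤ → ℝ := fun k => f k t

/-- everything holds at all translates -/
def OK (f : ℤ → Environment → ℤ → ℝ) (t : Environment) : Prop :=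
  (∀ z, Fam (A.shift z t) (fam f (A.shift z t))) ∧
    ∀ (w z : ℤ × ℤ) (k : ℤ),
      ∃ C, ∀ x, f k (A.shift z (A.shift w t)) x = f (k + z.2) (A.shift w t) (x + z.1) + C

variable {f : ℤ → Environment → ℤ → ℝ} {t : Environment}

theorem OK.fam (h : OK f t) : Fam t (fam f t) := by
  have := h.1 0
  rwa [A.shift_zero] at this

theorem OK.shift (h : OK f t) (z : ℤ × ℤ) : OK f (A.shift z t) := by
  refine ⟨fun w => ?_, fun w z' k => ?_⟩
  · rw [A.shift_shift]
    exact h.1 _
  · rw [A.shift_shift w z]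
    exact h.2 _ z' k

theorem OK.cov (h : OK f t) (z : ℤ × ℤ) (k : ℤ) :
    ∃ C, ∀ x, f k (A.shift z t) x = f (k + z.2) t (x + z.1) + C := by
  have := h.2 0 z k
  rwa [A.shift_zero] at this

theorem OK.Phi_shift (ok : OK f t) (z : ℤ × ℤ) {k h : ℤ} (hkh : k < h) : ∃ C, ∀ x w,
    Phi (A.shift z t) k h (f h (A.shift z t)) (x, k) w =
      Phi t (k + z.2) (h + z.2) (f (h + z.2) t) (x + z.1, k + z.2) (w + z.1) + C := by
  obtain ⟨C, hC⟩ := ok.cov z h
  refine ⟨C, fun x w => ?_⟩
  unfold Phi Vt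
  rw [pt_shift_gH ok.fam.nonneg z (by simp) (by simp only; omega), hC w]
  have e1 : ((w, h - 1) + z : ℤ × ℤ) = (w + z.1, h + z.2 - 1) :=
    Prod.ext (by simp) (by simp; ring)
  have e2 : ((x, k) + z : ℤ × ℤ) = (x + z.1, k + z.2) := Prod.ext (by simp) (by simp)
  have e3 : A.shift z t s((w, h - 1), (w, h)) =
      t s((w + z.1, h + z.2 - 1), (w + z.1, h + z.2)) := by
    rw [A.shift_apply, A.eShift_mk, e1]
    congr 2
  rw [e1, e2, e3]
  ring

theorem OK.Opt_shift (ok : OK f t) (z : ℤ × ℤ) {k h : ℤ} (hkh : k < h) (x w : ℤ) :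
    Opt (A.shift z t) k h (f h (A.shift z t)) (x, k) w ↔
      Opt t (k + z.2) (h + z.2) (f (h + z.2) t) (x + z.1, k + z.2) (w + z.1) := by
  obtain ⟨C, hC⟩ := ok.Phi_shift z hkh
  unfold Opt
  constructor
  · intro H w'
    have := H (w' - z.1)
    rw [hC, hC, sub_add_cancel] at this
    linarith
  · intro H w'
    rw [hC, hC]
    have := H (w' + z.1)
    linarith

theorem OK.W_shift (ok : OK f t) (z : ℤ × ℤ) {k h : ℤ} (hkh : k < h) (x : ℤ) :
    W (A.shift z t) (D624.fam f (A.shift z t)) k h x + z.1 =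
      W t (D624.fam f t) (k + z.2) (h + z.2) (x + z.1) := by
  have h1 := (ok.1 z).W_spec hkh x
  have h2 := (ok.Opt_shift z hkh x _).1 h1
  exact ok.fam.W_eq (by omega) h2

theorem OK.Sim_shift (ok : OK f t) (z : ℤ × ℤ) {k : ℤ} (x y : ℤ) :
    Sim (A.shift z t) (D624.fam f (A.shift z t)) k x y ↔
      Sim t (D624.fam f t) (k + z.2) (x + z.1) (y + z.1) := by
  constructor
  · rintro ⟨N, hN, h⟩
    refine ⟨N + z.2, by omega, ?_⟩
    rw [← ok.W_shift z hN, ← ok.W_shift z hN, h]
  · rintro ⟨N, hN, h⟩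
    have hN' : k < N - z.2 := by omega
    refine ⟨N - z.2, hN', ?_⟩
    have h1 := ok.W_shift z hN' x
    have h2 := ok.W_shift z hN' y
    rw [sub_add_cancel] at h1 h2
    rw [← h1, ← h2] at h
    exact add_right_cancel h

end covariance

variable {G : Measure ℝ} [IsProbabilityMeasure G] {f : ℤ → Environment → ℤ → ℝ}

theorem ae_shift {P : Environment → Prop} (h : ∀ᵐ t ∂(iidLaw G), P t) :
    ∀ᵐ t ∂(iidLaw G), ∀ z, P (A.shift z t) := by
  rw [ae_all_iff]
  exact fun z => (A.mp_shift G z).quasiMeasurePreserving.ae h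

theorem HL.ae_ok (h0 : G (Set.Iio 0) = 0) (hat : ∀ x, G {x} = 0) (H : HL G f) :
    ∀ᵐ t ∂(iidLaw G), OK f t := by
  filter_upwards [ae_shift (H.ae_fam h0 hat), ae_shift H.cov] with t h1 h2
  exact ⟨h1, fun w z k => h2 w z k⟩

section measurability

theorem measurable_pt_gH {k : ℤ} {x : ℤ × ℤ} (hx : k ≤ x.2) (y : ℤ × ℤ) :
    Measurable fun t : Environment => pt (gH k) t x y := by
  have : (fun t : Environment => pt (gH k) t x y) = fun t => K.pR t (Hp k) x y := by
    funext t
    exact (pR_eq_pt (R := Hp k) hx t).symm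
  rw [this]
  exact K.measurable_pR _ _ _

omit [IsProbabilityMeasure G] in
theorem HL.measurable_Phi (H : HL G f) {k h : ℤ} {z : ℤ × ℤ} (hz : k ≤ z.2) (w : ℤ) :
    Measurable fun t : Environment => Phi t k h (f h t) z w := by
  unfold Phi Vt
  exact ((measurable_pt_gH hz _).add (measurable_pi_apply _)).add (H.meas h w)

omit [IsProbabilityMeasure G] in
theorem HL.measurableSet_Opt (H : HL G f) {k h : ℤ} {z : ℤ × ℤ} (hz : k ≤ z.2) (w : ℤ) :
    MeasurableSet {t : Environment | Opt t k h (f h t) z w} := by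
  have : {t : Environment | Opt t k h (f h t) z w} =
      ⋂ w' : ℤ, {t | Phi t k h (f h t) z w ≤ Phi t k h (f h t) z w'} := by
    ext t
    simp [Opt]
  rw [this]
  exact MeasurableSet.iInter fun w' =>
    measurableSet_le (H.measurable_Phi hz w) (H.measurable_Phi hz w')

theorem HL.nm_W (h0 : G (Set.Iio 0) = 0) (hat : ∀ x, G {x} = 0) (H : HL G f) {k h : ℤ}
    (hkh : k < h) (x w : ℤ) :
    NullMeasurableSet {t : Environment | W t (fam f t) k h x = w} (iidLaw G) := by
  refine (H.measurableSet_Opt (k := k) (h := h) (z := (x, k)) le_rfl w).nullMeasurableSet.congr ?_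
  filter_upwards [H.ae_ok h0 hat] with t ht
  apply propext
  constructor
  · intro h1
    exact (ht.fam.W_eq hkh h1).symm
  · rintro h1
    have h2 := ht.fam.W_spec hkh x
    have h1' : W t (fam f t) k h x = w := h1
    rw [h1'] at h2
    exact h2

theorem HL.nm_Sim (h0 : G (Set.Iio 0) = 0) (hat : ∀ x, G {x} = 0) (H : HL G f) (k x y : ℤ) :
    NullMeasurableSet {t : Environment | Sim t (fam f t) k x y} (iidLaw G) := by
  have : {t : Environment | Sim t (fam f t) k x y} =
      ⋃ N : {N : ℤ // k < N}, ⋃ w : ℤ, {t | W t (fam f t) k N x = w} ∩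
        {t | W t (fam f t) k N y = w} := by
    ext t
    simp only [Sim, Set.mem_iUnion, Set.mem_inter_iff, Set.mem_ofPred_eq]
    constructor
    · rintro ⟨N, hN, h⟩
      exact ⟨⟨N, hN⟩, _, h, rfl⟩
    · rintro ⟨⟨N, hN⟩, w, h1, h2⟩
      exact ⟨N, hN, h1.trans h2.symm⟩
  rw [this]
  exact NullMeasurableSet.iUnion fun N => NullMeasurableSet.iUnion fun w =>
    (H.nm_W h0 hat N.2 x w).inter (H.nm_W h0 hat N.2 y w)

end measurability

/-- Recurrence under horizontal translations, to the right. -/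
theorem ae_recurrent {S : Set Environment} (hS : NullMeasurableSet S (iidLaw G))
    (hpos : iidLaw G S ≠ 0) {z : ℤ × ℤ} (hz : z ≠ 0) :
    ∀ᵐ t ∂(iidLaw G), ∃ᶠ n : ℕ in atTop, A.shift (n • z) t ∈ S := by
  set B : Set Environment := {t | ∃ᶠ n : ℕ in atTop, A.shift (n • z) t ∈ S} with hB
  have hBnm : NullMeasurableSet B (iidLaw G) := by
    have : B = ⋂ N : ℕ, ⋃ n : {n : ℕ // N ≤ n}, A.shift ((n : ℕ) • z) ⁻¹' S := by
      ext t
      simp only [hB, Filter.frequently_atTop, Set.mem_ofPred_eq, Set.mem_iInter,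
        Set.mem_iUnion, Set.mem_preimage]
      constructor
      · intro h N
        obtain ⟨n, hn, h1⟩ := h N
        exact ⟨⟨n, hn⟩, h1⟩
      · intro h N
        obtain ⟨⟨n, hn⟩, h1⟩ := h N
        exact ⟨n, hn, h1⟩
    rw [this]
    exact NullMeasurableSet.iInter fun N => NullMeasurableSet.iUnion fun n =>
      hS.preimage (A.mp_shift G _).quasiMeasurePreserving
  have hinv : A.shift z ⁻¹' B = B := by
    ext t
    simp only [hB, Set.mem_preimage, Set.mem_ofPred_eq]
    have : ∀ n : ℕ, A.shift (n • z) (A.shift z t) = A.shift ((n + 1) • z) t := by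
      intro n
      rw [A.shift_shift, succ_nsmul]
    simp only [this]
    rw [Filter.frequently_atTop, Filter.frequently_atTop]
    constructor
    · intro h N
      obtain ⟨n, hn, h1⟩ := h N
      exact ⟨n + 1, by omega, h1⟩
    · intro h N
      obtain ⟨n, hn, h1⟩ := h (N + 1)
      refine ⟨n - 1, by omega, ?_⟩
      rwa [show n - 1 + 1 = n by omega]
  have hit : ∀ n : ℕ, (A.shift z)^[n] = A.shift (n • z) := by
    intro n
    induction n with
    | zero => funext t; simp [A.shift_zero]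
    | succ n ih =>
      funext t
      rw [Function.iterate_succ_apply, ih, A.shift_shift, succ_nsmul]
  have hcons := (A.mp_shift G z).conservative.ae_mem_imp_frequently_image_mem hS
  have hBpos : iidLaw G B ≠ 0 := by
    intro h
    apply hpos
    rw [measure_eq_zero_iff_ae_notMem] at h ⊢
    filter_upwards [h, hcons] with t h1 h2 h3
    apply h1
    have := h2 h3
    simp only [hit] at this
    exact this
  rcases zero_or_one_shift₀ hz hBnm (Filter.EventuallyEq.of_eq hinv) with h | h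
  · exact absurd h hBpos
  · have : ∀ᵐ t ∂(iidLaw G), t ∈ B :=
      (mem_ae_iff_prob_eq_one₀ hBnm).2 h
    exact this

end Crest.Agent.R151.D624
end

-- ▼ part R151/D624f
section

/-!
# R151, D624f: every class is hit by the flow from below (mass transport)
-/

set_option autoImplicit false

open MeasureTheory Filter Topology ProbabilityTheory
open Crest.ProbabilityR.FirstPassage
open scoped ENNReal

namespace Crest.Agent.R151.D624

variable {G : Measure ℝ} [IsProbabilityMeasure G] {f : ℤ → Environment → ℤ → ℝ}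

/-- the event that `0` is a class boundary on the line `y = k` -/
def Bd (f : ℤ → Environment → ℤ → ℝ) (k : ℤ) : Set Environment :=
  {t | ¬ Sim t (fam f t) k 0 1}

/-- `x` is a class boundary, and the class of its image has right end `y` -/
def Ev (f : ℤ → Environment → ℤ → ℝ) (k h x y : ℤ) : Set Environment :=
  {t | ¬ Sim t (fam f t) k x (x + 1) ∧ Sim t (fam f t) h (W t (fam f t) k h x) y ∧
    ¬ Sim t (fam f t) h y (y + 1)}

namespace HL

theorem nm_Bd (h0 : G (Set.Iio 0) = 0) (hat : ∀ x, G {x} = 0) (H : HL G f) (k : ℤ) :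
    NullMeasurableSet (Bd f k) (iidLaw G) := (H.nm_Sim h0 hat k 0 1).compl

theorem nm_Ev (h0 : G (Set.Iio 0) = 0) (hat : ∀ x, G {x} = 0) (H : HL G f) {k h : ℤ}
    (hkh : k < h) (x y : ℤ) : NullMeasurableSet (Ev f k h x y) (iidLaw G) := by
  have : Ev f k h x y = {t | Sim t (fam f t) k x (x + 1)}ᶜ ∩
      ((⋃ w : ℤ, {t | W t (fam f t) k h x = w} ∩ {t | Sim t (fam f t) h w y}) ∩
        {t | Sim t (fam f t) h y (y + 1)}ᶜ) := by
    ext t
    simp only [Ev, Set.mem_inter_iff, Set.mem_compl_iff, Set.mem_ofPred_eq, Set.mem_iUnion]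
    constructor
    · rintro ⟨h1, h2, h3⟩
      exact ⟨h1, ⟨_, rfl, h2⟩, h3⟩
    · rintro ⟨h1, ⟨w, hw, h2⟩, h3⟩
      exact ⟨h1, by rwa [hw], h3⟩
  rw [this]
  exact (H.nm_Sim h0 hat _ _ _).compl.inter
    ((NullMeasurableSet.iUnion fun w => (H.nm_W h0 hat hkh x w).inter
      (H.nm_Sim h0 hat _ _ _)).inter (H.nm_Sim h0 hat _ _ _).compl)

/-- the density of class boundaries does not depend on the level -/
theorem measure_Bd (h0 : G (Set.Iio 0) = 0) (hat : ∀ x, G {x} = 0) (H : HL G f) (k h : ℤ) :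
    iidLaw G (Bd f h) = iidLaw G (Bd f k) := by
  rw [← (A.mp_shift G (0, h - k)).measure_preimage (H.nm_Bd h0 hat k)]
  apply measure_congr
  filter_upwards [H.ae_ok h0 hat] with t ht
  apply propext
  show ¬ _ ↔ ¬ _
  rw [ht.Sim_shift (0, h - k)]
  simp

theorem measure_Ev (h0 : G (Set.Iio 0) = 0) (hat : ∀ x, G {x} = 0) (H : HL G f) {k h : ℤ}
    (hkh : k < h) (x y m : ℤ) :
    iidLaw G (Ev f k h (x + m) (y + m)) = iidLaw G (Ev f k h x y) := by
  rw [← (A.mp_shift G (m, 0)).measure_preimage (H.nm_Ev h0 hat hkh x y)]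
  apply measure_congr
  filter_upwards [H.ae_ok h0 hat] with t ht
  apply propext
  show (_ ∧ _ ∧ _) ↔ (_ ∧ _ ∧ _)
  rw [ht.Sim_shift (m, 0), ht.Sim_shift (m, 0), ht.Sim_shift (m, 0), ht.W_shift (m, 0) hkh]
  simp only [add_zero]
  rw [add_right_comm x 1 m, add_right_comm y 1 m]

theorem ae_unb (h0 : G (Set.Iio 0) = 0) (hat : ∀ x, G {x} = 0) (H : HL G f)
    (hpos : iidLaw G (Bd f 0) ≠ 0) :
    ∀ᵐ t ∂(iidLaw G), ∀ h M : ℤ, ∃ b, M ≤ b ∧ ¬ Sim t (fam f t) h b (b + 1) := by
  rw [ae_all_iff]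
  intro h
  have hz : ((1 : ℤ), (0 : ℤ)) ≠ 0 := by
    intro hc
    have := congrArg Prod.fst hc
    simp at this
  filter_upwards [H.ae_ok h0 hat, ae_recurrent (H.nm_Bd h0 hat h)
    (by rwa [H.measure_Bd h0 hat 0 h]) hz] with t ht hr M
  rw [Filter.frequently_atTop] at hr
  obtain ⟨n, hn, h1⟩ := hr M.toNat
  refine ⟨n, by omega, ?_⟩
  have h2 : ¬ Sim (A.shift (n • ((1 : ℤ), (0 : ℤ))) t) (fam f (A.shift (n • ((1 : ℤ), (0 : ℤ))) t))
      h 0 1 := h1
  rw [ht.Sim_shift] at h2
  have e1 : (n • ((1 : ℤ), (0 : ℤ))).1 = n := by simp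
  have e2 : (n • ((1 : ℤ), (0 : ℤ))).2 = 0 := by simp
  rw [e1, e2, add_zero, zero_add, add_comm 1 (n : ℤ)] at h2
  exact h2


/-- **Mass transport.** Every class is hit by the flow from below. -/
theorem ae_hit (h0 : G (Set.Iio 0) = 0) (hat : ∀ x, G {x} = 0) (H : HL G f)
    (hpos : iidLaw G (Bd f 0) ≠ 0) :
    ∀ᵐ t ∂(iidLaw G), ∀ k h : ℤ, k < h → ∀ y, ∃ x,
      Sim t (fam f t) h (W t (fam f t) k h x) y := by
  rw [ae_all_iff]
  intro k
  rw [ae_all_iff]
  intro h
  by_cases hkh : k < h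
  swap
  · exact Eventually.of_forall fun t hc => absurd hc hkh
  -- out of `0`
  have e1 : iidLaw G (⋃ y : ℤ, Ev f k h 0 y) = ∑' y : ℤ, iidLaw G (Ev f k h 0 y) := by
    refine measure_iUnion₀ ?_ fun y => H.nm_Ev h0 hat hkh 0 y
    intro y y' hyy
    show iidLaw G (Ev f k h 0 y ∩ Ev f k h 0 y') = 0
    rw [measure_eq_zero_iff_ae_notMem]
    filter_upwards [H.ae_ok h0 hat] with t ht
    rintro ⟨⟨-, h1, h2⟩, ⟨-, h1', h2'⟩⟩
    exact hyy (ht.fam.right_end_unique h1 h2 h1' h2')
  have e2 : iidLaw G (⋃ y : ℤ, Ev f k h 0 y) = iidLaw G (Bd f k) := by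
    apply measure_congr
    filter_upwards [H.ae_ok h0 hat, H.ae_unb h0 hat hpos] with t ht hu
    apply propext
    show t ∈ (⋃ y : ℤ, Ev f k h 0 y) ↔ t ∈ Bd f k
    rw [Set.mem_iUnion]
    constructor
    · rintro ⟨y, h1, -, -⟩
      rwa [zero_add] at h1
    · intro h1
      obtain ⟨b, hb1, hb2⟩ := hu h (W t (fam f t) k h 0)
      obtain ⟨y, -, -, h3, h4⟩ := ht.fam.exists_right_end hb1 hb2
      exact ⟨y, by rw [zero_add]; exact h1, h3, h4⟩
  -- into `0`
  have e3 : iidLaw G (⋃ x : ℤ, Ev f k h x 0) = ∑' x : ℤ, iidLaw G (Ev f k h x 0) := by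
    refine measure_iUnion₀ ?_ fun x => H.nm_Ev h0 hat hkh x 0
    intro x x' hxx
    show iidLaw G (Ev f k h x 0 ∩ Ev f k h x' 0) = 0
    rw [measure_eq_zero_iff_ae_notMem]
    filter_upwards [H.ae_ok h0 hat] with t ht
    rintro ⟨⟨a1, a2, -⟩, ⟨b1, b2, -⟩⟩
    have h1 := ht.fam.sim_trans a2 b2.symm
    rw [ht.fam.sim_W_iff hkh] at h1
    exact hxx (ht.fam.right_end_unique (Sim.refl _ _ _ _) a1 h1 b1)
  have e4 : ∑' y : ℤ, iidLaw G (Ev f k h 0 y) = ∑' x : ℤ, iidLaw G (Ev f k h x 0) := by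
    rw [← (Equiv.neg ℤ).tsum_eq (fun x => iidLaw G (Ev f k h x 0))]
    refine tsum_congr fun y => ?_
    have := H.measure_Ev h0 hat hkh 0 y (-y)
    rw [zero_add, add_neg_cancel] at this
    rw [← this]
    rfl
  have e5 : iidLaw G (⋃ x : ℤ, Ev f k h x 0) = iidLaw G (Bd f h) := by
    rw [e3, ← e4, ← e1, e2, H.measure_Bd h0 hat h k]
  have sub : (⋃ x : ℤ, Ev f k h x 0) ⊆ Bd f h := by
    intro t ht
    rw [Set.mem_iUnion] at ht
    obtain ⟨x, -, -, h3⟩ := ht
    rwa [zero_add] at h3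
  have e6 : (⋃ x : ℤ, Ev f k h x 0) =ᵐ[iidLaw G] Bd f h :=
    ae_eq_of_subset_of_measure_ge sub e5.ge
      (NullMeasurableSet.iUnion fun x => H.nm_Ev h0 hat hkh x 0) (measure_ne_top _ _)
  have e7 : ∀ᵐ t ∂(iidLaw G), t ∈ Bd f h → ∃ x, Sim t (fam f t) h (W t (fam f t) k h x) 0 := by
    filter_upwards [e6] with t ht hb
    have ht' : (t ∈ ⋃ x : ℤ, Ev f k h x 0) = (t ∈ Bd f h) := ht
    rw [← ht', Set.mem_iUnion] at hb
    obtain ⟨x, -, h2, -⟩ := hb
    exact ⟨x, h2⟩
  filter_upwards [H.ae_ok h0 hat, H.ae_unb h0 hat hpos, ae_shift e7] with t ht hu h7 _ y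
  obtain ⟨b, hb1, hb2⟩ := hu h y
  obtain ⟨y', -, -, h3, h4⟩ := ht.fam.exists_right_end hb1 hb2
  have h5 : A.shift (y', 0) t ∈ Bd f h := by
    show ¬ _
    rw [ht.Sim_shift (y', 0)]
    simp only [add_zero, zero_add]
    rwa [add_comm 1 y']
  obtain ⟨x, hx⟩ := h7 (y', 0) h5
  rw [ht.Sim_shift (y', 0), ht.W_shift (y', 0) hkh] at hx
  simp only [add_zero, zero_add] at hx
  exact ⟨_, ht.fam.sim_trans hx h3.symm⟩

end HL

end Crest.Agent.R151.D624
end

-- ▼ part R151/D624g

/-!
# R151, D624g: coalescence of the flow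

Main result `HL.ae_sim` : under the hypotheses `HL G f`, almost surely any two points of any
horizontal line coalesce.
-/

set_option autoImplicit false

open MeasureTheory Filter Topology ProbabilityTheory
open Crest.ProbabilityR.FirstPassage
open scoped ENNReal

namespace Crest.Agent.R151.D624

theorem height_le_length {k : ℤ} : ∀ {x y : ℤ × ℤ} (q : (gH k).Walk x y),
    y.2 - x.2 ≤ q.length
  | _, _, .nil => by simp
  | x, y, .cons (v := v) a q => by
      have h1 := height_le_length q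
      have h2 := lat_adj.1 (reg_adj.1 a).1
      rw [SimpleGraph.Walk.length_cons]
      push_cast
      rcases h2 with h2 | h2 <;> omega

theorem exists_height (l : List (ℤ × ℤ)) : ∃ M : ℤ, ∀ v ∈ l, v.2 ≤ M := by
  induction l with
  | nil => exact ⟨0, by simp⟩
  | cons a l ih =>
    obtain ⟨M, hM⟩ := ih
    refine ⟨max a.2 M, fun v hv => ?_⟩
    rw [List.mem_cons] at hv
    rcases hv with rfl | hv
    · exact le_max_left _ _
    · exact (hM v hv).trans (le_max_right _ _)

theorem exists_bound (φ : ℤ → ℝ) (a b : ℤ) : ∃ J : ℝ, ∀ x, a ≤ x → x ≤ b → φ x ≤ J := by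
  obtain ⟨J, hJ⟩ := ((Set.finite_Icc a b).image φ).bddAbove
  exact ⟨J, fun x h1 h2 => hJ ⟨x, ⟨h1, h2⟩, rfl⟩⟩

/-- Paths from `(0,0)` of length at least `n` have many high edges. -/
def Many (a b c : ℝ) (n : ℕ) (t : Environment) : Prop :=
  a < b ∧ 0 < c ∧ ∀ (y : ℤ × ℤ) (w : squareLattice.Walk (0, 0) y), w.edges.Nodup →
    n ≤ w.length → c * n ≤ ((w.edges.toFinset.filter fun e => b ≤ t e).card : ℝ)

open Classical in
/-- the deterministic step: choice of the edges to be lowered -/
theorem exists_cut {f : ℤ → Environment → ℤ → ℝ}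
    (dep : ∀ k t t', (∀ e ∈ K.edgesIn (Hp k), t e = t' e) → f k t = f k t')
    {t : Environment} (F : Fam t (fam f t)) (h01 : ¬ Sim t (fam f t) 0 0 1)
    (hub : ∃ b, 1 ≤ b ∧ ¬ Sim t (fam f t) 0 b (b + 1)) {a b c : ℝ} (hab : a < b) (hc : 0 < c)
    (hmany : ∀ᶠ n : ℕ in atTop, Many a b c n t) :
    ∃ A : Finset (Sym2 (ℤ × ℤ)), ∀ t' : Environment, (∀ e, e ∉ A → t' e = t e) →
      (∀ e ∈ A, t' e < a) → Fam t' (fam f t') →
      ∃ H : ℤ, 0 < H ∧ ∃ y, ∀ x, ¬ Sim t' (fam f t') H (W t' (fam f t') 0 H x) y := by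
  obtain ⟨b0, hb0, hb0'⟩ := hub
  -- the class of `1`
  have hclass : ∀ x, Sim t (fam f t) 0 1 x → 1 ≤ x ∧ x ≤ b0 := by
    intro x hx
    constructor
    · by_contra hcon
      have h1 := F.sim_of_between (y := 0) (by omega) (by omega) hx.symm
      exact h01 (F.sim_trans h1.symm hx.symm)
    · by_contra hcon
      have h1 := F.sim_of_between (y := b0) (by omega) (by omega) hx
      have h2 := F.sim_of_between (y := b0 + 1) (by omega) (by omega) hx
      exact hb0' (F.sim_trans h1.symm h2)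
  obtain ⟨J, hJ⟩ := exists_bound
    (fun x => pt (gH 0) t (x, 0) (0, 0) + f 0 t 0 - f 0 t x) 1 b0
  -- the length
  obtain ⟨N, hN⟩ := exists_nat_gt (J / ((b - a) * c))
  obtain ⟨n, hn, hnN⟩ := (hmany.and (eventually_ge_atTop (max N 1))).exists
  have hn1 : 1 ≤ n := (le_max_right N 1).trans hnN
  have hnJ : J < (b - a) * (c * n) := by
    have h1 : J / ((b - a) * c) < n :=
      hN.trans_le (by exact_mod_cast (le_max_left N 1).trans hnN)
    rw [div_lt_iff₀ (by have := sub_pos.2 hab; positivity)] at h1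
    linarith
  obtain ⟨-, -, hmanyn⟩ := hn
  set h : ℤ := n + 1 with hh
  have hh0 : (0 : ℤ) < h := by omega
  obtain ⟨π, hπp, hπ⟩ := F.nice.geo 0 (0, 0) (W t (fam f t) 0 h 0, h - 1)
    (gH_reachable le_rfl (by simp only; omega))
  have hlen : n ≤ π.length := by
    have := height_le_length π
    simp only at this
    omega
  have hcard := hmanyn _ (π.mapLe (gH_le 0))
    (by rw [SimpleGraph.Walk.edges_mapLe_eq_edges]; exact hπp.isTrail.edges_nodup)
    (by simpa using hlen)
  rw [SimpleGraph.Walk.edges_mapLe_eq_edges] at hcard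
  set A : Finset (Sym2 (ℤ × ℤ)) := π.edges.toFinset.filter fun e => b ≤ t e with hA
  have hcard' : c * n ≤ (A.card : ℝ) := by
    convert hcard
  obtain ⟨M, hM⟩ := exists_height π.support
  set H : ℤ := max M h + 1 with hH
  have hhH : h < H := by have := le_max_right M h; omega
  have hMH : M < H := by have := le_max_left M h; omega
  refine ⟨A, fun t' hoff hlow F' => ?_⟩
  obtain ⟨γ, -, hγ⟩ := F.nice.geo h (W t (fam f t) 0 h 0, h) (W t (fam f t) 0 H 0, H - 1)
    (gH_reachable le_rfl (by simp only; omega))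
  have hω := F.isGeo_cat hh0 hhH hπ hγ
  have hle : ∀ e, t' e ≤ t e := by
    intro e
    by_cases he : e ∈ A
    · have h1 := (Finset.mem_filter.1 he).2
      have h2 := hlow e he
      linarith
    · exact (hoff e he).le
  have hAbel : ∀ e ∈ A, ∀ z ∈ e, z.2 < H := by
    intro e he z hz
    have h1 : e ∈ π.edges := List.mem_toFinset.1 (Finset.mem_filter.1 he).1
    exact (hM z (mem_of_mem_edge π h1 hz)).trans_lt hMH
  have hf : ∀ h', H ≤ h' → fam f t h' = fam f t' h' := by
    intro h' hh'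
    refine dep h' t t' fun e he => (hoff e fun heA => ?_).symm
    induction e with
    | _ u v =>
      have h1 := hAbel _ heA u (Sym2.mem_mk_left _ _)
      have h2 := (K.mem_edgesIn.1 he).1
      rw [mem_Hp] at h2
      omega
  refine ⟨H, by omega, W t (fam f t) 0 H 1, ?_⟩
  refine lowering F F' (A := (A : Set (Sym2 (ℤ × ℤ)))) (by omega) hf hle
    (fun e he => hoff e (by simpa using he)) (fun e he => hAbel e (by simpa using he)) hω
    (fun e he => ?_) h01 (fun x hx => ?_)
  · have h1 : e ∈ π.edges := List.mem_toFinset.1 (Finset.mem_filter.1 (Finset.mem_coe.1 he)).1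
    unfold Fam.cat
    rw [SimpleGraph.Walk.edges_append]
    exact List.mem_append_left _ h1
  · obtain ⟨h1, h2⟩ := hclass x hx
    have h3 := hJ x h1 h2
    rw [Fam.wcost_cat, Fam.wcost_cat]
    have h4 : Vt t' (W t (fam f t) 0 h 0) h ≤ Vt t (W t (fam f t) 0 h 0) h := hle _
    have h5 : wcost t' γ ≤ wcost t γ := wcost_mono _ fun e _ => hle e
    have h6 : wcost t' π + (b - a) * A.card ≤ wcost t π := by
      have e1 : wcost t π = ∑ e ∈ π.edges.toFinset, t e := by
        convert wcost_eq_sum_toFinset (t := t) hπp.isTrail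
      have e2 : wcost t' π = ∑ e ∈ π.edges.toFinset, t' e := by
        convert wcost_eq_sum_toFinset (t := t') hπp.isTrail
      rw [e1, e2]
      have e3 : (b - a) * A.card = ∑ e ∈ π.edges.toFinset, if e ∈ A then b - a else 0 := by
        rw [← Finset.sum_filter, Finset.sum_const, nsmul_eq_mul, mul_comm]
        congr 2
        rw [hA]
        congr 1
        ext e
        simp only [Finset.mem_filter]
        tauto
      rw [e3, ← Finset.sum_add_distrib]
      refine Finset.sum_le_sum fun e _ => ?_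
      by_cases he : e ∈ A
      · rw [if_pos he]
        have g1 := (Finset.mem_filter.1 he).2
        have g2 := hlow e he
        linarith
      · rw [if_neg he, hoff e he, add_zero]
    have h7 : (b - a) * (c * n) ≤ (b - a) * A.card :=
      mul_le_mul_of_nonneg_left hcard' (by linarith)
    simp only [fam] at h3 ⊢
    linarith

variable {G : Measure ℝ} [IsProbabilityMeasure G] {f : ℤ → Environment → ℤ → ℝ}

theorem ae_many (h0 : G (Set.Iio 0) = 0) (hat : ∀ x, G {x} = 0) :
    ∃ a b c : ℝ, a < b ∧ 0 < c ∧ 0 < G (Set.Iio a) ∧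
      ∀ᵐ t ∂(iidLaw G), ∀ᶠ n : ℕ in atTop, Many a b c n t := by
  have : NullSingletonClass G := ⟨fun x => hat x⟩
  obtain ⟨a, b, c, hab, hc, hG, hB⟩ := V.exists_high (G := G) h0
  choose B hBm hBp hBt using fun n : ℕ => hB n (0, 0)
  refine ⟨a, b, c, hab, hc, ?_, ?_⟩
  · rw [Measure.real, ENNReal.toReal_pos_iff] at hG
    exact hG.1
  · have hsum : ∑' n : ℕ, (iidLaw G) (B n) ≠ ⊤ := by
      have h1 : ∀ n, (iidLaw G) (B n) ≤ ENNReal.ofReal ((1 / 2) ^ n) := by
        intro n
        rw [← ENNReal.ofReal_toReal (measure_ne_top (iidLaw G) (B n))]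
        exact ENNReal.ofReal_le_ofReal (hBp n)
      refine ne_top_of_le_ne_top ?_ (ENNReal.tsum_le_tsum h1)
      rw [← ENNReal.ofReal_tsum_of_nonneg (fun n => by positivity)
        (summable_geometric_of_lt_one (by norm_num) (by norm_num))]
      exact ENNReal.ofReal_ne_top
    filter_upwards [ae_eventually_notMem hsum] with t ht
    filter_upwards [ht] with n hn
    refine ⟨hab, hc, fun y w hw hlen => ?_⟩
    convert hBt n t hn y w hw hlen

/-- no class boundaries -/
theorem HL.measure_Bd_zero (h0 : G (Set.Iio 0) = 0) (hat : ∀ x, G {x} = 0) (H : HL G f) :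
    iidLaw G (Bd f 0) = 0 := by
  by_contra hpos
  obtain ⟨a, b, c, hab, hc, hG, hmany⟩ := ae_many (G := G) h0 hat
  have hP : ∀ᵐ t ∂(iidLaw G), Fam t (fam f t) ∧ ∀ k h : ℤ, k < h → ∀ y, ∃ x,
      Sim t (fam f t) h (W t (fam f t) k h x) y := by
    filter_upwards [H.ae_fam h0 hat, H.ae_hit h0 hat hpos] with t h1 h2
    exact ⟨h1, h2⟩
  have hlow : ∀ᵐ t ∂(iidLaw G), ∀ A : Finset (Sym2 (ℤ × ℤ)),
      ∃ t' : Environment, (∀ e, e ∉ A → t' e = t e) ∧ (∀ e ∈ A, t' e ∈ Set.Iio a) ∧
        (Fam t' (fam f t') ∧ ∀ k h : ℤ, k < h → ∀ y, ∃ x,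
          Sim t' (fam f t') h (W t' (fam f t') k h x) y) := by
    rw [ae_all_iff]
    exact fun A => ae_exists_lower (G := G) hG hP A
  apply hpos
  rw [measure_eq_zero_iff_ae_notMem]
  filter_upwards [H.ae_fam h0 hat, hlow, hmany, H.ae_unb h0 hat hpos] with t h1 h2 h3 h4 h5
  obtain ⟨A, hA⟩ := exists_cut H.dep h1 h5 (h4 0 1) hab hc h3
  obtain ⟨t', g1, g2, g3, g4⟩ := h2 A
  obtain ⟨H', hH', y, hy⟩ := hA t' g1 g2 g3
  obtain ⟨x, hx⟩ := g4 0 H' hH' y
  exact hy x hx

/-- **Coalescence.** Almost surely any two points of any line coalesce. -/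
theorem HL.ae_sim (h0 : G (Set.Iio 0) = 0) (hat : ∀ x, G {x} = 0) (H : HL G f) :
    ∀ᵐ t ∂(iidLaw G), ∀ k x y : ℤ, Sim t (fam f t) k x y := by
  have h1 := H.measure_Bd_zero h0 hat
  rw [measure_eq_zero_iff_ae_notMem] at h1
  filter_upwards [H.ae_ok h0 hat, ae_shift h1] with t ht hs k
  have step : ∀ x, Sim t (fam f t) k x (x + 1) := by
    intro x
    have h2 := hs (x, k)
    have h3 : Sim (A.shift (x, k) t) (fam f (A.shift (x, k) t)) 0 0 1 := by
      by_contra hcon
      exact h2 hcon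
    rw [ht.Sim_shift (x, k)] at h3
    simp only [zero_add] at h3
    rwa [add_comm 1 x] at h3
  have up : ∀ (n : ℕ) (x : ℤ), Sim t (fam f t) k x (x + n) := by
    intro n
    induction n with
    | zero => intro x; simpa using Sim.refl t (fam f t) k x
    | succ n ih =>
      intro x
      have := ht.fam.sim_trans (ih x) (step (x + n))
      push_cast
      rwa [← add_assoc]
  intro x y
  rcases le_total x y with hxy | hxy
  · have := up (y - x).toNat x
    rwa [show x + ((y - x).toNat : ℤ) = y by omega] at this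
  · have := up (x - y).toNat y
    rw [show y + ((x - y).toNat : ℤ) = x by omega] at this
    exact this.symm

end Crest.Agent.R151.D624
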