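import Mathlib
import Crest.Prelude.Def_PlanarFPP
import Crest.Agent.R151.K5

-- ▼ part R151/E39a
section

/-!
# R151, block E39a (helper39): resampling toolbox for product measures

`glue B s t` = the configuration `s` on `B`, `t` off `B`.
-/

set_option autoImplicit false
set_option linter.unusedSectionVars false

open MeasureTheory ProbabilityTheory Set Filter
open scoped ENNReal Topology

namespace Crest.Agent.R151.E39

variable {I X : Type*} [MeasurableSpace X]

/-- `s` on `B`, `t` off `B` -/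
noncomputable def glue (B : Set I) (s t : I → X) : I → X := by
  classical exact fun i => if i ∈ B then s i else t i

lemma glue_of_mem {B : Set I} {s t : I → X} {i : I} (h : i ∈ B) : glue B s t i = s i := by
  simp [glue, h]

lemma glue_of_notMem {B : Set I} {s t : I → X} {i : I} (h : i ∉ B) : glue B s t i = t i := by
  simp [glue, h]










@[fun_prop]
lemma measurable_glue (B : Set I) :
    Measurable (fun p : (I → X) × (I → X) => glue B p.1 p.2) := by
  refine measurable_pi_lambda _ fun i => ?_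
  by_cases h : i ∈ B
  · have : (fun p : (I → X) × (I → X) => glue B p.1 p.2 i) = fun p => p.1 i := by
      funext p; exact glue_of_mem h
    rw [this]
    exact (measurable_pi_apply i).comp measurable_fst
  · have : (fun p : (I → X) × (I → X) => glue B p.1 p.2 i) = fun p => p.2 i := by
      funext p; exact glue_of_notMem h
    rw [this]
    exact (measurable_pi_apply i).comp measurable_snd

lemma measurable_glue_left (B : Set I) (t : I → X) : Measurable (fun s : I → X => glue B s t) :=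
  (measurable_glue B).comp (measurable_id.prodMk measurable_const)


section Prob

variable (G : Measure X) [IsProbabilityMeasure G]

local notation "ℙ" => (Measure.infinitePi fun _ : I => G)

/-- resampling a set of coordinates preserves the product measure -/
lemma mp_glue (B : Set I) :
    MeasurePreserving (fun p : (I → X) × (I → X) => glue B p.1 p.2)
      ((Measure.infinitePi fun _ : I => G).prod (Measure.infinitePi fun _ : I => G))
      (Measure.infinitePi fun _ : I => G) := by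
  classical
  refine ⟨measurable_glue B, ?_⟩
  apply Measure.eq_infinitePi
  intro s t ht
  rw [Measure.map_apply (measurable_glue B) (MeasurableSet.pi s.countable_toSet fun i _ => ht i)]
  have : (fun p : (I → X) × (I → X) => glue B p.1 p.2) ⁻¹' (Set.pi s t) =
      (Set.pi (s.filter (· ∈ B)) t) ×ˢ (Set.pi (s.filter (· ∉ B)) t) := by
    ext ⟨x, u⟩
    simp only [mem_preimage, Set.mem_pi, SetLike.mem_coe, mem_prod, Finset.mem_filter]
    constructor
    · intro h
      refine ⟨fun i hi => ?_, fun i hi => ?_⟩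
      · have := h i hi.1
        rwa [glue_of_mem hi.2] at this
      · have := h i hi.1
        rwa [glue_of_notMem hi.2] at this
    · rintro ⟨h1, h2⟩ i hi
      by_cases hb : i ∈ B
      · rw [glue_of_mem hb]; exact h1 i ⟨hi, hb⟩
      · rw [glue_of_notMem hb]; exact h2 i ⟨hi, hb⟩
  rw [this, Measure.prod_prod, Measure.infinitePi_pi _ (fun i _ => ht i),
    Measure.infinitePi_pi _ (fun i _ => ht i), Finset.prod_filter_mul_prod_filter_not]

/-- integration of a function of the glued configuration -/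
lemma lintegral_glue (B : Set I) {F : (I → X) → ℝ≥0∞} (hF : Measurable F) :
    ∫⁻ t, F t ∂(Measure.infinitePi fun _ : I => G) =
      ∫⁻ t, ∫⁻ s, F (glue B s t) ∂(Measure.infinitePi fun _ : I => G)
        ∂(Measure.infinitePi fun _ : I => G) := by
  rw [← (mp_glue G B).lintegral_comp hF]
  rw [lintegral_prod_symm']
  exact hF.comp (measurable_glue B)




/-- **Modification inequality** (no measurability needed): if every configuration of `A`, modified
on `B` by any configuration of `g`, lies in `A'`, then `P(A) P(g) ≤ P(A')`. -/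
lemma modify (B : Set I) (A A' g : Set (I → X)) (h : ∀ t ∈ A, ∀ s ∈ g, glue B s t ∈ A') :
    (Measure.infinitePi fun _ : I => G) g * (Measure.infinitePi fun _ : I => G) A ≤
      (Measure.infinitePi fun _ : I => G) A' := by
  set P := (Measure.infinitePi fun _ : I => G)
  calc P g * P A = (P.prod P) (g ×ˢ A) := (Measure.prod_prod g A).symm
    _ ≤ (P.prod P) ((fun p : (I → X) × (I → X) => glue B p.1 p.2) ⁻¹' (toMeasurable P A')) := by
        refine measure_mono ?_
        rintro ⟨s, t⟩ ⟨hs, ht⟩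
        exact subset_toMeasurable P A' (h t ht s hs)
    _ = P (toMeasurable P A') := (mp_glue G B).measure_preimage
        (measurableSet_toMeasurable P A').nullMeasurableSet
    _ = P A' := measure_toMeasurable A'




/-- **Modification, conditional on the coordinates outside `L`**: `B x ⊆ L`; the set of positions
and the multiplicity bound may depend on the coordinates off `L` (fixed configuration `u`). -/
lemma modify_fix (L : Set I) (u : I → X) (B : Set I) (hBL : B ⊆ L) (A A' g : Set (I → X))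
    (h : ∀ t, glue L t u ∈ A → ∀ s ∈ g, glue B s (glue L t u) ∈ A') :
    (Measure.infinitePi fun _ : I => G) g *
      (Measure.infinitePi fun _ : I => G) {t | glue L t u ∈ A} ≤
      (Measure.infinitePi fun _ : I => G) {t | glue L t u ∈ A'} := by
  refine modify G B _ _ g fun t ht s hs => ?_
  have : glue L (glue B s t) u = glue B s (glue L t u) := by
    funext i
    by_cases hb : i ∈ B
    · rw [glue_of_mem (hBL hb), glue_of_mem hb, glue_of_mem hb]
    · by_cases hl : i ∈ L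
      · rw [glue_of_mem hl, glue_of_notMem hb, glue_of_notMem hb, glue_of_mem hl]
      · rw [glue_of_notMem hl, glue_of_notMem hb, glue_of_notMem hl]
  show glue L (glue B s t) u ∈ A'
  rw [this]
  exact h t ht s hs

/-- the probability that finitely many coordinates lie in prescribed sets -/
lemma prob_box (F : Finset I) (D : I → Set X) (hD : ∀ i ∈ F, MeasurableSet (D i)) :
    (Measure.infinitePi fun _ : I => G) {s | ∀ i ∈ F, s i ∈ D i} = ∏ i ∈ F, G (D i) := by
  have : {s : I → X | ∀ i ∈ F, s i ∈ D i} = Set.pi F D := by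
    ext s; simp [Set.mem_pi]
  rw [this, Measure.infinitePi_pi _ hD]



end Prob

end Crest.Agent.R151.E39
end

-- ▼ part R151/E39c

/-!
# R151, block E39c (helper39): LOCAL FINITE ENERGY, strip form, deterministic part

The strip `|y| ≤ k`; labels are pairs `(f, h)`, `f` on the row `k+1`, `h` on the row `-(k+1)`.
-/

set_option autoImplicit false
set_option linter.unusedSectionVars false

open MeasureTheory ProbabilityTheory Set Filter
open scoped ENNReal Topology
open Crest.ProbabilityR.FirstPassage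
open Crest.Agent.R151.K

namespace Crest.Agent.R151.E39

/-! ## walks -/

/-- last edge of a walk in a set `M` -/
lemma exists_last_edge (M : Set (Sym2 (ℤ × ℤ))) (t : Environment) {x y : ℤ × ℤ}
    (w : squareLattice.Walk x y) (hM : ∃ e ∈ w.edges, e ∈ M) :
    ∃ (a b : ℤ × ℤ) (w1 : squareLattice.Walk x b) (w2 : squareLattice.Walk b y),
      s(a, b) ∈ M ∧ (∀ e ∈ w2.edges, e ∉ M) ∧ walkCost t w = walkCost t w1 + walkCost t w2 ∧
      (∀ t' : Environment, walkCost t' w = walkCost t' w1 + walkCost t' w2) := by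
  classical
  induction w with
  | nil => simp at hM
  | @cons u v z h p ih =>
    by_cases hp : ∃ e ∈ p.edges, e ∈ M
    · obtain ⟨a, b, w1, w2, h1, h2, h3, h4⟩ := ih hp
      refine ⟨a, b, SimpleGraph.Walk.cons h w1, w2, h1, h2, ?_, fun t' => ?_⟩
      · simp only [walkCost, SimpleGraph.Walk.edges_cons, List.map_cons, List.sum_cons] at h3 ⊢
        rw [h3]; ring
      · have := h4 t'
        simp only [walkCost, SimpleGraph.Walk.edges_cons, List.map_cons, List.sum_cons] at this ⊢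
        rw [this]; ring
    · have he : s(u, v) ∈ M := by
        obtain ⟨e, he, heM⟩ := hM
        rw [SimpleGraph.Walk.edges_cons, List.mem_cons] at he
        rcases he with rfl | he
        · exact heM
        · exact absurd ⟨e, he, heM⟩ hp
      refine ⟨u, v, SimpleGraph.Walk.cons h SimpleGraph.Walk.nil, p, he, ?_, ?_, fun t' => ?_⟩
      · intro e he' heM
        exact hp ⟨e, he', heM⟩
      · simp [walkCost]
      · simp [walkCost]

lemma walkCost_eq_sum (t : Environment) {x y : ℤ × ℤ} {w : squareLattice.Walk x y}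
    (hw : w.edges.Nodup) : walkCost t w = ∑ e ∈ w.edges.toFinset, t e := by
  unfold walkCost
  rw [List.sum_toFinset _ hw]

lemma walkCost_le_sum {t : Environment} (ht : Nn t) {x y : ℤ × ℤ} {w : squareLattice.Walk x y}
    (hw : w.edges.Nodup) {F : Finset (Sym2 (ℤ × ℤ))} (hF : ∀ e ∈ w.edges, e ∈ F) :
    walkCost t w ≤ ∑ e ∈ F, t e := by
  rw [walkCost_eq_sum t hw]
  refine Finset.sum_le_sum_of_subset_of_nonneg ?_ fun e _ _ => ht e
  intro e he
  exact hF e (List.mem_toFinset.1 he)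

/-- a walk avoiding the modified edges has the same cost -/
lemma walkCost_congr_off {t t' : Environment} {E : Finset (Sym2 (ℤ × ℤ))}
    (hoff : ∀ e, e ∉ E → t' e = t e) {x y : ℤ × ℤ} (w : squareLattice.Walk x y)
    (hw : ∀ e ∈ w.edges, e ∉ E) : walkCost t' w = walkCost t w := by
  unfold walkCost
  congr 1
  refine List.map_congr_left fun e he => hoff e (hw e he)

/-- a slight increase on the modified edges -/
lemma walkCost_le_add {t t' : Environment} {E : Finset (Sym2 (ℤ × ℤ))} {δ : ℝ} (hδ : 0 ≤ δ)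
    (hoff : ∀ e, e ∉ E → t' e = t e) (hon : ∀ e ∈ E, t' e ≤ t e + δ) {x y : ℤ × ℤ}
    (w : squareLattice.Walk x y) (hw : w.edges.Nodup) :
    walkCost t' w ≤ walkCost t w + δ * E.card := by
  classical
  rw [walkCost_eq_sum t hw, walkCost_eq_sum t' hw]
  have h1 : ∀ e ∈ w.edges.toFinset, t' e ≤ t e + (if e ∈ E then δ else 0) := by
    intro e _
    by_cases he : e ∈ E
    · simpa [he] using hon e he
    · simp [he, hoff e he]
  refine (Finset.sum_le_sum h1).trans ?_
  rw [Finset.sum_add_distrib]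
  have h2 : ∑ e ∈ w.edges.toFinset, (if e ∈ E then δ else 0) ≤ δ * E.card := by
    rw [← Finset.sum_filter, Finset.sum_const, nsmul_eq_mul, mul_comm]
    refine mul_le_mul_of_nonneg_left ?_ hδ
    exact_mod_cast Finset.card_le_card fun e he => (Finset.mem_filter.1 he).2
  linarith

/-- the decrease is at most the old cost of the modified edges -/
lemma walkCost_ge_sub {t t' : Environment} {E : Finset (Sym2 (ℤ × ℤ))} (ht : Nn t) (ht' : Nn t')
    (hoff : ∀ e, e ∉ E → t' e = t e) {x y : ℤ × ℤ} (w : squareLattice.Walk x y)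
    (hw : w.edges.Nodup) : walkCost t w - ∑ e ∈ E, t e ≤ walkCost t' w := by
  classical
  rw [walkCost_eq_sum t hw, walkCost_eq_sum t' hw]
  have h1 : ∀ e ∈ w.edges.toFinset, t e - (if e ∈ E then t e else 0) ≤ t' e := by
    intro e _
    by_cases he : e ∈ E
    · simpa [he] using ht' e
    · simp [he, hoff e he]
  have h2 := Finset.sum_le_sum h1
  rw [Finset.sum_sub_distrib] at h2
  have h3 : ∑ e ∈ w.edges.toFinset, (if e ∈ E then t e else 0) ≤ ∑ e ∈ E, t e := by
    rw [← Finset.sum_filter]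
    refine Finset.sum_le_sum_of_subset_of_nonneg ?_ fun e _ _ => ht e
    intro e he
    exact (Finset.mem_filter.1 he).2
  linarith

lemma exists_path_lt {t : Environment} (ht : Nn t) {x y : ℤ × ℤ} {c : ℝ}
    (h : passageTime t x y < c) :
    ∃ w : squareLattice.Walk x y, w.edges.Nodup ∧ w.IsPath ∧ walkCost t w < c := by
  obtain ⟨w, hw⟩ := exists_walk_lt t x y h
  exact ⟨w.bypass, w.bypass_isPath.isTrail.edges_nodup, w.bypass_isPath,
    (walkCost_bypass_le ht w).trans_lt hw⟩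

/-- passage times drop by at most the cost of the modified edges -/
lemma pt_ge_sub {t t' : Environment} {E : Finset (Sym2 (ℤ × ℤ))} (ht : Nn t) (ht' : Nn t')
    (hoff : ∀ e, e ∉ E → t' e = t e) (x y : ℤ × ℤ) :
    passageTime t x y - ∑ e ∈ E, t e ≤ passageTime t' x y := by
  refine le_of_forall_pos_lt_add fun ε hε => ?_
  obtain ⟨w, hn, -, hw⟩ := exists_path_lt ht' (lt_add_of_pos_right (passageTime t' x y) hε)
  have h1 := walkCost_ge_sub ht ht' hoff w hn
  have h2 := pt_le ht w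
  linarith

/-! ## the functional -/

/-- the functional of a label `a = (f, h)` -/
noncomputable def Psi (k : ℕ) (a : (ℤ → ℝ) × (ℤ → ℝ)) (t : Environment) (z w : ℤ) : ℝ :=
  a.2 z + passageTime t (z, -((k : ℤ) + 1)) (w, (k : ℤ) + 1) + a.1 w

/-- `y` is a near tie (error `K`) of the label `a`, with end points at distance at most `D` -/
def NT (k D : ℕ) (K : ℝ) (a : (ℤ → ℝ) × (ℤ → ℝ)) (y : ℤ) (t : Environment) : Prop :=
  ∃ z w : ℤ, |z - y| ≤ D ∧ |w - y| ≤ D ∧ ∀ z' w' : ℤ,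
    a.2 z + passageTime t (z, -((k : ℤ) + 1)) (y, 0) + passageTime t (y, 0) (w, (k : ℤ) + 1)
      + a.1 w ≤ Psi k a t z' w' + K

/-! ## boxes -/

/-- the lattice edges with an end in `|y| ≤ k` -/
def strip (k : ℕ) : Set (Sym2 (ℤ × ℤ)) :=
  {e | ∃ a b : ℤ × ℤ, e = s(a, b) ∧ squareLattice.Adj a b ∧ |a.2| ≤ k}

/-- the edges of the strip with both ends in `[y-k, y+k] × [-k-1, k+1]` -/
noncomputable def boxE (k : ℕ) (y : ℤ) : Finset (Sym2 (ℤ × ℤ)) := by
  classical exact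
  ((Finset.Ico (y - k) (y + k)) ×ˢ (Finset.Icc (-(k : ℤ)) k)).image (fun p => eH p.1 p.2) ∪
  ((Finset.Icc (y - k) (y + k)) ×ˢ (Finset.Icc (-(k : ℤ) - 1) k)).image (fun p => eV p.1 p.2)

lemma mem_boxE {k : ℕ} {y : ℤ} {e : Sym2 (ℤ × ℤ)} :
    e ∈ boxE k y ↔ (∃ a b : ℤ, (y - k ≤ a ∧ a < y + k ∧ -(k : ℤ) ≤ b ∧ b ≤ k) ∧ e = eH a b) ∨
      (∃ a b : ℤ, (y - k ≤ a ∧ a ≤ y + k ∧ -(k : ℤ) - 1 ≤ b ∧ b ≤ k) ∧ e = eV a b) := by
  classical
  unfold boxE
  rw [Finset.mem_union, Finset.mem_image, Finset.mem_image]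
  constructor
  · rintro (⟨⟨a, b⟩, hp, rfl⟩ | ⟨⟨a, b⟩, hp, rfl⟩)
    · rw [Finset.mem_product, Finset.mem_Ico, Finset.mem_Icc] at hp
      exact Or.inl ⟨a, b, ⟨hp.1.1, hp.1.2, hp.2.1, hp.2.2⟩, rfl⟩
    · rw [Finset.mem_product, Finset.mem_Icc, Finset.mem_Icc] at hp
      exact Or.inr ⟨a, b, ⟨hp.1.1, hp.1.2, hp.2.1, hp.2.2⟩, rfl⟩
  · rintro (⟨a, b, h, rfl⟩ | ⟨a, b, h, rfl⟩)
    · left
      refine ⟨(a, b), ?_, rfl⟩
      rw [Finset.mem_product, Finset.mem_Ico, Finset.mem_Icc]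
      exact ⟨⟨h.1, h.2.1⟩, h.2.2.1, h.2.2.2⟩
    · right
      refine ⟨(a, b), ?_, rfl⟩
      rw [Finset.mem_product, Finset.mem_Icc, Finset.mem_Icc]
      exact ⟨⟨h.1, h.2.1⟩, h.2.2.1, h.2.2.2⟩

lemma card_boxE_le (k : ℕ) (y : ℤ) : (boxE k y).card ≤ 2 * (2 * k + 2) ^ 2 := by
  classical
  unfold boxE
  refine (Finset.card_union_le _ _).trans ?_
  refine (add_le_add Finset.card_image_le Finset.card_image_le).trans ?_
  rw [Finset.card_product, Finset.card_product, Int.card_Ico, Int.card_Icc, Int.card_Icc,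
    Int.card_Icc]
  have e1 : (y + k - (y - k)).toNat = 2 * k := by omega
  have e2 : ((k : ℤ) + 1 - -(k : ℤ)).toNat = 2 * k + 1 := by omega
  have e3 : (y + k + 1 - (y - k)).toNat = 2 * k + 1 := by omega
  have e4 : ((k : ℤ) + 1 - (-(k : ℤ) - 1)).toNat = 2 * k + 2 := by omega
  rw [e1, e2, e3, e4]
  nlinarith

lemma boxE_subset_strip (k : ℕ) (y : ℤ) : (↑(boxE k y) : Set (Sym2 (ℤ × ℤ))) ⊆ strip k := by
  intro e he
  rcases mem_boxE.1 (Finset.mem_coe.1 he) with ⟨a, b, h, rfl⟩ | ⟨a, b, h, rfl⟩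
  · exact ⟨(a, b), (a + 1, b), rfl, adj_right a b, abs_le.2 ⟨h.2.2.1, h.2.2.2⟩⟩
  · by_cases hb : -(k : ℤ) ≤ b
    · exact ⟨(a, b), (a, b + 1), rfl, adj_up a b, abs_le.2 ⟨hb, h.2.2.2⟩⟩
    · refine ⟨(a, b + 1), (a, b), Sym2.eq_swap, (adj_up a b).symm, ?_⟩
      rw [abs_le]
      constructor <;> simp only <;> omega

lemma adj_cases {u v : ℤ × ℤ} (h : squareLattice.Adj u v) :
    v = (u.1, u.2 + 1) ∨ u = (v.1, v.2 + 1) ∨ v = (u.1 + 1, u.2) ∨ u = (v.1 + 1, v.2) := by
  rw [squareLattice, SimpleGraph.fromRel_adj] at h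
  obtain ⟨-, (⟨h1, h2⟩ | ⟨h1, h2⟩) | (⟨h1, h2⟩ | ⟨h1, h2⟩)⟩ := h
  · left; ext <;> simp [h1, h2]
  · right; right; left; ext <;> simp [h1, h2]
  · right; left; ext <;> simp [h1, h2]
  · right; right; right; ext <;> simp [h1, h2]

lemma mem_boxE_of_adj {k : ℕ} {y : ℤ} {u v : ℤ × ℤ} (h : squareLattice.Adj u v)
    (hu : |u.1 - y| ≤ k) (hv : |v.1 - y| ≤ k) (hu2 : |u.2| ≤ k) (hv2 : |v.2| ≤ k) :
    s(u, v) ∈ boxE k y := by
  rw [abs_le] at hu hv hu2 hv2
  obtain ⟨u1, u2⟩ := u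
  obtain ⟨v1, v2⟩ := v
  simp only at hu hv hu2 hv2
  rw [mem_boxE]
  rcases adj_cases h with h | h | h | h <;> simp only [Prod.mk.injEq] at h <;>
    obtain ⟨h1, h2⟩ := h
  · right; subst h1 h2
    exact ⟨v1, u2, ⟨by omega, by omega, by omega, by omega⟩, rfl⟩
  · right; subst h1 h2
    exact ⟨u1, v2, ⟨by omega, by omega, by omega, by omega⟩, Sym2.eq_swap⟩
  · left; subst h1 h2
    exact ⟨u1, v2, ⟨by omega, by omega, by omega, by omega⟩, rfl⟩
  · left; subst h1 h2
    exact ⟨v1, u2, ⟨by omega, by omega, by omega, by omega⟩, Sym2.eq_swap⟩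

lemma boxE_rect {k : ℕ} {y : ℤ} {u v : ℤ × ℤ} (h : s(u, v) ∈ boxE k y) :
    |v.1 - y| ≤ k ∧ |v.2| ≤ (k : ℤ) + 1 := by
  rw [mem_boxE] at h
  obtain ⟨u1, u2⟩ := u
  obtain ⟨v1, v2⟩ := v
  rcases h with ⟨a, b, h, he⟩ | ⟨a, b, h, he⟩
  · simp only [eH, Sym2.eq_iff, Prod.mk.injEq] at he
    simp only [abs_le]
    omega
  · simp only [eV, Sym2.eq_iff, Prod.mk.injEq] at he
    simp only [abs_le]
    omega

/-- connectivity inside the box -/
def Rc (k : ℕ) (y : ℤ) (u v : ℤ × ℤ) : Prop :=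
  ∃ w : squareLattice.Walk u v, ∀ e ∈ w.edges, e ∈ boxE k y

lemma Rc.refl {k : ℕ} {y : ℤ} (u : ℤ × ℤ) : Rc k y u u := ⟨SimpleGraph.Walk.nil, by simp⟩

lemma Rc.trans {k : ℕ} {y : ℤ} {u v w : ℤ × ℤ} (h : Rc k y u v) (h' : Rc k y v w) :
    Rc k y u w := by
  obtain ⟨p, hp⟩ := h
  obtain ⟨q, hq⟩ := h'
  refine ⟨p.append q, fun e he => ?_⟩
  rw [SimpleGraph.Walk.edges_append, List.mem_append] at he
  exact he.elim (hp e) (hq e)

lemma Rc.symm {k : ℕ} {y : ℤ} {u v : ℤ × ℤ} (h : Rc k y u v) : Rc k y v u := by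
  obtain ⟨p, hp⟩ := h
  refine ⟨p.reverse, fun e he => ?_⟩
  rw [SimpleGraph.Walk.edges_reverse, List.mem_reverse] at he
  exact hp e he

lemma Rc.row {k : ℕ} {y : ℤ} {b : ℤ} (hb1 : -(k : ℤ) ≤ b) (hb2 : b ≤ k) (n : ℕ) :
    ∀ a : ℤ, y - k ≤ a → a + n ≤ y + k → Rc k y (a, b) (a + n, b) := by
  induction n with
  | zero => intro a _ _; simpa using Rc.refl (k := k) (y := y) (a, b)
  | succ n ih =>
    intro a h1 h2
    push_cast at h2
    refine (ih a h1 (by omega)).trans ?_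
    have h3 : squareLattice.Adj (a + n, b) (a + (n + 1 : ℕ), b) := by
      push_cast
      rw [← add_assoc]
      exact adj_right _ _
    refine ⟨SimpleGraph.Walk.cons h3 SimpleGraph.Walk.nil, fun e he => ?_⟩
    simp only [SimpleGraph.Walk.edges_cons, SimpleGraph.Walk.edges_nil, List.mem_cons,
      List.not_mem_nil, or_false] at he
    rw [he, mem_boxE]
    left
    refine ⟨a + n, b, ⟨by omega, by omega, hb1, hb2⟩, ?_⟩
    unfold eH
    push_cast
    rw [← add_assoc]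

lemma Rc.col {k : ℕ} {y : ℤ} {a : ℤ} (ha1 : y - k ≤ a) (ha2 : a ≤ y + k) (n : ℕ) :
    ∀ b : ℤ, -(k : ℤ) - 1 ≤ b → b + n ≤ k + 1 → Rc k y (a, b) (a, b + n) := by
  induction n with
  | zero => intro b _ _; simpa using Rc.refl (k := k) (y := y) (a, b)
  | succ n ih =>
    intro b h1 h2
    push_cast at h2
    refine (ih b h1 (by omega)).trans ?_
    have h3 : squareLattice.Adj (a, b + n) (a, b + (n + 1 : ℕ)) := by
      push_cast
      rw [← add_assoc]
      exact adj_up _ _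
    refine ⟨SimpleGraph.Walk.cons h3 SimpleGraph.Walk.nil, fun e he => ?_⟩
    simp only [SimpleGraph.Walk.edges_cons, SimpleGraph.Walk.edges_nil, List.mem_cons,
      List.not_mem_nil, or_false] at he
    rw [he, mem_boxE]
    right
    refine ⟨a, b + n, ⟨ha1, ha2, by omega, by omega⟩, ?_⟩
    unfold eV
    push_cast
    rw [← add_assoc]

lemma Rc.row' {k : ℕ} {y : ℤ} {b : ℤ} (hb1 : -(k : ℤ) ≤ b) (hb2 : b ≤ k) {a a' : ℤ}
    (ha : |a - y| ≤ k) (ha' : |a' - y| ≤ k) : Rc k y (a, b) (a', b) := by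
  rw [abs_le] at ha ha'
  rcases le_total a a' with h | h
  · have := Rc.row (k := k) (y := y) hb1 hb2 (a' - a).toNat a (by omega) (by omega)
    rwa [Int.toNat_of_nonneg (by omega), add_sub_cancel] at this
  · have := Rc.row (k := k) (y := y) hb1 hb2 (a - a').toNat a' (by omega) (by omega)
    rw [Int.toNat_of_nonneg (by omega), add_sub_cancel] at this
    exact this.symm

lemma Rc.col' {k : ℕ} {y : ℤ} {a : ℤ} (ha : |a - y| ≤ k) {b b' : ℤ}
    (hb : |b| ≤ (k : ℤ) + 1) (hb' : |b'| ≤ (k : ℤ) + 1) : Rc k y (a, b) (a, b') := by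
  rw [abs_le] at ha hb hb'
  rcases le_total b b' with h | h
  · have := Rc.col (k := k) (y := y) (a := a) (by omega) (by omega) (b' - b).toNat b (by omega)
      (by omega)
    rwa [Int.toNat_of_nonneg (by omega), add_sub_cancel] at this
  · have := Rc.col (k := k) (y := y) (a := a) (by omega) (by omega) (b - b').toNat b' (by omega)
      (by omega)
    rw [Int.toNat_of_nonneg (by omega), add_sub_cancel] at this
    exact this.symm

lemma rc_rect {k : ℕ} {y : ℤ} {b : ℤ × ℤ} (h1 : |b.1 - y| ≤ k) (h2 : |b.2| ≤ (k : ℤ) + 1) :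
    Rc k y b (y, (k : ℤ) + 1) := by
  obtain ⟨b1, b2⟩ := b
  have h0 : |(0 : ℤ)| ≤ (k : ℤ) + 1 := by simp; omega
  have hk : |(k : ℤ) + 1| ≤ (k : ℤ) + 1 := by rw [abs_of_nonneg (by omega)]
  have hy : |y - y| ≤ (k : ℤ) := by simp
  exact ((Rc.col' h1 h2 h0).trans (Rc.row' (by omega) (by omega) h1 hy)).trans (Rc.col' hy h0 hk)

/-- inside the box one can go from any vertex to `(y, k+1)` at cost at most the box sum -/
lemma exists_box_walk {k : ℕ} {y : ℤ} {b : ℤ × ℤ} (h1 : |b.1 - y| ≤ k)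
    (h2 : |b.2| ≤ (k : ℤ) + 1) : ∃ w : squareLattice.Walk b (y, (k : ℤ) + 1),
      w.edges.Nodup ∧ ∀ e ∈ w.edges, e ∈ boxE k y := by
  obtain ⟨w, hw⟩ := rc_rect h1 h2
  refine ⟨w.bypass, w.bypass_isPath.isTrail.edges_nodup, fun e he => hw e ?_⟩
  exact (SimpleGraph.Walk.edges_bypass_subset_edges w) he

/-- the first `k` steps from `(y, 0)` stay in the box -/
lemma edges_mem_box {k : ℕ} {y : ℤ} {v : ℤ × ℤ} (w : squareLattice.Walk (y, 0) v)
    (hw : w.length ≤ k) : ∀ e ∈ w.edges, e ∈ boxE k y := by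
  classical
  intro e he
  induction e using Sym2.ind with
  | _ a b =>
    have hadj : squareLattice.Adj a b := SimpleGraph.Walk.adj_of_mem_edges w he
    have key : ∀ c ∈ w.support, |c.1 - y| ≤ k ∧ |c.2| ≤ k := by
      intro c hc
      have h1 := n1_le_length (w.takeUntil c hc)
      have h2 := w.length_takeUntil_le_length hc
      unfold n1 at h1
      simp only [Prod.fst_sub, Prod.snd_sub, sub_zero] at h1
      constructor
      · rw [← Int.natCast_natAbs]; omega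
      · rw [← Int.natCast_natAbs]; omega
    have ha := key a (SimpleGraph.Walk.fst_mem_support_of_mem_edges w he)
    have hb := key b (SimpleGraph.Walk.snd_mem_support_of_mem_edges w he)
    exact mem_boxE_of_adj hadj ha.1 hb.1 ha.2 hb.2

/-! ## goodness, modification -/

/-- goodness of the abscissa `y` for the label set `L` (constants `C3`, `c`, `b`) -/
structure Good (k D : ℕ) (C3 c b : ℝ) (L : Set ((ℤ → ℝ) × (ℤ → ℝ))) (y : ℤ)
    (t : Environment) : Prop where
  g1 : ∀ a ∈ L, ∀ z : ℤ × ℤ, |z.1 - y| ≤ k → |z.2| ≤ (k : ℤ) + 1 → ∀ w : ℤ, (D : ℤ) < |w - y| →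
    a.1 y + ∑ e ∈ boxE k y, t e + (2 * C3 + 10) < passageTime t z (w, (k : ℤ) + 1) + a.1 w
  g2 : ∑ e ∈ boxE k y, t e ≤ C3
  g3 : ∀ (v : ℤ × ℤ) (w : squareLattice.Walk (y, 0) v), w.edges.Nodup → w.length = k →
    c * k ≤ ((w.edges.toFinset.filter fun e => b ≤ t e).card : ℝ)

/-- the modification: `t' = t` off the two boxes, `t' ≤ t + δ` and `t' ≤ a` on them -/
structure Modif (k : ℕ) (x1 x2 : ℤ) (a δ : ℝ) (t t' : Environment) : Prop where
  off : ∀ e, e ∉ boxE k x1 ∪ boxE k x2 → t' e = t e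
  on_le : ∀ e ∈ boxE k x1 ∪ boxE k x2, t' e ≤ t e + δ
  on_low : ∀ e ∈ boxE k x1 ∪ boxE k x2, t' e ≤ a
  δ_nonneg : 0 ≤ δ
  δ_small : δ * (boxE k x1 ∪ boxE k x2).card ≤ 1

variable {k D : ℕ} {x1 x2 : ℤ} {a b c δ C3 K : ℝ} {t t' : Environment}

lemma Modif.symm (hM : Modif k x1 x2 a δ t t') : Modif k x2 x1 a δ t t' := by
  obtain ⟨h1, h2, h3, h4, h5⟩ := hM
  rw [Finset.union_comm] at h1 h2 h3 h5
  exact ⟨h1, h2, h3, h4, h5⟩

lemma Modif.saving (hM : Modif k x1 x2 a δ t t') (hab : a < b) {v : ℤ × ℤ}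
    (w : squareLattice.Walk (x1, 0) v) (hn : w.edges.Nodup) (hlen : w.length = k)
    (hg : c * k ≤ ((w.edges.toFinset.filter fun e => b ≤ t e).card : ℝ)) :
    walkCost t' w ≤ walkCost t w - c * k * (b - a) + 1 := by
  classical
  have hE : ∀ e ∈ w.edges, e ∈ boxE k x1 ∪ boxE k x2 := fun e he =>
    Finset.mem_union_left _ (edges_mem_box w hlen.le e he)
  rw [walkCost_eq_sum t hn, walkCost_eq_sum t' hn]
  have h1 : ∀ e ∈ w.edges.toFinset, t' e ≤ t e + δ - (if b ≤ t e then b - a else 0) := by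
    intro e he
    have he' := hE e (List.mem_toFinset.1 he)
    by_cases hb : b ≤ t e
    · have := hM.on_low e he'
      have := hM.δ_nonneg
      simp only [hb, if_true]
      linarith
    · have := hM.on_le e he'
      simpa [hb] using this
  refine (Finset.sum_le_sum h1).trans ?_
  rw [Finset.sum_sub_distrib, Finset.sum_add_distrib, Finset.sum_const, nsmul_eq_mul,
    ← Finset.sum_filter, Finset.sum_const, nsmul_eq_mul]
  have h2 : (w.edges.toFinset.card : ℝ) * δ ≤ 1 := by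
    refine le_trans ?_ hM.δ_small
    rw [mul_comm]
    refine mul_le_mul_of_nonneg_left ?_ hM.δ_nonneg
    exact_mod_cast Finset.card_le_card fun e he => hE e (List.mem_toFinset.1 he)
  have h3 : c * k * (b - a) ≤
      ((w.edges.toFinset.filter fun e => b ≤ t e).card : ℝ) * (b - a) :=
    mul_le_mul_of_nonneg_right hg (by linarith)
  linarith

lemma Modif.path_saving (hM : Modif k x1 x2 a δ t t') (hab : a < b) {C3 : ℝ}
    {L : Set ((ℤ → ℝ) × (ℤ → ℝ))} (hG : Good k D C3 c b L x1 t) {w : ℤ}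
    (p : squareLattice.Walk (x1, 0) (w, (k : ℤ) + 1)) (hp : p.IsPath) :
    walkCost t' p ≤ walkCost t p - c * k * (b - a) + 2 := by
  have hlen : k ≤ p.length := by
    have := n1_le_length p
    unfold n1 at this
    simp only [Prod.fst_sub, Prod.snd_sub, sub_zero] at this
    omega
  have hsplit : ∀ s : Environment, walkCost s p = walkCost s (p.take k) + walkCost s (p.drop k) := by
    intro s
    simp only [walkCost, SimpleGraph.Walk.edges_take, SimpleGraph.Walk.edges_drop]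
    rw [← List.sum_append, ← List.map_append, List.take_append_drop]
  have hnd : p.edges.Nodup := hp.isTrail.edges_nodup
  have hn1 : (p.take k).edges.Nodup := by
    rw [SimpleGraph.Walk.edges_take]
    exact hnd.sublist (List.take_sublist _ _)
  have hn2 : (p.drop k).edges.Nodup := by
    rw [SimpleGraph.Walk.edges_drop]
    exact hnd.sublist (List.drop_sublist _ _)
  have hl1 : (p.take k).length = k := by
    rw [SimpleGraph.Walk.take_length]
    exact min_eq_left hlen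
  have h1 := hM.saving hab (p.take k) hn1 hl1 (hG.g3 _ _ hn1 hl1)
  have h2 := walkCost_le_add hM.δ_nonneg hM.off hM.on_le (p.drop k) hn2
  have h3 := hM.δ_small
  rw [hsplit t, hsplit t']
  linarith

/-- upper bound for the modified functional at the end points of a near tie -/
lemma Modif.upper (ht : Nn t) (ht' : Nn t') (hM : Modif k x1 x2 a δ t t') (hab : a < b)
    {L : Set ((ℤ → ℝ) × (ℤ → ℝ))} (hG : Good k D C3 c b L x1 t)
    {lab a0 : (ℤ → ℝ) × (ℤ → ℝ)} {c1 c2 : ℝ} {z w : ℤ}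
    (h1 : |lab.1 w - a0.1 w - c1| ≤ 1) (h2 : |lab.2 z - a0.2 z - c2| ≤ 1) :
    Psi k a0 t' z w < (lab.2 z + passageTime t (z, -((k : ℤ) + 1)) (x1, 0) +
      passageTime t (x1, 0) (w, (k : ℤ) + 1) + lab.1 w) - (c1 + c2) + 6 - c * k * (b - a) := by
  obtain ⟨p1, hn1, -, hp1⟩ := exists_path_lt ht
    (show passageTime t (z, -((k : ℤ) + 1)) (x1, 0) <
      passageTime t (z, -((k : ℤ) + 1)) (x1, 0) + 1 / 2 by linarith)
  obtain ⟨p2, hn2, hpath, hp2⟩ := exists_path_lt ht
    (show passageTime t (x1, 0) (w, (k : ℤ) + 1) <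
      passageTime t (x1, 0) (w, (k : ℤ) + 1) + 1 / 2 by linarith)
  have h3 := walkCost_le_add hM.δ_nonneg hM.off hM.on_le p1 hn1
  have h4 := hM.path_saving hab hG p2 hpath
  have h5 := hM.δ_small
  have h6 := pt_le ht' (p1.append p2)
  rw [walkCost_append] at h6
  rw [abs_le] at h1 h2
  unfold Psi
  linarith [h1.1, h1.2, h2.1, h2.2]

/-- the last modified edge of a near optimal walk locates its end point -/
lemma Modif.key_one (ht : Nn t) (ht' : Nn t') (hM : Modif k x1 x2 a δ t t')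
    {L : Set ((ℤ → ℝ) × (ℤ → ℝ))} (hG : Good k D C3 c b L x1 t)
    {a0 : (ℤ → ℝ) × (ℤ → ℝ)} (ha0 : a0 ∈ L) {z w : ℤ} {v : ℝ} {p q : ℤ × ℤ}
    (w1 : squareLattice.Walk (z, -((k : ℤ) + 1)) q) (w2 : squareLattice.Walk q (w, (k : ℤ) + 1))
    (hpq : s(p, q) ∈ boxE k x1) (hw2 : ∀ e ∈ w2.edges, e ∉ boxE k x1 ∪ boxE k x2)
    (hv : a0.2 z + (walkCost t' w1 + walkCost t' w2) + a0.1 w < v) :
    |w - x1| ≤ D ∨ Psi k a0 t' z x1 < v - (2 * C3 + 9) := by
  by_cases hw : |w - x1| ≤ D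
  · exact Or.inl hw
  right
  obtain ⟨hq1, hq2⟩ := boxE_rect hpq
  have h1 := hG.g1 a0 ha0 q hq1 hq2 w (not_le.1 hw)
  have h2 := pt_le ht w2
  rw [← walkCost_congr_off hM.off w2 hw2] at h2
  obtain ⟨β, hβn, hβ⟩ := exists_box_walk hq1 hq2
  have h3 := walkCost_le_add hM.δ_nonneg hM.off hM.on_le β hβn
  have h4 := walkCost_le_sum ht hβn hβ
  have h5 := hM.δ_small
  have h6 := pt_le ht' (w1.append β)
  rw [walkCost_append] at h6
  unfold Psi
  linarith

lemma Modif.key (ht : Nn t) (ht' : Nn t') (hM : Modif k x1 x2 a δ t t')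
    {L : Set ((ℤ → ℝ) × (ℤ → ℝ))} (hG1 : Good k D C3 c b L x1 t) (hG2 : Good k D C3 c b L x2 t)
    {a0 : (ℤ → ℝ) × (ℤ → ℝ)} (ha0 : a0 ∈ L) {z w : ℤ} {v : ℝ} (hv : Psi k a0 t' z w < v)
    (hno : v ≤ Psi k a0 t z w) :
    (|w - x1| ≤ D ∨ Psi k a0 t' z x1 < v - (2 * C3 + 9)) ∨
    (|w - x2| ≤ D ∨ Psi k a0 t' z x2 < v - (2 * C3 + 9)) := by
  classical
  have hv' : passageTime t' (z, -((k : ℤ) + 1)) (w, (k : ℤ) + 1) < v - a0.2 z - a0.1 w := by
    unfold Psi at hv; linarith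
  obtain ⟨ω, hωn, -, hω⟩ := exists_path_lt ht' hv'
  by_cases hE : ∃ e ∈ ω.edges, e ∈ (↑(boxE k x1 ∪ boxE k x2) : Set (Sym2 (ℤ × ℤ)))
  · obtain ⟨p, q, w1, w2, hpq, hw2, -, hcost⟩ := exists_last_edge _ t ω hE
    have hc := hcost t'
    rw [Finset.mem_coe, Finset.mem_union] at hpq
    have hw2' : ∀ e ∈ w2.edges, e ∉ boxE k x1 ∪ boxE k x2 := fun e he h =>
      hw2 e he (Finset.mem_coe.2 h)
    rcases hpq with hpq | hpq
    · exact Or.inl (hM.key_one ht ht' hG1 ha0 w1 w2 hpq hw2' (by linarith))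
    · right
      refine hM.symm.key_one ht ht' hG2 ha0 w1 w2 hpq ?_ (by linarith)
      intro e he
      rw [Finset.union_comm]
      exact hw2' e he
  · exfalso
    have h1 : walkCost t' ω = walkCost t ω := by
      refine walkCost_congr_off hM.off ω fun e he h => hE ⟨e, he, Finset.mem_coe.2 h⟩
    have h2 := pt_le ht ω
    unfold Psi at hno
    linarith

/-! ## localisation -/

/-- the pair `x1, x2` is (up to `D`) the pair of the two lowest places of the label `a0` in the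
window `[-H, H]`; measurable in the environment -/
def Loc (k D : ℕ) (H : ℤ) (a0 : (ℤ → ℝ) × (ℤ → ℝ)) (x1 x2 : ℤ) (t : Environment) : Prop :=
  ∀ z w : ℤ, |z| ≤ H → |w| ≤ H →
    (∀ z' w' : ℤ, |z'| ≤ H → |w'| ≤ H → Psi k a0 t z w ≤ Psi k a0 t z' w') →
    (|w - x1| ≤ D ∨ |w - x2| ≤ D) ∧
    ∀ z₂ w₂ : ℤ, |z₂| ≤ H → |w₂| ≤ H → 3 * (D : ℤ) < |w₂ - w| →
      (∀ z' w' : ℤ, |z'| ≤ H → |w'| ≤ H → 3 * (D : ℤ) < |w' - w| →
        Psi k a0 t z₂ w₂ ≤ Psi k a0 t z' w') →
      (|w - x1| ≤ D → |w₂ - x2| ≤ D) ∧ (|w - x2| ≤ D → |w₂ - x1| ≤ D)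

lemma Loc.symm {k D : ℕ} {H : ℤ} {a0 : (ℤ → ℝ) × (ℤ → ℝ)} {x1 x2 : ℤ} {t : Environment}
    (h : Loc k D H a0 x1 x2 t) : Loc k D H a0 x2 x1 t := by
  intro z w hz hw hmin
  obtain ⟨h1, h2⟩ := h z w hz hw hmin
  refine ⟨h1.symm, fun z₂ w₂ hz₂ hw₂ hfar hmin₂ => ?_⟩
  obtain ⟨h3, h4⟩ := h2 z₂ w₂ hz₂ hw₂ hfar hmin₂
  exact ⟨h4, h3⟩

lemma loc_aux (ht : Nn t) (ht' : Nn t') (hM : Modif k x1 x2 a δ t t')
    (hC3 : 0 ≤ C3) (hD : 1 ≤ D)
    {L : Set ((ℤ → ℝ) × (ℤ → ℝ))} (hG1 : Good k D C3 c b L x1 t) (hG2 : Good k D C3 c b L x2 t)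
    {a0 : (ℤ → ℝ) × (ℤ → ℝ)} (ha0 : a0 ∈ L) {H : ℤ}
    {M U : ℝ} (hlow : ∀ z w : ℤ, |z| ≤ H → |w| ≤ H → M ≤ Psi k a0 t z w) (hMU : U + 3 ≤ M)
    (hx1 : |x1| + D ≤ H) (hx2 : |x2| + D ≤ H)
    (hfar : 5 * (D : ℤ) < |x1 - x2|) {w : ℤ}
    (hd : |w - x1| ≤ D) {z₂ w₂ : ℤ} (hz₂ : |z₂| ≤ H) (hw₂ : |w₂| ≤ H)
    (hfar₂ : 3 * (D : ℤ) < |w₂ - w|)
    (hmin₂ : ∀ z' w' : ℤ, |z'| ≤ H → |w'| ≤ H → 3 * (D : ℤ) < |w' - w| →
        Psi k a0 t' z₂ w₂ ≤ Psi k a0 t' z' w')
    {zz ww : ℤ} (hzz : |zz - x2| ≤ D) (hww : |ww - x2| ≤ D) (hU : Psi k a0 t' zz ww < U) :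
    |w₂ - x2| ≤ D := by
  have hzzH : |zz| ≤ H := by
    simp only [abs_le] at hzz hx2 ⊢
    have := abs_le.1 (le_refl |x2|)
    omega
  have hwwH : |ww| ≤ H := by
    simp only [abs_le] at hww hx2 ⊢
    have := abs_le.1 (le_refl |x2|)
    omega
  have hx2H : |x2| ≤ H := by omega
  have hx1H : |x1| ≤ H := by omega
  have hfar3 : 3 * (D : ℤ) < |ww - w| := by
    rcases lt_abs.1 hfar with h | h <;> rw [abs_le] at hd hww <;> rw [lt_abs] <;> omega
  have hfar4 : 3 * (D : ℤ) < |x2 - w| := by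
    rcases lt_abs.1 hfar with h | h <;> rw [abs_le] at hd <;> rw [lt_abs] <;> omega
  have h1 : Psi k a0 t' z₂ w₂ < U := (hmin₂ zz ww hzzH hwwH hfar3).trans_lt hU
  have h2 := hM.key ht ht' hG1 hG2 ha0 (v := Psi k a0 t' z₂ w₂ + 1) (by linarith)
    (by linarith [hlow z₂ w₂ hz₂ hw₂])
  rcases h2 with (h2 | h2) | (h2 | h2)
  · exfalso
    rw [abs_le] at h2 hd
    rcases lt_abs.1 hfar₂ with h | h <;> omega
  · exfalso
    -- a value below the global minimum
    have h3 := pt_ge_sub (E := boxE k x1 ∪ boxE k x2) ht ht' hM.off (z₂, -((k : ℤ) + 1))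
      (x1, (k : ℤ) + 1)
    have h4 : ∑ e ∈ boxE k x1 ∪ boxE k x2, t e ≤ 2 * C3 := by
      have h5 := Finset.sum_union_inter (s₁ := boxE k x1) (s₂ := boxE k x2) (f := t)
      have h6 : 0 ≤ ∑ e ∈ boxE k x1 ∩ boxE k x2, t e := Finset.sum_nonneg fun e _ => ht e
      linarith [hG1.g2, hG2.g2]
    have h7 := hlow z₂ x1 hz₂ hx1H
    unfold Psi at h2 h7 h1 hU
    linarith
  · exact h2
  · exfalso
    have := hmin₂ z₂ x2 hz₂ hx2H hfar4
    linarith

/-- **Localisation** (the heart of LFE): after the modification the two boxes are the two lowest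
places of every label `a0` that is `1`-close to `lab` on the window. -/
theorem loc_det (ht : Nn t) (ht' : Nn t') (hM : Modif k x1 x2 a δ t t') (hab : a < b)
    (hC3 : 0 ≤ C3) (hD : 1 ≤ D) (hSv : K + 20 ≤ c * k * (b - a))
    {L : Set ((ℤ → ℝ) × (ℤ → ℝ))} (hG1 : Good k D C3 c b L x1 t) (hG2 : Good k D C3 c b L x2 t)
    {lab a0 : (ℤ → ℝ) × (ℤ → ℝ)} (ha0 : a0 ∈ L) {H : ℤ} {c1 c2 : ℝ}
    (hc1 : ∀ w : ℤ, |w| ≤ H → |lab.1 w - a0.1 w - c1| ≤ 1)
    (hc2 : ∀ w : ℤ, |w| ≤ H → |lab.2 w - a0.2 w - c2| ≤ 1)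
    (hN1 : NT k D K lab x1 t) (hN2 : NT k D K lab x2 t)
    (hx1 : |x1| + D ≤ H) (hx2 : |x2| + D ≤ H) (hfar : 5 * (D : ℤ) < |x1 - x2|) :
    Loc k D H a0 x1 x2 t' := by
  obtain ⟨z1, w1, hz1, hw1, hn1⟩ := hN1
  obtain ⟨z2, w2, hz2, hw2, hn2⟩ := hN2
  set S1 : ℝ := lab.2 z1 + passageTime t (z1, -((k : ℤ) + 1)) (x1, 0) +
      passageTime t (x1, 0) (w1, (k : ℤ) + 1) + lab.1 w1 with hS1
  set S2 : ℝ := lab.2 z2 + passageTime t (z2, -((k : ℤ) + 1)) (x2, 0) +
      passageTime t (x2, 0) (w2, (k : ℤ) + 1) + lab.1 w2 with hS2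
  have abs_aux : ∀ {u x : ℤ}, |u - x| ≤ D → |x| + D ≤ H → |u| ≤ H := by
    intro u x h1 h2
    have h3 := abs_le.1 (le_refl |x|)
    rw [abs_le] at h1 ⊢
    omega
  have hz1H := abs_aux hz1 hx1
  have hw1H := abs_aux hw1 hx1
  have hz2H := abs_aux hz2 hx2
  have hw2H := abs_aux hw2 hx2
  have hx1H : |x1| ≤ H := by omega
  have hx2H : |x2| ≤ H := by omega
  -- the values at the two near ties
  have hU1 : Psi k a0 t' z1 w1 < S1 - (c1 + c2) + 6 - c * k * (b - a) :=
    hM.upper ht ht' hab hG1 (hc1 w1 hw1H) (hc2 z1 hz1H)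
  have hU2 : Psi k a0 t' z2 w2 < S2 - (c1 + c2) + 6 - c * k * (b - a) :=
    hM.symm.upper ht ht' hab hG2 (hc1 w2 hw2H) (hc2 z2 hz2H)
  -- lower bound of the unmodified functional of `a0` in the window
  have hlow1 : ∀ z w : ℤ, |z| ≤ H → |w| ≤ H → S1 - K - (c1 + c2) - 2 ≤ Psi k a0 t z w := by
    intro z w hz hw
    have h1 := hn1 z w
    have h2 := abs_le.1 (hc1 w hw)
    have h3 := abs_le.1 (hc2 z hz)
    unfold Psi at h1 ⊢
    linarith [h2.1, h2.2, h3.1, h3.2]
  have hlow2 : ∀ z w : ℤ, |z| ≤ H → |w| ≤ H → S2 - K - (c1 + c2) - 2 ≤ Psi k a0 t z w := by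
    intro z w hz hw
    have h1 := hn2 z w
    have h2 := abs_le.1 (hc1 w hw)
    have h3 := abs_le.1 (hc2 z hz)
    unfold Psi at h1 ⊢
    linarith [h2.1, h2.2, h3.1, h3.2]
  intro z w hz hw hmin
  constructor
  · -- first minimiser
    have h1 : Psi k a0 t' z w < S1 - (c1 + c2) + 6 - c * k * (b - a) :=
      (hmin z1 w1 hz1H hw1H).trans_lt hU1
    have h2 := hM.key ht ht' hG1 hG2 ha0 (v := Psi k a0 t' z w + 1) (by linarith)
      (by linarith [hlow1 z w hz hw])
    rcases h2 with (h2 | h2) | (h2 | h2)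
    · exact Or.inl h2
    · have := hmin z x1 hz hx1H
      linarith
    · exact Or.inr h2
    · have := hmin z x2 hz hx2H
      linarith
  · intro z₂ w₂ hz₂ hw₂ hfar₂ hmin₂
    constructor
    · intro hd
      exact loc_aux ht ht' hM hC3 hD hG1 hG2 ha0 hlow2
        (U := S2 - (c1 + c2) + 6 - c * k * (b - a)) (by linarith) hx1 hx2 hfar hd hz₂ hw₂
        hfar₂ hmin₂ hz2 hw2 hU2
    · intro hd
      refine loc_aux ht ht' hM.symm hC3 hD hG2 hG1 ha0 hlow1
        (U := S1 - (c1 + c2) + 6 - c * k * (b - a)) (by linarith) hx2 hx1 ?_ hd hz₂ hw₂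
        hfar₂ hmin₂ hz1 hw1 hU1
      rw [abs_sub_comm]
      exact hfar

end Crest.Agent.R151.E39
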