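import Crest.Agent.R151.E39c
import Crest.Agent.R151.V10

/-!
# R151, block E39d (helper39): LOCAL FINITE ENERGY, strip form, probabilistic part
-/

set_option autoImplicit false
set_option linter.unusedSectionVars false

open MeasureTheory ProbabilityTheory Set Filter
open scoped ENNReal Topology
open Crest.ProbabilityR.FirstPassage
open Crest.Agent.R151.K

namespace Crest.Agent.R151.E39

/-! ## measurability and counting -/

lemma measurable_Psi (k : ℕ) (a : (ℤ → ℝ) × (ℤ → ℝ)) (z w : ℤ) :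
    Measurable fun t : Environment => Psi k a t z w := by
  unfold Psi
  exact ((measurable_pt _ _).const_add _).add_const _

lemma measurable_Psi_le (k : ℕ) (a : (ℤ → ℝ) × (ℤ → ℝ)) (z w z' w' : ℤ) :
    Measurable fun t : Environment => Psi k a t z w ≤ Psi k a t z' w' :=
  measurableSet_setOfPred.1 (measurableSet_le (measurable_Psi k a z w) (measurable_Psi k a z' w'))

lemma measurableSet_Loc (k D : ℕ) (H : ℤ) (a0 : (ℤ → ℝ) × (ℤ → ℝ)) (x1 x2 : ℤ) :
    MeasurableSet {t : Environment | Loc k D H a0 x1 x2 t} := by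
  rw [measurableSet_setOfPred]
  unfold Loc
  refine Measurable.forall fun z => Measurable.forall fun w => Measurable.imp measurable_const ?_
  refine Measurable.imp measurable_const (Measurable.imp ?_ (Measurable.and measurable_const ?_))
  · exact Measurable.forall fun z' => Measurable.forall fun w' =>
      Measurable.imp measurable_const (Measurable.imp measurable_const
        (measurable_Psi_le k a0 z w z' w'))
  · refine Measurable.forall fun z₂ => Measurable.forall fun w₂ =>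
      Measurable.imp measurable_const ?_
    refine Measurable.imp measurable_const (Measurable.imp measurable_const
      (Measurable.imp ?_ measurable_const))
    exact Measurable.forall fun z' => Measurable.forall fun w' =>
      Measurable.imp measurable_const (Measurable.imp measurable_const
        (Measurable.imp measurable_const (measurable_Psi_le k a0 z₂ w₂ z' w')))

open Classical in
lemma card_Loc_le (k D : ℕ) (H : ℤ) (a0 : (ℤ → ℝ) × (ℤ → ℝ)) (t : Environment)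
    (F : Finset (ℤ × ℤ))
    (hF : ∀ p ∈ F, |p.1| + D ≤ H ∧ |p.2| + D ≤ H ∧ 5 * (D : ℤ) < |p.1 - p.2|) :
    (F.filter fun p => Loc k D H a0 p.1 p.2 t).card ≤ 2 * (2 * D + 1) ^ 2 := by
  rcases (F.filter fun p => Loc k D H a0 p.1 p.2 t).eq_empty_or_nonempty with h0 | ⟨p0, hp0⟩
  · rw [h0]; simp
  rw [Finset.mem_filter] at hp0
  obtain ⟨hp0F, hp0L⟩ := hp0
  obtain ⟨hb1, hb2, hb3⟩ := hF p0 hp0F
  have hH : 0 ≤ H := by
    have := abs_nonneg p0.1
    omega
  -- first minimiser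
  obtain ⟨⟨z, w⟩, hzw, hmin⟩ := Finset.exists_min_image
    (Finset.Icc (-H) H ×ˢ Finset.Icc (-H) H) (fun p : ℤ × ℤ => Psi k a0 t p.1 p.2)
    ⟨(0, 0), by simp [Finset.mem_product, Finset.mem_Icc, hH]⟩
  rw [Finset.mem_product, Finset.mem_Icc, Finset.mem_Icc] at hzw
  have hz : |z| ≤ H := abs_le.2 hzw.1
  have hw : |w| ≤ H := abs_le.2 hzw.2
  have hmin' : ∀ z' w' : ℤ, |z'| ≤ H → |w'| ≤ H → Psi k a0 t z w ≤ Psi k a0 t z' w' := by
    intro z' w' hz' hw'
    exact hmin (z', w') (by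
      rw [Finset.mem_product, Finset.mem_Icc, Finset.mem_Icc]
      exact ⟨abs_le.1 hz', abs_le.1 hw'⟩)
  -- there is a far point
  obtain ⟨w', hw'H, hw'far⟩ : ∃ w' : ℤ, |w'| ≤ H ∧ 3 * (D : ℤ) < |w' - w| := by
    rcases (hp0L z w hz hw hmin').1 with h | h
    · refine ⟨p0.2, by omega, ?_⟩
      rcases lt_abs.1 hb3 with h' | h' <;> rw [abs_le] at h <;> rw [lt_abs] <;> omega
    · refine ⟨p0.1, by omega, ?_⟩
      rcases lt_abs.1 hb3 with h' | h' <;> rw [abs_le] at h <;> rw [lt_abs] <;> omega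
  obtain ⟨⟨z₂, w₂⟩, hzw₂, hmin₂⟩ := Finset.exists_min_image
    ((Finset.Icc (-H) H ×ˢ Finset.Icc (-H) H).filter fun p : ℤ × ℤ => 3 * (D : ℤ) < |p.2 - w|)
    (fun p : ℤ × ℤ => Psi k a0 t p.1 p.2)
    ⟨(0, w'), by
      rw [Finset.mem_filter, Finset.mem_product, Finset.mem_Icc, Finset.mem_Icc]
      exact ⟨⟨by constructor <;> simp [hH], abs_le.1 hw'H⟩, hw'far⟩⟩
  rw [Finset.mem_filter, Finset.mem_product, Finset.mem_Icc, Finset.mem_Icc] at hzw₂
  have hz₂ : |z₂| ≤ H := abs_le.2 hzw₂.1.1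
  have hw₂ : |w₂| ≤ H := abs_le.2 hzw₂.1.2
  have hmin₂' : ∀ z' w' : ℤ, |z'| ≤ H → |w'| ≤ H → 3 * (D : ℤ) < |w' - w| →
      Psi k a0 t z₂ w₂ ≤ Psi k a0 t z' w' := by
    intro z' w' hz' hw' hf
    exact hmin₂ (z', w') (by
      rw [Finset.mem_filter, Finset.mem_product, Finset.mem_Icc, Finset.mem_Icc]
      exact ⟨⟨abs_le.1 hz', abs_le.1 hw'⟩, hf⟩)
  -- all pairs are in two product boxes
  set B1 : Finset ℤ := Finset.Icc (w - D) (w + D) with hB1
  set B2 : Finset ℤ := Finset.Icc (w₂ - D) (w₂ + D) with hB2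
  have hsub : (F.filter fun p => Loc k D H a0 p.1 p.2 t) ⊆ (B1 ×ˢ B2) ∪ (B2 ×ˢ B1) := by
    intro p hp
    rw [Finset.mem_filter] at hp
    obtain ⟨h1, h2⟩ := hp.2 z w hz hw hmin'
    obtain ⟨h3, h4⟩ := h2 z₂ w₂ hz₂ hw₂ hzw₂.2 hmin₂'
    rw [Finset.mem_union, Finset.mem_product, Finset.mem_product, hB1, hB2]
    simp only [Finset.mem_Icc]
    rcases h1 with h | h
    · left
      have h5 := abs_le.1 (h3 h)
      rw [abs_le] at h
      constructor <;> constructor <;> omega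
    · right
      have h5 := abs_le.1 (h4 h)
      rw [abs_le] at h
      constructor <;> constructor <;> omega
  refine (Finset.card_le_card hsub).trans ((Finset.card_union_le _ _).trans ?_)
  have c1 : B1.card = 2 * D + 1 := by rw [hB1, Int.card_Icc]; omega
  have c2 : B2.card = 2 * D + 1 := by rw [hB2, Int.card_Icc]; omega
  rw [Finset.card_product, Finset.card_product, c1, c2]
  nlinarith

section Prob

variable {G : Measure ℝ} [IsProbabilityMeasure G]

instance : IsProbabilityMeasure (iidLaw G) := by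
  unfold iidLaw
  infer_instance

/-- disintegration of a measurable event along a set of edges -/
lemma measure_glue (S : Set (Sym2 (ℤ × ℤ))) {A : Set Environment} (hA : MeasurableSet A) :
    iidLaw G A = ∫⁻ u, iidLaw G {s | glue S s u ∈ A} ∂(iidLaw G) := by
  have h1 := lintegral_glue G S (F := A.indicator 1) (measurable_one.indicator hA)
  rw [lintegral_indicator_one hA] at h1
  unfold iidLaw
  rw [h1]
  refine lintegral_congr fun u => ?_
  have h2 : MeasurableSet {s : Environment | glue S s u ∈ A} := measurable_glue_left S u hA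
  rw [← lintegral_indicator_one h2]
  rfl

lemma measurable_measure_glue (S : Set (Sym2 (ℤ × ℤ))) {A : Set Environment}
    (hA : MeasurableSet A) : Measurable fun u => iidLaw G {s | glue S s u ∈ A} := by
  have h : MeasurableSet ((fun p : Environment × Environment => glue S p.1 p.2) ⁻¹' A) :=
    measurable_glue S hA
  exact measurable_measure_prodMk_right h

/-- **CLASS**: the labels of a window have a `1`-net of mean cardinality `O(window)` (617's
`class_int`). -/
def ClassHyp (G : Measure ℝ) (L : Environment → Set ((ℤ → ℝ) × (ℤ → ℝ))) : Prop :=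
  ∃ C₁ : ℝ, 0 ≤ C₁ ∧ ∀ h : ℕ, ∃ N : Environment → ℝ, Measurable N ∧ (∀ ω, 0 ≤ N ω) ∧
    Integrable N (iidLaw G) ∧ ∫ ω, N ω ∂(iidLaw G) ≤ C₁ * (h + 1) ∧
    ∀ᵐ ω ∂(iidLaw G), ∃ Rep : Finset ((ℤ → ℝ) × (ℤ → ℝ)), (∀ b ∈ Rep, b ∈ L ω) ∧
      (Rep.card : ℝ) ≤ N ω ∧
      ∀ a ∈ L ω, ∃ b ∈ Rep, ∀ x y : ℤ, -(h : ℤ) ≤ x → x ≤ h → -(h : ℤ) ≤ y → y ≤ h →
        |(a.1 x - b.1 x) - (a.1 y - b.1 y)| ≤ 1 ∧ |(a.2 x - b.2 x) - (a.2 y - b.2 y)| ≤ 1

/-- the bad event pair: both `x` and `y` are good and near ties of one label -/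
def Two (k D : ℕ) (K C3 c b : ℝ) (L : Environment → Set ((ℤ → ℝ) × (ℤ → ℝ))) (x y : ℤ)
    (t : Environment) : Prop :=
  ∃ a ∈ L t, Good k D C3 c b (L t) x t ∧ Good k D C3 c b (L t) y t ∧
    NT k D K a x t ∧ NT k D K a y t

open Classical in
/-- LFE for a finite family of far pairs, with explicit constants -/
lemma lfe_far {a b c r0 δ : ℝ} (hab : a < b)
    (hr0 : G (Iio r0) = 0) (hr0n : 0 ≤ r0) (hδ : 0 ≤ δ) (hδa : r0 + δ ≤ a)
    {k D : ℕ} {K C3 : ℝ} (hδk : δ * (2 * (2 * (2 * k + 2) ^ 2) : ℕ) ≤ 1)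
    (hC3 : 0 ≤ C3) (hD : 1 ≤ D) (hSv : K + 20 ≤ c * k * (b - a))
    {L : Environment → Set ((ℤ → ℝ) × (ℤ → ℝ))}
    (hL : ∀ t t' : Environment, (∀ e, e ∉ strip k → t e = t' e) → L t = L t')
    {h : ℕ} {N : Environment → ℝ} (hNm : Measurable N)
    (hclass : ∀ᵐ ω ∂(iidLaw G), ∃ Rep : Finset ((ℤ → ℝ) × (ℤ → ℝ)), (∀ b ∈ Rep, b ∈ L ω) ∧
      (Rep.card : ℝ) ≤ N ω ∧
      ∀ a ∈ L ω, ∃ b ∈ Rep, ∀ x y : ℤ, -((h + D : ℕ) : ℤ) ≤ x → x ≤ (h + D : ℕ) →
        -((h + D : ℕ) : ℤ) ≤ y → y ≤ (h + D : ℕ) →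
        |(a.1 x - b.1 x) - (a.1 y - b.1 y)| ≤ 1 ∧ |(a.2 x - b.2 x) - (a.2 y - b.2 y)| ≤ 1)
    {A : ℤ → ℤ → Set Environment} (hAm : ∀ x y, MeasurableSet (A x y))
    (hA : ∀ x y, ∀ᵐ t ∂(iidLaw G), t ∈ A x y → Two k D K C3 c b L x y t)
    (F : Finset (ℤ × ℤ)) (hF : ∀ p ∈ F, |p.1| ≤ h ∧ |p.2| ≤ h ∧ 5 * (D : ℤ) < |p.1 - p.2|) :
    G (Icc r0 (r0 + δ)) ^ (2 * (2 * (2 * k + 2) ^ 2)) * ∑ p ∈ F, iidLaw G (A p.1 p.2) ≤
      (2 * (2 * D + 1) ^ 2 : ℕ) * ∫⁻ u, ENNReal.ofReal (N u) ∂(iidLaw G) := by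
  set P := iidLaw G with hP
  set q : ℝ≥0∞ := G (Icc r0 (r0 + δ)) ^ (2 * (2 * (2 * k + 2) ^ 2)) with hq
  set S : Set (Sym2 (ℤ × ℤ)) := strip k with hS
  -- a full measure set
  have hge : ∀ᵐ t ∂P, ∀ e, r0 ≤ t e := by
    rw [ae_all_iff]
    intro e
    have h1 : ∀ᵐ x ∂G, r0 ≤ x := by
      rw [ae_iff]
      have : {x : ℝ | ¬ r0 ≤ x} = Iio r0 := by ext x; simp
      rw [this]; exact hr0
    exact (mp_eval (G := G) e).quasiMeasurePreserving.ae h1
  have hall : ∀ᵐ t ∂P, (∀ e, r0 ≤ t e) ∧ ∀ x y, t ∈ A x y → Two k D K C3 c b L x y t := by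
    have h2 : ∀ᵐ t ∂P, ∀ x y, t ∈ A x y → Two k D K C3 c b L x y t := by
      rw [ae_all_iff]; intro x
      rw [ae_all_iff]; intro y
      exact hA x y
    exact hge.and h2
  set Z : Set Environment := toMeasurable P
    {t | ¬ ((∀ e, r0 ≤ t e) ∧ ∀ x y, t ∈ A x y → Two k D K C3 c b L x y t)} with hZ
  have hZm : MeasurableSet Z := measurableSet_toMeasurable _ _
  have hZ0 : P Z = 0 := by rw [hZ, measure_toMeasurable]; exact hall
  have hZp : ∀ t, t ∉ Z → (∀ e, r0 ≤ t e) ∧ ∀ x y, t ∈ A x y → Two k D K C3 c b L x y t := by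
    intro t ht
    by_contra hc
    exact ht (subset_toMeasurable _ _ hc)
  have hAZ : ∀ p : ℤ × ℤ, P (A p.1 p.2) = ∫⁻ u, P {s | glue S s u ∈ A p.1 p.2 \ Z} ∂P := by
    intro p
    rw [← measure_glue S ((hAm p.1 p.2).diff hZm), measure_sdiff_null hZ0]
  -- pointwise estimate
  have hpt : ∀ᵐ u ∂P, q * ∑ p ∈ F, P {s | glue S s u ∈ A p.1 p.2 \ Z} ≤
      (2 * (2 * D + 1) ^ 2 : ℕ) * ENNReal.ofReal (N u) := by
    filter_upwards [hclass] with u hu
    obtain ⟨Rep, hRepL, hRepN, hRep⟩ := hu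
    have hstep : ∀ p ∈ F, q * P {s | glue S s u ∈ A p.1 p.2 \ Z} ≤
        ∑ a0 ∈ Rep, P {s | Loc k D (h + D : ℕ) a0 p.1 p.2 (glue S s u)} := by
      intro p hp
      obtain ⟨hp1, hp2, hp3⟩ := hF p hp
      set E : Finset (Sym2 (ℤ × ℤ)) := boxE k p.1 ∪ boxE k p.2 with hE
      have hEcard : E.card ≤ 2 * (2 * (2 * k + 2) ^ 2) := by
        refine (Finset.card_union_le _ _).trans ?_
        have := card_boxE_le k p.1
        have := card_boxE_le k p.2
        omega
      have hES : (↑E : Set (Sym2 (ℤ × ℤ))) ⊆ S := by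
        rw [hE, Finset.coe_union]
        exact Set.union_subset (boxE_subset_strip k _) (boxE_subset_strip k _)
      set g : Set Environment := {s | ∀ e ∈ E, s e ∈ Icc r0 (r0 + δ)} with hg
      have hgq : q ≤ P g := by
        have h1 : P g = ∏ _e ∈ E, G (Icc r0 (r0 + δ)) := by
          rw [hP, hg]
          exact prob_box G E (fun _ => Icc r0 (r0 + δ)) fun _ _ => measurableSet_Icc
        rw [h1, Finset.prod_const, hq]
        exact pow_le_pow_right_of_le_one' prob_le_one hEcard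
      have hmod : P g * P {s | glue S s u ∈ A p.1 p.2 \ Z} ≤
          P {s | glue S s u ∈ {t' | ∃ a0 ∈ Rep, Loc k D (h + D : ℕ) a0 p.1 p.2 t'}} := by
        refine modify_fix G S u (↑E) hES (A p.1 p.2 \ Z) _ g ?_
        intro s hs s' hs'
        obtain ⟨hsA, hsZ⟩ := hs
        set t : Environment := glue S s u with ht
        obtain ⟨htr, htT⟩ := hZp t hsZ
        obtain ⟨lab, hlab, hG1, hG2, hN1, hN2⟩ := htT p.1 p.2 hsA
        have hLt : L t = L u := hL t u fun e he => by rw [ht]; exact glue_of_notMem he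
        rw [hLt] at hlab hG1 hG2
        obtain ⟨a0, ha0, hosc⟩ := hRep lab hlab
        refine ⟨a0, ha0, ?_⟩
        have htn : Nn t := fun e => hr0n.trans (htr e)
        have ht'n : Nn (glue (↑E) s' t) := by
          intro e
          by_cases he : e ∈ (↑E : Set (Sym2 (ℤ × ℤ)))
          · rw [glue_of_mem he]
            exact hr0n.trans (hs' e (Finset.mem_coe.1 he)).1
          · rw [glue_of_notMem he]; exact htn e
        have hM : Modif k p.1 p.2 a δ t (glue (↑E) s' t) := by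
          refine ⟨?_, ?_, ?_, hδ, ?_⟩
          · intro e he
            exact glue_of_notMem (by simpa [hE] using he)
          · intro e he
            have he' : e ∈ (↑E : Set (Sym2 (ℤ × ℤ))) := by simpa [hE] using he
            rw [glue_of_mem he']
            have h1 := (hs' e (Finset.mem_coe.1 he')).2
            have h2 := htr e
            linarith
          · intro e he
            have he' : e ∈ (↑E : Set (Sym2 (ℤ × ℤ))) := by simpa [hE] using he
            rw [glue_of_mem he']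
            exact (hs' e (Finset.mem_coe.1 he')).2.trans hδa
          · refine le_trans (mul_le_mul_of_nonneg_left ?_ hδ) hδk
            exact_mod_cast hEcard
        have key : ∀ w : ℤ, |w| ≤ ((h + D : ℕ) : ℤ) →
            |lab.1 w - a0.1 w - (lab.1 0 - a0.1 0)| ≤ 1 ∧
            |lab.2 w - a0.2 w - (lab.2 0 - a0.2 0)| ≤ 1 := by
          intro w hw
          rw [abs_le] at hw
          exact hosc w 0 hw.1 hw.2 (by omega) (by omega)
        refine loc_det (K := K) htn ht'n hM hab hC3 hD hSv hG1 hG2 (hRepL a0 ha0)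
          (fun w hw => (key w hw).1) (fun w hw => (key w hw).2) hN1 hN2 ?_ ?_ hp3
        · push_cast; omega
        · push_cast; omega
      calc q * P {s | glue S s u ∈ A p.1 p.2 \ Z}
          ≤ P g * P {s | glue S s u ∈ A p.1 p.2 \ Z} := by gcongr
        _ ≤ P {s | glue S s u ∈ {t' | ∃ a0 ∈ Rep, Loc k D (h + D : ℕ) a0 p.1 p.2 t'}} := hmod
        _ = P (⋃ a0 ∈ Rep, {s | Loc k D (h + D : ℕ) a0 p.1 p.2 (glue S s u)}) := by
            congr 1
            ext s
            simp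
        _ ≤ ∑ a0 ∈ Rep, P {s | Loc k D (h + D : ℕ) a0 p.1 p.2 (glue S s u)} :=
            measure_biUnion_finset_le _ _
    rw [Finset.mul_sum]
    refine (Finset.sum_le_sum hstep).trans ?_
    rw [Finset.sum_comm]
    have hone : ∀ a0 ∈ Rep, ∑ p ∈ F, P {s | Loc k D (h + D : ℕ) a0 p.1 p.2 (glue S s u)} ≤
        (2 * (2 * D + 1) ^ 2 : ℕ) := by
      intro a0 _
      have hms : ∀ p : ℤ × ℤ,
          MeasurableSet {s : Environment | Loc k D (h + D : ℕ) a0 p.1 p.2 (glue S s u)} :=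
        fun p => (measurable_glue_left S u) (measurableSet_Loc k D _ a0 p.1 p.2)
      calc ∑ p ∈ F, P {s | Loc k D (h + D : ℕ) a0 p.1 p.2 (glue S s u)}
          = ∑ p ∈ F, ∫⁻ s, ({s : Environment |
              Loc k D (h + D : ℕ) a0 p.1 p.2 (glue S s u)}).indicator 1 s ∂P := by
            refine Finset.sum_congr rfl fun p _ => ?_
            rw [lintegral_indicator_one (hms p)]
        _ = ∫⁻ s, ∑ p ∈ F, ({s : Environment |
              Loc k D (h + D : ℕ) a0 p.1 p.2 (glue S s u)}).indicator 1 s ∂P := by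
            rw [lintegral_finsetSum]
            exact fun p _ => measurable_one.indicator (hms p)
        _ ≤ ∫⁻ _s, ((2 * (2 * D + 1) ^ 2 : ℕ) : ℝ≥0∞) ∂P := by
            refine lintegral_mono fun s => ?_
            have h1 : ∑ p ∈ F, ({s : Environment |
                Loc k D (h + D : ℕ) a0 p.1 p.2 (glue S s u)}).indicator (1 : Environment → ℝ≥0∞) s =
                ((F.filter fun p => Loc k D (h + D : ℕ) a0 p.1 p.2 (glue S s u)).card : ℝ≥0∞) := by
              rw [Finset.card_filter, Nat.cast_sum]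
              refine Finset.sum_congr rfl fun p _ => ?_
              by_cases hLo : Loc k D (h + D : ℕ) a0 p.1 p.2 (glue S s u)
              · rw [indicator_of_mem (by exact hLo), if_pos hLo]; simp
              · rw [indicator_of_notMem (by exact hLo), if_neg hLo]; simp
            rw [h1]
            have h2 := card_Loc_le k D (h + D : ℕ) a0 (glue S s u) F (by
              intro p hp
              obtain ⟨h3, h4, h5⟩ := hF p hp
              refine ⟨?_, ?_, h5⟩ <;> push_cast <;> omega)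
            exact (Nat.cast_le (α := ℝ≥0∞)).2 h2
        _ = (2 * (2 * D + 1) ^ 2 : ℕ) := by
            rw [lintegral_const, measure_univ, mul_one]
    refine (Finset.sum_le_sum hone).trans ?_
    rw [Finset.sum_const, nsmul_eq_mul, mul_comm]
    gcongr
    rw [← ENNReal.ofReal_natCast]
    exact ENNReal.ofReal_le_ofReal hRepN
  -- integrate
  calc q * ∑ p ∈ F, P (A p.1 p.2)
      = q * ∫⁻ u, ∑ p ∈ F, P {s | glue S s u ∈ A p.1 p.2 \ Z} ∂P := by
        congr 1
        rw [lintegral_finsetSum _ fun p _ =>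
          measurable_measure_glue S ((hAm p.1 p.2).diff hZm)]
        exact Finset.sum_congr rfl fun p _ => hAZ p
    _ = ∫⁻ u, q * ∑ p ∈ F, P {s | glue S s u ∈ A p.1 p.2 \ Z} ∂P := by
        rw [lintegral_const_mul]
        exact Finset.measurable_sum _ fun p _ =>
          measurable_measure_glue S ((hAm p.1 p.2).diff hZm)
    _ ≤ ∫⁻ u, (2 * (2 * D + 1) ^ 2 : ℕ) * ENNReal.ofReal (N u) ∂P := lintegral_mono_ae hpt
    _ = (2 * (2 * D + 1) ^ 2 : ℕ) * ∫⁻ u, ENNReal.ofReal (N u) ∂P := by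
        rw [lintegral_const_mul]
        exact hNm.ennreal_ofReal

lemma infsupp_nonneg (h0 : G (Iio 0) = 0) {r0 : ℝ}
    (hr1 : ∀ ε : ℝ, 0 < ε → 0 < G.real (Iio (r0 + ε))) : 0 ≤ r0 := by
  by_contra hneg
  push Not at hneg
  have h1 := hr1 (-r0) (by linarith)
  rw [add_neg_cancel] at h1
  rw [measureReal_def, h0] at h1
  simp at h1

/-- **LOCAL FINITE ENERGY** (S0213), window form, given constants. -/
theorem lfe_abc (h0 : G (Iio 0) = 0) {a b c : ℝ} (hab : a < b) (hc : 0 < c)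
    (hga : 0 < G.real (Iio a)) :
      ∀ K : ℝ, ∃ k0 : ℕ, ∀ k : ℕ, k0 ≤ k →
        ∀ L : Environment → Set ((ℤ → ℝ) × (ℤ → ℝ)),
        (∀ t t' : Environment, (∀ e, e ∉ strip k → t e = t' e) → L t = L t') → ClassHyp G L →
        ∀ (C3 : ℝ) (D : ℕ), 0 ≤ C3 → 1 ≤ D → ∃ C : ℝ, 0 ≤ C ∧
          ∀ A : ℤ → ℤ → Set Environment, (∀ x y, MeasurableSet (A x y)) →
          (∀ x y, ∀ᵐ t ∂(iidLaw G), t ∈ A x y → Two k D K C3 c b L x y t) →
          ∀ h : ℕ, ∑ p ∈ Finset.Icc (-(h : ℤ)) h ×ˢ Finset.Icc (-(h : ℤ)) h,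
            (iidLaw G).real (A p.1 p.2) ≤ C * (h + 1) := by
  classical
  intro K
  obtain ⟨r0, hr0, hr1⟩ := V.exists_infsupp (G := G) h0
  have hr0n := infsupp_nonneg h0 hr1
  have hr0a : r0 < a := by
    by_contra hle
    push Not at hle
    have h1 : G.real (Iio a) = 0 := by
      rw [measureReal_def, measure_mono_null (Iio_subset_Iio hle) hr0]; rfl
    linarith
  obtain ⟨k0, hk0⟩ := exists_nat_ge ((K + 20) / (c * (b - a)))
  have hcb : 0 < c * (b - a) := mul_pos hc (by linarith)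
  refine ⟨k0, fun k hk L hL hclass C3 D hC3 hD => ?_⟩
  have hSv : K + 20 ≤ c * k * (b - a) := by
    have h1 : (K + 20) / (c * (b - a)) ≤ (k : ℝ) := hk0.trans (by exact_mod_cast hk)
    rw [div_le_iff₀ hcb] at h1
    linarith
  set Nk : ℕ := 2 * (2 * (2 * k + 2) ^ 2) with hNk
  set δ : ℝ := min (a - r0) (1 / (Nk + 1)) with hδdef
  have hδpos : 0 < δ := lt_min (by linarith) (by positivity)
  have hδk : δ * ((2 * (2 * (2 * k + 2) ^ 2) : ℕ) : ℝ) ≤ 1 := by
    have h1 : δ ≤ 1 / (Nk + 1) := min_le_right _ _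
    calc δ * ((2 * (2 * (2 * k + 2) ^ 2) : ℕ) : ℝ) ≤ 1 / ((Nk : ℝ) + 1) * Nk :=
          mul_le_mul_of_nonneg_right h1 (by positivity)
      _ ≤ 1 := by
          rw [div_mul_eq_mul_div, one_mul, div_le_one (by positivity)]
          linarith
  -- the probability of the good values
  have hgpos : 0 < G.real (Icc r0 (r0 + δ)) := by
    have h1 := hr1 δ hδpos
    refine h1.trans_le ?_
    have h2 : G.real (Iio (r0 + δ)) ≤ G.real (Iio r0) + G.real (Icc r0 (r0 + δ)) := by
      refine (measureReal_mono ?_).trans (measureReal_union_le _ _)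
      intro x hx
      by_cases hx0 : x < r0
      · exact Or.inl hx0
      · exact Or.inr ⟨not_lt.1 hx0, (le_of_lt hx)⟩
    have h3 : G.real (Iio r0) = 0 := by rw [measureReal_def, hr0]; rfl
    linarith
  set q : ℝ := G.real (Icc r0 (r0 + δ)) ^ Nk with hq
  have hqpos : 0 < q := pow_pos hgpos _
  obtain ⟨C₁, hC₁, hcl⟩ := hclass
  set C : ℝ := (2 * (2 * D + 1) ^ 2 : ℕ) * (C₁ * (D + 1)) / q + 2 * (10 * D + 1) with hC
  refine ⟨C, by positivity, fun A hAm hA h => ?_⟩
  obtain ⟨N, hNm, hN0, hNi, hNint, hNcl⟩ := hcl (h + D)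
  set W : Finset (ℤ × ℤ) := Finset.Icc (-(h : ℤ)) h ×ˢ Finset.Icc (-(h : ℤ)) h with hW
  set Ff : Finset (ℤ × ℤ) := W.filter fun p => 5 * (D : ℤ) < |p.1 - p.2| with hFf
  have hFfp : ∀ p ∈ Ff, |p.1| ≤ h ∧ |p.2| ≤ h ∧ 5 * (D : ℤ) < |p.1 - p.2| := by
    intro p hp
    rw [hFf, Finset.mem_filter, hW, Finset.mem_product, Finset.mem_Icc, Finset.mem_Icc] at hp
    exact ⟨abs_le.2 hp.1.1, abs_le.2 hp.1.2, hp.2⟩
  have hfar := lfe_far hab hr0 hr0n hδpos.le (by
      have : δ ≤ a - r0 := min_le_left _ _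
      linarith) hδk hC3 hD hSv hL hNm hNcl hAm hA Ff hFfp
  -- far pairs, real form
  have hfar' : q * ∑ p ∈ Ff, (iidLaw G).real (A p.1 p.2) ≤
      (2 * (2 * D + 1) ^ 2 : ℕ) * (C₁ * ((h + D : ℕ) + 1)) := by
    have h1 : ENNReal.ofReal (q * ∑ p ∈ Ff, (iidLaw G).real (A p.1 p.2)) =
        G (Icc r0 (r0 + δ)) ^ Nk * ∑ p ∈ Ff, iidLaw G (A p.1 p.2) := by
      rw [ENNReal.ofReal_mul hqpos.le, hq, ENNReal.ofReal_pow measureReal_nonneg,
        ENNReal.ofReal_sum_of_nonneg fun _ _ => measureReal_nonneg]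
      congr 1
      · rw [measureReal_def, ENNReal.ofReal_toReal (measure_ne_top _ _)]
      · refine Finset.sum_congr rfl fun p _ => ?_
        rw [measureReal_def, ENNReal.ofReal_toReal (measure_ne_top _ _)]
    have h2 : ∫⁻ u, ENNReal.ofReal (N u) ∂(iidLaw G) = ENNReal.ofReal (∫ u, N u ∂(iidLaw G)) :=
      (ofReal_integral_eq_lintegral_ofReal hNi (Eventually.of_forall hN0)).symm
    have h3 : ENNReal.ofReal (q * ∑ p ∈ Ff, (iidLaw G).real (A p.1 p.2)) ≤
        ENNReal.ofReal ((2 * (2 * D + 1) ^ 2 : ℕ) * (C₁ * ((h + D : ℕ) + 1))) := by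
      rw [h1]
      refine hfar.trans ?_
      rw [h2, ENNReal.ofReal_mul (by positivity), ENNReal.ofReal_natCast]
      gcongr
    exact (ENNReal.ofReal_le_ofReal_iff (by positivity)).1 h3
  -- near pairs
  have hnear : ∑ p ∈ W.filter (fun p => ¬ 5 * (D : ℤ) < |p.1 - p.2|),
      (iidLaw G).real (A p.1 p.2) ≤ (2 * h + 1) * (10 * D + 1) := by
    have h1 : ∑ p ∈ W.filter (fun p => ¬ 5 * (D : ℤ) < |p.1 - p.2|),
        (iidLaw G).real (A p.1 p.2) ≤
        ((W.filter (fun p => ¬ 5 * (D : ℤ) < |p.1 - p.2|)).card : ℝ) := by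
      have h2 : ∀ p ∈ W.filter (fun p => ¬ 5 * (D : ℤ) < |p.1 - p.2|),
          (iidLaw G).real (A p.1 p.2) ≤ 1 := fun _ _ => measureReal_le_one
      refine (Finset.sum_le_sum h2).trans ?_
      simp
    refine h1.trans ?_
    have h3 : (W.filter (fun p => ¬ 5 * (D : ℤ) < |p.1 - p.2|)).card ≤
        (2 * h + 1) * (10 * D + 1) := by
      have hsub : W.filter (fun p => ¬ 5 * (D : ℤ) < |p.1 - p.2|) ⊆
          (Finset.Icc (-(h : ℤ)) h ×ˢ Finset.Icc (-(5 * (D : ℤ))) (5 * D)).image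
            (fun r => (r.1, r.1 + r.2)) := by
        intro p hp
        rw [Finset.mem_filter, hW, Finset.mem_product] at hp
        rw [Finset.mem_image]
        refine ⟨(p.1, p.2 - p.1), ?_, by ext <;> simp⟩
        rw [Finset.mem_product]
        refine ⟨hp.1.1, ?_⟩
        rw [Finset.mem_Icc]
        have h4 := abs_le.1 (not_lt.1 hp.2)
        constructor <;> simp only <;> omega
      refine (Finset.card_le_card hsub).trans (Finset.card_image_le.trans ?_)
      rw [Finset.card_product, Int.card_Icc, Int.card_Icc]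
      have e1 : ((h : ℤ) + 1 - -(h : ℤ)).toNat = 2 * h + 1 := by omega
      have e2 : (5 * (D : ℤ) + 1 - -(5 * (D : ℤ))).toNat = 10 * D + 1 := by omega
      rw [e1, e2]
    exact_mod_cast h3
  have hsplit : ∑ p ∈ W, (iidLaw G).real (A p.1 p.2) =
      ∑ p ∈ Ff, (iidLaw G).real (A p.1 p.2) +
      ∑ p ∈ W.filter (fun p => ¬ 5 * (D : ℤ) < |p.1 - p.2|), (iidLaw G).real (A p.1 p.2) := by
    rw [hFf, Finset.sum_filter_add_sum_filter_not]
  rw [hsplit]
  have h5 : ∑ p ∈ Ff, (iidLaw G).real (A p.1 p.2) ≤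
      (2 * (2 * D + 1) ^ 2 : ℕ) * (C₁ * (D + 1)) / q * (h + 1) := by
    rw [div_mul_eq_mul_div, le_div_iff₀ hqpos]
    have h6 : C₁ * (((h + D : ℕ) : ℝ) + 1) ≤ C₁ * (D + 1) * (h + 1) := by
      push_cast
      have : (h : ℝ) + D + 1 ≤ (D + 1) * (h + 1) := by
        have h7 : (0 : ℝ) ≤ h := Nat.cast_nonneg _
        have h8 : (0 : ℝ) ≤ D := Nat.cast_nonneg _
        nlinarith
      calc C₁ * ((h : ℝ) + D + 1) ≤ C₁ * ((D + 1) * (h + 1)) :=
            mul_le_mul_of_nonneg_left this hC₁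
        _ = _ := by ring
    have h9 : ((2 * (2 * D + 1) ^ 2 : ℕ) : ℝ) * (C₁ * (((h + D : ℕ) : ℝ) + 1)) ≤
        ((2 * (2 * D + 1) ^ 2 : ℕ) : ℝ) * (C₁ * (D + 1) * (h + 1)) :=
      mul_le_mul_of_nonneg_left h6 (by positivity)
    calc (∑ p ∈ Ff, (iidLaw G).real (A p.1 p.2)) * q
        = q * ∑ p ∈ Ff, (iidLaw G).real (A p.1 p.2) := mul_comm _ _
      _ ≤ _ := hfar'
      _ ≤ _ := h9
      _ = _ := by ring
  have h10 : ((2 : ℝ) * h + 1) * (10 * D + 1) ≤ 2 * (10 * D + 1) * (h + 1) := by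
    have h8 : (0 : ℝ) ≤ D := Nat.cast_nonneg _
    nlinarith
  rw [hC, add_mul]
  linarith


/-- **LFE, covariant form**: the mean number of good near ties of a label located at `0`. -/
theorem lfe_cov_abc (h0 : G (Iio 0) = 0) {a b c : ℝ} (hab : a < b) (hc : 0 < c)
    (hga : 0 < G.real (Iio a)) :
      ∀ K : ℝ, ∃ k0 : ℕ, ∀ k : ℕ, k0 ≤ k →
        ∀ L : Environment → Set ((ℤ → ℝ) × (ℤ → ℝ)),
        (∀ t t' : Environment, (∀ e, e ∉ strip k → t e = t' e) → L t = L t') → ClassHyp G L →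
        ∀ (C3 : ℝ) (D : ℕ), 0 ≤ C3 → 1 ≤ D → ∃ C : ℝ, 0 ≤ C ∧
          ∀ A : ℤ → ℤ → Set Environment, (∀ x y, MeasurableSet (A x y)) →
          (∀ x y, (iidLaw G) (A x y) = (iidLaw G) (A 0 (y - x))) →
          (∀ x y, ∀ᵐ t ∂(iidLaw G), t ∈ A x y → Two k D K C3 c b L x y t) →
          (∑' y : ℤ, (iidLaw G) (A 0 y) ≤ ENNReal.ofReal C) ∧
          ∀ᵐ t ∂(iidLaw G), {y : ℤ | t ∈ A 0 y}.Finite := by
  classical
  intro K
  obtain ⟨k0, hk0⟩ := lfe_abc (G := G) h0 hab hc hga K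
  refine ⟨k0, fun k hk L hL hclass C3 D hC3 hD => ?_⟩
  obtain ⟨C, hC0, hC⟩ := hk0 k hk L hL hclass C3 D hC3 hD
  refine ⟨C, hC0, fun A hAm hcov hA => ?_⟩
  have hbound : ∀ h : ℕ, ∑ y ∈ Finset.Icc (-(h : ℤ)) h, (iidLaw G).real (A 0 y) ≤ C := by
    intro h
    have h1 := hC A hAm hA h
    set f : ℤ → ℝ := fun y => (iidLaw G).real (A 0 y) with hf
    have hf0 : ∀ y, 0 ≤ f y := fun _ => measureReal_nonneg
    have hcovr : ∀ x y, (iidLaw G).real (A x y) = f (y - x) := fun x y => by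
      simp only [hf, measureReal_def, hcov x y]
    -- shear: pairs (x, x + d)
    have h2 : ((h : ℝ) + 1) * ∑ y ∈ Finset.Icc (-(h : ℤ)) h, f y ≤
        ∑ p ∈ Finset.Icc (-(h : ℤ)) h ×ˢ Finset.Icc (-(h : ℤ)) h, f (p.2 - p.1) := by
      rw [Finset.mul_sum]
      have h3 : ∀ d ∈ Finset.Icc (-(h : ℤ)) h, ((h : ℝ) + 1) * f d ≤
          ∑ p ∈ (Finset.Icc (-(h : ℤ)) h ×ˢ Finset.Icc (-(h : ℤ)) h).filter
            (fun p => p.2 - p.1 = d), f (p.2 - p.1) := by
        intro d hd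
        rw [Finset.mem_Icc] at hd
        have h4 : ∑ p ∈ (Finset.Icc (-(h : ℤ)) h ×ˢ Finset.Icc (-(h : ℤ)) h).filter
            (fun p => p.2 - p.1 = d), f (p.2 - p.1) =
            (((Finset.Icc (-(h : ℤ)) h ×ˢ Finset.Icc (-(h : ℤ)) h).filter
            (fun p => p.2 - p.1 = d)).card : ℝ) * f d := by
          rw [Finset.sum_congr rfl (g := fun _ => f d) (fun p hp => by
            rw [(Finset.mem_filter.1 hp).2]), Finset.sum_const, nsmul_eq_mul]
        rw [h4]
        refine mul_le_mul_of_nonneg_right ?_ (hf0 d)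
        have h5 : h + 1 ≤ ((Finset.Icc (-(h : ℤ)) h ×ˢ Finset.Icc (-(h : ℤ)) h).filter
            (fun p => p.2 - p.1 = d)).card := by
          -- injection from Icc
          rcases le_total 0 d with hd0 | hd0
          · have hsub : (Finset.Icc (-(h : ℤ)) 0).image (fun x => (x, x + d)) ⊆
                (Finset.Icc (-(h : ℤ)) h ×ˢ Finset.Icc (-(h : ℤ)) h).filter
                (fun p => p.2 - p.1 = d) := by
              intro p hp
              rw [Finset.mem_image] at hp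
              obtain ⟨x, hx, rfl⟩ := hp
              rw [Finset.mem_Icc] at hx
              rw [Finset.mem_filter, Finset.mem_product, Finset.mem_Icc, Finset.mem_Icc]
              refine ⟨⟨⟨hx.1, by omega⟩, ⟨?_, ?_⟩⟩, ?_⟩ <;> simp only <;> omega
            have hcard : ((Finset.Icc (-(h : ℤ)) 0).image (fun x => (x, x + d))).card = h + 1 := by
              rw [Finset.card_image_of_injective _ (fun x y hxy => (Prod.mk.inj hxy).1),
                Int.card_Icc]
              omega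
            rw [← hcard]
            exact Finset.card_le_card hsub
          · have hsub : (Finset.Icc 0 (h : ℤ)).image (fun x => (x, x + d)) ⊆
                (Finset.Icc (-(h : ℤ)) h ×ˢ Finset.Icc (-(h : ℤ)) h).filter
                (fun p => p.2 - p.1 = d) := by
              intro p hp
              rw [Finset.mem_image] at hp
              obtain ⟨x, hx, rfl⟩ := hp
              rw [Finset.mem_Icc] at hx
              rw [Finset.mem_filter, Finset.mem_product, Finset.mem_Icc, Finset.mem_Icc]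
              refine ⟨⟨⟨by omega, hx.2⟩, ⟨?_, ?_⟩⟩, ?_⟩ <;> simp only <;> omega
            have hcard : ((Finset.Icc 0 (h : ℤ)).image (fun x => (x, x + d))).card = h + 1 := by
              rw [Finset.card_image_of_injective _ (fun x y hxy => (Prod.mk.inj hxy).1),
                Int.card_Icc]
              omega
            rw [← hcard]
            exact Finset.card_le_card hsub
        exact_mod_cast h5
      refine (Finset.sum_le_sum h3).trans ?_
      rw [Finset.sum_fiberwise_eq_sum_filter]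
      refine Finset.sum_le_sum_of_subset_of_nonneg (Finset.filter_subset _ _) fun _ _ _ => hf0 _
    have h6 : ∑ p ∈ Finset.Icc (-(h : ℤ)) h ×ˢ Finset.Icc (-(h : ℤ)) h, f (p.2 - p.1) ≤
        C * (h + 1) := by
      refine le_trans (le_of_eq ?_) h1
      exact Finset.sum_congr rfl fun p _ => (hcovr p.1 p.2).symm
    have h7 : (0 : ℝ) < (h : ℝ) + 1 := by positivity
    have h8 := h2.trans h6
    rw [mul_comm C] at h8
    exact le_of_mul_le_mul_left h8 h7
  have htsum : ∑' y : ℤ, (iidLaw G) (A 0 y) ≤ ENNReal.ofReal C := by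
    rw [ENNReal.tsum_eq_iSup_sum]
    refine iSup_le fun s => ?_
    obtain ⟨h, hh⟩ : ∃ h : ℕ, s ⊆ Finset.Icc (-(h : ℤ)) h := by
      refine ⟨s.sup Int.natAbs, fun y hy => ?_⟩
      have h1 : y.natAbs ≤ s.sup Int.natAbs := Finset.le_sup (f := Int.natAbs) hy
      rw [Finset.mem_Icc]
      omega
    calc ∑ y ∈ s, (iidLaw G) (A 0 y) ≤ ∑ y ∈ Finset.Icc (-(h : ℤ)) h, (iidLaw G) (A 0 y) :=
          Finset.sum_le_sum_of_subset hh
      _ = ENNReal.ofReal (∑ y ∈ Finset.Icc (-(h : ℤ)) h, (iidLaw G).real (A 0 y)) := by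
          rw [ENNReal.ofReal_sum_of_nonneg fun _ _ => measureReal_nonneg]
          refine Finset.sum_congr rfl fun y _ => ?_
          rw [measureReal_def, ENNReal.ofReal_toReal (measure_ne_top _ _)]
      _ ≤ ENNReal.ofReal C := ENNReal.ofReal_le_ofReal (hbound h)
  refine ⟨htsum, ?_⟩
  exact ae_finite_setOfPred_mem (ne_top_of_le_ne_top ENNReal.ofReal_ne_top htsum)


/-- **LFE, covariant form, null measurable events**, given constants. -/
theorem lfe_cov_null_abc (h0 : G (Iio 0) = 0) {a b c : ℝ} (hab : a < b) (hc : 0 < c)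
    (hga : 0 < G.real (Iio a)) :
      ∀ K : ℝ, ∃ k0 : ℕ, ∀ k : ℕ, k0 ≤ k →
        ∀ L : Environment → Set ((ℤ → ℝ) × (ℤ → ℝ)),
        (∀ t t' : Environment, (∀ e, e ∉ strip k → t e = t' e) → L t = L t') → ClassHyp G L →
        ∀ (C3 : ℝ) (D : ℕ), 0 ≤ C3 → 1 ≤ D → ∃ C : ℝ, 0 ≤ C ∧
          ∀ A : ℤ → ℤ → Set Environment, (∀ x y, NullMeasurableSet (A x y) (iidLaw G)) →
          (∀ x y, (iidLaw G) (A x y) = (iidLaw G) (A 0 (y - x))) →
          (∀ x y, ∀ᵐ t ∂(iidLaw G), t ∈ A x y → Two k D K C3 c b L x y t) →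
          (∑' y : ℤ, (iidLaw G) (A 0 y) ≤ ENNReal.ofReal C) ∧
          ∀ᵐ t ∂(iidLaw G), {y : ℤ | t ∈ A 0 y}.Finite := by
  intro K
  obtain ⟨k0, hk0⟩ := lfe_cov_abc (G := G) h0 hab hc hga K
  refine ⟨k0, fun k hk L hL hclass C3 D hC3 hD => ?_⟩
  obtain ⟨C, hC0, hC⟩ := hk0 k hk L hL hclass C3 D hC3 hD
  refine ⟨C, hC0, fun A hAm hcov hA => ?_⟩
  have heq : ∀ x y, toMeasurable (iidLaw G) (A x y) =ᵐ[iidLaw G] A x y :=
    fun x y => (hAm x y).toMeasurable_ae_eq
  obtain ⟨h1, h2⟩ := hC (fun x y => toMeasurable (iidLaw G) (A x y))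
    (fun x y => measurableSet_toMeasurable _ _)
    (fun x y => by simp only [measure_toMeasurable]; exact hcov x y)
    (fun x y => by
      filter_upwards [hA x y, (heq x y).mem_iff] with t ht1 ht2 ht3
      exact ht1 (ht2.1 ht3))
  simp only [measure_toMeasurable] at h1
  refine ⟨h1, ?_⟩
  filter_upwards [h2] with t ht
  exact ht.subset fun y hy => subset_toMeasurable _ _ hy


end Prob

end Crest.Agent.R151.E39
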