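import Crest.Agent.R151.G338l

/-!
# R151 (S0214 part 2): (T1), (T2) for a fixed outer row (helper338)

`T1p` : small ball of `R#` of the outer row given the strips, from the law of the inner row;
`T2p` : exponential tail of `hull - ρ` given the strips.
-/

set_option autoImplicit false
set_option linter.unusedSectionVars false

open MeasureTheory Filter ProbabilityTheory Topology
open scoped ENNReal
open Crest.ProbabilityR.FirstPassage

namespace Crest.Agent.R151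

namespace Q

open K R78 B710 G338 M192

variable {μ : ℝ × ℝ → ℝ} {F : FlatData μ}



lemma measurable_hkR (h : Hwy F) (d : ℝ × ℝ) {I : Set ℝ} (hI : MeasurableSet I) (s s' : ℝ) :
    Measurable fun q : RowS => h.hk d I s s' q.1.1 q.1.2 q.2 :=
  h.meas_hk measurable_fst.fst measurable_fst.snd measurable_snd d hI s s'

lemma measurable_skR (h : Hwy F) (d : ℝ × ℝ) {I J : Set ℝ} (hI : MeasurableSet I)
    (hJ : MeasurableSet J) (L s s' : ℝ) :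
    Measurable fun q : RowS => h.sk d I J L s s' q.1.1 q.1.2 q.2 :=
  (measurable_hkR h d hI s s').sub (measurable_hkR h d hJ (-L) L)

lemma measurable_ski (h : Hwy F) (y : ℝ) {I : Set ℝ} (hI : MeasurableSet I) (L s s' : ℝ) :
    Measurable (ski h y I L s s') := measurable_skR h _ hI MeasurableSet.univ L s s'

lemma measurable_sko (h : Hwy F) (y g : ℝ) {I : Set ℝ} (hI : MeasurableSet I) (L s s' : ℝ) :
    Measurable (sko h y g I L s s') := measurable_skR h _ hI MeasurableSet.univ L s s'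

/-- the law of `R#` of the inner row given the outer row -/
theorem inner_ski {G : Measure ℝ} [IsProbabilityMeasure G] {h : Hwy F} {y g c Λ L : ℝ}
    (hg : Geo h y g c Λ L) {I : Set ℝ} (hI : MeasurableSet I) (s s' : ℝ) (p : RowS) {B : Set ℝ}
    (hB : MeasurableSet B) :
    (PR G).real {r | h.sk (y • F.b) I Set.univ L s s' (p.1.1 - offv F g c r.1.1)
      (cenv h (dOv F y g) p r) r.2 ∈ B} = (PR G).real {q | ski h y I L s s' q ∈ B} := by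
  have hyb : h.wH < F.be (y • F.b) := by simpa using hg.y_big
  exact inner_prob (G := G) h (dOv F y g)
    (f := fun θ t φ => h.sk (y • F.b) I Set.univ L s s' θ t φ)
    (measurable_ski h y hI L s s') (fun φ => Hwy.sk_inv h _ I Set.univ L s s' φ)
    (E := fun θ => edgesIn (h.band (y • F.b) θ))
    (fun θ φ => Hwy.sk_loc h hyb I Set.univ L s s' θ φ) (g • F.b + c • F.a) p
    (fun η hη => hg.disj p.1.1 (norm_jitter hη)) hB



/-- monotonicity of the gap fence error in the region and in the labels -/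
lemma gE_mono {h : Hwy F} {d : ℝ × ℝ} {I I' : Set ℝ} (hI : I ⊆ I') {L s s₁ s' s₁' : ℝ}
    (hs : s₁ ≤ s) (hs' : s' ≤ s₁') {θ : ℝ × ℝ} {t : Environment} {φ : ℝ × ℝ} (ht : Nn t)
    (hne : (routes t (h.Lo θ t φ) (h.Up d θ t φ) (rg F I θ) (h.iL s θ t φ)
      (h.iU d s' θ t φ)).Nonempty) : h.gE d I' L s₁ s₁' θ t φ ≤ h.gE d I L s s' θ t φ := by
  have := Hwy.hk_mono (h := h) ht d hI hs hs' hne
  unfold Hwy.gE
  linarith

/-- nonemptiness of routes is monotone -/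
lemma routes_mono_ne {h : Hwy F} {d : ℝ × ℝ} {I I' : Set ℝ} (hI : I ⊆ I') {s s₁ s' s₁' : ℝ}
    (hs : s₁ ≤ s) (hs' : s' ≤ s₁') {θ : ℝ × ℝ} {t : Environment} {φ : ℝ × ℝ}
    (hne : (routes t (h.Lo θ t φ) (h.Up d θ t φ) (rg F I θ) (h.iL s θ t φ)
      (h.iU d s' θ t φ)).Nonempty) :
    (routes t (h.Lo θ t φ) (h.Up d θ t φ) (rg F I' θ) (h.iL s₁ θ t φ)
      (h.iU d s₁' θ t φ)).Nonempty :=
  hne.mono (routes_mono (fun _ hv => hI hv) (h.ix_mono hs _ _ _) (h.ix_mono hs' _ _ _))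

lemma Rt.mono {h : Hwy F} {d : ℝ × ℝ} {I I' : Set ℝ} {s s₁ s' s₁' : ℝ} (hne : Rt h d I s s')
    (hI : I ⊆ I') (hs : s₁ ≤ s) (hs' : s' ≤ s₁') : Rt h d I' s₁ s₁' := fun θ t φ =>
  routes_mono_ne hI hs hs' (hne θ t φ)

/-- region of the upper gap in its own coordinates -/
noncomputable def Iup (F : FlatData μ) (y g c α β : ℝ) (η : ℝ × ℝ) : Set ℝ :=
  Set.Icc (α - F.al (offv F g c η) - F.al (y • F.b)) (β - F.al (offv F g c η) - F.al (y • F.b))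

/-- upper bound of `R#` of the outer row in terms of the inner row, for one environment -/
theorem sko_le {h : Hwy F} {y g c Λ L : ℝ} (hg : Geo h y g c Λ L)
    {α β σ σ' αi βi : ℝ} {s s' : ℝ}
    {α₀ β₀ a₀ b₀ α₁ β₁ a₁ b₁ : ℝ}
    (hα₀ : α ≤ α₀) (hβ₀ : β₀ ≤ β) (ha₀ : s ≤ a₀) (hb₀ : b₀ ≤ σ)
    (hα₁ : α ≤ α₁) (hβ₁ : β₁ ≤ β) (ha₁ : σ' ≤ a₁) (hb₁ : b₁ ≤ s')
    (hαi : α + cF F - c ≤ αi) (hβi : βi ≤ β - cF F - c)
    (hne0 : ∀ η, ‖η‖ ≤ 1 → Rt h (offv F g c η) (Set.Icc α₀ β₀) a₀ b₀)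
    (hne2 : ∀ η, ‖η‖ ≤ 1 → Rt h (Hwy.dU (offv F g c η) (y • F.b) (dOv F y g))
      (Iup F y g c α₁ β₁ η) a₁ b₁)
    (hnei : Rt h (y • F.b) (Set.Icc αi βi) σ σ')
    (hneJ : Rt h (dOv F y g) (Jw Λ) (-L) L)
    {q : RowS} (hq : Nn q.1.2) {r : (ℝ × ℝ) × (ℝ × ℝ)} (hη : ‖r.1‖ ≤ 1) :
    sko h y g (Set.Icc (α - h.κ) (β + h.κ)) L s s' q ≤
      obLo h g c α₀ β₀ L a₀ b₀ q.1.1 q.1.2 q.2 r +
      h.sk (y • F.b) (Set.Icc αi βi) Set.univ L σ σ' (q.1.1 - offv F g c r.1) q.1.2 r.2 +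
      obUp h y g c α₁ β₁ L a₁ b₁ q.1.1 q.1.2 q.2 r + obJ h y g Λ L q.1.1 q.1.2 q.2 r := by
  have ha := abs_le.1 (abs_al_le' F hη)
  have e0 : F.al (y • F.b) = 0 := by simp
  have hsub0 : Set.Icc α₀ β₀ ⊆ Set.Icc α β := Set.Icc_subset_Icc hα₀ hβ₀
  have hsubi : Set.Icc αi βi ⊆ Set.Icc (α - F.al (offv F g c r.1)) (β - F.al (offv F g c r.1)) := by
    rw [al_offv]
    apply Set.Icc_subset_Icc
    · linarith [ha.1]
    · linarith [ha.2]
  have hsub2 : Iup F y g c α₁ β₁ r.1 ⊆ Set.Icc (α - F.al (offv F g c r.1) - F.al (y • F.b))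
      (β - F.al (offv F g c r.1) - F.al (y • F.b)) := by
    unfold Iup
    apply Set.Icc_subset_Icc <;> linarith
  have n0 := hne0 r.1 hη q.1.1 q.1.2 (Hwy.φlo q.2 r.2)
  have n1 := hnei (q.1.1 - offv F g c r.1) q.1.2 r.2
  have n2 := hne2 r.1 hη (q.1.1 - offv F g c r.1 - y • F.b) q.1.2 (Hwy.φup q.2 r.2)
  have hJ := hneJ q.1.1 q.1.2 q.2
  have m0 := routes_mono_ne (s₁ := s) (s₁' := σ) hsub0 ha₀ hb₀ n0
  have m1 := routes_mono_ne (s₁ := σ) (s₁' := σ') hsubi le_rfl le_rfl n1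
  have m2 := routes_mono_ne (s₁ := σ') (s₁' := s') hsub2 ha₁ hb₁ n2
  have up := Hwy.upper_close (h := h) (θ := q.1.1) (t := q.1.2) (φ := q.2) (φ₁ := r.2) hq
    (hg.sep4 hη) (α := α) (β := β) (s := s) (s₁ := σ) (s₂ := σ') (s' := s') (L := L) (Jw Λ)
    m0 m1 m2
  have hK := Hwy.K0_nonpos (h := h) (θ := q.1.1) (t := q.1.2) (φ := q.2) (φ₁ := r.2) hq
    (hg.sep4 hη) (hg.winC hη) (J := Jw Λ) (fun x hx => abs_le_of_mem_Jw hx) hJ
  have g0 := gE_mono (h := h) (L := L) hsub0 ha₀ hb₀ hq n0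
  have g2 := gE_mono (h := h) (L := L) hsub2 ha₁ hb₁ hq n2
  have gi : h.sk (y • F.b) (Set.Icc (α - F.al (offv F g c r.1)) (β - F.al (offv F g c r.1)))
      Set.univ L σ σ' (q.1.1 - offv F g c r.1) q.1.2 r.2 ≤
      h.sk (y • F.b) (Set.Icc αi βi) Set.univ L σ σ' (q.1.1 - offv F g c r.1) q.1.2 r.2 := by
    have := Hwy.hk_mono (h := h) hq (y • F.b) hsubi (le_refl σ) (le_refl σ') n1
    unfold Hwy.sk
    linarith
  have e1 : sko h y g (Set.Icc (α - h.κ) (β + h.κ)) L s s' q =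
      (h.hk (dOv F y g) (Set.Icc (α - h.κ) (β + h.κ)) s s' q.1.1 q.1.2 q.2 -
        h.hk (dOv F y g) (Jw Λ) (-L) L q.1.1 q.1.2 q.2) + obJ h y g Λ L q.1.1 q.1.2 q.2 r := by
    unfold sko Hwy.sk obJ
    ring
  rw [e1]
  have g0' : h.gE (offv F g c r.1) (Set.Icc α β) L s σ q.1.1 q.1.2 (Hwy.φlo q.2 r.2) ≤
    obLo h g c α₀ β₀ L a₀ b₀ q.1.1 q.1.2 q.2 r := g0
  have g2' : h.gE (Hwy.dU (offv F g c r.1) (y • F.b) (dOv F y g))
      (Set.Icc (α - F.al (offv F g c r.1) - F.al (y • F.b))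
        (β - F.al (offv F g c r.1) - F.al (y • F.b))) L σ' s'
      (q.1.1 - offv F g c r.1 - y • F.b) q.1.2 (Hwy.φup q.2 r.2) ≤
    obUp h y g c α₁ β₁ L a₁ b₁ q.1.1 q.1.2 q.2 r := g2
  clear g0 g2 n0 n1 n2 m0 m1 m2 hJ hsub0 hsubi hsub2 hne0 hne2 hnei hneJ e1 e0 ha
  generalize obLo h g c α₀ β₀ L a₀ b₀ q.1.1 q.1.2 q.2 r = X1 at *
  generalize obUp h y g c α₁ β₁ L a₁ b₁ q.1.1 q.1.2 q.2 r = X2 at *
  generalize obJ h y g Λ L q.1.1 q.1.2 q.2 r = X3 at *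
  generalize h.gE (offv F g c r.1) (Set.Icc α β) L s σ q.1.1 q.1.2 (Hwy.φlo q.2 r.2) = X4 at *
  generalize h.K0 (offv F g c r.1) (y • F.b) (dOv F y g) (Jw Λ) L q.1.1 q.1.2 q.2 r.2 = X5 at *
  linarith


end Q

end Crest.Agent.R151
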