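import Crest.Agent.R151.J69i
import Crest.Agent.R151.NF3
import Crest.Agent.R151.C710l
import Crest.Agent.R151.NF2

-- ▼ part R151/J684a
section

/-!
# R151/J684a — crude moves of the strategy along the lower highway; the lower bound
(owner helper684)

* `gV_le_of_le`, `gV_le_of_ge` : the value functions at two labels differ by the highway between;
* `eV_mono`, `eV_le` : means;
* `eV_low` : `N P rate - C ≤ eV N 0` : definition of the rate of the lane.
-/

set_option autoImplicit false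

open MeasureTheory Filter ProbabilityTheory
open Crest.ProbabilityR.FirstPassage
open Crest.Agent.R151.K Crest.Agent.R151.Q

namespace Crest.Agent.R151.J684

open B710 (FlatData)
open R78 (V Wk IsHwy hc hp)
open M192 (frame frame_al frame_be al_pos be_pos isStrip)
open J69 (O2 Ph2 P2 Fg Ins Lam exL gV Vv endv Y_add Y_eq_cst)

variable {μ : ℝ × ℝ → ℝ} {F : FlatData μ} (h : Hwy F)

/-- the vertices of the highway between two labels are in the half-lane -/
lemma seg_mem_Lam {W g s s' : ℝ} (hg : h.wH / 2 + 5 * cF F ≤ g) (hs : Ins h W s)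
    (hs' : Ins h W s') {ξ η : ℝ × ℝ} (hη : ‖η‖ ≤ 1) {u : ℝ} {t : Environment} {k : ℤ}
    (h1 : h.ix s u (ξ - g • F.b - η) t ≤ k) (h2 : k ≤ h.ix s' u (ξ - g • F.b - η) t) :
    h.H u (ξ - g • F.b - η) t k ∈ Lam F W ξ := by
  set θ := ξ - g • F.b - η with hθ
  have e : ξ - θ = g • F.b + η := by rw [hθ]; abel
  have ea : F.al (pos ξ (h.H u θ t k)) = F.al (pos θ (h.H u θ t k)) + F.al η := by
    have : F.al (ξ - θ) = F.al η := by rw [e, map_add, map_smul, F.al_b, smul_zero, zero_add]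
    rw [map_sub] at this
    rw [al_pos, al_pos]; linarith
  have eb : F.be (pos ξ (h.H u θ t k)) = F.be (pos θ (h.H u θ t k)) + (g + F.be η) := by
    have : F.be (ξ - θ) = g + F.be η := by
      rw [e, map_add, map_smul, F.be_b, smul_eq_mul, mul_one]
    rw [map_sub] at this
    rw [be_pos, be_pos]; linarith
  have b1 := abs_le.1 (abs_al_le' F hη)
  have b2 := abs_le.1 (abs_be_le' F hη)
  have b3 := abs_le.1 (h.strip u θ t k)
  have c1 := h.back u θ t _ _ h1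
  have c2 := J69.le_al_x h s u θ t
  have c3 := h.back u θ t _ _ h2
  have c4 := h.al_x_le s' u θ t
  have d1 := abs_le.1 hs
  have d2 := abs_le.1 hs'
  have hc := cF_nonneg F
  have hk := h.κ_nonneg
  unfold Hwy.x at c2
  refine ⟨?_, ?_⟩
  · rw [ea, abs_le]
    constructor <;> linarith [b1.1, b1.2, d1.1, d1.2, d2.1, d2.2]
  · rw [eb]; linarith [b2.1, b3.1]

/-- forward move along the lower highway -/
lemma exL_fwd {W g s s' : ℝ} (hg : h.wH / 2 + 5 * cF F ≤ g) (hs : Ins h W s)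
    (hs' : Ins h W s') (hss : s ≤ s') {ξ η : ℝ × ℝ} (hη : ‖η‖ ≤ 1) {u : ℝ} {t : Environment}
    (ht : Nn t) :
    Conn (Lam F W ξ) (h.x s u (ξ - g • F.b - η) t) (h.x s' u (ξ - g • F.b - η) t) ∧
      pR t (Lam F W ξ) (h.x s u (ξ - g • F.b - η) t) (h.x s' u (ξ - g • F.b - η) t) ≤
        h.cst s s' u (ξ - g • F.b - η) t := by
  obtain ⟨w, hw, hw'⟩ := (h.isHwy u (ξ - g • F.b - η) t).exists_seg
    (J69.ix_mono h hss u (ξ - g • F.b - η) t)
  have hsup : ∀ v ∈ w.support, v ∈ Lam F W ξ := by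
    intro v hv
    obtain ⟨k, h1, h2, rfl⟩ := (hw' v).1 hv
    exact seg_mem_Lam h hg hs hs' hη h1 h2
  exact ⟨⟨w, hsup⟩, (pR_le ht w hsup).trans_eq (hw t)⟩

section pt

variable {W P g L s s' : ℝ} {ξ η : ℝ × ℝ} {u : ℝ} {t : Environment} {N : ℕ}

lemma conn_end (hP : 0 ≤ P) (hg : h.wH / 2 + 5 * cF F ≤ g) (hs : Ins h W s) (hη : ‖η‖ ≤ 1) :
    Conn (Lam F W ξ) (h.x s u (ξ - g • F.b - η) t) (endv F P g N ξ) := by
  have hc := cF_nonneg F
  have hw := J69.wH_nonneg2 h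
  have hκ := h.κ_nonneg
  have hM' : J69.MPar h ((h.wH + 1 + 2 * g) / 1) g (h.wH + 1) 1 :=
    ⟨hg, by linarith, by push_cast; ring, by rw [div_one]; linarith⟩
  obtain ⟨a, b⟩ := J69.conn_x0 h hM' (ξ := ξ) (u := u) (t := t) hs hη
  obtain ⟨c1, c2⟩ := J69.endv_bounds (F := F) P g N ξ
  have hNP : 0 ≤ N * P := mul_nonneg (Nat.cast_nonneg N) hP
  have hW : 6 * cF F ≤ W / 2 := by
    have := (abs_nonneg s).trans hs
    linarith
  exact J69.conn_Lam (by linarith) (by linarith) (by linarith) (by linarith)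

/-- moving the starting label to the right does not cost anything -/
lemma gV_le_of_le (hP : 0 ≤ P) (hg : h.wH / 2 + 5 * cF F ≤ g) (hs : Ins h W s)
    (hs' : Ins h W s') (hss : s ≤ s') (hη : ‖η‖ ≤ 1) (ht : Nn t) :
    gV h W P g L N s ξ (ξ - g • F.b - η) u t ≤ gV h W P g L N s' ξ (ξ - g • F.b - η) u t := by
  obtain ⟨h1, h2⟩ := exL_fwd h hg hs hs' hss (ξ := ξ) (u := u) hη ht
  have h3 := J69.exL_triangle ht h1 (conn_end h hP hg hs' (ξ := ξ) (u := u) (t := t) (N := N) hη)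
  have h4 := Y_add h (-L) s s' u (ξ - g • F.b - η) t
  have h5 := Y_eq_cst h s s' u (ξ - g • F.b - η) t
  unfold gV
  rw [J69.Vv_eq, J69.Vv_eq]
  have h6 : exL F W ξ t (h.x s u (ξ - g • F.b - η) t) (h.x s' u (ξ - g • F.b - η) t) ≤
      h.Y s s' u (ξ - g • F.b - η) t := by
    unfold exL; linarith
  linarith

/-- moving the starting label to the left costs at most twice the excess of the highway, plus
the potential -/
lemma gV_le_of_ge (hP : 0 ≤ P) (hg : h.wH / 2 + 5 * cF F ≤ g) (hs : Ins h W s)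
    (hs' : Ins h W s') (hss : s ≤ s') (hη : ‖η‖ ≤ 1) (ht : Nn t) {D : ℝ}
    (hD : phi F (h.x s' u (ξ - g • F.b - η) t) - phi F (h.x s u (ξ - g • F.b - η) t) ≤ D) :
    gV h W P g L N s' ξ (ξ - g • F.b - η) u t ≤ gV h W P g L N s ξ (ξ - g • F.b - η) u t +
      2 * h.Y s s' u (ξ - g • F.b - η) t + 2 * D := by
  obtain ⟨h1, h2⟩ := exL_fwd h hg hs hs' hss (ξ := ξ) (u := u) hη ht
  have h3 := J69.exL_triangle ht h1.symm
    (conn_end h hP hg hs (ξ := ξ) (u := u) (t := t) (N := N) hη)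
  have h4 := Y_add h (-L) s s' u (ξ - g • F.b - η) t
  have h5 := Y_eq_cst h s s' u (ξ - g • F.b - η) t
  unfold gV
  rw [J69.Vv_eq, J69.Vv_eq]
  have h6 : exL F W ξ t (h.x s' u (ξ - g • F.b - η) t) (h.x s u (ξ - g • F.b - η) t) ≤
      h.Y s s' u (ξ - g • F.b - η) t + 2 * D := by
    unfold exL
    rw [pR_symm ht]; linarith
  linarith

end pt

/-- bound of the potential difference between two labels -/
noncomputable def DD (h : Hwy F) (s s' : ℝ) : ℝ := ‖F.ρ‖ * (M56.Rx h s + M56.Rx h s')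

lemma phi_sub_le (s s' u : ℝ) (θ : ℝ × ℝ) (t : Environment) :
    phi F (h.x s' u θ t) - phi F (h.x s u θ t) ≤ DD h s s' := by
  have e : phi F (h.x s' u θ t) - phi F (h.x s u θ t) =
      F.ρ (pos θ (h.x s' u θ t)) - F.ρ (pos θ (h.x s u θ t)) := by
    unfold phi pos
    rw [map_add, map_add]; ring
  rw [e]
  have h1 := (F.ρ.le_opNorm (pos θ (h.x s' u θ t))).trans
    (mul_le_mul_of_nonneg_left (M56.norm_x h s' u θ t) (norm_nonneg F.ρ))
  have h2 := (F.ρ.le_opNorm (pos θ (h.x s u θ t))).trans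
    (mul_le_mul_of_nonneg_left (M56.norm_x h s u θ t) (norm_nonneg F.ρ))
  rw [Real.norm_eq_abs] at h1 h2
  unfold DD
  linarith [le_abs_self (F.ρ (pos θ (h.x s' u θ t))), neg_abs_le (F.ρ (pos θ (h.x s u θ t)))]

variable {G : Measure ℝ} [IsProbabilityMeasure G]

section means

variable (h0 : G (Set.Iio 0) = 0) (h1 : Integrable (fun x : ℝ => x) G) {ε : ℝ}
  (hm : HwyMean G h ε) {W P g L s s' : ℝ} {N : ℕ}
include h0 h1 hm

theorem eV_mono (hP : 0 ≤ P) (hg : h.wH / 2 + 5 * cF F ≤ g) (hs : Ins h W s)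
    (hs' : Ins h W s') (hss : s ≤ s') :
    ∫ q : O2, Fg h W P g L N s q.1.1 q.1.2 q.2 ∂(P2 G) ≤
      ∫ q : O2, Fg h W P g L N s' q.1.1 q.1.2 q.2 ∂(P2 G) := by
  refine integral_mono_ae (J69.Fg_int h h0 h1 hm hP hg hs N) (J69.Fg_int h h0 h1 hm hP hg hs' N) ?_
  filter_upwards [J69.ae_P2 (G := G) h0] with q hq
  exact gV_le_of_le h hP hg hs hs' hss (norm_jitter hq.2.2) hq.1

theorem eV_le (hP : 0 ≤ P) (hg : h.wH / 2 + 5 * cF F ≤ g) (hs : Ins h W s)
    (hs' : Ins h W s') (hss : s ≤ s') :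
    ∫ q : O2, Fg h W P g L N s' q.1.1 q.1.2 q.2 ∂(P2 G) ≤
      ∫ q : O2, Fg h W P g L N s q.1.1 q.1.2 q.2 ∂(P2 G) + 2 * ((s' - s) * ε) +
        2 * DD h s s' := by
  obtain ⟨i1, i2⟩ := J69.Y_jit h hm (g • F.b) s s'
  have i3 := J69.Fg_int h h0 h1 hm (L := L) hP hg hs N
  have i4 := J69.Fg_int h h0 h1 hm (L := L) hP hg hs' N
  have i5 : Integrable (fun q : O2 => Fg h W P g L N s q.1.1 q.1.2 q.2 +
      2 * h.Y s s' q.2.2 (q.1.1 - g • F.b - q.2.1) q.1.2) (P2 G) := i3.add (i1.const_mul 2)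
  have key : ∫ q : O2, Fg h W P g L N s' q.1.1 q.1.2 q.2 ∂(P2 G) ≤
      ∫ q : O2, ((Fg h W P g L N s q.1.1 q.1.2 q.2 +
        2 * h.Y s s' q.2.2 (q.1.1 - g • F.b - q.2.1) q.1.2) + 2 * DD h s s') ∂(P2 G) := by
    refine integral_mono_ae i4 (i5.add (integrable_const _)) ?_
    filter_upwards [J69.ae_P2 (G := G) h0] with q hq
    exact gV_le_of_ge h hP hg hs hs' hss (norm_jitter hq.2.2) hq.1
      (phi_sub_le h s s' q.2.2 _ q.1.2)
  rw [integral_add i5 (integrable_const _), integral_add i3 (i1.const_mul 2), integral_const_mul,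
    i2, integral_const, probReal_univ, one_smul] at key
  linarith

end means

end Crest.Agent.R151.J684
end

-- ▼ part R151/J684b
section

/-!
# R151/J684b — the lower bound of the value function: rate of the lane (owner helper684)

`eV_low` : `(N P + g) rate - C ≤ eV N s`.
-/

set_option autoImplicit false

open MeasureTheory Filter ProbabilityTheory
open Crest.ProbabilityR.FirstPassage
open Crest.Agent.R151.K Crest.Agent.R151.Q

namespace Crest.Agent.R151.J684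

open B710 (FlatData)
open R78 (V Wk IsHwy hc hp)
open M192 (frame frame_al frame_be al_pos be_pos isStrip)
open J69 (O2 Ph2 P2 Fg Ins Lam exL gV Vv endv Y_add Y_eq_cst)

variable {μ : ℝ × ℝ → ℝ} {F : FlatData μ} (h : Hwy F)

lemma Lam_sub_laneB (F : FlatData μ) (W : ℝ) (θ : ℝ × ℝ) : Lam F W θ ⊆ laneB F W θ :=
  fun _ hz => hz.1

lemma endv_zero (F : FlatData μ) (P g : ℝ) (θ : ℝ × ℝ) :
    endv F P g 0 θ = nr (θ - g • F.b) := by
  unfold endv
  simp

lemma norm_pos_x' {g s u : ℝ} {ξ η : ℝ × ℝ} {t : Environment} (hη : ‖η‖ ≤ 1) :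
    ‖pos ξ (h.x s u (ξ - g • F.b - η) t)‖ ≤ M56.Rx h s + |g| * ‖F.b‖ + 1 := by
  have e : pos ξ (h.x s u (ξ - g • F.b - η) t) =
      pos (ξ - g • F.b - η) (h.x s u (ξ - g • F.b - η) t) + (g • F.b + η) := by
    unfold pos; abel
  rw [e]
  refine (norm_add_le _ _).trans ?_
  have h1 := M56.norm_x h s u (ξ - g • F.b - η) t
  have h2 := norm_add_le (g • F.b) η
  rw [norm_smul, Real.norm_eq_abs] at h2
  linarith

/-- the potential between `x_s` and the end vertex -/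
lemma phi_end_le {P g s u : ℝ} {N : ℕ} {ξ η : ℝ × ℝ} {t : Environment} (hη : ‖η‖ ≤ 1) :
    phi F (endv F P g N ξ) - phi F (h.x s u (ξ - g • F.b - η) t) ≤
      (N * P + g) + ‖F.ρ‖ * (1 / 2 + (M56.Rx h s + |g| * ‖F.b‖ + 1)) := by
  set θ' := ξ - (N * P + g) • F.b with hθ'
  have e1 : phi F (endv F P g N ξ) = F.ρ (pos θ' (nr θ')) - F.ρ ξ + (N * P + g) := by
    have : endv F P g N ξ = nr θ' := rfl
    rw [this]
    unfold phi pos
    rw [map_add, hθ', map_sub, map_smul, F.ρ_b, smul_eq_mul]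
    ring
  have e2 : phi F (h.x s u (ξ - g • F.b - η) t) =
      F.ρ (pos ξ (h.x s u (ξ - g • F.b - η) t)) - F.ρ ξ := by
    unfold phi pos
    rw [map_add]; ring
  have h1 := (F.ρ.le_opNorm (pos θ' (nr θ'))).trans
    (mul_le_mul_of_nonneg_left (norm_pos_nr θ') (norm_nonneg F.ρ))
  have h2 := (F.ρ.le_opNorm (pos ξ (h.x s u (ξ - g • F.b - η) t))).trans
    (mul_le_mul_of_nonneg_left (norm_pos_x' h (g := g) (s := s) (u := u) (ξ := ξ) (t := t) hη)
      (norm_nonneg F.ρ))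
  rw [Real.norm_eq_abs] at h1 h2
  rw [e1, e2]
  have h3 := le_abs_self (F.ρ (pos θ' (nr θ')))
  have h4 := neg_abs_le (F.ρ (pos ξ (h.x s u (ξ - g • F.b - η) t)))
  linarith

variable {G : Measure ℝ} [IsProbabilityMeasure G]

section pt

variable (h0 : G (Set.Iio 0) = 0) (h2 : Integrable (fun x : ℝ => x ^ 2) G)
include h0 h2

/-- the lane passage time `0 → N P + g` through `x_s` -/
lemma pL_le {W P g s u : ℝ} {N : ℕ} (hP : 0 ≤ P) (hg : h.wH / 2 + 5 * cF F ≤ g)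
    (hs : Ins h W s) (hW : 2 * C710.fn F.al ≤ W) {ξ η : ℝ × ℝ} (hη : ‖η‖ ≤ 1) {t : Environment}
    (ht : Nn t) :
    C710.pL F W (N * P + g) ξ t ≤ C710.pL F W g ξ t +
      pR t (Lam F W ξ) (endv F P g 0 ξ) (h.x s u (ξ - g • F.b - η) t) +
      pR t (Lam F W ξ) (h.x s u (ξ - g • F.b - η) t) (endv F P g N ξ) := by
  have c0 := (C710.pL_theta (G := G) h0 h2 F hW g ξ).1
  rw [← endv_zero F P g ξ] at c0
  have c1 : Conn (Lam F W ξ) (endv F P g 0 ξ) (h.x s u (ξ - g • F.b - η) t) :=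
    (conn_end h hP hg hs hη).symm
  have c2 : Conn (Lam F W ξ) (h.x s u (ξ - g • F.b - η) t) (endv F P g N ξ) :=
    conn_end h hP hg hs hη
  have hsub := Lam_sub_laneB F W ξ
  have t1 := pR_triangle ht c0 ((c1.trans c2).mono hsub)
  have t2 := pR_anti ht hsub (c1.trans c2)
  have t3 := pR_triangle ht c1 c2
  have e1 : C710.pL F W (N * P + g) ξ t = pR t (laneB F W ξ) (nr ξ) (endv F P g N ξ) := rfl
  have e2 : C710.pL F W g ξ t = pR t (laneB F W ξ) (nr ξ) (endv F P g 0 ξ) := by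
    rw [endv_zero]; rfl
  rw [e1, e2]
  linarith

end pt

/-- integrability of the passage times in the half-lane between `x_s` and the end vertices -/
lemma int_pR_end (h0 : G (Set.Iio 0) = 0) (h1 : Integrable (fun x : ℝ => x) G) {W P g s : ℝ}
    (hP : 0 ≤ P) (hg : h.wH / 2 + 5 * cF F ≤ g) (hs : Ins h W s) (N : ℕ) :
    Integrable (fun q : O2 => pR q.1.2 (Lam F W q.1.1)
      (h.x s q.2.2 (q.1.1 - g • F.b - q.2.1) q.1.2) (endv F P g N q.1.1)) (P2 G) := by
  obtain ⟨M1, hM1⟩ := J69.mem_box_x h (g • F.b) s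
  obtain ⟨M2, hM2⟩ := J69.mem_box_endv F P g N
  set M := max M1 M2
  have hx : Measurable fun q : O2 => h.x s q.2.2 (q.1.1 - g • F.b - q.2.1) q.1.2 :=
    J69.meas_x h (((measurable_fst.comp measurable_fst).sub_const _).sub
      (measurable_fst.comp measurable_snd)) (measurable_snd.comp measurable_snd)
      (measurable_snd.comp measurable_fst) s
  have he : Measurable fun q : O2 => endv F P g N q.1.1 :=
    J69.meas_endv (F := F) (measurable_fst.comp measurable_fst) P g N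
  have hc := cF_nonneg F
  have hκ := h.κ_nonneg
  have hW : 6 * cF F ≤ W / 2 := by
    have := (abs_nonneg s).trans hs
    linarith
  refine J69.integrable_pR_Lam (F := F) (UU2.prod UU) h0 h1 (W := W) (M := M) hx he ?_
  filter_upwards [J69.ae_P2 (G := G) h0] with q hq
  have hη := norm_jitter hq.2.2
  have hNP : 0 ≤ N * P := mul_nonneg (Nat.cast_nonneg N) hP
  have hw := J69.wH_nonneg2 h
  obtain ⟨c1, c2⟩ := J69.endv_bounds (F := F) P g N q.1.1
  have hM' : J69.MPar h ((h.wH + 1 + 2 * g) / 1) g (h.wH + 1) 1 :=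
    ⟨hg, by linarith, by push_cast; ring, by rw [div_one]; linarith⟩
  exact ⟨J69.box_mono (le_max_left _ _) (hM1 _ _ _ _ hq.2.1 hη),
    J69.box_mono (le_max_right _ _) (hM2 _ hq.2.1), J69.conn_x0 h hM' hs hη,
    ⟨by linarith, by linarith⟩⟩

/-- **definition of the rate of the lane** -/
theorem eV_low (h0 : G (Set.Iio 0) = 0) (h1 : Integrable (fun x : ℝ => x) G)
    (h2 : Integrable (fun x : ℝ => x ^ 2) G) (hμ : IsTC G μ) {ε : ℝ} (hm : HwyMean G h ε)
    {W P g L s : ℝ} (hP : 0 ≤ P) (hg : h.wH / 2 + 5 * cF F ≤ g) (hs : Ins h W s)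
    (hL : -L ≤ s) (hW : 2 * C710.fn F.al ≤ W) :
    ∃ C : ℝ, ∀ N : ℕ, (N * P + g) * rate G F W - C ≤
      ∫ q : O2, Fg h W P g L N s q.1.1 q.1.2 q.2 ∂(P2 G) := by
  have hg0 : 0 ≤ g := by
    have := J69.wH_nonneg2 h
    have := cF_nonneg F
    linarith
  -- the passage times of the lane
  have hmp : MeasurePreserving (fun q : O2 => q.1) (P2 G) (P0 G) := measurePreserving_fst
  have iL : ∀ y : ℝ, Integrable (fun q : O2 => C710.pL F W y q.1.1 q.1.2) (P2 G) ∧
      ∫ q : O2, C710.pL F W y q.1.1 q.1.2 ∂(P2 G) = eL G F W y + y := by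
    intro y
    have hi := C710.integrable_pL (G := G) h0 h2 F hW y
    refine ⟨hmp.integrable_comp_of_integrable hi, ?_⟩
    have := mp_integral hmp hi.aestronglyMeasurable
    rw [C710.eL_eq, sub_add_cancel, ← this]
  obtain ⟨iY, mY⟩ := J69.Y_jit h hm (g • F.b) (-L) s
  have iE := int_pR_end h h0 h1 hP hg hs (G := G)
  set C1 := ‖F.ρ‖ * (1 / 2 + (M56.Rx h s + |g| * ‖F.b‖ + 1)) with hC1
  set A := ∫ q : O2, pR q.1.2 (Lam F W q.1.1)
      (h.x s q.2.2 (q.1.1 - g • F.b - q.2.1) q.1.2) (endv F P g 0 q.1.1) ∂(P2 G) with hA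
  refine ⟨(eL G F W g + g) + A + C1, fun N => ?_⟩
  have i1 : Integrable (fun q : O2 => h.Y (-L) s q.2.2 (q.1.1 - g • F.b - q.2.1) q.1.2 +
      C710.pL F W (N * P + g) q.1.1 q.1.2) (P2 G) := iY.add (iL _).1
  have i2 : Integrable (fun q : O2 => h.Y (-L) s q.2.2 (q.1.1 - g • F.b - q.2.1) q.1.2 +
      C710.pL F W (N * P + g) q.1.1 q.1.2 - C710.pL F W g q.1.1 q.1.2) (P2 G) := i1.sub (iL _).1
  have i3 : Integrable (fun q : O2 => h.Y (-L) s q.2.2 (q.1.1 - g • F.b - q.2.1) q.1.2 +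
      C710.pL F W (N * P + g) q.1.1 q.1.2 - C710.pL F W g q.1.1 q.1.2 -
      pR q.1.2 (Lam F W q.1.1) (h.x s q.2.2 (q.1.1 - g • F.b - q.2.1) q.1.2)
        (endv F P g 0 q.1.1)) (P2 G) := i2.sub (iE 0)
  have key : ∫ q : O2, (h.Y (-L) s q.2.2 (q.1.1 - g • F.b - q.2.1) q.1.2 +
      C710.pL F W (N * P + g) q.1.1 q.1.2 - C710.pL F W g q.1.1 q.1.2 -
      pR q.1.2 (Lam F W q.1.1) (h.x s q.2.2 (q.1.1 - g • F.b - q.2.1) q.1.2)
        (endv F P g 0 q.1.1) - ((N * P + g) + C1)) ∂(P2 G) ≤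
      ∫ q : O2, Fg h W P g L N s q.1.1 q.1.2 q.2 ∂(P2 G) := by
    refine integral_mono_ae (i3.sub (integrable_const _))
      (J69.Fg_int h h0 h1 hm hP hg hs N) ?_
    filter_upwards [J69.ae_P2 (G := G) h0] with q hq
    have hη := norm_jitter hq.2.2
    have a1 := pL_le h (G := G) h0 h2 (N := N) (u := q.2.2) hP hg hs hW (ξ := q.1.1) hη hq.1
    have a2 := phi_end_le h (F := F) (P := P) (g := g) (s := s) (u := q.2.2) (N := N)
      (ξ := q.1.1) (t := q.1.2) hη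
    have a3 : Fg h W P g L N s q.1.1 q.1.2 q.2 =
        h.Y (-L) s q.2.2 (q.1.1 - g • F.b - q.2.1) q.1.2 +
        (pR q.1.2 (Lam F W q.1.1) (h.x s q.2.2 (q.1.1 - g • F.b - q.2.1) q.1.2)
          (endv F P g N q.1.1) - (phi F (endv F P g N q.1.1) -
          phi F (h.x s q.2.2 (q.1.1 - g • F.b - q.2.1) q.1.2))) := rfl
    have a4 := pR_symm hq.1 (Lam F W q.1.1) (endv F P g 0 q.1.1)
      (h.x s q.2.2 (q.1.1 - g • F.b - q.2.1) q.1.2)
    rw [a3]
    linarith
  rw [integral_sub i3 (integrable_const _), integral_sub i2 (iE 0), integral_sub i1 (iL _).1,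
    integral_add iY (iL _).1, (iL _).2, (iL _).2, mY, integral_const, probReal_univ, one_smul,
    ← hA] at key
  have hNP : 0 ≤ N * P + g := add_nonneg (mul_nonneg (Nat.cast_nonneg N) hP) hg0
  have hr := C710.rate_mul_le (G := G) h0 h2 hμ F hW hNP
  have hY0 : 0 ≤ (s - -L) * ε := mul_nonneg (by linarith) hm.nonneg
  nlinarith [hr, key]

end Crest.Agent.R151.J684
end

-- ▼ part R151/J684c
section

/-!
# R151/J684c — the fields `wmin, Acr, low, base_A, base_B, top` of `E191.Strategy` for `fS`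
(owner helper684)

`wmn W = W ^ (-2/3) / 4`; `strat_base`; `strat_of_rec` : the strategy from `recA` and `recB`.
-/

set_option autoImplicit false

open MeasureTheory Filter ProbabilityTheory Topology Set
open Crest.ProbabilityR.FirstPassage
open Crest.Agent.R151.K Crest.Agent.R151.Q

namespace Crest.Agent.R151.J684

open B710 (FlatData)
open NF
open J69 (O2 Ph2 P2 Fg Ins fS)

/-- minimal width of a fence of a B-row -/
noncomputable def wmn (W : ℝ) : ℝ := W ^ (-(2 / 3) : ℝ) / 4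

lemma wmn_pos {W : ℝ} (hW : 0 < W) : 0 < wmn W := by unfold wmn; positivity

lemma wmn_pow {W : ℝ} (hW : 0 < W) : 1 / (4 * wmn W) ^ 3 = W ^ 2 := by
  have e : 4 * wmn W = W ^ (-(2 / 3) : ℝ) := by unfold wmn; ring
  rw [e, ← Real.rpow_natCast, ← Real.rpow_mul hW.le]
  have : (-(2 / 3) : ℝ) * ((3 : ℕ) : ℝ) = -(2 : ℕ) := by norm_num
  rw [this, Real.rpow_neg hW.le, Real.rpow_natCast, one_div, inv_inv]



variable {μ : ℝ × ℝ → ℝ} {G : Measure ℝ} {F : FlatData μ} {w0 c0 K : ℝ}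

/-- the geometric hypotheses of the value function hold -/
structure Geo {p : NF.Num} (c : Cf G F w0 c0 K p) : Prop where
  hP : 0 ≤ c.P
  hg : c.h.wH / 2 + 5 * cF F ≤ c.g
  ins : ∀ s : ℝ, |s| ≤ 7 / 16 * p.W → Ins c.h p.W s
  hL : 0 ≤ c.L
  hW : 2 * C710.fn F.al ≤ p.W

/-- **all labels `|s| ≤ 7/16 W` are inside the half-lane** -/
theorem ev_geo : Ev fun p => ∀ c : Cf G F w0 c0 K p, Geo c := by
  refine ((((((ev_std (G := G) (F := F) (w0 := w0) (c0 := c0) (K := K)).and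
    (le_w (10 * cF F))).and (strip_le_gap fun _ _ _ _ _ _ => 1)).and
    (le_δ0 fun _ _ _ _ _ _ => 32 * |K|)).and
    (le_W fun _ _ _ _ _ _ _ _ => 32 * (6 * cF F))).and
    (le_W fun _ _ _ _ _ _ _ _ => 2 * C710.fn F.al)).mono
    fun p ⟨⟨⟨⟨⟨h1, h2⟩, h3⟩, h4⟩, h5⟩, h6⟩ c => ?_
  have hs := h1 c
  have hp := hs.toStd
  have hW : 0 < p.W := zero_lt_one.trans_le hp.W
  refine ⟨by linarith [hs.yA_ge, hs.y_pos], ?_, fun s hs' => ?_, hs.L_pos.le, h6⟩
  · rw [hs.wH_eq, c.g_eq]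
    linarith
  · have hκ : c.h.κ ≤ p.W / 32 := by
      refine c.κ_le.trans ?_
      have e1 : K * (p.δ0 * p.W) ≤ |K| * (p.δ0 * p.W) :=
        mul_le_mul_of_nonneg_right (le_abs_self K) (mul_pos hp.δ0_pos hW).le
      have e2 : 32 * |K| * p.δ0 * p.W ≤ 1 * p.W := mul_le_mul_of_nonneg_right h4 hW.le
      linarith
    unfold J69.Ins
    linarith

lemma fS_eq (h : Hwy F) (W P g L l : ℝ) (N : ℕ) (x : ℝ) :
    fS G h W P g L l N x = (∫ q : O2, Fg h W P g L N (x * W) q.1.1 q.1.2 q.2 ∂(P2 G)) / l := rfl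

variable [IsProbabilityMeasure G]

section

variable (h0 : G (Set.Iio 0) = 0) (h2 : Integrable (fun x : ℝ => x ^ 2) G) (hμ : IsTC G μ)
include h0 h2 hμ

/-- constant of the crude cost -/
noncomputable def CA (F : FlatData μ) : ℝ := 1 + 4 * ‖F.ρ‖ * (2 * ‖F.a‖ + ‖F.b‖)

omit h0 h2 hμ [IsProbabilityMeasure G] in
lemma CA_pos (F : FlatData μ) : 0 < CA F := by unfold CA; positivity

omit h0 h2 hμ [IsProbabilityMeasure G] in
/-- the crude cost is small compared with the cost of the thinnest fence -/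
theorem Acr_le (hc0 : 0 < c0) (C : ℝ) : Ev fun p => ∀ c : Cf G F w0 c0 K p,
    C * p.W / c.l + 152 ≤ 1 / (4 * wmn p.W) ^ 3 := by
  refine (((ev_std (G := G) (F := F) (w0 := w0) (c0 := c0) (K := K)).and
    (le_J fun _ _ _ _ _ _ _ => 4 * |C| / c0)).and
    (le_W fun _ _ _ _ _ _ _ _ => 304)).mono fun p ⟨⟨h1, h2⟩, h3⟩ c => ?_
  have hs := h1 c
  have hp := hs.toStd
  have hW : 0 < p.W := zero_lt_one.trans_le hp.W
  have hJ : 0 < p.J := zero_lt_one.trans_le hp.J
  rw [wmn_pow hW]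
  have hl : p.J * c0 / (2 * p.W) ≤ c.l := by
    refine le_trans ?_ hs.l_ge
    calc p.J * c0 / (2 * p.W) = p.J * p.W / 2 * (c0 / p.W ^ 2) := by field_simp
      _ ≤ p.J * p.W / 2 * c.rt := by
          refine mul_le_mul_of_nonneg_left hs.rt_ge (by positivity)
  have h4 : C * p.W / c.l ≤ p.W ^ 2 / 2 := by
    rw [div_le_iff₀ hs.l_pos]
    have e1 : p.W ^ 2 / 2 * (p.J * c0 / (2 * p.W)) ≤ p.W ^ 2 / 2 * c.l :=
      mul_le_mul_of_nonneg_left hl (by positivity)
    have e2 : p.W ^ 2 / 2 * (p.J * c0 / (2 * p.W)) = p.J * c0 / 4 * p.W := by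
      field_simp; ring
    rw [e2] at e1
    refine le_trans ?_ e1
    refine mul_le_mul_of_nonneg_right ?_ hW.le
    rw [div_le_iff₀ hc0] at h2
    linarith [le_abs_self C]
  have h5 : (152 : ℝ) ≤ p.W ^ 2 / 2 := by nlinarith [hp.W]
  linarith

/-- **the base fields of the strategy** -/
theorem strat_base (hc0 : 0 < c0) : Ev fun p => ∀ c : Cf G F w0 c0 K p,
    CA F * p.W / c.l + 152 ≤ 1 / (4 * wmn p.W) ^ 3 ∧ ∃ C' : ℝ,
      (∀ N : ℕ, (N : ℝ) - C' ≤ fS G c.h p.W c.P c.g c.L c.l N 0) ∧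
      (∀ N ≤ 1, ∀ x : ℝ, |x| ≤ 3 / 16 → fS G c.h p.W c.P c.g c.L c.l N x ≤ C') ∧
      (∀ (N : ℕ) (x : ℝ), |x| ≤ 3 / 16 → fS G c.h p.W c.P c.g c.L c.l N x ≤
        fS G c.h p.W c.P c.g c.L c.l N 0 + CA F * p.W / c.l) := by
  have h1 : Integrable (fun x : ℝ => x) G := integrable_id_of_sq h2
  refine (((((ev_geo (G := G) (F := F) (w0 := w0) (c0 := c0) (K := K)).and
    (ev_std (G := G) (F := F) (w0 := w0) (c0 := c0) (K := K))).and
    (Acr_le (G := G) (F := F) (w0 := w0) (K := K) hc0 (CA F))).and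
    (highway_le (G := G) (F := F) (w0 := w0) (K := K) hc0)).and
    ((le_J fun _ _ _ _ _ _ δ0 => 2 * (8 + 1 / c0) / δ0 ^ 3).and
      (le_W fun _ _ _ _ _ _ _ _ => M56.stp F))).mono
    fun p ⟨⟨⟨⟨hgeo, hstd⟩, hA⟩, hε⟩, hJ, hst⟩ c => ?_
  have hs := hstd c
  have hG := hgeo c
  have hp := hs.toStd
  have hW : 0 < p.W := zero_lt_one.trans_le hp.W
  have hJ0 : 0 < p.J := zero_lt_one.trans_le hp.J
  have hl := hs.l_pos
  have hm := c.mean
  -- `W ε ≤ W`
  have hWε : p.W * c.ε ≤ p.W := by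
    refine (hε c).trans ?_
    have e1 : 2 * (8 + 1 / c0) / p.δ0 ^ 3 / p.J ≤ 1 := by
      rw [div_le_one hJ0]; exact hJ
    calc 2 * (8 + 1 / c0) / p.δ0 ^ 3 / p.J * c.l ≤ 1 * c.l :=
          mul_le_mul_of_nonneg_right e1 hl.le
      _ ≤ p.W / p.J := by rw [one_mul]; exact hs.l_le
      _ ≤ p.W := div_le_self hW.le hp.J
  -- the top inequality
  have hI0 : Ins c.h p.W 0 := hG.ins 0 (by rw [abs_zero]; positivity)
  have htop : ∀ (N : ℕ) (x : ℝ), |x| ≤ 3 / 16 → fS G c.h p.W c.P c.g c.L c.l N x ≤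
      fS G c.h p.W c.P c.g c.L c.l N 0 + CA F * p.W / c.l := by
    intro N x hx
    rw [fS_eq, fS_eq, zero_mul, ← add_div]
    refine div_le_div_of_nonneg_right ?_ hl.le
    have hxW : |x * p.W| ≤ 3 / 16 * p.W := by
      rw [abs_mul, abs_of_pos hW]
      exact mul_le_mul_of_nonneg_right hx hW.le
    have hIx : Ins c.h p.W (x * p.W) := hG.ins _ (by linarith)
    have hCA : 0 ≤ CA F * p.W := by have := CA_pos F; positivity
    rcases le_total x 0 with h | h
    · have := eV_mono c.h h0 h1 hm (L := c.L) (N := N) hG.hP hG.hg hIx hI0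
        (mul_nonpos_of_nonpos_of_nonneg h hW.le)
      linarith
    · have hxp : 0 ≤ x * p.W := mul_nonneg h hW.le
      have h3 := eV_le c.h h0 h1 hm (L := c.L) (N := N) hG.hP hG.hg hI0 hIx hxp
      refine h3.trans ?_
      have e1 : 2 * ((x * p.W - 0) * c.ε) ≤ p.W := by
        have hε0 : 0 ≤ p.W * c.ε := mul_nonneg hW.le hm.nonneg
        have hx1 : x ≤ 3 / 16 := (le_abs_self x).trans hx
        nlinarith
      have hRx : ∀ s : ℝ, |s| ≤ 3 / 16 * p.W →
          M56.Rx c.h s ≤ (2 * ‖F.a‖ + ‖F.b‖) * p.W := by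
        intro s hs'
        unfold M56.Rx
        rw [hs.wH_eq]
        have a1 : (|s| + M56.stp F) * ‖F.a‖ ≤ (2 * p.W) * ‖F.a‖ :=
          mul_le_mul_of_nonneg_right (by linarith) (norm_nonneg _)
        have a2 : p.δ0 * p.W / 2 * ‖F.b‖ ≤ p.W * ‖F.b‖ := by
          refine mul_le_mul_of_nonneg_right ?_ (norm_nonneg _)
          have := mul_le_mul_of_nonneg_right hp.δ0_le hW.le
          linarith
        linarith
      have e2 : DD c.h 0 (x * p.W) ≤ ‖F.ρ‖ * (2 * (2 * ‖F.a‖ + ‖F.b‖) * p.W) := by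
        unfold DD
        refine mul_le_mul_of_nonneg_left ?_ (norm_nonneg _)
        have b1 := hRx 0 (by rw [abs_zero]; positivity)
        have b2 := hRx (x * p.W) hxW
        linarith
      have e3 : CA F * p.W = p.W + 2 * (‖F.ρ‖ * (2 * (2 * ‖F.a‖ + ‖F.b‖) * p.W)) := by
        unfold CA; ring
      rw [e3]
      linarith
  refine ⟨hA c, ?_⟩
  obtain ⟨C, hC⟩ := eV_low c.h h0 h1 h2 hμ hm (L := c.L) (s := 0) hG.hP hG.hg hI0
    (by linarith [hG.hL]) hG.hW
  set B0 := fS G c.h p.W c.P c.g c.L c.l 0 0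
  set B1 := fS G c.h p.W c.P c.g c.L c.l 1 0
  set A := CA F * p.W / c.l
  refine ⟨max (C / c.l) (max (B0 + A) (B1 + A)), fun N => ?_, fun N hN x hx => ?_, htop⟩
  · have h3 := hC N
    rw [fS_eq, zero_mul, le_div_iff₀ hl]
    have hr : 0 ≤ rate G F p.W := (c.rt_pos).le
    have e1 : (N : ℝ) * c.l ≤ (N * c.P + c.g) * rate G F p.W := by
      have : c.l = c.P * rate G F p.W := rfl
      rw [this]
      nlinarith [mul_nonneg hs.g_pos.le hr]
    have e2 : C / c.l ≤ max (C / c.l) (max (B0 + A) (B1 + A)) := le_max_left _ _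
    have e3 : C ≤ max (C / c.l) (max (B0 + A) (B1 + A)) * c.l := by
      have := mul_le_mul_of_nonneg_right e2 hl.le
      rwa [div_mul_cancel₀ _ hl.ne'] at this
    linarith
  · have h3 := htop N x hx
    refine h3.trans (le_trans ?_ (le_max_right _ _))
    interval_cases N
    · exact le_max_left _ _
    · exact le_max_right _ _

end

end Crest.Agent.R151.J684
end

-- ▼ part R151/J684d

/-!
# R151/J684d — the strategy from the two recursions (owner helper684)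

`Rec c T C0` : `recA` (helper69) and `recB` (helper685) for `fA = fB = fS`, `wmin = wmn W`;
`strat_of_rec` : the field `strat` of `NF.Inputs`.
-/

set_option autoImplicit false

open MeasureTheory Filter ProbabilityTheory Topology Set
open Crest.ProbabilityR.FirstPassage
open Crest.Agent.R151.K Crest.Agent.R151.Q

namespace Crest.Agent.R151.J684

open B710 (FlatData)
open NF
open J69 (fS)

variable {μ : ℝ × ℝ → ℝ} {G : Measure ℝ} {F : FlatData μ} {w0 c0 K : ℝ}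

/-- the value function of the configuration -/
noncomputable def fC {p : NF.Num} (c : Cf G F w0 c0 K p) : ℕ → ℝ → ℝ :=
  fun N x => fS G c.h p.W c.P c.g c.L c.l N x

/-- the two recursions of the strategy -/
structure Rec {p : NF.Num} (c : Cf G F w0 c0 K p) (T : Set (M192.Row (ℝ × ℝ))) (C0 : ℝ) :
    Prop where
  recA : ∀ (N : ℕ) (x : ℝ), -(1 / 16) ≤ x → x < 1 / 8 →
    ∀ B : Set (M192.Row (ℝ × ℝ)), MeasurableSet[c.mB] B →
    IntegrableOn ((c.rowA T).KL x) Bᶜ (nuR G) →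
    fC c (N + 1) x ≤ ∫ ω in Bᶜ, (c.rowA T).KL x ω ∂(nuR G) +
      ∫ ω in B, (c.rowA T).F (1 / (4 * p.n)) x ω ∂(nuR G) + p.e +
      (nuR G).real Bᶜ * fC c N (x + 6 * p.δ) + (nuR G).real B * fC c N (x + 1 / (4 * p.n) + p.δ)
  recB : ∀ (N : ℕ) (x w : ℝ), 0 ≤ x → x < 3 / 16 → wmn p.W ≤ w →
    w ≤ (3 / 16 - x) / 2 → ∃ q : ℝ, 0 ≤ q ∧ q ≤ p.e ∧
    fC c (N + 2) x ≤ C0 * p.n ^ 4 + p.e / w ^ 3 + (1 - q) * fC c N (x - 1 / (2 * p.n) + p.δ) +
      q * fC c N (x + 3 * w / 2)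

variable [IsProbabilityMeasure G]

/-- **the strategy from the two recursions** -/
theorem strat_of_rec (h0 : G (Set.Iio 0) = 0) (h2 : Integrable (fun x : ℝ => x ^ 2) G)
    (hμ : IsTC G μ) (hc0 : 0 < c0)
    {typ : ∀ {p : NF.Num}, Cf G F w0 c0 K p → Set (M192.Row (ℝ × ℝ))} {C0 : ℝ}
    (hrec : Ev fun p => ∀ c : Cf G F w0 c0 K p, Rec c (typ c) C0) :
    Ev fun p => ∀ c : Cf G F w0 c0 K p,
      Nonempty (E191.Strategy (c.rowA (typ c)) (nuR G) c.mB C0 p.n p.δ p.e) := by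
  refine (((strat_base (F := F) (w0 := w0) (K := K) h0 h2 hμ hc0).and hrec).and Ev.std).mono
    fun p ⟨⟨hb, hr⟩, hp⟩ c => ?_
  obtain ⟨hA, C', hlow, hbase, htop⟩ := hb c
  have hr := hr c
  have hW : 0 < p.W := zero_lt_one.trans_le hp.W
  exact ⟨{
    fA := fC c
    fB := fC c
    wmin := wmn p.W
    Acr := CA F * p.W / c.l
    C' := C'
    wmin_pos := wmn_pos hW
    Acr_le := hA
    low := hlow
    base_A := fun N hN x h1 h2 => hbase N hN x (abs_le.2 ⟨by linarith, by linarith⟩)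
    base_B := fun N hN x h1 h2 => hbase N hN x (abs_le.2 ⟨by linarith, by linarith⟩)
    top := fun N x h1 h2 => htop N x (abs_le.2 ⟨by linarith, by linarith⟩)
    recA := by
      rintro f (rfl | rfl)
      · exact hr.recA
      · exact hr.recA
    recB := by
      rintro f (rfl | rfl)
      · exact hr.recB
      · exact hr.recB }⟩

end Crest.Agent.R151.J684
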