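import Crest.Agent.R151.J69f
import Crest.Agent.R151.M56a

-- ▼ part R151/J69g
section

/-!
# R151/J69g — one move of the strategy, pointwise (owner helper69)

Space `Ω4`: shift `ξ`, environment `t`, own phases of row `0` (jitter `η`, `u`, `u'`), phases of
the next lower highway (jitter `η₁`, `u₁`).
-/

set_option autoImplicit false

open MeasureTheory Filter ProbabilityTheory
open Crest.ProbabilityR.FirstPassage
open Crest.Agent.R151.K Crest.Agent.R151.Q

namespace Crest.Agent.R151.J69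

open B710 (FlatData)
open R78 (V Wk IsHwy hc hp hull routes IsOpen shp hullY IsStrip Frame IsPos Back)
open M192 (frame frame_al frame_be al_pos be_pos isStrip)

variable {μ : ℝ × ℝ → ℝ} {F : FlatData μ} (h : Hwy F)

/-- excess in the half-lane between two vertices -/
noncomputable def exL (F : FlatData μ) (W : ℝ) (θ : ℝ × ℝ) (t : Environment) (x y : ℤ × ℤ) : ℝ :=
  pR t (Lam F W θ) x y - (phi F y - phi F x)

lemma Vv_eq (W P g : ℝ) (N : ℕ) (s : ℝ) (θ θ' : ℝ × ℝ) (u : ℝ) (t : Environment) :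
    Vv h W P g N s θ θ' u t = exL F W θ t (h.x s u θ' t) (endv F P g N θ) := rfl

lemma Y_eq_cst (s s' u : ℝ) (θ : ℝ × ℝ) (t : Environment) :
    h.Y s s' u θ t = h.cst s s' u θ t - (phi F (h.x s' u θ t) - phi F (h.x s u θ t)) := by
  unfold Hwy.Y Hwy.cst hp Hwy.x; ring

lemma Y_add (s s' s'' u : ℝ) (θ : ℝ × ℝ) (t : Environment) :
    h.Y s s' u θ t + h.Y s' s'' u θ t = h.Y s s'' u θ t := by
  unfold Hwy.Y; ring

/-- monotonicity of the half-lane in the base point -/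
lemma Lam_sub (W : ℝ) (θ : ℝ × ℝ) {p : ℝ} (hp : 0 ≤ p) :
    Lam F W (θ - p • F.b) ⊆ Lam F W θ := by
  intro z hz
  obtain ⟨h1, h2⟩ := hz
  rw [M192.al_pos_sub_b] at h1
  rw [M192.be_pos_sub_b] at h2
  exact ⟨h1, by linarith⟩

lemma endv_shift (P g : ℝ) (N k : ℕ) (θ : ℝ × ℝ) :
    endv F P g (N + k) θ = endv F P g N (θ - (k * P) • F.b) := by
  unfold endv
  congr 1
  rw [sub_sub, ← add_smul]
  congr 2
  push_cast
  ring

/-- triangle inequality for the excess in the half-lane -/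
lemma exL_triangle {W : ℝ} {θ : ℝ × ℝ} {t : Environment} (ht : Nn t) {x y z : ℤ × ℤ}
    (h1 : Conn (Lam F W θ) x y) (h2 : Conn (Lam F W θ) y z) :
    exL F W θ t x z ≤ exL F W θ t x y + exL F W θ t y z := by
  have := pR_triangle ht h1 h2
  unfold exL; linarith

/-- position of a vertex of a highway relative to another base point -/
lemma pos_x_bounds (s u : ℝ) (θ θ' : ℝ × ℝ) (t : Environment) :
    s + F.al (θ - θ') ≤ F.al (pos θ (h.x s u θ' t)) ∧
    F.al (pos θ (h.x s u θ' t)) ≤ s + cF F + F.al (θ - θ') ∧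
    -(h.wH / 2) + F.be (θ - θ') ≤ F.be (pos θ (h.x s u θ' t)) ∧
    F.be (pos θ (h.x s u θ' t)) ≤ h.wH / 2 + F.be (θ - θ') := by
  have e1 : F.al (pos θ (h.x s u θ' t)) = F.al (pos θ' (h.x s u θ' t)) + F.al (θ - θ') := by
    rw [al_pos, al_pos, map_sub]; ring
  have e2 : F.be (pos θ (h.x s u θ' t)) = F.be (pos θ' (h.x s u θ' t)) + F.be (θ - θ') := by
    rw [be_pos, be_pos, map_sub]; ring
  have a1 := le_al_x h s u θ' t
  have a2 := h.al_x_le s u θ' t
  have a3 := abs_le.1 (h.strip u θ' t (h.ix s u θ' t))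
  have a5 : F.al (pos θ' (h.x s u θ' t)) = F.al (pos θ' (h.H u θ' t (h.ix s u θ' t))) := rfl
  have a4 : F.be (pos θ' (h.x s u θ' t)) = F.be (pos θ' (h.H u θ' t (h.ix s u θ' t))) := rfl
  refine ⟨by linarith, by linarith, by linarith [a3.1], by linarith [a3.2]⟩

lemma endv_bounds (P g : ℝ) (N : ℕ) (θ : ℝ × ℝ) :
    |F.al (pos θ (endv F P g N θ))| ≤ cF F ∧
      N * P + g - cF F ≤ F.be (pos θ (endv F P g N θ)) := by
  set θ' := θ - (N * P + g) • F.b with hθ'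
  have h1 : ‖pos θ' (nr θ')‖ ≤ 1 := (norm_pos_nr θ').trans (by norm_num)
  have h2 := abs_al_le' F h1
  have h3 := abs_be_le' F h1
  have e : endv F P g N θ = nr θ' := rfl
  rw [e]
  rw [hθ', M192.al_pos_sub_b] at h2
  rw [hθ', M192.be_pos_sub_b, abs_le] at h3
  rw [← hθ'] at h2 h3
  exact ⟨h2, by linarith [h3.1]⟩

/-! ### The gap functional -/

/-- excess of the route `x_{-L}⁺ → x_{s}⁺ → x_{s'}¹ → x_L¹` between the upper highway of row `0`
(offset `θU`) and the next lower highway (offset `θ₁`) -/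
noncomputable def gapF (W L s s' : ℝ) (ξ θU θ₁ : ℝ × ℝ) (u' u₁ : ℝ) (t : Environment) : ℝ :=
  h.Y (-L) s u' θU t + exL F W ξ t (h.x s u' θU t) (h.x s' u₁ θ₁ t) + h.Y s' L u₁ θ₁ t

/-- full plane excess `x_{-L}⁺ → x_L¹` -/
noncomputable def gap0 (L : ℝ) (θU θ₁ : ℝ × ℝ) (u' u₁ : ℝ) (t : Environment) : ℝ :=
  R78.ptY t (phi F) (h.x (-L) u' θU t) (h.x L u₁ θ₁ t)

lemma gap0_le_gapF {W L s s' : ℝ} {ξ θU θ₁ : ℝ × ℝ} {u' u₁ : ℝ} {t : Environment} (ht : Nn t)
    (hs : -L ≤ s) (hs' : s' ≤ L)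
    (hc : Conn (Lam F W ξ) (h.x s u' θU t) (h.x s' u₁ θ₁ t)) :
    gap0 h L θU θ₁ u' u₁ t ≤ gapF h W L s s' ξ θU θ₁ u' u₁ t := by
  have h1 := R78.gapK_mono ht (h.isHwy u' θU t) (h.isHwy u₁ θ₁ t) (h.ix_mono hs u' θU t)
    (h.ix_mono hs' u₁ θ₁ t)
  have h2 := pt_le_pR ht hc
  rw [R78.gapK_eq t (phi F), R78.gapK_eq t (phi F)] at h1
  unfold gap0 gapF R78.ptY exL Hwy.Y
  unfold Hwy.x at h2 ⊢
  linarith

/-! ### One move, pointwise -/

/-- parameters of a move: row of height `y`, gaps `g`, `y + 2 g = k` pitches -/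
structure MPar (h : Hwy F) (P g y : ℝ) (k : ℕ) : Prop where
  hg : h.wH / 2 + 5 * cF F ≤ g
  hy : h.wH < y
  hk : y + 2 * g = k * P
  hP : 0 ≤ P

/-- a label is well inside the lane -/
def Ins (h : Hwy F) (W s : ℝ) : Prop := |s| ≤ W / 2 - h.κ - 6 * cF F

section move

variable {W P g y L : ℝ} {k : ℕ} (hM : MPar h P g y k) {ξ η η₁ : ℝ × ℝ} {u u' u₁ : ℝ}
  {t : Environment}
include hM

omit hM in
lemma wH_nonneg2 : 0 ≤ h.wH := by
  have := (abs_nonneg _).trans (h.strip 0 0 (fun _ => 0) 0)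
  linarith

lemma conn_x0 {s : ℝ} (hs : Ins h W s) (hη : ‖η‖ ≤ 1) :
    |F.al (pos ξ (h.x s u (ξ - g • F.b - η) t))| ≤ W / 2 - 4 * cF F ∧
      4 * cF F ≤ F.be (pos ξ (h.x s u (ξ - g • F.b - η) t)) := by
  obtain ⟨a1, a2, a3, a4⟩ := pos_x_bounds h s u ξ (ξ - g • F.b - η) t
  have e : ξ - (ξ - g • F.b - η) = g • F.b + η := by abel
  rw [e, map_add, map_smul, F.al_b, smul_zero, zero_add] at a1 a2
  rw [e, map_add, map_smul, F.be_b, smul_eq_mul, mul_one] at a3 a4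
  have b1 := abs_le.1 (abs_al_le' F hη)
  have b2 := abs_le.1 (abs_be_le' F hη)
  have hs' := abs_le.1 hs
  have h0 := h.κ_nonneg
  have hg := hM.hg
  refine ⟨?_, by linarith [b2.1]⟩
  rw [abs_le]
  constructor <;> linarith [b1.1, b1.2, hs'.1, hs'.2]

lemma conn_xU {s : ℝ} (hs : Ins h W s) (hη : ‖η‖ ≤ 1) :
    |F.al (pos ξ (h.x s u' (ξ - g • F.b - η - y • F.b) t))| ≤ W / 2 - 4 * cF F ∧
      4 * cF F ≤ F.be (pos ξ (h.x s u' (ξ - g • F.b - η - y • F.b) t)) := by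
  obtain ⟨a1, a2, a3, a4⟩ := pos_x_bounds h s u' ξ (ξ - g • F.b - η - y • F.b) t
  have e : ξ - (ξ - g • F.b - η - y • F.b) = g • F.b + y • F.b + η := by abel
  rw [e, map_add, map_add, map_smul, map_smul, F.al_b, smul_zero, smul_zero, zero_add, zero_add]
    at a1 a2
  rw [e, map_add, map_add, map_smul, map_smul, F.be_b, smul_eq_mul, smul_eq_mul, mul_one, mul_one]
    at a3 a4
  have b1 := abs_le.1 (abs_al_le' F hη)
  have b2 := abs_le.1 (abs_be_le' F hη)
  have hs' := abs_le.1 hs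
  have h0 := h.κ_nonneg
  have hg := hM.hg
  have hy := hM.hy
  have hw := wH_nonneg2 h
  refine ⟨?_, by linarith [b2.1]⟩
  rw [abs_le]
  constructor <;> linarith [b1.1, b1.2, hs'.1, hs'.2]

lemma kP_nonneg : 0 ≤ k * P := mul_nonneg (Nat.cast_nonneg k) hM.hP

/-- the next lower highway, relative to the base point of the next row -/
lemma conn_x1 {s : ℝ} (hs : Ins h W s) (hη : ‖η₁‖ ≤ 1) :
    |F.al (pos (ξ - (k * P) • F.b) (h.x s u₁ (ξ - (k * P) • F.b - g • F.b - η₁) t))| ≤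
        W / 2 - 4 * cF F ∧
      4 * cF F ≤ F.be (pos (ξ - (k * P) • F.b)
        (h.x s u₁ (ξ - (k * P) • F.b - g • F.b - η₁) t)) :=
  conn_x0 h hM hs hη

/-- the same relative to the base point of row `0` -/
lemma conn_x1' {s : ℝ} (hs : Ins h W s) (hη : ‖η₁‖ ≤ 1) :
    |F.al (pos ξ (h.x s u₁ (ξ - (k * P) • F.b - g • F.b - η₁) t))| ≤ W / 2 - 4 * cF F ∧
      4 * cF F ≤ F.be (pos ξ (h.x s u₁ (ξ - (k * P) • F.b - g • F.b - η₁) t)) := by
  obtain ⟨a, b⟩ := conn_x1 h hM (ξ := ξ) (u₁ := u₁) (t := t) hs hη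
  rw [M192.al_pos_sub_b] at a
  rw [M192.be_pos_sub_b] at b
  have := kP_nonneg h hM
  exact ⟨a, by linarith⟩

lemma conn_gap {s s' : ℝ} (hs : Ins h W s) (hs' : Ins h W s') (hη : ‖η‖ ≤ 1) (hη₁ : ‖η₁‖ ≤ 1) :
    Conn (Lam F W ξ) (h.x s u' (ξ - g • F.b - η - y • F.b) t)
      (h.x s' u₁ (ξ - (k * P) • F.b - g • F.b - η₁) t) := by
  obtain ⟨a, b⟩ := conn_xU h hM (ξ := ξ) (u' := u') (t := t) hs hη
  obtain ⟨a', b'⟩ := conn_x1' h hM (ξ := ξ) (u₁ := u₁) (t := t) hs' hη₁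
  have hc := cF_nonneg F
  exact conn_Lam (by linarith) (by linarith) (by linarith) (by linarith)

/-- **One move of the strategy, pointwise.** -/
theorem move_pt (ht : Nn t) (hη : ‖η‖ ≤ 1) (hη₁ : ‖η₁‖ ≤ 1) {N : ℕ} {s s₁ s₁' r r' : ℝ}
    {I J : Set ℝ} (hs : Ins h W s) (hs₁ : Ins h W s₁) (hs₁' : Ins h W s₁') (hr : Ins h W r)
    (hr' : Ins h W r') (hI : I ⊆ Set.Icc r r')
    (hne : (routes t (h.Lo (ξ - g • F.b - η) t (u, u')) (h.Up (y • F.b) (ξ - g • F.b - η) t (u, u'))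
      (rg F I (ξ - g • F.b - η)) (h.iL s (ξ - g • F.b - η) t (u, u'))
      (h.iU (y • F.b) s₁ (ξ - g • F.b - η) t (u, u'))).Nonempty) :
    gV h W P g L (N + k) s ξ (ξ - g • F.b - η) u t ≤
      h.sk (y • F.b) I J L s s₁ (ξ - g • F.b - η) t (u, u') +
      h.hkY (y • F.b) J (-L) L (ξ - g • F.b - η) t (u, u') +
      gapF h W L s₁ s₁' ξ (ξ - g • F.b - η - y • F.b) (ξ - (k * P) • F.b - g • F.b - η₁) u' u₁ t -
      h.Y (-L) L u' (ξ - g • F.b - η - y • F.b) t -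
      h.Y (-L) L u₁ (ξ - (k * P) • F.b - g • F.b - η₁) t +
      gV h W P g L N s₁' (ξ - (k * P) • F.b) (ξ - (k * P) • F.b - g • F.b - η₁) u₁ t := by
  set θr := ξ - g • F.b - η with hθr
  set θU := θr - y • F.b with hθU
  set θ₁ := ξ - (k * P) • F.b - g • F.b - η₁ with hθ₁
  have hc := cF_nonneg F
  have h0 := h.κ_nonneg
  have hg := hM.hg
  have hw := wH_nonneg2 h
  have hkP := kP_nonneg h hM
  have bη := abs_le.1 (abs_al_le' F hη)
  have bη' := abs_le.1 (abs_be_le' F hη)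
  have e1 : ξ - θr = g • F.b + η := by rw [hθr]; abel
  have e2 : ξ - θU = g • F.b + y • F.b + η := by rw [hθU, hθr]; abel
  have ea1 : F.al (ξ - θr) = F.al η := by
    rw [e1, map_add, map_smul, F.al_b, smul_zero, zero_add]
  have ea2 : F.al (ξ - θU) = F.al η := by
    rw [e2, map_add, map_add, map_smul, map_smul, F.al_b, smul_zero, smul_zero, zero_add, zero_add]
  have eb1 : F.be (ξ - θr) = g + F.be η := by
    rw [e1, map_add, map_smul, F.be_b, smul_eq_mul, mul_one]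
  -- the row route
  have hrow := pR_le_hull_hwy h ht (θ := ξ) (θ₁ := θr) (θ₂ := θU) (u₁ := u) (u₂ := u') (s := s)
    (s' := s₁) (r := r - cF F) (r' := r' + cF F) (A := rg F I θr) (R := Lam F W ξ) ?_ ?_ ?_ hne
  rotate_left
  · intro v hv
    have hv' := hI hv
    have e : F.al (pos ξ v) = F.al (pos θr v) + F.al η := by
      have := F.al.map_sub ξ θr
      rw [al_pos, al_pos]; linarith
    rw [e]
    exact ⟨by linarith [hv'.1, bη.1], by linarith [hv'.2, bη.2]⟩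
  · intro v h1 h2 h3 h4
    have b1 := abs_le.1 hs
    have b2 := abs_le.1 hs₁
    have b3 := abs_le.1 hr
    have b4 := abs_le.1 hr'
    rw [ea1] at h1
    rw [ea2] at h2
    rw [eb1] at h3
    refine ⟨?_, by linarith [bη'.1]⟩
    rw [abs_le]
    constructor
    · have : -(W / 2) + h.κ ≤ min (s + F.al η) (r - cF F) := le_min (by linarith [b1.1, bη.1])
        (by linarith [b3.1])
      linarith
    · have : max (r' + cF F) (s₁ + F.al η) ≤ W / 2 - h.κ - cF F :=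
        max_le (by linarith [b4.2]) (by linarith [b2.2, bη.2])
      linarith
  · have : θU - θr = -(y • F.b) := by rw [hθU]; abel
    rw [this, map_neg, map_smul, F.be_b, smul_eq_mul, mul_one]
    linarith [hM.hy]
  obtain ⟨hcrow, hrow⟩ := hrow
  -- the gap
  have hcgap := conn_gap h hM (ξ := ξ) (η := η) (η₁ := η₁) (u' := u') (u₁ := u₁) (t := t) hs₁ hs₁'
    hη hη₁
  rw [← hθr, ← hθU, ← hθ₁] at hcgap
  -- the rest
  obtain ⟨a1, a2⟩ := conn_x1 h hM (ξ := ξ) (u₁ := u₁) (t := t) hs₁' hη₁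
  rw [← hθ₁] at a1 a2
  obtain ⟨c1, c2⟩ := endv_bounds (F := F) P g N (ξ - (k * P) • F.b)
  have hNP : 0 ≤ N * P := mul_nonneg (Nat.cast_nonneg N) hM.hP
  have hW : 6 * cF F ≤ W / 2 := by
    have := (abs_nonneg s).trans hs
    linarith [h.κ_nonneg, this, abs_nonneg s]
  have hcend' : Conn (Lam F W (ξ - (k * P) • F.b)) (h.x s₁' u₁ θ₁ t)
      (endv F P g N (ξ - (k * P) • F.b)) :=
    conn_Lam (by linarith) (by linarith) (by linarith) (by linarith)
  have hcend : Conn (Lam F W ξ) (h.x s₁' u₁ θ₁ t) (endv F P g N (ξ - (k * P) • F.b)) :=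
    hcend'.mono (Lam_sub W ξ hkP)
  have hanti := pR_anti ht (Lam_sub (F := F) W ξ hkP) hcend'
  have t1 := exL_triangle ht hcrow (hcgap.trans hcend)
  have t2 := exL_triangle ht hcgap hcend
  unfold gV
  rw [Vv_eq, Vv_eq, endv_shift]
  have hx : exL F W ξ t (h.x s u θr t) (h.x s₁ u' θU t) ≤
      hullY t (phi F) (h.H u θr t) (h.H u' θU t) (rg F I θr) (h.ix s u θr t)
        (h.ix s₁ u' θU t) := hrow
  have hx3 : exL F W ξ t (h.x s₁' u₁ θ₁ t) (endv F P g N (ξ - (k * P) • F.b)) ≤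
      exL F W (ξ - (k * P) • F.b) t (h.x s₁' u₁ θ₁ t) (endv F P g N (ξ - (k * P) • F.b)) := by
    unfold exL; linarith
  -- the algebra of potentials
  have k1 : h.sk (y • F.b) I J L s s₁ θr t (u, u') + h.hkY (y • F.b) J (-L) L θr t (u, u') =
      h.Y (-L) s u θr t + hullY t (phi F) (h.H u θr t) (h.H u' θU t) (rg F I θr) (h.ix s u θr t)
        (h.ix s₁ u' θU t) + h.Y s₁ L u' θU t := by
    unfold Hwy.sk Hwy.hkY Hwy.hk hullY Hwy.Y Hwy.Lo Hwy.Up Hwy.iL Hwy.iU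
    simp only
    rw [← hθU]
    ring
  have k2 := Y_add h (-L) s₁ L u' θU t
  have k3 := Y_add h (-L) s₁' L u₁ θ₁ t
  have k4 : gapF h W L s₁ s₁' ξ θU θ₁ u' u₁ t = h.Y (-L) s₁ u' θU t +
      exL F W ξ t (h.x s₁ u' θU t) (h.x s₁' u₁ θ₁ t) + h.Y s₁' L u₁ θ₁ t := rfl
  rw [k4]
  linarith

end move

end Crest.Agent.R151.J69
end

-- ▼ part R151/J69h
section

/-!
# R151/J69h — means of the value function, of the gaps and of row functionals (owner helper69)

`O4` = `(ξ, t)`, own phases `(η, (u, u'))` of row `0`, phases `(η₁, u₁)` of the next lower highway.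
-/

set_option autoImplicit false

open MeasureTheory Filter ProbabilityTheory
open Crest.ProbabilityR.FirstPassage
open Crest.Agent.R151.K Crest.Agent.R151.Q

namespace Crest.Agent.R151.J69

open B710 (FlatData)
open R78 (V Wk IsHwy hc hp hull routes IsOpen shp hullY IsStrip Frame IsPos Back)
open M192 (frame frame_al frame_be al_pos be_pos isStrip)

variable {μ : ℝ × ℝ → ℝ} {F : FlatData μ} (h : Hwy F)

/-! ### Spaces -/

/-- phases of a lower highway: jitter and phase -/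
abbrev Ph2 : Type := (ℝ × ℝ) × ℝ
/-- own phases of a row: jitter and phases of the lower and the upper highway -/
abbrev Ph3 : Type := (ℝ × ℝ) × (ℝ × ℝ)
abbrev O2 : Type := ((ℝ × ℝ) × Environment) × Ph2
abbrev O3 : Type := ((ℝ × ℝ) × Environment) × Ph3
abbrev O4 : Type := ((ℝ × ℝ) × Environment) × (Ph3 × Ph2)
/-- one row -/
abbrev OR : Type := ((ℝ × ℝ) × Environment) × (ℝ × ℝ)

noncomputable def P2 (G : Measure ℝ) : Measure O2 := (P0 G).prod (UU2.prod UU)
noncomputable def P3 (G : Measure ℝ) : Measure O3 := (P0 G).prod (UU2.prod (UU.prod UU))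
noncomputable def P4 (G : Measure ℝ) : Measure O4 :=
  (P0 G).prod ((UU2.prod (UU.prod UU)).prod (UU2.prod UU))
/-- law of one row -/
noncomputable def PRow (G : Measure ℝ) : Measure OR := (P0 G).prod (UU.prod UU)

variable {G : Measure ℝ} [IsProbabilityMeasure G]

instance : IsProbabilityMeasure (P2 G) := by unfold P2; infer_instance
instance : IsProbabilityMeasure (P3 G) := by unfold P3; infer_instance
instance : IsProbabilityMeasure (P4 G) := by unfold P4; infer_instance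
instance : IsProbabilityMeasure (PRow G) := by unfold PRow; infer_instance

lemma mp_a : MeasurePreserving (fun q : O4 => ((q.1, (q.2.1.1, q.2.1.2.1)) : O2)) (P4 G) (P2 G) := by
  have h1 : MeasurePreserving (fun p : Ph3 × Ph2 => ((p.1.1, p.1.2.1) : Ph2))
      ((UU2.prod (UU.prod UU)).prod (UU2.prod UU)) (UU2.prod UU) :=
    ((MeasurePreserving.id UU2).prod (measurePreserving_fst (μ := UU) (ν := UU))).comp
      measurePreserving_fst
  exact (MeasurePreserving.id (P0 G)).prod h1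

lemma mp_b : MeasurePreserving (fun q : O4 => ((q.1, q.2.2) : O2)) (P4 G) (P2 G) :=
  (MeasurePreserving.id (P0 G)).prod measurePreserving_snd

lemma mp_c : MeasurePreserving (fun q : O4 => ((q.1, q.2.1) : O3)) (P4 G) (P3 G) :=
  (MeasurePreserving.id (P0 G)).prod measurePreserving_fst

/-- almost surely everything is in the unit square and the weights are nonnegative -/
lemma ae_P4 (h0 : G (Set.Iio 0) = 0) : ∀ᵐ q ∂(P4 G), Nn q.1.2 ∧
    q.1.1 ∈ Set.Ico (0 : ℝ) 1 ×ˢ Set.Ico (0 : ℝ) 1 ∧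
    q.2.1.1 ∈ Set.Ico (0 : ℝ) 1 ×ˢ Set.Ico (0 : ℝ) 1 ∧
    q.2.2.1 ∈ Set.Ico (0 : ℝ) 1 ×ˢ Set.Ico (0 : ℝ) 1 := by
  have h1 := ae_P0_Nn (G := G) (Ψ := Ph3 × Ph2) (ν := (UU2.prod (UU.prod UU)).prod (UU2.prod UU)) h0
  have h2 : MeasurePreserving (fun q : O4 => q.2.1.1) (P4 G) UU2 :=
    (measurePreserving_fst (μ := UU2) (ν := UU.prod UU)).comp
      ((measurePreserving_fst (μ := UU2.prod (UU.prod UU)) (ν := UU2.prod UU)).comp
        measurePreserving_snd)
  have h3 : MeasurePreserving (fun q : O4 => q.2.2.1) (P4 G) UU2 :=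
    (measurePreserving_fst (μ := UU2) (ν := UU)).comp
      ((measurePreserving_snd (μ := UU2.prod (UU.prod UU)) (ν := UU2.prod UU)).comp
        measurePreserving_snd)
  have h4 := h2.quasiMeasurePreserving.ae ae_UU2
  have h5 := h3.quasiMeasurePreserving.ae ae_UU2
  have h1' : ∀ᵐ q ∂(P4 G), Nn q.1.2 ∧ q.1.1 ∈ Set.Ico (0 : ℝ) 1 ×ˢ Set.Ico (0 : ℝ) 1 := h1
  filter_upwards [h1', h4, h5] with q a b c using ⟨a.1, a.2, b, c⟩

lemma ae_P2 (h0 : G (Set.Iio 0) = 0) : ∀ᵐ q ∂(P2 G), Nn q.1.2 ∧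
    q.1.1 ∈ Set.Ico (0 : ℝ) 1 ×ˢ Set.Ico (0 : ℝ) 1 ∧
    q.2.1 ∈ Set.Ico (0 : ℝ) 1 ×ˢ Set.Ico (0 : ℝ) 1 := by
  have h1 := ae_P0_Nn (G := G) (Ψ := Ph2) (ν := UU2.prod UU) h0
  have h2 : MeasurePreserving (fun q : O2 => q.2.1) (P2 G) UU2 :=
    (measurePreserving_fst (μ := UU2) (ν := UU)).comp measurePreserving_snd
  have h4 := h2.quasiMeasurePreserving.ae ae_UU2
  have h1' : ∀ᵐ q ∂(P2 G), Nn q.1.2 ∧ q.1.1 ∈ Set.Ico (0 : ℝ) 1 ×ˢ Set.Ico (0 : ℝ) 1 := h1
  filter_upwards [h1', h4] with q a b using ⟨a.1, a.2, b⟩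

/-! ### Vertices in a fixed box -/

lemma mem_box_x (v : ℝ × ℝ) (s : ℝ) : ∃ M : ℕ, ∀ (ξ η : ℝ × ℝ) (u : ℝ) (t : Environment),
    ξ ∈ Set.Ico (0 : ℝ) 1 ×ˢ Set.Ico (0 : ℝ) 1 → ‖η‖ ≤ 1 → h.x s u (ξ - v - η) t ∈ box M := by
  obtain ⟨M, hM⟩ := exists_nat_ge (M56.Rx h s + (‖v‖ + 1) + 1)
  refine ⟨M, fun ξ η u t hξ hη => ?_⟩
  have h1 := M56.norm_x h s u (ξ - v - η) t
  have e : ξ - v - η = ξ - (v + η) := by abel
  rw [e] at h1 ⊢
  refine mem_box_of_pos hξ h1 (le_trans ?_ hM)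
  have := norm_add_le v η
  linarith

lemma mem_box_endv (F : FlatData μ) (P g : ℝ) (N : ℕ) : ∃ M : ℕ, ∀ ξ : ℝ × ℝ,
    ξ ∈ Set.Ico (0 : ℝ) 1 ×ˢ Set.Ico (0 : ℝ) 1 → endv F P g N ξ ∈ box M := by
  obtain ⟨M, hM⟩ := exists_nat_ge (1 / 2 + ‖(N * P + g) • F.b‖ + 1)
  refine ⟨M, fun ξ hξ => ?_⟩
  exact mem_box_of_pos hξ (norm_pos_nr _) hM

lemma box_mono {M M' : ℕ} (hMM : M ≤ M') {z : ℤ × ℤ} (hz : z ∈ box M) : z ∈ box M' := by
  rw [mem_box] at hz ⊢
  have : (M : ℤ) ≤ M' := by exact_mod_cast hMM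
  omega

/-! ### The value function -/

/-- the value function as a functional of `(θ, t)` and of the phases of the lower highway -/
noncomputable def Fg (h : Hwy F) (W P g L : ℝ) (N : ℕ) (s : ℝ) (θ : ℝ × ℝ) (t : Environment)
    (ψ : Ph2) : ℝ := gV h W P g L N s θ (θ - g • F.b - ψ.1) ψ.2 t

lemma Fg_inv (W P g L : ℝ) (N : ℕ) (s : ℝ) (ψ : Ph2) : Inv fun θ t => Fg h W P g L N s θ t ψ := by
  intro m θ t
  unfold Fg
  have e : θ + toR m - g • F.b - ψ.1 = (θ - g • F.b - ψ.1) + toR m := by abel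
  simp only
  rw [e, gV_inv]

lemma Fg_meas (W P g L : ℝ) (N : ℕ) (s : ℝ) :
    Measurable fun q : O2 => Fg h W P g L N s q.1.1 q.1.2 q.2 := by
  unfold Fg
  exact meas_gV h (measurable_fst.comp measurable_fst)
    (((measurable_fst.comp measurable_fst).sub_const _).sub (measurable_fst.comp measurable_snd))
    (measurable_snd.comp measurable_snd) (measurable_snd.comp measurable_fst) W P g L N s

/-- highway excesses with jitter are integrable, mean `(s' - s) ε` -/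
lemma Y_jit {ε : ℝ} (hm : HwyMean G h ε) (v : ℝ × ℝ) (s s' : ℝ) :
    Integrable (fun q : O2 => h.Y s s' q.2.2 (q.1.1 - v - q.2.1) q.1.2) (P2 G) ∧
      ∫ q : O2, h.Y s s' q.2.2 (q.1.1 - v - q.2.1) q.1.2 ∂(P2 G) = (s' - s) * ε := by
  have h1 : Integrable (fun q : ((ℝ × ℝ) × Environment) × ℝ => h.Y s s' q.2 q.1.1 q.1.2)
      ((P0 G).prod UU) := (hm.int s s').swap
  have h2 : ∫ q : ((ℝ × ℝ) × Environment) × ℝ, h.Y s s' q.2 q.1.1 q.1.2 ∂((P0 G).prod UU) =
      (s' - s) * ε := by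
    rw [← hm.mean s s']
    exact integral_prod_swap (μ := UU) (ν := P0 G)
      (f := fun q : ℝ × ((ℝ × ℝ) × Environment) => h.Y s s' q.1 q.2.1 q.2.2)
  have hmeas : Measurable fun q : ((ℝ × ℝ) × Environment) × ℝ => h.Y s s' q.2 q.1.1 q.1.2 :=
    meas_Y h (measurable_fst.comp measurable_fst) measurable_snd
      (measurable_snd.comp measurable_fst) s s'
  have hi := integrable_row (G := G) UU (X := fun θ t u => h.Y s s' u θ t) hmeas
    (fun u => Y_inv h s s' u) v h1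
  have he := integral_row (G := G) UU (X := fun θ t u => h.Y s s' u θ t) hmeas
    (fun u => Y_inv h s s' u) v
  refine ⟨hi, ?_⟩
  unfold P2
  rw [he, h2]

lemma Fg_int (h0 : G (Set.Iio 0) = 0) (h1 : Integrable (fun x : ℝ => x) G) {ε : ℝ}
    (hm : HwyMean G h ε) {W P g L s : ℝ} (hP : 0 ≤ P) (hg : h.wH / 2 + 5 * cF F ≤ g)
    (hs : Ins h W s) (N : ℕ) :
    Integrable (fun q : O2 => Fg h W P g L N s q.1.1 q.1.2 q.2) (P2 G) := by
  obtain ⟨M1, hM1⟩ := mem_box_x h (g • F.b) s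
  obtain ⟨M2, hM2⟩ := mem_box_endv F P g N
  set M := max M1 M2
  have hx : Measurable fun q : O2 => h.x s q.2.2 (q.1.1 - g • F.b - q.2.1) q.1.2 :=
    meas_x h (((measurable_fst.comp measurable_fst).sub_const _).sub
      (measurable_fst.comp measurable_snd)) (measurable_snd.comp measurable_snd)
      (measurable_snd.comp measurable_fst) s
  have he : Measurable fun q : O2 => endv F P g N q.1.1 :=
    meas_endv (F := F) (measurable_fst.comp measurable_fst) P g N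
  have hc := cF_nonneg F
  have hκ := h.κ_nonneg
  have hW : 6 * cF F ≤ W / 2 := by
    have := (abs_nonneg s).trans hs
    linarith
  have hae : ∀ᵐ q ∂(P2 G), h.x s q.2.2 (q.1.1 - g • F.b - q.2.1) q.1.2 ∈ box M ∧
      endv F P g N q.1.1 ∈ box M ∧
      (|F.al (pos q.1.1 (h.x s q.2.2 (q.1.1 - g • F.b - q.2.1) q.1.2))| ≤ W / 2 - 4 * cF F ∧
        4 * cF F ≤ F.be (pos q.1.1 (h.x s q.2.2 (q.1.1 - g • F.b - q.2.1) q.1.2))) ∧
      (|F.al (pos q.1.1 (endv F P g N q.1.1))| ≤ W / 2 - 4 * cF F ∧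
        4 * cF F ≤ F.be (pos q.1.1 (endv F P g N q.1.1))) := by
    filter_upwards [ae_P2 (G := G) h0] with q hq
    have hη := norm_jitter hq.2.2
    have hNP : 0 ≤ N * P := mul_nonneg (Nat.cast_nonneg N) hP
    have hw := wH_nonneg2 h
    obtain ⟨c1, c2⟩ := endv_bounds (F := F) P g N q.1.1
    have hM' : MPar h ((h.wH + 1 + 2 * g) / 1) g (h.wH + 1) 1 :=
      ⟨hg, by linarith, by push_cast; ring, by
        rw [div_one]; linarith⟩
    exact ⟨box_mono (le_max_left _ _) (hM1 _ _ _ _ hq.2.1 hη),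
      box_mono (le_max_right _ _) (hM2 _ hq.2.1), conn_x0 h hM' hs hη,
      ⟨by linarith, by linarith⟩⟩
  have hp := integrable_pR_Lam (F := F) (UU2.prod UU) h0 h1 (W := W) (M := M) hx he hae
  have hY := (Y_jit h hm (g • F.b) (-L) s).1
  have h3 : Integrable (fun q : O2 => phi F (endv F P g N q.1.1)) (P2 G) :=
    integrable_fun_box he (hae.mono fun q hq => hq.2.1) _
  have h4 : Integrable (fun q : O2 => phi F (h.x s q.2.2 (q.1.1 - g • F.b - q.2.1) q.1.2)) (P2 G) :=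
    integrable_fun_box hx (hae.mono fun q hq => hq.1) _
  exact hY.add (hp.sub (h3.sub h4))

/-- the value function seen from the next row (`v` = displacement of the base point) -/
lemma Fg_shift (h0 : G (Set.Iio 0) = 0) (h1 : Integrable (fun x : ℝ => x) G) {ε : ℝ}
    (hm : HwyMean G h ε) {W P g L s : ℝ} (hP : 0 ≤ P) (hg : h.wH / 2 + 5 * cF F ≤ g)
    (hs : Ins h W s) (N : ℕ) (v : ℝ × ℝ) :
    Integrable (fun q : O4 => Fg h W P g L N s (q.1.1 - v) q.1.2 q.2.2) (P4 G) ∧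
      ∫ q : O4, Fg h W P g L N s (q.1.1 - v) q.1.2 q.2.2 ∂(P4 G) =
        ∫ q : O2, Fg h W P g L N s q.1.1 q.1.2 q.2 ∂(P2 G) := by
  have hi := Fg_int h h0 h1 hm (L := L) hP hg hs N
  have hi2 : Integrable (fun q : O2 => Fg h W P g L N s (q.1.1 + -v) q.1.2 q.2) (P2 G) :=
    integrable_shift_prod (fun ψ => Fg_inv h W P g L N s ψ) (-v) hi
  have he : ∫ q : O2, Fg h W P g L N s (q.1.1 + -v) q.1.2 q.2 ∂(P2 G) =
      ∫ q : O2, Fg h W P g L N s q.1.1 q.1.2 q.2 ∂(P2 G) :=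
    integral_shift_prod (fun ψ => Fg_inv h W P g L N s ψ) (Fg_meas h W P g L N s) (-v)
  constructor
  · have := (mp_b (G := G)).integrable_comp_of_integrable hi2
    simpa only [Function.comp_def, ← sub_eq_add_neg] using this
  · rw [← he]
    have := mp_integral (mp_b (G := G)) hi2.aestronglyMeasurable
    simp only [← sub_eq_add_neg] at this ⊢
    exact this

/-! ### Row functionals -/

lemma row_int {X : ℝ × ℝ → Environment → ℝ × ℝ → ℝ}
    (hX : Measurable fun q : OR => X q.1.1 q.1.2 q.2) (hinv : ∀ φ, Inv fun θ t => X θ t φ)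
    (hi : Integrable (fun q : OR => X q.1.1 q.1.2 q.2) (PRow G)) (B : ℝ × ℝ) :
    Integrable (fun q : O4 => X (q.1.1 - B - q.2.1.1) q.1.2 q.2.1.2) (P4 G) ∧
      ∫ q : O4, X (q.1.1 - B - q.2.1.1) q.1.2 q.2.1.2 ∂(P4 G) =
        ∫ q : OR, X q.1.1 q.1.2 q.2 ∂(PRow G) := by
  have h1 := integrable_row (G := G) (UU.prod UU) hX hinv B hi
  have h2 := integral_row (G := G) (UU.prod UU) hX hinv B
  refine ⟨(mp_c (G := G)).integrable_comp_of_integrable h1, ?_⟩
  unfold PRow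
  rw [← h2]
  exact mp_integral (mp_c (G := G)) h1.aestronglyMeasurable

end Crest.Agent.R151.J69
end

-- ▼ part R151/J69i

/-!
# R151/J69i — the gap functionals in the mean (owner helper69)
-/

set_option autoImplicit false

open MeasureTheory Filter ProbabilityTheory
open Crest.ProbabilityR.FirstPassage
open Crest.Agent.R151.K Crest.Agent.R151.Q

namespace Crest.Agent.R151.J69

open B710 (FlatData)
open R78 (V Wk IsHwy hc hp hull routes IsOpen shp hullY IsStrip Frame IsPos Back)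
open M192 (frame frame_al frame_be al_pos be_pos isStrip)

variable {μ : ℝ × ℝ → ℝ} {F : FlatData μ} (h : Hwy F)
variable {G : Measure ℝ} [IsProbabilityMeasure G]

/-! ### Jittered vertices -/

/-- the vertex `x_s` with jitter (clipped to the unit square) -/
noncomputable def Xj (h : Hwy F) (s : ℝ) (θ : ℝ × ℝ) (t : Environment) (φ : Ph2) : ℤ × ℤ :=
  h.x s φ.2 (θ - frac2 φ.1) t

lemma frac2_mem (v : ℝ × ℝ) : frac2 v ∈ Set.Ico (0 : ℝ) 1 ×ˢ Set.Ico (0 : ℝ) 1 :=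
  ⟨⟨Int.fract_nonneg _, Int.fract_lt_one _⟩, ⟨Int.fract_nonneg _, Int.fract_lt_one _⟩⟩

lemma frac2_of_mem {v : ℝ × ℝ} (hv : v ∈ Set.Ico (0 : ℝ) 1 ×ˢ Set.Ico (0 : ℝ) 1) : frac2 v = v := by
  obtain ⟨⟨h1, h2⟩, ⟨h3, h4⟩⟩ := hv
  unfold frac2
  rw [Int.fract_eq_self.2 ⟨h1, h2⟩, Int.fract_eq_self.2 ⟨h3, h4⟩]

lemma measurable_frac2 : Measurable frac2 := by
  unfold frac2
  exact (measurable_fract.comp measurable_fst).prodMk (measurable_fract.comp measurable_snd)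

theorem covV_Xj (s : ℝ) : CovV (Xj h s) (M56.Rx h s + 1) where
  meas := by
    unfold Xj
    exact meas_x h ((measurable_fst.comp measurable_fst).sub
      (measurable_frac2.comp (measurable_fst.comp measurable_snd)))
      (measurable_snd.comp measurable_snd) (measurable_snd.comp measurable_fst) s
  cov m θ t φ := by
    unfold Xj
    have e : θ + toR m - frac2 φ.1 = (θ - frac2 φ.1) + toR m := by abel
    rw [e, x_cov]
  bdd θ t φ := by
    unfold Xj
    have h1 := M56.norm_x h s φ.2 (θ - frac2 φ.1) t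
    have h2 := norm_jitter (frac2_mem φ.1)
    have e : pos θ (h.x s φ.2 (θ - frac2 φ.1) t) =
        pos (θ - frac2 φ.1) (h.x s φ.2 (θ - frac2 φ.1) t) + frac2 φ.1 := by
      unfold pos; abel
    rw [e]
    exact (norm_add_le _ _).trans (by linarith)

/-- the full plane excess between two jittered highways with independent phases -/
theorem jit_gap (h0 : G (Set.Iio 0) = 0) (h2 : Integrable (fun x : ℝ => x ^ 2) G)
    (hμ : IsTC G μ) (v0 v1 : ℝ × ℝ) (s s' : ℝ) :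
    Integrable (fun q : ((ℝ × ℝ) × Environment) × (Ph2 × Ph2) =>
      R78.ptY q.1.2 (phi F) (h.x s q.2.1.2 (q.1.1 - v0 - q.2.1.1) q.1.2)
        (h.x s' q.2.2.2 (q.1.1 - v1 - q.2.2.1) q.1.2)) ((P0 G).prod ((UU2.prod UU).prod (UU2.prod UU)))
    ∧ 0 ≤ ∫ q : ((ℝ × ℝ) × Environment) × (Ph2 × Ph2),
      R78.ptY q.1.2 (phi F) (h.x s q.2.1.2 (q.1.1 - v0 - q.2.1.1) q.1.2)
        (h.x s' q.2.2.2 (q.1.1 - v1 - q.2.2.1) q.1.2) ∂((P0 G).prod ((UU2.prod UU).prod (UU2.prod UU))) := by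
  set π : Measure Ph2 := UU2.prod UU with hπ
  set v : ℝ × ℝ := v1 - v0 + (s' - s) • F.a with hv
  obtain ⟨hi, hn⟩ := (covV_Xj h s).zero_le (G := G) (π := π) h0 h2 hμ F v
  -- the invariant functional
  let K : ℝ × ℝ → Environment → Ph2 × Ph2 → ℝ := fun θ t φ =>
    passageTime t (Xj h s θ t φ.1) (Xj h s (θ - v) t φ.2) -
      (phi F (Xj h s (θ - v) t φ.2) - phi F (Xj h s θ t φ.1))
  have hKinv : ∀ φ, Inv fun θ t => K θ t φ := by
    intro φ m θ t
    simp only [K]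
    have e : θ + toR m - v = (θ - v) + toR m := by abel
    rw [e, (covV_Xj h s).cov, (covV_Xj h s).cov, Hwy.pt_tr, Hwy.phi_sub, Hwy.phi_sub]
    ring
  have hKm : Measurable fun q : ((ℝ × ℝ) × Environment) × (Ph2 × Ph2) => K q.1.1 q.1.2 q.2 := by
    have hphi : Measurable (phi F) := measurable_of_countable _
    have m1 : Measurable fun q : ((ℝ × ℝ) × Environment) × (Ph2 × Ph2) =>
        Xj h s q.1.1 q.1.2 q.2.1 :=
      (covV_Xj h s).meas' (by fun_prop) (by fun_prop) (by fun_prop)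
    have m2 : Measurable fun q : ((ℝ × ℝ) × Environment) × (Ph2 × Ph2) =>
        Xj h s (q.1.1 - v) q.1.2 q.2.2 :=
      (covV_Xj h s).meas' (by fun_prop) (by fun_prop) (by fun_prop)
    exact (measurable_ptr (by fun_prop) m1 m2).sub ((hphi.comp m2).sub (hphi.comp m1))
  have hi' : Integrable (fun q : ((ℝ × ℝ) × Environment) × (Ph2 × Ph2) => K (q.1.1 + -v0) q.1.2 q.2)
      ((P0 G).prod (π.prod π)) := integrable_shift_prod hKinv (-v0) hi
  have he' : ∫ q : ((ℝ × ℝ) × Environment) × (Ph2 × Ph2), K (q.1.1 + -v0) q.1.2 q.2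
      ∂((P0 G).prod (π.prod π)) = ∫ q : ((ℝ × ℝ) × Environment) × (Ph2 × Ph2), K q.1.1 q.1.2 q.2
      ∂((P0 G).prod (π.prod π)) := integral_shift_prod hKinv hKm (-v0)
  -- the shift of the second phase
  let T : ((ℝ × ℝ) × Environment) × (Ph2 × Ph2) → ((ℝ × ℝ) × Environment) × (Ph2 × Ph2) :=
    fun q => (q.1, (q.2.1, (q.2.2.1, Int.fract (q.2.2.2 + (s' - s) / h.n0))))
  have hT : MeasurePreserving T ((P0 G).prod (π.prod π)) ((P0 G).prod (π.prod π)) :=
    (MeasurePreserving.id _).prod ((MeasurePreserving.id _).prod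
      ((MeasurePreserving.id _).prod (mp_fract _)))
  let H : ((ℝ × ℝ) × Environment) × (Ph2 × Ph2) → ℝ := fun q =>
    R78.ptY q.1.2 (phi F) (h.x s q.2.1.2 (q.1.1 - v0 - q.2.1.1) q.1.2)
        (h.x s' q.2.2.2 (q.1.1 - v1 - q.2.2.1) q.1.2)
  have hHm : Measurable H := by
    have hphi : Measurable (phi F) := measurable_of_countable _
    have m1 : Measurable fun q : ((ℝ × ℝ) × Environment) × (Ph2 × Ph2) =>
        h.x s q.2.1.2 (q.1.1 - v0 - q.2.1.1) q.1.2 :=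
      meas_x h (by fun_prop) (by fun_prop) (by fun_prop) s
    have m2 : Measurable fun q : ((ℝ × ℝ) × Environment) × (Ph2 × Ph2) =>
        h.x s' q.2.2.2 (q.1.1 - v1 - q.2.2.1) q.1.2 :=
      meas_x h (by fun_prop) (by fun_prop) (by fun_prop) s'
    exact (measurable_ptr (by fun_prop) m1 m2).sub ((hphi.comp m2).sub (hphi.comp m1))
  have hsq : ∀ᵐ q : ((ℝ × ℝ) × Environment) × (Ph2 × Ph2) ∂((P0 G).prod (π.prod π)),
      q.2.1.1 ∈ Set.Ico (0 : ℝ) 1 ×ˢ Set.Ico (0 : ℝ) 1 ∧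
      q.2.2.1 ∈ Set.Ico (0 : ℝ) 1 ×ˢ Set.Ico (0 : ℝ) 1 := by
    have a1 : MeasurePreserving (fun q : ((ℝ × ℝ) × Environment) × (Ph2 × Ph2) => q.2.1.1)
        ((P0 G).prod (π.prod π)) UU2 :=
      measurePreserving_fst.comp (measurePreserving_fst.comp measurePreserving_snd)
    have a2 : MeasurePreserving (fun q : ((ℝ × ℝ) × Environment) × (Ph2 × Ph2) => q.2.2.1)
        ((P0 G).prod (π.prod π)) UU2 :=
      measurePreserving_fst.comp (measurePreserving_snd.comp measurePreserving_snd)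
    filter_upwards [a1.quasiMeasurePreserving.ae ae_UU2, a2.quasiMeasurePreserving.ae ae_UU2]
      with q b1 b2 using ⟨b1, b2⟩
  have hHK : (fun q => H (T q)) =ᵐ[(P0 G).prod (π.prod π)]
      fun q => K (q.1.1 + -v0) q.1.2 q.2 := by
    filter_upwards [hsq] with q hq
    obtain ⟨q1, q2⟩ := hq
    simp only [H, T, K, Xj]
    rw [frac2_of_mem q1, frac2_of_mem q2]
    have e1 := M56.x_shift h s (s' - s) q.2.2.2 (q.1.1 - v1 - q.2.2.1) q.1.2
    rw [add_sub_cancel] at e1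
    rw [e1]
    have e2 : q.1.1 + -v0 - v - q.2.2.1 = q.1.1 - v1 - q.2.2.1 - (s' - s) • F.a := by
      rw [hv]; abel
    have e3 : q.1.1 + -v0 - q.2.1.1 = q.1.1 - v0 - q.2.1.1 := by abel
    rw [e2, e3]
    rfl
  have hiT : Integrable (fun q => H (T q)) ((P0 G).prod (π.prod π)) := hi'.congr hHK.symm
  have hiH : Integrable H ((P0 G).prod (π.prod π)) :=
    (hT.integrable_comp hHm.aestronglyMeasurable).1 hiT
  refine ⟨hiH, ?_⟩
  have e : ∫ q, H q ∂((P0 G).prod (π.prod π)) = ∫ q, H (T q) ∂((P0 G).prod (π.prod π)) :=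
    (mp_integral hT hHm.aestronglyMeasurable).symm
  have e2 : ∫ q, H (T q) ∂((P0 G).prod (π.prod π)) = _ := integral_congr_ae hHK
  show 0 ≤ ∫ q, H q ∂((P0 G).prod (π.prod π))
  rw [e, e2, he']
  exact hn

/-- the projection to `(p, ((η, u'), (η₁, u₁)))` -/
lemma mp_d : MeasurePreserving (fun q : O4 =>
      ((q.1, ((q.2.1.1, q.2.1.2.2), q.2.2)) : ((ℝ × ℝ) × Environment) × (Ph2 × Ph2))) (P4 G)
    ((P0 G).prod ((UU2.prod UU).prod (UU2.prod UU))) := by
  have h1 : MeasurePreserving (fun p : Ph3 × Ph2 => (((p.1.1, p.1.2.2), p.2) : Ph2 × Ph2))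
      ((UU2.prod (UU.prod UU)).prod (UU2.prod UU)) ((UU2.prod UU).prod (UU2.prod UU)) :=
    ((MeasurePreserving.id UU2).prod (measurePreserving_snd (μ := UU) (ν := UU))).prod
      (MeasurePreserving.id (UU2.prod UU))
  exact (MeasurePreserving.id (P0 G)).prod h1

end Crest.Agent.R151.J69
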