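import Crest.Agent.R151.V18

/-!
# R151/V19 — conditional statements, pointwise in `p ∈ TS` (owner helper52)

* `posS h d` : rows whose strip weights are nonnegative (measurable, `SInv`, invariant, a.s.);
* `LC_hk'`, `nonneg_hk'` : log-concavity and `R# ≥ 0` given `p ∈ posS`, for ALL such `p`;
* `cond_T1`, `cond_T1X`, `cond_T2X`, `cond_T2`, `cond_lintegral` : (7.1), (7.2) given `p`.
-/

set_option autoImplicit false
set_option linter.unusedSectionVars false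

open MeasureTheory ProbabilityTheory Set
open scoped ENNReal
open Crest.ProbabilityR.FirstPassage

namespace Crest.Agent.R151.V

open Crest.Agent.R151.K
open R78 (routes hull IsOpen)
open Q (pos Hwy P0 UU UU2 phi rg Inv)
open M192 (Row mIL)
open B710 (FlatData)

section cond

variable {Φ : Type*} [MeasurableSpace Φ] {E : ℝ × ℝ → Set (Sym2 (ℤ × ℤ))}
  {G : Measure ℝ} [IsProbabilityMeasure G]
  {X D : Row Φ → ℝ} {Ω : Type*} [MeasurableSpace Ω] {κ : Measure Ω} [IsProbabilityMeasure κ]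

lemma cond_err' {p : Row Φ} (h0 : ∀ᵐ t ∂(iidLaw G), 0 ≤ X (cs E p t) - D (cs E p t)) {d δ : ℝ}
    (hp : (iidLaw G).real {t | d < |D (cs E p t)|} ≤ δ) :
    (iidLaw G).real {t | ¬ (|(X (cs E p t) - D (cs E p t)) - X (cs E p t)| ≤ d ∧
        0 ≤ X (cs E p t) - D (cs E p t))} ≤ δ := by
  refine le_trans (ENNReal.toReal_mono (measure_ne_top _ _) (measure_mono_ae ?_)) hp
  filter_upwards [h0] with t ht hcon
  show d < |D (cs E p t)|
  by_contra hlt
  push Not at hlt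
  refine hcon ⟨?_, ht⟩
  have : X (cs E p t) - D (cs E p t) - X (cs E p t) = -D (cs E p t) := by ring
  rw [this, abs_neg]
  exact hlt

/-- (7.1) given `p`, for `R#` -/
theorem cond_T1 {p : Row Φ} (hX : Measurable X) (hlc : LC (iidLaw G) (fun t => X (cs E p t)))
    (h0 : ∀ᵐ t ∂(iidLaw G), 0 ≤ X (cs E p t) - D (cs E p t))
    {d δ t₀ q c : ℝ} (hd : 0 < d) (ht : 0 < t₀) (hδ : δ ≤ 1 / 2) (hq0 : 0 < q) (hq1 : q ≤ 1)
    {I N : Set (Row Φ × Ω)} (hA1 : p ∈ typ G E κ {y : Row Φ × Ω | d < |D y.1|} δ)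
    (hA2 : p ∈ typ G E κ N c) (hN : ∀ y ∈ I, X y.1 - D y.1 < t₀ → y ∈ N)
    (hI : q + δ + c ≤ ((iidLaw G).prod κ).real {x | (cs E p x.1, x.2) ∈ I}) {a : ℝ}
    (ha : 0 ≤ a) :
    (iidLaw G).real {t | X (cs E p t) - D (cs E p t) ≤ a} ≤
      3 * δ + (a + 3 * d) / t₀ * Real.log (3 / q) := by
  have h1 := le_condProb (B := {p | t₀ ≤ X p - D p}) (fun y hy hyB => hN y hy
      (not_le.1 hyB)) hA2 hI
  have h2 : q + δ + c - c = q + δ := by ring
  rw [h2] at h1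
  exact hlc.pert_small_ball' (hX.comp (measurable_cs_right E p)) (Z := fun t =>
    X (cs E p t) - D (cs E p t)) hd ht ha hδ hq0 hq1 (cond_err' h0 (condD_of_typ hA1)) h1

/-- (7.1) given `p`, for the log-concave variable itself -/
theorem cond_T1X {p : Row Φ} (hX : Measurable X) (hlc : LC (iidLaw G) (fun t => X (cs E p t)))
    (h0 : ∀ᵐ t ∂(iidLaw G), 0 ≤ X (cs E p t) - D (cs E p t))
    {d δ t₀ q c : ℝ} (hd : 0 < d) (ht : 0 < t₀) (hδ : δ ≤ 1 / 2) (hq0 : 0 < q) (hq1 : q ≤ 1)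
    {I N : Set (Row Φ × Ω)} (hA1 : p ∈ typ G E κ {y : Row Φ × Ω | d < |D y.1|} δ)
    (hA2 : p ∈ typ G E κ N c) (hN : ∀ y ∈ I, X y.1 - D y.1 < t₀ → y ∈ N)
    (hI : q + δ + c ≤ ((iidLaw G).prod κ).real {x | (cs E p x.1, x.2) ∈ I}) {a : ℝ}
    (ha : 0 ≤ a) :
    (iidLaw G).real {t | X (cs E p t) ≤ a} ≤
      4 * δ + (a + 4 * d) / t₀ * Real.log (3 / q) := by
  have h1 := cond_T1 hX hlc h0 hd ht hδ hq0 hq1 hA1 hA2 hN hI (a := a + d) (by linarith)
  have h2 : (iidLaw G).real {t | X (cs E p t) ≤ a} ≤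
      (iidLaw G).real {t | X (cs E p t) - D (cs E p t) ≤ a + d} +
        (iidLaw G).real {t | d < |D (cs E p t)|} := by
    refine (measureReal_mono ?_ (measure_ne_top _ _)).trans (measureReal_union_le _ _)
    intro t ht
    simp only [mem_union, mem_ofPred_eq] at ht ⊢
    by_contra hcon
    push Not at hcon
    have := neg_abs_le (D (cs E p t))
    linarith [hcon.1, hcon.2]
  have h3 := condD_of_typ hA1
  have e1 : a + d + 3 * d = a + 4 * d := by ring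
  rw [e1] at h1
  linarith

/-- (7.2) given `p`, tail of the log-concave variable itself, every `a ≥ 0` -/
theorem cond_T2X {p : Row Φ} (hX : Measurable X) (hlc : LC (iidLaw G) (fun t => X (cs E p t)))
    (h0 : ∀ᵐ t ∂(iidLaw G), 0 ≤ X (cs E p t) - D (cs E p t))
    {d δ τ q c : ℝ} (hd : 0 < d) (hτ : 0 ≤ τ) (hδ : δ ≤ q / 4) (hq0 : 0 ≤ q) (hq1 : q ≤ 1)
    {I N : Set (Row Φ × Ω)} (hA1 : p ∈ typ G E κ {y : Row Φ × Ω | d < |D y.1|} δ)
    (hA2 : p ∈ typ G E κ N c) (hN : ∀ y ∈ I, τ < X y.1 - D y.1 → y ∈ N)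
    (hI : q + c ≤ ((iidLaw G).prod κ).real {x | (cs E p x.1, x.2) ∈ I}) {a : ℝ} (ha : 0 ≤ a) :
    (iidLaw G).real {t | a - d ≤ X (cs E p t)} ≤
      2 * Real.exp (-(q / 2) * (a / (τ + 3 * d))) := by
  have h1 := le_condProb (B := {p | X p - D p ≤ τ}) (fun y hy hyB => hN y hy
      (not_le.1 hyB)) hA2 hI
  have h2 : q + c - c = q := by ring
  rw [h2] at h1
  exact hlc.pert_tail_X (hX.comp (measurable_cs_right E p)) (Z := fun t =>
    X (cs E p t) - D (cs E p t)) hd hτ hδ hq0 hq1 (cond_err' h0 (condD_of_typ hA1)) h1 ha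


end cond

section hwy

variable {μ : ℝ × ℝ → ℝ} {F : FlatData μ} (h : Hwy F)

/-- the strip weights are nonnegative -/
def posS (d : ℝ × ℝ) : Set (Row (ℝ × ℝ)) := {p | ∀ e ∈ E0 h d p.1.1, 0 ≤ p.1.2 e}

lemma measurableSet_posS (d : ℝ × ℝ) : MeasurableSet (posS h d) := by
  have h1 : posS h d = ⋂ e : Sym2 (ℤ × ℤ),
      ({p : Row (ℝ × ℝ) | e ∈ E0 h d p.1.1}ᶜ ∪ {p : Row (ℝ × ℝ) | 0 ≤ p.1.2 e}) := by
    ext p
    simp only [posS, mem_ofPred_eq, mem_iInter, mem_union, mem_compl_iff]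
    exact forall_congr' fun e => by tauto
  rw [h1]
  refine MeasurableSet.iInter fun e => ?_
  refine ((measurable_fst.comp measurable_fst) (measurableSet_E0 h d e)).compl.union ?_
  exact measurableSet_le measurable_const
    ((measurable_pi_apply e).comp (measurable_snd.comp measurable_fst))

lemma sInv_posS (d : ℝ × ℝ) : SInv (E0 h d) (posS h d) := by
  intro p t
  simp only [posS, mem_ofPred_eq, cs]
  exact forall_congr' fun e => forall_congr' fun he => by rw [glue_of_mem he]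

lemma inv_posS (d : ℝ × ℝ) (φ : ℝ × ℝ) :
    Inv fun θ t => (((θ, t), φ) : Row (ℝ × ℝ)) ∈ posS h d := by
  intro m θ t
  simp only [posS, mem_ofPred_eq]
  apply propext
  constructor
  · intro h1 e he
    have h2 : e = Sym2.map (tr m) (Sym2.map (tr (-m)) e) := by
      induction e with
      | h x y => simp
    have h3 := h1 (Sym2.map (tr (-m)) e) ((eCov_E0 h d m θ _).2 (by rw [← h2]; exact he))
    have h4 : act (tr m) t (Sym2.map (tr (-m)) e) = t e := by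
      show t (Sym2.map (tr m) (Sym2.map (tr (-m)) e)) = t e
      rw [← h2]
    rwa [h4] at h3
  · intro h1 e he
    exact h1 _ ((eCov_E0 h d m θ e).1 he)

lemma ae_posS {G : Measure ℝ} [IsProbabilityMeasure G] (h0 : G (Set.Iio 0) = 0) (d : ℝ × ℝ) :
    ∀ᵐ p ∂((P0 G).prod (UU.prod UU)), p ∈ posS h d := by
  filter_upwards [ae_Nn_row h0 (UU.prod UU)] with p hp e _
  exact hp e

/-- replace the weights off the strips by 0 -/
lemma glue_pos_eq {d : ℝ × ℝ} (θ : ℝ × ℝ) (s t : Environment) :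
    glue (E0 h d θ) (glue (E0 h d θ) s 0) t = glue (E0 h d θ) s t := glue_glue _ _ _ _

/-- **R7b** with nonnegative strip weights only -/
theorem LC_hk' {r : ℝ} (hr : 0 < r) {d : ℝ × ℝ} (I : Set ℝ) (a b : ℝ) {p : Row (ℝ × ℝ)}
    (hp : p ∈ posS h d) (hne : NE h d I a b p) :
    LC (iidLaw (gammaMeasure 1 r)) (fun t => hkR h d I a b (cs (E0 h d) p t)) := by
  set s' : Environment := glue (E0 h d p.1.1) p.1.2 0 with hs'
  have hNn : Nn s' := by
    intro e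
    by_cases he : e ∈ E0 h d p.1.1
    · rw [hs', glue_of_mem he]; exact hp e he
    · rw [hs', glue_of_notMem he]; exact le_rfl
  have hcong : ∀ e ∈ E0 h d p.1.1, p.1.2 e = s' e := fun e he => (glue_of_mem he _ _).symm
  have h1 : h.Lo p.1.1 p.1.2 p.2 = h.Lo p.1.1 s' p.2 := Lo_congr hcong p.2
  have h2 : h.Up d p.1.1 p.1.2 p.2 = h.Up d p.1.1 s' p.2 := Up_congr hcong p.2
  have h3 : h.iL a p.1.1 p.1.2 p.2 = h.iL a p.1.1 s' p.2 := iL_congr hcong a p.2
  have h4 : h.iU d b p.1.1 p.1.2 p.2 = h.iU d b p.1.1 s' p.2 := iU_congr hcong b p.2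
  have hne' : (routes s' (h.Lo p.1.1 s' p.2) (h.Up d p.1.1 s' p.2) (rg F I p.1.1)
      (h.iL a p.1.1 s' p.2) (h.iU d b p.1.1 s' p.2)).Nonempty := by
    obtain ⟨_, z, w, hz, hw, g, hg, -⟩ := hne
    rw [← h1, ← h2, ← h3, ← h4]
    exact ⟨_, z, w, hz, hw, g, hg, rfl⟩
  have h5 := LC_hk h hr hNn d I a b p.1.1 p.2 hne'
  have h6 : (fun t => hkR h d I a b (cs (E0 h d) p t)) =
      fun t => h.hk d I a b p.1.1 (glue (E0 h d p.1.1) s' t) p.2 := by
    funext t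
    rw [hs', glue_pos_eq]
    rfl
  rw [h6]
  exact h5

lemma NE_cs {d : ℝ × ℝ} {I : Set ℝ} {a b : ℝ} {p : Row (ℝ × ℝ)} (t : Environment)
    (hne : NE h d I a b p) : NE h d I a b (cs (E0 h d) p t) := by
  unfold NE cs at *
  simp only [Lo_glue, Up_glue, iL_glue, iU_glue]
  obtain ⟨_, z, w, hz, hw, g, hg, -⟩ := hne
  exact ⟨_, z, w, hz, hw, g, hg, rfl⟩

/-- `R# ≥ 0` given `p ∈ posS` -/
theorem nonneg_hk' {G : Measure ℝ} [IsProbabilityMeasure G] (h0 : G (Set.Iio 0) = 0)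
    {d : ℝ × ℝ} {I : Set ℝ} {L a b : ℝ} (ha : -L ≤ a) (hb : b ≤ L) {p : Row (ℝ × ℝ)}
    (hp : p ∈ posS h d) (hne : NE h d I a b p) :
    ∀ᵐ t ∂(iidLaw G), 0 ≤ hkR h d I a b (cs (E0 h d) p t) -
      hkR h d univ (-L) L (cs (E0 h d) p t) := by
  filter_upwards [ae_Nn h0] with t ht
  have hNn : Nn (cs (E0 h d) p t).1.2 := by
    intro e
    by_cases he : e ∈ E0 h d p.1.1
    · show 0 ≤ glue (E0 h d p.1.1) p.1.2 t e
      rw [glue_of_mem he]; exact hp e he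
    · show 0 ≤ glue (E0 h d p.1.1) p.1.2 t e
      rw [glue_of_notMem he]; exact ht e
  have h1 : hkR h d univ (-L) L (cs (E0 h d) p t) ≤ hkR h d I a b (cs (E0 h d) p t) :=
    h.hk_mono hNn d (subset_univ _) ha hb (NE_cs h t hne)
  linarith

end hwy

end Crest.Agent.R151.V
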