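import Crest.Agent.R151.W2_Mg
import Crest.Agent.R151.M192f
import Crest.Agent.R151.J69i
import Mathlib
import Crest.Agent.R151.M56d
import Crest.Agent.R151.NF3
import Crest.Agent.R151.M192l
import Crest.Agent.R151.J684d
import Crest.Agent.R151.M56f
import Crest.Agent.R151.V19
import Crest.Agent.R151.G338j
import Crest.Agent.R151.V21
import Crest.Agent.R151.G338m
import Crest.Agent.R151.U450o
import Crest.Agent.R151.U750m4
import Crest.Agent.R151.Q8c
import Crest.Agent.R151.NF6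

-- ▼ part R151/E685F2
section

/-!
# R151 / S0214 part 2, E685F2 — Monge sums in the mean (helper685)

`A m m' = ∫ sk d I univ L (a m) (b m')` for labels in a lane; `monge_mean`:
`Σ_{m ≤ N} A (m+1) m ≤ A (N+1) 0 + Σ_{m < N} A (m+1) (m+1)`.
-/

set_option autoImplicit false

open MeasureTheory Filter ProbabilityTheory Topology Set
open Crest.ProbabilityR.FirstPassage

namespace Crest.Agent.R151.E685

open Crest.Agent.R151.K Crest.Agent.R151.Q
open R78 (V Wk IsHwy hc hp stepc hull routes IsOpen shp hullY ptY gapK IsStrip Frame IsPos Back Sep)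
open M192 (frame frame_al frame_be al_pos be_pos isStrip)
open B710 (FlatData)
open M56 (nu mg)

variable {μ : ℝ × ℝ → ℝ} {F : FlatData μ} (h : Hwy F)

/-- margin of the labels -/
noncomputable def mgn (h : Hwy F) : ℝ := 2 * mg F + h.κ + 1

lemma mgn_pos : 0 < mgn h := by
  have := M56.one_le_mg F
  have := h.κ_nonneg
  unfold mgn; linarith

/-- parameters of a lane -/
structure LaneP (h : Hwy F) (d : ℝ × ℝ) (I : Set ℝ) (α β : ℝ) : Prop where
  be : h.wH + 2 * mg F < F.be d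
  al : F.al d = 0
  meas : MeasurableSet I
  sub : Icc α β ⊆ I

variable {h} {d : ℝ × ℝ} {I J : Set ℝ} {α β L : ℝ}

namespace LaneP

variable (hL : LaneP h d I α β)
include hL

lemma ne {s s' : ℝ} (h1 : α ≤ s) (h2 : s + mgn h ≤ β) (h3 : α + mgn h ≤ s') (h4 : s' ≤ β)
    (θ : ℝ × ℝ) (t : Environment) (φ : ℝ × ℝ) :
    (routes t (h.Lo θ t φ) (h.Up d θ t φ) (rg F I θ) (h.iL s θ t φ) (h.iU d s' θ t φ)).Nonempty := by
  have hm := M56.one_le_mg F
  have hκ := h.κ_nonneg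
  unfold mgn at h2 h3
  refine M56.row_nonempty hL.be (σ₁ := s + mg F) (σ₂ := s' - mg F - h.κ - 1) le_rfl
    (by rw [hL.al]; linarith) ((Icc_subset_Icc ?_ ?_).trans hL.sub) θ t φ
  · rw [le_sub_iff_add_le, le_min_iff]; constructor <;> linarith
  · rw [← le_sub_iff_add_le, max_le_iff]; constructor <;> linarith

variable {G : Measure ℝ} [IsProbabilityMeasure G] {ε : ℝ}

lemma int (hM : HwyMean G h ε) (h0 : G (Set.Iio 0) = 0) (h2' : Integrable (fun x : ℝ => x ^ 2) G)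
    {s s' : ℝ} (h1 : α ≤ s) (h2 : s + mgn h ≤ β) (h3 : α + mgn h ≤ s') (h4 : s' ≤ β) :
    Integrable (fun q : ((ℝ × ℝ) × Environment) × (ℝ × ℝ) => h.hkY d I s s' q.1.1 q.1.2 q.2)
      (nu G) := by
  have hm := M56.one_le_mg F
  have hκ := h.κ_nonneg
  unfold mgn at h2 h3
  refine M56.hkY_integrable hM h0 h2' hL.be hL.meas (σ₁ := s + mg F) (σ₂ := s' - mg F - h.κ - 1)
    le_rfl (by rw [hL.al]; linarith) ((Icc_subset_Icc ?_ ?_).trans hL.sub)
  · rw [le_sub_iff_add_le, le_min_iff]; constructor <;> linarith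
  · rw [← le_sub_iff_add_le, max_le_iff]; constructor <;> linarith

lemma nonneg (hM : HwyMean G h ε) (h0 : G (Set.Iio 0) = 0)
    (h2' : Integrable (fun x : ℝ => x ^ 2) G) (hμ : IsTC G μ)
    {s s' : ℝ} (h1 : α ≤ s) (h2 : s + mgn h ≤ β) (h3 : α + mgn h ≤ s') (h4 : s' ≤ β) :
    0 ≤ ∫ q, h.hkY d I s s' q.1.1 q.1.2 q.2 ∂(nu G) := by
  have hm := M56.one_le_mg F
  have hκ := h.κ_nonneg
  unfold mgn at h2 h3
  refine M56.hkY_nonneg hM h0 h2' hL.be hL.meas (σ₁ := s + mg F) (σ₂ := s' - mg F - h.κ - 1)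
    le_rfl (by rw [hL.al]; linarith) ((Icc_subset_Icc ?_ ?_).trans hL.sub) hμ
  · rw [le_sub_iff_add_le, le_min_iff]; constructor <;> linarith
  · rw [← le_sub_iff_add_le, max_le_iff]; constructor <;> linarith

end LaneP

/-! ### Gauge over the whole plane -/

section gauge

variable {G : Measure ℝ} [IsProbabilityMeasure G] {ε : ℝ} (hM : HwyMean G h ε)
  (h0 : G (Set.Iio 0) = 0) (h2' : Integrable (fun x : ℝ => x ^ 2) G)
include hM h0 h2'

lemma gauge_int (hd : h.wH + 2 * mg F < F.be d) (hal : F.al d = 0) (hLL : mgn h ≤ 2 * L) :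
    Integrable (fun q : ((ℝ × ℝ) × Environment) × (ℝ × ℝ) =>
      h.hkY d univ (-L) L q.1.1 q.1.2 q.2) (nu G) :=
  (⟨hd, hal, MeasurableSet.univ, subset_univ _⟩ : LaneP h d univ (-L) L).int hM h0 h2' le_rfl
    (by linarith) (by linarith) le_rfl

lemma gauge_nonneg (hμ : IsTC G μ) (hd : h.wH + 2 * mg F < F.be d) (hal : F.al d = 0)
    (hLL : mgn h ≤ 2 * L) :
    0 ≤ ∫ q, h.hkY d univ (-L) L q.1.1 q.1.2 q.2 ∂(nu G) :=
  (⟨hd, hal, MeasurableSet.univ, subset_univ _⟩ : LaneP h d univ (-L) L).nonneg hM h0 h2' hμ le_rfl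
    (by linarith) (by linarith) le_rfl

end gauge

/-! ### Pointwise: monotonicity, sign and Monge -/

lemma sk_mono_pt {t : Environment} (ht : Nn t) {I I' : Set ℝ} (hI : I ⊆ I') {s s₁ s' s₁' : ℝ}
    (hs : s₁ ≤ s) (hs' : s' ≤ s₁') {θ φ : ℝ × ℝ}
    (hne : (routes t (h.Lo θ t φ) (h.Up d θ t φ) (rg F I θ) (h.iL s θ t φ)
      (h.iU d s' θ t φ)).Nonempty) :
    h.sk d I' J L s₁ s₁' θ t φ ≤ h.sk d I J L s s' θ t φ := by
  have := R78.hull_mono (Q.bddBelow_routes ht _ _ _ _ _) hne (M192.rg_mono hI θ)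
    (M192.iL_mono h hs θ t φ) (M192.iU_mono h d hs' θ t φ)
  unfold Hwy.sk Hwy.hk
  linarith

lemma sk_nonneg_pt {t : Environment} (ht : Nn t) {I : Set ℝ} {s s' : ℝ}
    (hs : -L ≤ s) (hs' : s' ≤ L) {θ φ : ℝ × ℝ}
    (hne : (routes t (h.Lo θ t φ) (h.Up d θ t φ) (rg F I θ) (h.iL s θ t φ)
      (h.iU d s' θ t φ)).Nonempty) :
    0 ≤ h.sk d I univ L s s' θ t φ := by
  have := sk_mono_pt (J := univ) (L := L) ht (subset_univ I) hs hs' hne
  have e : h.sk d univ univ L (-L) L θ t φ = 0 := by unfold Hwy.sk; ring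
  rwa [e] at this

lemma crosses_row (hd : h.wH < F.be d) (θ : ℝ × ℝ) (t : Environment) (φ : ℝ × ℝ) :
    R78.Crosses (h.Lo θ t φ) (h.Up d θ t φ) :=
  IsStrip.crosses (isStrip h φ.1 θ t) (isStrip h φ.2 (θ - d) t) (by rw [map_sub]; linarith)

lemma sk_monge_pt (hd : h.wH < F.be d) {t : Environment} (ht : Nn t) {s s₂ s' s₂' : ℝ}
    (hs : s ≤ s₂) (hs' : s' ≤ s₂') {θ φ : ℝ × ℝ}
    (hne : (routes t (h.Lo θ t φ) (h.Up d θ t φ) (rg F I θ) (h.iL s₂ θ t φ)
      (h.iU d s' θ t φ)).Nonempty) :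
    h.sk d I J L s s' θ t φ + h.sk d I J L s₂ s₂' θ t φ ≤
      h.sk d I J L s s₂' θ t φ + h.sk d I J L s₂ s' θ t φ := by
  have := R78.hull_monge' (t := t) (A := rg F I θ) (crosses_row hd θ t φ)
    (M192.iL_mono h hs θ t φ) (M192.iU_mono h d hs' θ t φ) (Q.bddBelow_routes ht _ _ _ _ _) hne
  unfold Hwy.sk Hwy.hk
  linarith

/-! ### Monge sums in the mean -/

section mean

variable {G : Measure ℝ} [IsProbabilityMeasure G] {ε : ℝ} (hM : HwyMean G h ε)
  (h0 : G (Set.Iio 0) = 0) (h2' : Integrable (fun x : ℝ => x ^ 2) G)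
  (hL : LaneP h d I α β) (hLL : mgn h ≤ 2 * L)
include hM h0 h2' hL hLL

lemma sk_int {s s' : ℝ} (h1 : α ≤ s) (h2 : s + mgn h ≤ β) (h3 : α + mgn h ≤ s') (h4 : s' ≤ β) :
    Integrable (fun q : ((ℝ × ℝ) × Environment) × (ℝ × ℝ) =>
      h.sk d I univ L s s' q.1.1 q.1.2 q.2) (nu G) :=
  (sk_mean h hM (hL.int hM h0 h2' h1 h2 h3 h4) (gauge_int hM h0 h2' hL.be hL.al hLL)).1

omit h2' hLL hM in
lemma sk_mean_nonneg {s s' : ℝ} (h1 : α ≤ s) (h2 : s + mgn h ≤ β) (h3 : α + mgn h ≤ s')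
    (h4 : s' ≤ β) (h5 : -L ≤ s) (h6 : s' ≤ L) :
    0 ≤ ∫ q, h.sk d I univ L s s' q.1.1 q.1.2 q.2 ∂(nu G) := by
  refine integral_nonneg_of_ae ?_
  filter_upwards [ae_P0_Nn (Ψ := ℝ × ℝ) (ν := UU.prod UU) h0] with q hq
  exact sk_nonneg_pt hq.1 h5 h6 (hL.ne h1 h2 h3 h4 _ _ _)

/-- **Monge sum in the mean** -/
theorem monge_mean {a b : ℕ → ℝ} (ha : Monotone a) (hb : Monotone b)
    (ha1 : ∀ m, α ≤ a m) (ha2 : ∀ m, a m + mgn h ≤ β) (hb1 : ∀ m, α + mgn h ≤ b m)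
    (hb2 : ∀ m, b m ≤ β) (N : ℕ) :
    ∑ m ∈ Finset.range (N + 1), ∫ q, h.sk d I univ L (a (m + 1)) (b m) q.1.1 q.1.2 q.2 ∂(nu G) ≤
      ∫ q, h.sk d I univ L (a (N + 1)) (b 0) q.1.1 q.1.2 q.2 ∂(nu G) +
      ∑ m ∈ Finset.range N,
        ∫ q, h.sk d I univ L (a (m + 1)) (b (m + 1)) q.1.1 q.1.2 q.2 ∂(nu G) := by
  have hi : ∀ i j, Integrable (fun q : ((ℝ × ℝ) × Environment) × (ℝ × ℝ) =>
      h.sk d I univ L (a i) (b j) q.1.1 q.1.2 q.2) (nu G) := fun i j =>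
    sk_int hM h0 h2' hL hLL (ha1 i) (ha2 i) (hb1 j) (hb2 j)
  have hwm : h.wH < F.be d := by
    have := hL.be
    have := M56.one_le_mg F
    linarith
  have key := integral_mono_ae
    (integrable_finsetSum (Finset.range (N + 1)) fun m _ => hi (m + 1) m)
    ((hi (N + 1) 0).add (integrable_finsetSum (Finset.range N) fun m _ => hi (m + 1) (m + 1))) (by
      filter_upwards [ae_P0_Nn (Ψ := ℝ × ℝ) (ν := UU.prod UU) h0] with q hq
      have hmg : W.Monge fun i j : ℕ => h.sk d I univ L (a i) (b j) q.1.1 q.1.2 q.2 := by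
        intro i i' j j' hii hjj
        exact sk_monge_pt hwm hq.1 (ha hii) (hb hjj) (hL.ne (ha1 _) (ha2 _) (hb1 _) (hb2 _) _ _ _)
      have := hmg.sum_sub N
      simp only [Pi.add_apply]
      exact this)
  simp only [Pi.add_apply] at key
  rw [integral_finsetSum _ fun m _ => hi (m + 1) m,
    integral_add (hi (N + 1) 0) (integrable_finsetSum _ fun m _ => hi (m + 1) (m + 1)),
    integral_finsetSum _ fun m _ => hi (m + 1) (m + 1)] at key
  exact key

/-- a small term of the sum, among the last `k` -/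
theorem exists_small {a b : ℕ → ℝ} (ha : Monotone a) (hb : Monotone b)
    (ha1 : ∀ m, α ≤ a m) (ha2 : ∀ m, a m + mgn h ≤ β) (hb1 : ∀ m, α + mgn h ≤ b m)
    (hb2 : ∀ m, b m ≤ β) (haL : ∀ m, -L ≤ a m) (hbL : ∀ m, b m ≤ L) {N k : ℕ} (hk : 1 ≤ k)
    (hkN : k ≤ N + 1) {T U : ℝ}
    (hT : ∫ q, h.sk d I univ L (a (N + 1)) (b 0) q.1.1 q.1.2 q.2 ∂(nu G) ≤ T)
    (hU : ∀ m < N, ∫ q, h.sk d I univ L (a (m + 1)) (b (m + 1)) q.1.1 q.1.2 q.2 ∂(nu G) ≤ U) :
    ∃ m, N + 1 - k ≤ m ∧ m < N + 1 ∧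
      ∫ q, h.sk d I univ L (a (m + 1)) (b m) q.1.1 q.1.2 q.2 ∂(nu G) ≤ (T + N * U) / k := by
  have key := monge_mean hM h0 h2' hL hLL ha hb ha1 ha2 hb1 hb2 N
  set f : ℕ → ℝ := fun m => ∫ q, h.sk d I univ L (a (m + 1)) (b m) q.1.1 q.1.2 q.2 ∂(nu G) with hf
  have hf0 : ∀ m, 0 ≤ f m := fun m => sk_mean_nonneg h0 hL (ha1 _) (ha2 _) (hb1 _) (hb2 _)
    (haL _) (hbL _)
  have h3 : ∑ m ∈ Finset.range N,
      ∫ q, h.sk d I univ L (a (m + 1)) (b (m + 1)) q.1.1 q.1.2 q.2 ∂(nu G) ≤ N * U := by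
    refine (Finset.sum_le_sum fun m hm => hU m (Finset.mem_range.1 hm)).trans ?_
    rw [Finset.sum_const, Finset.card_range, nsmul_eq_mul]
  have h4 : ∑ m ∈ Finset.Ico (N + 1 - k) (N + 1), f m ≤ T + N * U := by
    have h5 : ∑ m ∈ Finset.Ico (N + 1 - k) (N + 1), f m ≤ ∑ m ∈ Finset.range (N + 1), f m := by
      refine Finset.sum_le_sum_of_subset_of_nonneg ?_ fun m _ _ => hf0 m
      intro m hm
      rw [Finset.mem_Ico] at hm
      exact Finset.mem_range.2 hm.2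
    linarith
  have hcard : (Finset.Ico (N + 1 - k) (N + 1)).card = k := by rw [Nat.card_Ico]; omega
  have hk0 : (0 : ℝ) < k := by exact_mod_cast hk
  have hne : (Finset.Ico (N + 1 - k) (N + 1)).Nonempty := by
    rw [← Finset.card_pos, hcard]; omega
  have h6 : ∑ m ∈ Finset.Ico (N + 1 - k) (N + 1), f m ≤
      ∑ _m ∈ Finset.Ico (N + 1 - k) (N + 1), (T + N * U) / k := by
    rw [Finset.sum_const, hcard, nsmul_eq_mul]
    have : (k : ℝ) * ((T + N * U) / k) = T + N * U := by field_simp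
    rw [this]; exact h4
  obtain ⟨m, hm, hm2⟩ := Finset.exists_le_of_sum_le hne h6
  rw [Finset.mem_Ico] at hm
  exact ⟨m, hm.1, hm.2, hm2⟩

end mean

end Crest.Agent.R151.E685
end

-- ▼ part R151/J69j
section

/-!
# R151/J69j — definitions for the ONE MOVE LEMMA; means of the gap functionals (owner helper69)
-/

set_option autoImplicit false

open MeasureTheory Filter ProbabilityTheory
open Crest.ProbabilityR.FirstPassage
open Crest.Agent.R151.K Crest.Agent.R151.Q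

namespace Crest.Agent.R151.J69

open B710 (FlatData)
open R78 (V Wk IsHwy hc hp hull routes IsOpen shp hullY IsStrip Frame IsPos Back)
open M192 (frame frame_al frame_be al_pos be_pos isStrip)

variable {μ : ℝ × ℝ → ℝ} {F : FlatData μ}

/-- mean of the value function (`fS = eV / l`) -/
noncomputable def eV (G : Measure ℝ) (h : Hwy F) (W P g L : ℝ) (N : ℕ) (s : ℝ) : ℝ :=
  ∫ q : O2, Fg h W P g L N s q.1.1 q.1.2 q.2 ∂(P2 G)

/-- the gap functional on `O4`: from the label `s` of the upper highway of a row of height `y` to the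
label `s'` of the next lower highway (`k` pitches above), inside the half-lane -/
noncomputable def gapQ (h : Hwy F) (W P g L y : ℝ) (k : ℕ) (s s' : ℝ) (q : O4) : ℝ :=
  gapF h W L s s' q.1.1 (q.1.1 - g • F.b - q.2.1.1 - y • F.b)
    (q.1.1 - (k * P) • F.b - g • F.b - q.2.2.1) q.2.1.2.2 q.2.2.2 q.1.2

/-- mean of `gapQ` -/
noncomputable def eGap (G : Measure ℝ) (h : Hwy F) (W P g L y : ℝ) (k : ℕ) (s s' : ℝ) : ℝ :=
  ∫ q : O4, gapQ h W P g L y k s s' q ∂(P4 G)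

/-- mean excess of a row of height `y` between the labels `-L`, `L` -/
noncomputable def eHk (G : Measure ℝ) (h : Hwy F) (y : ℝ) (J : Set ℝ) (L : ℝ) : ℝ :=
  ∫ q : OR, h.hkY (y • F.b) J (-L) L q.1.1 q.1.2 q.2 ∂(PRow G)


variable (h : Hwy F) {G : Measure ℝ} [IsProbabilityMeasure G]

/-- the projection to `(p, (η, u'))` -/
lemma mp_e : MeasurePreserving (fun q : O4 => ((q.1, (q.2.1.1, q.2.1.2.2)) : O2)) (P4 G) (P2 G) := by
  have h1 : MeasurePreserving (fun p : Ph3 × Ph2 => ((p.1.1, p.1.2.2) : Ph2))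
      ((UU2.prod (UU.prod UU)).prod (UU2.prod UU)) (UU2.prod UU) :=
    ((MeasurePreserving.id UU2).prod (measurePreserving_snd (μ := UU) (ν := UU))).comp
      measurePreserving_fst
  exact (MeasurePreserving.id (P0 G)).prod h1

/-- highway excess of the upper highway of row `0` -/
lemma Y_U {ε : ℝ} (hm : HwyMean G h ε) (g y s s' : ℝ) :
    Integrable (fun q : O4 => h.Y s s' q.2.1.2.2 (q.1.1 - g • F.b - q.2.1.1 - y • F.b) q.1.2)
      (P4 G) ∧
    ∫ q : O4, h.Y s s' q.2.1.2.2 (q.1.1 - g • F.b - q.2.1.1 - y • F.b) q.1.2 ∂(P4 G) =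
      (s' - s) * ε := by
  obtain ⟨a, b⟩ := Y_jit h hm (g • F.b + y • F.b) s s'
  have e : (fun q : O4 => h.Y s s' q.2.1.2.2 (q.1.1 - g • F.b - q.2.1.1 - y • F.b) q.1.2) =
      fun q : O4 => (fun q : O2 => h.Y s s' q.2.2 (q.1.1 - (g • F.b + y • F.b) - q.2.1) q.1.2)
        (q.1, (q.2.1.1, q.2.1.2.2)) := by
    funext q
    simp only
    congr 1
    abel
  rw [e]
  exact ⟨(mp_e (G := G)).integrable_comp_of_integrable a, by
    rw [← b]; exact mp_integral (mp_e (G := G)) a.aestronglyMeasurable⟩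

/-- highway excess of the next lower highway -/
lemma Y_1 {ε : ℝ} (hm : HwyMean G h ε) (g c s s' : ℝ) :
    Integrable (fun q : O4 => h.Y s s' q.2.2.2 (q.1.1 - c • F.b - g • F.b - q.2.2.1) q.1.2)
      (P4 G) ∧
    ∫ q : O4, h.Y s s' q.2.2.2 (q.1.1 - c • F.b - g • F.b - q.2.2.1) q.1.2 ∂(P4 G) =
      (s' - s) * ε := by
  obtain ⟨a, b⟩ := Y_jit h hm (c • F.b + g • F.b) s s'
  have e : (fun q : O4 => h.Y s s' q.2.2.2 (q.1.1 - c • F.b - g • F.b - q.2.2.1) q.1.2) =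
      fun q : O4 => (fun q : O2 => h.Y s s' q.2.2 (q.1.1 - (c • F.b + g • F.b) - q.2.1) q.1.2)
        (q.1, q.2.2) := by
    funext q
    simp only
    congr 1
    abel
  rw [e]
  exact ⟨(mp_b (G := G)).integrable_comp_of_integrable a, by
    rw [← b]; exact mp_integral (mp_b (G := G)) a.aestronglyMeasurable⟩

/-- the full plane gap functional -/
lemma gap0_mean (h0 : G (Set.Iio 0) = 0) (h2 : Integrable (fun x : ℝ => x ^ 2) G)
    (hμ : IsTC G μ) (g y c L : ℝ) :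
    Integrable (fun q : O4 => gap0 h L (q.1.1 - g • F.b - q.2.1.1 - y • F.b)
      (q.1.1 - c • F.b - g • F.b - q.2.2.1) q.2.1.2.2 q.2.2.2 q.1.2) (P4 G) ∧
    0 ≤ ∫ q : O4, gap0 h L (q.1.1 - g • F.b - q.2.1.1 - y • F.b)
      (q.1.1 - c • F.b - g • F.b - q.2.2.1) q.2.1.2.2 q.2.2.2 q.1.2 ∂(P4 G) := by
  obtain ⟨a, b⟩ := jit_gap h (G := G) h0 h2 hμ (g • F.b + y • F.b) (c • F.b + g • F.b) (-L) L
  have e : (fun q : O4 => gap0 h L (q.1.1 - g • F.b - q.2.1.1 - y • F.b)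
      (q.1.1 - c • F.b - g • F.b - q.2.2.1) q.2.1.2.2 q.2.2.2 q.1.2) =
      fun q : O4 => (fun q : ((ℝ × ℝ) × Environment) × (Ph2 × Ph2) =>
      R78.ptY q.1.2 (phi F) (h.x (-L) q.2.1.2 (q.1.1 - (g • F.b + y • F.b) - q.2.1.1) q.1.2)
        (h.x L q.2.2.2 (q.1.1 - (c • F.b + g • F.b) - q.2.2.1) q.1.2))
        (q.1, ((q.2.1.1, q.2.1.2.2), q.2.2)) := by
    funext q
    unfold gap0
    simp only
    have e1 : q.1.1 - g • F.b - q.2.1.1 - y • F.b = q.1.1 - (g • F.b + y • F.b) - q.2.1.1 := by abel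
    have e2 : q.1.1 - c • F.b - g • F.b - q.2.2.1 = q.1.1 - (c • F.b + g • F.b) - q.2.2.1 := by abel
    rw [e1, e2]
  rw [e]
  refine ⟨(mp_d (G := G)).integrable_comp_of_integrable a, ?_⟩
  have := mp_integral (mp_d (G := G)) a.aestronglyMeasurable
  rw [this]
  exact b

section gap

variable {W P g y L : ℝ} {k : ℕ}

/-- the crossing of the gap is integrable -/
lemma exL_int (h0 : G (Set.Iio 0) = 0) (h1 : Integrable (fun x : ℝ => x) G)
    (hM : MPar h P g y k) {s s' : ℝ} (hs : Ins h W s) (hs' : Ins h W s') :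
    Integrable (fun q : O4 => exL F W q.1.1 q.1.2
      (h.x s q.2.1.2.2 (q.1.1 - g • F.b - q.2.1.1 - y • F.b) q.1.2)
      (h.x s' q.2.2.2 (q.1.1 - (k * P) • F.b - g • F.b - q.2.2.1) q.1.2)) (P4 G) := by
  obtain ⟨M1, hM1⟩ := mem_box_x h (g • F.b + y • F.b) s
  obtain ⟨M2, hM2⟩ := mem_box_x h ((k * P) • F.b + g • F.b) s'
  set M := max M1 M2
  have hx : Measurable fun q : O4 =>
      h.x s q.2.1.2.2 (q.1.1 - g • F.b - q.2.1.1 - y • F.b) q.1.2 :=
    meas_x h (by fun_prop) (by fun_prop) (by fun_prop) s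
  have hy : Measurable fun q : O4 =>
      h.x s' q.2.2.2 (q.1.1 - (k * P) • F.b - g • F.b - q.2.2.1) q.1.2 :=
    meas_x h (by fun_prop) (by fun_prop) (by fun_prop) s'
  have hae : ∀ᵐ q ∂(P4 G),
      h.x s q.2.1.2.2 (q.1.1 - g • F.b - q.2.1.1 - y • F.b) q.1.2 ∈ box M ∧
      h.x s' q.2.2.2 (q.1.1 - (k * P) • F.b - g • F.b - q.2.2.1) q.1.2 ∈ box M ∧
      (|F.al (pos q.1.1 (h.x s q.2.1.2.2 (q.1.1 - g • F.b - q.2.1.1 - y • F.b) q.1.2))| ≤
          W / 2 - 4 * cF F ∧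
        4 * cF F ≤ F.be (pos q.1.1
          (h.x s q.2.1.2.2 (q.1.1 - g • F.b - q.2.1.1 - y • F.b) q.1.2))) ∧
      (|F.al (pos q.1.1 (h.x s' q.2.2.2 (q.1.1 - (k * P) • F.b - g • F.b - q.2.2.1) q.1.2))| ≤
          W / 2 - 4 * cF F ∧
        4 * cF F ≤ F.be (pos q.1.1
          (h.x s' q.2.2.2 (q.1.1 - (k * P) • F.b - g • F.b - q.2.2.1) q.1.2))) := by
    filter_upwards [ae_P4 (G := G) h0] with q hq
    have hη := norm_jitter hq.2.2.1
    have hη₁ := norm_jitter hq.2.2.2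
    have e1 : q.1.1 - g • F.b - q.2.1.1 - y • F.b = q.1.1 - (g • F.b + y • F.b) - q.2.1.1 := by abel
    have e2 : q.1.1 - (k * P) • F.b - g • F.b - q.2.2.1 =
      q.1.1 - ((k * P) • F.b + g • F.b) - q.2.2.1 := by abel
    refine ⟨?_, ?_, conn_xU h hM hs hη, conn_x1' h hM hs' hη₁⟩
    · rw [e1]; exact box_mono (le_max_left _ _) (hM1 _ _ _ _ hq.2.1 hη)
    · rw [e2]; exact box_mono (le_max_right _ _) (hM2 _ _ _ _ hq.2.1 hη₁)
  have hp := integrable_pR_Lam (F := F) ((UU2.prod (UU.prod UU)).prod (UU2.prod UU)) h0 h1 (W := W)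
    (M := M) hx hy hae
  have h3 := integrable_fun_box hx (hae.mono fun q hq => hq.1) (phi F)
  have h4 := integrable_fun_box hy (hae.mono fun q hq => hq.2.1) (phi F)
  exact hp.sub (h4.sub h3)

lemma gapQ_int (h0 : G (Set.Iio 0) = 0) (h1 : Integrable (fun x : ℝ => x) G) {ε : ℝ}
    (hm : HwyMean G h ε) (hM : MPar h P g y k) {s s' : ℝ} (hs : Ins h W s) (hs' : Ins h W s') :
    Integrable (gapQ h W P g L y k s s') (P4 G) :=
  ((Y_U h hm g y (-L) s).1.add (exL_int h h0 h1 hM hs hs')).add (Y_1 h hm g (k * P) s' L).1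

/-- mean of the gap functional: highways plus the crossing -/
lemma eGap_eq (h0 : G (Set.Iio 0) = 0) (h1 : Integrable (fun x : ℝ => x) G) {ε : ℝ}
    (hm : HwyMean G h ε) (hM : MPar h P g y k) {s s' : ℝ} (hs : Ins h W s) (hs' : Ins h W s') :
    eGap G h W P g L y k s s' = (s + L) * ε + (L - s') * ε + ∫ q : O4, exL F W q.1.1 q.1.2
      (h.x s q.2.1.2.2 (q.1.1 - g • F.b - q.2.1.1 - y • F.b) q.1.2)
      (h.x s' q.2.2.2 (q.1.1 - (k * P) • F.b - g • F.b - q.2.2.1) q.1.2) ∂(P4 G) := by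
  obtain ⟨a1, b1⟩ := Y_U h hm (G := G) g y (-L) s
  obtain ⟨a2, b2⟩ := Y_1 h hm (G := G) g (k * P) s' L
  have a3 := exL_int h h0 h1 hM hs hs'
  have e : eGap G h W P g L y k s s' = ∫ q : O4, (h.Y (-L) s q.2.1.2.2
      (q.1.1 - g • F.b - q.2.1.1 - y • F.b) q.1.2 + exL F W q.1.1 q.1.2
      (h.x s q.2.1.2.2 (q.1.1 - g • F.b - q.2.1.1 - y • F.b) q.1.2)
      (h.x s' q.2.2.2 (q.1.1 - (k * P) • F.b - g • F.b - q.2.2.1) q.1.2)) +
      h.Y s' L q.2.2.2 (q.1.1 - (k * P) • F.b - g • F.b - q.2.2.1) q.1.2 ∂(P4 G) := rfl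
  have a12 : Integrable (fun q : O4 => h.Y (-L) s q.2.1.2.2
      (q.1.1 - g • F.b - q.2.1.1 - y • F.b) q.1.2 + exL F W q.1.1 q.1.2
      (h.x s q.2.1.2.2 (q.1.1 - g • F.b - q.2.1.1 - y • F.b) q.1.2)
      (h.x s' q.2.2.2 (q.1.1 - (k * P) • F.b - g • F.b - q.2.2.1) q.1.2)) (P4 G) := a1.add a3
  rw [e, integral_add a12 a2, integral_add a1 a3, b1, b2]
  ring

end gap

end Crest.Agent.R151.J69
end

-- ▼ part R151/J69a
section

/-!
# R151/J69a — the STRATEGY (section 10) as a Lyapunov induction, abstract form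
(owner helper69)

`V k i` is the value (minimal excess) of the rows `k, k+1, …` started at the grid position `i`,
`φ` the Lyapunov function.  At every row one of two moves is available: a *single row move* with
finitely many options `A s` (the events `A s` are independent of the later rows) or a *double row
move* to one prescribed position.
-/

set_option autoImplicit false

namespace Crest.Agent.R151.J69

open MeasureTheory ProbabilityTheory

variable {Ω : Type*} [MeasurableSpace Ω] {P : Measure Ω} {ι : Type*}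

/-- an event independent of a random variable -/
lemma integral_indicator_indep [IsProbabilityMeasure P] {A : Set Ω} (hA : MeasurableSet A)
    {V : Ω → ℝ} (hV : Integrable V P)
    (hind : IndepFun (A.indicator (fun _ => (1 : ℝ))) V P) :
    ∫ ω, A.indicator V ω ∂P = P.real A * ∫ ω, V ω ∂P := by
  have h1 : ∀ ω, A.indicator V ω = A.indicator (fun _ => (1 : ℝ)) ω * V ω := by
    intro ω
    by_cases h : ω ∈ A <;> simp [h]
  have h2 := hind.integral_mul_eq_mul_integral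
    ((measurable_const.indicator hA).aestronglyMeasurable) hV.aestronglyMeasurable
  have h3 : ∫ ω, A.indicator (fun _ => (1 : ℝ)) ω ∂P = P.real A := by
    rw [integral_indicator hA]; simp [Measure.real]
  rw [← h3, ← h2]
  exact integral_congr_ae (Filter.Eventually.of_forall fun ω => by simp [h1 ω])



end Crest.Agent.R151.J69
end

-- ▼ part R151/J69k
section

/-!
# R151/J69k — the ONE MOVE LEMMA in the mean (owner helper69)
-/

set_option autoImplicit false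

open MeasureTheory Filter ProbabilityTheory
open Crest.ProbabilityR.FirstPassage
open Crest.Agent.R151.K Crest.Agent.R151.Q

namespace Crest.Agent.R151.J69

open B710 (FlatData)
open R78 (V Wk IsHwy hc hp hull routes IsOpen shp hullY IsStrip Frame IsPos Back)
open M192 (frame frame_al frame_be al_pos be_pos isStrip)

variable {μ : ℝ × ℝ → ℝ} {F : FlatData μ}

lemma cF_pos (F : FlatData μ) : 0 < cF F := by
  have h1 : F.be F.b = 1 := F.be_b
  have h2 : 0 < ‖F.be‖ := by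
    rw [norm_pos_iff]
    intro h
    rw [h] at h1
    simp at h1
  unfold cF
  positivity

variable (h : Hwy F) {G : Measure ℝ} [IsProbabilityMeasure G]

/-- the row seen on `O4` -/
noncomputable def rowQ (F : FlatData μ) (g : ℝ) (q : O4) : OR :=
  ((q.1.1 - g • F.b - q.2.1.1, q.1.2), q.2.1.2)

lemma measurable_rowQ (g : ℝ) : Measurable (rowQ F g) := by
  unfold rowQ
  fun_prop

/-- the next value seen on `O4` -/
noncomputable def nxQ (h : Hwy F) (W P g L : ℝ) (k N : ℕ) (s : ℝ) (q : O4) : ℝ :=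
  Fg h W P g L N s (q.1.1 - (k * P) • F.b) q.1.2 q.2.2

lemma nxQ_int (h0 : G (Set.Iio 0) = 0) (h1 : Integrable (fun x : ℝ => x) G) {ε : ℝ}
    (hm : HwyMean G h ε) {W P g L : ℝ} (hP : 0 ≤ P) (hg : h.wH / 2 + 5 * cF F ≤ g) {s : ℝ}
    (hs : Ins h W s) (k N : ℕ) :
    Integrable (nxQ h W P g L k N s) (P4 G) ∧
      ∫ q, nxQ h W P g L k N s q ∂(P4 G) = eV G h W P g L N s := by
  obtain ⟨a, b⟩ := Fg_shift h h0 h1 hm (L := L) hP hg hs N ((k * P) • F.b)
  exact ⟨a, b⟩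

/-- the row event and the next value are independent -/
lemma indep_nx (h0 : G (Set.Iio 0) = 0) {W P g y L : ℝ} {k : ℕ} (hM : MPar h P g y k) {B : Set OR}
    (hB : MeasurableSet[M192.mB h (y • F.b)] B) (N : ℕ) (s : ℝ) :
    IndepFun ((rowQ F g ⁻¹' B).indicator fun _ => (1 : ℝ)) (nxQ h W P g L k N s) (P4 G) := by
  obtain ⟨hBm, hBi, hBd⟩ := M192.measurableSet_mIL.1 hB
  let X : ℝ × ℝ → Environment → ℝ × ℝ → ℝ := fun θ t φ => B.indicator (fun _ => (1 : ℝ)) ((θ, t), φ)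
  let Y : ℝ × ℝ → Environment → Ph2 → ℝ := fun ξ t ψ =>
    Fg h W P g L N s (ξ - (k * P) • F.b) t (frac2 ψ.1, ψ.2)
  have hX : Measurable fun q : ((ℝ × ℝ) × Environment) × (ℝ × ℝ) => X q.1.1 q.1.2 q.2 :=
    measurable_const.indicator hBm
  have hXi : ∀ φ, Inv fun θ t => X θ t φ := by
    intro φ m θ t
    have := hBi φ m θ t
    simp only at this
    simp only [X]
    by_cases hb : ((θ, t), φ) ∈ B
    · rw [Set.indicator_of_mem hb, Set.indicator_of_mem (this ▸ hb)]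
    · rw [Set.indicator_of_notMem hb, Set.indicator_of_notMem (fun hx => hb (this ▸ hx))]
  have hY : Measurable fun q : ((ℝ × ℝ) × Environment) × Ph2 => Y q.1.1 q.1.2 q.2 := by
    have := Fg_meas h W P g L N s
    refine this.comp (g := fun q : O2 => Fg h W P g L N s q.1.1 q.1.2 q.2)
      (f := fun q : O2 => ((q.1.1 - (k * P) • F.b, q.1.2), (frac2 q.2.1, q.2.2))) ?_
    have h3 := measurable_frac2
    refine Measurable.prodMk (by fun_prop) (Measurable.prodMk ?_ (by fun_prop))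
    exact h3.comp (by fun_prop)
  have hXE : ∀ θ φ, DependsOn (fun t => X θ t φ) (edgesIn (h.band (y • F.b) θ)) := by
    intro θ φ t t' htt
    have := hBd θ φ htt
    simp only at this
    simp only [X]
    by_cases hb : ((θ, t'), φ) ∈ B
    · rw [Set.indicator_of_mem hb, Set.indicator_of_mem (this ▸ hb)]
    · rw [Set.indicator_of_notMem hb, Set.indicator_of_notMem (fun hx => hb (this ▸ hx))]
  have hYE : ∀ ξ ψ, DependsOn (fun t => Y ξ t ψ) (edgesIn (Abv F (ξ - (k * P) • F.b))) := by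
    intro ξ ψ
    have hη := norm_jitter (frac2_mem ψ.1)
    have hb := (abs_le.1 (abs_be_le' F hη)).1
    refine gV_loc h W P g L N s ψ.2 ?_
    have e : ξ - (k * P) • F.b - (ξ - (k * P) • F.b - g • F.b - frac2 ψ.1) =
      g • F.b + frac2 ψ.1 := by abel
    simp only
    rw [e, map_add, map_smul, F.be_b, smul_eq_mul, mul_one]
    have := hM.hg
    have hc := cF_nonneg F
    linarith
  have hdisj : ∀ ξ η, η ∈ Set.Ico (0 : ℝ) 1 ×ˢ Set.Ico (0 : ℝ) 1 →
      Disjoint (edgesIn (h.band (y • F.b) (ξ - g • F.b - η)))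
        (edgesIn (Abv F (ξ - (k * P) • F.b))) := by
    intro ξ η hη
    refine disjoint_edgesIn (Set.disjoint_left.2 fun z hz hz' => ?_)
    have hz2 := hz.2
    have hz3 : 0 ≤ F.be (pos (ξ - (k * P) • F.b) z) := hz'
    rw [M192.be_pos_sub_b] at hz3
    have e : F.be (pos (ξ - g • F.b - η) z) = F.be (pos ξ z) - g - F.be η := by
      rw [be_pos, be_pos, map_sub, map_sub, map_smul, F.be_b, smul_eq_mul, mul_one]; ring
    rw [e, map_smul, F.be_b, smul_eq_mul, mul_one] at hz2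
    have hb := (abs_le.1 (abs_be_le' F (norm_jitter hη))).2
    have h3 := hM.hg
    have h4 := hM.hk
    have h5 := cF_pos F
    linarith
  have key := indepFun_row (G := G) (ν := UU.prod UU) (π := UU2.prod UU) (X := X) hX hXi (Y := Y)
    hY (E := fun θ => edgesIn (h.band (y • F.b) θ))
    (E' := fun ξ => edgesIn (Abv F (ξ - (k * P) • F.b))) hXE hYE (g • F.b) hdisj
  refine IndepFun.congr key ?_ ?_
  · refine Eventually.of_forall fun q => ?_
    show X _ _ _ = (rowQ F g ⁻¹' B).indicator (fun _ => (1 : ℝ)) q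
    rfl
  · have hae := ae_P4 (G := G) h0
    have hae' : ∀ᵐ q ∂((P0 G).prod ((UU2.prod (UU.prod UU)).prod (UU2.prod UU))), Nn q.1.2 ∧
      q.1.1 ∈ Set.Ico (0 : ℝ) 1 ×ˢ Set.Ico (0 : ℝ) 1 ∧
      q.2.1.1 ∈ Set.Ico (0 : ℝ) 1 ×ˢ Set.Ico (0 : ℝ) 1 ∧
      q.2.2.1 ∈ Set.Ico (0 : ℝ) 1 ×ˢ Set.Ico (0 : ℝ) 1 := hae
    filter_upwards [hae'] with q hq
    simp only [Y, nxQ]
    rw [frac2_of_mem hq.2.2.2]

/-- row functionals on `O4`, with an event of the row -/
lemma row_ind {X : ℝ × ℝ → Environment → ℝ × ℝ → ℝ}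
    (hX : Measurable fun q : OR => X q.1.1 q.1.2 q.2) (hinv : ∀ φ, Inv fun θ t => X θ t φ)
    {B : Set OR} (hBm : MeasurableSet B)
    (hBi : ∀ φ, Inv fun θ t => (((θ, t), φ) : OR) ∈ B)
    (hi : IntegrableOn (fun q : OR => X q.1.1 q.1.2 q.2) B (PRow G)) (g : ℝ) :
    Integrable ((rowQ F g ⁻¹' B).indicator fun q : O4 =>
      X (q.1.1 - g • F.b - q.2.1.1) q.1.2 q.2.1.2) (P4 G) ∧
    ∫ q, (rowQ F g ⁻¹' B).indicator (fun q : O4 =>
      X (q.1.1 - g • F.b - q.2.1.1) q.1.2 q.2.1.2) q ∂(P4 G) =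
      ∫ q in B, X q.1.1 q.1.2 q.2 ∂(PRow G) := by
  let Z : ℝ × ℝ → Environment → ℝ × ℝ → ℝ := fun θ t φ =>
    B.indicator (fun q : OR => X q.1.1 q.1.2 q.2) ((θ, t), φ)
  have hZ : Measurable fun q : OR => Z q.1.1 q.1.2 q.2 := hX.indicator hBm
  have hZi : ∀ φ, Inv fun θ t => Z θ t φ := by
    intro φ m θ t
    have h1 := hBi φ m θ t
    have h2 := hinv φ m θ t
    simp only at h1 h2
    simp only [Z]
    by_cases hb : ((θ, t), φ) ∈ B
    · rw [Set.indicator_of_mem hb, Set.indicator_of_mem (h1 ▸ hb)]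
      exact h2
    · rw [Set.indicator_of_notMem hb, Set.indicator_of_notMem (fun hx => hb (h1 ▸ hx))]
  have hZint : Integrable (fun q : OR => Z q.1.1 q.1.2 q.2) (PRow G) :=
    (integrable_indicator_iff hBm).2 hi
  obtain ⟨a, b⟩ := row_int (G := G) hZ hZi hZint (g • F.b)
  have e : (fun q : O4 => Z (q.1.1 - g • F.b - q.2.1.1) q.1.2 q.2.1.2) =
      (rowQ F g ⁻¹' B).indicator fun q : O4 =>
      X (q.1.1 - g • F.b - q.2.1.1) q.1.2 q.2.1.2 := by
    funext q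
    rfl
  refine ⟨e ▸ a, ?_⟩
  have e2 : ∫ q : OR, Z q.1.1 q.1.2 q.2 ∂(PRow G) = ∫ q in B, X q.1.1 q.1.2 q.2 ∂(PRow G) :=
    integral_indicator hBm
  rw [← e2, ← b, e]

end Crest.Agent.R151.J69
end

-- ▼ part R151/J69l
section

/-!
# R151/J69l — the ONE MOVE LEMMA in the mean (owner helper69)
-/

set_option autoImplicit false

open MeasureTheory Filter ProbabilityTheory
open Crest.ProbabilityR.FirstPassage
open Crest.Agent.R151.K Crest.Agent.R151.Q

namespace Crest.Agent.R151.J69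

open B710 (FlatData)
open R78 (V Wk IsHwy hc hp hull routes IsOpen shp hullY IsStrip Frame IsPos Back)
open M192 (frame frame_al frame_be al_pos be_pos isStrip)

variable {μ : ℝ × ℝ → ℝ} {F : FlatData μ}
variable (h : Hwy F) {G : Measure ℝ} [IsProbabilityMeasure G]

/-- **ONE MOVE LEMMA.**  Row of height `y` (`k` pitches), event `B` of the row: on `Bᶜ` the row is
crossed `s → s₁` in the lane `I₁` and the next label is `s₁'`, on `B` it is crossed `s → s₂` in the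
lane `I₂` and the next label is `s₂'`. -/
theorem move_mean (h0 : G (Set.Iio 0) = 0) (h1 : Integrable (fun x : ℝ => x) G)
    (h2 : Integrable (fun x : ℝ => x ^ 2) G) (hμ : IsTC G μ) {ε : ℝ} (hm : HwyMean G h ε)
    (hε : 0 ≤ ε) {W P g y L : ℝ} {k : ℕ} (hM : MPar h P g y k) {B : Set OR}
    (hB : MeasurableSet[M192.mB h (y • F.b)] B) {N : ℕ} {s s₁ s₂ s₁' s₂' r₁ r₁' r₂ r₂' : ℝ}
    {I₁ I₂ J : Set ℝ} (hI₁m : MeasurableSet I₁) (hI₂m : MeasurableSet I₂) (hJm : MeasurableSet J)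
    (hs : Ins h W s) (hs₁ : Ins h W s₁) (hs₂ : Ins h W s₂) (hs₁' : Ins h W s₁')
    (hs₂' : Ins h W s₂') (hr₁ : Ins h W r₁) (hr₁' : Ins h W r₁') (hr₂ : Ins h W r₂)
    (hr₂' : Ins h W r₂') (hI₁ : I₁ ⊆ Set.Icc r₁ r₁') (hI₂ : I₂ ⊆ Set.Icc r₂ r₂') (hWL : W / 2 ≤ L)
    (hne₁ : ∀ θ t φ, (routes t (h.Lo θ t φ) (h.Up (y • F.b) θ t φ) (rg F I₁ θ) (h.iL s θ t φ)
      (h.iU (y • F.b) s₁ θ t φ)).Nonempty)
    (hne₂ : ∀ θ t φ, (routes t (h.Lo θ t φ) (h.Up (y • F.b) θ t φ) (rg F I₂ θ) (h.iL s θ t φ)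
      (h.iU (y • F.b) s₂ θ t φ)).Nonempty)
    (hi₁ : IntegrableOn (fun q : OR => h.sk (y • F.b) I₁ J L s s₁ q.1.1 q.1.2 q.2) Bᶜ (PRow G))
    (hi₂ : IntegrableOn (fun q : OR => h.sk (y • F.b) I₂ J L s s₂ q.1.1 q.1.2 q.2) B (PRow G))
    (hi₃ : Integrable (fun q : OR => h.hkY (y • F.b) J (-L) L q.1.1 q.1.2 q.2) (PRow G)) :
    eV G h W P g L (N + k) s ≤
      ∫ q in Bᶜ, h.sk (y • F.b) I₁ J L s s₁ q.1.1 q.1.2 q.2 ∂(PRow G) +
      ∫ q in B, h.sk (y • F.b) I₂ J L s s₂ q.1.1 q.1.2 q.2 ∂(PRow G) +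
      (PRow G).real Bᶜ * eV G h W P g L N s₁' + (PRow G).real B * eV G h W P g L N s₂' +
      (eGap G h W P g L y k s₁ s₁' + eGap G h W P g L y k s₂ s₂' + eHk G h y J L) := by
  classical
  obtain ⟨hBm, hBi, hBd⟩ := M192.measurableSet_mIL.1 hB
  have hBc : MeasurableSet[M192.mB h (y • F.b)] Bᶜ := hB.compl
  obtain ⟨hCm, hCi, hCd⟩ := M192.measurableSet_mIL.1 hBc
  have hκ := h.κ_nonneg
  have hcF := cF_nonneg F
  have hP := hM.hP
  have hg := hM.hg
  have hL0 : 0 ≤ L := by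
    have := (abs_nonneg _).trans hs
    linarith
  have labL : ∀ {x : ℝ}, Ins h W x → -L ≤ x ∧ x ≤ L := by
    intro x hx
    have := abs_le.1 hx
    constructor <;> linarith [this.1, this.2]
  -- the row events on `O4`
  set A : Set O4 := rowQ F g ⁻¹' B with hA
  have hAc : rowQ F g ⁻¹' Bᶜ = Aᶜ := rfl
  have hAm : MeasurableSet A := measurable_rowQ g hBm
  -- the row functionals
  have m1 : Measurable fun q : OR => h.sk (y • F.b) I₁ J L s s₁ q.1.1 q.1.2 q.2 :=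
    h.meas_sk (by fun_prop) (by fun_prop) (by fun_prop) _ hI₁m hJm _ _ _
  have m2 : Measurable fun q : OR => h.sk (y • F.b) I₂ J L s s₂ q.1.1 q.1.2 q.2 :=
    h.meas_sk (by fun_prop) (by fun_prop) (by fun_prop) _ hI₂m hJm _ _ _
  have m3 : Measurable fun q : OR => h.hkY (y • F.b) J (-L) L q.1.1 q.1.2 q.2 :=
    h.meas_hkY (by fun_prop) (by fun_prop) (by fun_prop) _ hJm _ _
  obtain ⟨i1, e1⟩ := row_ind (F := F) (X := fun θ t φ => h.sk (y • F.b) I₁ J L s s₁ θ t φ) m1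
    (fun φ => h.sk_inv _ _ _ _ _ _ φ) hCm hCi hi₁ g
  obtain ⟨i2, e2⟩ := row_ind (F := F) (X := fun θ t φ => h.sk (y • F.b) I₂ J L s s₂ θ t φ) m2
    (fun φ => h.sk_inv _ _ _ _ _ _ φ) hBm hBi hi₂ g
  obtain ⟨i3, e3⟩ := row_int (G := G) (X := fun θ t φ => h.hkY (y • F.b) J (-L) L θ t φ) m3
    (fun φ => h.hkY_inv _ _ _ _ φ) hi₃ (g • F.b)
  rw [hAc] at i1 e1
  -- the gaps
  have i4 := gapQ_int h h0 h1 hm (L := L) hM hs₁ hs₁'
  have i5 := gapQ_int h h0 h1 hm (L := L) hM hs₂ hs₂'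
  obtain ⟨i6, e6⟩ := gap0_mean h (G := G) h0 h2 hμ g y (k * P) L
  -- the highways
  obtain ⟨i7, e7⟩ := Y_U h hm (G := G) g y (-L) L
  obtain ⟨i8, e8⟩ := Y_1 h hm (G := G) g (k * P) (-L) L
  -- the next values
  obtain ⟨i9, e9⟩ := nxQ_int h h0 h1 hm (L := L) hP hg hs₁' k N
  obtain ⟨i10, e10⟩ := nxQ_int h h0 h1 hm (L := L) hP hg hs₂' k N
  have e11 := integral_indicator_indep (P := P4 G) hAm.compl i9
    (by have := indep_nx h h0 (W := W) (L := L) hM hBc N s₁'; rwa [hAc] at this)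
  have e12 := integral_indicator_indep (P := P4 G) hAm i10 (indep_nx h h0 (L := L) hM hB N s₂')
  -- probability of the row event
  have hPA : (P4 G).real A = (PRow G).real B := by
    obtain ⟨_, e⟩ := row_ind (G := G) (F := F) (X := fun _ _ _ => (1 : ℝ)) measurable_const
      (fun φ _ _ _ => rfl) hBm hBi (integrable_const _).integrableOn g
    rw [integral_indicator hAm] at e
    simpa [Measure.real] using e
  have hPAc : (P4 G).real Aᶜ = (PRow G).real Bᶜ := by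
    rw [measureReal_compl hAm, measureReal_compl hBm, hPA]
    simp
  -- the left hand side
  obtain ⟨i0, e0⟩ : Integrable (fun q : O4 => Fg h W P g L (N + k) s q.1.1 q.1.2
      (q.2.1.1, q.2.1.2.1)) (P4 G) ∧ ∫ q : O4, Fg h W P g L (N + k) s q.1.1 q.1.2
      (q.2.1.1, q.2.1.2.1) ∂(P4 G) = eV G h W P g L (N + k) s := by
    have hi := Fg_int h h0 h1 hm (L := L) hP hg hs (N + k)
    exact ⟨(mp_a (G := G)).integrable_comp_of_integrable hi,
      mp_integral (mp_a (G := G)) hi.aestronglyMeasurable⟩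
  -- the pointwise inequality
  have hpt : ∀ᵐ q ∂(P4 G), Fg h W P g L (N + k) s q.1.1 q.1.2 (q.2.1.1, q.2.1.2.1) ≤
      Aᶜ.indicator (fun q : O4 => h.sk (y • F.b) I₁ J L s s₁ (q.1.1 - g • F.b - q.2.1.1) q.1.2
        q.2.1.2) q +
      A.indicator (fun q : O4 => h.sk (y • F.b) I₂ J L s s₂ (q.1.1 - g • F.b - q.2.1.1) q.1.2
        q.2.1.2) q +
      h.hkY (y • F.b) J (-L) L (q.1.1 - g • F.b - q.2.1.1) q.1.2 q.2.1.2 +
      (gapQ h W P g L y k s₁ s₁' q + gapQ h W P g L y k s₂ s₂' q -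
        gap0 h L (q.1.1 - g • F.b - q.2.1.1 - y • F.b)
          (q.1.1 - (k * P) • F.b - g • F.b - q.2.2.1) q.2.1.2.2 q.2.2.2 q.1.2) -
      h.Y (-L) L q.2.1.2.2 (q.1.1 - g • F.b - q.2.1.1 - y • F.b) q.1.2 -
      h.Y (-L) L q.2.2.2 (q.1.1 - (k * P) • F.b - g • F.b - q.2.2.1) q.1.2 +
      (Aᶜ.indicator (nxQ h W P g L k N s₁') q + A.indicator (nxQ h W P g L k N s₂') q) := by
    filter_upwards [ae_P4 (G := G) h0] with q hq
    obtain ⟨hN, hξ, hη, hη₁⟩ := hq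
    have nη := norm_jitter hη
    have nη₁ := norm_jitter hη₁
    have G1 := gap0_le_gapF h (W := W) (L := L) (s := s₁) (s' := s₁') hN (labL hs₁).1
      (labL hs₁').2 (conn_gap h hM (ξ := q.1.1) (η := q.2.1.1) (η₁ := q.2.2.1)
        (u' := q.2.1.2.2) (u₁ := q.2.2.2) (t := q.1.2) hs₁ hs₁' nη nη₁)
    have G2 := gap0_le_gapF h (W := W) (L := L) (s := s₂) (s' := s₂') hN (labL hs₂).1
      (labL hs₂').2 (conn_gap h hM (ξ := q.1.1) (η := q.2.1.1) (η₁ := q.2.2.1)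
        (u' := q.2.1.2.2) (u₁ := q.2.2.2) (t := q.1.2) hs₂ hs₂' nη nη₁)
    by_cases hb : q ∈ A
    · rw [Set.indicator_of_notMem (fun hx : q ∈ Aᶜ => hx hb), Set.indicator_of_mem hb,
        Set.indicator_of_notMem (fun hx : q ∈ Aᶜ => hx hb), Set.indicator_of_mem hb]
      have key := move_pt h hM (ξ := q.1.1) (η := q.2.1.1) (η₁ := q.2.2.1) (u := q.2.1.2.1)
        (u' := q.2.1.2.2) (u₁ := q.2.2.2) (t := q.1.2) hN nη nη₁ (N := N) (L := L) (J := J)
        hs hs₂ hs₂' hr₂ hr₂' hI₂ (hne₂ _ _ _)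
      unfold Fg nxQ gapQ
      unfold Fg
      linarith
    · rw [Set.indicator_of_mem (show q ∈ Aᶜ from hb), Set.indicator_of_notMem hb,
        Set.indicator_of_mem (show q ∈ Aᶜ from hb), Set.indicator_of_notMem hb]
      have key := move_pt h hM (ξ := q.1.1) (η := q.2.1.1) (η₁ := q.2.2.1) (u := q.2.1.2.1)
        (u' := q.2.1.2.2) (u₁ := q.2.2.2) (t := q.1.2) hN nη nη₁ (N := N) (L := L) (J := J)
        hs hs₁ hs₁' hr₁ hr₁' hI₁ (hne₁ _ _ _)
      unfold Fg nxQ gapQ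
      unfold Fg
      linarith
  -- integration
  have j1 := i1.add i2
  have j2 := j1.add i3
  have j3 := (i4.add i5).sub i6
  have j4 := ((j2.add j3).sub i7).sub i8
  have j5 := (i9.indicator hAm.compl).add (i10.indicator hAm)
  have j6 := j4.add j5
  have hmain := integral_mono_ae i0 j6 hpt
  rw [e0, integral_add' j4 j5, integral_sub' ((j2.add j3).sub i7) i8, integral_sub' (j2.add j3) i7,
    integral_add' j2 j3, integral_sub' (i4.add i5) i6, integral_add' i4 i5, integral_add' j1 i3,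
    integral_add' i1 i2, integral_add' (i9.indicator hAm.compl) (i10.indicator hAm)] at hmain
  rw [e1, e2, e3, e7, e8, e11, e12, e9, e10, hPA, hPAc] at hmain
  have f1 : ∫ q, gapQ h W P g L y k s₁ s₁' q ∂(P4 G) = eGap G h W P g L y k s₁ s₁' := rfl
  have f2 : ∫ q, gapQ h W P g L y k s₂ s₂' q ∂(P4 G) = eGap G h W P g L y k s₂ s₂' := rfl
  have f3 : ∫ q : OR, h.hkY (y • F.b) J (-L) L q.1.1 q.1.2 q.2 ∂(PRow G) = eHk G h y J L := rfl
  rw [f1, f2, f3] at hmain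
  have hLε : 0 ≤ (L - -L) * ε := mul_nonneg (by linarith) hε
  linarith

end Crest.Agent.R151.J69
end

-- ▼ part R151/J69m
section

/-!
# R151/J69m — the gap crossing and the gauge of a row in the mean (owner helper69)

`FM G h ε` = helper56's fence mean (hypothesis here).
-/

set_option autoImplicit false

open MeasureTheory Filter ProbabilityTheory
open Crest.ProbabilityR.FirstPassage
open Crest.Agent.R151.K Crest.Agent.R151.Q

namespace Crest.Agent.R151.J69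

open B710 (FlatData)
open R78 (V Wk IsHwy hc hp hull routes IsOpen shp hullY IsStrip Frame IsPos Back)
open M192 (frame frame_al frame_be al_pos be_pos isStrip)
open M56 (mg nu)

variable {μ : ℝ × ℝ → ℝ} {F : FlatData μ}

/-- helper56's fence mean -/
def FM (G : Measure ℝ) (h : Hwy F) (ε : ℝ) : Prop :=
  ∀ (d : ℝ × ℝ) (I : Set ℝ) (s s2 α β y2 : ℝ), MeasurableSet I →
    h.wH + 2 * mg F < F.be d → h.wH + 2 * mg F < y2 - F.be d → s ≤ α → β + h.κ < s2 + F.al d →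
    Set.Icc α β ⊆ I → 2 * mg F ≤ β - α →
    ∫ q, h.hkY d I s s2 q.1.1 q.1.2 q.2 ∂(nu G) ≤
      y2 * rate G F (β - α) + (s2 - s + β - α + h.κ + 1 + F.al d) * ε

/-- exchange of the two middle factors -/
lemma mp_comm4 {α β γ δ : Type*} [MeasurableSpace α] [MeasurableSpace β] [MeasurableSpace γ]
    [MeasurableSpace δ] (a : Measure α) (b : Measure β) (c : Measure γ) (d : Measure δ)
    [SFinite a] [SFinite b] [SFinite c] [SFinite d] :
    MeasurePreserving (fun p : (α × β) × (γ × δ) => ((p.1.1, p.2.1), (p.1.2, p.2.2)))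
      ((a.prod b).prod (c.prod d)) ((a.prod c).prod (b.prod d)) := by
  have h1 := measurePreserving_prodAssoc a b (c.prod d)
  have h2 := (MeasurePreserving.id a).prod ((measurePreserving_prodAssoc b c d).symm)
  have h3 := (MeasurePreserving.id a).prod
    ((Measure.measurePreserving_swap (μ := b) (ν := c)).prod (MeasurePreserving.id d))
  have h4 := (MeasurePreserving.id a).prod (measurePreserving_prodAssoc c b d)
  have h5 := (measurePreserving_prodAssoc a c (b.prod d)).symm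
  exact h5.comp (h4.comp (h3.comp (h2.comp h1)))

/-- exchange of the two first factors -/
lemma mp_comm3 {α β γ : Type*} [MeasurableSpace α] [MeasurableSpace β] [MeasurableSpace γ]
    (a : Measure α) (b : Measure β) (c : Measure γ) [SFinite a] [SFinite b] [SFinite c] :
    MeasurePreserving (fun p : α × (β × γ) => (p.2.1, (p.1, p.2.2)))
      (a.prod (b.prod c)) (b.prod (a.prod c)) := by
  have h1 := (measurePreserving_prodAssoc a b c).symm
  have h2 := (Measure.measurePreserving_swap (μ := a) (ν := b)).prod (MeasurePreserving.id c)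
  have h3 := measurePreserving_prodAssoc b a c
  exact h3.comp (h2.comp h1)

/-- the jitters first -/
lemma mp_jit (G : Measure ℝ) [IsProbabilityMeasure G] :
    MeasurePreserving (fun x : ((ℝ × ℝ) × (ℝ × ℝ)) × (((ℝ × ℝ) × Environment) × (ℝ × ℝ)) =>
      ((x.2.1, ((x.1.1, x.2.2.1), (x.1.2, x.2.2.2))) :
        ((ℝ × ℝ) × Environment) × (Ph2 × Ph2)))
      ((UU2.prod UU2).prod (nu G)) ((P0 G).prod ((UU2.prod UU).prod (UU2.prod UU))) := by
  have h1 := mp_comm3 (UU2.prod UU2) (P0 G) (UU.prod UU)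
  have h2 := (MeasurePreserving.id (P0 G)).prod (mp_comm4 UU2 UU2 UU UU)
  exact h2.comp h1

variable (h : Hwy F) {G : Measure ℝ} [IsProbabilityMeasure G]

section gap

variable {W P g y L : ℝ} {k : ℕ}

/-- the crossing of the gap is at most a fence of height `2 g`, jitters fixed -/
lemma exL_le_hkY (hM : MPar h P g y k) (hg2 : h.wH + 2 * mg F + cF F < 2 * g) {s s' : ℝ}
    (hs : Ins h W s) (hs' : Ins h W s') (hss : s + 2 * mg F + h.κ + cF F + 1 ≤ s')
    {ξ η η₁ : ℝ × ℝ} (hη : η ∈ Set.Ico (0 : ℝ) 1 ×ˢ Set.Ico (0 : ℝ) 1)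
    (hη₁ : η₁ ∈ Set.Ico (0 : ℝ) 1 ×ˢ Set.Ico (0 : ℝ) 1) {u' u₁ : ℝ} {t : Environment} (ht : Nn t) :
    exL F W ξ t (h.x s u' (ξ - g • F.b - η - y • F.b) t)
        (h.x s' u₁ (ξ - (k * P) • F.b - g • F.b - η₁) t) ≤
      h.hkY ((2 * g) • F.b + (η₁ - η)) (Set.Icc s (s' - h.κ - cF F - 1)) s s'
        (ξ - (g • F.b + y • F.b + η)) t (u', u₁) := by
  have hnn : ‖η₁ - η‖ ≤ 1 := by
    obtain ⟨⟨a1, a2⟩, ⟨a3, a4⟩⟩ := hη
    obtain ⟨⟨b1, b2⟩, ⟨b3, b4⟩⟩ := hη₁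
    rw [Prod.norm_def]
    refine max_le ?_ ?_
    · rw [Real.norm_eq_abs, abs_le, Prod.fst_sub]; constructor <;> linarith
    · rw [Real.norm_eq_abs, abs_le, Prod.snd_sub]; constructor <;> linarith
  have nη := norm_jitter hη
  have nη₁ := norm_jitter hη₁
  set d : ℝ × ℝ := (2 * g) • F.b + (η₁ - η) with hd
  set θU : ℝ × ℝ := ξ - (g • F.b + y • F.b + η) with hθU
  have eU : ξ - g • F.b - η - y • F.b = θU := by rw [hθU]; abel
  have e1 : ξ - (k * P) • F.b - g • F.b - η₁ = θU - d := by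
    rw [hθU, hd, ← hM.hk]
    simp only [add_smul, two_mul]
    abel
  rw [eU, e1]
  have ead : F.al d = F.al (η₁ - η) := by
    rw [hd, map_add, map_smul, F.al_b, smul_zero, zero_add]
  have ebd : F.be d = 2 * g + F.be (η₁ - η) := by
    rw [hd, map_add, map_smul, F.be_b, smul_eq_mul, mul_one]
  have bA := abs_le.1 (abs_al_le' F hnn)
  have bB := abs_le.1 (abs_be_le' F hnn)
  have bη := abs_le.1 (abs_al_le' F nη)
  have bη' := abs_le.1 (abs_be_le' F nη)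
  have bη₁ := abs_le.1 (abs_al_le' F nη₁)
  have hmg := M56.one_le_mg F
  have hκ := h.κ_nonneg
  have hc := cF_nonneg F
  have hw := wH_nonneg2 h
  have hg := hM.hg
  have hy := hM.hy
  have hne := M56.row_nonempty (h := h) (d := d) (s := s) (s' := s') (σ₁ := s + mg F)
    (σ₂ := s + mg F) (I := Set.Icc s (s' - h.κ - cF F - 1)) (by rw [ebd]; linarith [bB.1])
    le_rfl (by rw [ead]; linarith [bA.1])
    (by
      rw [min_self, max_self]
      refine Set.Icc_subset_Icc ?_ ?_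
      · linarith
      · linarith)
    θU t (u', u₁)
  have eξU : ξ - θU = g • F.b + y • F.b + η := by rw [hθU]; abel
  have ea : F.al (ξ - θU) = F.al η := by
    rw [eξU, map_add, map_add, map_smul, map_smul, F.al_b, smul_zero, smul_zero, zero_add, zero_add]
  have eb : F.be (ξ - θU) = g + y + F.be η := by
    rw [eξU, map_add, map_add, map_smul, map_smul, F.be_b, smul_eq_mul, smul_eq_mul, mul_one,
      mul_one]
  have ea1 : F.al (ξ - (θU - d)) = F.al η₁ := by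
    have : ξ - (θU - d) = (ξ - θU) + d := by abel
    rw [this, map_add, ea, ead, map_sub]; ring
  have b1 := abs_le.1 hs
  have b2 := abs_le.1 hs'
  have key := pR_le_hull_hwy h ht (θ := ξ) (θ₁ := θU) (θ₂ := θU - d) (u₁ := u') (u₂ := u₁) (s := s)
    (s' := s') (r := s - cF F) (r' := s') (A := rg F (Set.Icc s (s' - h.κ - cF F - 1)) θU)
    (R := Lam F W ξ) ?_ ?_ ?_ hne
  · exact key.2
  · intro v hv
    have hv' : F.al (pos θU v) ∈ Set.Icc s (s' - h.κ - cF F - 1) := hv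
    have e : F.al (pos ξ v) = F.al (pos θU v) + F.al η := by
      have := F.al.map_sub ξ θU
      rw [al_pos, al_pos]; linarith
    rw [e]
    exact ⟨by linarith [hv'.1, bη.1], by linarith [hv'.2, bη.2]⟩
  · intro v h1 h2 h3 h4
    rw [ea] at h1
    rw [ea1] at h2
    rw [eb] at h3
    refine ⟨?_, by linarith [bη'.1]⟩
    rw [abs_le]
    constructor
    · have : -(W / 2) + h.κ ≤ min (s + F.al η) (s - cF F) :=
        le_min (by linarith [b1.1, bη.1]) (by linarith [b1.1])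
      linarith
    · have : max s' (s' + F.al η₁) ≤ W / 2 - h.κ - cF F :=
        max_le (by linarith [b2.2]) (by linarith [b2.2, bη₁.2])
      linarith
  · have : θU - d - θU = -d := by abel
    rw [this, map_neg, ebd]
    linarith [bB.1]

end gap

end Crest.Agent.R151.J69
end

-- ▼ part R151/J69n
section

/-!
# R151/J69n — bounds of `eGap` and `eHk` (owner helper69)
-/

set_option autoImplicit false

open MeasureTheory Filter ProbabilityTheory
open Crest.ProbabilityR.FirstPassage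
open Crest.Agent.R151.K Crest.Agent.R151.Q

namespace Crest.Agent.R151.J69

open B710 (FlatData)
open R78 (V Wk IsHwy hc hp hull routes IsOpen shp hullY IsStrip Frame IsPos Back)
open M192 (frame frame_al frame_be al_pos be_pos isStrip)
open M56 (mg nu)

variable {μ : ℝ × ℝ → ℝ} {F : FlatData μ}
variable (h : Hwy F) {G : Measure ℝ} [IsProbabilityMeasure G]

/-- shift of the base point of the hull kernel -/
lemma hkY_shift {d : ℝ × ℝ} {I : Set ℝ} (hI : MeasurableSet I) {s s' : ℝ}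
    (hi : Integrable (fun q => h.hkY d I s s' q.1.1 q.1.2 q.2) (nu G)) (v : ℝ × ℝ) :
    Integrable (fun q => h.hkY d I s s' (q.1.1 - v) q.1.2 q.2) (nu G) ∧
      ∫ q, h.hkY d I s s' (q.1.1 - v) q.1.2 q.2 ∂(nu G) =
        ∫ q, h.hkY d I s s' q.1.1 q.1.2 q.2 ∂(nu G) := by
  have hinv : ∀ φ, Inv fun θ t => h.hkY d I s s' θ t φ := fun φ => h.hkY_inv d I s s' φ
  have hi2 := integrable_shift_prod (G := G) (ν := UU.prod UU)
    (F := fun θ t φ => h.hkY d I s s' θ t φ) hinv (-v) hi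
  have he := integral_shift_prod (G := G) (ν := UU.prod UU)
    (F := fun θ t φ => h.hkY d I s s' θ t φ) hinv
    (h.meas_hkY (by fun_prop) (by fun_prop) (by fun_prop) d hI s s') (-v)
  simp only [← sub_eq_add_neg] at hi2 he
  exact ⟨hi2, he⟩

section gap

variable {W P g y L : ℝ} {k : ℕ}

/-- **mean of the crossing of the gap** -/
theorem exL_mean_le (h0 : G (Set.Iio 0) = 0) (h1 : Integrable (fun x : ℝ => x) G)
    (h2 : Integrable (fun x : ℝ => x ^ 2) G) {ε : ℝ} (hm : HwyMean G h ε) (hε : 0 ≤ ε)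
    (hF : FM G h ε)
    (hM : MPar h P g y k) (hg2 : h.wH + 2 * mg F + cF F < 2 * g) {s s' : ℝ}
    (hs : Ins h W s) (hs' : Ins h W s') (hss : s + 2 * mg F + h.κ + cF F + 1 ≤ s') :
    ∫ q : O4, exL F W q.1.1 q.1.2
      (h.x s q.2.1.2.2 (q.1.1 - g • F.b - q.2.1.1 - y • F.b) q.1.2)
      (h.x s' q.2.2.2 (q.1.1 - (k * P) • F.b - g • F.b - q.2.2.1) q.1.2) ∂(P4 G) ≤
      4 * g * rate G F (s' - h.κ - cF F - 1 - s) + 2 * (s' - s) * ε := by
  set b0 : ℝ := 4 * g * rate G F (s' - h.κ - cF F - 1 - s) + 2 * (s' - s) * ε with hb0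
  let Z : ((ℝ × ℝ) × Environment) × (Ph2 × Ph2) → ℝ := fun q => exL F W q.1.1 q.1.2
      (h.x s q.2.1.2 (q.1.1 - g • F.b - q.2.1.1 - y • F.b) q.1.2)
      (h.x s' q.2.2.2 (q.1.1 - (k * P) • F.b - g • F.b - q.2.2.1) q.1.2)
  have hZm : Measurable Z := by
    have hx : Measurable fun q : ((ℝ × ℝ) × Environment) × (Ph2 × Ph2) =>
        h.x s q.2.1.2 (q.1.1 - g • F.b - q.2.1.1 - y • F.b) q.1.2 :=
      meas_x h (by fun_prop) (by fun_prop) (by fun_prop) s
    have hy : Measurable fun q : ((ℝ × ℝ) × Environment) × (Ph2 × Ph2) =>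
        h.x s' q.2.2.2 (q.1.1 - (k * P) • F.b - g • F.b - q.2.2.1) q.1.2 :=
      meas_x h (by fun_prop) (by fun_prop) (by fun_prop) s'
    have hRm : ∀ v, MeasurableSet
        {q : ((ℝ × ℝ) × Environment) × (Ph2 × Ph2) | v ∈ Lam F W q.1.1} :=
      fun v => meas_Lam (F := F) (θ := fun q : ((ℝ × ℝ) × Environment) × (Ph2 × Ph2) => q.1.1)
        (by fun_prop) W v
    have hphi : Measurable (phi F) := measurable_of_countable _
    exact (measurable_pR_rand (by fun_prop) hRm hx hy).sub ((hphi.comp hy).sub (hphi.comp hx))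
  have e1 : ∫ q : O4, exL F W q.1.1 q.1.2
      (h.x s q.2.1.2.2 (q.1.1 - g • F.b - q.2.1.1 - y • F.b) q.1.2)
      (h.x s' q.2.2.2 (q.1.1 - (k * P) • F.b - g • F.b - q.2.2.1) q.1.2) ∂(P4 G) =
      ∫ q, Z q ∂((P0 G).prod ((UU2.prod UU).prod (UU2.prod UU))) :=
    mp_integral (mp_d (G := G)) hZm.aestronglyMeasurable
  have hZint : Integrable Z ((P0 G).prod ((UU2.prod UU).prod (UU2.prod UU))) :=
    ((mp_d (G := G)).integrable_comp hZm.aestronglyMeasurable).1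
      (exL_int h h0 h1 hM (W := W) hs hs')
  -- the jitters first
  have hR := mp_jit G
  let R : ((ℝ × ℝ) × (ℝ × ℝ)) × (((ℝ × ℝ) × Environment) × (ℝ × ℝ)) →
      ((ℝ × ℝ) × Environment) × (Ph2 × Ph2) :=
    fun x => (x.2.1, ((x.1.1, x.2.2.1), (x.1.2, x.2.2.2)))
  have hR' : MeasurePreserving R ((UU2.prod UU2).prod (nu G))
    ((P0 G).prod ((UU2.prod UU).prod (UU2.prod UU))) := hR
  have e2 : ∫ q, Z q ∂((P0 G).prod ((UU2.prod UU).prod (UU2.prod UU))) =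
      ∫ x, Z (R x) ∂((UU2.prod UU2).prod (nu G)) :=
    (mp_integral hR' hZm.aestronglyMeasurable).symm
  have hZR : Integrable (fun x => Z (R x)) ((UU2.prod UU2).prod (nu G)) :=
    hR'.integrable_comp_of_integrable hZint
  rw [e1, e2, integral_prod _ hZR]
  have hb : ∫ _x : (ℝ × ℝ) × (ℝ × ℝ), b0 ∂(UU2.prod UU2) = b0 := by simp
  rw [← hb]
  refine integral_mono_ae hZR.integral_prod_left (integrable_const _) ?_
  have hsq : ∀ᵐ x : (ℝ × ℝ) × (ℝ × ℝ) ∂(UU2.prod UU2),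
      x.1 ∈ Set.Ico (0 : ℝ) 1 ×ˢ Set.Ico (0 : ℝ) 1 ∧ x.2 ∈ Set.Ico (0 : ℝ) 1 ×ˢ Set.Ico (0 : ℝ) 1 := by
    have a1 : MeasurePreserving (fun x : (ℝ × ℝ) × (ℝ × ℝ) => x.1) (UU2.prod UU2) UU2 :=
      measurePreserving_fst
    have a2 : MeasurePreserving (fun x : (ℝ × ℝ) × (ℝ × ℝ) => x.2) (UU2.prod UU2) UU2 :=
      measurePreserving_snd
    filter_upwards [a1.quasiMeasurePreserving.ae ae_UU2, a2.quasiMeasurePreserving.ae ae_UU2]
      with x b1 b2 using ⟨b1, b2⟩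
  filter_upwards [hsq, hZR.prod_right_ae] with x hx hxi
  obtain ⟨hη, hη₁⟩ := hx
  have hnn : ‖x.2 - x.1‖ ≤ 1 := by
    obtain ⟨⟨a1, a2⟩, ⟨a3, a4⟩⟩ := hη
    obtain ⟨⟨b1, b2⟩, ⟨b3, b4⟩⟩ := hη₁
    rw [Prod.norm_def]
    refine max_le ?_ ?_
    · rw [Real.norm_eq_abs, abs_le, Prod.fst_sub]; constructor <;> linarith
    · rw [Real.norm_eq_abs, abs_le, Prod.snd_sub]; constructor <;> linarith
  set d : ℝ × ℝ := (2 * g) • F.b + (x.2 - x.1) with hd
  have ead : F.al d = F.al (x.2 - x.1) := by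
    rw [hd, map_add, map_smul, F.al_b, smul_zero, zero_add]
  have ebd : F.be d = 2 * g + F.be (x.2 - x.1) := by
    rw [hd, map_add, map_smul, F.be_b, smul_eq_mul, mul_one]
  have bA := abs_le.1 (abs_al_le' F hnn)
  have bB := abs_le.1 (abs_be_le' F hnn)
  have hmg := M56.one_le_mg F
  have hκ := h.κ_nonneg
  have hc := cF_nonneg F
  have hw := wH_nonneg2 h
  have hdd : h.wH + 2 * mg F < F.be d := by rw [ebd]; linarith [bB.1]
  have hII : Set.Icc (min (s + mg F) (s + mg F) - mg F) (max (s + mg F) (s + mg F) + mg F) ⊆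
      Set.Icc s (s' - h.κ - cF F - 1) := by
    rw [min_self, max_self]
    refine Set.Icc_subset_Icc ?_ ?_ <;> linarith
  have hint := M56.hkY_integrable (h := h) (G := G) hm h0 h2 hdd (I := Set.Icc s (s' - h.κ - cF F - 1))
    measurableSet_Icc (s := s) (s' := s') (σ₁ := s + mg F) (σ₂ := s + mg F) le_rfl
    (by rw [ead]; linarith [bA.1]) hII
  obtain ⟨hsi, hse⟩ := hkY_shift h measurableSet_Icc hint (g • F.b + y • F.b + x.1)
  have hfm := hF d (Set.Icc s (s' - h.κ - cF F - 1)) s s' s (s' - h.κ - cF F - 1) (4 * g)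
    measurableSet_Icc hdd (by rw [ebd]; linarith [bB.2]) le_rfl
    (by rw [ead]; linarith [bA.1]) subset_rfl (by linarith)
  have hle : ∫ q, Z (R (x, q)) ∂(nu G) ≤
      ∫ q, h.hkY d (Set.Icc s (s' - h.κ - cF F - 1)) s s' (q.1.1 - (g • F.b + y • F.b + x.1)) q.1.2
        q.2 ∂(nu G) := by
    refine integral_mono_ae hxi hsi ?_
    filter_upwards [ae_P0_Nn (Ψ := ℝ × ℝ) (ν := UU.prod UU) h0] with q hq
    exact exL_le_hkY h hM hg2 hs hs' hss hη hη₁ hq.1
  have hfin : (s' - s + (s' - h.κ - cF F - 1) - s + h.κ + 1 + F.al d) * ε ≤ 2 * (s' - s) * ε := by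
    refine mul_le_mul_of_nonneg_right ?_ hε
    rw [ead]; linarith [bA.2]
  calc ∫ q, Z (R (x, q)) ∂(nu G) ≤ _ := hle
    _ = _ := hse
    _ ≤ _ := hfm
    _ ≤ b0 := by rw [hb0]; linarith

/-- **bound of `eGap`** -/
theorem eGap_le (h0 : G (Set.Iio 0) = 0) (h1 : Integrable (fun x : ℝ => x) G)
    (h2 : Integrable (fun x : ℝ => x ^ 2) G) {ε : ℝ} (hm : HwyMean G h ε) (hε : 0 ≤ ε)
    (hF : FM G h ε) (hM : MPar h P g y k) (hg2 : h.wH + 2 * mg F + cF F < 2 * g) {s s' : ℝ}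
    (hs : Ins h W s) (hs' : Ins h W s') (hss : s + 2 * mg F + h.κ + cF F + 1 ≤ s')
    (hWL : W / 2 ≤ L) :
    eGap G h W P g L y k s s' ≤
      4 * g * rate G F (s' - h.κ - cF F - 1 - s) + 4 * L * ε := by
  rw [eGap_eq h h0 h1 hm hM hs hs']
  have key := exL_mean_le h h0 h1 h2 hm hε hF hM hg2 hs hs' hss
  have hκ := h.κ_nonneg
  have hc := cF_nonneg F
  have b1 := abs_le.1 hs
  have b2 := abs_le.1 hs'
  have : (s + L) * ε + (L - s') * ε + 2 * (s' - s) * ε ≤ 4 * L * ε := by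
    rw [← add_mul, ← add_mul]
    refine mul_le_mul_of_nonneg_right ?_ hε
    linarith [b1.1, b2.2]
  linarith

end gap

/-- **bound of `eHk`** for the gauge over the whole plane -/
theorem eHk_le (h0 : G (Set.Iio 0) = 0)
    (h2 : Integrable (fun x : ℝ => x ^ 2) G) {ε : ℝ} (hm : HwyMean G h ε)
    (hF : FM G h ε) {y L : ℝ} (hy : h.wH + 2 * mg F < y) (hL : h.κ + 2 * mg F + 1 ≤ 2 * L) :
    eHk G h y Set.univ L ≤ (y + h.wH + 2 * mg F + 1) * rate G F (2 * L - h.κ - 1) +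
      4 * L * ε := by
  have hmg := M56.one_le_mg F
  have hκ := h.κ_nonneg
  have ead : F.al (y • F.b) = 0 := by rw [map_smul, F.al_b, smul_zero]
  have ebd : F.be (y • F.b) = y := by rw [map_smul, F.be_b, smul_eq_mul, mul_one]
  have hII : Set.Icc (min (-L + mg F) (-L + mg F) - mg F) (max (-L + mg F) (-L + mg F) + mg F) ⊆
      Set.Icc (-L) (L - h.κ - 1) := by
    rw [min_self, max_self]
    refine Set.Icc_subset_Icc ?_ ?_ <;> linarith
  have hs' : -L + mg F + mg F + h.κ < L + F.al (y • F.b) := by rw [ead]; linarith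
  have hdd : h.wH + 2 * mg F < F.be (y • F.b) := by rw [ebd]; exact hy
  have i1 := M56.hkY_integrable (h := h) (G := G) hm h0 h2 hdd (I := Set.Icc (-L) (L - h.κ - 1))
    measurableSet_Icc (s := -L) (s' := L) (σ₁ := -L + mg F) (σ₂ := -L + mg F) le_rfl hs' hII
  have i2 := M56.hkY_integrable (h := h) (G := G) hm h0 h2 hdd (I := Set.univ)
    MeasurableSet.univ (s := -L) (s' := L) (σ₁ := -L + mg F) (σ₂ := -L + mg F) le_rfl hs'
    (Set.subset_univ _)
  have hfm := hF (y • F.b) (Set.Icc (-L) (L - h.κ - 1)) (-L) L (-L) (L - h.κ - 1)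
    (y + h.wH + 2 * mg F + 1) measurableSet_Icc hdd (by rw [ebd]; linarith) le_rfl
    (by rw [ead]; linarith) subset_rfl (by linarith)
  have hle : eHk G h y Set.univ L ≤
      ∫ q, h.hkY (y • F.b) (Set.Icc (-L) (L - h.κ - 1)) (-L) L q.1.1 q.1.2 q.2 ∂(nu G) := by
    refine integral_mono_ae i2 i1 ?_
    filter_upwards [ae_P0_Nn (Ψ := ℝ × ℝ) (ν := UU.prod UU) h0] with q hq
    have hne := M56.row_nonempty (h := h) hdd (s := -L) (s' := L) (σ₁ := -L + mg F)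
      (σ₂ := -L + mg F) le_rfl hs' hII q.1.1 q.1.2 q.2
    have := R78.hull_mono (bddBelow_routes hq.1 _ _ _ _ _) hne (M192.rg_mono (Set.subset_univ _) q.1.1)
      le_rfl le_rfl
    unfold Hwy.hkY hullY
    linarith
  refine hle.trans (hfm.trans ?_)
  rw [ead]
  have e1 : L - h.κ - 1 - -L = 2 * L - h.κ - 1 := by ring
  have e2 : (L - -L + (L - h.κ - 1) - -L + h.κ + 1 + 0) * ε = 4 * L * ε := by ring
  rw [e1, e2]

end Crest.Agent.R151.J69
end

-- ▼ part R151/J69o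
section

/-!
# R151/J69o — numerical facts of the moves (owner helper69)
-/

set_option autoImplicit false

open MeasureTheory Filter ProbabilityTheory Topology Set
open Crest.ProbabilityR.FirstPassage
open Crest.Agent.R151.K Crest.Agent.R151.Q

namespace Crest.Agent.R151.J69

open B710 (FlatData)
open C710 (GoodScale fn)
open NF hiding Num
open R78 (V Wk IsHwy hc hp hull routes IsOpen shp hullY IsStrip Frame IsPos Back)
open M192 (frame frame_al frame_be al_pos be_pos isStrip)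
open M56 (mg nu)

variable {μ : ℝ × ℝ → ℝ}

/-- numerical facts of the moves -/
structure SN {G : Measure ℝ} {F : FlatData μ} {w0 c0 K : ℝ} {p : NF.Num}
    (c : Cf G F w0 c0 K p) : Prop where
  std : c.Std
  δ_le : p.δ ≤ 1 / 64
  n_ge : 16 ≤ (p.n : ℝ)
  len : c.h.κ + 6 * cF F + 4 * mg F + 4 ≤ c.g / 8
  wH_le : c.h.wH ≤ c.g / 8
  sl_le : c.sl ≤ c.g / 8
  sl_ge : c.h.κ + 2 * mg F + 2 ≤ c.sl
  g_le : 64 * p.n * c.g ≤ p.δ * p.W
  fn_le : 2 * fn F.al ≤ p.δ * p.W / 4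
  w0_le : w0 ≤ p.δ * p.W / 4
  /-- narrow lane: gaps -/
  gap : 4 * c.g * rate G F (p.δ * p.W / 4) ≤ p.e / 16 * c.l
  /-- far lane: rows -/
  far : 2 * c.P * rate G F (p.v' * p.W) ≤ p.e / 16 * c.l
  /-- highways -/
  hwy : 4 * c.L * c.ε ≤ p.e / 16 * c.l

theorem ev_SN (G : Measure ℝ) (F : FlatData μ) (w0 : ℝ) {c0 K : ℝ} (hc0 : 0 < c0) (hK : 0 ≤ K) :
    Ev fun p => ∀ c : Cf G F w0 c0 K p, SN c := by
  have a1 := ev_len G F w0 c0 K (fun n δ _ _ _ => 64 * n / δ)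
    (8 * (6 * cF F + 4 * mg F + 4) + 8 * fn F.al + 4 * |w0| + c0)
  have a2 := le_δ fun _ => 64
  have a3 := le_n 16
  have a4 := le_δ' (fun n δ v e v' => 32768 * 2 / (δ ^ 3 * e))
  have a5 := rpow_v' (fun n δ v e => 64 / e) 0.03 (by norm_num)
  have a6 := highway_small (G := G) (F := F) (w0 := w0) (K := K) hc0
    (fun n δ v e v' δ' δ0 => 128 * v' / e)
  have a7 := ev_soft G F w0 c0 hK
  refine ((((((a1.and a2).and a3).and a4).and a5).and a6).and a7).mono ?_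
  rintro p ⟨⟨⟨⟨⟨⟨b1, b2⟩, b3⟩, b4⟩, b5⟩, b6⟩, b7⟩ c
  obtain ⟨hs, hC, hg, hA, hgW⟩ := b1 c
  have hp := hs.toStd
  have hW : 0 < p.W := zero_lt_one.trans_le hp.W
  have hδ := hp.δ_pos
  have he := hp.e_pos
  have hv' := hp.v'
  have hd : 0 < p.δ0 * p.W := mul_pos hp.δ0_pos hW
  have hmg := M56.one_le_mg F
  have hcF := cF_nonneg F
  have hfn := C710.fn_nonneg F.al
  have hw0 := abs_nonneg w0
  have hκ := c.κ_le
  have hκ0 := c.h.κ_nonneg
  have hwH := hs.wH_eq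
  rw [abs_of_nonneg hK] at hg
  have hKd : 0 ≤ K * (p.δ0 * p.W) := mul_nonneg hK hd.le
  have hsl : c.sl = (K + 1) * (p.δ0 * p.W) := rfl
  have hlen : 8 * (c.h.κ + 6 * cF F + 4 * mg F + 4) ≤ c.g := by linarith
  have hgd : 64 * p.n * c.g ≤ p.δ * p.W := by
    have e1 : 64 * (p.n : ℝ) / p.δ * c.g = (64 * p.n * c.g) / p.δ := by ring
    rw [e1, div_le_iff₀ hδ] at hA
    linarith
  have hn : (1 : ℝ) ≤ p.n := by linarith
  have hgpos := hs.g_pos
  have hgd' : 64 * c.g ≤ p.δ * p.W := by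
    refine le_trans ?_ hgd
    nlinarith
  have hl := hs.l_pos
  have hrt := c.rt_pos
  have hge0 : 8 * fn F.al + 4 * |w0| ≤ p.δ * p.W := by linarith
  have hw0' : w0 ≤ |w0| := le_abs_self _
  refine
    { std := hs
      δ_le := by linarith
      n_ge := b3
      len := by linarith
      wH_le := by linarith
      sl_le := by rw [hsl]; linarith
      sl_ge := ?_
      g_le := hgd
      fn_le := by linarith
      w0_le := by linarith
      gap := ?_
      far := ?_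
      hwy := ?_ }
  · rw [hsl]; linarith
  · have h1 := rate_near' c hp (t := p.δ / 4) (by positivity) (by linarith [hp.δ_le])
      (by linarith)
    have e1 : p.δ / 4 * p.W = p.δ * p.W / 4 := by ring
    rw [e1] at h1
    have h2 : p.W * c.rt ≤ 2 * c.l := by
      have := hs.l_ge
      have hJ := hp.J
      have : p.W / 2 * c.rt ≤ c.l := by
        refine le_trans ?_ this
        refine mul_le_mul_of_nonneg_right ?_ hrt.le
        nlinarith
      linarith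
    have h3 : 32768 * 2 * p.δ' ≤ p.δ ^ 3 * p.e := by
      have hpos : 0 < p.δ ^ 3 * p.e := by positivity
      have e2 : 32768 * 2 / (p.δ ^ 3 * p.e) * p.δ' = (32768 * 2 * p.δ') / (p.δ ^ 3 * p.e) := by ring
      rw [e2, div_le_one hpos] at b4
      exact b4
    have hδ' := hp.δ'_pos
    calc 4 * c.g * rate G F (p.δ * p.W / 4) ≤ 4 * c.g * (8 / (p.δ / 4) ^ 3 * c.rt) :=
          mul_le_mul_of_nonneg_left h1 (by positivity)
      _ = (2048 * p.δ' / p.δ ^ 3) * (p.W * c.rt) := by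
          rw [c.g_eq]; field_simp; ring
      _ ≤ (2048 * p.δ' / p.δ ^ 3) * (2 * c.l) := mul_le_mul_of_nonneg_left h2 (by positivity)
      _ = (4096 * p.δ' / p.δ ^ 3) * c.l := by ring
      _ ≤ p.e / 16 * c.l := by
          refine mul_le_mul_of_nonneg_right ?_ hl.le
          rw [div_le_iff₀ (by positivity)]
          linarith
  · have h1 := P_rate_far c hs (t := p.v') hv'
    have h2 : 64 * p.v' ^ (-0.03 : ℝ) ≤ p.e := by
      have e2 : 64 / p.e * p.v' ^ (-0.03 : ℝ) = (64 * p.v' ^ (-0.03 : ℝ)) / p.e := by ring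
      have b5' : 64 / p.e * p.v' ^ (-(0.03 : ℝ)) ≤ 1 := b5
      rw [e2, div_le_one he] at b5'
      exact b5'
    calc 2 * c.P * rate G F (p.v' * p.W) = 2 * (c.P * rate G F (p.v' * p.W)) := by ring
      _ ≤ 2 * (2 * p.v' ^ (-0.03 : ℝ) * c.l) := by linarith
      _ = (4 * p.v' ^ (-0.03 : ℝ)) * c.l := by ring
      _ ≤ p.e / 16 * c.l := mul_le_mul_of_nonneg_right (by linarith) hl.le
  · have h1 := b6 c
    have e2 : 128 * p.v' / p.e * (p.W * c.ε) = (128 * p.v' * (p.W * c.ε)) / p.e := by ring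
    rw [e2, div_le_iff₀ he] at h1
    rw [c.L_eq]
    linarith

end Crest.Agent.R151.J69
end

-- ▼ part R151/J69p
section

/-!
# R151/J69p — moves of a configuration; `recA` (owner helper69)
-/

set_option autoImplicit false

open MeasureTheory Filter ProbabilityTheory Topology Set
open Crest.ProbabilityR.FirstPassage
open Crest.Agent.R151.K Crest.Agent.R151.Q

namespace Crest.Agent.R151.J69

open B710 (FlatData)
open C710 (GoodScale fn)
open NF hiding Num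
open R78 (V Wk IsHwy hc hp hull routes IsOpen shp hullY IsStrip Frame IsPos Back)
open M192 (frame frame_al frame_be al_pos be_pos isStrip)
open M56 (mg nu)

variable {μ : ℝ × ℝ → ℝ}

section sk

variable {F : FlatData μ} (h : Hwy F)

/-- the sharp kernel in excess form -/
lemma sk_eq (d : ℝ × ℝ) (I J : Set ℝ) (L s s' : ℝ) (θ : ℝ × ℝ) (t : Environment) (φ : ℝ × ℝ) :
    h.sk d I J L s s' θ t φ = h.hkY d I s s' θ t φ - h.hkY d J (-L) L θ t φ +
      h.Y (-L) s φ.1 θ t + h.Y s' L φ.2 (θ - d) t := by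
  unfold Hwy.sk Hwy.hkY Hwy.hk hullY Hwy.Y Hwy.Lo Hwy.Up Hwy.iL Hwy.iU
  ring

variable {h} {G : Measure ℝ} [IsProbabilityMeasure G]

/-- integrability and mean of the sharp kernel -/
theorem sk_int {ε : ℝ} (hm : HwyMean G h ε) {d : ℝ × ℝ} {I J : Set ℝ} {L s s' : ℝ}
    (hiI : Integrable (fun q => h.hkY d I s s' q.1.1 q.1.2 q.2) (nu G))
    (hiJ : Integrable (fun q => h.hkY d J (-L) L q.1.1 q.1.2 q.2) (nu G)) :
    Integrable (fun q : OR => h.sk d I J L s s' q.1.1 q.1.2 q.2) (PRow G) ∧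
    ∫ q : OR, h.sk d I J L s s' q.1.1 q.1.2 q.2 ∂(PRow G) =
      ∫ q, h.hkY d I s s' q.1.1 q.1.2 q.2 ∂(nu G) - ∫ q, h.hkY d J (-L) L q.1.1 q.1.2 q.2 ∂(nu G) +
      (s + L) * ε + (L - s') * ε := by
  obtain ⟨a1, b1⟩ := M56.Y_lo (G := G) hm (-L) s 0
  obtain ⟨a2, b2⟩ := M56.Y_up (G := G) hm s' L d
  simp only [sub_zero] at a1 b1
  have e : (fun q : OR => h.sk d I J L s s' q.1.1 q.1.2 q.2) =
      fun q : OR => ((h.hkY d I s s' q.1.1 q.1.2 q.2 - h.hkY d J (-L) L q.1.1 q.1.2 q.2) +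
      h.Y (-L) s q.2.1 q.1.1 q.1.2) + h.Y s' L q.2.2 (q.1.1 - d) q.1.2 := by
    funext q
    exact sk_eq h d I J L s s' _ _ _
  have j1 : Integrable (fun q : OR => h.hkY d I s s' q.1.1 q.1.2 q.2 -
    h.hkY d J (-L) L q.1.1 q.1.2 q.2) (PRow G) := hiI.sub hiJ
  have j2 : Integrable (fun q : OR => (h.hkY d I s s' q.1.1 q.1.2 q.2 -
    h.hkY d J (-L) L q.1.1 q.1.2 q.2) + h.Y (-L) s q.2.1 q.1.1 q.1.2) (PRow G) := j1.add a1
  have a2' : Integrable (fun q : OR => h.Y s' L q.2.2 (q.1.1 - d) q.1.2) (PRow G) := a2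
  rw [e]
  refine ⟨j2.add a2', ?_⟩
  rw [integral_add j2 a2', integral_add j1 (show Integrable (fun q : OR =>
    h.Y (-L) s q.2.1 q.1.1 q.1.2) (PRow G) from a1), integral_sub (show Integrable (fun q : OR =>
    h.hkY d I s s' q.1.1 q.1.2 q.2) (PRow G) from hiI) (show Integrable (fun q : OR =>
    h.hkY d J (-L) L q.1.1 q.1.2 q.2) (PRow G) from hiJ)]
  have c1 : ∫ q : OR, h.Y (-L) s q.2.1 q.1.1 q.1.2 ∂(PRow G) = (s - -L) * ε := b1
  have c2 : ∫ q : OR, h.Y s' L q.2.2 (q.1.1 - d) q.1.2 ∂(PRow G) = (L - s') * ε := b2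
  rw [c1, c2]
  show _ = ∫ q : OR, _ ∂(PRow G) - ∫ q : OR, _ ∂(PRow G) + _ + _
  ring

end sk

variable {G : Measure ℝ} {F : FlatData μ} {w0 c0 K : ℝ} {p : NF.Num}
  {c : Cf G F w0 c0 K p}

namespace SN

variable (hc : SN c)
include hc

lemma W_pos : 0 < p.W := zero_lt_one.trans_le hc.std.toStd.W

lemma g_pos : 0 < c.g := hc.std.g_pos

lemma basic : 0 < p.W ∧ 0 < c.g ∧ 0 ≤ c.h.κ ∧ 0 ≤ cF F ∧ 1 ≤ mg F ∧ 0 ≤ c.h.wH ∧
    64 * c.g ≤ p.δ * p.W ∧ p.δ * p.W ≤ p.W / 64 ∧ 8 * c.g ≤ c.y ∧ c.y / 2 ≤ c.yA ∧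
    c.y ≤ c.yB ∧ 0 ≤ c.P ∧ p.W ≤ c.L := by
  have hW := hc.W_pos
  have hn := hc.n_ge
  have hg := hc.g_pos
  have h1 := hc.g_le
  have h2 : 64 * c.g ≤ 64 * p.n * c.g := by nlinarith
  have h3 : p.δ * p.W ≤ 1 / 64 * p.W := mul_le_mul_of_nonneg_right hc.δ_le hW.le
  have hv' := hc.std.toStd.v'
  refine ⟨hW, hg, c.h.κ_nonneg, cF_nonneg F, M56.one_le_mg F, wH_nonneg2 c.h, by linarith,
    by linarith, hc.std.g_le, hc.std.half, hc.std.yB_ge, ?_, ?_⟩
  · have := hc.std.yA_ge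
    have := hc.std.y_pos
    linarith
  · rw [c.L_eq]; nlinarith

lemma mparA : MPar c.h c.P c.g c.yA 1 := by
  obtain ⟨hW, hg, hκ, hcF, hmg, hwH, h1, h2, h3, h4, h5, h6, h7⟩ := hc.basic
  have a1 := hc.len
  have a2 := hc.wH_le
  refine ⟨by linarith, by linarith, ?_, h6⟩
  rw [c.yA_eq']; push_cast; ring

lemma mparB : MPar c.h c.P c.g c.yB 2 := by
  obtain ⟨hW, hg, hκ, hcF, hmg, hwH, h1, h2, h3, h4, h5, h6, h7⟩ := hc.basic
  have a1 := hc.len
  have a2 := hc.wH_le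
  refine ⟨by linarith, by linarith, ?_, h6⟩
  rw [c.yB_eq']; push_cast; ring

lemma ins {s : ℝ} (hs : |s| ≤ 7 / 16 * p.W) : Ins c.h p.W s := by
  obtain ⟨hW, hg, hκ, hcF, hmg, hwH, h1, h2, h3, h4, h5, h6, h7⟩ := hc.basic
  have a1 := hc.len
  unfold Ins
  linarith

lemma ins' {x : ℝ} (hx : |x| ≤ 7 / 16) : Ins c.h p.W (x * p.W) := by
  refine hc.ins ?_
  rw [abs_mul, abs_of_pos hc.W_pos]
  exact mul_le_mul_of_nonneg_right hx hc.W_pos.le

lemma WL : p.W / 2 ≤ c.L := by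
  obtain ⟨hW, hg, hκ, hcF, hmg, hwH, h1, h2, h3, h4, h5, h6, h7⟩ := hc.basic
  linarith

/-- **gaps are cheap** -/
theorem eGap_small [IsProbabilityMeasure G] (h0 : G (Set.Iio 0) = 0)
    (h1 : Integrable (fun x : ℝ => x) G) (h2 : Integrable (fun x : ℝ => x ^ 2) G)
    (hμ : IsTC G μ) (hF : FM G c.h c.ε) {y : ℝ} {k : ℕ} (hM : MPar c.h c.P c.g y k) {s s' : ℝ}
    (hs : Ins c.h p.W s) (hs' : Ins c.h p.W s') (hss : s + p.δ * p.W / 2 ≤ s') :
    eGap G c.h p.W c.P c.g c.L y k s s' ≤ p.e / 8 * c.l := by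
  obtain ⟨hW, hg, hκ, hcF, hmg, hwH, a1, a2, a3, a4, a5, a6, a7⟩ := hc.basic
  have b1 := hc.len
  have b2 := hc.wH_le
  have key := eGap_le c.h h0 h1 h2 c.mean c.mean.nonneg hF hM (L := c.L) (by linarith) hs hs'
    (by linarith) hc.WL
  have hr := C710.rate_anti h0 h2 hμ F (w := p.δ * p.W / 4) (w' := s' - c.h.κ - cF F - 1 - s)
    hc.fn_le (by linarith)
  have h4 : 4 * c.g * rate G F (s' - c.h.κ - cF F - 1 - s) ≤ 4 * c.g * rate G F (p.δ * p.W / 4) :=
    mul_le_mul_of_nonneg_left hr (by linarith)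
  have h5 := hc.gap
  have h6 := hc.hwy
  linarith

/-- **the gauge of a row is cheap** -/
theorem eHk_small [IsProbabilityMeasure G] (h0 : G (Set.Iio 0) = 0)
    (h2 : Integrable (fun x : ℝ => x ^ 2) G)
    (hμ : IsTC G μ) (hF : FM G c.h c.ε) {y : ℝ} (hy : c.h.wH + 2 * mg F < y)
    (hy2 : y + 2 * c.g ≤ 2 * c.P) :
    eHk G c.h y Set.univ c.L ≤ p.e / 8 * c.l := by
  obtain ⟨hW, hg, hκ, hcF, hmg, hwH, a1, a2, a3, a4, a5, a6, a7⟩ := hc.basic
  have b1 := hc.len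
  have b2 := hc.wH_le
  have b3 := hc.fn_le
  have hv' := hc.std.toStd.v'
  have key := eHk_le c.h h0 h2 c.mean hF (y := y) (L := c.L) hy (by linarith)
  have hL : c.L = 2 * p.v' * p.W := c.L_eq
  have hvW : p.W ≤ p.v' * p.W := by nlinarith
  have hr := C710.rate_anti h0 h2 hμ F (w := p.v' * p.W) (w' := 2 * c.L - c.h.κ - 1)
    (by linarith) (by rw [hL]; linarith)
  have hr0 := C710.rate_nonneg h0 h2 hμ F (w := 2 * c.L - c.h.κ - 1) (by linarith)
  have h4 : (y + c.h.wH + 2 * mg F + 1) * rate G F (2 * c.L - c.h.κ - 1) ≤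
      2 * c.P * rate G F (p.v' * p.W) :=
    mul_le_mul (by linarith) hr hr0 (by linarith)
  have h5 := hc.far
  have h6 := hc.hwy
  linarith

end SN

end Crest.Agent.R151.J69
end

-- ▼ part R151/E685F3
section

/-!
# R151 / S0214 part 2, E685F3 — [FALL]: the small fall from the big fall (helper685)

`hfall_of`: the mean of the fall `1/(2n)` from every label `x ∈ [0, 3/16)` is `≤ (48 C1 + 10^5) n ^ 4 l`
if the mean of the big fall `0 → -W/9` is `≤ C1 n ^ 5 l` (Monge sums in the mean, stationarity in the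
mean, narrow lanes).
-/

set_option autoImplicit false

open MeasureTheory Filter ProbabilityTheory Topology Set
open Crest.ProbabilityR.FirstPassage

namespace Crest.Agent.R151.E685

open Crest.Agent.R151.K Crest.Agent.R151.Q
open R78 (V Wk IsHwy hc hp stepc hull routes IsOpen shp hullY ptY gapK IsStrip Frame IsPos Back Sep)
open B710 (FlatData)
open M56 (nu mg)
open NF (Ev Cf nuR)
open J69 (SN)

variable {μ : ℝ × ℝ → ℝ} {G : Measure ℝ} {F : FlatData μ} {w0 c0 K : ℝ} {p : NF.Num}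
  {c : Cf G F w0 c0 K p}

/-- extra numerical facts -/
structure XN (c : Cf G F w0 c0 K p) : Prop where
  sn : SN c
  n_ge : 600 ≤ (p.n : ℝ)
  w0_le : w0 ≤ 1 / (8 * p.n) * p.W

theorem ev_XN (G : Measure ℝ) (F : FlatData μ) (w0 : ℝ) {c0 K : ℝ} (hc0 : 0 < c0) (hK : 0 ≤ K) :
    Ev fun p => ∀ c : Cf G F w0 c0 K p, XN c := by
  refine (((J69.ev_SN G F w0 hc0 hK).and (NF.le_n 600)).and
    (NF.le_W fun n _ _ _ _ _ _ _ => w0 * (8 * n))).mono ?_
  rintro p ⟨⟨h1, h2⟩, h3⟩ c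
  refine ⟨h1 c, h2, ?_⟩
  rw [one_div, inv_mul_eq_div, le_div_iff₀ (by linarith)]
  exact h3

namespace XN

variable (hc : XN c)
include hc

lemma basic : 0 < p.W ∧ 0 < (p.n : ℝ) ∧ mgn c.h ≤ p.W / (4096 * p.n) ∧ 0 < mgn c.h ∧
    p.W / p.n ≤ p.W / 600 ∧ 0 < p.W / p.n ∧ p.W ≤ c.L ∧
    c.h.wH + 2 * mg F < c.yB ∧ c.h.wH < 2 * c.P - c.yB ∧ 0 ≤ c.ε ∧ 0 < c.l ∧
    c.h.κ < p.W / (8 * p.n) ∧ 2 * mg F ≤ p.W / (8 * p.n) ∧ c.h.κ + 1 ≤ p.W / 8 := by
  obtain ⟨hW, hg, hκ, hcF, hmg, hwH, h1, h2, h3, h4, h5, h6, h7⟩ := hc.sn.basic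
  have hn := hc.n_ge
  have hn0 : (0 : ℝ) < p.n := by linarith
  have a1 := hc.sn.len
  have a2 := hc.sn.g_le
  have a3 := hc.sn.wH_le
  have b1 : c.g ≤ p.W / (4096 * p.n) := by
    rw [le_div_iff₀ (by positivity)]
    linarith
  have e1 : p.W / (8 * p.n) = 512 * (p.W / (4096 * p.n)) := by field_simp; norm_num
  have b3 : 0 < p.W / (4096 * p.n) := by positivity
  have b4 : p.W / p.n ≤ p.W / 600 := div_le_div_of_nonneg_left hW.le (by norm_num) hn
  have b5 : p.W / (4096 * p.n) ≤ p.W / 8 :=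
    div_le_div_of_nonneg_left hW.le (by norm_num) (by linarith)
  have b6 := mgn_pos c.h
  have e2 : mgn c.h = 2 * mg F + c.h.κ + 1 := rfl
  have b7 := c.yB_eq'
  have b8 := c.yB_eq
  have b9 := hc.sn.std.y_pos
  refine ⟨hW, hn0, ?_, b6, b4, by positivity, h7, ?_, ?_, c.mean.nonneg, hc.sn.std.l_pos, ?_, ?_, ?_⟩
  · rw [e2]; linarith
  · linarith
  · linarith
  · linarith
  · linarith
  · linarith

/-- the base lane -/
lemma lane : LaneP c.h (c.yB • F.b) (Icc (-(1 / 4 * p.W)) (1 / 4 * p.W)) (-(1 / 4 * p.W))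
    (1 / 4 * p.W) where
  be := by
    obtain ⟨-, -, -, -, -, -, -, h1, -⟩ := hc.basic
    rwa [map_smul, F.be_b, smul_eq_mul, mul_one]
  al := by rw [map_smul, F.al_b, smul_zero]
  meas := measurableSet_Icc
  sub := subset_rfl

lemma LL : mgn c.h ≤ 2 * c.L := by
  obtain ⟨hW, hn, h1, h2, h3, h4, h5, -⟩ := hc.basic
  have hn6 := hc.n_ge
  have b5 : p.W / (4096 * p.n) ≤ p.W / 1 :=
    div_le_div_of_nonneg_left hW.le (by norm_num) (by linarith)
  rw [div_one] at b5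
  linarith

variable [IsProbabilityMeasure G] (h0 : G (Set.Iio 0) = 0)
  (h2' : Integrable (fun x : ℝ => x ^ 2) G) (hμ : IsTC G μ)
include h0 h2' hμ

/-- mean of a fence of width `W / (4 n)` -/
lemma fence {s : ℝ} (h1 : -(1 / 8 * p.W) ≤ s) (h2 : s ≤ 1 / 8 * p.W) :
    ∫ q, c.h.sk (c.yB • F.b) (Icc (-(1 / 4 * p.W)) (1 / 4 * p.W)) univ c.L s (s + p.W / (4 * p.n))
      q.1.1 q.1.2 q.2 ∂(nu G) ≤ 8193 * p.n ^ 3 * c.l := by
  obtain ⟨hW, hn, a1, a2, a3, a4, a5, a6, a7, a8, a9, a10, a11, a12⟩ := hc.basic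
  have hn6 := hc.n_ge
  have eal : F.al (c.yB • F.b) = 0 := by rw [map_smul, F.al_b, smul_zero]
  have ebe : F.be (c.yB • F.b) = c.yB := by rw [map_smul, F.be_b, smul_eq_mul, mul_one]
  have hd : c.h.wH + 2 * mg F < F.be (c.yB • F.b) := by rw [ebe]; exact a6
  have e4 : p.W / (4 * p.n) = 2 * (p.W / (8 * p.n)) := by field_simp; norm_num
  have e8 : p.W / (8 * p.n) = (p.W / p.n) / 8 := by field_simp
  have hw8 : 0 < p.W / (8 * p.n) := by positivity
  have hI : Icc s (s + p.W / (8 * p.n)) ⊆ Icc (-(1 / 4 * p.W)) (1 / 4 * p.W) :=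
    Icc_subset_Icc (by linarith) (by linarith)
  have hs2 : s + p.W / (8 * p.n) + c.h.κ < s + p.W / (4 * p.n) + F.al (c.yB • F.b) := by
    rw [eal]; linarith
  have hw : 2 * mg F ≤ s + p.W / (8 * p.n) - s := by linarith
  have i1 := M56.fence_integrable (G := G) c.mean h0 h2' hd measurableSet_Icc le_rfl hs2 hI hw
  have m1 := M56.fence_mean' (G := G) c.mean h0 h2' hd measurableSet_Icc le_rfl hs2 hI hw hμ
    (y2 := 2 * c.P) (by rw [ebe]; exact a7)
  have i2 := gauge_int (L := c.L) c.mean h0 h2' hd eal hc.LL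
  have m2 := gauge_nonneg (L := c.L) c.mean h0 h2' hμ hd eal hc.LL
  obtain ⟨-, m3⟩ := sk_mean c.h c.mean (L := c.L) i1 i2
  rw [m3]
  rw [eal] at m1
  have e5 : s + p.W / (8 * p.n) - s = 1 / (8 * p.n) * p.W := by ring
  have hr := NF.P_rate_near c hc.sn.std (t := 1 / (8 * p.n)) (by positivity)
    (by rw [div_le_one (by positivity)]; linarith) hc.w0_le
  have e6 : 8 / (1 / (8 * (p.n : ℝ))) ^ 3 * c.l = 4096 * p.n ^ 3 * c.l := by
    field_simp; norm_num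
  rw [e6] at hr
  rw [e5] at m1
  have h4 := hc.sn.hwy
  have he1 : p.e ≤ 1 := hc.sn.std.toStd.e_le
  have h5 : p.e / 16 * c.l ≤ 1 * c.l := mul_le_mul_of_nonneg_right (by linarith) a9.le
  have h6 : c.l ≤ p.n ^ 3 * c.l := by
    have : (1 : ℝ) ≤ p.n ^ 3 := one_le_pow₀ (by linarith)
    nlinarith
  have h7 : (s + p.W / (4 * p.n) - s + (s + p.W / (8 * p.n)) - s + c.h.κ + 1 + 0) * c.ε +
      (2 * c.L + s - (s + p.W / (4 * p.n))) * c.ε ≤ 4 * c.L * c.ε := by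
    rw [← add_mul]
    refine mul_le_mul_of_nonneg_right ?_ a8
    linarith
  linarith

omit hμ in
/-- transfer of a small fall to every start label -/
lemma transfer {s V x : ℝ} (hs1 : -(1 / 32 * p.W) ≤ s) (hs2 : s ≤ 0)
    (hV : ∫ q, c.h.sk (c.yB • F.b) (Icc (-(1 / 4 * p.W)) (1 / 4 * p.W)) univ c.L s
      (s - p.W / p.n / 2) q.1.1 q.1.2 q.2 ∂(nu G) ≤ V) (hx0 : 0 ≤ x) (hx : x < 3 / 16) :
    Integrable (fun q : ((ℝ × ℝ) × Environment) × (ℝ × ℝ) =>
      c.h.sk (c.yB • F.b) (Icc (-(1 / 4 * p.W)) (15 / 32 * p.W)) univ c.L (x * p.W)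
        ((x - 1 / (2 * p.n)) * p.W) q.1.1 q.1.2 q.2) (nu G) ∧
    ∫ q, c.h.sk (c.yB • F.b) (Icc (-(1 / 4 * p.W)) (15 / 32 * p.W)) univ c.L (x * p.W)
        ((x - 1 / (2 * p.n)) * p.W) q.1.1 q.1.2 q.2 ∂(nu G) ≤ V := by
  obtain ⟨hW, hn, a1, a2, a3, a4, a5, a6, a7, a8, a9, a10, a11, a12⟩ := hc.basic
  have hn6 := hc.n_ge
  set D := c.yB • F.b with hD
  set I0 := Icc (-(1 / 4 * p.W)) (1 / 4 * p.W) with hI0
  have hLane := hc.lane
  have hLL := hc.LL
  have eal : F.al D = 0 := by rw [hD, map_smul, F.al_b, smul_zero]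
  have e40 : p.W / (4096 * p.n) = (p.W / p.n) / 4096 := by field_simp
  have e12 : (x - 1 / (2 * p.n)) * p.W = x * p.W - p.W / p.n / 2 := by field_simp
  set u := p.W / p.n with hu
  -- stationarity
  set z : ℝ := x * p.W - s with hz
  have hxW0 : 0 ≤ x * p.W := mul_nonneg hx0 hW.le
  have hxW : x * p.W ≤ 3 / 16 * p.W := mul_le_mul_of_nonneg_right hx.le hW.le
  have es : s + z = x * p.W := by rw [hz]; ring
  have es' : s - u / 2 + z = (x - 1 / (2 * p.n)) * p.W := by rw [e12, hz]; ring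
  have i0 := hLane.int c.mean h0 h2' (s := s) (s' := s - u / 2) (by linarith) (by linarith)
    (by linarith) (by linarith)
  obtain ⟨i1, m1⟩ := hkY_stat c.h h0 (hLane.meas) (d := D) (s := s) (s' := s - u / 2) z
    (fun θ t φ => hLane.ne (by linarith) (by linarith) (by linarith) (by linarith) θ t φ) i0
  rw [es, es'] at i1 m1
  have hd : c.h.wH + 2 * mg F < F.be D := hLane.be
  have ig := gauge_int (L := c.L) c.mean h0 h2' hd eal hLL
  obtain ⟨i2, m2⟩ := sk_mean c.h c.mean (L := c.L) i1 ig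
  obtain ⟨-, m3⟩ := sk_mean c.h c.mean (L := c.L) i0 ig
  have m4 : ∫ q, c.h.sk D ((fun v => v - z) ⁻¹' I0) univ c.L (x * p.W)
      ((x - 1 / (2 * p.n)) * p.W) q.1.1 q.1.2 q.2 ∂(nu G) =
      ∫ q, c.h.sk D I0 univ c.L s (s - u / 2) q.1.1 q.1.2 q.2 ∂(nu G) := by
    rw [m2, m3, m1, ← es', ← es]
    ring
  -- the lane
  have hsub : (fun v => v - z) ⁻¹' I0 ⊆ Icc (-(1 / 4 * p.W)) (15 / 32 * p.W) := by
    intro v hv
    have hv' : v - z ∈ Icc (-(1 / 4 * p.W)) (1 / 4 * p.W) := hv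
    exact ⟨by linarith [hv'.1], by linarith [hv'.2]⟩
  have hLane2 : LaneP c.h D (Icc (-(1 / 4 * p.W)) (15 / 32 * p.W)) (-(1 / 4 * p.W))
      (15 / 32 * p.W) := ⟨hd, eal, measurableSet_Icc, subset_rfl⟩
  have i3 := sk_int c.mean h0 h2' hLane2 hLL (s := x * p.W) (s' := (x - 1 / (2 * p.n)) * p.W)
    (by linarith) (by linarith) (by rw [e12]; linarith) (by rw [e12]; linarith)
  refine ⟨i3, ?_⟩
  refine le_trans ?_ ((le_of_eq m4).trans hV)
  refine integral_mono_ae i3 i2 ?_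
  filter_upwards [ae_P0_Nn (Ψ := ℝ × ℝ) (ν := UU.prod UU) h0] with q hq
  refine sk_mono_pt hq.1 hsub le_rfl le_rfl ?_
  have hLane3 : LaneP c.h D ((fun v => v - z) ⁻¹' I0) (-(1 / 4 * p.W) + z) (1 / 4 * p.W + z) := by
    refine ⟨hd, eal, (measurable_id.sub_const z) measurableSet_Icc, fun v hv => ?_⟩
    show v - z ∈ Icc (-(1 / 4 * p.W)) (1 / 4 * p.W)
    exact ⟨by linarith [hv.1], by linarith [hv.2]⟩
  exact hLane3.ne (by linarith) (by linarith) (by rw [e12]; linarith) (by rw [e12]; linarith) _ _ _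

end XN

/-- numerical value -/
lemma val_le {n k N C1 l : ℝ} (hC1 : 0 ≤ C1 * n ^ 5 * l) (hn : 0 < n) (hk : 1 ≤ k)
    (hN : N * 8 ≤ n) (hnk : n ≤ 48 * k) (hl : 0 < l) :
    (C1 * n ^ 5 * l + N * (8193 * n ^ 3 * l)) / k ≤ (48 * C1 + 10 ^ 5) * n ^ 4 * l := by
  have hC1' : 0 ≤ C1 := by
    by_contra hneg
    push Not at hneg
    have h1 : 0 < n ^ 5 * l := by positivity
    have h2 : C1 * (n ^ 5 * l) < 0 := mul_neg_of_neg_of_pos hneg h1
    have h3 : C1 * n ^ 5 * l = C1 * (n ^ 5 * l) := by ring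
    linarith
  rw [div_le_iff₀ (by linarith)]
  have h3 : 0 ≤ n ^ 3 * l := by positivity
  have h4 : 0 ≤ n ^ 4 * l := by positivity
  have g1 : C1 * n ^ 5 * l ≤ 48 * C1 * n ^ 4 * l * k := by
    have h5 : C1 * (n ^ 4 * l) * n ≤ C1 * (n ^ 4 * l) * (48 * k) :=
      mul_le_mul_of_nonneg_left hnk (mul_nonneg hC1' h4)
    have e1 : C1 * n ^ 5 * l = C1 * (n ^ 4 * l) * n := by ring
    have e2 : 48 * C1 * n ^ 4 * l * k = C1 * (n ^ 4 * l) * (48 * k) := by ring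
    rw [e1, e2]; exact h5
  have g2 : N * (8193 * n ^ 3 * l) ≤ 10 ^ 5 * n ^ 4 * l * k := by
    have q1 : N * (8193 * n ^ 3 * l) ≤ n / 8 * (8193 * n ^ 3 * l) :=
      mul_le_mul_of_nonneg_right (by linarith) (by positivity)
    have q2 : n / 8 * (8193 * n ^ 3 * l) ≤ 10 ^ 5 * n ^ 4 * l := by
      have e : n / 8 * (8193 * n ^ 3 * l) = 8193 / 8 * (n ^ 4 * l) := by ring
      rw [e]; nlinarith
    have q3 : 10 ^ 5 * n ^ 4 * l * 1 ≤ 10 ^ 5 * n ^ 4 * l * k :=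
      mul_le_mul_of_nonneg_left hk (by positivity)
    linarith
  have e3 : (48 * C1 + 10 ^ 5) * n ^ 4 * l * k =
      48 * C1 * n ^ 4 * l * k + 10 ^ 5 * n ^ 4 * l * k := by ring
  rw [e3]
  exact add_le_add g1 g2

/-- the start labels of the Monge sum -/
lemma labels {W n u : ℝ} (hun : u * n = W) (hu : 0 < u) (hn6 : 600 ≤ n) {N k : ℕ}
    (hN8 : (N : ℝ) * 8 ≤ n) (hk24 : (k : ℝ) * 24 ≤ n) : ∃ a : ℕ → ℝ,
    Monotone a ∧ (∀ i, -(1 / 8 * W) ≤ a i) ∧ (∀ i, a i ≤ 0) ∧ a (N + 1) = 0 ∧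
      -(1 / 9 * W) ≤ a 0 + u / 4 ∧ (∀ m, m < N + 1 → a m + u / 4 = a (m + 1) - u / 2) ∧
      ∀ m, N + 1 - k ≤ m → m < N + 1 → -(1 / 32 * W) ≤ a (m + 1) := by
  have hu6 : u ≤ W / 600 := by
    rw [le_div_iff₀ (by norm_num), ← hun]
    exact mul_le_mul_of_nonneg_left hn6 hu.le
  have hN1 : ((N : ℝ) + 1) * (3 / 4 * u) ≤ 1 / 9 * W + u / 4 := by
    rw [← hun]; nlinarith
  have hN2 : ((N : ℝ) + 1) * (3 / 4 * u) ≤ 1 / 8 * W := by linarith
  obtain ⟨a, ha⟩ : ∃ a : ℕ → ℝ, ∀ i, a i = -(((N + 1 - i : ℕ) : ℝ) * (3 / 4 * u)) :=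
    ⟨fun i => -(((N + 1 - i : ℕ) : ℝ) * (3 / 4 * u)), fun i => rfl⟩
  refine ⟨a, ?_, ?_, ?_, ?_, ?_, ?_, ?_⟩
  · intro i j hij
    have : (((N + 1 - j : ℕ) : ℝ)) ≤ ((N + 1 - i : ℕ) : ℝ) := by
      exact_mod_cast (by omega : N + 1 - j ≤ N + 1 - i)
    rw [ha, ha]
    nlinarith
  · intro i
    have : (((N + 1 - i : ℕ) : ℝ)) ≤ (N : ℝ) + 1 := by
      exact_mod_cast (by omega : N + 1 - i ≤ N + 1)
    rw [ha]
    nlinarith
  · intro i
    have : (0 : ℝ) ≤ ((N + 1 - i : ℕ) : ℝ) := Nat.cast_nonneg _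
    rw [ha]
    nlinarith
  · rw [ha]; simp
  · rw [ha]
    push_cast [Nat.sub_zero]
    linarith
  · intro m hm
    have : ((N + 1 - m : ℕ) : ℝ) = ((N + 1 - (m + 1) : ℕ) : ℝ) + 1 := by
      exact_mod_cast (by omega : N + 1 - m = (N + 1 - (m + 1)) + 1)
    rw [ha, ha, this]; ring
  · intro m hm1 hm2
    have h5 : ((N + 1 - (m + 1) : ℕ) : ℝ) ≤ k := by
      exact_mod_cast (by omega : N + 1 - (m + 1) ≤ k)
    have h6 : (k : ℝ) * (3 / 4 * u) ≤ 1 / 32 * W := by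
      rw [← hun]; nlinarith
    have h7 : ((N + 1 - (m + 1) : ℕ) : ℝ) * (3 / 4 * u) ≤ k * (3 / 4 * u) :=
      mul_le_mul_of_nonneg_right h5 (by positivity)
    rw [ha]
    linarith

namespace XN

variable (hc : XN c)
include hc

variable [IsProbabilityMeasure G] (h0 : G (Set.Iio 0) = 0)
  (h2' : Integrable (fun x : ℝ => x ^ 2) G) (hμ : IsTC G μ)
include h0 h2' hμ

/-- one small fall is small -/
theorem exists_fall {C1 : ℝ}
    (hbig : ∫ q, c.h.sk (c.yB • F.b) (Icc (-(1 / 4 * p.W)) (1 / 4 * p.W)) univ c.L 0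
      (-(1 / 9 * p.W)) q.1.1 q.1.2 q.2 ∂(nu G) ≤ C1 * p.n ^ 5 * c.l) :
    ∃ s : ℝ, -(1 / 32 * p.W) ≤ s ∧ s ≤ 0 ∧
      ∫ q, c.h.sk (c.yB • F.b) (Icc (-(1 / 4 * p.W)) (1 / 4 * p.W)) univ c.L s
        (s - p.W / p.n / 2) q.1.1 q.1.2 q.2 ∂(nu G) ≤ (48 * C1 + 10 ^ 5) * p.n ^ 4 * c.l := by
  obtain ⟨hW, hn, a1, a2, a3, a4, a5, a6, a7, a8, a9, a10, a11, a12⟩ := hc.basic
  have hn6 := hc.n_ge
  have hnN : 600 ≤ p.n := by exact_mod_cast hn6
  have hLane := hc.lane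
  have hLL := hc.LL
  have e40 : p.W / (4096 * p.n) = (p.W / p.n) / 4096 := by field_simp
  have e4 : p.W / (4 * p.n) = (p.W / p.n) / 4 := by field_simp
  have hun : p.W / p.n * p.n = p.W := by field_simp
  set u := p.W / p.n with hu
  have hN8 : ((p.n / 8 : ℕ) : ℝ) * 8 ≤ p.n := by exact_mod_cast Nat.div_mul_le_self p.n 8
  have hk24 : ((p.n / 24 : ℕ) : ℝ) * 24 ≤ p.n := by exact_mod_cast Nat.div_mul_le_self p.n 24
  have hk48 : (p.n : ℝ) ≤ 48 * ((p.n / 24 : ℕ) : ℝ) := by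
    exact_mod_cast (by omega : p.n ≤ 48 * (p.n / 24))
  have hk1 : 1 ≤ p.n / 24 := by omega
  have hkN : p.n / 24 ≤ p.n / 8 + 1 := by omega
  generalize p.n / 8 = N at hN8 hkN
  generalize p.n / 24 = k at hk24 hk48 hk1 hkN
  obtain ⟨a, amono, alo, ahi, aN, b0, hstep, hstart⟩ := labels hun a4 hn6 hN8 hk24
  have bmono : Monotone fun i => a i + u / 4 := fun i j hij => by
    have := amono hij
    simp only
    linarith
  -- the big fall
  have hT : ∫ q, c.h.sk (c.yB • F.b) (Icc (-(1 / 4 * p.W)) (1 / 4 * p.W)) univ c.L (a (N + 1))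
      (a 0 + u / 4) q.1.1 q.1.2 q.2 ∂(nu G) ≤ C1 * p.n ^ 5 * c.l := by
    rw [aN]
    refine le_trans ?_ hbig
    have b0u : a 0 + u / 4 ≤ u / 4 := by linarith [ahi 0]
    have i1 := sk_int c.mean h0 h2' hLane hLL (s := 0) (s' := a 0 + u / 4) (by linarith)
      (by linarith) (by linarith) (by linarith)
    have i2 := sk_int c.mean h0 h2' hLane hLL (s := 0) (s' := -(1 / 9 * p.W)) (by linarith)
      (by linarith) (by linarith) (by linarith)
    refine integral_mono_ae i1 i2 ?_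
    filter_upwards [ae_P0_Nn (Ψ := ℝ × ℝ) (ν := UU.prod UU) h0] with q hq
    exact sk_mono_pt hq.1 subset_rfl le_rfl b0 (hLane.ne (by linarith) (by linarith) (by linarith)
      (by linarith) _ _ _)
  have hU : ∀ m < N, ∫ q, c.h.sk (c.yB • F.b) (Icc (-(1 / 4 * p.W)) (1 / 4 * p.W)) univ c.L
      (a (m + 1)) (a (m + 1) + u / 4) q.1.1 q.1.2 q.2 ∂(nu G) ≤ 8193 * p.n ^ 3 * c.l := by
    intro m _
    have := hc.fence h0 h2' hμ (s := a (m + 1)) (alo _) (by linarith [ahi (m + 1)])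
    rw [e4] at this
    exact this
  have hT0 : 0 ≤ C1 * p.n ^ 5 * c.l := by
    refine le_trans (sk_mean_nonneg h0 hLane (s := a (N + 1)) (s' := a 0 + u / 4) ?_ ?_ ?_ ?_ ?_ ?_)
      hT
    · linarith [alo (N + 1)]
    · linarith [ahi (N + 1)]
    · linarith
    · linarith [ahi 0]
    · linarith [alo (N + 1)]
    · linarith [ahi 0]
  obtain ⟨m, hm1, hm2, hm3⟩ := exists_small c.mean h0 h2' hLane hLL amono bmono
    (fun m => by linarith [alo m]) (fun m => by linarith [ahi m])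
    (fun m => by linarith [alo m]) (fun m => by linarith [ahi m])
    (fun m => by linarith [alo m]) (fun m => by linarith [ahi m])
    (k := k) (N := N) hk1 hkN hT hU
  have hval := val_le (l := c.l) hT0 hn (by exact_mod_cast hk1) hN8 hk48 a9
  refine ⟨a (m + 1), hstart m hm1 hm2, ahi _, ?_⟩
  rw [← hstep m hm2]
  exact hm3.trans hval

/-- **[FALL]**: the small falls -/
theorem hfall_of {C1 : ℝ}
    (hbig : ∫ q, c.h.sk (c.yB • F.b) (Icc (-(1 / 4 * p.W)) (1 / 4 * p.W)) univ c.L 0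
      (-(1 / 9 * p.W)) q.1.1 q.1.2 q.2 ∂(nu G) ≤ C1 * p.n ^ 5 * c.l) {x : ℝ} (hx0 : 0 ≤ x)
    (hx : x < 3 / 16) :
    Integrable (fun q : ((ℝ × ℝ) × Environment) × (ℝ × ℝ) =>
      c.h.sk (c.yB • F.b) (Icc (-(1 / 4 * p.W)) (15 / 32 * p.W)) univ c.L (x * p.W)
        ((x - 1 / (2 * p.n)) * p.W) q.1.1 q.1.2 q.2) (nu G) ∧
    ∫ q, c.h.sk (c.yB • F.b) (Icc (-(1 / 4 * p.W)) (15 / 32 * p.W)) univ c.L (x * p.W)
        ((x - 1 / (2 * p.n)) * p.W) q.1.1 q.1.2 q.2 ∂(nu G) ≤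
      (48 * C1 + 10 ^ 5) * p.n ^ 4 * c.l := by
  obtain ⟨s, hs1, hs2, hs3⟩ := hc.exists_fall h0 h2' hμ hbig
  exact hc.transfer h0 h2' hs1 hs2 hs3 hx0 hx

end XN

end Crest.Agent.R151.E685
end

-- ▼ part R151/E685F4
section

/-!
# R151 / S0214 part 2, E685F4 — `recB` (helper685)

`recB_of` : the field `recB` of helper684's `Rec c T C0` (with `q = 0`) from the big fall.
-/

set_option autoImplicit false

open MeasureTheory Filter ProbabilityTheory Topology Set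
open Crest.ProbabilityR.FirstPassage

namespace Crest.Agent.R151.E685

open Crest.Agent.R151.K Crest.Agent.R151.Q
open R78 (V Wk IsHwy hc hp stepc hull routes IsOpen shp hullY ptY gapK IsStrip Frame IsPos Back Sep)
open B710 (FlatData)
open M56 (nu mg)
open NF (Ev Cf nuR)
open J69 (SN FM eV eGap eHk Ins OR PRow)
open J684 (fC wmn wmn_pos)

variable {μ : ℝ × ℝ → ℝ} {G : Measure ℝ} {F : FlatData μ} {w0 c0 K : ℝ} {p : NF.Num}
  {c : Cf G F w0 c0 K p}

/-- helper56's fence mean in helper69's form -/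
theorem fm [IsProbabilityMeasure G] (h0 : G (Set.Iio 0) = 0)
    (h2 : Integrable (fun x : ℝ => x ^ 2) G) (hμ : IsTC G μ) {h : Hwy F} {ε : ℝ}
    (hM : HwyMean G h ε) : FM G h ε := by
  intro d I s s2 α β y2 hI hd hy hs hs2 hsub hw
  have := M56.one_le_mg F
  exact M56.fence_mean' hM h0 h2 hd hI hs hs2 hsub hw hμ (by linarith)

/-- the big fall -/
def BigFall (c : Cf G F w0 c0 K p) (C1 : ℝ) : Prop :=
  ∫ q, c.h.sk (c.yB • F.b) (Icc (-(1 / 4 * p.W)) (1 / 4 * p.W)) univ c.L 0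
      (-(1 / 9 * p.W)) q.1.1 q.1.2 q.2 ∂(nuR G) ≤ C1 * p.n ^ 5 * c.l

variable [IsProbabilityMeasure G]

/-- one move down in a B-row -/
theorem moveB (hc : XN c) (h0 : G (Set.Iio 0) = 0) (h1 : Integrable (fun x : ℝ => x) G)
    (h2 : Integrable (fun x : ℝ => x ^ 2) G) (hμ : IsTC G μ) {C1 : ℝ} (hbig : BigFall c C1)
    (N : ℕ) {x : ℝ} (hx0 : 0 ≤ x) (hx : x < 3 / 16) :
    eV G c.h p.W c.P c.g c.L (N + 2) (x * p.W) ≤ (48 * C1 + 10 ^ 5) * p.n ^ 4 * c.l +
      p.e * c.l + eV G c.h p.W c.P c.g c.L N ((x - 1 / (2 * p.n) + p.δ) * p.W) := by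
  obtain ⟨hW, hg, hκ, hcF, hmg, hwH, b1, b2, b3, b4, b5, b6, b7⟩ := hc.sn.basic
  obtain ⟨-, hn, a1, a2, a3, a4, a5, a6, a7, a8, a9, a10, a11, a12⟩ := hc.basic
  have hn6 := hc.n_ge
  have hlen := hc.sn.len
  have hδ0 := hc.sn.std.toStd.δ_pos
  have hδ := hc.sn.δ_le
  have he := hc.sn.std.toStd.e_pos
  have hxW0 : 0 ≤ x * p.W := mul_nonneg hx0 hW.le
  have hxW : x * p.W ≤ 3 / 16 * p.W := mul_le_mul_of_nonneg_right hx.le hW.le
  have e12 : (x - 1 / (2 * p.n)) * p.W = x * p.W - p.W / p.n / 2 := by field_simp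
  have e13 : (x - 1 / (2 * p.n) + p.δ) * p.W = x * p.W - p.W / p.n / 2 + p.δ * p.W := by
    rw [add_mul, e12]
  have e40 : p.W / (4096 * p.n) = (p.W / p.n) / 4096 := by field_simp
  obtain ⟨i1, m1⟩ := hc.hfall_of h0 h2 hμ hbig hx0 hx
  have hF := fm h0 h2 hμ c.mean
  have eal : F.al (c.yB • F.b) = 0 := by rw [map_smul, F.al_b, smul_zero]
  have ebe : F.be (c.yB • F.b) = c.yB := by rw [map_smul, F.be_b, smul_eq_mul, mul_one]
  have hd : c.h.wH + 2 * mg F < F.be (c.yB • F.b) := by rw [ebe]; exact a6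
  have hLane : LaneP c.h (c.yB • F.b) (Icc (-(1 / 4 * p.W)) (15 / 32 * p.W)) (-(1 / 4 * p.W))
      (15 / 32 * p.W) := ⟨hd, eal, measurableSet_Icc, subset_rfl⟩
  have ins1 : Ins c.h p.W (x * p.W) := hc.sn.ins (abs_le.2 ⟨by linarith, by linarith⟩)
  have ins2 : Ins c.h p.W ((x - 1 / (2 * p.n)) * p.W) := by
    rw [e12]; exact hc.sn.ins (abs_le.2 ⟨by linarith, by linarith⟩)
  have ins3 : Ins c.h p.W ((x - 1 / (2 * p.n) + p.δ) * p.W) := by
    rw [e13]; exact hc.sn.ins (abs_le.2 ⟨by linarith, by linarith⟩)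
  have ins4 : Ins c.h p.W (-(1 / 4 * p.W)) := hc.sn.ins (abs_le.2 ⟨by linarith, by linarith⟩)
  have ins5 : Ins c.h p.W (15 / 32 * p.W) := by
    unfold Ins
    rw [abs_of_nonneg (by linarith)]
    linarith
  have hne : ∀ θ t φ, (routes t (c.h.Lo θ t φ) (c.h.Up (c.yB • F.b) θ t φ)
      (rg F (Icc (-(1 / 4 * p.W)) (15 / 32 * p.W)) θ) (c.h.iL (x * p.W) θ t φ)
      (c.h.iU (c.yB • F.b) ((x - 1 / (2 * p.n)) * p.W) θ t φ)).Nonempty := fun θ t φ =>
    hLane.ne (by linarith) (by linarith) (by rw [e12]; linarith) (by rw [e12]; linarith) θ t φ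
  have ig : Integrable (fun q : OR => c.h.hkY (c.yB • F.b) univ (-c.L) c.L q.1.1 q.1.2 q.2)
      (PRow G) := gauge_int (L := c.L) c.mean h0 h2 hd eal hc.LL
  have i1' : Integrable (fun q : OR =>
      c.h.sk (c.yB • F.b) (Icc (-(1 / 4 * p.W)) (15 / 32 * p.W)) univ c.L (x * p.W)
        ((x - 1 / (2 * p.n)) * p.W) q.1.1 q.1.2 q.2) (PRow G) := i1
  have key := J69.move_mean c.h (G := G) h0 h1 h2 hμ c.mean c.mean.nonneg hc.sn.mparB
    (B := (∅ : Set OR)) (@MeasurableSet.empty _ (M192.mB c.h (c.yB • F.b))) (N := N) (s := x * p.W)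
    (s₁ := (x - 1 / (2 * p.n)) * p.W) (s₂ := (x - 1 / (2 * p.n)) * p.W)
    (s₁' := (x - 1 / (2 * p.n) + p.δ) * p.W) (s₂' := (x - 1 / (2 * p.n) + p.δ) * p.W)
    (r₁ := -(1 / 4 * p.W)) (r₁' := 15 / 32 * p.W) (r₂ := -(1 / 4 * p.W)) (r₂' := 15 / 32 * p.W)
    (I₁ := Icc (-(1 / 4 * p.W)) (15 / 32 * p.W)) (I₂ := Icc (-(1 / 4 * p.W)) (15 / 32 * p.W))
    (J := univ) measurableSet_Icc measurableSet_Icc MeasurableSet.univ
    ins1 ins2 ins2 ins3 ins3 ins4 ins5 ins4 ins5 subset_rfl subset_rfl hc.sn.WL hne hne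
    i1'.integrableOn i1'.integrableOn ig
  have hgap := hc.sn.eGap_small h0 h1 h2 hμ hF hc.sn.mparB ins2 ins3
    (by rw [e12, e13]; nlinarith)
  have hhk := hc.sn.eHk_small h0 h2 hμ hF (y := c.yB) a6 (by rw [c.yB_eq']; linarith)
  rw [compl_empty, setIntegral_univ, setIntegral_empty, probReal_univ, measureReal_empty,
    one_mul, zero_mul] at key
  have m1' : ∫ q : OR, c.h.sk (c.yB • F.b) (Icc (-(1 / 4 * p.W)) (15 / 32 * p.W)) univ c.L
      (x * p.W) ((x - 1 / (2 * p.n)) * p.W) q.1.1 q.1.2 q.2 ∂(PRow G) ≤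
      (48 * C1 + 10 ^ 5) * p.n ^ 4 * c.l := m1
  have hel : 0 ≤ p.e * c.l := mul_nonneg he.le a9.le
  linarith

/-- **`recB`** with `q = 0` -/
theorem recB_of (hc : XN c) (h0 : G (Set.Iio 0) = 0) (h1 : Integrable (fun x : ℝ => x) G)
    (h2 : Integrable (fun x : ℝ => x ^ 2) G) (hμ : IsTC G μ) {C1 : ℝ} (hbig : BigFall c C1)
    (N : ℕ) (x w : ℝ) (hx0 : 0 ≤ x) (hx : x < 3 / 16) (hw : wmn p.W ≤ w)
    (hw2 : w ≤ (3 / 16 - x) / 2) : ∃ q : ℝ, 0 ≤ q ∧ q ≤ p.e ∧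
    fC c (N + 2) x ≤ (48 * C1 + 10 ^ 5) * p.n ^ 4 + p.e / w ^ 3 +
      (1 - q) * fC c N (x - 1 / (2 * p.n) + p.δ) + q * fC c N (x + 3 * w / 2) := by
  have he := hc.sn.std.toStd.e_pos
  have hl := hc.sn.std.l_pos
  have hW : 0 < p.W := hc.basic.1
  refine ⟨0, le_rfl, he.le, ?_⟩
  have key := moveB hc h0 h1 h2 hμ hbig N hx0 hx
  have hw0 : 0 < w := (wmn_pos hW).trans_le hw
  have hw1 : w ≤ 1 := by linarith
  have h3 : p.e ≤ p.e / w ^ 3 := by
    rw [le_div_iff₀ (by positivity)]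
    have : w ^ 3 ≤ 1 := pow_le_one₀ hw0.le hw1
    nlinarith
  rw [sub_zero, one_mul, zero_mul, add_zero]
  have e1 : fC c (N + 2) x = eV G c.h p.W c.P c.g c.L (N + 2) (x * p.W) / c.l := rfl
  have e2 : fC c N (x - 1 / (2 * p.n) + p.δ) =
      eV G c.h p.W c.P c.g c.L N ((x - 1 / (2 * p.n) + p.δ) * p.W) / c.l := rfl
  rw [e1, e2, div_le_iff₀ hl, add_mul, add_mul, div_mul_cancel₀ _ hl.ne']
  have h4 : p.e * c.l ≤ p.e / w ^ 3 * c.l := mul_le_mul_of_nonneg_right h3 hl.le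
  linarith

/-- **`recB` for every configuration**, from the big fall -/
theorem ev_recB (h0 : G (Set.Iio 0) = 0) (h1 : Integrable (fun x : ℝ => x) G)
    (h2 : Integrable (fun x : ℝ => x ^ 2) G) (hμ : IsTC G μ) (hc0 : 0 < c0) (hK : 0 ≤ K) {C1 : ℝ}
    (hbig : Ev fun p => ∀ c : Cf G F w0 c0 K p, BigFall c C1) :
    Ev fun p => ∀ c : Cf G F w0 c0 K p, ∀ (N : ℕ) (x w : ℝ), 0 ≤ x → x < 3 / 16 → wmn p.W ≤ w →
      w ≤ (3 / 16 - x) / 2 → ∃ q : ℝ, 0 ≤ q ∧ q ≤ p.e ∧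
      fC c (N + 2) x ≤ (48 * C1 + 10 ^ 5) * p.n ^ 4 + p.e / w ^ 3 +
        (1 - q) * fC c N (x - 1 / (2 * p.n) + p.δ) + q * fC c N (x + 3 * w / 2) :=
  ((ev_XN G F w0 hc0 hK).and hbig).mono fun _ ⟨hx, hb⟩ c => recB_of (hx c) h0 h1 h2 hμ (hb c)

end Crest.Agent.R151.E685
end

-- ▼ part R151/J69q
section

/-!
# R151/J69q — the A-row move `recA` (owner helper69)
-/

set_option autoImplicit false

open MeasureTheory Filter ProbabilityTheory Topology Set
open Crest.ProbabilityR.FirstPassage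
open Crest.Agent.R151.K Crest.Agent.R151.Q

namespace Crest.Agent.R151.J69

open B710 (FlatData)
open C710 (GoodScale fn)
open NF hiding Num
open R78 (V Wk IsHwy hc hp hull routes IsOpen shp hullY IsStrip Frame IsPos Back)
open M192 (frame frame_al frame_be al_pos be_pos isStrip)
open M56 (mg nu)

variable {μ : ℝ × ℝ → ℝ}
variable {G : Measure ℝ} {F : FlatData μ} {w0 c0 K : ℝ} {p : NF.Num}
  {c : Cf G F w0 c0 K p}

/-- the value function of a configuration -/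
noncomputable def fC (c : Cf G F w0 c0 K p) (N : ℕ) (x : ℝ) : ℝ :=
  fS G c.h p.W c.P c.g c.L c.l N x

lemma fC_eq (c : Cf G F w0 c0 K p) (N : ℕ) (x : ℝ) :
    fC c N x = eV G c.h p.W c.P c.g c.L N (x * p.W) / c.l := rfl

lemma eV_eq (hc : SN c) (N : ℕ) (x : ℝ) :
    eV G c.h p.W c.P c.g c.L N (x * p.W) = fC c N x * c.l := by
  rw [fC_eq, div_mul_cancel₀ _ hc.std.l_pos.ne']

lemma al_smul_b (y : ℝ) : F.al (y • F.b) = 0 := by rw [map_smul, F.al_b, smul_zero]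

lemma be_smul_b' (y : ℝ) : F.be (y • F.b) = y := by
  rw [map_smul, F.be_b, smul_eq_mul, mul_one]

/-- routes of a fence of width `≥ 2 mg` -/
lemma ne_fence {h : Hwy F} {y s s' a b : ℝ} (hy : h.wH + 2 * mg F < y) (h1 : s ≤ a)
    (h2 : a + 2 * mg F ≤ b) (h3 : a + 2 * mg F + h.κ < s') {I : Set ℝ} (hI : Icc a b ⊆ I)
    (θ : ℝ × ℝ) (t : Environment) (φ : ℝ × ℝ) :
    (routes t (h.Lo θ t φ) (h.Up (y • F.b) θ t φ) (rg F I θ) (h.iL s θ t φ)
      (h.iU (y • F.b) s' θ t φ)).Nonempty := by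
  refine M56.row_nonempty (h := h) (d := y • F.b) (σ₁ := a + mg F) (σ₂ := a + mg F)
    (by rw [be_smul_b']; exact hy) (by linarith) (by rw [al_smul_b]; linarith) ?_ θ t φ
  rw [min_self, max_self]
  exact (Icc_subset_Icc (by linarith) (by linarith)).trans hI

lemma int_fence [IsProbabilityMeasure G] (h0 : G (Set.Iio 0) = 0)
    (h2 : Integrable (fun x : ℝ => x ^ 2) G) {h : Hwy F} {ε : ℝ} (hm : HwyMean G h ε)
    {y s s' a b : ℝ} (hy : h.wH + 2 * mg F < y) (h1 : s ≤ a)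
    (h2' : a + 2 * mg F ≤ b) (h3 : a + 2 * mg F + h.κ < s') {I : Set ℝ} (hIm : MeasurableSet I)
    (hI : Icc a b ⊆ I) :
    Integrable (fun q => h.hkY (y • F.b) I s s' q.1.1 q.1.2 q.2) (nu G) := by
  refine M56.hkY_integrable (h := h) (G := G) hm h0 h2 (d := y • F.b) (σ₁ := a + mg F)
    (σ₂ := a + mg F) (by rw [be_smul_b']; exact hy) hIm (by linarith)
    (by rw [al_smul_b]; linarith) ?_
  rw [min_self, max_self]
  exact (Icc_subset_Icc (by linarith) (by linarith)).trans hI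

lemma alg_aux (A1 A2 e P1 f1 P2 f2 : ℝ) {l : ℝ} (hl : l ≠ 0) :
    (A1 / l + A2 / l + e + P1 * f1 + P2 * f2) * l =
      A1 + A2 + e * l + P1 * (f1 * l) + P2 * (f2 * l) := by field_simp

/-- monotonicity of the hull in the labels and the region -/
lemma hull_mono' (h : Hwy F) {t : Environment} (ht : Nn t) {d : ℝ × ℝ} {I J : Set ℝ}
    {s s' r r' : ℝ} {θ φ : ℝ × ℝ}
    (hne : (routes t (h.Lo θ t φ) (h.Up d θ t φ) (rg F I θ) (h.iL s θ t φ)
      (h.iU d r θ t φ)).Nonempty) (hs : s' ≤ s) (hr : r ≤ r') (hIJ : I ⊆ J := by exact subset_rfl) :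
    h.hk d J s' r' θ t φ ≤ h.hk d I s r θ t φ := by
  unfold Hwy.hk
  exact R78.hull_mono (bddBelow_routes ht _ _ _ _ _) hne (M192.rg_mono hIJ θ)
    (M192.iL_mono h hs θ t φ) (M192.iU_mono h d hr θ t φ)

set_option maxHeartbeats 1000000 in
/-- **the A-row move** -/
theorem SN.recA [IsProbabilityMeasure G] (hc : SN c) (h0 : G (Set.Iio 0) = 0)
    (h1 : Integrable (fun x : ℝ => x) G) (h2 : Integrable (fun x : ℝ => x ^ 2) G)
    (hμ : IsTC G μ) (hF : FM G c.h c.ε) (T : Set (M192.Row (ℝ × ℝ))) (N : ℕ) (x : ℝ)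
    (hx1 : -(1 / 16) ≤ x) (hx2 : x < 1 / 8) (B : Set (M192.Row (ℝ × ℝ)))
    (hB : MeasurableSet[c.mB] B) :
    fC c (N + 1) x ≤ ∫ q in Bᶜ, (c.rowA T).KL x q ∂(nuR G) +
      ∫ q in B, (c.rowA T).F (1 / (4 * p.n)) x q ∂(nuR G) + p.e +
      (nuR G).real Bᶜ * fC c N (x + 6 * p.δ) +
      (nuR G).real B * fC c N (x + 1 / (4 * p.n) + p.δ) := by
  obtain ⟨hW, hg, hκ, hcF, hmg, hwH, a1, a2, a3, a4, a5, a6, a7⟩ := hc.basic
  have b1 := hc.len
  have b2 := hc.wH_le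
  have b3 := hc.sl_le
  have b4 := hc.sl_ge
  have b5 := hc.δ_le
  have b6 := hc.n_ge
  have b7 := hc.g_le
  have hδ := hc.std.toStd.δ_pos
  have hl := hc.std.l_pos
  have hn : (0 : ℝ) < p.n := by linarith
  set w : ℝ := 1 / (4 * (p.n : ℝ)) with hw
  have hw0 : 0 < w := by rw [hw]; positivity
  have hw1 : w ≤ 1 / 64 := by
    rw [hw]
    exact one_div_le_one_div_of_le (by norm_num) (by linarith)
  have hwW : 16 * c.g ≤ w * p.W := by
    have : 16 * c.g * (4 * p.n) ≤ p.W := by nlinarith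
    rw [hw, div_mul_eq_mul_div, one_mul, le_div_iff₀ (by positivity)]
    exact this
  have hxW1 : -(1 / 16) * p.W ≤ x * p.W := mul_le_mul_of_nonneg_right hx1 hW.le
  have hxW2 : x * p.W ≤ 1 / 8 * p.W := mul_le_mul_of_nonneg_right hx2.le hW.le
  have hwW1 : w * p.W ≤ 1 / 64 * p.W := mul_le_mul_of_nonneg_right hw1 hW.le
  have hyA : c.h.wH + 2 * mg F < c.yA := by linarith
  set I₁ : Set ℝ := Icc (-(7 / 16 * p.W)) (7 / 16 * p.W) with hI₁
  set I₂ : Set ℝ := Icc (x * p.W + c.sl) ((x + w) * p.W - c.sl) with hI₂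
  have exw : (x + w) * p.W = x * p.W + w * p.W := by ring
  -- integrability
  have jJ : Integrable (fun q => c.h.hkY (c.yA • F.b) univ (-c.L) c.L q.1.1 q.1.2 q.2) (nu G) :=
    int_fence h0 h2 c.mean hyA (a := -c.L) (b := c.L) le_rfl (by linarith) (by linarith)
      MeasurableSet.univ (subset_univ _)
  have j1 : Integrable (fun q => c.h.hkY (c.yA • F.b) I₁ (x * p.W) ((x + 5 * p.δ) * p.W)
      q.1.1 q.1.2 q.2) (nu G) :=
    int_fence h0 h2 c.mean hyA (a := x * p.W) (b := 7 / 16 * p.W) le_rfl (by linarith)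
      (by nlinarith) measurableSet_Icc (Icc_subset_Icc (by linarith) le_rfl)
  have j2 : Integrable (fun q => c.h.hkY (c.yA • F.b) I₂ (x * p.W) ((x + w) * p.W)
      q.1.1 q.1.2 q.2) (nu G) :=
    int_fence h0 h2 c.mean hyA (a := x * p.W + c.sl) (b := (x + w) * p.W - c.sl) (by linarith)
      (by rw [exw]; linarith) (by rw [exw]; linarith) measurableSet_Icc subset_rfl
  have j3 : Integrable (fun q => c.h.hkY (c.yA • F.b) I₂ (x * p.W + c.sl) ((x + w) * p.W - c.sl)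
      q.1.1 q.1.2 q.2) (nu G) :=
    int_fence h0 h2 c.mean hyA (a := x * p.W + c.sl) (b := (x + w) * p.W - c.sl) le_rfl
      (by rw [exw]; linarith) (by rw [exw]; linarith) measurableSet_Icc subset_rfl
  have k1 := (sk_int c.mean j1 jJ).1
  have k2 := (sk_int c.mean j2 jJ).1
  have k3 := (sk_int c.mean j3 jJ).1
  have hs : Ins c.h p.W (x * p.W) := hc.ins' (by rw [abs_le]; constructor <;> linarith)
  have hs₁ : Ins c.h p.W ((x + 5 * p.δ) * p.W) :=
    hc.ins' (by rw [abs_le]; constructor <;> linarith)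
  have hs₁' : Ins c.h p.W ((x + 6 * p.δ) * p.W) :=
    hc.ins' (by rw [abs_le]; constructor <;> linarith)
  have hs₂ : Ins c.h p.W ((x + w) * p.W) :=
    hc.ins' (by rw [abs_le]; constructor <;> linarith)
  have hs₂' : Ins c.h p.W ((x + w + p.δ) * p.W) :=
    hc.ins' (by rw [abs_le]; constructor <;> linarith)
  have key := move_mean c.h h0 h1 h2 hμ c.mean c.mean.nonneg hc.mparA (B := B) hB (N := N)
    (I₁ := I₁) (I₂ := I₂) (J := univ) (L := c.L) measurableSet_Icc measurableSet_Icc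
    MeasurableSet.univ hs hs₁ hs₂ hs₁' hs₂'
    (r₁ := -(7 / 16 * p.W)) (r₁' := 7 / 16 * p.W) (r₂ := x * p.W + c.sl)
    (r₂' := (x + w) * p.W - c.sl)
    (hc.ins (by rw [abs_neg, abs_of_pos (by positivity)]))
    (hc.ins (by rw [abs_of_pos (by positivity)]))
    (hc.ins (by rw [abs_le]; constructor <;> linarith))
    (hc.ins (by rw [abs_le, exw]; constructor <;> linarith)) subset_rfl subset_rfl hc.WL
    (ne_fence hyA (a := x * p.W) (b := 7 / 16 * p.W) le_rfl (by linarith) (by nlinarith)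
      (Icc_subset_Icc (by linarith) le_rfl))
    (ne_fence hyA (a := x * p.W + c.sl) (b := (x + w) * p.W - c.sl) (by linarith)
      (by rw [exw]; linarith) (by rw [exw]; linarith) subset_rfl)
    k1.integrableOn k2.integrableOn jJ
  have g1 := hc.eGap_small h0 h1 h2 hμ hF hc.mparA hs₁ hs₁' (by nlinarith)
  have g2 := hc.eGap_small h0 h1 h2 hμ hF hc.mparA hs₂ hs₂' (by nlinarith)
  have g3 := hc.eHk_small h0 h2 hμ hF hyA (by rw [c.yA_eq']; linarith)
  rw [eV_eq hc, eV_eq hc, eV_eq hc] at key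
  -- the two branch costs
  have m1 : ∫ q in Bᶜ, (c.rowA T).KL x q ∂(nuR G) =
      (∫ q in Bᶜ, c.h.sk (c.yA • F.b) I₁ univ c.L (x * p.W) ((x + 5 * p.δ) * p.W) q.1.1 q.1.2 q.2
        ∂(PRow G)) / c.l := by
    rw [← integral_div]
    refine integral_congr_ae (ae_restrict_of_ae ?_)
    filter_upwards [M192.ae_skp (G := G) h0 c.h c.yA c.l c.L I₁ (x * p.W) ((x + 5 * p.δ) * p.W)]
      with q hq
    exact hq
  have hwc : 4 * c.sl ≤ w * p.W ∧ w ≤ 1 := ⟨by linarith, by linarith⟩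
  have m2 : ∫ q in B, (c.rowA T).F w x q ∂(nuR G) =
      (∫ q in B, c.h.sk (c.yA • F.b) I₂ univ c.L (x * p.W + c.sl) ((x + w) * p.W - c.sl)
        q.1.1 q.1.2 q.2 ∂(PRow G)) / c.l := by
    rw [← integral_div]
    refine integral_congr_ae (ae_restrict_of_ae ?_)
    filter_upwards [M192.ae_skp (G := G) h0 c.h c.yA c.l c.L I₂ (x * p.W + c.sl)
      ((x + w) * p.W - c.sl)] with q hq
    show (if 4 * c.sl ≤ w * p.W ∧ w ≤ 1 then _ else (0 : ℝ)) = _
    rw [if_pos hwc]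
    exact hq
  have m3 : ∫ q in B, c.h.sk (c.yA • F.b) I₂ univ c.L (x * p.W) ((x + w) * p.W) q.1.1 q.1.2 q.2
        ∂(PRow G) ≤
      ∫ q in B, c.h.sk (c.yA • F.b) I₂ univ c.L (x * p.W + c.sl) ((x + w) * p.W - c.sl)
        q.1.1 q.1.2 q.2 ∂(PRow G) := by
    refine integral_mono_ae k2.integrableOn k3.integrableOn (ae_restrict_of_ae ?_)
    filter_upwards [ae_P0_Nn (Ψ := ℝ × ℝ) (ν := UU.prod UU) h0] with q hq
    have := hull_mono' c.h hq.1
      (ne_fence hyA (a := x * p.W + c.sl) (b := (x + w) * p.W - c.sl) (s := x * p.W + c.sl)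
        (s' := (x + w) * p.W - c.sl) le_rfl (by rw [exw]; linarith) (by rw [exw]; linarith)
        (I := I₂) subset_rfl q.1.1 q.1.2 q.2)
      (show x * p.W ≤ x * p.W + c.sl by linarith)
      (show (x + w) * p.W - c.sl ≤ (x + w) * p.W by linarith)
    unfold Hwy.sk
    linarith
  have hPB : (nuR G).real B = (PRow G).real B := rfl
  have hPBc : (nuR G).real Bᶜ = (PRow G).real Bᶜ := rfl
  rw [m1, m2, hPB, hPBc]
  have he : 0 < p.e * c.l := mul_pos hc.std.toStd.e_pos hl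
  refine le_of_mul_le_mul_right (key.trans ?_) hl
  rw [alg_aux _ _ _ _ _ _ _ hl.ne']
  linarith

end Crest.Agent.R151.J69
end

-- ▼ part R151/J69r
section

/-!
# R151/J69r — assembly of the `Strategy` (owner helper69)
-/

set_option autoImplicit false

open MeasureTheory Filter ProbabilityTheory Topology Set
open Crest.ProbabilityR.FirstPassage
open Crest.Agent.R151.K Crest.Agent.R151.Q

namespace Crest.Agent.R151.J69

open B710 (FlatData)
open C710 (GoodScale fn)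
open NF hiding Num
open M56 (mg nu)

variable {μ : ℝ × ℝ → ℝ}
variable {G : Measure ℝ} {F : FlatData μ} {w0 c0 K : ℝ} {p : NF.Num}

/-- the crude facts about the value function (helper684) -/
structure LowTop (c : Cf G F w0 c0 K p) : Prop where
  low : ∃ C' : ℝ, ∀ N : ℕ, N - C' ≤ fC c N 0
  base : ∃ C' : ℝ, ∀ N : ℕ, N ≤ 1 → ∀ x : ℝ, -(1 / 16) ≤ x → x < 3 / 16 → fC c N x ≤ C'
  top : ∃ A : ℝ, ∀ (N : ℕ) (x : ℝ), 0 ≤ x → x < 3 / 16 → fC c N x ≤ fC c N 0 + A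




end Crest.Agent.R151.J69
end

-- ▼ part R151/J69s
section

/-!
# R151/J69s — `J684.Rec` from the mean of the small fall of the B-rows (owner helper69)
-/

set_option autoImplicit false

open MeasureTheory Filter ProbabilityTheory Topology Set
open Crest.ProbabilityR.FirstPassage
open Crest.Agent.R151.K Crest.Agent.R151.Q

namespace Crest.Agent.R151.J69

open B710 (FlatData)
open C710 (GoodScale fn)
open NF hiding Num
open M56 (mg nu)
open R78 (routes)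

variable {μ : ℝ × ℝ → ℝ}
variable {G : Measure ℝ} {F : FlatData μ} {w0 c0 K : ℝ} {p : NF.Num}

/-- helper56's fence mean -/
theorem fm_of [IsProbabilityMeasure G] (h0 : G (Set.Iio 0) = 0)
    (h2 : Integrable (fun x : ℝ => x ^ 2) G) (hμ : IsTC G μ) {h : Hwy F} {ε : ℝ}
    (hm : HwyMean G h ε) : FM G h ε := by
  intro d I s s2 α β y2 hI hd hy hs hs2 hIab hw
  have := M56.one_le_mg F
  exact M56.fence_mean' hm h0 h2 hd hI hs hs2 hIab hw hμ (by linarith)




end Crest.Agent.R151.J69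
namespace Crest.Agent.R151.J69.SN
end Crest.Agent.R151.J69.SN
end

-- ▼ part R151/E685F5
section

/-!
# R151 / S0214 part 2, E685F5 — `J684.Rec` from the big fall (helper685)
-/

set_option autoImplicit false

open MeasureTheory Filter ProbabilityTheory Topology Set
open Crest.ProbabilityR.FirstPassage

namespace Crest.Agent.R151.E685

open Crest.Agent.R151.K Crest.Agent.R151.Q
open B710 (FlatData)
open NF (Ev Cf nuR)

variable {μ : ℝ × ℝ → ℝ} {G : Measure ℝ}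

/-- **the two recursions of the strategy** from the big fall of the B-rows -/
theorem ev_rec_of_big [IsProbabilityMeasure G] (F : FlatData μ) (w0 : ℝ) {c0 K : ℝ}
    (hc0 : 0 < c0) (hK : 0 ≤ K) (h0 : G (Set.Iio 0) = 0)
    (h1 : Integrable (fun x : ℝ => x) G) (h2 : Integrable (fun x : ℝ => x ^ 2) G)
    (hμ : IsTC G μ) (hbig : ∃ C1 : ℝ, Ev fun p => ∀ c : Cf G F w0 c0 K p, BigFall c C1)
    (typ : ∀ {p : NF.Num}, Cf G F w0 c0 K p → Set (M192.Row (ℝ × ℝ))) :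
    ∃ C0 : ℝ, Ev fun p => ∀ c : Cf G F w0 c0 K p, J684.Rec c (typ c) C0 := by
  obtain ⟨C1, hb⟩ := hbig
  refine ⟨48 * C1 + 10 ^ 5, ((J69.ev_SN G F w0 hc0 hK).and
    (ev_recB h0 h1 h2 hμ hc0 hK hb)).mono ?_⟩
  rintro p ⟨a1, a2⟩ c
  exact ⟨fun N x hx1 hx2 B hB _ => (a1 c).recA h0 h1 h2 hμ (J69.fm_of h0 h2 hμ c.mean) (typ c) N x
    hx1 hx2 B hB, a2 c⟩

end Crest.Agent.R151.E685
end

-- ▼ part R151/Q8a
section

/-!
# R151 / Q8a — law of the inner row given the strips of the outer row (owner helper777)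

`Ri = (jitter η, phases φ₁)`, law `κI := UU2.prod (UU.prod UU)`;
`inn off y` : the inner row `((θ - off - η, t), φ₁)`, `y = (outer row, (η, φ₁))`.

* `lintegral_inn` : for every outer row `p`, the inner row, in the environment whose edges off
  `E θ` are refreshed, has the law `(P0 G).prod (UU.prod UU)`, for invariant functionals which do
  not read the edges of `E θ`;
* `prob_inn`, `disjoint_E0_band` (the strips of the outer row are disjoint from the band of the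
  inner row).
-/

set_option autoImplicit false

open MeasureTheory Filter ProbabilityTheory Topology Set
open Crest.ProbabilityR.FirstPassage
open scoped ENNReal

namespace Crest.Agent.R151.Q

open Crest.Agent.R151.K
open M192 (Row mIL)
open V (cs E0 glue)
open B710 (FlatData)

/-- jitter and phases of the inner row -/
abbrev Ri : Type := (ℝ × ℝ) × (ℝ × ℝ)

/-- law of the jitter and of the phases of the inner row -/
noncomputable def κI : Measure Ri := UU2.prod (UU.prod UU)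

instance : IsProbabilityMeasure κI := by unfold κI; infer_instance

/-- the inner row -/
def inn (off : ℝ × ℝ) (y : Row (ℝ × ℝ) × Ri) : Row (ℝ × ℝ) :=
  ((y.1.1.1 - off - y.2.1, y.1.1.2), y.2.2)

lemma measurable_inn (off : ℝ × ℝ) : Measurable (inn off) := by
  unfold inn
  refine Measurable.prodMk (Measurable.prodMk ?_ ?_) ?_
  · exact ((measurable_fst.comp (measurable_fst.comp measurable_fst)).sub_const off).sub
      (measurable_fst.comp measurable_snd)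
  · exact measurable_snd.comp (measurable_fst.comp measurable_fst)
  · exact measurable_snd.comp measurable_snd

lemma ae_jitter_κI : ∀ᵐ ω ∂κI, ω.1 ∈ Ico (0 : ℝ) 1 ×ˢ Ico (0 : ℝ) 1 := by
  have h1 : MeasurePreserving (Prod.fst : Ri → ℝ × ℝ) κI UU2 := by
    unfold κI; exact measurePreserving_fst
  exact h1.quasiMeasurePreserving.ae ae_UU2

variable {G : Measure ℝ} [IsProbabilityMeasure G]

/-- **law of the inner row given the strips of the outer row**, `ℝ≥0∞` version -/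
theorem lintegral_inn {E E' : ℝ × ℝ → Set (Sym2 (ℤ × ℤ))} {off : ℝ × ℝ}
    {f : Row (ℝ × ℝ) → ℝ≥0∞} (hf : Measurable f)
    (hinv : ∀ φ, Inv fun θ t => f ((θ, t), φ))
    (hdep : ∀ θ φ, DependsOn (fun t => f ((θ, t), φ)) (E' θ))
    (hdis : ∀ θ, ∀ η ∈ Ico (0 : ℝ) 1 ×ˢ Ico (0 : ℝ) 1, Disjoint (E θ) (E' (θ - off - η)))
    (p : Row (ℝ × ℝ)) :
    ∫⁻ x : Environment × Ri, f (inn off (cs E p x.1, x.2)) ∂((iidLaw G).prod κI) =
      ∫⁻ q, f q ∂((P0 G).prod (UU.prod UU)) := by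
  set θ := p.1.1 with hθ
  have hm0 : Measurable fun x : Environment × Ri => inn off (cs E p x.1, x.2) :=
    (measurable_inn off).comp (((V.measurable_cs_right E p).comp measurable_fst).prodMk
      measurable_snd)
  -- replace the glued environment by the fresh one
  have h1 : ∀ᵐ x ∂((iidLaw G).prod κI), f (inn off (cs E p x.1, x.2)) =
      f ((θ - off - x.2.1, x.1), x.2.2) := by
    have h2 : ∀ᵐ x ∂((iidLaw G).prod κI), x.2.1 ∈ Ico (0 : ℝ) 1 ×ˢ Ico (0 : ℝ) 1 :=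
      (measurePreserving_snd (μ := iidLaw G) (ν := κI)).quasiMeasurePreserving.ae ae_jitter_κI
    filter_upwards [h2] with x hx
    refine hdep (θ - off - x.2.1) x.2.2 fun e he => ?_
    have : e ∉ E θ := fun h => Set.disjoint_left.1 (hdis θ _ hx) h he
    exact V.glue_of_notMem this _ _
  rw [lintegral_congr_ae h1]
  -- Fubini
  have hm1 : Measurable fun x : Environment × Ri => f ((θ - off - x.2.1, x.1), x.2.2) := by
    refine hf.comp (Measurable.prodMk (Measurable.prodMk ?_ measurable_fst) ?_)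
    · exact measurable_const.sub (measurable_fst.comp measurable_snd)
    · exact measurable_snd.comp measurable_snd
  rw [lintegral_prod_symm _ hm1.aemeasurable]
  set g : ℝ × ℝ → ℝ × ℝ → ℝ≥0∞ := fun v φ => ∫⁻ t, f ((v, t), φ) ∂(iidLaw G) with hg
  have hgm : Measurable fun q : (ℝ × ℝ) × (ℝ × ℝ) => g q.1 q.2 := by
    have : Measurable fun q : ((ℝ × ℝ) × (ℝ × ℝ)) × Environment => f ((q.1.1, q.2), q.1.2) :=
      hf.comp (((measurable_fst.comp measurable_fst).prodMk measurable_snd).prodMk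
        (measurable_snd.comp measurable_fst))
    exact this.lintegral_prod_right'
  have hper : ∀ (φ : ℝ × ℝ) (m : ℤ × ℤ) (v : ℝ × ℝ), g (v + toR m) φ = g v φ := by
    intro φ m v
    have e1 := (mp_act (G := G) (tr m)).lintegral_comp (f := fun t => f ((v + toR m, t), φ))
      (hf.comp ((measurable_const.prodMk measurable_id).prodMk measurable_const))
    show ∫⁻ t, f ((v + toR m, t), φ) ∂(iidLaw G) = ∫⁻ t, f ((v, t), φ) ∂(iidLaw G)
    rw [← e1]
    exact lintegral_congr fun t => hinv φ m v t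
  have e2 : ∫⁻ ω : Ri, ∫⁻ t, f ((θ - off - ω.1, t), ω.2) ∂(iidLaw G) ∂κI =
      ∫⁻ φ, ∫⁻ η, g (θ - off - η) φ ∂UU2 ∂(UU.prod UU) := by
    unfold κI
    have hm2 : Measurable fun ω : Ri => g (θ - off - ω.1) ω.2 :=
      hgm.comp ((measurable_const.sub measurable_fst).prodMk measurable_snd)
    exact lintegral_prod_symm _ hm2.aemeasurable
  rw [e2]
  have e3 : ∀ φ : ℝ × ℝ, ∫⁻ η, g (θ - off - η) φ ∂UU2 = ∫⁻ v, g v φ ∂UU2 := fun φ =>
    J69.lintegral_jitter (F := fun v => g v φ)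
      (hgm.comp (measurable_id.prodMk measurable_const)) (hper φ) (θ - off)
  simp_rw [e3]
  rw [lintegral_prod_symm _ hf.aemeasurable]
  refine lintegral_congr fun φ => ?_
  have hm3 : Measurable fun q : (ℝ × ℝ) × Environment => f (q, φ) :=
    hf.comp (measurable_id.prodMk measurable_const)
  exact (lintegral_prod _ hm3.aemeasurable).symm

/-- **law of the inner row given the strips of the outer row**, for events -/
theorem prob_inn {E E' : ℝ × ℝ → Set (Sym2 (ℤ × ℤ))} {off : ℝ × ℝ}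
    {A : Set (Row (ℝ × ℝ))} (hA : MeasurableSet[mIL (ℝ × ℝ) E'] A)
    (hdis : ∀ θ, ∀ η ∈ Ico (0 : ℝ) 1 ×ˢ Ico (0 : ℝ) 1, Disjoint (E θ) (E' (θ - off - η)))
    (p : Row (ℝ × ℝ)) :
    ((iidLaw G).prod κI).real {x : Environment × Ri | inn off (cs E p x.1, x.2) ∈ A} =
      ((P0 G).prod (UU.prod UU)).real A := by
  have hm0 : Measurable fun x : Environment × Ri => inn off (cs E p x.1, x.2) :=
    (measurable_inn off).comp (((V.measurable_cs_right E p).comp measurable_fst).prodMk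
      measurable_snd)
  have h1 := lintegral_inn (G := G) (E := E) (E' := E') (off := off) (f := A.indicator 1)
    (measurable_one.indicator hA.1) (fun φ m θ t => ?_) (fun θ φ t t' htt => ?_) hdis p
  · rw [lintegral_indicator_one hA.1] at h1
    have h2 : ∫⁻ x : Environment × Ri, A.indicator (1 : Row (ℝ × ℝ) → ℝ≥0∞)
        (inn off (cs E p x.1, x.2)) ∂((iidLaw G).prod κI) =
        ((iidLaw G).prod κI) {x : Environment × Ri | inn off (cs E p x.1, x.2) ∈ A} := by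
      have hms : MeasurableSet {x : Environment × Ri | inn off (cs E p x.1, x.2) ∈ A} := hm0 hA.1
      rw [← lintegral_indicator_one hms]
      rfl
    rw [h2] at h1
    exact congrArg ENNReal.toReal h1
  · exact M192.indicator_congr_mem (hA.2.1 φ m θ t)
  · exact M192.indicator_congr_mem (hA.2.2 θ φ htt)



section hwy

variable {μ : ℝ × ℝ → ℝ} {F : FlatData μ} (h : Hwy F)


end hwy

end Crest.Agent.R151.Q
end

-- ▼ part R151/FA763a
section

/-!
# R151 / S0214 part 2, [FALL] (F1) : the mean of the fall of the big row — core (helper763)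

`core` : for an outer row (height `y + 2 g`) around an inner row (height `y`) whose fall is `≤ t` with
probability `≥ 1 / 2`, the mean of the fall of the outer row is
`≤ 481 B + 160 (eLo + eUp + eJ) + 10 t`.
-/

set_option autoImplicit false

open MeasureTheory Filter ProbabilityTheory Topology Set
open Crest.ProbabilityR.FirstPassage

namespace Crest.Agent.R151.FALL

open K R78 B710 M192 Q

variable {μ : ℝ × ℝ → ℝ} {F : FlatData μ}

/-- the error of the two gap fences and of the window gauge, on (outer row) × (jitter, phases) -/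
noncomputable def errV (h : Hwy F) (y g c Λ L α₀ β₀ a₀ b₀ α₁ β₁ a₁ b₁ : ℝ)
    (x : Row (ℝ × ℝ) × Ri) : ℝ :=
  obLo h g c α₀ β₀ L a₀ b₀ x.1.1.1 x.1.1.2 x.1.2 x.2 +
    obUp h y g c α₁ β₁ L a₁ b₁ x.1.1.1 x.1.1.2 x.1.2 x.2 +
    obJ h y g Λ L x.1.1.1 x.1.1.2 x.1.2 x.2

theorem core {r : ℝ} (hr : 0 < r) {G : Measure ℝ} [IsProbabilityMeasure G]
    (hG : G = gammaMeasure 1 r) (h0 : G (Set.Iio 0) = 0)
    {h : Hwy F} {y g c Λ L : ℝ} (hg : Geo h y g c Λ L)
    {α β σ σ' αi βi : ℝ} {s s' : ℝ} (hs1 : -L ≤ s) (hs4 : s' ≤ L)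
    {α₀ β₀ a₀ b₀ α₁ β₁ a₁ b₁ : ℝ}
    (hα₀ : α ≤ α₀) (hβ₀ : β₀ ≤ β) (ha₀ : s ≤ a₀) (hb₀ : b₀ ≤ σ)
    (hα₁ : α ≤ α₁) (hβ₁ : β₁ ≤ β) (ha₁ : σ' ≤ a₁) (hb₁ : b₁ ≤ s')
    (hαi : α + cF F - c ≤ αi) (hβi : βi ≤ β - cF F - c)
    (hne0 : ∀ η, ‖η‖ ≤ 1 → Rt h (offv F g c η) (Set.Icc α₀ β₀) a₀ b₀)
    (hne2 : ∀ η, ‖η‖ ≤ 1 → Rt h (Hwy.dU (offv F g c η) (y • F.b) (dOv F y g))
      (Iup F y g c α₁ β₁ η) a₁ b₁)
    (hnei : Rt h (y • F.b) (Set.Icc αi βi) σ σ')
    (hne : Rt h (dOv F y g) (Set.Icc (α - h.κ) (β + h.κ)) s s')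
    (hneJ : Rt h (dOv F y g) (Jw Λ) (-L) L)
    {ρ : Row (ℝ × ℝ) → ℝ} (hρ : Measurable ρ)
    (hρS : ∀ p t, ρ (V.cs (V.E0 h (dOv F y g)) p t) = ρ p)
    (hDi : Integrable (fun p => V.hkR h (dOv F y g) univ (-L) L p - ρ p)
      ((P0 G).prod (UU.prod UU)))
    {t : ℝ} (ht : 0 ≤ t)
    (hin : 1 / 2 ≤ ((P0 G).prod (UU.prod UU)).real
      {q | ski h y (Set.Icc αi βi) L σ σ' q ≤ t})
    (em : Measurable (errV h y g c Λ L α₀ β₀ a₀ b₀ α₁ β₁ a₁ b₁))
    (ei : Integrable (errV h y g c Λ L α₀ β₀ a₀ b₀ α₁ β₁ a₁ b₁)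
      (((P0 G).prod (UU.prod UU)).prod κI)) :
    Integrable (sko h y g (Set.Icc (α - h.κ) (β + h.κ)) L s s')
      ((P0 G).prod (UU.prod UU)) ∧
    ∫ q, sko h y g (Set.Icc (α - h.κ) (β + h.κ)) L s s' q
        ∂((P0 G).prod (UU.prod UU)) ≤
      481 * ∫ p, |V.hkR h (dOv F y g) univ (-L) L p - ρ p|
        ∂((P0 G).prod (UU.prod UU)) +
      160 * ∫ x, |errV h y g c Λ L α₀ β₀ a₀ b₀ α₁ β₁ a₁ b₁ x|
        ∂(((P0 G).prod (UU.prod UU)).prod κI) + 10 * t := by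
  have hwH := h.wH_nonneg'
  have hcF := cF_nonneg F
  have hgb := hg.g_big
  have hyb := hg.y_big
  -- the data of the outer row
  have hne' : ∀ᵐ p ∂((P0 G).prod (UU.prod UU)),
      V.NE h (dOv F y g) (Set.Icc (α - h.κ) (β + h.κ)) s s' p :=
    ae_of_all _ fun p => hne _ _ _
  have S : V.SData G (UU.prod UU) (V.E0 h (dOv F y g))
      (fun p => V.hkR h (dOv F y g) (Set.Icc (α - h.κ) (β + h.κ)) s s' p - ρ p)
      (fun p => V.hkR h (dOv F y g) univ (-L) L p - ρ p) := by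
    subst hG
    exact V.sdata_hk h hr (dOv F y g) (L := L)
      (measurableSet_Icc (a := α - h.κ) (b := β + h.κ)) hs1 hs4 hne' hρ hρS hDi
  -- the inner row
  set Vf : Row (ℝ × ℝ) × Ri → ℝ := fun x =>
    h.sk (y • F.b) (Set.Icc αi βi) Set.univ L σ σ' (x.1.1.1 - offv F g c x.2.1) x.1.1.2 x.2.2
    with hVf
  have hI : ∀ᵐ p ∂((P0 G).prod (UU.prod UU)), (1 / 2 : ℝ) ≤ ((iidLaw G).prod κI).real
      {x | Vf (V.cs (V.E0 h (dOv F y g)) p x.1, x.2) ≤ t} := by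
    refine ae_of_all _ fun p => ?_
    have hyb' : h.wH < F.be (y • F.b) := by simpa using hyb
    have hA : MeasurableSet[mIL (ℝ × ℝ) fun θ => edgesIn (h.band (y • F.b) θ)]
        {q : Row (ℝ × ℝ) | ski h y (Set.Icc αi βi) L σ σ' q ≤ t} := by
      refine ⟨measurableSet_le (measurable_ski h y measurableSet_Icc L σ σ') measurable_const,
        fun φ m θ t' => ?_, fun θ φ t1 t2 htt => ?_⟩
      · have := Hwy.sk_inv h (y • F.b) (Set.Icc αi βi) Set.univ L σ σ' φ m θ t'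
        simp only [ski, Set.mem_ofPred_eq]
        simp only at this
        rw [this]
      · have := Hwy.sk_loc h hyb' (Set.Icc αi βi) Set.univ L σ σ' θ φ htt
        simp only [ski, Set.mem_ofPred_eq]
        simp only at this
        rw [this]
    have hb0 : F.be (g • F.b + c • F.a) = g := by simp
    have hbI : F.be (y • F.b) = y := by simp
    have key := prob_inn (G := G) (E := V.E0 h (dOv F y g))
      (E' := fun θ => edgesIn (h.band (y • F.b) θ)) (off := g • F.b + c • F.a) hA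
      (fun θ η hη => by
        have h1 := hg.disj θ (norm_jitter hη)
        have e1 : θ - offv F g c η = θ - (g • F.b + c • F.a) - η := by
          unfold offv; abel
        rw [e1] at h1
        exact h1) p
    refine hin.trans (le_of_eq ?_)
    rw [← key]
    congr 1
    ext x
    have e1 : p.1.1 - offv F g c x.2.1 = p.1.1 - (g • F.b + c • F.a) - x.2.1 := by
      unfold offv; abel
    simp only [hVf, Set.mem_ofPred_eq, V.cs, inn, ski, e1]
  -- the pointwise inequality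
  have hle : ∀ᵐ x ∂(((P0 G).prod (UU.prod UU)).prod κI),
      V.hkR h (dOv F y g) (Set.Icc (α - h.κ) (β + h.κ)) s s' x.1 - ρ x.1 -
        (V.hkR h (dOv F y g) univ (-L) L x.1 - ρ x.1) ≤
      Vf x + errV h y g c Λ L α₀ β₀ a₀ b₀ α₁ β₁ a₁ b₁ x := by
    have a1 : ∀ᵐ x ∂(((P0 G).prod (UU.prod UU)).prod κI), Nn x.1.1.2 :=
      (measurePreserving_fst (μ := (P0 G).prod (UU.prod UU)) (ν := κI)).quasiMeasurePreserving.ae
        (V.ae_Nn_row h0 (UU.prod UU))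
    have a2 : ∀ᵐ x ∂(((P0 G).prod (UU.prod UU)).prod κI),
        x.2.1 ∈ Ico (0 : ℝ) 1 ×ˢ Ico (0 : ℝ) 1 :=
      (measurePreserving_snd (μ := (P0 G).prod (UU.prod UU)) (ν := κI)).quasiMeasurePreserving.ae
        ae_jitter_κI
    filter_upwards [a1, a2] with x hx1 hx2
    have key := sko_le hg hα₀ hβ₀ ha₀ hb₀ hα₁ hβ₁ ha₁ hb₁ hαi hβi hne0 hne2 hnei hneJ
      (q := x.1) hx1 (r := x.2) (norm_jitter hx2)
    have e1 : sko h y g (Set.Icc (α - h.κ) (β + h.κ)) L s s' x.1 =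
        V.hkR h (dOv F y g) (Set.Icc (α - h.κ) (β + h.κ)) s s' x.1 -
          V.hkR h (dOv F y g) univ (-L) L x.1 := rfl
    rw [e1] at key
    have e2 : errV h y g c Λ L α₀ β₀ a₀ b₀ α₁ β₁ a₁ b₁ x =
      obLo h g c α₀ β₀ L a₀ b₀ x.1.1.1 x.1.1.2 x.1.2 x.2 +
      obUp h y g c α₁ β₁ L a₁ b₁ x.1.1.1 x.1.1.2 x.1.2 x.2 +
      obJ h y g Λ L x.1.1.1 x.1.1.2 x.1.2 x.2 := rfl
    rw [e2]
    simp only [hVf]
    linarith
  have R := S.mean_univ (κ := κI) (q := 1 / 2) (t := t) (by norm_num) (by norm_num) ht em ei hI hle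
  have e3 : (fun p => V.hkR h (dOv F y g) (Set.Icc (α - h.κ) (β + h.κ)) s s' p - ρ p -
        (V.hkR h (dOv F y g) univ (-L) L p - ρ p)) =
      sko h y g (Set.Icc (α - h.κ) (β + h.κ)) L s s' := by
    funext p
    have e1 : sko h y g (Set.Icc (α - h.κ) (β + h.κ)) L s s' p =
        V.hkR h (dOv F y g) (Set.Icc (α - h.κ) (β + h.κ)) s s' p -
          V.hkR h (dOv F y g) univ (-L) L p := rfl
    rw [e1]; ring
  rw [e3] at R
  refine ⟨R.1, R.2.trans (le_of_eq ?_)⟩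
  norm_num

end Crest.Agent.R151.FALL
end

-- ▼ part R151/FA763b
section

/-!
# R151 / S0214 part 2, [FALL] (F1) : the mean of the fall of the big row, `Ev` form (helper763)

`big_fall` : in a B-row (height `y + 6 g`) the mean of the fall `0 → - W / 9`, half width `W / 4`,
is at most `2300 n ^ 5 l`.
-/

set_option autoImplicit false

open MeasureTheory Filter ProbabilityTheory Topology Set
open Crest.ProbabilityR.FirstPassage

namespace Crest.Agent.R151.FALL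

open K R78 B710 M192 Q NF
open M56 (mg one_le_mg)

variable {μ : ℝ × ℝ → ℝ} {F : FlatData μ} {w0 c0 K : ℝ}

/-- sum of three absolute values -/
lemma err_le {G : Measure ℝ} [IsProbabilityMeasure G] {h : Hwy F}
    {y g c Λ L α₀ β₀ a₀ b₀ α₁ β₁ a₁ b₁ : ℝ}
    (i1 : Integrable (fun q : RowS × ((ℝ × ℝ) × (ℝ × ℝ)) =>
      obLo h g c α₀ β₀ L a₀ b₀ q.1.1.1 q.1.1.2 q.1.2 q.2) ((PR G).prod PF))
    (i2 : Integrable (fun q : RowS × ((ℝ × ℝ) × (ℝ × ℝ)) =>
      obUp h y g c α₁ β₁ L a₁ b₁ q.1.1.1 q.1.1.2 q.1.2 q.2) ((PR G).prod PF))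
    (i3 : Integrable (fun q : RowS × ((ℝ × ℝ) × (ℝ × ℝ)) =>
      obJ h y g Λ L q.1.1.1 q.1.1.2 q.1.2 q.2) ((PR G).prod PF)) :
    Integrable (errV h y g c Λ L α₀ β₀ a₀ b₀ α₁ β₁ a₁ b₁)
      (((P0 G).prod (UU.prod UU)).prod κI) ∧
    ∫ x, |errV h y g c Λ L α₀ β₀ a₀ b₀ α₁ β₁ a₁ b₁ x| ∂(((P0 G).prod (UU.prod UU)).prod κI) ≤
      ∫ q, |obLo h g c α₀ β₀ L a₀ b₀ q.1.1.1 q.1.1.2 q.1.2 q.2| ∂((PR G).prod PF) +
      ∫ q, |obUp h y g c α₁ β₁ L a₁ b₁ q.1.1.1 q.1.1.2 q.1.2 q.2| ∂((PR G).prod PF) +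
      ∫ q, |obJ h y g Λ L q.1.1.1 q.1.1.2 q.1.2 q.2| ∂((PR G).prod PF) := by
  have hi : Integrable (errV h y g c Λ L α₀ β₀ a₀ b₀ α₁ β₁ a₁ b₁) ((PR G).prod PF) :=
    (i1.add i2).add i3
  refine ⟨hi, ?_⟩
  have e1 := integral_add i1.abs i2.abs
  have e2 := integral_add (i1.abs.add i2.abs) i3.abs
  simp only [Pi.add_apply] at e2
  rw [← e1, ← e2]
  refine integral_mono hi.abs ((i1.abs.add i2.abs).add i3.abs) fun q => ?_
  show |_ + _ + _| ≤ |_| + |_| + |_|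
  exact (abs_add_le _ _).trans (add_le_add (abs_add_le _ _) le_rfl)

section

variable {r : ℝ} (hr : 0 < r) {G : Measure ℝ} [IsProbabilityMeasure G] (hG : G = gammaMeasure 1 r)

include hr hG

set_option maxHeartbeats 2000000 in
theorem big_fall_aux (h0 : G (Set.Iio 0) = 0) (h2 : Integrable (fun x : ℝ => x ^ 2) G)
    (hμ : IsTC G μ) {p : NF.Num} (c : Cf G F w0 c0 K p)
    (hl : c.Len) (hgeo : Geo c.h c.y (3 * c.g) (p.W / 500) c.lam c.L)
    (hgap : 1000000 * c.g ≤ p.W) (hB : c.Bf ≤ c.l)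
    (hρ : c.IsRho (dOv F c.y (3 * c.g)) (c.rho (dOv F c.y (3 * c.g))))
    (hgy : 96 * 10 ^ 9 * c.g ≤ c.y) (hhw : 8 * p.v' * (p.W * c.ε) ≤ c.l) :
    Integrable (fun q : M192.Row (ℝ × ℝ) =>
      c.h.sk (c.yB • F.b) (Icc (-(1 / 4 * p.W)) (1 / 4 * p.W)) univ c.L 0 (-(1 / 9 * p.W))
        q.1.1 q.1.2 q.2) (nuR G) ∧
    ∫ q, c.h.sk (c.yB • F.b) (Icc (-(1 / 4 * p.W)) (1 / 4 * p.W)) univ c.L 0 (-(1 / 9 * p.W))
        q.1.1 q.1.2 q.2 ∂(nuR G) ≤ 2300 * (p.n : ℝ) ^ 5 * c.l := by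
  have hW : 0 < p.W := zero_lt_one.trans_le hl.W
  have hmg := one_le_mg F
  have hcF := cF_nonneg F
  have hmgl := hl.mg_le
  have h1w := hl.one_le_w
  have hκ := hl.κ_le'
  have hκ0 := c.h.κ_nonneg
  have hsl := hl.sl_le
  have hsl0 := hl.sl_nonneg
  have hw0 := hl.w0_le
  have hwH := hl.wH_eq
  have hgp := hl.g_pos
  have hyp := hl.y_pos
  have hPe := c.P_eq
  have hle := c.l_eq
  have hrt := c.rt_pos
  have hWL := hl.WL
  have hL2 := hl.lam_eq
  have hlp := hl.l_pos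
  have hlam : c.lam = p.v' * p.W := rfl
  have hv' := hl.v'
  have hε := c.mean.nonneg
  have hP0 : 0 ≤ c.P := by linarith [hl.yA_ge]
  have hWε : 0 ≤ p.W * c.ε := mul_nonneg hW.le hε
  have hgbig : c.h.wH + 2 * mg F + cF F < 3 * c.g := by linarith
  -- the three means
  have m1 := MN750.obLo_mean' (g := 3 * c.g) (c := p.W / 500) (α := 0) (β := 1 / 1000 * p.W)
    (L := c.L) (s := 0) (s₁ := 0) h0 h2 c.mean hμ hgbig le_rfl (by linarith) (by linarith)
    (by linarith) (by linarith)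
  have m2 := MN750.obUp_mean' (y := c.y) (g := 3 * c.g) (c := p.W / 500) (α := -(61 / 500 * p.W))
    (β := -(59 / 500 * p.W)) (L := c.L) (s₂ := -(p.W / 8)) (s' := -(1 / 9 * p.W)) h0 h2 c.mean hμ
    hgbig (by linarith) (by linarith) (by linarith) (by linarith) (by linarith)
  have m3 := MN750.obJ_mean' (y := c.y) (g := 3 * c.g) (L := c.L) (Λ := c.lam) h0 h2 c.mean hμ
    (by linarith) hyp.le (by linarith) (by linarith) (by linarith)
  -- numerics
  have n0 : c.y ≤ 2 * c.P := by linarith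
  have habs : |p.W / 500| = p.W / 500 := abs_of_pos (by linarith)
  have hwid : ∀ t : ℝ, 1 / 1000 ≤ t → t ≤ 1 →
      2 * (3 * c.g) * rate G F (t * p.W) ≤ c.l := by
    intro t ht ht1
    have ht0 : 0 < t := by linarith
    have hmul : 1 / 1000 * p.W ≤ t * p.W := mul_le_mul_of_nonneg_right ht hW.le
    have h1 := rate_near' c hl.toStd ht0 ht1 (by linarith)
    have h3 : 8 / t ^ 3 ≤ 8 * 10 ^ 9 := by
      rw [div_le_iff₀ (by positivity)]
      have h4 : (1 / 1000 : ℝ) ^ 3 ≤ t ^ 3 := pow_le_pow_left₀ (by norm_num) ht 3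
      norm_num at h4 ⊢
      linarith
    have h4 : rate G F (t * p.W) ≤ 8 * 10 ^ 9 * c.rt :=
      h1.trans (mul_le_mul_of_nonneg_right h3 hrt.le)
    calc 2 * (3 * c.g) * rate G F (t * p.W) ≤ 2 * (3 * c.g) * (8 * 10 ^ 9 * c.rt) :=
          mul_le_mul_of_nonneg_left h4 (by linarith)
      _ = (48 * 10 ^ 9 * c.g) * c.rt := by ring
      _ ≤ c.P * c.rt := by
          refine mul_le_mul_of_nonneg_right ?_ hrt.le
          linarith
      _ = c.l := hle.symm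
  have hhw' : ∀ X : ℝ, X ≤ 8 * (p.v' * p.W) → X * c.ε ≤ c.l := by
    intro X hX
    calc X * c.ε ≤ 8 * (p.v' * p.W) * c.ε := mul_le_mul_of_nonneg_right hX hε
      _ = 8 * p.v' * (p.W * c.ε) := by ring
      _ ≤ c.l := hhw
  have b1 : ∫ q, |obLo c.h (3 * c.g) (p.W / 500) 0 (1 / 1000 * p.W) c.L 0 0
      q.1.1.1 q.1.1.2 q.1.2 q.2| ∂((PR G).prod PF) ≤ 2 * c.l := by
    refine m1.2.trans ?_
    rw [habs, sub_zero]
    have h5 := hwid (1 / 1000) le_rfl (by norm_num)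
    have h6 := hhw' (2 * c.L + 1 / 1000 * p.W + c.h.κ + 1 + p.W / 500 + cF F) (by linarith)
    linarith
  have b2 : ∫ q, |obUp c.h c.y (3 * c.g) (p.W / 500) (-(61 / 500 * p.W)) (-(59 / 500 * p.W)) c.L
      (-(p.W / 8)) (-(1 / 9 * p.W)) q.1.1.1 q.1.1.2 q.1.2 q.2| ∂((PR G).prod PF) ≤ 2 * c.l := by
    refine m2.2.trans ?_
    have e1 : -(59 / 500 * p.W) - -(61 / 500 * p.W) = 1 / 250 * p.W := by ring
    rw [habs, e1]
    have h5 := hwid (1 / 250) (by norm_num) (by norm_num)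
    have h6 := hhw' (2 * c.L + 1 / 250 * p.W + c.h.κ + 1 + p.W / 500 + cF F) (by linarith)
    linarith
  have b3 : ∫ q, |obJ c.h c.y (3 * c.g) c.lam c.L q.1.1.1 q.1.1.2 q.1.2 q.2|
      ∂((PR G).prod PF) ≤ c.l := by
    refine m3.2.trans (le_trans ?_ hB)
    have k1 : rate G F (2 * c.lam) ≤ 2 * (2 * p.v') ^ (-0.03 : ℝ) * c.rt := by
      have := rate_far c hl.toStd (t := 2 * p.v') (by linarith)
      rw [hlam, ← mul_assoc]
      exact this
    have k2 : (2 * p.v') ^ (-0.03 : ℝ) ≤ p.v' ^ (-0.03 : ℝ) :=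
      Real.rpow_le_rpow_of_nonpos (by linarith) (by linarith) (by norm_num)
    have k3 : 0 ≤ p.v' ^ (-0.03 : ℝ) := Real.rpow_nonneg (by linarith) _
    have k4 : (1 : ℝ) ≤ 2 ^ (0.03 : ℝ) := Real.one_le_rpow (by norm_num) (by norm_num)
    have k5 : p.v' ^ (-0.03 : ℝ) ≤ 2 ^ (0.03 : ℝ) * p.v' ^ (-0.03 : ℝ) := by nlinarith
    have k6 : (c.y + 4 * (3 * c.g)) * rate G F (2 * c.lam) ≤
        6 * (2 ^ (0.03 : ℝ) * p.v' ^ (-0.03 : ℝ)) * c.l := by
      calc (c.y + 4 * (3 * c.g)) * rate G F (2 * c.lam)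
          ≤ (c.y + 4 * (3 * c.g)) * (2 * (2 * p.v') ^ (-0.03 : ℝ) * c.rt) :=
            mul_le_mul_of_nonneg_left k1 (by linarith)
        _ ≤ (3 * c.P) * (2 * (2 ^ (0.03 : ℝ) * p.v' ^ (-0.03 : ℝ)) * c.rt) := by
            refine mul_le_mul (by linarith) ?_ ?_ (by linarith)
            · exact mul_le_mul_of_nonneg_right (by linarith) hrt.le
            · have := Real.rpow_nonneg (by linarith : (0 : ℝ) ≤ 2 * p.v') (-0.03)
              positivity
        _ = _ := by rw [hle]; ring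
    have k7 : (2 * c.L + 2 * c.lam + c.h.κ + 1) * c.ε ≤ 12 * p.v' * (p.W * c.ε) := by
      calc (2 * c.L + 2 * c.lam + c.h.κ + 1) * c.ε ≤ 12 * (p.v' * p.W) * c.ε :=
            mul_le_mul_of_nonneg_right (by linarith) hε
        _ = _ := by ring
    unfold Cf.Bf
    linarith
  -- routes
  have ht : 0 ≤ (p.n : ℝ) ^ 5 * (c.y * c.rt) := by positivity
  have hin : 1 / 2 ≤ ((P0 G).prod (UU.prod UU)).real
      {q | ski c.h c.y (Set.Icc (-(7 / 32 * p.W)) (7 / 32 * p.W)) c.L 0 (-(p.W / 8)) q ≤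
        (p.n : ℝ) ^ 5 * (c.y * c.rt)} := c.q_le
  have hbe : c.h.wH + 2 * mg F < c.y + 2 * (3 * c.g) := by linarith [hl.g_le]
  have ey1 : (-(1 / 4 * p.W) + c.h.κ) - c.h.κ = -(1 / 4 * p.W) := by ring
  have ey2 : (1 / 4 * p.W - c.h.κ) + c.h.κ = 1 / 4 * p.W := by ring
  have hlm : |p.W / 500| = p.W / 500 := habs
  have r0 : ∀ η, ‖η‖ ≤ 1 → Rt c.h (offv F (3 * c.g) (p.W / 500) η)
      (Set.Icc 0 (1 / 1000 * p.W)) 0 0 :=
    rt_lo (σ₁ := p.W / 2000) (σ₂ := p.W / 2000) hgbig (by linarith) (by linarith) (by linarith)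
      (by linarith) (by linarith) (by linarith)
  have r2 : ∀ η, ‖η‖ ≤ 1 → Rt c.h
      (Hwy.dU (offv F (3 * c.g) (p.W / 500) η) (c.y • F.b) (dOv F c.y (3 * c.g)))
      (Iup F c.y (3 * c.g) (p.W / 500) (-(61 / 500 * p.W)) (-(59 / 500 * p.W)) η)
      (-(p.W / 8)) (-(1 / 9 * p.W)) :=
    rt_up (σ₁ := -(60 / 500 * p.W)) (σ₂ := -(60 / 500 * p.W)) hgbig (by linarith) (by linarith)
      (by linarith) (by linarith) (by linarith) (by linarith)
  have ri : Rt c.h (c.y • F.b) (Set.Icc (-(7 / 32 * p.W)) (7 / 32 * p.W)) 0 (-(p.W / 8)) :=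
    rt_inn (σ₁ := p.W / 100) (σ₂ := -(p.W / 7)) (by linarith [hl.g_le]) (by linarith) (by linarith)
      (by linarith) (by linarith) (by linarith) (by linarith)
  have ro : Rt c.h (dOv F c.y (3 * c.g)) (Set.Icc ((-(1 / 4 * p.W) + c.h.κ) - c.h.κ)
      ((1 / 4 * p.W - c.h.κ) + c.h.κ)) 0 (-(1 / 9 * p.W)) := by
    rw [ey1, ey2]
    refine rt_out (σ₁ := p.W / 100) (σ₂ := -(p.W / 8)) hbe (by linarith) (by linarith)
      (Icc_subset_Icc ?_ ?_)
    · rw [min_eq_right (by linarith)]; linarith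
    · rw [max_eq_left (by linarith)]; linarith
  have rJ : Rt c.h (dOv F c.y (3 * c.g)) (Jw c.lam) (-c.L) c.L :=
    rt_gauge_out hbe (by linarith) (by linarith)
  obtain ⟨er1, er2⟩ := err_le (Λ := c.lam) m1.1 m2.1 m3.1
  have em : Measurable (errV c.h c.y (3 * c.g) (p.W / 500) c.lam c.L 0 (1 / 1000 * p.W) 0 0
      (-(61 / 500 * p.W)) (-(59 / 500 * p.W)) (-(p.W / 8)) (-(1 / 9 * p.W))) :=
    ((MN750.meas_obLo _ _ _ _ _ _ _ _).add (MN750.meas_obUp _ _ _ _ _ _ _ _ _)).add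
      (MN750.meas_obJ _ _ _ _ _)
  have key := core hr hG h0 hgeo (α := -(1 / 4 * p.W) + c.h.κ) (β := 1 / 4 * p.W - c.h.κ)
    (σ := 0) (σ' := -(p.W / 8)) (αi := -(7 / 32 * p.W)) (βi := 7 / 32 * p.W)
    (s := 0) (s' := -(1 / 9 * p.W)) (by linarith) (by linarith)
    (α₀ := 0) (β₀ := 1 / 1000 * p.W) (a₀ := 0) (b₀ := 0) (α₁ := -(61 / 500 * p.W))
    (β₁ := -(59 / 500 * p.W)) (a₁ := -(p.W / 8)) (b₁ := -(1 / 9 * p.W))
    (by linarith) (by linarith) le_rfl le_rfl (by linarith) (by linarith) le_rfl le_rfl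
    (by linarith) (by linarith) r0 r2 ri ro rJ hρ.meas hρ.glue hρ.int ht hin em er1
  rw [ey1, ey2] at key
  have hn5 : (1 : ℝ) ≤ (p.n : ℝ) ^ 5 := one_le_pow₀ (by exact_mod_cast hl.n)
  have hyB : dOv F c.y (3 * c.g) = c.yB • F.b := Cf.dOB c
  have e9 : (fun q : M192.Row (ℝ × ℝ) =>
      c.h.sk (c.yB • F.b) (Icc (-(1 / 4 * p.W)) (1 / 4 * p.W)) univ c.L 0 (-(1 / 9 * p.W))
        q.1.1 q.1.2 q.2) = sko c.h c.y (3 * c.g) (Icc (-(1 / 4 * p.W)) (1 / 4 * p.W)) c.L 0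
          (-(1 / 9 * p.W)) := by
    funext q
    rw [← hyB]
    rfl
  refine ⟨?_, ?_⟩
  · rw [e9]; exact key.1
  · have k1 : ∫ q, c.h.sk (c.yB • F.b) (Icc (-(1 / 4 * p.W)) (1 / 4 * p.W)) univ c.L 0
        (-(1 / 9 * p.W)) q.1.1 q.1.2 q.2 ∂(nuR G) =
        ∫ q, sko c.h c.y (3 * c.g) (Icc (-(1 / 4 * p.W)) (1 / 4 * p.W)) c.L 0
          (-(1 / 9 * p.W)) q ∂((P0 G).prod (UU.prod UU)) := by
      rw [e9]; rfl
    rw [k1]
    refine key.2.trans ?_
    have k2 : ∫ p, |V.hkR c.h (dOv F c.y (3 * c.g)) univ (-c.L) c.L p -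
        c.rho (dOv F c.y (3 * c.g)) p| ∂((P0 G).prod (UU.prod UU)) ≤ 3 * c.l :=
      hρ.mean.trans (by linarith)
    have k3 := er2.trans (add_le_add (add_le_add b1 b2) b3)
    have k4 : 10 * ((p.n : ℝ) ^ 5 * (c.y * c.rt)) ≤ 20 * (p.n : ℝ) ^ 5 * c.l := by
      have h5 : c.y * c.rt ≤ 2 * c.l := by
        rw [hle, ← mul_assoc]
        exact mul_le_mul_of_nonneg_right n0 hrt.le
      have h6 := mul_le_mul_of_nonneg_left h5 (by positivity : (0 : ℝ) ≤ (p.n : ℝ) ^ 5)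
      linarith
    have k5 : c.l ≤ (p.n : ℝ) ^ 5 * c.l := le_mul_of_one_le_left hlp.le hn5
    linarith

/-- **(F1)** : the mean of the fall `0 → - W / 9` (half width `W / 4`) of a B-row is at most
`2300 n ^ 5 l` -/
theorem big_fall (h0 : G (Set.Iio 0) = 0) (h2 : Integrable (fun x : ℝ => x ^ 2) G)
    (hμ : IsTC G μ) (F : FlatData μ) {w0 c0 K : ℝ} (hc0 : 0 < c0) :
    Ev fun p => ∀ c : Cf G F w0 c0 K p,
      Integrable (fun q : M192.Row (ℝ × ℝ) =>
        c.h.sk (c.yB • F.b) (Icc (-(1 / 4 * p.W)) (1 / 4 * p.W)) univ c.L 0 (-(1 / 9 * p.W))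
          q.1.1 q.1.2 q.2) (nuR G) ∧
      ∫ q, c.h.sk (c.yB • F.b) (Icc (-(1 / 4 * p.W)) (1 / 4 * p.W)) univ c.L 0 (-(1 / 9 * p.W))
          q.1.1 q.1.2 q.2 ∂(nuR G) ≤ 2300 * (p.n : ℝ) ^ 5 * c.l := by
  have a1 := ev_lens (G := G) (F := F) (w0 := w0) (c0 := c0) (K := K)
  have a2 := NF.ev_geo (G := G) (F := F) (w0 := w0) (c0 := c0) (K := K) fun _ _ _ _ => 1
  have a3 := gap_le fun _ _ _ _ _ => 1000000
  have a4 := Bf_small (G := G) (F := F) (w0 := w0) (K := K) hc0 fun _ _ _ _ => 1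
  have a5 := rho_spec (F := F) (w0 := w0) (c0 := c0) (K := K) h0 h2 hμ
  have a6 := le_y (G := G) (F := F) (w0 := w0) (c0 := c0) (K := K)
    fun _ _ _ _ _ δ' _ => 96 * 10 ^ 9 * δ'
  have a7 := highway_small (G := G) (F := F) (w0 := w0) (K := K) hc0
    fun _ _ _ _ v' _ _ => 8 * v'
  refine ((((((a1.and a2).and a3).and a4).and a5).and a6).and a7).mono ?_
  rintro p ⟨⟨⟨⟨⟨⟨a1, a2⟩, a3⟩, a4⟩, a5⟩, a6⟩, a7⟩ c
  have hl := a1 c
  have hW : 0 < p.W := zero_lt_one.trans_le hl.W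
  have hB := Cf.htB hl.toC
  refine big_fall_aux hr hG h0 h2 hμ c hl (a2 c _ _ hB (p.W / 500) ?_) ?_ ?_ (a5 c _ _ hB) ?_
    (a7 c)
  · rw [abs_of_pos (by linarith), one_mul]; linarith
  · rw [c.g_eq]; exact a3
  · have := a4 c; linarith
  · rw [c.g_eq]
    have := a6 c
    linarith

end

/-- **(F1)** for the Gamma laws -/
theorem big_fall_gamma {r : ℝ} (hr : 0 < r) (hμ : IsTC (gammaMeasure 1 r) μ) (F : FlatData μ)
    {w0 c0 K : ℝ} (hc0 : 0 < c0) :
    Ev fun p => ∀ c : Cf (gammaMeasure 1 r) F w0 c0 K p,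
      Integrable (fun q : M192.Row (ℝ × ℝ) =>
        c.h.sk (c.yB • F.b) (Icc (-(1 / 4 * p.W)) (1 / 4 * p.W)) univ c.L 0 (-(1 / 9 * p.W))
          q.1.1 q.1.2 q.2) (nuR (gammaMeasure 1 r)) ∧
      ∫ q, c.h.sk (c.yB • F.b) (Icc (-(1 / 4 * p.W)) (1 / 4 * p.W)) univ c.L 0 (-(1 / 9 * p.W))
          q.1.1 q.1.2 q.2 ∂(nuR (gammaMeasure 1 r)) ≤ 2300 * (p.n : ℝ) ^ 5 * c.l := by
  have : IsProbabilityMeasure (gammaMeasure 1 r) := isProbabilityMeasure_gammaMeasure one_pos hr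
  exact big_fall hr rfl (gamma_Iio 1 r) (integrable_sq (gamma_Iio 1 r) (half_pos hr)
    (gamma_exp one_pos hr)) hμ F hc0

end Crest.Agent.R151.FALL
end

-- ▼ part R151/E685F6

/-!
# R151 / S0214 part 2, E685F6 — the field `strat` of the inputs for the exponential laws (helper685)
-/

set_option autoImplicit false

open MeasureTheory Filter ProbabilityTheory Topology Set
open Crest.ProbabilityR.FirstPassage

namespace Crest.Agent.R151.E685

open Crest.Agent.R151.K Crest.Agent.R151.Q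
open B710 (FlatData)
open NF (Ev Cf nuR)

variable {μ : ℝ × ℝ → ℝ} {r : ℝ}

/-- **`J684.Rec` for every configuration, unconditional** -/
theorem ev_rec_gamma (hr : 0 < r) (hμ : IsTC (gammaMeasure 1 r) μ) (F : FlatData μ) (w0 : ℝ)
    {c0 K : ℝ} (hc0 : 0 < c0) (hK : 0 ≤ K)
    (typ : ∀ {p : NF.Num}, Cf (gammaMeasure 1 r) F w0 c0 K p → Set (M192.Row (ℝ × ℝ))) :
    ∃ C0 : ℝ, Ev fun p => ∀ c : Cf (gammaMeasure 1 r) F w0 c0 K p, J684.Rec c (typ c) C0 := by
  have : IsProbabilityMeasure (gammaMeasure 1 r) := isProbabilityMeasure_gammaMeasure one_pos hr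
  have h0 := gamma_Iio 1 r
  have h2 := integrable_sq h0 (half_pos hr) (gamma_exp one_pos hr)
  exact ev_rec_of_big F w0 hc0 hK h0 (integrable_id_of_sq h2) h2 hμ
    ⟨2300, (FALL.big_fall_gamma hr hμ F hc0).mono fun p h c => (h c).2⟩ typ


end Crest.Agent.R151.E685
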