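import Crest.Agent.R151.M192h
import Crest.Agent.R151.A565k
import Crest.Agent.R151.R78P

-- ▼ part R151/M192i
section

/-!
# R151 / S0214 part 2, M192i — the paths of the stack, deterministic half (owner helper192)
-/

set_option autoImplicit false

open MeasureTheory Filter ProbabilityTheory Topology Set
open Crest.ProbabilityR.FirstPassage
open Crest.Agent.R151.K Crest.Agent.R151.Q

namespace Crest.Agent.R151.NF

open B710 (FlatData NormLike)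
open R78 (IsStrip IsStack IsOpen IsHwy Wk hull routes shp gp SUMY ptY hp hc exc Sep)
open M192 (frame isStrip pe frame_al frame_be)

variable {μ : ℝ × ℝ → ℝ}

namespace Cf

variable {G : Measure ℝ} {F : FlatData μ} {w0 c0 K : ℝ} {p : Num} {c : Cf G F w0 c0 K p}

/-- numerical facts used for the paths (`w` = width of the lane, `e'`, `n'` = precision and radius
of the shape theorem in the gaps) -/
structure PathNum (c : Cf G F w0 c0 K p) (w cψ e' : ℝ) (n' : ℕ) : Prop where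
  W_pos : 0 < p.W
  l_pos : 0 < c.l
  e_pos : 0 < p.e
  δ_pos : 0 < p.δ
  cψ_pos : 0 < cψ
  wH_lt : c.h.wH < c.yA
  gap : c.h.wH + 4 * cF F < 2 * c.g
  lab : w / 2 + cF F + c.h.κ + 1 ≤ (p.v - 1) * p.W
  win : p.v * p.W + c.h.κ + 2 * cF F + 1 ≤ c.L
  back : c.h.κ + 1 + 2 * cF F ≤ p.δ * p.W / 16
  ht : 2 * c.g + c.h.wH + 2 * cF F ≤ p.δ * p.W / 16
  htW : 2 * c.g + c.h.wH + 2 * cF F ≤ c.L
  rad : (‖F.a‖ + ‖F.b‖) * (2 * c.L) + 1 ≤ n'
  dev : 4 * (e' * n') ≤ cψ * (p.δ * p.W / 32)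
  cost : 4 * c.l ≤ p.e * (cψ * p.W)

section geometry

variable (c)

lemma al_th (k : ℕ) (ω : M192.St (ℝ × ℝ)) (z : ℤ × ℤ) :
    F.al (pos (c.th k ω) z) = F.al (pos ω.1.1 z) - F.al (ω.2 k).1 := c.al_pos_rq k _ _ z

lemma be_th (k : ℕ) (ω : M192.St (ℝ × ℝ)) (z : ℤ × ℤ) :
    F.be (pos (c.th k ω) z) = F.be (pos ω.1.1 z) - (k * c.P + c.g) - F.be (ω.2 k).1 :=
  c.be_pos_rq k _ _ z

lemma al_thU (k : ℕ) (ω : M192.St (ℝ × ℝ)) (z : ℤ × ℤ) :
    F.al (pos (c.th k ω - c.dA) z) = F.al (pos ω.1.1 z) - F.al (ω.2 k).1 := by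
  rw [dA, M192.al_pos_sub_b, al_th]

lemma be_thU (k : ℕ) (ω : M192.St (ℝ × ℝ)) (z : ℤ × ℤ) :
    F.be (pos (c.th k ω - c.dA) z) =
      F.be (pos ω.1.1 z) - (k * c.P + c.g) - F.be (ω.2 k).1 - c.yA := by
  rw [dA, M192.be_pos_sub_b, be_th]

lemma be_off (k : ℕ) (ω : M192.St (ℝ × ℝ)) :
    F.be (c.th k ω) = F.be ω.1.1 - (k * c.P + c.g) - F.be (ω.2 k).1 := by
  unfold th B
  rw [map_sub, map_sub, M192.be_smul_b]

lemma be_offU (k : ℕ) (ω : M192.St (ℝ × ℝ)) :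
    F.be (c.th k ω - c.dA) = F.be ω.1.1 - (k * c.P + c.g) - F.be (ω.2 k).1 - c.yA := by
  rw [map_sub, be_off, dA, M192.be_smul_b]

/-- height of the lower highway of row `k` -/
lemma be_Lk (k : ℕ) (ω : M192.St (ℝ × ℝ)) (i : ℤ) :
    |F.be (pos ω.1.1 (c.Lk k ω i)) - (k * c.P + c.g) - F.be (ω.2 k).1| ≤ c.h.wH / 2 := by
  have := c.h.strip (ω.2 k).2.1 (c.th k ω) ω.1.2 i
  rw [be_th] at this
  exact this

lemma be_Uk (k : ℕ) (ω : M192.St (ℝ × ℝ)) (i : ℤ) :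
    |F.be (pos ω.1.1 (c.Uk k ω i)) - (k * c.P + c.g) - F.be (ω.2 k).1 - c.yA| ≤ c.h.wH / 2 := by
  have := c.h.strip (ω.2 k).2.2 (c.th k ω - c.dA) ω.1.2 i
  rw [be_thU] at this
  exact this

lemma hwyL (k : ℕ) (ω : M192.St (ℝ × ℝ)) : IsHwy (c.Lk k ω) := c.h.isHwy _ _ _

lemma hwyU (k : ℕ) (ω : M192.St (ℝ × ℝ)) : IsHwy (c.Uk k ω) := c.h.isHwy _ _ _

end geometry

lemma abs_be_nr (F : FlatData μ) (θ : ℝ × ℝ) : |F.be (pos θ (nr θ))| ≤ cF F :=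
  abs_be_le' F ((norm_pos_nr' θ).trans (by norm_num))

lemma abs_al_nr (F : FlatData μ) (θ : ℝ × ℝ) : |F.al (pos θ (nr θ))| ≤ cF F :=
  abs_al_le' F ((norm_pos_nr' θ).trans (by norm_num))

variable {w cψ e' : ℝ} {n' : ℕ} (hP : c.PathNum w cψ e' n')

/-- jitters in the unit square -/
def Jit (ω : M192.St (ℝ × ℝ)) : Prop := ∀ k, (ω.2 k).1 ∈ Ico (0 : ℝ) 1 ×ˢ Ico (0 : ℝ) 1

lemma Jit.al {ω : M192.St (ℝ × ℝ)} (h : Jit ω) (F : FlatData μ) (k : ℕ) :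
    |F.al (ω.2 k).1| ≤ cF F := abs_al_le' F (norm_jitter (h k))

lemma Jit.be {ω : M192.St (ℝ × ℝ)} (h : Jit ω) (F : FlatData μ) (k : ℕ) :
    |F.be (ω.2 k).1| ≤ cF F := abs_be_le' F (norm_jitter (h k))

/-- end point of the walk -/
noncomputable def topv (c : Cf G F w0 c0 K p) (N : ℕ) (ω : M192.St (ℝ × ℝ)) : ℤ × ℤ :=
  nr (ω.1.1 - (((N : ℝ) + 1) * c.P) • F.b)

lemma be_topv (c : Cf G F w0 c0 K p) (N : ℕ) (ω : M192.St (ℝ × ℝ)) :
    |F.be (pos ω.1.1 (c.topv N ω)) - ((N : ℝ) + 1) * c.P| ≤ cF F := by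
  have := abs_be_nr F (ω.1.1 - (((N : ℝ) + 1) * c.P) • F.b)
  rw [M192.be_pos_sub_b] at this
  exact this

lemma al_topv (c : Cf G F w0 c0 K p) (N : ℕ) (ω : M192.St (ℝ × ℝ)) :
    |F.al (pos ω.1.1 (c.topv N ω))| ≤ cF F := by
  have := abs_al_nr F (ω.1.1 - (((N : ℝ) + 1) * c.P) • F.b)
  rw [M192.al_pos_sub_b] at this
  exact this

include hP in
lemma PathNum.P_pos : 0 < c.P := by
  have h1 := hP.wH_lt
  have h2 := hP.gap
  have h3 := c.h.wH_nonneg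
  have h4 := cF_nonneg F
  have : c.P = c.yA + 2 * c.g := rfl
  rw [this]; linarith

include hP in
/-- the rows form a stack crossed by the walks `nr ξ → topv N` -/
theorem PathNum.stack {ω : M192.St (ℝ × ℝ)} (hj : Jit ω) (N : ℕ) :
    IsStack N (fun k => c.Lk k ω) (fun k => c.Uk k ω) {nr ω.1.1} {c.topv N ω} := by
  have hPP := hP.P_pos
  have hyA := hP.wH_lt
  have hg := hP.gap
  have hw := c.h.wH_nonneg
  have hcF := cF_nonneg F
  have hPe : c.P = c.yA + 2 * c.g := rfl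
  have hb : ∀ k, |F.be (ω.2 k).1| ≤ cF F := hj.be F
  refine R78.isStack_of_strips (F := frame F)
    (loL := fun k => -(c.h.wH / 2) - F.be (c.th k ω)) (hiL := fun k => c.h.wH / 2 - F.be (c.th k ω))
    (loU := fun k => -(c.h.wH / 2) - F.be (c.th k ω - c.dA))
    (hiU := fun k => c.h.wH / 2 - F.be (c.th k ω - c.dA))
    (fun k _ => isStrip c.h _ _ _) (fun k _ => isStrip c.h _ _ _) ?_ ?_ ?_ ?_ ?_ ?_
  · intro k _
    simp only [be_off, be_offU]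
    linarith
  · intro k _
    simp only [be_off, be_offU]
    have h1 := abs_le.1 (hb k)
    have h2 := abs_le.1 (hb (k + 1))
    push_cast
    nlinarith [h1.1, h1.2, h2.1, h2.2]
  · intro k hk
    simp only [be_offU]
    have h1 := abs_le.1 (hb k)
    have h2 := abs_le.1 (hb N)
    have h3 : ((k : ℝ) + 1) ≤ N := by exact_mod_cast hk
    have h4 : ((k : ℝ) + 1) * c.P ≤ N * c.P := mul_le_mul_of_nonneg_right h3 hPP.le
    nlinarith [h1.1, h1.2, h2.1, h2.2]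
  · rintro _ rfl
    simp only [be_off]
    rw [frame_be]
    have h1 := abs_le.1 (hb 0)
    have h2 := abs_le.1 (abs_be_nr F ω.1.1)
    rw [M192.be_pos] at h2
    push_cast
    nlinarith [h1.1, h1.2, h2.1, h2.2]
  · rintro _ rfl
    simp only [be_offU]
    rw [frame_be]
    have h1 := abs_le.1 (hb 0)
    have h2 := abs_le.1 (abs_be_nr F ω.1.1)
    rw [M192.be_pos] at h2
    push_cast
    nlinarith [h1.1, h1.2, h2.1, h2.2]
  · rintro _ rfl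
    simp only [be_offU]
    rw [frame_be]
    have h1 := abs_le.1 (hb N)
    have h2 := abs_le.1 (c.be_topv N ω)
    rw [M192.be_pos] at h2
    nlinarith [h1.1, h1.2, h2.1, h2.2]

end Cf

end Crest.Agent.R151.NF
end

-- ▼ part R151/M192j

/-!
# R151 / S0214 part 2, M192j — the paths of the stack, deterministic theorem (owner helper192)
-/

set_option autoImplicit false

open MeasureTheory Filter ProbabilityTheory Topology Set
open Crest.ProbabilityR.FirstPassage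
open Crest.Agent.R151.K Crest.Agent.R151.Q

namespace Crest.Agent.R151.NF

open B710 (FlatData NormLike)
open R78 (IsStrip IsStack IsOpen IsHwy Wk hull routes shp gp SUMY ptY hp hc exc Sep hc_mono)
open M192 (frame isStrip pe frame_al frame_be)

variable {μ : ℝ × ℝ → ℝ}

lemma phi_eq (F : FlatData μ) (ξ : ℝ × ℝ) (z : ℤ × ℤ) :
    phi F z = F.al (pos ξ z) + F.be (pos ξ z) - F.al ξ - F.be ξ := by
  unfold phi
  rw [F.ρ_eq, M192.al_pos, M192.be_pos]; ring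

namespace Cf

variable {G : Measure ℝ} {F : FlatData μ} {w0 c0 K : ℝ} {p : Num} {c : Cf G F w0 c0 K p}
variable {w cψ e' : ℝ} {n' : ℕ} (hP : c.PathNum w cψ e' n')

section labels

variable (c)

lemma jL_le {s : ℝ} {k : ℕ} {ω : M192.St (ℝ × ℝ)} {i : ℤ}
    (h : s ≤ F.al (pos ω.1.1 (c.Lk k ω i)) - F.al (ω.2 k).1) : c.jL s k ω ≤ i := by
  rw [← c.al_th] at h
  exact c.h.ix_le h

lemma jU_le {s : ℝ} {k : ℕ} {ω : M192.St (ℝ × ℝ)} {i : ℤ}
    (h : s ≤ F.al (pos ω.1.1 (c.Uk k ω i)) - F.al (ω.2 k).1) : c.jU s k ω ≤ i := by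
  rw [← c.al_thU] at h
  exact c.h.ix_le h

lemma lt_jL {s : ℝ} {k : ℕ} {ω : M192.St (ℝ × ℝ)} {i : ℤ}
    (h : F.al (pos ω.1.1 (c.Lk k ω i)) - F.al (ω.2 k).1 < s - c.h.κ) : i < c.jL s k ω := by
  rw [← c.al_th] at h
  exact c.h.lt_ix_of_al_lt h

lemma lt_jU {s : ℝ} {k : ℕ} {ω : M192.St (ℝ × ℝ)} {i : ℤ}
    (h : F.al (pos ω.1.1 (c.Uk k ω i)) - F.al (ω.2 k).1 < s - c.h.κ) : i < c.jU s k ω := by
  rw [← c.al_thU] at h
  exact c.h.lt_ix_of_al_lt h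

lemma al_jL_ge (s : ℝ) (k : ℕ) (ω : M192.St (ℝ × ℝ)) :
    s ≤ F.al (pos ω.1.1 (c.Lk k ω (c.jL s k ω))) - F.al (ω.2 k).1 := by
  rw [← c.al_th]
  exact c.h.ix_spec _ _ _ _

lemma al_jU_ge (s : ℝ) (k : ℕ) (ω : M192.St (ℝ × ℝ)) :
    s ≤ F.al (pos ω.1.1 (c.Uk k ω (c.jU s k ω))) - F.al (ω.2 k).1 := by
  rw [← c.al_thU]
  exact c.h.ix_spec _ _ _ _

lemma al_jL_le (s : ℝ) (k : ℕ) (ω : M192.St (ℝ × ℝ)) :
    F.al (pos ω.1.1 (c.Lk k ω (c.jL s k ω))) - F.al (ω.2 k).1 ≤ s + cF F := by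
  rw [← c.al_th]
  exact c.h.al_x_le _ _ _ _

lemma al_jU_le (s : ℝ) (k : ℕ) (ω : M192.St (ℝ × ℝ)) :
    F.al (pos ω.1.1 (c.Uk k ω (c.jU s k ω))) - F.al (ω.2 k).1 ≤ s + cF F := by
  rw [← c.al_thU]
  exact c.h.al_x_le _ _ _ _

end labels

/-- the kernel of row `k` at the labels of two positions is at most the sharp cost -/
lemma K_le_shp {T : Set (M192.Row (ℝ × ℝ))} {ω : M192.St (ℝ × ℝ)} (ht : Nn ω.1.2) (k : ℕ)
    (hl : 0 < c.l) {z w : ℤ} {s r : ℝ}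
    (hs : s * p.W ≤ F.al (pos ω.1.1 (c.Lk k ω z)) - F.al (ω.2 k).1)
    (hr : F.al (pos ω.1.1 (c.Uk k ω w)) - F.al (ω.2 k).1 < r * p.W - c.h.κ)
    (hne : (routes ω.1.2 (c.Lk k ω) (c.Uk k ω) univ z w).Nonempty) :
    (c.rows T k).K s r ω ≤ shp ω.1.2 (c.Lk k ω) (c.Uk k ω) univ (c.jL (-c.L) k ω)
      (c.jU c.L k ω) univ z w / c.l := by
  have hpe : pe ω.1.2 = ω.1.2 := M192.pe_of_nn ht
  show c.h.sk (c.yA • F.b) univ univ c.L (s * p.W) (r * p.W) (c.th k ω) (pe ω.1.2) (ω.2 k).2 / c.l ≤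
    _
  rw [hpe]
  refine div_le_div_of_nonneg_right ?_ hl.le
  have hu : rg F univ (c.th k ω) = univ := by ext; simp [rg]
  have h1 : hull ω.1.2 (c.Lk k ω) (c.Uk k ω) univ (c.jL (s * p.W) k ω) (c.jU (r * p.W) k ω) ≤
      hull ω.1.2 (c.Lk k ω) (c.Uk k ω) univ z w :=
    R78.hull_mono (bddBelow_routes ht _ _ _ _ _) hne subset_rfl (c.jL_le hs) (c.lt_jU hr).le
  have h2 : c.h.sk (c.yA • F.b) univ univ c.L (s * p.W) (r * p.W) (c.th k ω) ω.1.2 (ω.2 k).2 =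
      hull ω.1.2 (c.Lk k ω) (c.Uk k ω) univ (c.jL (s * p.W) k ω) (c.jU (r * p.W) k ω) -
      hull ω.1.2 (c.Lk k ω) (c.Uk k ω) univ (c.jL (-c.L) k ω) (c.jU c.L k ω) := by
    unfold Hwy.sk Hwy.hk
    rw [hu]
    rfl
  rw [h2]
  unfold shp
  linarith

include hP in
/-- **linear cost of a backward move in the gap between row `k` and row `k + 1`** -/
lemma PathNum.gap_ge (hμ : NormLike μ)
    (hpsi : ∀ (v : ℝ × ℝ) (A : ℝ), 0 ≤ A → F.al v ≤ -A → |F.be v| ≤ A → cψ * A ≤ F.ψ v)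
    {ω : M192.St (ℝ × ℝ)} (hj : Jit ω) (ht : Nn ω.1.2) (k : ℕ) {i z : ℤ}
    (hi : |F.al (pos ω.1.1 (c.Uk k ω i))| ≤ w / 2) (hz : |F.al (pos ω.1.1 (c.Lk (k + 1) ω z))| ≤ w / 2)
    (hD : devB μ n' (c.th k ω - c.dA) ω.1.2 ≤ e' * n') {s r : ℝ}
    (hs : r * p.W = F.al (pos ω.1.1 (c.Lk (k + 1) ω z)) - F.al (ω.2 (k + 1)).1)
    (hr : s * p.W = F.al (pos ω.1.1 (c.Uk k ω i)) - F.al (ω.2 k).1 + c.h.κ + 1)
    (hsr : p.δ / 8 < s - r) :
    (s - r) / p.e ≤ gp ω.1.2 (c.Uk k ω) (c.Lk (k + 1) ω) (c.jU (-c.L) k ω) (c.jL c.L (k + 1) ω)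
      i z / c.l := by
  have hW := hP.W_pos
  have hl := hP.l_pos
  have hcF := cF_nonneg F
  have hκ := c.h.κ_nonneg
  have hg := hP.gap
  have hw := c.h.wH_nonneg
  have hPP := hP.P_pos
  have hyA := hP.wH_lt
  have hPe : c.P = c.yA + 2 * c.g := rfl
  have hbk := hP.back
  have hht := hP.ht
  have hhtW := hP.htW
  have hlab := hP.lab
  have hwin := hP.win
  have ha1 := abs_le.1 (hj.al F k)
  have ha2 := abs_le.1 (hj.al F (k + 1))
  have hb1 := abs_le.1 (hj.be F k)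
  have hb2 := abs_le.1 (hj.be F (k + 1))
  have hi' := abs_le.1 hi
  have hz' := abs_le.1 hz
  have hk1 : ((k : ℝ) + 1) * c.P = k * c.P + c.P := by ring
  -- positions
  have eal : ∀ a b : ℤ × ℤ, F.al (toR (a - b)) = F.al (pos ω.1.1 a) - F.al (pos ω.1.1 b) := by
    intro a b
    rw [← pos_sub_pos ω.1.1 b a, map_sub]
  have ebe : ∀ a b : ℤ × ℤ, F.be (toR (a - b)) = F.be (pos ω.1.1 a) - F.be (pos ω.1.1 b) := by
    intro a b
    rw [← pos_sub_pos ω.1.1 b a, map_sub]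
  have hUi := abs_le.1 (c.be_Uk k ω i)
  have hLz := abs_le.1 (c.be_Lk (k + 1) ω z)
  have hUa := abs_le.1 (c.be_Uk k ω (c.jU (-c.L) k ω))
  have hLb := abs_le.1 (c.be_Lk (k + 1) ω (c.jL c.L (k + 1) ω))
  push_cast at hLz hLb
  rw [hk1] at hLz hLb
  have aUa1 := c.al_jU_ge (-c.L) k ω
  have aUa2 := c.al_jU_le (-c.L) k ω
  have aLb1 := c.al_jL_ge c.L (k + 1) ω
  have aLb2 := c.al_jL_le c.L (k + 1) ω
  have hδW0 : 0 < p.δ * p.W := mul_pos hP.δ_pos hW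
  have hδW : p.δ * p.W / 8 < (s - r) * p.W := by
    have := mul_lt_mul_of_pos_right hsr hW
    linarith
  have hvW : p.v * p.W = (p.v - 1) * p.W + p.W := by ring
  obtain ⟨D, hD'⟩ : ∃ D, D = (s - r) * p.W := ⟨_, rfl⟩
  have hsrW : D = s * p.W - r * p.W := by rw [hD']; ring
  -- the norm bound
  have hn : ∀ x : ℤ × ℤ, |F.al (pos ω.1.1 x) - F.al (ω.2 k).1| ≤ 2 * c.L →
      |F.be (pos ω.1.1 x) - (k * c.P + c.g) - F.be (ω.2 k).1 - c.yA| ≤ 2 * c.L →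
      ‖pos (c.th k ω - c.dA) x‖ ≤ (‖F.a‖ + ‖F.b‖) * (2 * c.L) := by
    intro x h1 h2
    rw [← al_thU] at h1
    rw [← be_thU] at h2
    refine (norm_le_coord F _).trans ?_
    have h3 := mul_le_mul_of_nonneg_right h1 (norm_nonneg F.a)
    have h4 := mul_le_mul_of_nonneg_right h2 (norm_nonneg F.b)
    linarith
  have q1 : c.jU (-c.L) k ω ≤ i := c.jU_le (by linarith [hi'.1, ha1.2])
  have q2 : z ≤ c.jL c.L (k + 1) ω := (c.lt_jL (by linarith [hz'.2, ha2.1])).le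
  have hDD : p.δ * p.W / 8 < D := by rw [hD']; exact hδW
  have q3 : 0 ≤ D / 2 := by linarith
  have q4 : F.al (toR (c.Lk (k + 1) ω z - c.Uk k ω i)) ≤ -(D / 2) := by
    rw [eal]; linarith
  have q5 : |F.be (toR (c.Lk (k + 1) ω z - c.Uk k ω i))| ≤ D / 2 := by
    rw [ebe, abs_le]
    constructor <;> linarith [hUi.1, hUi.2, hLz.1, hLz.2, hb1.1, hb1.2, hb2.1, hb2.2]
  have q6 : 0 ≤ F.al (toR (c.Lk (k + 1) ω (c.jL c.L (k + 1) ω) - c.Uk k ω (c.jU (-c.L) k ω))) := by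
    rw [eal]; linarith
  have q7 : 0 ≤ F.be (toR (c.Lk (k + 1) ω (c.jL c.L (k + 1) ω) - c.Uk k ω (c.jU (-c.L) k ω))) := by
    rw [ebe]; linarith [hUa.1, hUa.2, hLb.1, hLb.2]
  have b1 := hn (c.Uk k ω (c.jU (-c.L) k ω)) (by rw [abs_le]; constructor <;> linarith)
    (by rw [abs_le]; constructor <;> linarith [hUa.1, hUa.2])
  have b2 := hn (c.Uk k ω i) (by rw [abs_le]; constructor <;> linarith [hi'.1, hi'.2])
    (by rw [abs_le]; constructor <;> linarith [hUi.1, hUi.2])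
  have b3 := hn (c.Lk (k + 1) ω z) (by rw [abs_le]; constructor <;> linarith [hz'.1, hz'.2])
    (by rw [abs_le]; constructor <;> linarith [hLz.1, hLz.2])
  have b4 := hn (c.Lk (k + 1) ω (c.jL c.L (k + 1) ω)) (by rw [abs_le]; constructor <;> linarith)
    (by rw [abs_le]; constructor <;> linarith [hLb.1, hLb.2])
  have key := gp_ge (F := F) hpsi hμ ht (c.hwyU k ω) (c.hwyL (k + 1) ω) q1 q2 q3 q4 q5 q6 q7
    (θ := c.th k ω - c.dA) (N := n') (R := (‖F.a‖ + ‖F.b‖) * (2 * c.L)) hP.rad b1 b2 b3 b4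
  have hdev := hP.dev
  have hcost := hP.cost
  have he := hP.e_pos
  have hcψ := hP.cψ_pos
  clear q4 q5 q6 q7 b1 b2 b3 b4 hn eal ebe hUi hLz hUa hLb aUa1 aUa2 aLb1 aLb2 hi' hz' ha1 ha2
    hb1 hb2
  rw [div_le_div_iff₀ he hl]
  have h1 : cψ * (p.δ * p.W / 32) ≤ cψ * (D / 4) :=
    mul_le_mul_of_nonneg_left (by linarith) hcψ.le
  have h2 : cψ * (D / 4) ≤ gp ω.1.2 (c.Uk k ω) (c.Lk (k + 1) ω) (c.jU (-c.L) k ω)
      (c.jL c.L (k + 1) ω) i z := by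
    have h3 : cψ * (D / 2) = cψ * (D / 4) + cψ * (D / 4) := by ring
    linarith
  have hsr0 : 0 ≤ s - r := by
    have := hP.δ_pos
    linarith
  calc (s - r) * c.l ≤ (s - r) * (p.e * (cψ * p.W) / 4) :=
        mul_le_mul_of_nonneg_left (by linarith) hsr0
    _ = (cψ * (D / 4)) * p.e := by rw [hD']; ring
    _ ≤ _ := mul_le_mul_of_nonneg_right h2 he.le

end Cf

end Crest.Agent.R151.NF
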