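import Crest.Agent.R151.X684k
import Crest.Agent.R151.U750f
import Crest.Agent.R151.NF5
import Crest.Agent.R151.J684d
import Crest.Agent.R151.M192j
import Crest.Agent.R151.PA821a
import Crest.Agent.R151.M192l
import Crest.Agent.R151.M56d
import Crest.Agent.R151.R78L
import Crest.Agent.R151.M56a
import Crest.Agent.R151.A565k
import Crest.Agent.R151.C710j
import Crest.Agent.R151.K6
import Crest.Agent.R151.M192c
import Crest.Agent.R151.K8
import Crest.Agent.R151.NF2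
import Crest.Agent.R151.G338b
import Crest.Agent.R151.M56f

-- ▼ part R151/X684l
section

/-!
# R151, part 1 / NOCORNER (helper684), part l: the time constant is differentiable off the origin

`noCorner`, `differentiableAt_tc` (every law of S0213), `differentiableAt_gamma` (first half of
S0214) and `s0214_of_noFlat` (S0214 verbatim from NOFLAT).
-/

set_option autoImplicit false
set_option maxHeartbeats 400000

open MeasureTheory ProbabilityTheory Filter Topology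
open Crest.ProbabilityR.FirstPassage
open Crest.Agent.R151.K Crest.Agent.R151.M51

namespace Crest.Agent.R151.X

variable {G : Measure ℝ} [IsProbabilityMeasure G] {μ : ℝ × ℝ → ℝ}

theorem hub (G : Measure ℝ) [IsProbabilityMeasure G] (al be s a : ℝ)
    (H : U.Hyp G al be s a) : N.UB G s al be := U.ub H




/-- S0214 from NOFLAT -/
theorem s0214_of_noFlat
    (hnf : ∀ μ : ℝ × ℝ → ℝ, B710.IsTimeConstant 1 1 μ → B710.NormLike μ → B710.FlatData μ → False)
    (κ r : ℝ) (hκ : 0 < κ) (hr : 0 < r) (μ : ℝ × ℝ → ℝ)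
    (hμ : ∀ v : ℝ × ℝ, ∀ᵐ t ∂(iidLaw (ProbabilityTheory.gammaMeasure κ r)),
      Filter.Tendsto (fun s : ℝ => passageTime t (0, 0) (⌊s * v.1⌋, ⌊s * v.2⌋) / s)
        Filter.atTop (nhds (μ v))) :
    (∀ v : ℝ × ℝ, v ≠ 0 → DifferentiableAt ℝ μ v) ∧
      (κ = 1 → StrictConvex ℝ {v : ℝ × ℝ | μ v ≤ 1}) :=
  s0214_of (fun G _ => hub G) hnf κ r hκ hr μ hμ

end Crest.Agent.R151.X
end

-- ▼ part R151/Z214
section

/-!
# R151 / S0214 — final assembly: S0214 from the five inputs of NOFLAT (owners helper710, helper684)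
-/

set_option autoImplicit false

open MeasureTheory Filter ProbabilityTheory Topology
open Crest.ProbabilityR.FirstPassage
open Crest.Agent.R151.K Crest.Agent.R151.Q

namespace Crest.Agent.R151.Z214

open B710 (FlatData)
open NF

/-- what remains: the five inputs, for the exponential law -/
def AllInputs : Prop :=
  ∀ {μ : ℝ × ℝ → ℝ}, IsTC (gammaMeasure 1 1) μ → ∀ (F : FlatData μ) (w0 c0 K : ℝ),
      0 < c0 → 0 < K → ∃ typ : ∀ {p : NF.Num}, Cf (gammaMeasure 1 1) F w0 c0 K p →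
        Set (M192.Row (ℝ × ℝ)), Inputs5 (gammaMeasure 1 1) F w0 c0 K typ

/-- the inputs with `strat` replaced by the two recursions -/
theorem allInputs_of
    (hin : ∀ {μ : ℝ × ℝ → ℝ}, IsTC (gammaMeasure 1 1) μ → ∀ (F : FlatData μ) (w0 c0 K : ℝ),
      0 < c0 → 0 < K → Select (gammaMeasure 1 1) F w0 c0 K ∧
        ∃ typ : ∀ {p : NF.Num}, Cf (gammaMeasure 1 1) F w0 c0 K p → Set (M192.Row (ℝ × ℝ)),
        (∃ C0 : ℝ, 0 < C0 ∧ Ev fun p => ∀ c : Cf (gammaMeasure 1 1) F w0 c0 K p,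
          (c.rowA (typ c)).Law (nuR (gammaMeasure 1 1)) c.mB C0 p.n p.δ p.v p.e) ∧
        (∃ C0 : ℝ, 0 < C0 ∧ Ev fun p => ∀ c : Cf (gammaMeasure 1 1) F w0 c0 K p,
          (c.rowA (typ c)).Cheap (nuR (gammaMeasure 1 1)) C0 p.δ ∨
            (c.rowA (typ c)).Costly (nuR (gammaMeasure 1 1)) C0 p.δ p.v p.e) ∧
        (∃ C0 : ℝ, Ev fun p => ∀ c : Cf (gammaMeasure 1 1) F w0 c0 K p,
          J684.Rec c (typ c) C0) ∧
        (∃ C0 : ℝ, Ev fun p => ∀ c : Cf (gammaMeasure 1 1) F w0 c0 K p,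
          Nonempty (E191.Paths (c.rows (typ c)) c.PSt C0 0.97 p.δ p.v p.e))) : AllInputs := by
  intro μ hμ F w0 c0 K hc0 hK
  have : IsProbabilityMeasure (gammaMeasure 1 1) :=
    isProbabilityMeasure_gammaMeasure one_pos one_pos
  obtain ⟨hs, typ, hl, hd, ⟨C0, hr⟩, hp⟩ := hin hμ F w0 c0 K hc0 hK
  refine ⟨typ, hs, hl, hd, ⟨C0, ?_⟩, hp⟩
  exact J684.strat_of_rec (gamma_Iio 1 1) (integrable_sq (gamma_Iio 1 1) (half_pos one_pos)
    (gamma_exp one_pos one_pos)) hμ hc0 hr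

/-- **S0214 from the inputs** -/
theorem s0214_of (h : AllInputs) (κ r : ℝ) (hκ : 0 < κ) (hr : 0 < r) (μ : ℝ × ℝ → ℝ)
    (hμ : ∀ v : ℝ × ℝ, ∀ᵐ t ∂(iidLaw (ProbabilityTheory.gammaMeasure κ r)),
      Filter.Tendsto (fun s : ℝ => passageTime t (0, 0) (⌊s * v.1⌋, ⌊s * v.2⌋) / s)
        Filter.atTop (nhds (μ v))) :
    (∀ v : ℝ × ℝ, v ≠ 0 → DifferentiableAt ℝ μ v) ∧
      (κ = 1 → StrictConvex ℝ {v : ℝ × ℝ | μ v ≤ 1}) :=
  X.s0214_of_noFlat (noFlat_of h) κ r hκ hr μ hμ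

end Crest.Agent.R151.Z214
end

-- ▼ part R151/M192k
section

/-!
# R151 / S0214 part 2, M192k — the paths of the stack, deterministic theorem (owner helper192)
-/

set_option autoImplicit false

open MeasureTheory Filter ProbabilityTheory Topology Set
open Crest.ProbabilityR.FirstPassage
open Crest.Agent.R151.K Crest.Agent.R151.Q

namespace Crest.Agent.R151.NF

open B710 (FlatData NormLike)
open R78 (IsStrip IsStack IsOpen IsHwy Wk hull routes shp gp SUMY ptY hp hc exc Sep hc_mono)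
open M192 (frame isStrip pe frame_al frame_be)

variable {μ : ℝ × ℝ → ℝ}

namespace Cf

variable {G : Measure ℝ} {F : FlatData μ} {w0 c0 K : ℝ} {p : Num} {c : Cf G F w0 c0 K p}
variable {w cψ e' : ℝ} {n' : ℕ} (hP : c.PathNum w cψ e' n')

include hP in
/-- lower boundary term -/
lemma PathNum.bdry_lo {ω : M192.St (ℝ × ℝ)} (hj : Jit ω) (ht : Nn ω.1.2) {z : ℤ}
    (hz : z ≤ c.jL c.L 0 ω) :
    -(5 * cF F) - c.cstL 0 ω ≤ ptY ω.1.2 (phi F) (nr ω.1.1) (c.Lk 0 ω z) -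
      (hp ω.1.2 (phi F) (c.Lk 0 ω) z - hp ω.1.2 (phi F) (c.Lk 0 ω) (c.jL (-c.L) 0 ω)) := by
  have h0 := Crest.Agent.R151.K.pt_nonneg ht (nr ω.1.1) (c.Lk 0 ω z)
  have h1 : hc ω.1.2 (c.Lk 0 ω) z ≤ hc ω.1.2 (c.Lk 0 ω) (c.jL c.L 0 ω) := hc_mono ht _ hz
  have e : c.cstL 0 ω = hc ω.1.2 (c.Lk 0 ω) (c.jL c.L 0 ω) -
    hc ω.1.2 (c.Lk 0 ω) (c.jL (-c.L) 0 ω) := rfl
  have hcF := cF_nonneg F
  have h2 := c.al_jL_le (-c.L) 0 ω
  have h3 := abs_le.1 (c.be_Lk 0 ω (c.jL (-c.L) 0 ω))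
  have h4 := abs_le.1 (abs_be_nr F ω.1.1)
  have h5 := abs_le.1 (abs_al_nr F ω.1.1)
  have h6 := abs_le.1 (hj.al F 0)
  have h7 := abs_le.1 (hj.be F 0)
  have h8 := hP.htW
  have h9 := c.h.wH_nonneg
  have hg := hP.gap
  push_cast at h3
  have hphi : phi F (c.Lk 0 ω (c.jL (-c.L) 0 ω)) - phi F (nr ω.1.1) ≤ 5 * cF F := by
    rw [phi_eq F ω.1.1, phi_eq F ω.1.1]
    linarith [h3.1, h3.2]
  unfold ptY hp
  rw [e]
  linarith

include hP in
/-- upper boundary term -/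
lemma PathNum.bdry_hi {ω : M192.St (ℝ × ℝ)} (hj : Jit ω) (ht : Nn ω.1.2) (N : ℕ) {i : ℤ}
    (hi : c.jU (-c.L) N ω ≤ i) :
    -(4 * cF F) - c.cstU N ω ≤ ptY ω.1.2 (phi F) (c.Uk N ω i) (c.topv N ω) -
      (hp ω.1.2 (phi F) (c.Uk N ω) (c.jU c.L N ω) - hp ω.1.2 (phi F) (c.Uk N ω) i) := by
  have h0 := Crest.Agent.R151.K.pt_nonneg ht (c.Uk N ω i) (c.topv N ω)
  have h1 : hc ω.1.2 (c.Uk N ω) (c.jU (-c.L) N ω) ≤ hc ω.1.2 (c.Uk N ω) i := hc_mono ht _ hi
  have e : c.cstU N ω = hc ω.1.2 (c.Uk N ω) (c.jU c.L N ω) -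
    hc ω.1.2 (c.Uk N ω) (c.jU (-c.L) N ω) := rfl
  have hcF := cF_nonneg F
  have h2 := c.al_jU_ge c.L N ω
  have h3 := abs_le.1 (c.be_Uk N ω (c.jU c.L N ω))
  have h4 := abs_le.1 (c.be_topv N ω)
  have h5 := abs_le.1 (c.al_topv N ω)
  have h6 := abs_le.1 (hj.al F N)
  have h7 := abs_le.1 (hj.be F N)
  have h8 := hP.htW
  have h9 := c.h.wH_nonneg
  have hg := hP.gap
  have hPe : c.P = c.yA + 2 * c.g := rfl
  have hk1 : ((N : ℝ) + 1) * c.P = N * c.P + c.P := by ring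
  rw [hk1] at h4
  have hphi : -(4 * cF F) ≤ phi F (c.Uk N ω (c.jU c.L N ω)) - phi F (c.topv N ω) := by
    rw [phi_eq F ω.1.1, phi_eq F ω.1.1]
    linarith [h3.1, h3.2, h4.1, h4.2]
  unfold ptY hp
  rw [e]
  linarith

include hP in
/-- **The deterministic theorem of the paths.** -/
theorem PathNum.det (hμ : NormLike μ)
    (hpsi : ∀ (v : ℝ × ℝ) (A : ℝ), 0 ≤ A → F.al v ≤ -A → |F.be v| ≤ A → cψ * A ≤ F.ψ v)
    {T : Set (M192.Row (ℝ × ℝ))} {ω : M192.St (ℝ × ℝ)} (hj : Jit ω) (ht : Nn ω.1.2) (N : ℕ)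
    (g : Wk (nr ω.1.1) (c.topv N ω)) (hg : ∀ x ∈ g.support, x ∈ laneB F w ω.1.1) :
    ∃ z w' gap : ℕ → ℝ, (∀ k ≤ N, |z k| ≤ p.v - 1) ∧ (∀ k < N, |w' k| ≤ p.v - 1) ∧
      (∀ k < N, 0 ≤ gap k) ∧
      (∀ k < N, devB μ n' (c.th k ω - c.dA) ω.1.2 ≤ e' * n' → p.δ / 8 < w' k - z (k + 1) →
        (w' k - z (k + 1)) / p.e ≤ gap k) ∧
      ∑ k ∈ Finset.range N, (c.rows T k).K (z k) (w' k) ω + ∑ k ∈ Finset.range N, gap k ≤
        (exc ω.1.2 (phi F) g - c.sumY N ω + c.cstL 0 ω + c.cstU N ω + 9 * cF F) / c.l := by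
  have hW := hP.W_pos
  have hl := hP.l_pos
  have hcF := cF_nonneg F
  have hκ := c.h.κ_nonneg
  have hlab := hP.lab
  have hwin := hP.win
  obtain ⟨z, i, hzi, hsum⟩ := R78.chain_pr_gauge (φ := phi F) ht (hP.stack hj N)
    (A := fun _ => univ) (B := fun _ => univ)
    (aL := fun k => c.jL (-c.L) k ω) (bL := fun k => c.jL c.L k ω)
    (aU := fun k => c.jU (-c.L) k ω) (bU := fun k => c.jU c.L k ω)
    (mem_singleton _) (mem_singleton _) g (fun k _ a b _ _ => bddBelow_routes ht _ _ _ _ _)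
    (fun k _ a b o _ v _ => mem_univ v)
  have hne : ∀ k ≤ N, (routes ω.1.2 (c.Lk k ω) (c.Uk k ω) univ (z k) (i k)).Nonempty := by
    intro k hk
    obtain ⟨o, ho⟩ := hzi k hk
    exact ⟨_, z k, i k, le_rfl, le_rfl, o, ho.mono (subset_univ _), rfl⟩
  have hzl : ∀ k ≤ N, |F.al (pos ω.1.1 (c.Lk k ω (z k)))| ≤ w / 2 := by
    intro k hk
    obtain ⟨o, ho⟩ := hzi k hk
    exact hg _ (ho.sub _ o.start_mem_support)
  have hil : ∀ k ≤ N, |F.al (pos ω.1.1 (c.Uk k ω (i k)))| ≤ w / 2 := by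
    intro k hk
    obtain ⟨o, ho⟩ := hzi k hk
    exact hg _ (ho.sub _ o.end_mem_support)
  have hvW : p.v * p.W = (p.v - 1) * p.W + p.W := by ring
  -- window
  have za : ∀ k ≤ N, c.jL (-c.L) k ω ≤ z k := by
    intro k hk
    have h1 := abs_le.1 (hzl k hk)
    have h2 := abs_le.1 (hj.al F k)
    exact c.jL_le (by linarith [h1.1, h2.2])
  have zb : ∀ k ≤ N, z k ≤ c.jL c.L k ω := by
    intro k hk
    have h1 := abs_le.1 (hzl k hk)
    have h2 := abs_le.1 (hj.al F k)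
    exact (c.lt_jL (by linarith [h1.2, h2.1])).le
  have ia : ∀ k ≤ N, c.jU (-c.L) k ω ≤ i k := by
    intro k hk
    have h1 := abs_le.1 (hil k hk)
    have h2 := abs_le.1 (hj.al F k)
    exact c.jU_le (by linarith [h1.1, h2.2])
  have ib : ∀ k ≤ N, i k ≤ c.jU c.L k ω := by
    intro k hk
    have h1 := abs_le.1 (hil k hk)
    have h2 := abs_le.1 (hj.al F k)
    exact (c.lt_jU (by linarith [h1.2, h2.1])).le
  set z' : ℕ → ℝ := fun k => (F.al (pos ω.1.1 (c.Lk k ω (z k))) - F.al (ω.2 k).1) / p.W with hz'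
  set w' : ℕ → ℝ := fun k =>
    (F.al (pos ω.1.1 (c.Uk k ω (i k))) - F.al (ω.2 k).1 + c.h.κ + 1) / p.W with hw'
  have ez : ∀ k, z' k * p.W = F.al (pos ω.1.1 (c.Lk k ω (z k))) - F.al (ω.2 k).1 := fun k =>
    div_mul_cancel₀ _ hW.ne'
  have ew : ∀ k, w' k * p.W = F.al (pos ω.1.1 (c.Uk k ω (i k))) - F.al (ω.2 k).1 + c.h.κ + 1 :=
    fun k => div_mul_cancel₀ _ hW.ne'
  have habs : ∀ x : ℝ, |x * p.W| ≤ (p.v - 1) * p.W → |x| ≤ p.v - 1 := by
    intro x hx
    rw [abs_mul, abs_of_pos hW] at hx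
    exact le_of_mul_le_mul_right hx hW
  refine ⟨z', w', fun k => gp ω.1.2 (c.Uk k ω) (c.Lk (k + 1) ω) (c.jU (-c.L) k ω)
    (c.jL c.L (k + 1) ω) (i k) (z (k + 1)) / c.l, ?_, ?_, ?_, ?_, ?_⟩
  · intro k hk
    refine habs _ ?_
    have h1 := abs_le.1 (hzl k hk)
    have h2 := abs_le.1 (hj.al F k)
    rw [ez, abs_le]
    constructor <;> linarith [h1.1, h1.2, h2.1, h2.2]
  · intro k hk
    refine habs _ ?_
    have h1 := abs_le.1 (hil k hk.le)
    have h2 := abs_le.1 (hj.al F k)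
    rw [ew, abs_le]
    constructor <;> linarith [h1.1, h1.2, h2.1, h2.2]
  · intro k hk
    exact div_nonneg (R78.gp_nonneg ht (c.hwyU k ω) (c.hwyL (k + 1) ω) (ia k hk.le)
      (zb (k + 1) hk)) hl.le
  · intro k hk hD hsr
    exact hP.gap_ge hμ hpsi hj ht k (hil k hk.le) (hzl (k + 1) hk) hD (ez (k + 1)) (ew k) hsr
  · have hK : ∀ k ∈ Finset.range N, (c.rows T k).K (z' k) (w' k) ω ≤
        shp ω.1.2 (c.Lk k ω) (c.Uk k ω) univ (c.jL (-c.L) k ω) (c.jU c.L k ω) univ (z k) (i k) /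
          c.l := by
      intro k hk
      have hk' := (Finset.mem_range.1 hk).le
      exact K_le_shp ht k hl (ez k).le (by rw [ew]; linarith) (hne k hk')
    have h1 := Finset.sum_le_sum hK
    rw [← Finset.sum_div] at h1
    have hN : 0 ≤ shp ω.1.2 (c.Lk N ω) (c.Uk N ω) univ (c.jL (-c.L) N ω) (c.jU c.L N ω) univ
        (z N) (i N) := R78.shp_nonneg (bddBelow_routes ht _ _ _ _ _) (hne N le_rfl) subset_rfl
          (za N le_rfl) (ib N le_rfl)
    rw [Finset.sum_range_succ] at hsum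
    have hlo := hP.bdry_lo hj ht (zb 0 (Nat.zero_le _))
    have hhi := hP.bdry_hi hj ht N (ia N le_rfl)
    have hS : SUMY ω.1.2 (phi F) N (fun k => c.Lk k ω) (fun k => c.Uk k ω) (fun _ => univ)
      (fun k => c.jL (-c.L) k ω) (fun k => c.jL c.L k ω) (fun k => c.jU (-c.L) k ω)
      (fun k => c.jU c.L k ω) = c.sumY N ω := rfl
    rw [hS] at hsum
    rw [← Finset.sum_div]
    refine (add_le_add_left h1 _).trans ?_
    rw [← add_div]
    refine div_le_div_of_nonneg_right ?_ hl.le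
    linarith

end Cf

end Crest.Agent.R151.NF
end

-- ▼ part R151/PA821b
section

/-!
# R151 / S0214 part 2, PA821b — the lane of the stack (owner helper821)

* `Cf.laneX_integrable`, `Cf.laneX_mean`: `E laneX w H = eL G F w H`;
* `lane_rate`: `eL G F w H ≤ (rate G F w + η) * H + C'` for all `H ≥ 0`;
* `lane_conn`, `exists_lane_walk`: near-optimal walks in the lane.
-/

set_option autoImplicit false

open MeasureTheory Filter ProbabilityTheory Topology Set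
open Crest.ProbabilityR.FirstPassage
open Crest.Agent.R151.K Crest.Agent.R151.Q

namespace Crest.Agent.R151.NF

open B710 (FlatData)
open C710 (fn fn_nonneg pL pL_theta integrable_pL mean_disp eL_add_le eL_le rate_tendsto rate_nonneg eL_eq)
open M192 (St Row PS rq measurable_rq)

variable {μ : ℝ × ℝ → ℝ} {G : Measure ℝ} [IsProbabilityMeasure G] {F : FlatData μ}

/-- **(P2)** the mean excess of a lane grows at most like its rate -/
theorem lane_rate (h0 : G (Set.Iio 0) = 0) (h2 : Integrable (fun x : ℝ => x ^ 2) G)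
    (hμ : IsTC G μ) {w : ℝ} (hw : 2 * fn F.al ≤ w) {η : ℝ} (hη : 0 < η) :
    ∃ C' : ℝ, ∀ H : ℝ, 0 ≤ H → eL G F w H ≤ (rate G F w + η) * H + C' := by
  have ht := rate_tendsto (G := G) h0 h2 hμ F hw
  have hr := rate_nonneg (G := G) h0 h2 hμ F hw
  have hev : ∀ᶠ n : ℕ in atTop, eL G F w n / n < rate G F w + η :=
    ht.eventually (gt_mem_nhds (by linarith))
  obtain ⟨n, hn, hn1⟩ := (hev.and (eventually_ge_atTop 1)).exists
  have hn0 : (0 : ℝ) < n := by exact_mod_cast hn1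
  rw [div_lt_iff₀ hn0] at hn
  have hm : (0 : ℝ) ≤ ∫ z, z ∂G := integral_nonneg_of_ae (ae_nonneg h0)
  -- multiples
  have hmul : ∀ (q : ℕ) (r : ℝ), eL G F w (q * n + r) ≤ q * eL G F w n + eL G F w r := by
    intro q r
    induction q with
    | zero => simp
    | succ q ih =>
      have h := eL_add_le (G := G) h0 h2 F hw (n : ℝ) (q * n + r)
      have e : (n : ℝ) + (q * n + r) = ((q + 1 : ℕ) : ℝ) * n + r := by push_cast; ring
      rw [e] at h
      refine h.trans ?_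
      push_cast
      linarith
  refine ⟨(n * l1 F.b + 2) * (∫ z, z ∂G), fun H hH => ?_⟩
  set q : ℕ := ⌊H / n⌋₊ with hq
  have hq1 : (q : ℝ) * n ≤ H := by
    have := Nat.floor_le (div_nonneg hH hn0.le)
    rw [le_div_iff₀ hn0] at this
    exact this
  have hq2 : H < (q + 1) * n := by
    have := Nat.lt_floor_add_one (H / n)
    rw [div_lt_iff₀ hn0] at this
    exact this
  have h3 := hmul q (H - q * n)
  rw [add_sub_cancel] at h3
  have h4 := eL_le (G := G) h0 h2 F hw (H - q * n)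
  have h5 : |H - q * n| ≤ n := by
    rw [abs_of_nonneg (by linarith)]; linarith
  have h6 : (|H - q * n| * l1 F.b + 2) * (∫ z, z ∂G) ≤ (n * l1 F.b + 2) * (∫ z, z ∂G) := by
    have := l1_nonneg F.b
    gcongr
  have h7 : (q : ℝ) * eL G F w n ≤ q * ((rate G F w + η) * n) :=
    mul_le_mul_of_nonneg_left hn.le (Nat.cast_nonneg q)
  have h8 : (rate G F w + η) * (q * n) ≤ (rate G F w + η) * H :=
    mul_le_mul_of_nonneg_left hq1 (by linarith)
  calc eL G F w H ≤ q * eL G F w n + eL G F w (H - q * n) := h3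
    _ ≤ q * ((rate G F w + η) * n) + (n * l1 F.b + 2) * (∫ z, z ∂G) := by linarith
    _ = (rate G F w + η) * (q * n) + (n * l1 F.b + 2) * (∫ z, z ∂G) := by ring
    _ ≤ _ := by linarith

/-- near-optimal walks in the lane exist, for every offset and every nonnegative environment -/
theorem lane_conn (h0 : G (Set.Iio 0) = 0) (h2 : Integrable (fun x : ℝ => x ^ 2) G) {w : ℝ}
    (hw : 2 * fn F.al ≤ w) (H : ℝ) (θ : ℝ × ℝ) :
    Conn (laneB F w θ) (nr θ) (nr (θ - H • F.b)) :=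
  (pL_theta (G := G) h0 h2 F hw H θ).1

theorem exists_lane_walk (h0 : G (Set.Iio 0) = 0) (h2 : Integrable (fun x : ℝ => x ^ 2) G) {w : ℝ}
    (hw : 2 * fn F.al ≤ w) (H : ℝ) (θ : ℝ × ℝ) (t : Environment) {ε : ℝ} (hε : 0 < ε) :
    ∃ g : squareLattice.Walk (nr θ) (nr (θ - H • F.b)), (∀ v ∈ g.support, v ∈ laneB F w θ) ∧
      walkCost t g ≤ pR t (laneB F w θ) (nr θ) (nr (θ - H • F.b)) + ε := by
  obtain ⟨g0, hg0⟩ := lane_conn (G := G) h0 h2 hw H θ
  have : Nonempty {p : squareLattice.Walk (nr θ) (nr (θ - H • F.b)) //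
      ∀ v ∈ p.support, v ∈ laneB F w θ} := ⟨⟨g0, hg0⟩⟩
  obtain ⟨g, hg⟩ := exists_lt_of_ciInf_lt
    (show pR t (laneB F w θ) (nr θ) (nr (θ - H • F.b)) <
      pR t (laneB F w θ) (nr θ) (nr (θ - H • F.b)) + ε by linarith)
  exact ⟨g.1, g.2, hg.le⟩

namespace Cf

variable {w0 c0 K : ℝ} {p : Num} (c : Cf G F w0 c0 K p)

/-- **(P2)** integrability and mean of the excess of the lane -/
theorem laneX_spec (h0 : G (Set.Iio 0) = 0) (h2 : Integrable (fun x : ℝ => x ^ 2) G) {w : ℝ}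
    (hw : 2 * fn F.al ≤ w) (H : ℝ) :
    Integrable (c.laneX w H) c.PSt ∧ ∫ ω, c.laneX w H ω ∂c.PSt = eL G F w H := by
  have i1 := integrable_pL (G := G) h0 h2 F hw H
  obtain ⟨i2, e2⟩ := mean_disp (G := G) h0 h2 F F.ρ H
  have mp0 : MeasurePreserving (fun q : (ℝ × ℝ) × Environment => q.1) (P0 G) UU2 := by
    unfold P0; exact measurePreserving_fst
  have i3 : Integrable (fun q : (ℝ × ℝ) × Environment =>
      F.ρ (toR (nr (q.1 - H • F.b) - nr q.1))) (P0 G) := mp0.integrable_comp_of_integrable i2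
  have e3 : ∫ q : (ℝ × ℝ) × Environment, F.ρ (toR (nr (q.1 - H • F.b) - nr q.1)) ∂(P0 G) = H := by
    have := mp_integral mp0 i2.aestronglyMeasurable
    rw [this, e2, map_smul, F.ρ_b, smul_eq_mul, mul_one]
  have mp1 : MeasurePreserving (fun ω : St (ℝ × ℝ) => ω.1) c.PSt (P0 G) := by
    show MeasurePreserving (fun ω : St (ℝ × ℝ) => ω.1) (PS G (UU.prod UU)) (P0 G)
    unfold PS
    exact measurePreserving_fst
  have e : c.laneX w H = (fun q : (ℝ × ℝ) × Environment => pL F w H q.1 q.2 -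
      F.ρ (toR (nr (q.1 - H • F.b) - nr q.1))) ∘ fun ω : St (ℝ × ℝ) => ω.1 := by
    funext ω
    unfold laneX pL
    simp only [Function.comp]
    congr 1
    unfold phi
    rw [← map_sub]
    congr 1
    unfold toR
    ext <;> simp
  have i4 := i1.sub i3
  constructor
  · rw [e]
    exact mp1.integrable_comp_of_integrable i4
  · rw [e]
    have h5 := mp_integral mp1 i4.aestronglyMeasurable
    have h6 := integral_sub i1 i3
    refine Eq.trans h5 ?_
    refine Eq.trans h6 ?_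
    rw [e3, eL_eq]

theorem laneX_integrable (h0 : G (Set.Iio 0) = 0) (h2 : Integrable (fun x : ℝ => x ^ 2) G)
    {w : ℝ} (hw : 2 * fn F.al ≤ w) (H : ℝ) : Integrable (c.laneX w H) c.PSt :=
  (c.laneX_spec h0 h2 hw H).1

theorem laneX_mean (h0 : G (Set.Iio 0) = 0) (h2 : Integrable (fun x : ℝ => x ^ 2) G)
    {w : ℝ} (hw : 2 * fn F.al ≤ w) (H : ℝ) : ∫ ω, c.laneX w H ω ∂c.PSt = eL G F w H :=
  (c.laneX_spec h0 h2 hw H).2

/-- almost surely: nonnegative environment, shift and jitters in the unit square -/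
theorem ae_stack (h0 : G (Set.Iio 0) = 0) : ∀ᵐ ω ∂c.PSt, Nn ω.1.2 ∧
    ω.1.1 ∈ Ico (0 : ℝ) 1 ×ˢ Ico (0 : ℝ) 1 ∧
      ∀ k, (ω.2 k).1 ∈ Ico (0 : ℝ) 1 ×ˢ Ico (0 : ℝ) 1 := by
  have h1 := M192.ae_jitter (G := G) (ν := UU.prod UU)
  have h2 := ae_P0_Nn (G := G) (Ψ := ℕ → (ℝ × ℝ) × (ℝ × ℝ))
    (ν := Measure.infinitePi fun _ : ℕ => UU2.prod (UU.prod UU)) h0
  filter_upwards [h1, h2] with ω hω1 hω2
  exact ⟨hω2.1, hω2.2, hω1⟩

/-- a near-optimal walk of the lane, in terms of `laneX` -/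
theorem exists_walk (h0 : G (Set.Iio 0) = 0) (h2 : Integrable (fun x : ℝ => x ^ 2) G)
    {w : ℝ} (hw : 2 * fn F.al ≤ w) (H : ℝ) {ε : ℝ} (hε : 0 < ε) (ω : St (ℝ × ℝ)) :
    ∃ g : squareLattice.Walk (nr ω.1.1) (nr (ω.1.1 - H • F.b)),
      (∀ v ∈ g.support, v ∈ laneB F w ω.1.1) ∧
      R78.exc ω.1.2 (phi F) g ≤ c.laneX w H ω + ε := by
  obtain ⟨g, hg, hc⟩ := exists_lane_walk (G := G) h0 h2 hw H ω.1.1 ω.1.2 hε
  refine ⟨g, hg, ?_⟩
  unfold R78.exc laneX
  linarith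

end Cf

end Crest.Agent.R151.NF
end

-- ▼ part R151/M192m
section

/-!
# R151 / S0214 part 2, M192m — `Inputs.paths` (owner helper192)

Good events of the gaps, assembly of `E191.Paths` on the stack, order of constants.
-/

set_option autoImplicit false

open MeasureTheory Filter ProbabilityTheory Topology Set
open Crest.ProbabilityR.FirstPassage
open Crest.Agent.R151.K Crest.Agent.R151.Q

namespace Crest.Agent.R151.NF

open B710 (FlatData NormLike)
open R78 (Wk exc)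
open C710 (fn)
open M56 (mg)

variable {μ : ℝ × ℝ → ℝ}

/-! ### Good events of the gaps -/

lemma measurable_devB' {Ω : Type*} [MeasurableSpace Ω] (n' : ℕ) {θ : Ω → ℝ × ℝ}
    {t : Ω → Environment} (hθ : Measurable θ) (ht : Measurable t) :
    Measurable fun ω => devB μ n' (θ ω) (t ω) := by
  have h := (R6.measurable_devB (μ := μ) n').comp (hθ.prodMk ht)
  exact h

/-- probability of the bad events of the gaps -/
theorem prob_devG {G : Measure ℝ} [IsProbabilityMeasure G] {e' : ℝ} {n' : ℕ}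
    (h : ∀ v : ℝ × ℝ, (P0 G).real {p | e' * n' ≤ devB μ n' (p.1 + v) p.2} ≤ e')
    (B : ℕ → ℝ × ℝ) (d : ℝ × ℝ) (k : ℕ) :
    (M192.PS G (UU.prod UU)).real
      {ω | e' * n' ≤ devB μ n' (ω.1.1 - B k - (ω.2 k).1 - d) ω.1.2} ≤ e' := by
  obtain ⟨A, hAdef⟩ : ∃ A : Set (M192.Row (ℝ × ℝ)),
    A = {q | e' * n' ≤ devB μ n' (q.1.1 - d) q.1.2} := ⟨_, rfl⟩
  have hm0 : Measurable fun q : M192.Row (ℝ × ℝ) => devB μ n' (q.1.1 - d) q.1.2 :=
    measurable_devB' n' ((measurable_fst.comp measurable_fst).sub_const _)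
      (measurable_snd.comp measurable_fst)
  have hA : MeasurableSet[M192.mIL (ℝ × ℝ) (fun _ => univ)] A := by
    rw [M192.measurableSet_mIL, hAdef]
    refine ⟨measurableSet_le measurable_const hm0, fun φ m θ t => ?_, fun θ φ t t' htt => ?_⟩
    · have := R6.inv_devB (μ := μ) n' m (θ - d) t
      simp only [mem_ofPred_eq]
      rw [add_sub_right_comm, this]
    · have : t = t' := funext fun e => htt e (mem_univ e)
      simp only [this]
  have h1 := M192.stack_measure (G := G) (ν := UU.prod UU) B k hA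
  have h3 : MeasurePreserving (fun q : M192.Row (ℝ × ℝ) => q.1) ((P0 G).prod (UU.prod UU))
      (P0 G) := measurePreserving_fst
  have hm1 : MeasurableSet {p : (ℝ × ℝ) × Environment | e' * n' ≤ devB μ n' (p.1 + -d) p.2} :=
    measurableSet_le measurable_const (measurable_devB' n' (measurable_fst.add_const _)
      measurable_snd)
  have h4 := h3.measure_preimage hm1.nullMeasurableSet
  have h5 : (fun q : M192.Row (ℝ × ℝ) => q.1) ⁻¹'
      {p : (ℝ × ℝ) × Environment | e' * n' ≤ devB μ n' (p.1 + -d) p.2} = A := by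
    rw [hAdef]
    ext q
    simp only [mem_preimage, mem_ofPred_eq, ← sub_eq_add_neg]
  rw [h5] at h4
  have h6 : {ω : M192.St (ℝ × ℝ) | e' * n' ≤ devB μ n' (ω.1.1 - B k - (ω.2 k).1 - d) ω.1.2} =
      M192.rq B k ⁻¹' A := by
    rw [hAdef]; rfl
  rw [h6]
  unfold Measure.real
  rw [h1, h4]
  exact h (-d)

namespace Cf

variable {G : Measure ℝ} {F : FlatData μ} {w0 c0 K : ℝ} {p : Num} {c : Cf G F w0 c0 K p}
variable {w cψ e' : ℝ} {n' : ℕ}

lemma measurable_th (c : Cf G F w0 c0 K p) (k : ℕ) : Measurable (c.th k) := by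
  unfold th
  exact ((measurable_fst.comp measurable_fst).sub_const (c.B k)).sub
    (measurable_fst.comp ((measurable_pi_apply k).comp measurable_snd))

/-- **Assembly of the paths** -/
theorem paths_of [IsProbabilityMeasure G] (h0 : G (Iio 0) = 0)
    (h2 : Integrable (fun x : ℝ => x ^ 2) G) (hμ : IsTC G μ) (hn : NormLike μ)
    (hP : c.PathNum w cψ e' n') (hw : 2 * fn F.al ≤ w)
    (hpsi : ∀ (v : ℝ × ℝ) (A : ℝ), 0 ≤ A → F.al v ≤ -A → |F.be v| ≤ A → cψ * A ≤ F.ψ v)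
    (hR3 : Integrable (fun q => c.h.hkY c.dA univ (-c.L) c.L q.1.1 q.1.2 q.2) (nuR G) ∧
      0 ≤ ∫ q, c.h.hkY c.dA univ (-c.L) c.L q.1.1 q.1.2 q.2 ∂(nuR G))
    (hdev : ∀ v : ℝ × ℝ, (P0 G).real {p | e' * n' ≤ devB μ n' (p.1 + v) p.2} ≤ e')
    (hee : e' ≤ p.e) {C0 θ : ℝ} (hrate : c.P * rate G F w ≤ C0 * p.v ^ (θ - 1) * c.l)
    (hε : 4 * c.L * c.ε ≤ p.e / 2 * c.l) (T : Set (M192.Row (ℝ × ℝ))) :
    Nonempty (E191.Paths (c.rows T) c.PSt C0 θ p.δ p.v p.e) := by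
  have hl := hP.l_pos
  have he := hP.e_pos
  have hPP := hP.P_pos
  obtain ⟨η, hη⟩ : ∃ η, η = p.e / 2 * c.l / c.P := ⟨_, rfl⟩
  have hη0 : 0 < η := by rw [hη]; positivity
  obtain ⟨C1, hC1⟩ := lane_rate (F := F) h0 h2 hμ hw hη0
  obtain ⟨B, hB⟩ := c.cst_bound
  refine ⟨
    { C' := C0 * p.v ^ (θ - 1) + p.e / 2 + (C1 + 1 + 2 * B + 9 * cF F) / c.l
      GD := fun k => {ω | devB μ n' (c.th k ω - c.dA) ω.1.2 ≤ e' * n'}
      GD_meas := fun k => measurableSet_le (measurable_devB' n' ((c.measurable_th k).sub_const _)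
        (measurable_snd.comp measurable_fst)) measurable_const
      GD_prob := fun k => ?_
      path := fun N => ?_ }⟩
  · refine le_trans ?_ hee
    refine le_trans (measureReal_mono ?_) (prob_devG hdev c.B c.dA k)
    intro ω hω
    simp only [mem_compl_iff, mem_ofPred_eq, not_le] at hω
    exact hω.le
  · have hN1 : (0 : ℝ) ≤ ((N : ℝ) + 1) * c.P := by positivity
    have iS := c.sumY_integrable h0 h2 hμ hR3 N
    have iL := c.laneX_integrable h0 h2 hw (((N : ℝ) + 1) * c.P)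
    have iA := (c.cstL_spec 0).1
    have iB := (c.cstU_spec N).1
    have hint : Integrable (fun ω => (c.laneX w (((N : ℝ) + 1) * c.P) ω + 1 - c.sumY N ω +
        c.cstL 0 ω + c.cstU N ω + 9 * cF F) / c.l) c.PSt :=
      (((((iL.add (integrable_const 1)).sub iS).add iA).add iB).add (integrable_const _)).div_const _
    refine ⟨_, hint, ?_, ?_⟩
    · rw [integral_div]
      have e1 : ∫ ω, (c.laneX w (((N : ℝ) + 1) * c.P) ω + 1 - c.sumY N ω +
          c.cstL 0 ω + c.cstU N ω + 9 * cF F) ∂c.PSt =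
          ∫ ω, c.laneX w (((N : ℝ) + 1) * c.P) ω ∂c.PSt + 1 - ∫ ω, c.sumY N ω ∂c.PSt +
          ∫ ω, c.cstL 0 ω ∂c.PSt + ∫ ω, c.cstU N ω ∂c.PSt + 9 * cF F := by
        have i1 := iL.add (integrable_const (1 : ℝ))
        have a1 : ∫ ω, (c.laneX w (((N : ℝ) + 1) * c.P) ω + 1) ∂c.PSt =
            ∫ ω, c.laneX w (((N : ℝ) + 1) * c.P) ω ∂c.PSt + ∫ _ω, (1 : ℝ) ∂c.PSt :=
          integral_add iL (integrable_const 1)
        have a2 : ∫ ω, (c.laneX w (((N : ℝ) + 1) * c.P) ω + 1 - c.sumY N ω) ∂c.PSt =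
            ∫ ω, (c.laneX w (((N : ℝ) + 1) * c.P) ω + 1) ∂c.PSt - ∫ ω, c.sumY N ω ∂c.PSt :=
          integral_sub i1 iS
        have a3 : ∫ ω, (c.laneX w (((N : ℝ) + 1) * c.P) ω + 1 - c.sumY N ω + c.cstL 0 ω) ∂c.PSt =
            ∫ ω, (c.laneX w (((N : ℝ) + 1) * c.P) ω + 1 - c.sumY N ω) ∂c.PSt +
              ∫ ω, c.cstL 0 ω ∂c.PSt := integral_add (i1.sub iS) iA
        have a4 : ∫ ω, (c.laneX w (((N : ℝ) + 1) * c.P) ω + 1 - c.sumY N ω + c.cstL 0 ω +
            c.cstU N ω) ∂c.PSt =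
            ∫ ω, (c.laneX w (((N : ℝ) + 1) * c.P) ω + 1 - c.sumY N ω + c.cstL 0 ω) ∂c.PSt +
              ∫ ω, c.cstU N ω ∂c.PSt := integral_add ((i1.sub iS).add iA) iB
        have a5 : ∫ ω, (c.laneX w (((N : ℝ) + 1) * c.P) ω + 1 - c.sumY N ω + c.cstL 0 ω +
            c.cstU N ω + 9 * cF F) ∂c.PSt =
            ∫ ω, (c.laneX w (((N : ℝ) + 1) * c.P) ω + 1 - c.sumY N ω + c.cstL 0 ω +
              c.cstU N ω) ∂c.PSt + ∫ _ω, 9 * cF F ∂c.PSt :=
          integral_add (((i1.sub iS).add iA).add iB) (integrable_const _)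
        rw [a5, a4, a3, a2, a1]
        simp
      rw [e1, c.laneX_mean h0 h2 hw, div_le_iff₀ hl]
      have m1 := hC1 (((N : ℝ) + 1) * c.P) hN1
      have m2 := c.sumY_mean h0 h2 hμ hR3 N
      have m3 := (hB 0).1
      have m4 := (hB N).2
      have m5 : (rate G F w + η) * (((N : ℝ) + 1) * c.P) =
          ((N : ℝ) + 1) * (c.P * rate G F w + p.e / 2 * c.l) := by
        rw [hη]; field_simp
      have m6 : ((N : ℝ) + 1) * (c.P * rate G F w + p.e / 2 * c.l) ≤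
          ((N : ℝ) + 1) * (C0 * p.v ^ (θ - 1) * c.l + p.e / 2 * c.l) :=
        mul_le_mul_of_nonneg_left (by linarith) (by positivity)
      have m7 : 4 * c.L * c.ε * N ≤ p.e / 2 * c.l * N :=
        mul_le_mul_of_nonneg_right hε (Nat.cast_nonneg N)
      have m8 : ((C0 * p.v ^ (θ - 1) + p.e) * N + (C0 * p.v ^ (θ - 1) + p.e / 2 +
          (C1 + 1 + 2 * B + 9 * cF F) / c.l)) * c.l =
          ((N : ℝ) + 1) * (C0 * p.v ^ (θ - 1) * c.l + p.e / 2 * c.l) + p.e / 2 * c.l * N +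
            (C1 + 1 + 2 * B + 9 * cF F) := by
        field_simp
        ring
      rw [m8]
      linarith
    · filter_upwards [c.ae_stack h0] with ω hω
      obtain ⟨g, hg, hgc⟩ : ∃ g : Wk (nr ω.1.1) (c.topv N ω),
          (∀ v ∈ g.support, v ∈ laneB F w ω.1.1) ∧
          exc ω.1.2 (phi F) g ≤ c.laneX w (((N : ℝ) + 1) * c.P) ω + 1 :=
        c.exists_walk h0 h2 hw (((N : ℝ) + 1) * c.P) one_pos ω
      obtain ⟨z, w', gap, r1, r2, r3, r4, r5⟩ := hP.det hn hpsi (T := T) hω.2.2 hω.1 N g hg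
      refine ⟨z, w', gap, fun k hk => (r1 k hk).trans (by linarith),
        fun k hk => (r2 k hk).trans (by linarith), r3, r4, r5.trans ?_⟩
      refine div_le_div_of_nonneg_right ?_ hl.le
      linarith

end Cf

/-! ### Order of constants -/

variable {G : Measure ℝ} {F : FlatData μ} {w0 c0 K : ℝ}

set_option maxHeartbeats 1600000 in
/-- **`Inputs.paths`** -/
theorem ev_paths [IsProbabilityMeasure G] (h0 : G (Iio 0) = 0)
    (h2 : Integrable (fun x : ℝ => x ^ 2) G) (hμ : IsTC G μ) (hn : NormLike μ) {m : ℝ}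
    (hM : Mom G m) (hL : LocCtl G) (hc0 : 0 < c0) (hK : 0 ≤ K)
    (typ : ∀ {p : Num}, Cf G F w0 c0 K p → Set (M192.Row (ℝ × ℝ))) :
    ∃ C0 : ℝ, Ev fun p => ∀ c : Cf G F w0 c0 K p,
      Nonempty (E191.Paths (c.rows (typ c)) c.PSt C0 0.97 p.δ p.v p.e) := by
  obtain ⟨cψ, hcψ, hpsi⟩ := exists_psi_low hn F
  have hD : ∀ ε : ℝ, ∃ n0 : ℕ, 0 < ε → ∀ n ≥ n0, ∀ v : ℝ × ℝ,
      (P0 G).real {p | ε * n ≤ devB μ n (p.1 + v) p.2} ≤ ε := by
    intro ε
    by_cases hε : 0 < ε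
    · obtain ⟨n0, hn0⟩ := R6.devB_prob hM (isTC1_of_isTC h0 h2 hμ) hL hε
      exact ⟨n0, fun _ => hn0⟩
    · exact ⟨0, fun h => absurd h hε⟩
  choose n0 hn0 using hD
  obtain ⟨Q, hQ⟩ : ∃ Q : ℝ, Q = ‖F.a‖ + ‖F.b‖ := ⟨_, rfl⟩
  have hQ0 : 0 ≤ Q := by rw [hQ]; positivity
  refine ⟨2, ?_⟩
  refine (((((ev_len G F w0 c0 K (fun _ δ _ _ _ => 64 / δ)
    (4 * (mg F + 1) + 4 * cF F + 2 * fn F.al)).and (le_v fun _ _ => 4)).and
    (le_L fun _ _ v _ => v + 1)).and ((highway_small (G := G) (F := F) (w0 := w0) (K := K) hc0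
      fun _ _ _ e v' _ _ => 16 * v' / e).and
    (l_small (G := G) (F := F) (w0 := w0) (c0 := c0) (K := K)
      fun _ _ _ e _ _ _ => 4 / (e * cψ)))).and
    (le_W fun _ δ _ e v' _ _ _ => (n0 (min e (cψ * δ / (128 * (4 * Q * v' + 3)))) : ℝ))).mono ?_
  rintro p ⟨⟨⟨⟨h1, h2v⟩, h3⟩, h4, h5⟩, h6⟩ c
  obtain ⟨hs, hC, hg, hgδ, hgW⟩ := h1 c
  have h4 := h4 c
  have h5 := h5 c
  have hp := hs.toStd
  have hW : 0 < p.W := zero_lt_one.trans_le hp.W
  have hd : 0 < p.δ0 * p.W := mul_pos hp.δ0_pos hW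
  have hmg := M56.one_le_mg F
  have hcF := cF_nonneg F
  have hfn : 0 ≤ fn F.al := C710.fn_nonneg _
  have hκ := c.κ_le
  have hwH := hs.wH_eq
  rw [abs_of_nonneg hK] at hg
  have hKd : 0 ≤ K * (p.δ0 * p.W) := mul_nonneg hK hd.le
  have hg8 := hs.g_le
  have hyA := hs.half
  have hδ := hp.δ_pos
  have he := hp.e_pos
  have hgδ' : 64 * c.g ≤ p.δ * p.W := by
    have := mul_le_mul_of_nonneg_left hgδ hδ.le
    have e1 : p.δ * (64 / p.δ * c.g) = 64 * c.g := by field_simp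
    linarith
  have hLW : c.L = 2 * p.v' * p.W := c.L_eq
  obtain ⟨e', he'⟩ : ∃ e', e' = min p.e (cψ * p.δ / (128 * (4 * Q * p.v' + 3))) := ⟨_, rfl⟩
  have hv'0 : 0 ≤ 4 * Q * p.v' := by
    have := hp.v'
    positivity
  have he'0 : 0 < e' := by
    rw [he']
    refine lt_min he ?_
    have := mul_pos hcψ hδ
    positivity
  obtain ⟨n', hn'⟩ : ∃ n', n' = ⌈Q * (2 * c.L) + 1 + p.W⌉₊ := ⟨_, rfl⟩
  have hL0 := hs.L_pos
  have hQL : 0 ≤ Q * (2 * c.L) := mul_nonneg hQ0 (by linarith)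
  have n1 : Q * (2 * c.L) + 1 + p.W ≤ n' := by rw [hn']; exact Nat.le_ceil _
  have n2 : (n' : ℝ) ≤ (4 * Q * p.v' + 3) * p.W := by
    have h := Nat.ceil_lt_add_one (a := Q * (2 * c.L) + 1 + p.W) (by linarith)
    rw [← hn'] at h
    have e1 : Q * (2 * c.L) = 4 * Q * p.v' * p.W := by rw [hLW]; ring
    have hW1 := hp.W
    rw [e1] at h
    linarith
  have n3 : n0 e' ≤ n' := by
    rw [← he'] at h6
    have : (n0 e' : ℝ) ≤ n' := by linarith
    exact_mod_cast this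
  have hdevn : 4 * (e' * n') ≤ cψ * (p.δ * p.W / 32) := by
    have a1 : e' ≤ cψ * p.δ / (128 * (4 * Q * p.v' + 3)) := by rw [he']; exact min_le_right _ _
    have a2 : e' * n' ≤ cψ * p.δ / (128 * (4 * Q * p.v' + 3)) * ((4 * Q * p.v' + 3) * p.W) :=
      mul_le_mul a1 n2 (Nat.cast_nonneg _) (he'0.le.trans a1)
    have a3 : cψ * p.δ / (128 * (4 * Q * p.v' + 3)) * ((4 * Q * p.v' + 3) * p.W) =
        cψ * p.δ * p.W / 128 := by
      have : 4 * Q * p.v' + 3 ≠ 0 := by linarith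
      field_simp
    rw [a3] at a2
    linarith
  have hcost : 4 * c.l ≤ p.e * (cψ * p.W) := by
    have := mul_le_mul_of_nonneg_left h5 (mul_pos he hcψ).le
    have e1 : p.e * cψ * (4 / (p.e * cψ) * c.l) = 4 * c.l := by field_simp
    rw [e1] at this
    linarith
  have hvW : p.v * p.W / 2 + p.W ≤ (p.v - 1) * p.W := by nlinarith
  have hvL : (p.v + 1) * p.W ≤ c.L := h3
  have hvL' : p.v * p.W + p.W ≤ c.L := by linarith
  have hWL : p.W ≤ c.L := by nlinarith [hp.v]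
  have hPN : c.PathNum (p.v * p.W) cψ e' n' :=
    { W_pos := hW
      l_pos := hs.l_pos
      e_pos := he
      δ_pos := hδ
      cψ_pos := hcψ
      wH_lt := by linarith
      gap := by linarith
      lab := by linarith
      win := by linarith
      back := by linarith
      ht := by linarith
      htW := by linarith
      rad := by rw [← hQ]; linarith
      dev := hdevn
      cost := hcost }
  have hdis : c.h.wH + 2 * mg F < F.be c.dA := by
    unfold Cf.dA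
    rw [M192.be_smul_b]; linarith
  have hal : F.al c.dA = 0 := by
    unfold Cf.dA
    rw [map_smul, F.al_b, smul_zero]
  have hs1 : -c.L + mg F ≤ 0 := by linarith
  have hs2 : 0 + mg F + c.h.κ < c.L + F.al c.dA := by rw [hal]; linarith
  refine Cf.paths_of h0 h2 hμ hn hPN ?_ hpsi ⟨?_, ?_⟩ (hn0 e' he'0 n' n3) ?_ ?_ ?_ _
  · nlinarith [hp.v]
  · exact M56.hkY_integrable c.mean h0 h2 hdis MeasurableSet.univ hs1 hs2 (subset_univ _)
  · exact M56.hkY_nonneg c.mean h0 h2 hdis MeasurableSet.univ hs1 hs2 (subset_univ _) hμ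
  · rw [he']; exact min_le_left _ _
  · have h7 := P_rate_far c hs hp.v
    have e1 : (0.97 : ℝ) - 1 = -0.03 := by norm_num
    rw [e1]
    exact h7
  · have h8 := mul_le_mul_of_nonneg_left h4 (by linarith : 0 ≤ p.e / 2)
    have e1 : p.e / 2 * (16 * p.v' / p.e * (p.W * c.ε)) = 8 * p.v' * p.W * c.ε := by
      field_simp; ring
    rw [e1] at h8
    rw [hLW]
    linarith

end Crest.Agent.R151.NF
end

-- ▼ part R151/E792a
section

/-!
# R151 / S0214 part 2, [E8] height selection, part a: route surgery (helper792)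

`hull_le_walk`: the hull kernel is at most the value of ANY walk between two points of the two
highways whose visits to the highways are on the right sides, up to the defects of the highways.
`hkY_le_walk`: the same in excess form for the systems of highways `Hwy F`.
-/

set_option autoImplicit false

open MeasureTheory Filter ProbabilityTheory Topology
open Crest.ProbabilityR.FirstPassage

namespace Crest.Agent.R151.E792

open K R78 B710 Q

section det

variable {t : Environment} {φ : V → ℝ} {H H' : ℤ → V} {A : Set V}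

/-- **route surgery** -/
theorem hull_le_walk (ht : Nn t) (hH : IsHwy H) (hH' : IsHwy H') {i j i₀ j₀ a b a' b' : ℤ}
    (g : Wk (H i₀) (H' j₀)) (hg : ∀ v ∈ g.support, v ∈ A)
    (hz : ∀ k, H k ∈ g.support → i ≤ k ∧ a ≤ k ∧ k ≤ b)
    (hw : ∀ k, H' k ∈ g.support → k ≤ j ∧ a' ≤ k ∧ k ≤ b') :
    hull t H H' A i j ≤ hc t H i₀ + walkCost t g - hc t H' j₀ + defect t H a b +
      defect t H' a' b' := by
  obtain ⟨u, v, w₁, o, w₂, e, hu, hv, -, ho1, ho2⟩ := exists_last_first g (Set.range H)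
    (Set.range H') ⟨i₀, rfl⟩ ⟨H' j₀, g.end_mem_support, ⟨j₀, rfl⟩⟩
  obtain ⟨z, rfl⟩ := hu
  obtain ⟨w, rfl⟩ := hv
  have hsup : ∀ x ∈ o.support, x ∈ g.support := by
    intro x hx
    rw [e, mem_support_append, mem_support_append]
    exact Or.inl (Or.inr hx)
  have hopen : IsOpen H H' A o :=
    ⟨fun x hx => hg x (hsup x hx), fun k hk => ho2 _ hk ⟨k, rfl⟩, fun k hk => ho1 _ hk ⟨k, rfl⟩⟩
  obtain ⟨z1, z2, z3⟩ := hz z (hsup _ o.start_mem_support)
  obtain ⟨y1, y2, y3⟩ := hw w (hsup _ o.end_mem_support)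
  obtain ⟨-, i2, i3⟩ := hz i₀ g.start_mem_support
  obtain ⟨-, j2, j3⟩ := hw j₀ g.end_mem_support
  have h1 := hull_le (R78.bddBelow_routes ht _ _ _ _ _) z1 y1 o hopen
  have h2 : walkCost t g = walkCost t w₁ + walkCost t o + walkCost t w₂ := by
    rw [e, walkCost_append, walkCost_append]
  have h3 : hc t H z - hc t H i₀ ≤ walkCost t w₁ + defect t H a b := by
    rcases le_total i₀ z with h | h
    · have e1 := hH.defect_mono ht i2 z3 (i := i₀) (j := z)
      have e2 := K.pt_le ht w₁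
      unfold defect at e1 ⊢
      linarith
    · have e1 := hc_mono ht H h
      have e2 := walkCost_nonneg ht w₁
      have e3 := hH.defect_nonneg ht (z2.trans z3)
      linarith
  have h4 : hc t H' j₀ - hc t H' w ≤ walkCost t w₂ + defect t H' a' b' := by
    rcases le_total w j₀ with h | h
    · have e1 := hH'.defect_mono ht y2 j3 (i := w) (j := j₀)
      have e2 := K.pt_le ht w₂
      unfold defect at e1 ⊢
      linarith
    · have e1 := hc_mono ht H' h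
      have e2 := walkCost_nonneg ht w₂
      have e3 := hH'.defect_nonneg ht (y2.trans y3)
      linarith
  linarith

/-- excess form -/
theorem hullY_le_walk (ht : Nn t) (hH : IsHwy H) (hH' : IsHwy H') {i j i₀ j₀ a b a' b' : ℤ}
    (g : Wk (H i₀) (H' j₀)) (hg : ∀ v ∈ g.support, v ∈ A)
    (hz : ∀ k, H k ∈ g.support → i ≤ k ∧ a ≤ k ∧ k ≤ b)
    (hw : ∀ k, H' k ∈ g.support → k ≤ j ∧ a' ≤ k ∧ k ≤ b') :
    hullY t φ H H' A i j ≤ (hp t φ H i₀ - hp t φ H i) + exc t φ g +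
      (hp t φ H' j - hp t φ H' j₀) + defect t H a b + defect t H' a' b' := by
  have h := hull_le_walk ht hH hH' g hg hz hw
  unfold hullY exc hp
  linarith

/-- a defect is at most the excess minus the excess of the geodesic -/
lemma defect_eq (t : Environment) (φ : V → ℝ) (H : ℤ → V) (a b : ℤ) :
    defect t H a b = (hp t φ H b - hp t φ H a) - ptY t φ (H a) (H b) := by
  unfold defect hp ptY; ring

end det

variable {μ : ℝ × ℝ → ℝ} {F : FlatData μ} (h : Hwy F)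

/-- visits of a walk in `-A₁ ≤ al < A₂ - κ` to a highway -/
lemma visit {u : ℝ} {θ : ℝ × ℝ} {t : Environment} {k : ℤ} {A₁ A₂ : ℝ}
    (h1 : -A₁ ≤ F.al (pos θ (h.H u θ t k))) (h2 : F.al (pos θ (h.H u θ t k)) < A₂ - h.κ) :
    h.ix (-A₁) u θ t ≤ k ∧ k ≤ h.ix A₂ u θ t :=
  ⟨M56.ix_le_of_ge h1, (M56.lt_ix_of_lt h2).le⟩

/-- route surgery for the row kernel, excess form -/
theorem hkY_le_walk {t : Environment} (ht : Nn t) {d θ φ : ℝ × ℝ} {I : Set ℝ}
    {s s' σ σ' A₁ A₂ : ℝ} (g : Wk (h.x σ φ.1 θ t) (h.x σ' φ.2 (θ - d) t))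
    (hg : ∀ v ∈ g.support, F.al (pos θ v) ∈ I)
    (hb1 : ∀ v ∈ g.support, -A₁ ≤ F.al (pos θ v) ∧ F.al (pos θ v) < A₂ - h.κ)
    (hb2 : ∀ v ∈ g.support, -A₁ ≤ F.al (pos (θ - d) v) ∧ F.al (pos (θ - d) v) < A₂ - h.κ)
    (hlow : ∀ v ∈ g.support, |F.be (pos θ v)| ≤ h.wH / 2 → s ≤ F.al (pos θ v))
    (hup : ∀ v ∈ g.support, |F.be (pos (θ - d) v)| ≤ h.wH / 2 →
      F.al (pos (θ - d) v) < s' - h.κ) :
    h.hkY d I s s' θ t φ ≤ h.Y s σ φ.1 θ t + exc t (phi F) g + h.Y σ' s' φ.2 (θ - d) t +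
      defect t (h.H φ.1 θ t) (h.ix (-A₁) φ.1 θ t) (h.ix A₂ φ.1 θ t) +
      defect t (h.H φ.2 (θ - d) t) (h.ix (-A₁) φ.2 (θ - d) t) (h.ix A₂ φ.2 (θ - d) t) := by
  unfold Hwy.hkY Hwy.Y
  refine hullY_le_walk (t := t) (φ := phi F) (H := h.Lo θ t φ) (H' := h.Up d θ t φ)
    (i := h.iL s θ t φ) (j := h.iU d s' θ t φ) (i₀ := h.ix σ φ.1 θ t)
    (j₀ := h.ix σ' φ.2 (θ - d) t) ht (h.isHwy _ _ _) (h.isHwy _ _ _) g hg ?_ ?_
  · intro k hk
    obtain ⟨e1, e2⟩ := hb1 _ hk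
    obtain ⟨f1, f2⟩ := visit h (θ := θ) (t := t) (u := φ.1) (k := k) e1 e2
    exact ⟨M56.ix_le_of_ge (hlow _ hk (h.strip _ _ _ _)), f1, f2⟩
  · intro k hk
    obtain ⟨e1, e2⟩ := hb2 _ hk
    obtain ⟨f1, f2⟩ := visit h (θ := θ - d) (t := t) (u := φ.2) (k := k) e1 e2
    exact ⟨(M56.lt_ix_of_lt (hup _ hk (h.strip _ _ _ _))).le, f1, f2⟩

/-- bound for the defects -/
lemma defect_le {t : Environment} {u D : ℝ} {θ : ℝ × ℝ} {s s' : ℝ}
    (hD : |passageTime t (h.x s u θ t) (h.x s' u θ t) -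
      μ (toR (h.x s' u θ t - h.x s u θ t))| ≤ D) :
    defect t (h.H u θ t) (h.ix s u θ t) (h.ix s' u θ t) ≤ h.Y s s' u θ t + D := by
  rw [defect_eq t (phi F)]
  have h1 : -D ≤ ptY t (phi F) (h.x s u θ t) (h.x s' u θ t) := by
    have h2 := (abs_le.1 hD).1
    have h3 := F.ψ_nonneg (toR (h.x s' u θ t - h.x s u θ t))
    unfold FlatData.ψ at h3
    unfold ptY
    rw [R6.phi_sub]
    linarith
  unfold Hwy.Y
  unfold Hwy.x at h1
  linarith

/-- the excess of a piece of highway is at least minus the deviation -/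
lemma Y_ge {t : Environment} (ht : Nn t) {u D : ℝ} {θ : ℝ × ℝ} {s s' : ℝ} (hs : s ≤ s')
    (hD : |passageTime t (h.x s u θ t) (h.x s' u θ t) -
      μ (toR (h.x s' u θ t - h.x s u θ t))| ≤ D) : -D ≤ h.Y s s' u θ t := by
  have h1 := (h.isHwy u θ t).defect_nonneg ht (M56.ix_mono (h := h) (u := u) (θ := θ) (t := t) hs)
  have := defect_le h hD
  linarith

end Crest.Agent.R151.E792
end

-- ▼ part R151/E792b
section

/-!
# R151 / S0214 part 2, [E8] height selection, part b: chains of short geodesics (helper792)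

`tube x y K ρ` = union of the balls of radius `ρ` around the `K + 1` points `ch x y K i` of the
segment from `x` to `y`. Passage times restricted to the tube: `tube_good` (if the deviation from
the shape is small) and `tube_crude` (always).
-/

set_option autoImplicit false

open MeasureTheory Filter ProbabilityTheory Topology
open Crest.ProbabilityR.FirstPassage

namespace Crest.Agent.R151.E792

open K R78 B710 Q

/-- union of balls around the points of the segment -/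
def tube (x y : ℤ × ℤ) (K ρ : ℕ) : Set (ℤ × ℤ) := {v | ∃ i ≤ K, n1 (v - ch x y K i) ≤ ρ}

lemma mem_tube {x y v : ℤ × ℤ} {K ρ i : ℕ} (hi : i ≤ K) (hv : n1 (v - ch x y K i) ≤ ρ) :
    v ∈ tube x y K ρ := ⟨i, hi, hv⟩

lemma ch_mem_tube {x y : ℤ × ℤ} {K ρ i : ℕ} (hi : i ≤ K) : ch x y K i ∈ tube x y K ρ :=
  mem_tube hi (by simp [n1])

/-- the L-shaped path from `x` to `y` -/
def Lset (x y : ℤ × ℤ) : Set (ℤ × ℤ) :=
  {z | (z.2 = x.2 ∧ ((x.1 ≤ z.1 ∧ z.1 ≤ y.1) ∨ (y.1 ≤ z.1 ∧ z.1 ≤ x.1))) ∨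
    (z.1 = y.1 ∧ ((x.2 ≤ z.2 ∧ z.2 ≤ y.2) ∨ (y.2 ≤ z.2 ∧ z.2 ≤ x.2)))}

lemma LIn_Lset (x y : ℤ × ℤ) : LIn (Lset x y) x y :=
  ⟨fun _ hi => Or.inl ⟨rfl, hi⟩, fun _ hi => Or.inr ⟨rfl, hi⟩⟩

lemma Lset_n1 {x y z : ℤ × ℤ} (hz : z ∈ Lset x y) : n1 (z - x) ≤ n1 (y - x) := by
  obtain ⟨x1, x2⟩ := x
  obtain ⟨y1, y2⟩ := y
  obtain ⟨z1, z2⟩ := z
  simp only [Lset, Set.mem_ofPred_eq, n1, Prod.fst_sub, Prod.snd_sub] at hz ⊢
  rcases hz with ⟨rfl, h⟩ | ⟨rfl, h⟩ <;> omega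

variable {t : Environment} {μ : ℝ × ℝ → ℝ}

/-- **good case**: a chain of local geodesics -/
lemma tube_good (ht : Nn t) {c m1 : ℝ} (hc : 0 < c) (hm : 0 ≤ m1)
    (hlow : ∀ v, c * l1 v ≤ μ v) (hup : ∀ v, μ v ≤ m1 * l1 v)
    (hlip : ∀ v w, |μ v - μ w| ≤ m1 * l1 (v - w)) (hhom : ∀ s : ℝ, 0 ≤ s → ∀ v, μ (s • v) = s * μ v)
    {K ρ N : ℕ} (hK : 0 < K) {x y : ℤ × ℤ}
    (hball : ∀ i ≤ K, ∀ z, n1 (z - ch x y K i) ≤ ρ + 1 → z ∈ box N)
    (hD : m1 * ((n1 (y - x) : ℝ) / K + 2) + 2 * dev μ N t ≤ c * ρ) :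
    Conn (tube x y K ρ) x y ∧
    pR t (tube x y K ρ) x y ≤ μ (toR (y - x)) + 2 * K * m1 + K * dev μ N t := by
  set D := dev μ N t with hDdef
  have hKR : (0 : ℝ) < K := by exact_mod_cast hK
  have hmem : ∀ i ≤ K, ch x y K i ∈ box N := fun i hi => hball i hi _ (by simp [n1])
  have hinner : ∀ i < K, Conn (tube x y K ρ) (ch x y K i) (ch x y K (i + 1)) ∧
      pR t (tube x y K ρ) (ch x y K i) (ch x y K (i + 1)) ≤
        (1 / K : ℝ) * μ (toR (y - x)) + 2 * m1 + D := by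
    intro i hi
    have hstep := ch_step_n1 x y hK i
    have hloc := local_eq (R := tube x y K ρ) (μ := μ) ht hc hlow hup (N := N)
      (ρ := ρ) (x := ch x y K i) (y := ch x y K (i + 1)) (hmem _ (by omega))
      (fun z hz => hball i hi.le z hz)
      (fun z hz => mem_tube hi.le hz) (by
        refine le_trans ?_ hD
        have := mul_le_mul_of_nonneg_left hstep hm
        linarith)
    refine ⟨hloc.1, ?_⟩
    rw [hloc.2]
    have h1 := le_dev μ t (hmem i hi.le) (hmem (i + 1) (by omega))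
    rw [← hDdef, abs_le] at h1
    have h2 := hlip (toR (ch x y K (i + 1) - ch x y K i)) ((1 / K : ℝ) • toR (y - x))
    have h3 := ch_step x y hK i
    have h4 := mul_le_mul_of_nonneg_left h3 hm
    rw [hhom _ (by positivity), abs_le] at h2
    linarith
  obtain ⟨hc1, hc2⟩ := pR_chain (R := tube x y K ρ) ht (fun i => ch x y K i) K
    (ch_mem_tube (Nat.zero_le _)) (fun i hi => (hinner i hi).1)
  simp only [ch_zero, ch_self x y hK] at hc1 hc2
  refine ⟨hc1, hc2.trans ?_⟩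
  refine (Finset.sum_le_sum fun i hi => (hinner i (Finset.mem_range.1 hi)).2).trans ?_
  rw [Finset.sum_const, Finset.card_range, nsmul_eq_mul]
  refine le_of_eq ?_
  field_simp

/-- **crude case** -/
lemma tube_crude (ht : Nn t) {K ρ L N : ℕ} (hK : 0 < K) {x y : ℤ × ℤ}
    (hmem : ∀ i ≤ K, ch x y K i ∈ box N)
    (hρ : (n1 (y - x) : ℝ) / K + 2 ≤ ρ) (hL : (n1 (y - x) : ℝ) / K + 2 ≤ L) {B : ℝ}
    (hB : ∀ p ∈ box N, ∀ p' ∈ box N, n1 (p' - p) ≤ L → pR t (Lset p p') p p' ≤ B) :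
    Conn (tube x y K ρ) x y ∧ pR t (tube x y K ρ) x y ≤ K * B := by
  have hinner : ∀ i < K, Conn (tube x y K ρ) (ch x y K i) (ch x y K (i + 1)) ∧
      pR t (tube x y K ρ) (ch x y K i) (ch x y K (i + 1)) ≤ B := by
    intro i hi
    have hstep := ch_step_n1 x y hK i
    have h1 : n1 (ch x y K (i + 1) - ch x y K i) ≤ ρ := by
      exact_mod_cast hstep.trans hρ
    have h2 : n1 (ch x y K (i + 1) - ch x y K i) ≤ L := by
      exact_mod_cast hstep.trans hL
    have hsub : Lset (ch x y K i) (ch x y K (i + 1)) ⊆ tube x y K ρ := fun z hz =>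
      mem_tube hi.le ((Lset_n1 hz).trans h1)
    have hcon := (exists_path_edgesR (LIn_Lset (ch x y K i) (ch x y K (i + 1)))).1
    exact ⟨hcon.mono hsub, (pR_anti ht hsub hcon).trans
      (hB _ (hmem i hi.le) _ (hmem (i + 1) (by omega)) h2)⟩
  obtain ⟨hc1, hc2⟩ := pR_chain (R := tube x y K ρ) ht (fun i => ch x y K i) K
    (ch_mem_tube (Nat.zero_le _)) (fun i hi => (hinner i hi).1)
  simp only [ch_zero, ch_self x y hK] at hc1 hc2
  refine ⟨hc1, hc2.trans ?_⟩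
  refine (Finset.sum_le_sum fun i hi => (hinner i (Finset.mem_range.1 hi)).2).trans ?_
  rw [Finset.sum_const, Finset.card_range, nsmul_eq_mul]

/-- coordinates of the points of the segment -/
lemma ch_near (x y : ℤ × ℤ) {K : ℕ} (hK : 0 < K) (i : ℕ) :
    l1 (toR (ch x y K i) - (toR x + ((i : ℝ) / K) • (toR y - toR x))) ≤ 2 := by
  have hKR : (0 : ℝ) < K := by exact_mod_cast hK
  have key : ∀ a : ℤ, |((a * i / K : ℤ) : ℝ) - (i : ℝ) / K * a| ≤ 1 := by
    intro a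
    have h1 := Int.mul_ediv_add_emod (a * i) K
    have h2 := Int.emod_nonneg (a * i) (show (K : ℤ) ≠ 0 by exact_mod_cast hK.ne')
    have h3 := Int.emod_lt_of_pos (a * i) (show (0 : ℤ) < K by exact_mod_cast hK)
    have g1 : (K : ℝ) * ((a * i / K : ℤ) : ℝ) + ((a * i % K : ℤ) : ℝ) = a * i := by exact_mod_cast h1
    have g2 : (0 : ℝ) ≤ ((a * i % K : ℤ) : ℝ) := by exact_mod_cast h2
    have g3 : ((a * i % K : ℤ) : ℝ) < K := by exact_mod_cast h3
    have g4 : ((a * i / K : ℤ) : ℝ) - (i : ℝ) / K * a = -(((a * i % K : ℤ) : ℝ) / K) := by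
      field_simp
      linarith
    rw [g4, abs_neg, abs_of_nonneg (by positivity), div_le_one hKR]
    exact g3.le
  unfold l1 ch toR
  simp only [Prod.fst_sub, Prod.snd_sub, Prod.fst_add, Prod.snd_add, Prod.smul_fst, Prod.smul_snd,
    smul_eq_mul]
  have k1 := key (y.1 - x.1)
  have k2 := key (y.2 - x.2)
  push_cast at k1 k2 ⊢
  have e1 : (x.1 : ℝ) + (((y.1 - x.1) * i / K : ℤ) : ℝ) - ((x.1 : ℝ) + (i : ℝ) / K * (y.1 - x.1)) =
      (((y.1 - x.1) * i / K : ℤ) : ℝ) - (i : ℝ) / K * (y.1 - x.1) := by ring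
  have e2 : (x.2 : ℝ) + (((y.2 - x.2) * i / K : ℤ) : ℝ) - ((x.2 : ℝ) + (i : ℝ) / K * (y.2 - x.2)) =
      (((y.2 - x.2) * i / K : ℤ) : ℝ) - (i : ℝ) / K * (y.2 - x.2) := by ring
  rw [e1, e2]
  linarith

/-- linear functionals on the tube -/
lemma tube_coord (f : ℝ × ℝ →L[ℝ] ℝ) {x y v : ℤ × ℤ} {K ρ i : ℕ} (hK : 0 < K)
    (hv : n1 (v - ch x y K i) ≤ ρ) (θ : ℝ × ℝ) :
    |f (pos θ v) - (f (pos θ x) + (i : ℝ) / K * (f (pos θ y) - f (pos θ x)))| ≤
      C710.fn f * (ρ + 2) := by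
  have h1 : f (pos θ v) - (f (pos θ x) + (i : ℝ) / K * (f (pos θ y) - f (pos θ x))) =
      f (toR (v - ch x y K i)) + f (toR (ch x y K i) -
        (toR x + ((i : ℝ) / K) • (toR y - toR x))) := by
    unfold pos
    rw [toR_sub]
    simp only [map_add, map_sub, map_smul, smul_eq_mul]
    ring
  rw [h1]
  have h2 := C710.abs_f_le f (toR (v - ch x y K i))
  have h3 := C710.abs_f_le f (toR (ch x y K i) - (toR x + ((i : ℝ) / K) • (toR y - toR x)))
  have h4 := ch_near x y hK i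
  have h5 : l1 (toR (v - ch x y K i)) ≤ ρ := by
    rw [l1_toR]; exact_mod_cast hv
  have h6 := C710.fn_nonneg f
  calc |f (toR (v - ch x y K i)) + f (toR (ch x y K i) -
        (toR x + ((i : ℝ) / K) • (toR y - toR x)))| ≤ _ := abs_add_le _ _
    _ ≤ C710.fn f * ρ + C710.fn f * 2 := add_le_add
        (h2.trans (mul_le_mul_of_nonneg_left h5 h6)) (h3.trans (mul_le_mul_of_nonneg_left h4 h6))
    _ = C710.fn f * (ρ + 2) := by ring

end Crest.Agent.R151.E792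
end

-- ▼ part R151/E792c
section

/-!
# R151 / S0214 part 2, [E8] height selection, part c: the fall `W/16 → -W/8` over a large height,
deterministic part (helper792)
-/

set_option autoImplicit false

open MeasureTheory Filter ProbabilityTheory Topology
open Crest.ProbabilityR.FirstPassage

namespace Crest.Agent.R151.E792

open K R78 B710 Q

/-- real arithmetic for the tube -/
lemma tube_arith {W τ a₀ a₁ b₀ b₁ a b Y : ℝ} (hW : 0 < W) (hτ0 : 0 ≤ τ) (hτ1 : τ ≤ 1)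
    (ha0 : 33 / 400 * W ≤ a₀) (ha0' : a₀ ≤ 33 / 400 * W + W / 1000)
    (ha1 : -(3 / 20 * W) ≤ a₁) (ha1' : a₁ ≤ -(3 / 20 * W) + W / 1000)
    (hb0 : |b₀| ≤ W / 400) (hb1 : |b₁ - Y| ≤ W / 400) (hY : 3 * W ≤ Y)
    (ha : |a - (a₀ + τ * (a₁ - a₀))| ≤ W / 400) (hb : |b - (b₀ + τ * (b₁ - b₀))| ≤ W / 400) :
    (-(4 / 25 * W) ≤ a ∧ a ≤ 4 / 25 * W) ∧ (b ≤ W / 400 → W / 16 ≤ a) ∧
      (-(W / 400) ≤ b - Y → a < -(W / 8) - W / 200) := by
  rw [abs_le] at hb0 hb1 ha hb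
  have h1 : 0 ≤ τ * (a₀ - a₁) := mul_nonneg hτ0 (by linarith)
  have h2 : 0 ≤ (1 - τ) * (a₀ - a₁) := mul_nonneg (by linarith) (by linarith)
  refine ⟨⟨by nlinarith, by nlinarith⟩, fun h => ?_, fun h => ?_⟩
  · have h3 : τ * (b₁ - b₀) ≤ 3 * W / 400 := by linarith
    have h4 : τ * (2 * W) ≤ τ * (b₁ - b₀) := mul_le_mul_of_nonneg_left (by linarith) hτ0
    have h5 : τ * (a₀ - a₁) ≤ τ * W := mul_le_mul_of_nonneg_left (by linarith) hτ0
    nlinarith
  · have h3 : (1 - τ) * (b₁ - b₀) ≤ 3 * W / 400 := by linarith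
    have h4 : (1 - τ) * (2 * W) ≤ (1 - τ) * (b₁ - b₀) :=
      mul_le_mul_of_nonneg_left (by linarith) (by linarith)
    have h5 : (1 - τ) * (a₀ - a₁) ≤ (1 - τ) * W :=
      mul_le_mul_of_nonneg_left (by linarith) (by linarith)
    nlinarith

variable {μ : ℝ × ℝ → ℝ} {F : FlatData μ} (h : Hwy F)

/-- end points of the fall -/
noncomputable abbrev fx (W : ℝ) (θ : ℝ × ℝ) (t : Environment) (φ : ℝ × ℝ) : ℤ × ℤ :=
  h.x (33 / 400 * W) φ.1 θ t

/-- end points of the fall -/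
noncomputable abbrev fy (W Y : ℝ) (θ : ℝ × ℝ) (t : Environment) (φ : ℝ × ℝ) : ℤ × ℤ :=
  h.x (-(3 / 20 * W)) φ.2 (θ - Y • F.b) t

/-- the tube of the fall is in the right place -/
lemma tube_place {W Y : ℝ} (hW : 0 < W) (hwH : h.wH ≤ W / 200) (hY : 3 * W ≤ Y)
    (hc : cF F ≤ W / 1000) {K ρ : ℕ} (hK : 0 < K) (h1 : C710.fn F.al * (ρ + 2) ≤ W / 400)
    (h2 : C710.fn F.be * (ρ + 2) ≤ W / 400) (θ : ℝ × ℝ) (t : Environment) (φ : ℝ × ℝ)
    {v : ℤ × ℤ} (hv : v ∈ tube (fx h W θ t φ) (fy h W Y θ t φ) K ρ) :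
    (-(4 / 25 * W) ≤ F.al (pos θ v) ∧ F.al (pos θ v) ≤ 4 / 25 * W) ∧
      (F.be (pos θ v) ≤ W / 400 → W / 16 ≤ F.al (pos θ v)) ∧
      (-(W / 400) ≤ F.be (pos θ v) - Y → F.al (pos θ v) < -(W / 8) - W / 200) := by
  obtain ⟨i, hi, hv⟩ := hv
  have hKR : (0 : ℝ) < K := by exact_mod_cast hK
  have e1 := tube_coord F.al hK hv θ
  have e2 := tube_coord F.be hK hv θ
  refine tube_arith (τ := (i : ℝ) / K) hW (by positivity) ?_ ?_ ?_ ?_ ?_ ?_ ?_ hY (e1.trans h1)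
    (e2.trans h2)
  · rw [div_le_one hKR]; exact_mod_cast hi
  · exact M56.al_x_ge h _ _ _ _
  · have := h.al_x_le (33 / 400 * W) φ.1 θ t
    unfold fx Hwy.x
    linarith
  · have := M56.al_x_ge h (-(3 / 20 * W)) φ.2 (θ - Y • F.b) t
    rw [M192.al_pos_sub_b] at this
    exact this
  · have := h.al_x_le (-(3 / 20 * W)) φ.2 (θ - Y • F.b) t
    rw [M192.al_pos_sub_b] at this
    unfold fy Hwy.x
    linarith
  · have := M56.be_x h (33 / 400 * W) φ.1 θ t
    unfold fx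
    linarith
  · have := M56.be_x h (-(3 / 20 * W)) φ.2 (θ - Y • F.b) t
    rw [M192.be_pos_sub_b] at this
    unfold fy
    linarith

/-- displacement of the fall -/
lemma fall_disp {W Y : ℝ} (hW : 0 < W) (hwH : h.wH ≤ W / 200)
    (hc : cF F ≤ W / 1000) (θ : ℝ × ℝ) (t : Environment) (φ : ℝ × ℝ) :
    (-(W / 4) ≤ F.al (toR (fy h W Y θ t φ - fx h W θ t φ)) ∧
      F.al (toR (fy h W Y θ t φ - fx h W θ t φ)) ≤ 0) ∧
    (Y - W ≤ F.be (toR (fy h W Y θ t φ - fx h W θ t φ)) ∧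
      F.be (toR (fy h W Y θ t φ - fx h W θ t φ)) ≤ Y + W) := by
  rw [← pos_sub_pos θ, map_sub, map_sub]
  have a1 : 33 / 400 * W ≤ F.al (pos θ (fx h W θ t φ)) := M56.al_x_ge h _ _ _ _
  have a2 : F.al (pos θ (fx h W θ t φ)) ≤ 33 / 400 * W + cF F := h.al_x_le (33 / 400 * W) φ.1 θ t
  have a3 := M56.al_x_ge h (-(3 / 20 * W)) φ.2 (θ - Y • F.b) t
  rw [M192.al_pos_sub_b] at a3
  have a4 := h.al_x_le (-(3 / 20 * W)) φ.2 (θ - Y • F.b) t
  rw [M192.al_pos_sub_b] at a4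
  have b1 := M56.be_x h (33 / 400 * W) φ.1 θ t
  have b2 := M56.be_x h (-(3 / 20 * W)) φ.2 (θ - Y • F.b) t
  rw [M192.be_pos_sub_b] at b2
  rw [abs_le] at b1 b2
  change _ ≤ F.al (pos θ (fy h W Y θ t φ)) at a3
  change F.al (pos θ (fy h W Y θ t φ)) ≤ _ at a4
  change _ ≤ F.be (pos θ (fx h W θ t φ)) ∧ F.be (pos θ (fx h W θ t φ)) ≤ _ at b1
  change _ ≤ F.be (pos θ (fy h W Y θ t φ)) - Y ∧ F.be (pos θ (fy h W Y θ t φ)) - Y ≤ _ at b2
  refine ⟨⟨by linarith, by linarith⟩, ⟨by linarith [b1.2, b2.1], by linarith [b1.1, b2.2]⟩⟩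

/-- `ψ` of a fall of at most `W / 4` over a height of at least `J W` -/
lemma psi_fall_le (hN : NormLike μ) {v : ℝ × ℝ} {W J : ℝ} (hW : 0 ≤ W)
    (h1 : -(W / 4) ≤ F.al v) (h2 : J * W ≤ F.be v) :
    F.ψ v ≤ W * F.ψ (J • F.b - (1 / 4 : ℝ) • F.a) := by
  have e : v = W • (J • F.b - (1 / 4 : ℝ) • F.a) +
      ((F.al v + W / 4) • F.a + (F.be v - J * W) • F.b) := by
    conv_lhs => rw [← F.decomp v]
    module
  have h3 : F.ψ ((F.al v + W / 4) • F.a + (F.be v - J * W) • F.b) = 0 := by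
    refine F.ψ_cone hN ?_ ?_
    · simp; linarith
    · simp; linarith
  calc F.ψ v = F.ψ (W • (J • F.b - (1 / 4 : ℝ) • F.a) +
      ((F.al v + W / 4) • F.a + (F.be v - J * W) • F.b)) := by rw [← e]
    _ ≤ F.ψ (W • (J • F.b - (1 / 4 : ℝ) • F.a)) +
      F.ψ ((F.al v + W / 4) • F.a + (F.be v - J * W) • F.b) := F.ψ_add hN _ _
    _ = W * F.ψ (J • F.b - (1 / 4 : ℝ) • F.a) := by rw [h3, add_zero, F.ψ_smul hN hW]

/-- **the fall, deterministic bound** -/
theorem fall_det {W Y D : ℝ} (hW : 0 < W) (hwH : h.wH ≤ W / 200) (hκ : h.κ ≤ W / 200)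
    (hY : 3 * W ≤ Y) (hc : cF F ≤ W / 1000) {K ρ : ℕ} (hK : 0 < K)
    (h1 : C710.fn F.al * (ρ + 2) ≤ W / 400) (h2 : C710.fn F.be * (ρ + 2) ≤ W / 400)
    {ι : ℝ} (hι : 4 / 25 * W ≤ ι) {t : Environment} (ht : Nn t) {θ φ : ℝ × ℝ}
    (hcon : Conn (tube (fx h W θ t φ) (fy h W Y θ t φ) K ρ) (fx h W θ t φ) (fy h W Y θ t φ))
    (hD1 : |passageTime t (h.x (-(W / 4)) φ.1 θ t) (h.x (W / 4) φ.1 θ t) -
      μ (toR (h.x (W / 4) φ.1 θ t - h.x (-(W / 4)) φ.1 θ t))| ≤ D)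
    (hD2 : |passageTime t (h.x (-(W / 4)) φ.2 (θ - Y • F.b) t) (h.x (W / 4) φ.2 (θ - Y • F.b) t) -
      μ (toR (h.x (W / 4) φ.2 (θ - Y • F.b) t - h.x (-(W / 4)) φ.2 (θ - Y • F.b) t))| ≤ D) :
    h.hkY (Y • F.b) (Set.Icc (-ι) ι) (W / 16) (-(W / 8)) θ t φ ≤
      (h.Y (W / 16) (33 / 400 * W) φ.1 θ t + h.Y (-(3 / 20 * W)) (-(W / 8)) φ.2 (θ - Y • F.b) t +
        h.Y (-(W / 4)) (W / 4) φ.1 θ t + h.Y (-(W / 4)) (W / 4) φ.2 (θ - Y • F.b) t) +
      (2 * D + 1 + (pR t (tube (fx h W θ t φ) (fy h W Y θ t φ) K ρ) (fx h W θ t φ)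
        (fy h W Y θ t φ) - F.ρ (toR (fy h W Y θ t φ - fx h W θ t φ)))) := by
  obtain ⟨g, hg, hgc⟩ := exists_walk_lt_pR (t := t) hcon (lt_add_one _)
  have hpl := fun v hv => tube_place h hW hwH hY hc hK h1 h2 θ t φ (hg v hv)
  have hκ0 := h.κ_nonneg
  have key := hkY_le_walk h ht (d := Y • F.b) (θ := θ) (φ := φ) (I := Set.Icc (-ι) ι)
    (s := W / 16) (s' := -(W / 8)) (σ := 33 / 400 * W) (σ' := -(3 / 20 * W)) (A₁ := W / 4)
    (A₂ := W / 4) g ?_ ?_ ?_ ?_ ?_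
  · have e1 := defect_le h hD1
    have e2 := defect_le h hD2
    have e3 : exc t (phi F) g = walkCost t g - F.ρ (toR (fy h W Y θ t φ - fx h W θ t φ)) := by
      unfold exc
      rw [R6.phi_sub]
    rw [e3] at key
    linarith
  · intro v hv
    obtain ⟨⟨a1, a2⟩, -⟩ := hpl v hv
    exact ⟨by linarith, by linarith⟩
  · intro v hv
    obtain ⟨⟨a1, a2⟩, -⟩ := hpl v hv
    exact ⟨by linarith, by linarith⟩
  · intro v hv
    obtain ⟨⟨a1, a2⟩, -⟩ := hpl v hv
    rw [M192.al_pos_sub_b]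
    exact ⟨by linarith, by linarith⟩
  · intro v hv hb
    obtain ⟨-, a, -⟩ := hpl v hv
    exact a (by linarith [(abs_le.1 hb).2])
  · intro v hv hb
    obtain ⟨-, -, a⟩ := hpl v hv
    rw [M192.be_pos_sub_b] at hb
    rw [M192.al_pos_sub_b]
    have := a (by linarith [(abs_le.1 hb).1])
    linarith

end Crest.Agent.R151.E792
end

-- ▼ part R151/E792d
section

/-!
# R151 / S0214 part 2, [E8] height selection, part d: crude bound for all the L-shaped paths of a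
box (helper792)
-/

set_option autoImplicit false

open MeasureTheory Filter ProbabilityTheory Topology
open Crest.ProbabilityR.FirstPassage

namespace Crest.Agent.R151.E792

open K R78 B710 Q

/-- edge set of the L-shaped path -/
noncomputable def FL (x y : ℤ × ℤ) : Finset (Sym2 (ℤ × ℤ)) :=
  (exists_path_edgesR (LIn_Lset x y)).2.choose

lemma FL_card (x y : ℤ × ℤ) : (FL x y).card ≤ n1 (y - x) :=
  (exists_path_edgesR (LIn_Lset x y)).2.choose_spec.1

lemma pR_Lset_le {t : Environment} (ht : Nn t) (x y : ℤ × ℤ) :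
    pR t (Lset x y) x y ≤ ∑ e ∈ FL x y, t e :=
  (exists_path_edgesR (LIn_Lset x y)).2.choose_spec.2 t ht

variable {G : Measure ℝ} [IsProbabilityMeasure G] {lam : ℝ}

/-- crude bound for all the L-shaped paths of a box -/
theorem exists_crude (h0 : G (Set.Iio 0) = 0) (hlam : 0 < lam)
    (hexp : Integrable (fun x => Real.exp (lam * x)) G) : ∃ CA : ℝ, 0 ≤ CA ∧ ∀ N : ℕ,
      ∃ Z : Environment → ℝ, Integrable Z (iidLaw G) ∧ (∀ t, 0 ≤ Z t) ∧
        ∫ t, Z t ∂(iidLaw G) ≤ 1 / lam ∧ ∀ t, Nn t → ∀ p ∈ box N, ∀ p' ∈ box N,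
          pR t (Lset p p') p p' ≤ CA * N + Z t := by
  set M := ∫ x, Real.exp (lam * x) ∂G with hM
  have hM1 : 1 ≤ M := one_le_M h0 hlam hexp
  have hlog : 0 ≤ Real.log M := Real.log_nonneg hM1
  refine ⟨(8 + 4 * Real.log M) / lam, by positivity, fun N => ?_⟩
  set A : ℝ := (8 + 4 * Real.log M) / lam * N with hA
  have hlA : lam * A = 8 * N + 4 * N * Real.log M := by
    rw [hA]; field_simp
  set f : (ℤ × ℤ) × (ℤ × ℤ) → Environment → ℝ := fun p t =>
    Real.exp (lam * ∑ e ∈ FL p.1 p.2, t e) * (1 / lam * Real.exp (-(lam * A))) with hf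
  have hfi : ∀ p, Integrable (f p) (iidLaw G) := fun p =>
    (exp_sum hexp (FL p.1 p.2)).1.mul_const _
  have hf0 : ∀ p t, 0 ≤ f p t := fun p t => by
    simp only [hf]; positivity
  refine ⟨fun t => ∑ p ∈ box N ×ˢ box N, f p t, integrable_finsetSum _ fun p _ => hfi p,
    fun t => Finset.sum_nonneg fun p _ => hf0 p t, ?_, ?_⟩
  · rw [integral_finsetSum _ fun p _ => hfi p]
    have h1 : ∀ p ∈ box N ×ˢ box N, ∫ t, f p t ∂(iidLaw G) ≤
        1 / lam * Real.exp (-(8 * N : ℝ)) := by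
      intro p hp
      rw [Finset.mem_product] at hp
      simp only [hf]
      rw [integral_mul_const, (exp_sum hexp (FL p.1 p.2)).2, ← hM]
      have h2 : M ^ (FL p.1 p.2).card ≤ M ^ (4 * N) :=
        pow_le_pow_right₀ hM1 ((FL_card _ _).trans (n1_le_of_box hp.1 hp.2))
      have h3 : M ^ (4 * N) = Real.exp (4 * N * Real.log M) := by
        rw [show (4 * N * Real.log M : ℝ) = ((4 * N : ℕ) : ℝ) * Real.log M by push_cast; ring,
          Real.exp_nat_mul, Real.exp_log (by linarith)]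
      calc M ^ (FL p.1 p.2).card * (1 / lam * Real.exp (-(lam * A)))
          ≤ M ^ (4 * N) * (1 / lam * Real.exp (-(lam * A))) := by gcongr
        _ = 1 / lam * Real.exp (-(8 * N : ℝ)) := by
          rw [h3, hlA, mul_left_comm, ← Real.exp_add]
          congr 2
          ring
    refine (Finset.sum_le_card_nsmul _ _ _ h1).trans ?_
    rw [Finset.card_product, card_box, nsmul_eq_mul]
    have h4 : ((2 * N + 1 : ℕ) : ℝ) ≤ Real.exp (2 * N) := by
      have := Real.add_one_le_exp (2 * N : ℝ)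
      push_cast
      exact this
    have h5 : ((((2 * N + 1) ^ 2 * (2 * N + 1) ^ 2 : ℕ)) : ℝ) ≤ Real.exp (8 * N) := by
      push_cast
      push_cast at h4
      calc ((2 * N + 1 : ℝ)) ^ 2 * (2 * N + 1) ^ 2 = (2 * N + 1 : ℝ) ^ 4 := by ring
        _ ≤ (Real.exp (2 * N)) ^ 4 := by gcongr
        _ = Real.exp (8 * N) := by rw [← Real.exp_nat_mul]; congr 1; push_cast; ring
    calc _ ≤ Real.exp (8 * N) * (1 / lam * Real.exp (-(8 * N : ℝ))) := by gcongr
      _ = 1 / lam := by rw [mul_left_comm, ← Real.exp_add]; simp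
  · intro t ht p hp p' hp'
    have h1 := pR_Lset_le ht p p'
    set S := ∑ e ∈ FL p p', t e with hS
    have h2 : S ≤ A + f (p, p') t := by
      simp only [hf]
      rw [← hS, mul_left_comm, ← Real.exp_add]
      have h3 := Real.add_one_le_exp (lam * S + -(lam * A))
      have h4 : S - A ≤ 1 / lam * Real.exp (lam * S + -(lam * A)) := by
        rw [one_div, inv_mul_eq_div, le_div_iff₀ hlam]
        linarith
      linarith
    have h3 : f (p, p') t ≤ ∑ p ∈ box N ×ˢ box N, f p t :=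
      Finset.single_le_sum (f := fun p => f p t) (fun p _ => hf0 p t)
        (Finset.mem_product.2 ⟨hp, hp'⟩)
    linarith

end Crest.Agent.R151.E792
end

-- ▼ part R151/E792e
section

/-!
# R151 / S0214 part 2, [E8] height selection, part e: pointwise bound of the fall (helper792)
-/

set_option autoImplicit false

open MeasureTheory Filter ProbabilityTheory Topology
open Crest.ProbabilityR.FirstPassage

namespace Crest.Agent.R151.E792

open K R78 B710 Q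

variable {μ : ℝ × ℝ → ℝ} {F : FlatData μ} (h : Hwy F)

lemma rho_eq (F : FlatData μ) (v : ℝ × ℝ) : F.ρ v = F.al v + F.be v := F.ρ_eq v

lemma l1_le_coord (F : FlatData μ) (v : ℝ × ℝ) :
    l1 v ≤ |F.al v| * l1 F.a + |F.be v| * l1 F.b := by
  conv_lhs => rw [← F.decomp v]
  refine (l1_add_le _ _).trans ?_
  rw [C710.l1_smul, C710.l1_smul]

/-- the numerical hypotheses of the pointwise bound -/
structure Par (F : FlatData μ) (c m1 W J : ℝ) (K ρ N N0 : ℕ) : Prop where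
  W_pos : 0 < W
  J_ge : 4 ≤ J
  cF_le : cF F ≤ W / 1000
  K_pos : 0 < K
  al : C710.fn F.al * (ρ + 2) ≤ W / 400
  be : C710.fn F.be * (ρ + 2) ≤ W / 400
  step : (l1 F.a + (J + 1) * l1 F.b) * W / K + 2 ≤ ρ
  step' : m1 * ((l1 F.a + (J + 1) * l1 F.b) * W / K + 2) ≤ c * ρ / 2
  N0_ge : (‖F.a‖ + (J + 1) * ‖F.b‖) * W + 1 ≤ N0
  N_eq : N = N0 + (ρ + 1)

/-- the highway points are in the box -/
lemma x_mem_box {W J : ℝ} {N : ℕ} (hW : 0 ≤ W) (hwH : h.wH ≤ W / 200)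
    (hc : cF F ≤ W / 1000) (hN : (‖F.a‖ + (J + 1) * ‖F.b‖) * W + 1 ≤ N)
    {θ : ℝ × ℝ} (hθ : θ ∈ Set.Ico (0 : ℝ) 1 ×ˢ Set.Ico (0 : ℝ) 1) {t : Environment} {u s y : ℝ}
    (hs : |s| ≤ W / 4) (hy0 : 0 ≤ y) (hy : y ≤ J * W) : h.x s u (θ - y • F.b) t ∈ box N := by
  have h1 := M56.al_x_ge h s u (θ - y • F.b) t
  have h2 := h.al_x_le s u (θ - y • F.b) t
  have h3 := M56.be_x h s u (θ - y • F.b) t
  have h4 : F.al (pos (θ - y • F.b) (h.x s u (θ - y • F.b) t)) ≤ s + cF F := h2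
  rw [M192.al_pos_sub_b] at h1 h4
  rw [M192.be_pos_sub_b] at h3
  rw [abs_le] at hs h3
  refine mem_box_of_pos (v := 0) hθ (R := (‖F.a‖ + (J + 1) * ‖F.b‖) * W) ?_ (by simpa using hN)
  rw [sub_zero]
  refine (M56.norm_le_coord F _).trans ?_
  have h5 : |F.al (pos θ (h.x s u (θ - y • F.b) t))| ≤ W := by
    rw [abs_le]; constructor <;> linarith
  have h6 : |F.be (pos θ (h.x s u (θ - y • F.b) t))| ≤ (J + 1) * W := by
    rw [abs_le]; constructor
    · nlinarith [h3.1]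
    · nlinarith [h3.2]
  have h7 := norm_nonneg F.a
  have h8 := norm_nonneg F.b
  calc _ ≤ W * ‖F.a‖ + (J + 1) * W * ‖F.b‖ := add_le_add
        (mul_le_mul_of_nonneg_right h5 h7) (mul_le_mul_of_nonneg_right h6 h8)
    _ = (‖F.a‖ + (J + 1) * ‖F.b‖) * W := by ring

open Classical in
/-- **pointwise bound of the fall** -/
theorem fall_pt {c m1 CA W J : ℝ} {K ρ N N0 : ℕ} (hP : Par F c m1 W J K ρ N N0)
    (hN : NormLike μ) (hc : 0 < c) (hm : 0 ≤ m1) (hCA : 0 ≤ CA)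
    (hlow : ∀ v, c * l1 v ≤ μ v) (hup : ∀ v, μ v ≤ m1 * l1 v)
    (hwH : h.wH ≤ W / 200) (hκ : h.κ ≤ W / 200) {ι : ℝ} (hι : 4 / 25 * W ≤ ι)
    {t : Environment} (ht : Nn t) {θ φ : ℝ × ℝ}
    (hθ : θ ∈ Set.Ico (0 : ℝ) 1 ×ˢ Set.Ico (0 : ℝ) 1) {z : ℝ} (hz : 0 ≤ z)
    (hZ : ∀ p ∈ box N, ∀ p' ∈ box N, pR t (Lset p p') p p' ≤ CA * N + z) :
    h.hkY ((J * W) • F.b) (Set.Icc (-ι) ι) (W / 16) (-(W / 8)) θ t φ ≤
      (h.Y (W / 16) (33 / 400 * W) φ.1 θ t +
        h.Y (-(3 / 20 * W)) (-(W / 8)) φ.2 (θ - (J * W) • F.b) t +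
        h.Y (-(W / 4)) (W / 4) φ.1 θ t + h.Y (-(W / 4)) (W / 4) φ.2 (θ - (J * W) • F.b) t) +
      (W * F.ψ ((J - 1) • F.b - (1 / 4 : ℝ) • F.a) + 2 * K * m1 + 1 + (K + 2) * dev μ N t +
        K * z + (if c * ρ / 4 < dev μ N t then K * (CA * N) else 0)) := by
  have hW := hP.W_pos
  have hJ := hP.J_ge
  have hKR : (0 : ℝ) < K := by exact_mod_cast hP.K_pos
  have hY : 3 * W ≤ J * W := by nlinarith
  set D := dev μ N t with hDdef
  have hD0 : 0 ≤ D := dev_nonneg _ _ _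
  have hNN0 : N0 ≤ N := by rw [hP.N_eq]; omega
  have hN' : (‖F.a‖ + (J + 1) * ‖F.b‖) * W + 1 ≤ N :=
    hP.N0_ge.trans (by exact_mod_cast hNN0)
  have h00 : θ = θ - (0 : ℝ) • F.b := by simp
  -- points in the box
  have bx : ∀ {s u : ℝ}, |s| ≤ W / 4 → h.x s u θ t ∈ box N0 := by
    intro s u hs
    have := x_mem_box h hW.le hwH hP.cF_le hP.N0_ge hθ (t := t) (u := u) (y := 0) hs le_rfl
      (by positivity)
    rwa [zero_smul, sub_zero] at this
  have by' : ∀ {s u : ℝ}, |s| ≤ W / 4 → h.x s u (θ - (J * W) • F.b) t ∈ box N0 := by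
    intro s u hs
    exact x_mem_box h hW.le hwH hP.cF_le hP.N0_ge hθ hs (by positivity) le_rfl
  have hbox : ∀ {p : ℤ × ℤ}, p ∈ box N0 → p ∈ box N := by
    intro p hp
    exact mem_box_of_near (x := p) (k := 0) hp (by simp [n1]) (by omega)
  have a4 : |-(W / 4)| ≤ W / 4 := by rw [abs_neg, abs_of_pos (by positivity)]
  have a4' : |W / 4| ≤ W / 4 := by rw [abs_of_pos (by positivity)]
  have a5 : |33 / 400 * W| ≤ W / 4 := by rw [abs_of_pos (by positivity)]; linarith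
  have a6 : |-(3 / 20 * W)| ≤ W / 4 := by rw [abs_neg, abs_of_pos (by positivity)]; linarith
  set x := fx h W θ t φ with hx
  set y := fy h W (J * W) θ t φ with hy
  have hxb : x ∈ box N0 := bx a5
  have hyb : y ∈ box N0 := by' a6
  obtain ⟨⟨d1, d2⟩, ⟨d3, d4⟩⟩ := fall_disp h (Y := J * W) hW hwH hP.cF_le θ t φ
  rw [← hx, ← hy] at d1 d2 d3 d4
  -- length of the displacement
  have hn1 : (n1 (y - x) : ℝ) ≤ (l1 F.a + (J + 1) * l1 F.b) * W := by
    rw [← l1_toR]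
    refine (l1_le_coord F _).trans ?_
    have e1 : |F.al (toR (y - x))| ≤ W := by rw [abs_le]; constructor <;> linarith
    have e2 : |F.be (toR (y - x))| ≤ (J + 1) * W := by
      rw [abs_le]; constructor <;> nlinarith
    have e3 := l1_nonneg F.a
    have e4 := l1_nonneg F.b
    calc _ ≤ W * l1 F.a + (J + 1) * W * l1 F.b := add_le_add
          (mul_le_mul_of_nonneg_right e1 e3) (mul_le_mul_of_nonneg_right e2 e4)
      _ = (l1 F.a + (J + 1) * l1 F.b) * W := by ring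
  have hn2 : (n1 (y - x) : ℝ) / K + 2 ≤ (l1 F.a + (J + 1) * l1 F.b) * W / K + 2 := by
    gcongr
  have hball : ∀ i ≤ K, ∀ z, n1 (z - ch x y K i) ≤ ρ + 1 → z ∈ box N := by
    intro i hi z hz
    exact mem_box_of_near (ch_mem_box hP.K_pos hi hxb hyb) hz (by rw [hP.N_eq])
  have hmem : ∀ i ≤ K, ch x y K i ∈ box N := fun i hi => hball i hi _ (by simp [n1])
  -- the two deviations
  have hD1 := le_dev μ t (hbox (bx (s := -(W / 4)) (u := φ.1) a4))
    (hbox (bx (s := W / 4) (u := φ.1) a4'))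
  have hD2 := le_dev μ t (hbox (by' (s := -(W / 4)) (u := φ.2) a4))
    (hbox (by' (s := W / 4) (u := φ.2) a4'))
  -- the crude bound
  obtain ⟨hcon, hcr⟩ := tube_crude (K := K) (ρ := ρ) (L := ρ) (N := N) ht hP.K_pos (x := x)
    (y := y) hmem (hn2.trans hP.step) (hn2.trans hP.step) (B := CA * N + z)
    (fun p hp p' hp' _ => hZ p hp p' hp')
  have key := fall_det h (Y := J * W) (D := D) hW hwH hκ hY hP.cF_le hP.K_pos hP.al hP.be hι ht
    hcon hD1 hD2
  rw [← hx, ← hy] at key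
  refine key.trans (add_le_add le_rfl ?_)
  have hψ : F.ψ (toR (y - x)) ≤ W * F.ψ ((J - 1) • F.b - (1 / 4 : ℝ) • F.a) :=
    psi_fall_le hN hW.le d1 (by nlinarith)
  have hψ0 := F.ψ_nonneg (toR (y - x))
  split_ifs with hbad
  · -- crude case
    have e1 : 0 ≤ F.ρ (toR (y - x)) := by
      rw [rho_eq]; nlinarith
    have e2 : 0 ≤ (K : ℝ) * D := by positivity
    have e3 : 0 ≤ 2 * (K : ℝ) * m1 := by positivity
    have e4 : ((K : ℝ) + 2) * D = K * D + 2 * D := by ring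
    have e5 : (K : ℝ) * (CA * N + z) = K * (CA * N) + K * z := by ring
    rw [e4]
    rw [e5] at hcr
    linarith
  · -- good case
    push Not at hbad
    obtain ⟨-, hg⟩ := tube_good (K := K) (ρ := ρ) (N := N) (μ := μ) ht hc hm hlow hup
      (fun v w => (hN.abs_sub_le v w).trans (hup _)) (fun s hs v => hN.smul s v hs) hP.K_pos
      (x := x) (y := y) hball (by
        have e1 := mul_le_mul_of_nonneg_left hn2 hm
        have e2 := hP.step'
        rw [← hDdef]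
        linarith)
    have e1 : μ (toR (y - x)) - F.ρ (toR (y - x)) = F.ψ (toR (y - x)) := rfl
    have e2 : 0 ≤ (K : ℝ) * z := by positivity
    have e4 : ((K : ℝ) + 2) * D = K * D + 2 * D := by ring
    rw [e4]
    rw [← hDdef] at hg
    linarith

end Crest.Agent.R151.E792
end

-- ▼ part R151/E792f
section

/-!
# R151 / S0214 part 2, [E8] height selection, part f: means on the space of one row (helper792)
-/

set_option autoImplicit false

open MeasureTheory Filter ProbabilityTheory Topology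
open Crest.ProbabilityR.FirstPassage

namespace Crest.Agent.R151.E792

open K R78 B710 Q

variable {μ : ℝ × ℝ → ℝ} {F : FlatData μ} {G : Measure ℝ} [IsProbabilityMeasure G]

lemma Y_inv (h : Hwy F) (s s' u : ℝ) : Inv fun θ t => h.Y s s' u θ t := by
  intro m θ t
  have hH : h.H u (θ + toR m) (act (tr m) t) = fun k => h.H u θ t k - m := by
    funext k; exact h.cov u θ t m k
  unfold Hwy.Y
  beta_reduce
  rw [M192.ix_cov, M192.ix_cov, hH, M192.hp_tr, M192.hp_tr]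
  ring

lemma meas_Y {Ω : Type*} [MeasurableSpace Ω] {u : Ω → ℝ} {θ : Ω → ℝ × ℝ} {T : Ω → Environment}
    (h : Hwy F) (hu : Measurable u) (hθ : Measurable θ) (hT : Measurable T) (s s' : ℝ) :
    Measurable fun ω => h.Y s s' (u ω) (θ ω) (T ω) := by
  have h1 : ∀ s, Measurable fun ω => hp (T ω) (phi F) (h.H (u ω) (θ ω) (T ω))
      (h.ix s (u ω) (θ ω) (T ω)) := by
    intro s
    unfold hp
    refine (Q.measurable_at (fun k => Q.measurable_hc hT (fun k => h.meas_H hu hθ hT k) k)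
      (h.meas_ix s hu hθ hT)).sub ?_
    have : Measurable (phi F) := measurable_of_countable _
    exact this.comp (Q.measurable_at (fun k => h.meas_H hu hθ hT k) (h.meas_ix s hu hθ hT))
  exact (h1 s').sub (h1 s)

lemma mp_lo : MeasurePreserving (fun q : ((ℝ × ℝ) × Environment) × (ℝ × ℝ) => (q.2.1, q.1))
    ((P0 G).prod (UU.prod UU)) (UU.prod (P0 G)) := by
  have h1 : MeasurePreserving (Prod.map (id : (ℝ × ℝ) × Environment → _) (Prod.fst : ℝ × ℝ → ℝ))
      ((P0 G).prod (UU.prod UU)) ((P0 G).prod UU) :=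
    (MeasurePreserving.id _).prod measurePreserving_fst
  exact (Measure.measurePreserving_swap (μ := P0 G) (ν := UU)).comp h1

lemma mp_up : MeasurePreserving (fun q : ((ℝ × ℝ) × Environment) × (ℝ × ℝ) => (q.2.2, q.1))
    ((P0 G).prod (UU.prod UU)) (UU.prod (P0 G)) := by
  have h1 : MeasurePreserving (Prod.map (id : (ℝ × ℝ) × Environment → _) (Prod.snd : ℝ × ℝ → ℝ))
      ((P0 G).prod (UU.prod UU)) ((P0 G).prod UU) :=
    (MeasurePreserving.id _).prod measurePreserving_snd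
  exact (Measure.measurePreserving_swap (μ := P0 G) (ν := UU)).comp h1

/-- mean of the excess of a piece of the lower highway -/
lemma Y_lo {h : Hwy F} {ε : ℝ} (hm : HwyMean G h ε) (s s' : ℝ) :
    Integrable (fun q : ((ℝ × ℝ) × Environment) × (ℝ × ℝ) => h.Y s s' q.2.1 q.1.1 q.1.2)
      ((P0 G).prod (UU.prod UU)) ∧
    ∫ q, h.Y s s' q.2.1 q.1.1 q.1.2 ∂((P0 G).prod (UU.prod UU)) = (s' - s) * ε := by
  refine ⟨(mp_lo (G := G)).integrable_comp_of_integrable (hm.int s s'), ?_⟩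
  rw [← hm.mean s s']
  exact mp_integral (mp_lo (G := G)) (hm.int s s').aestronglyMeasurable

/-- mean of the excess of a piece of the upper highway -/
lemma Y_up {h : Hwy F} {ε : ℝ} (hm : HwyMean G h ε) (d : ℝ × ℝ) (s s' : ℝ) :
    Integrable (fun q : ((ℝ × ℝ) × Environment) × (ℝ × ℝ) => h.Y s s' q.2.2 (q.1.1 - d) q.1.2)
      ((P0 G).prod (UU.prod UU)) ∧
    ∫ q, h.Y s s' q.2.2 (q.1.1 - d) q.1.2 ∂((P0 G).prod (UU.prod UU)) = (s' - s) * ε := by
  have hi : Integrable (fun q : ((ℝ × ℝ) × Environment) × (ℝ × ℝ) => h.Y s s' q.2.2 q.1.1 q.1.2)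
      ((P0 G).prod (UU.prod UU)) := (mp_up (G := G)).integrable_comp_of_integrable (hm.int s s')
  have he : ∫ q, h.Y s s' q.2.2 q.1.1 q.1.2 ∂((P0 G).prod (UU.prod UU)) = (s' - s) * ε := by
    rw [← hm.mean s s']
    exact mp_integral (mp_up (G := G)) (hm.int s s').aestronglyMeasurable
  have e : (fun q : ((ℝ × ℝ) × Environment) × (ℝ × ℝ) => h.Y s s' q.2.2 (q.1.1 - d) q.1.2) =
      fun q => h.Y s s' q.2.2 (q.1.1 + -d) q.1.2 := by
    funext q; rw [sub_eq_add_neg]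
  constructor
  · rw [e]
    exact integrable_shift_prod (F := fun θ t (ψ : ℝ × ℝ) => h.Y s s' ψ.2 θ t)
      (fun ψ => Y_inv h s s' ψ.2) (-d) hi
  · rw [e, integral_shift_prod (F := fun θ t (ψ : ℝ × ℝ) => h.Y s s' ψ.2 θ t)
      (fun ψ => Y_inv h s s' ψ.2) ?_ (-d), he]
    exact meas_Y h (by fun_prop) (by fun_prop) (by fun_prop) s s'

/-- a function of the environment -/
lemma int_env {f : Environment → ℝ} (hf : Integrable f (iidLaw G)) :
    Integrable (fun q : ((ℝ × ℝ) × Environment) × (ℝ × ℝ) => f q.1.2)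
      ((P0 G).prod (UU.prod UU)) ∧
    ∫ q, f q.1.2 ∂((P0 G).prod (UU.prod UU)) = ∫ t, f t ∂(iidLaw G) := by
  have h1 : MeasurePreserving (Prod.fst : ((ℝ × ℝ) × Environment) × (ℝ × ℝ) → _)
      ((P0 G).prod (UU.prod UU)) (P0 G) := measurePreserving_fst
  have h2 : MeasurePreserving (Prod.snd : (ℝ × ℝ) × Environment → _) (P0 G) (iidLaw G) := by
    unfold P0; exact measurePreserving_snd
  have h3 := h2.comp h1
  exact ⟨h3.integrable_comp_of_integrable hf, mp_integral h3 hf.aestronglyMeasurable⟩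

set_option maxHeartbeats 1000000 in
/-- choice of the numerical parameters -/
lemma exists_par (F : FlatData μ) {c m1 J : ℝ} (hc : 0 < c) (hm : 0 ≤ m1) (hJ : 4 ≤ J) :
    ∃ (K : ℕ) (C2 c2 W0 : ℝ), 0 < K ∧ 0 < C2 ∧ 0 < c2 ∧ 0 < W0 ∧ ∀ W ≥ W0, ∃ ρ N N0 : ℕ,
      Par F c m1 W J K ρ N N0 ∧ (N : ℝ) ≤ C2 * W ∧ c2 * N ≤ c * ρ / 4 ∧ W ≤ N := by
  set nA := C710.fn F.al with hnA
  set nB := C710.fn F.be with hnB
  have hA0 : 0 ≤ nA := C710.fn_nonneg _
  have hB0 : 0 ≤ nB := C710.fn_nonneg _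
  set Cρ : ℝ := 800 * (nA + nB + 1) with hCρ
  have hCρ1 : 800 ≤ Cρ := by rw [hCρ]; nlinarith
  have hCρ0 : 0 < Cρ := by linarith
  set C1 : ℝ := l1 F.a + (J + 1) * l1 F.b with hC1
  have hC10 : 0 ≤ C1 := by
    have := l1_nonneg F.a
    have := l1_nonneg F.b
    positivity
  set b0 : ℝ := min (c / (8 * Cρ * (m1 + 1))) (1 / (4 * Cρ)) with hb0
  have hb0p : 0 < b0 := lt_min (by positivity) (by positivity)
  have hb1 : b0 ≤ c / (8 * Cρ * (m1 + 1)) := min_le_left _ _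
  have hb2 : b0 ≤ 1 / (4 * Cρ) := min_le_right _ _
  obtain ⟨K, hK⟩ := exists_nat_ge (C1 / b0 + 1)
  have hK1 : (1 : ℝ) ≤ K := le_trans (by have : 0 ≤ C1 / b0 := by positivity
                                         linarith) hK
  have hKp : 0 < K := by
    have : (0 : ℝ) < K := by linarith
    exact_mod_cast this
  set R : ℝ := ‖F.a‖ + (J + 1) * ‖F.b‖ with hR
  have hR0 : 0 ≤ R := by positivity
  refine ⟨K, R + 6, c / (8 * Cρ * (R + 6)), 2 / b0 + 2 * Cρ + 1600 * nA + 1600 * nB +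
    1000 * cF F + 1, hKp, by positivity, by positivity, ?_, fun W hW => ?_⟩
  · have := cF_nonneg F
    positivity
  have hcF0 := cF_nonneg F
  have hb0' : 0 < 2 / b0 := by positivity
  have hW1 : 1 ≤ W := by linarith
  have hW0 : 0 < W := by linarith
  have hW2 : 2 / b0 ≤ W := by linarith
  have hW3 : 2 * Cρ ≤ W := by linarith
  have hW4 : 1600 * nA ≤ W := by linarith
  have hW5 : 1600 * nB ≤ W := by linarith
  have hW6 : 1000 * cF F ≤ W := by linarith
  have hρ1 := Nat.floor_le (show 0 ≤ W / Cρ by positivity)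
  have hρ2 := Nat.lt_floor_add_one (W / Cρ)
  set ρ := ⌊W / Cρ⌋₊ with hρ
  have hρ3 : W / (2 * Cρ) ≤ ρ := by
    have e1 : 1 ≤ W / (2 * Cρ) := by rw [le_div_iff₀ (by positivity)]; linarith
    have e2 : W / Cρ = W / (2 * Cρ) + W / (2 * Cρ) := by field_simp; ring
    linarith
  have hρ4 : (ρ : ℝ) ≤ W / 800 := by
    refine hρ1.trans ?_
    rw [div_le_div_iff_of_pos_left hW0 hCρ0 (by norm_num)]
    exact hCρ1
  have hρn : ∀ x : ℝ, 0 ≤ x → x ≤ nA + nB → 1600 * x ≤ W → x * (ρ + 2) ≤ W / 400 := by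
    intro x hx0 hx1 hx2
    have e1 : x * ρ ≤ W / 800 := by
      have e2 : x * ρ ≤ x * (W / Cρ) := mul_le_mul_of_nonneg_left hρ1 hx0
      have e3 : x * (W / Cρ) ≤ W / 800 := by
        rw [mul_div_assoc', div_le_div_iff₀ hCρ0 (by norm_num), hCρ]
        nlinarith
      linarith
    have : x * 2 ≤ W / 800 := by linarith
    nlinarith
  have hstep : C1 * W / K + 2 ≤ 2 * b0 * W := by
    have e1 : C1 / K ≤ b0 := by
      rw [div_le_iff₀ (by linarith)]
      have : C1 = b0 * (C1 / b0) := by field_simp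
      nlinarith
    have e2 : C1 * W / K = C1 / K * W := by ring
    have e3 : C1 / K * W ≤ b0 * W := mul_le_mul_of_nonneg_right e1 hW0.le
    have e4 : 2 ≤ b0 * W := by
      have := mul_le_mul_of_nonneg_left hW2 hb0p.le
      have e5 : b0 * (2 / b0) = 2 := by field_simp
      linarith
    rw [e2]; linarith
  have hst1 : C1 * W / K + 2 ≤ ρ := by
    have e1 : 2 * b0 * W ≤ W / (2 * Cρ) := by
      have e2 : 2 * b0 * W ≤ 2 * (1 / (4 * Cρ)) * W := by gcongr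
      have e3 : 2 * (1 / (4 * Cρ)) * W = W / (2 * Cρ) := by field_simp; ring
      linarith
    linarith
  have hst2 : m1 * (C1 * W / K + 2) ≤ c * ρ / 2 := by
    have e1 : m1 * (C1 * W / K + 2) ≤ m1 * (2 * b0 * W) := mul_le_mul_of_nonneg_left hstep hm
    have e2 : m1 * (2 * b0 * W) ≤ m1 * (2 * (c / (8 * Cρ * (m1 + 1))) * W) := by gcongr
    have e3 : m1 * (2 * (c / (8 * Cρ * (m1 + 1))) * W) ≤ c * (W / (2 * Cρ)) / 2 := by
      have e4 : c * (W / (2 * Cρ)) / 2 - m1 * (2 * (c / (8 * Cρ * (m1 + 1))) * W) =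
          c * W / (4 * Cρ * (m1 + 1)) := by
        field_simp; ring
      have e5 : 0 ≤ c * W / (4 * Cρ * (m1 + 1)) := by positivity
      linarith
    have e4 : c * (W / (2 * Cρ)) / 2 ≤ c * ρ / 2 := by gcongr
    linarith
  have hN1 := Nat.le_ceil (R * W + W + 1)
  have hN2 := Nat.ceil_lt_add_one (show 0 ≤ R * W + W + 1 by positivity)
  set N0 := ⌈R * W + W + 1⌉₊ with hN0
  have hNN : ((N0 + (ρ + 1) : ℕ) : ℝ) ≤ (R + 6) * W := by
    have e : (R + 6) * W = R * W + 6 * W := by ring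
    rw [e]
    push_cast
    linarith
  refine ⟨ρ, N0 + (ρ + 1), N0, ⟨hW0, hJ, ?_, hKp, ?_, ?_, hst1, hst2, ?_, rfl⟩, hNN, ?_, ?_⟩
  · linarith
  · exact hρn nA hA0 (by linarith) hW4
  · exact hρn nB hB0 (by linarith) hW5
  · linarith
  · have e1 : c / (8 * Cρ * (R + 6)) * ((N0 + (ρ + 1) : ℕ) : ℝ) ≤
        c / (8 * Cρ * (R + 6)) * ((R + 6) * W) := mul_le_mul_of_nonneg_left hNN (by positivity)
    have e2 : c / (8 * Cρ * (R + 6)) * ((R + 6) * W) = c * (W / (2 * Cρ)) / 4 := by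
      field_simp; ring
    have e3 : c * (W / (2 * Cρ)) / 4 ≤ c * ρ / 4 := by gcongr
    linarith
  · push_cast
    have : 0 ≤ R * W := by positivity
    linarith

end Crest.Agent.R151.E792
end

-- ▼ part R151/E792g
section

/-!
# R151 / S0214 part 2, [E8] height selection, part g: mean of the fall `W/16 → -W/8` over the height
`J W` (helper792)
-/

set_option autoImplicit false

open MeasureTheory Filter ProbabilityTheory Topology
open Crest.ProbabilityR.FirstPassage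

namespace Crest.Agent.R151.E792

open K R78 B710 Q

variable {μ : ℝ × ℝ → ℝ} {G : Measure ℝ} [IsProbabilityMeasure G] {lam : ℝ}

open Classical in
/-- integral of the dominating function -/
lemma integral_U {Z : Environment → ℝ} {N : ℕ} (hd : Integrable (dev μ N) (iidLaw G))
    (hZ : Integrable Z (iidLaw G)) (a b c B r : ℝ) (hB : 0 ≤ B) {p : ℝ}
    (hp : (iidLaw G).real {t | r < dev μ N t} ≤ p) :
    Integrable (fun t => a + b * dev μ N t + c * Z t + (if r < dev μ N t then B else 0))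
      (iidLaw G) ∧
    ∫ t, (a + b * dev μ N t + c * Z t + (if r < dev μ N t then B else 0)) ∂(iidLaw G) ≤
      a + b * ∫ t, dev μ N t ∂(iidLaw G) + c * ∫ t, Z t ∂(iidLaw G) + B * p := by
  have hS : MeasurableSet {t | r < dev μ N t} := measurableSet_lt measurable_const
    (measurable_dev μ N)
  have e : (fun t => if r < dev μ N t then B else 0) =
      Set.indicator {t | r < dev μ N t} (fun _ => B) := by
    funext t
    simp only [Set.indicator, Set.mem_ofPred_eq]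
  have h1 : Integrable (fun t => a + b * dev μ N t) (iidLaw G) :=
    (integrable_const a).add (hd.const_mul b)
  have h2 : Integrable (fun t => a + b * dev μ N t + c * Z t) (iidLaw G) :=
    h1.add (hZ.const_mul c)
  have h3 : Integrable (fun t => if r < dev μ N t then B else 0) (iidLaw G) := by
    rw [e]; exact (integrable_const B).indicator hS
  refine ⟨h2.add h3, ?_⟩
  rw [integral_add h2 h3, integral_add h1 (hZ.const_mul c), integral_add (integrable_const a)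
    (hd.const_mul b), integral_const_mul, integral_const_mul, e, integral_indicator_const _ hS]
  simp only [integral_const, probReal_univ, smul_eq_mul, one_mul]
  have := mul_le_mul_of_nonneg_left hp hB
  linarith

/-- **mean of the fall** -/
theorem fall_mean (h0 : G (Set.Iio 0) = 0) (hz : G {0} = 0) (hlam : 0 < lam)
    (hexp : Integrable (fun x => Real.exp (lam * x)) G) (hμ : IsTC G μ) (F : FlatData μ) {e : ℝ}
    (he : 0 < e) : ∃ J : ℝ, 4 ≤ J ∧ ∃ W0 : ℝ, ∀ W ≥ W0, ∀ (h : Hwy F) (ε : ℝ),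
      h.wH ≤ W / 200 → h.κ ≤ W / 200 → HwyMean G h ε → ∀ ι : ℝ, 4 / 25 * W ≤ ι →
      Integrable (fun q : ((ℝ × ℝ) × Environment) × (ℝ × ℝ) => h.hkY ((J * W) • F.b)
        (Set.Icc (-ι) ι) (W / 16) (-(W / 8)) q.1.1 q.1.2 q.2) ((P0 G).prod (UU.prod UU)) →
      ∫ q, h.hkY ((J * W) • F.b) (Set.Icc (-ι) ι) (W / 16) (-(W / 8)) q.1.1 q.1.2 q.2
        ∂((P0 G).prod (UU.prod UU)) ≤ e * W + 2 * W * ε := by
  classical
  have hN : NormLike μ := normLike_of_isTC h0 hz hlam hexp hμ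
  obtain ⟨c, hc, hlow⟩ := hN.lower
  obtain ⟨m1, hm1, hup⟩ := hN.upper
  -- choice of `J`
  obtain ⟨J1, hJ1⟩ := eventually_atTop.1 ((F.lim_height hN (1 / 4) (by norm_num)).eventually
    (gt_mem_nhds (show (0 : ℝ) < e / 4 by positivity)))
  set J : ℝ := max J1 3 + 1 with hJdef
  have hJ4 : 4 ≤ J := by have := le_max_right J1 3; linarith
  have hψJ : F.ψ ((J - 1) • F.b - (1 / 4 : ℝ) • F.a) < e / 4 := by
    have : J - 1 = max J1 3 := by rw [hJdef]; ring
    rw [this]; exact hJ1 _ (le_max_left _ _)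
  obtain ⟨K, C2, c2, W1, hK, hC2, hc2, hW1, hpar⟩ := exists_par F hc hm1.le hJ4
  obtain ⟨CA, hCA, hcrude⟩ := exists_crude h0 hlam hexp
  have hK0 : (0 : ℝ) < K := by exact_mod_cast hK
  set η : ℝ := min c2 (e / (8 * (C2 * (K + 2 + K * CA) + 1))) with hη
  have hη0 : 0 < η := lt_min hc2 (by positivity)
  have hη1 : η ≤ c2 := min_le_left _ _
  have hη2 : η * (8 * (C2 * (K + 2 + K * CA) + 1)) ≤ e := by
    have h1 : η ≤ e / (8 * (C2 * (K + 2 + K * CA) + 1)) := min_le_right _ _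
    rwa [le_div_iff₀ (by positivity)] at h1
  obtain ⟨n1', hn1'⟩ := uniform_shape h0 hlam hexp hμ hη0
  obtain ⟨n2', hn2'⟩ := uniform_shape_prob h0 hlam hexp hμ hη0
  set E0 : ℝ := 2 * K * m1 + 1 + K * (1 / lam) with hE0
  have hE00 : 0 ≤ E0 := by positivity
  refine ⟨J, hJ4, W1 + n1' + n2' + 4 * E0 / e, fun W hW h ε hwH hκ hmean ι hι hint => ?_⟩
  have hEe : 0 ≤ 4 * E0 / e := by positivity
  have hn1p : (0 : ℝ) ≤ n1' := by positivity
  have hn2p : (0 : ℝ) ≤ n2' := by positivity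
  have hWW : W1 ≤ W := by linarith
  have hW0 : 0 < W := by linarith
  obtain ⟨ρ, N, N0, hP, hNC, hNc, hNW⟩ := hpar W hWW
  have hN1 : n1' ≤ N := by
    have : (n1' : ℝ) ≤ N := by linarith
    exact_mod_cast this
  have hN2 : n2' ≤ N := by
    have : (n2' : ℝ) ≤ N := by linarith
    exact_mod_cast this
  obtain ⟨hdi, hdm⟩ := hn1' N hN1
  obtain ⟨Z, hZi, hZ0, hZm, hZ⟩ := hcrude N
  have hbad : (iidLaw G).real {t | c * ρ / 4 < dev μ N t} ≤ η := by
    refine le_trans (measureReal_mono ?_) (hn2' N hN2)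
    intro t ht
    simp only [Set.mem_ofPred_eq] at ht ⊢
    have : η * N ≤ c2 * N := mul_le_mul_of_nonneg_right hη1 (by positivity)
    linarith
  set ψ0 := F.ψ ((J - 1) • F.b - (1 / 4 : ℝ) • F.a) with hψ0
  obtain ⟨hUi, hUm⟩ := integral_U (G := G) hdi hZi (W * ψ0 + 2 * K * m1 + 1) (K + 2) K
    (K * (CA * N)) (c * ρ / 4) (by positivity) hbad
  obtain ⟨y1i, y1m⟩ := Y_lo hmean (W / 16) (33 / 400 * W)
  obtain ⟨y2i, y2m⟩ := Y_up hmean ((J * W) • F.b) (-(3 / 20 * W)) (-(W / 8))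
  obtain ⟨y3i, y3m⟩ := Y_lo hmean (-(W / 4)) (W / 4)
  obtain ⟨y4i, y4m⟩ := Y_up hmean ((J * W) • F.b) (-(W / 4)) (W / 4)
  obtain ⟨ui, um⟩ := int_env (G := G) hUi
  have hYi := ((y1i.add y2i).add y3i).add y4i
  have hmono := integral_mono_ae hint (hYi.add ui) (by
    filter_upwards [ae_P0_Nn (G := G) h0 (ν := UU.prod UU)] with q hq
    have := fall_pt h hP hN hc hm1.le hCA hlow hup hwH hκ hι hq.1 (φ := q.2) hq.2 (hZ0 q.1.2)
      (fun p hp p' hp' => hZ q.1.2 hq.1 p hp p' hp')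
    simp only [Pi.add_apply]
    exact this)
  refine hmono.trans ?_
  have e1 : ∫ q, ((((fun q : ((ℝ × ℝ) × Environment) × (ℝ × ℝ) =>
        h.Y (W / 16) (33 / 400 * W) q.2.1 q.1.1 q.1.2) +
      fun q : ((ℝ × ℝ) × Environment) × (ℝ × ℝ) => h.Y (-(3 / 20 * W)) (-(W / 8)) q.2.2 (q.1.1 - (J * W) • F.b) q.1.2) +
      fun q : ((ℝ × ℝ) × Environment) × (ℝ × ℝ) => h.Y (-(W / 4)) (W / 4) q.2.1 q.1.1 q.1.2) +
      fun q : ((ℝ × ℝ) × Environment) × (ℝ × ℝ) => h.Y (-(W / 4)) (W / 4) q.2.2 (q.1.1 - (J * W) • F.b) q.1.2) q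
        ∂((P0 G).prod (UU.prod UU)) = (33 / 400 * W - W / 16) * ε + (-(W / 8) - -(3 / 20 * W)) * ε +
          (W / 4 - -(W / 4)) * ε + (W / 4 - -(W / 4)) * ε := by
    rw [integral_add' ((y1i.add y2i).add y3i) y4i, integral_add' (y1i.add y2i) y3i,
      integral_add' y1i y2i, y1m, y2m, y3m, y4m]
  rw [integral_add' hYi ui, e1, um]
  have hε := hmean.nonneg
  have hdm' : ((K : ℝ) + 2) * ∫ t, dev μ N t ∂(iidLaw G) ≤ (K + 2) * (η * (C2 * W)) := by
    have : η * N ≤ η * (C2 * W) := mul_le_mul_of_nonneg_left hNC hη0.le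
    have h3 := hdm.trans this
    gcongr
  have hZm' : (K : ℝ) * ∫ t, Z t ∂(iidLaw G) ≤ K * (1 / lam) := by gcongr
  have hb' : (K : ℝ) * (CA * N) * η ≤ K * (CA * (C2 * W)) * η := by gcongr
  have hE : 4 * E0 ≤ e * W := by
    have h1 : 4 * E0 / e ≤ W := by linarith
    rw [div_le_iff₀ he] at h1
    linarith
  have hηW : η * (8 * (C2 * (K + 2 + K * CA) + 1)) * W ≤ e * W :=
    mul_le_mul_of_nonneg_right hη2 hW0.le
  have hψW : W * ψ0 ≤ e / 4 * W := by
    have := mul_le_mul_of_nonneg_left hψJ.le hW0.le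
    linarith
  have hηW' : (K + 2) * (η * (C2 * W)) + K * (CA * (C2 * W)) * η ≤ e * W / 8 := by
    have h1 : η * (8 * (C2 * (K + 2 + K * CA) + 1)) * W =
      8 * ((K + 2) * (η * (C2 * W)) + K * (CA * (C2 * W)) * η) + 8 * (η * W) := by ring
    have h2 : 0 ≤ η * W := by positivity
    linarith
  have hYε : (33 / 400 * W - W / 16) * ε + (-(W / 8) - -(3 / 20 * W)) * ε +
      (W / 4 - -(W / 4)) * ε + (W / 4 - -(W / 4)) * ε ≤ 2 * W * ε := by
    have : 0 ≤ W * ε := by positivity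
    linarith
  linarith

end Crest.Agent.R151.E792
end

-- ▼ part R151/E792h
section

/-!
# R151 / S0214 part 2, [E8] height selection, part h: concatenation of two rows along a private
middle highway (helper792)
-/

set_option autoImplicit false

open MeasureTheory Filter ProbabilityTheory Topology
open Crest.ProbabilityR.FirstPassage

namespace Crest.Agent.R151.E792

open K R78 B710 Q

variable {μ : ℝ × ℝ → ℝ} {F : FlatData μ} (h : Hwy F)

/-- three highways -/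
def tri (H₀ H₁ H₂ : ℤ → V) : ℕ → ℤ → V
  | 0 => H₀
  | 1 => H₁
  | _ => H₂

/-- three indices -/
def tri' {α : Type*} (a b c : α) : ℕ → α
  | 0 => a
  | 1 => b
  | _ => c

/-- three highways of a tower -/
lemma isTower_tri {y₁ y₂ : ℝ} (hy₁ : h.wH < y₁) (hy₂ : h.wH < y₂) (u₁ u₂ u₃ : ℝ) (θ : ℝ × ℝ)
    (t : Environment) : IsTower (1 + 1) (tri (h.H u₁ θ t) (h.H u₂ (θ - y₁ • F.b) t)
      (h.H u₃ (θ - y₁ • F.b - y₂ • F.b) t)) := by
  have e1 : F.be (θ - y₁ • F.b) = F.be θ - y₁ := by simp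
  have e2 : F.be (θ - y₁ • F.b - y₂ • F.b) = F.be θ - y₁ - y₂ := by simp
  refine isTower_of_strips (F := M192.frame F)
    (lo := tri' (-(h.wH / 2) - F.be θ) (-(h.wH / 2) - F.be (θ - y₁ • F.b))
      (-(h.wH / 2) - F.be (θ - y₁ • F.b - y₂ • F.b)))
    (hi := tri' (h.wH / 2 - F.be θ) (h.wH / 2 - F.be (θ - y₁ • F.b))
      (h.wH / 2 - F.be (θ - y₁ • F.b - y₂ • F.b))) ?_ ?_
  · intro k hk
    rcases k with _ | _ | k
    · exact M192.isStrip h u₁ θ t
    · exact M192.isStrip h u₂ _ t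
    · exact M192.isStrip h u₃ _ t
  · intro a b hab hb
    have hb' : b = 1 ∨ b = 2 := by omega
    rcases hb' with rfl | rfl
    · have : a = 0 := by omega
      subst this
      simp only [tri']
      rw [e1]; linarith
    · have : a = 0 ∨ a = 1 := by omega
      rcases this with rfl | rfl
      · simp only [tri']
        rw [e2]; have := M56.wH_nonneg h; linarith
      · simp only [tri']
        rw [e1, e2]; linarith

lemma rg_shift (I : Set ℝ) (θ : ℝ × ℝ) (y : ℝ) : rg F I (θ - y • F.b) = rg F I θ := by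
  ext z
  unfold rg
  rw [Set.mem_ofPred_eq, Set.mem_ofPred_eq, M192.al_pos_sub_b]

section concat

variable {I I' : Set ℝ} (hII : I ⊆ I')
  (hI : ∀ a ∈ I, ∀ b ∈ I, ∀ c, a - h.κ ≤ c → c ≤ b + h.κ → c ∈ I')
  {y₁ y₂ : ℝ} (hy₁ : h.wH < y₁) (hy₂ : h.wH < y₂) {s s' s'' : ℝ} {θ : ℝ × ℝ} {t : Environment}
  {u₁ u₂ u₃ : ℝ}
  (hne₁ : (routes t (h.Lo θ t (u₁, u₂)) (h.Up (y₁ • F.b) θ t (u₁, u₂)) (rg F I θ)
    (h.iL s θ t (u₁, u₂)) (h.iU (y₁ • F.b) s' θ t (u₁, u₂))).Nonempty)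
  (hne₂ : (routes t (h.Lo (θ - y₁ • F.b) t (u₂, u₃)) (h.Up (y₂ • F.b) (θ - y₁ • F.b) t (u₂, u₃))
    (rg F I (θ - y₁ • F.b)) (h.iL s' (θ - y₁ • F.b) t (u₂, u₃))
    (h.iU (y₂ • F.b) s'' (θ - y₁ • F.b) t (u₂, u₃))).Nonempty)
include hII hI hy₁ hy₂ hne₁ hne₂

/-- **concatenation of two rows** (hull kernels in excess form) -/
theorem hkY_concat (ht : Nn t) :
    h.hkY ((y₁ + y₂) • F.b) I' s s'' θ t (u₁, u₃) ≤
      h.hkY (y₁ • F.b) I s s' θ t (u₁, u₂) +
        h.hkY (y₂ • F.b) I s' s'' (θ - y₁ • F.b) t (u₂, u₃) := by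
  have hT := isTower_tri h hy₁ hy₂ u₁ u₂ u₃ θ t
  have key := hT.hull_le_sum (t := t) (A := rg F I θ) (A' := rg F I' θ)
    (fun v hv => hII hv) 1
    (tri' (h.ix s u₁ θ t) (h.ix s' u₂ (θ - y₁ • F.b) t) (h.ix s'' u₃ (θ - y₁ • F.b - y₂ • F.b) t))
    ?_ ?_ (R78.bddBelow_routes ht _ _ _ _ _)
  · rw [Finset.sum_range_succ, Finset.sum_range_one] at key
    have e : θ - (y₁ + y₂) • F.b = θ - y₁ • F.b - y₂ • F.b := by
      rw [add_smul, sub_sub]
    unfold Hwy.hkY hullY Hwy.Lo Hwy.Up Hwy.iL Hwy.iU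
    simp only [e]
    rw [rg_shift I θ y₁]
    change hull t (h.H u₁ θ t) (h.H u₃ (θ - y₁ • F.b - y₂ • F.b) t) (rg F I' θ) (h.ix s u₁ θ t)
      (h.ix s'' u₃ (θ - y₁ • F.b - y₂ • F.b) t) ≤
      hull t (h.H u₁ θ t) (h.H u₂ (θ - y₁ • F.b) t) (rg F I θ) (h.ix s u₁ θ t)
        (h.ix s' u₂ (θ - y₁ • F.b) t) +
      hull t (h.H u₂ (θ - y₁ • F.b) t) (h.H u₃ (θ - y₁ • F.b - y₂ • F.b) t) (rg F I θ)
        (h.ix s' u₂ (θ - y₁ • F.b) t) (h.ix s'' u₃ (θ - y₁ • F.b - y₂ • F.b) t) at key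
    linarith
  · intro k hk1 hk2 w m z hwm hmz hw hz
    have : k = 1 := by omega
    subst this
    change F.al (pos θ (h.H u₂ (θ - y₁ • F.b) t w)) ∈ I at hw
    change F.al (pos θ (h.H u₂ (θ - y₁ • F.b) t z)) ∈ I at hz
    change F.al (pos θ (h.H u₂ (θ - y₁ • F.b) t m)) ∈ I'
    have b1 := h.back u₂ (θ - y₁ • F.b) t w m hwm
    have b2 := h.back u₂ (θ - y₁ • F.b) t m z hmz
    rw [M192.al_pos_sub_b, M192.al_pos_sub_b] at b1 b2
    exact hI _ hw _ hz _ (by linarith) (by linarith)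
  · intro k hk
    have : k = 0 ∨ k = 1 := by omega
    rcases this with rfl | rfl
    · exact hne₁
    · rw [rg_shift I θ y₁] at hne₂
      exact hne₂

end concat

end Crest.Agent.R151.E792
private theorem rz_f596020333 : type_of% @_root_.Crest.Agent.R151.E792.tri'.eq_1 := @_root_.Crest.Agent.R151.E792.tri'.eq_1 -- L27
end

-- ▼ part R151/E792i
section

/-!
# R151 / S0214 part 2, [E8] height selection, part i: means of the concatenation, `sk` (helper792)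
-/

set_option autoImplicit false

open MeasureTheory Filter ProbabilityTheory Topology
open Crest.ProbabilityR.FirstPassage

namespace Crest.Agent.R151.E792

open K R78 B710 Q

variable {μ : ℝ × ℝ → ℝ} {F : FlatData μ} (h : Hwy F)

/-- the gauged kernel in terms of excesses -/
lemma sk_eq (d : ℝ × ℝ) (I J : Set ℝ) (L s s' : ℝ) (θ : ℝ × ℝ) (t : Environment) (φ : ℝ × ℝ) :
    h.sk d I J L s s' θ t φ = h.hkY d I s s' θ t φ - h.hkY d J (-L) L θ t φ +
      h.Y (-L) s φ.1 θ t + h.Y s' L φ.2 (θ - d) t := by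
  unfold Hwy.sk Hwy.hkY Hwy.hk hullY Hwy.Y Hwy.Lo Hwy.Up Hwy.iL Hwy.iU
  ring

lemma sk_nonneg {t : Environment} (ht : Nn t) {d : ℝ × ℝ} {I J : Set ℝ} {L s s' : ℝ}
    {θ φ : ℝ × ℝ} (hIJ : I ⊆ J) (hs : -L ≤ s) (hs' : s' ≤ L)
    (hne : (routes t (h.Lo θ t φ) (h.Up d θ t φ) (rg F I θ) (h.iL s θ t φ)
      (h.iU d s' θ t φ)).Nonempty) : 0 ≤ h.sk d I J L s s' θ t φ := by
  unfold Hwy.sk Hwy.hk
  have := hull_mono (t := t) (H := h.Lo θ t φ) (H' := h.Up d θ t φ) (A := rg F I θ)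
    (B := rg F J θ) (R78.bddBelow_routes ht _ _ _ _ _) hne (fun v hv => hIJ hv)
    (i' := h.iL (-L) θ t φ) (j' := h.iU d L θ t φ) (M56.ix_mono (h := h) hs)
    (M56.ix_mono (h := h) hs')
  linarith

variable {G : Measure ℝ} [IsProbabilityMeasure G]

/-- **mean of a concatenation** -/
theorem mean_concat (h0 : G (Set.Iio 0) = 0) {I I' : Set ℝ} (hII : I ⊆ I')
    (hI : ∀ a ∈ I, ∀ b ∈ I, ∀ c, a - h.κ ≤ c → c ≤ b + h.κ → c ∈ I')
    {y₁ y₂ : ℝ} (hy₁ : h.wH < y₁) (hy₂ : h.wH < y₂) {s s' s'' : ℝ}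
    (hne₁ : ∀ θ t φ, (routes t (h.Lo θ t φ) (h.Up (y₁ • F.b) θ t φ) (rg F I θ)
      (h.iL s θ t φ) (h.iU (y₁ • F.b) s' θ t φ)).Nonempty)
    (hne₂ : ∀ θ t φ, (routes t (h.Lo θ t φ) (h.Up (y₂ • F.b) θ t φ) (rg F I θ)
      (h.iL s' θ t φ) (h.iU (y₂ • F.b) s'' θ t φ)).Nonempty)
    (hi : Integrable (fun q : ((ℝ × ℝ) × Environment) × (ℝ × ℝ) =>
      h.hkY ((y₁ + y₂) • F.b) I' s s'' q.1.1 q.1.2 q.2) ((P0 G).prod (UU.prod UU)))
    (hi₁ : Integrable (fun q : ((ℝ × ℝ) × Environment) × (ℝ × ℝ) =>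
      h.hkY (y₁ • F.b) I s s' q.1.1 q.1.2 q.2) ((P0 G).prod (UU.prod UU)))
    (hi₂ : Integrable (fun q : ((ℝ × ℝ) × Environment) × (ℝ × ℝ) =>
      h.hkY (y₂ • F.b) I s' s'' q.1.1 q.1.2 q.2) ((P0 G).prod (UU.prod UU))) (hIm : MeasurableSet I) :
    ∫ q, h.hkY ((y₁ + y₂) • F.b) I' s s'' q.1.1 q.1.2 q.2 ∂((P0 G).prod (UU.prod UU)) ≤
      ∫ q, h.hkY (y₁ • F.b) I s s' q.1.1 q.1.2 q.2 ∂((P0 G).prod (UU.prod UU)) +
      ∫ q, h.hkY (y₂ • F.b) I s' s'' q.1.1 q.1.2 q.2 ∂((P0 G).prod (UU.prod UU)) := by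
  have m12 : MeasurePreserving (Prod.map (id : (ℝ × ℝ) × Environment → _)
      (Prod.map (id : ℝ → ℝ) (Prod.fst : ℝ × ℝ → ℝ))) ((P0 G).prod (UU.prod (UU.prod UU)))
      ((P0 G).prod (UU.prod UU)) :=
    (MeasurePreserving.id _).prod ((MeasurePreserving.id _).prod measurePreserving_fst)
  have m13 : MeasurePreserving (Prod.map (id : (ℝ × ℝ) × Environment → _)
      (Prod.map (id : ℝ → ℝ) (Prod.snd : ℝ × ℝ → ℝ))) ((P0 G).prod (UU.prod (UU.prod UU)))
      ((P0 G).prod (UU.prod UU)) :=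
    (MeasurePreserving.id _).prod ((MeasurePreserving.id _).prod measurePreserving_snd)
  have m23 : MeasurePreserving (Prod.map (id : (ℝ × ℝ) × Environment → _)
      (Prod.snd : ℝ × (ℝ × ℝ) → ℝ × ℝ)) ((P0 G).prod (UU.prod (UU.prod UU)))
      ((P0 G).prod (UU.prod UU)) :=
    (MeasurePreserving.id _).prod measurePreserving_snd
  -- the shifted second row
  have e : (fun q : ((ℝ × ℝ) × Environment) × (ℝ × ℝ) =>
      h.hkY (y₂ • F.b) I s' s'' (q.1.1 - y₁ • F.b) q.1.2 q.2) =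
      fun q => h.hkY (y₂ • F.b) I s' s'' (q.1.1 + -(y₁ • F.b)) q.1.2 q.2 := by
    funext q; rw [sub_eq_add_neg]
  have hi₂' : Integrable (fun q : ((ℝ × ℝ) × Environment) × (ℝ × ℝ) =>
      h.hkY (y₂ • F.b) I s' s'' (q.1.1 - y₁ • F.b) q.1.2 q.2) ((P0 G).prod (UU.prod UU)) := by
    rw [e]
    exact integrable_shift_prod (F := fun θ t (φ : ℝ × ℝ) => h.hkY (y₂ • F.b) I s' s'' θ t φ)
      (fun φ => h.hkY_inv _ _ _ _ φ) _ hi₂
  have he₂ : ∫ q, h.hkY (y₂ • F.b) I s' s'' (q.1.1 - y₁ • F.b) q.1.2 q.2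
      ∂((P0 G).prod (UU.prod UU)) =
      ∫ q, h.hkY (y₂ • F.b) I s' s'' q.1.1 q.1.2 q.2 ∂((P0 G).prod (UU.prod UU)) := by
    rw [e]
    exact integral_shift_prod (F := fun θ t (φ : ℝ × ℝ) => h.hkY (y₂ • F.b) I s' s'' θ t φ)
      (fun φ => h.hkY_inv _ _ _ _ φ)
      (h.meas_hkY (by fun_prop) (by fun_prop) (by fun_prop) _ hIm _ _) _
  have j13 := m13.integrable_comp_of_integrable hi
  have j12 := m12.integrable_comp_of_integrable hi₁
  have j23 := m23.integrable_comp_of_integrable hi₂'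
  rw [← he₂, ← mp_integral m13 hi.aestronglyMeasurable, ← mp_integral m12 hi₁.aestronglyMeasurable,
    ← mp_integral m23 hi₂'.aestronglyMeasurable]
  refine (integral_mono_ae j13 (j12.add j23) ?_).trans (le_of_eq (integral_add j12 j23))
  filter_upwards [ae_P0_Nn (G := G) h0 (ν := UU.prod (UU.prod UU))] with q hq
  exact hkY_concat h hII hI hy₁ hy₂ (hne₁ _ _ _) (hne₂ _ _ _) hq.1

end Crest.Agent.R151.E792
end

-- ▼ part R151/E792j
section

/-!
# R151 / S0214 part 2, [E8] height selection, part j: upper bound (U) (helper792)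
-/

set_option autoImplicit false

open MeasureTheory Filter ProbabilityTheory Topology
open Crest.ProbabilityR.FirstPassage

namespace Crest.Agent.R151.E792

open K R78 B710 Q

variable {μ : ℝ × ℝ → ℝ} {F : FlatData μ} {G : Measure ℝ} [IsProbabilityMeasure G]

/-- mean of a fence (helper56's `fence_mean`), displacements `y • b` -/
def FM (G : Measure ℝ) (h : Hwy F) (ε : ℝ) : Prop :=
  ∀ (y y₂ s s₂ α β : ℝ) (I : Set ℝ), MeasurableSet I → h.wH + 2 * M56.mg F < y →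
    h.wH + 2 * M56.mg F < y₂ - y → s ≤ α → β + h.κ < s₂ → Set.Icc α β ⊆ I →
    2 * M56.mg F ≤ β - α →
    ∫ q, h.hkY (y • F.b) I s s₂ q.1.1 q.1.2 q.2 ∂((P0 G).prod (UU.prod UU)) ≤
      y₂ * rate G F (β - α) + (s₂ - s + β - α + h.κ + 1) * ε

/-- mean of the gauged kernel -/
lemma integral_sk {h : Hwy F} {ε : ℝ} (hm : HwyMean G h ε) {d : ℝ × ℝ} {I J : Set ℝ}
    {L s s' : ℝ}
    (hi : Integrable (fun q : ((ℝ × ℝ) × Environment) × (ℝ × ℝ) => h.hkY d I s s' q.1.1 q.1.2 q.2)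
      ((P0 G).prod (UU.prod UU)))
    (hj : Integrable (fun q : ((ℝ × ℝ) × Environment) × (ℝ × ℝ) =>
      h.hkY d J (-L) L q.1.1 q.1.2 q.2) ((P0 G).prod (UU.prod UU))) :
    Integrable (fun q : ((ℝ × ℝ) × Environment) × (ℝ × ℝ) => h.sk d I J L s s' q.1.1 q.1.2 q.2)
      ((P0 G).prod (UU.prod UU)) ∧
    ∫ q, h.sk d I J L s s' q.1.1 q.1.2 q.2 ∂((P0 G).prod (UU.prod UU)) =
      ∫ q, h.hkY d I s s' q.1.1 q.1.2 q.2 ∂((P0 G).prod (UU.prod UU)) -
      ∫ q, h.hkY d J (-L) L q.1.1 q.1.2 q.2 ∂((P0 G).prod (UU.prod UU)) +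
      (s + L) * ε + (L - s') * ε := by
  obtain ⟨y1i, y1m⟩ := Y_lo hm (-L) s
  obtain ⟨y2i, y2m⟩ := Y_up hm d s' L
  have e : (fun q : ((ℝ × ℝ) × Environment) × (ℝ × ℝ) => h.sk d I J L s s' q.1.1 q.1.2 q.2) =
      (((fun q : ((ℝ × ℝ) × Environment) × (ℝ × ℝ) => h.hkY d I s s' q.1.1 q.1.2 q.2) -
        (fun q : ((ℝ × ℝ) × Environment) × (ℝ × ℝ) => h.hkY d J (-L) L q.1.1 q.1.2 q.2)) +
        (fun q : ((ℝ × ℝ) × Environment) × (ℝ × ℝ) => h.Y (-L) s q.2.1 q.1.1 q.1.2)) +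
        (fun q : ((ℝ × ℝ) × Environment) × (ℝ × ℝ) => h.Y s' L q.2.2 (q.1.1 - d) q.1.2) := by
    funext q
    exact sk_eq h d I J L s s' q.1.1 q.1.2 q.2
  rw [e]
  refine ⟨((hi.sub hj).add y1i).add y2i, ?_⟩
  rw [integral_add' ((hi.sub hj).add y1i) y2i, integral_add' (hi.sub hj) y1i,
    integral_sub' hi hj, y1m, y2m]
  ring

/-- Markov inequality -/
lemma half_le {Ω : Type*} [MeasurableSpace Ω] {P : Measure Ω} [IsProbabilityMeasure P]
    {X : Ω → ℝ} (hX : Integrable X P) (h0 : ∀ᵐ ω ∂P, 0 ≤ X ω) {c : ℝ} (hc : 0 < c)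
    (hE : ∫ ω, X ω ∂P ≤ c / 2) : 1 / 2 ≤ P.real {ω | X ω ≤ c} := by
  have h1 : c * P.real {ω | c ≤ X ω} ≤ ∫ ω, X ω ∂P :=
    mul_meas_ge_le_integral_of_nonneg h0 hX c
  have h2 : P.real {ω | c ≤ X ω} ≤ 1 / 2 := by
    have : c * P.real {ω | c ≤ X ω} ≤ c * (1 / 2) := by linarith
    exact le_of_mul_le_mul_left this hc
  have h3 : (1 : ℝ) ≤ P.real {ω | X ω ≤ c} + P.real {ω | c ≤ X ω} := by
    rw [← probReal_univ (μ := P)]
    refine le_trans (measureReal_mono ?_) (measureReal_union_le _ _)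
    intro ω _
    rcases le_total (X ω) c with h | h
    · exact Or.inl h
    · exact Or.inr h
  linarith

set_option maxHeartbeats 1600000 in
/-- **(U)** -/
theorem upper_main {lam : ℝ} (h0 : G (Set.Iio 0) = 0) (hz : G {0} = 0) (hlam : 0 < lam)
    (hexp : Integrable (fun x => Real.exp (lam * x)) G) (hμ : IsTC G μ) (F : FlatData μ)
    {CS e : ℝ} (hCS : 0 ≤ CS) (he : 0 < e) : ∃ J : ℝ, 4 ≤ J ∧ ∀ v' : ℝ, 1 ≤ v' →
      ∃ η : ℝ, 0 < η ∧ ∃ W0 : ℝ, ∀ W ≥ W0, ∀ (h : Hwy F) (ε R : ℝ),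
        h.wH ≤ W / 200 → h.κ ≤ W / 200 → HwyMean G h ε → FM G h ε → ε ≤ η → 0 ≤ R →
        rate G F (W / 32) ≤ CS * R → ∀ y : ℝ, J * W ≤ y →
        NF.Qm G h W y (2 * v' * W) (2 * CS * (y * R) + e * W) := by
  have h2 : Integrable (fun x : ℝ => x ^ 2) G := integrable_sq h0 hlam hexp
  obtain ⟨J₁, hJ₁, W1, hfall⟩ := fall_mean h0 hz hlam hexp hμ F (e := e / 8) (by positivity)
  refine ⟨J₁ + 1, by linarith, fun v' hv' => ⟨e / (8 * (4 * v' + 4)), by positivity,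
    |W1| + 100 * M56.mg F + 100 * C710.fn F.al + 100, ?_⟩⟩
  intro W hW h ε R hwH hκ hm hFM hε hR hrate y hy
  have hfn := C710.fn_nonneg F.al
  have hmg := M56.one_le_mg F
  have hab := abs_nonneg W1
  have hWW : W1 ≤ W := by have := le_abs_self W1; linarith
  have hW0 : 100 ≤ W := by linarith
  have hWp : 0 < W := by linarith
  have hmgW : 100 * M56.mg F ≤ W := by linarith
  have hfnW : 100 * C710.fn F.al ≤ W := by linarith
  have hκ0 := h.κ_nonneg
  have hwH0 := M56.wH_nonneg h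
  have hε0 := hm.nonneg
  set ι : ℝ := 7 / 32 * W with hι
  set ι' : ℝ := ι - h.κ with hι'
  set y₁ : ℝ := y - J₁ * W with hy₁
  have hy₁W : W ≤ y₁ := by
    have : (J₁ + 1) * W = J₁ * W + W := by ring
    rw [hy₁]; linarith
  have hJW : 4 * W ≤ J₁ * W := mul_le_mul_of_nonneg_right hJ₁ hWp.le
  have hsum : y₁ + J₁ * W = y := by rw [hy₁]; ring
  have hL : 2 * W ≤ 2 * v' * W := mul_le_mul_of_nonneg_right (by linarith) hWp.le
  set L : ℝ := 2 * v' * W with hLdef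
  have bb : ∀ x : ℝ, F.be (x • F.b) = x := by intro x; simp
  have ab : ∀ x : ℝ, F.al (x • F.b) = 0 := by intro x; simp
  -- the four rows
  have c1 : h.wH + 2 * M56.mg F < F.be (y₁ • F.b) := by rw [bb]; linarith
  have c2 : h.wH + 2 * M56.mg F < F.be ((J₁ * W) • F.b) := by rw [bb]; linarith
  have c3 : h.wH + 2 * M56.mg F < F.be (y • F.b) := by rw [bb]; linarith
  have i1 : Set.Icc (min (W / 64) (W / 64) - M56.mg F) (max (W / 64) (W / 64) + M56.mg F) ⊆
      Set.Icc (-ι') ι' := by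
    rw [min_self, max_self]
    exact Set.Icc_subset_Icc (by linarith) (by linarith)
  have i2 : Set.Icc (min (5 * W / 64) (-(5 * W / 32)) - M56.mg F)
      (max (5 * W / 64) (-(5 * W / 32)) + M56.mg F) ⊆ Set.Icc (-ι') ι' := by
    rw [min_eq_right (by linarith), max_eq_left (by linarith)]
    exact Set.Icc_subset_Icc (by linarith) (by linarith)
  have i3 : Set.Icc (min (W / 64) (-(5 * W / 32)) - M56.mg F)
      (max (W / 64) (-(5 * W / 32)) + M56.mg F) ⊆ Set.Icc (-ι) ι := by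
    rw [min_eq_right (by linarith), max_eq_left (by linarith)]
    exact Set.Icc_subset_Icc (by linarith) (by linarith)
  have m1 : MeasurableSet (Set.Icc (-ι') ι') := measurableSet_Icc
  have m3 : MeasurableSet (Set.Icc (-ι) ι) := measurableSet_Icc
  have l1 : -(L) + M56.mg F ≤ 0 := by linarith
  have hi₁ := M56.hkY_integrable (G := G) hm h0 h2 c1 m1 (s := 0) (s' := W / 16)
    (σ₁ := W / 64) (σ₂ := W / 64) (by linarith) (by rw [ab]; linarith) i1
  have hne₁ := M56.row_nonempty (h := h) c1 (I := Set.Icc (-ι') ι') (s := 0) (s' := W / 16)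
    (σ₁ := W / 64) (σ₂ := W / 64) (by linarith) (by rw [ab]; linarith) i1
  have hi₂ := M56.hkY_integrable (G := G) hm h0 h2 c2 m1 (s := W / 16) (s' := -(W / 8))
    (σ₁ := 5 * W / 64) (σ₂ := -(5 * W / 32)) (by linarith) (by rw [ab]; linarith) i2
  have hne₂ := M56.row_nonempty (h := h) c2 (I := Set.Icc (-ι') ι') (s := W / 16) (s' := -(W / 8))
    (σ₁ := 5 * W / 64) (σ₂ := -(5 * W / 32)) (by linarith) (by rw [ab]; linarith) i2
  have hi₃ := M56.hkY_integrable (G := G) hm h0 h2 c3 m3 (s := 0) (s' := -(W / 8))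
    (σ₁ := W / 64) (σ₂ := -(5 * W / 32)) (by linarith) (by rw [ab]; linarith) i3
  have hne₃ := M56.row_nonempty (h := h) c3 (I := Set.Icc (-ι) ι) (s := 0) (s' := -(W / 8))
    (σ₁ := W / 64) (σ₂ := -(5 * W / 32)) (by linarith) (by rw [ab]; linarith) i3
  have hi₄ := M56.hkY_integrable (G := G) hm h0 h2 c3 MeasurableSet.univ (s := -L) (s' := L)
    (σ₁ := 0) (σ₂ := 0) (by linarith) (by rw [ab]; linarith) (Set.subset_univ _)
  have hn₄ := M56.hkY_nonneg (G := G) hm h0 h2 c3 MeasurableSet.univ (s := -L) (s' := L)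
    (σ₁ := 0) (σ₂ := 0) (by linarith) (by rw [ab]; linarith) (Set.subset_univ _) hμ
  unfold M56.nu at hi₁ hi₂ hi₃ hi₄ hn₄
  -- the mean
  have hII : Set.Icc (-ι') ι' ⊆ Set.Icc (-ι) ι := Set.Icc_subset_Icc (by linarith) (by linarith)
  have hcat := mean_concat (G := G) h h0 (I := Set.Icc (-ι') ι') (I' := Set.Icc (-ι) ι) hII
    (by
      intro a ha b hb c hc1 hc2
      rw [Set.mem_Icc] at ha hb ⊢
      constructor <;> linarith [ha.1, hb.2])
    (y₁ := y₁) (y₂ := J₁ * W) (by linarith) (by linarith) (s := 0) (s' := W / 16)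
    (s'' := -(W / 8)) (fun θ t φ => hne₁ θ t φ) (fun θ t φ => hne₂ θ t φ)
    (by rw [hsum]; exact hi₃) hi₁ hi₂ m1
  rw [hsum] at hcat
  have hf₁ := hFM y₁ y 0 (W / 16) 0 (W / 32) (Set.Icc (-ι') ι') m1 (by linarith)
    (by rw [hy₁]; linarith) le_rfl (by linarith)
    (Set.Icc_subset_Icc (by linarith) (by linarith)) (by linarith)
  rw [sub_zero, sub_zero] at hf₁
  have hf₂ := hfall W hWW h ε hwH hκ hm ι' (by linarith) hi₂
  obtain ⟨hsi, hsm⟩ := integral_sk hm (L := L) hi₃ hi₄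
  have hy0 : 0 ≤ y := by linarith
  have hr1 : y * rate G F (W / 32) ≤ y * (CS * R) := mul_le_mul_of_nonneg_left hrate hy0
  have hεW : (8 * (4 * v' + 4)) * (W * ε) ≤ e * W := by
    have h1 : ε * (8 * (4 * v' + 4)) ≤ e := by
      rwa [le_div_iff₀ (by positivity)] at hε
    have h3 := mul_le_mul_of_nonneg_right h1 hWp.le
    calc (8 * (4 * v' + 4)) * (W * ε) = ε * (8 * (4 * v' + 4)) * W := by ring
      _ ≤ e * W := h3
  have hWε : 0 ≤ W * ε := by positivity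
  have hb1 : (W / 16 + W / 32 + h.κ + 1) * ε ≤ W * ε := by
    apply mul_le_mul_of_nonneg_right _ hε0
    linarith
  have hmean : ∫ q, h.sk (y • F.b) (Set.Icc (-ι) ι) Set.univ L 0 (-(W / 8)) q.1.1 q.1.2 q.2
      ∂((P0 G).prod (UU.prod UU)) ≤ (2 * CS * (y * R) + e * W) / 2 := by
    rw [hsm]
    have e1 : (0 + L) * ε + (L - -(W / 8)) * ε = 4 * v' * (W * ε) + W / 8 * ε := by
      rw [hLdef]; ring
    have e2 : (8 * (4 * v' + 4)) * (W * ε) = 8 * (4 * v' * (W * ε)) + 32 * (W * ε) := by ring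
    have e3 : y * (CS * R) = CS * (y * R) := by ring
    have e4 : 2 * W * ε = 2 * (W * ε) := by ring
    have e5 : W / 8 * ε = W * ε / 8 := by ring
    have e6 : (W / 16 - 0 + W / 32 + h.κ + 1) * ε ≤ W * ε := by
      rw [sub_zero]; exact hb1
    have e7 : 0 ≤ e * W := by positivity
    linarith
  have hpos : 0 < 2 * CS * (y * R) + e * W := by
    have : 0 ≤ 2 * CS * (y * R) := by positivity
    have : 0 < e * W := by positivity
    linarith
  unfold NF.Qm NF.nuR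
  refine half_le hsi ?_ hpos hmean
  filter_upwards [ae_P0_Nn (G := G) h0 (ν := UU.prod UU)] with q hq
  exact sk_nonneg h hq.1 (Set.subset_univ _) (by linarith) (by linarith) (hne₃ _ _ _)

end Crest.Agent.R151.E792
end

-- ▼ part R151/E792k
section

/-!
# R151 / S0214 part 2, [E8] height selection, part k: lower bound (L) (helper792)
-/

set_option autoImplicit false

open MeasureTheory Filter ProbabilityTheory Topology
open Crest.ProbabilityR.FirstPassage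

namespace Crest.Agent.R151.E792

open K R78 B710 Q

variable {μ : ℝ × ℝ → ℝ} {F : FlatData μ} {G : Measure ℝ} [IsProbabilityMeasure G]

/-- the highway points are in the box -/
lemma x_mem_box2 (h : Hwy F) {A B : ℝ} {N : ℕ}
    {θ : ℝ × ℝ} (hθ : θ ∈ Set.Ico (0 : ℝ) 1 ×ˢ Set.Ico (0 : ℝ) 1) {t : Environment} {u s y : ℝ}
    (hs : |s| + cF F ≤ A) (hy : |y| + h.wH / 2 ≤ B) (hN : A * ‖F.a‖ + B * ‖F.b‖ + 1 ≤ N) :
    h.x s u (θ - y • F.b) t ∈ box N := by
  have h1 := M56.al_x_ge h s u (θ - y • F.b) t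
  have h2 := h.al_x_le s u (θ - y • F.b) t
  have h3 := M56.be_x h s u (θ - y • F.b) t
  have h4 : F.al (pos (θ - y • F.b) (h.x s u (θ - y • F.b) t)) ≤ s + cF F := h2
  rw [M192.al_pos_sub_b] at h1 h4
  rw [M192.be_pos_sub_b] at h3
  have hcF := cF_nonneg F
  refine mem_box_of_pos (v := 0) hθ (R := A * ‖F.a‖ + B * ‖F.b‖) ?_ (by simpa using hN)
  rw [sub_zero]
  refine (M56.norm_le_coord F _).trans ?_
  have h5 : |F.al (pos θ (h.x s u (θ - y • F.b) t))| ≤ A := by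
    have := neg_abs_le s
    have := le_abs_self s
    rw [abs_le]; constructor <;> linarith
  have h6 : |F.be (pos θ (h.x s u (θ - y • F.b) t))| ≤ B := by
    have e1 := neg_abs_le y
    have e2 := le_abs_self y
    rw [abs_le] at h3 ⊢; constructor <;> linarith [h3.1, h3.2]
  exact add_le_add (mul_le_mul_of_nonneg_right h5 (norm_nonneg _))
    (mul_le_mul_of_nonneg_right h6 (norm_nonneg _))

lemma ptY_ge {t : Environment} {x y : ℤ × ℤ} {D : ℝ}
    (hD : |passageTime t x y - μ (toR (y - x))| ≤ D) :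
    F.ψ (toR (y - x)) - D ≤ ptY t (phi F) x y := by
  have h := (abs_le.1 hD).1
  unfold ptY FlatData.ψ
  rw [R6.phi_sub]; linarith

/-- **(L), deterministic part** -/
theorem sk_lower (h : Hwy F) {t : Environment} (ht : Nn t) {y L W ψ0 D T : ℝ} {I : Set ℝ}
    {θ φ : ℝ × ℝ} (hL : 0 ≤ L) (hLW : -(W / 8) ≤ L)
    (hne : (routes t (h.Lo θ t φ) (h.Up (y • F.b) θ t φ) (rg F I θ) (h.iL 0 θ t φ)
      (h.iU (y • F.b) (-(W / 8)) θ t φ)).Nonempty)
    (hne' : (routes t (h.Lo θ t φ) (h.Up (y • F.b) θ t φ) (rg F Set.univ θ) (h.iL (-L) θ t φ)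
      (h.iU (y • F.b) L θ t φ)).Nonempty)
    (hψ : ψ0 ≤ F.ψ (toR (h.x (-(W / 8)) φ.2 (θ - y • F.b) t - h.x 0 φ.1 θ t)))
    {N : ℕ} (hN : ∀ s u : ℝ, (s = -L ∨ s = 0) → h.x s u θ t ∈ box N)
    (hN' : ∀ s u : ℝ, (s = L ∨ s = -(W / 8)) → h.x s u (θ - y • F.b) t ∈ box N)
    (hD : dev μ N t = D) (hT : h.hkY (y • F.b) Set.univ (-L) L θ t φ = T) :
    0 ≤ T + D ∧ ψ0 - 3 * D - T ≤ h.sk (y • F.b) I Set.univ L 0 (-(W / 8)) θ t φ := by
  have b1 := hN (-L) φ.1 (Or.inl rfl)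
  have b2 := hN 0 φ.1 (Or.inr rfl)
  have b3 := hN' L φ.2 (Or.inl rfl)
  have b4 := hN' (-(W / 8)) φ.2 (Or.inr rfl)
  have d12 := le_dev μ t b1 b2
  have d13 := le_dev μ t b1 b3
  have d24 := le_dev μ t b2 b4
  have d43 := le_dev μ t b4 b3
  rw [hD] at d12 d13 d24 d43
  constructor
  · have e1 := M56.hkY_ge (h := h) (d := y • F.b) (I := Set.univ) (s := -L) (s' := L) ht θ φ hne'
    have e2 := ptY_ge (F := F) d13
    have e3 := F.ψ_nonneg (toR (h.x L φ.2 (θ - y • F.b) t - h.x (-L) φ.1 θ t))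
    rw [hT] at e1
    have e4 : h.gY (y • F.b) (-L) L θ t φ =
      ptY t (phi F) (h.x (-L) φ.1 θ t) (h.x L φ.2 (θ - y • F.b) t) := rfl
    linarith
  · have e1 := M56.hkY_ge (h := h) (d := y • F.b) (I := I) (s := 0) (s' := -(W / 8)) ht θ φ hne
    have e2 := ptY_ge (F := F) d24
    have e4 : h.gY (y • F.b) 0 (-(W / 8)) θ t φ =
      ptY t (phi F) (h.x 0 φ.1 θ t) (h.x (-(W / 8)) φ.2 (θ - y • F.b) t) := rfl
    have e5 := Y_ge h ht (s := -L) (s' := 0) (by linarith) d12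
    have e6 := Y_ge h ht (s := -(W / 8)) (s' := L) hLW d43
    rw [sk_eq, hT]
    linarith

set_option maxHeartbeats 1600000 in
/-- **(L)** -/
theorem lower_main {lam : ℝ} (h0 : G (Set.Iio 0) = 0) (hz : G {0} = 0) (hlam : 0 < lam)
    (hexp : Integrable (fun x => Real.exp (lam * x)) G) (hμ : IsTC G μ) (F : FlatData μ)
    {J : ℝ} (hJ : 1 ≤ J) : ∃ c : ℝ, 0 < c ∧ ∀ v' : ℝ, 1 ≤ v' →
      ∃ η : ℝ, 0 < η ∧ ∃ W0 : ℝ, ∀ W ≥ W0, ∀ (h : Hwy F) (ε : ℝ),
        h.wH ≤ W / 200 → h.κ ≤ W / 200 → HwyMean G h ε → FM G h ε → ε ≤ η →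
        rate G F (W / 2) ≤ η → ∀ y : ℝ, W ≤ y → y ≤ J * W →
        ¬ NF.Qm G h W y (2 * v' * W) (c * W) := by
  have h2 : Integrable (fun x : ℝ => x ^ 2) G := integrable_sq h0 hlam hexp
  have hNl : NormLike μ := normLike_of_isTC h0 hz hlam hexp hμ
  obtain ⟨c', hc', hψ⟩ := R6.psi_fall F hNl (K := 9 * (J + 1)) (by positivity)
  set c : ℝ := c' / 45 with hc
  have hc0 : 0 < c := by positivity
  refine ⟨c, hc0, fun v' hv' => ?_⟩
  set C2 : ℝ := (2 * v' + 1) * ‖F.a‖ + (J + 1) * ‖F.b‖ + 2 with hC2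
  have hC20 : 0 < C2 := by positivity
  set η₁ : ℝ := min (1 / 8) (c / (8 * C2)) with hη₁
  have hη₁0 : 0 < η₁ := lt_min (by norm_num) (by positivity)
  have hη₁a : η₁ ≤ 1 / 8 := min_le_left _ _
  have hη₁b : η₁ * C2 ≤ c / 8 := by
    have h1 : η₁ ≤ c / (8 * C2) := min_le_right _ _
    rw [le_div_iff₀ (by positivity)] at h1
    linarith
  obtain ⟨n1', hn1'⟩ := uniform_shape h0 hlam hexp hμ hη₁0
  obtain ⟨n2', hn2'⟩ := uniform_shape_prob h0 hlam hexp hμ hη₁0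
  refine ⟨c / (8 * (J + 4 * v' + 3)), by positivity, n1' + n2' + 1000 * cF F +
    100 * M56.mg F + 100 * C710.fn F.al + 100, ?_⟩
  intro W hW h ε hwH hκ hm hFM hε hrate y hy1 hy2 hQ
  have hfn := C710.fn_nonneg F.al
  have hmg := M56.one_le_mg F
  have hcF := cF_nonneg F
  have hn1p : (0 : ℝ) ≤ n1' := by positivity
  have hn2p : (0 : ℝ) ≤ n2' := by positivity
  have hW0 : 100 ≤ W := by linarith
  have hWp : 0 < W := by linarith
  have hmgW : 100 * M56.mg F ≤ W := by linarith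
  have hfnW : 100 * C710.fn F.al ≤ W := by linarith
  have hcFW : 1000 * cF F ≤ W := by linarith
  have hκ0 := h.κ_nonneg
  have hwH0 := M56.wH_nonneg h
  have hε0 := hm.nonneg
  set ι : ℝ := 7 / 32 * W with hι
  have hL : 2 * W ≤ 2 * v' * W := mul_le_mul_of_nonneg_right (by linarith) hWp.le
  set L : ℝ := 2 * v' * W with hLdef
  have bb : ∀ x : ℝ, F.be (x • F.b) = x := by intro x; simp
  have ab : ∀ x : ℝ, F.al (x • F.b) = 0 := by intro x; simp
  -- the box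
  set N : ℕ := ⌈(C2 - 1) * W⌉₊ with hN
  have hC21 : 1 ≤ C2 - 1 := by
    have e1 : 0 ≤ (2 * v' + 1) * ‖F.a‖ := by positivity
    have e2 : 0 ≤ (J + 1) * ‖F.b‖ := by positivity
    rw [hC2]; linarith
  have hN1 : (C2 - 1) * W ≤ N := Nat.le_ceil _
  have hN2 : (N : ℝ) ≤ C2 * W := by
    have := Nat.ceil_lt_add_one (show 0 ≤ (C2 - 1) * W by positivity)
    have e1 : (C2 - 1) * W + 1 ≤ C2 * W := by
      have : C2 * W = (C2 - 1) * W + W := by ring
      linarith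
    linarith
  have hWN : W ≤ N := by
    have : 1 * W ≤ (C2 - 1) * W := mul_le_mul_of_nonneg_right hC21 hWp.le
    linarith
  have hNn1 : n1' ≤ N := by
    have : (n1' : ℝ) ≤ N := by linarith
    exact_mod_cast this
  have hNn2 : n2' ≤ N := by
    have : (n2' : ℝ) ≤ N := by linarith
    exact_mod_cast this
  obtain ⟨hdi, hdm⟩ := hn1' N hNn1
  have hdp := hn2' N hNn2
  have hηN : η₁ * N ≤ c / 8 * W := by
    have h1 : η₁ * N ≤ η₁ * (C2 * W) := mul_le_mul_of_nonneg_left hN2 hη₁0.le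
    have h3 := mul_le_mul_of_nonneg_right hη₁b hWp.le
    have e : η₁ * (C2 * W) = η₁ * C2 * W := by ring
    linarith
  have hNbig : (2 * v' * W + W) * ‖F.a‖ + (J * W + W) * ‖F.b‖ + 1 ≤ N := by
    have e : (C2 - 1) * W = (2 * v' * W + W) * ‖F.a‖ + (J * W + W) * ‖F.b‖ + W := by
      rw [hC2]; ring
    linarith
  have hJW : W ≤ J * W := le_mul_of_one_le_left hWp.le hJ
  -- rows
  have c3 : h.wH + 2 * M56.mg F < F.be (y • F.b) := by rw [bb]; linarith
  have i3 : Set.Icc (min (W / 64) (-(5 * W / 32)) - M56.mg F)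
      (max (W / 64) (-(5 * W / 32)) + M56.mg F) ⊆ Set.Icc (-ι) ι := by
    rw [min_eq_right (by linarith), max_eq_left (by linarith)]
    exact Set.Icc_subset_Icc (by linarith) (by linarith)
  have hne₃ := M56.row_nonempty (h := h) c3 (I := Set.Icc (-ι) ι) (s := 0) (s' := -(W / 8))
    (σ₁ := W / 64) (σ₂ := -(5 * W / 32)) (by linarith) (by rw [ab]; linarith) i3
  have hne₄ := M56.row_nonempty (h := h) c3 (I := Set.univ) (s := -L) (s' := L)
    (σ₁ := 0) (σ₂ := 0) (by linarith) (by rw [ab]; linarith) (Set.subset_univ _)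
  have hi₄ := M56.hkY_integrable (G := G) hm h0 h2 c3 MeasurableSet.univ (s := -L) (s' := L)
    (σ₁ := 0) (σ₂ := 0) (by linarith) (by rw [ab]; linarith) (Set.subset_univ _)
  unfold M56.nu at hi₄
  -- mean of the gauge
  have hf₁ := hFM y (y + W) (-L) L 0 (W / 2) Set.univ MeasurableSet.univ (by linarith)
    (by linarith) (by linarith) (by linarith) (Set.subset_univ _) (by linarith)
  rw [sub_zero] at hf₁
  obtain ⟨hd3, he3⟩ := int_env (G := G) hdi
  have hsumi := hi₄.add hd3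
  have hη : c / (8 * (J + 4 * v' + 3)) * (8 * (J + 4 * v' + 3)) = c := by
    field_simp
  set η : ℝ := c / (8 * (J + 4 * v' + 3)) with hηdef
  have hη0 : 0 < η := by positivity
  have hmeanT : ∫ q, h.hkY (y • F.b) Set.univ (-L) L q.1.1 q.1.2 q.2
      ∂((P0 G).prod (UU.prod UU)) ≤ c / 8 * W := by
    have e1 : (y + W) * rate G F (W / 2) ≤ (J + 1) * W * η := by
      have e2 : (y + W) * rate G F (W / 2) ≤ (y + W) * η :=
        mul_le_mul_of_nonneg_left hrate (by linarith)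
      have e3 : (y + W) * η ≤ (J + 1) * W * η := mul_le_mul_of_nonneg_right (by linarith) hη0.le
      linarith
    have e2 : (L - -L + (W / 2) - 0 + h.κ + 1) * ε ≤ (4 * v' + 1) * W * η := by
      have e3 : L - -L + (W / 2) - 0 + h.κ + 1 ≤ (4 * v' + 1) * W := by
        rw [hLdef]; linarith
      have e4 : 0 ≤ L - -L + (W / 2) - 0 + h.κ + 1 := by linarith
      exact mul_le_mul e3 hε hε0 (by positivity)
    rw [sub_zero] at e2
    have e5 : (J + 1) * W * η + (4 * v' + 1) * W * η ≤ c / 8 * W := by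
      have e6 : c / 8 * W = η * (8 * (J + 4 * v' + 3)) / 8 * W := by rw [hη]
      have e7 : 0 ≤ η * W := by positivity
      rw [e6]
      linarith
    linarith
  -- Markov
  set T' : ((ℝ × ℝ) × Environment) × (ℝ × ℝ) → ℝ := fun q =>
    h.hkY (y • F.b) Set.univ (-L) L q.1.1 q.1.2 q.2 + dev μ N q.1.2 with hT'
  have hT'i : Integrable T' ((P0 G).prod (UU.prod UU)) := hsumi
  have hdet : ∀ᵐ q ∂((P0 G).prod (UU.prod UU)), 0 ≤ T' q ∧
      5 * c * W - 2 * dev μ N q.1.2 - T' q ≤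
        h.sk (y • F.b) (Set.Icc (-ι) ι) Set.univ L 0 (-(W / 8)) q.1.1 q.1.2 q.2 := by
    filter_upwards [ae_P0_Nn (G := G) h0 (ν := UU.prod UU)] with q hq
    have hdisp : 5 * c * W ≤ F.ψ (toR (h.x (-(W / 8)) q.2.2 (q.1.1 - y • F.b) q.1.2 -
        h.x 0 q.2.1 q.1.1 q.1.2)) := by
      have a1 := M56.al_x_ge h 0 q.2.1 q.1.1 q.1.2
      have a2 : F.al (pos q.1.1 (h.x 0 q.2.1 q.1.1 q.1.2)) ≤ 0 + cF F := h.al_x_le _ _ _ _
      have a3 := M56.al_x_ge h (-(W / 8)) q.2.2 (q.1.1 - y • F.b) q.1.2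
      have a4 : F.al (pos (q.1.1 - y • F.b) (h.x (-(W / 8)) q.2.2 (q.1.1 - y • F.b) q.1.2)) ≤
        -(W / 8) + cF F := h.al_x_le _ _ _ _
      have a5 := M56.be_x h 0 q.2.1 q.1.1 q.1.2
      have a6 := M56.be_x h (-(W / 8)) q.2.2 (q.1.1 - y • F.b) q.1.2
      rw [M192.al_pos_sub_b] at a3 a4
      rw [M192.be_pos_sub_b] at a6
      rw [abs_le] at a5 a6
      rw [← pos_sub_pos q.1.1]
      have d1 : F.al (pos q.1.1 (h.x (-(W / 8)) q.2.2 (q.1.1 - y • F.b) q.1.2) -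
          pos q.1.1 (h.x 0 q.2.1 q.1.1 q.1.2)) ≤ -(W / 9) := by
        rw [map_sub]; linarith
      have d2 : |F.be (pos q.1.1 (h.x (-(W / 8)) q.2.2 (q.1.1 - y • F.b) q.1.2) -
          pos q.1.1 (h.x 0 q.2.1 q.1.1 q.1.2))| ≤ (J + 1) * W := by
        rw [map_sub, abs_le]
        have e : (J + 1) * W = J * W + W := by ring
        rw [e]
        constructor <;> linarith [a5.1, a5.2, a6.1, a6.2]
      have d3 := hψ _ (by linarith) (d2.trans (by
        have e : (J + 1) * W = 9 * (J + 1) * (W / 9) := by ring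
        rw [e]
        exact mul_le_mul_of_nonneg_left (by linarith) (by positivity)))
      have d4 : 5 * c * W = c' * (W / 9) := by rw [hc]; ring
      rw [d4]
      exact le_trans (mul_le_mul_of_nonneg_left (by linarith) hc'.le) d3
    have hb1 : ∀ s u : ℝ, (s = -L ∨ s = 0) → h.x s u q.1.1 q.1.2 ∈ box N := by
      intro s u hs
      have := x_mem_box2 h (A := 2 * v' * W + W) (B := J * W + W) (N := N) hq.2 (t := q.1.2)
        (u := u) (s := s) (y := 0) (by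
          rcases hs with rfl | rfl
          · rw [abs_neg, abs_of_nonneg (by linarith)]; linarith
          · rw [abs_zero]; linarith) (by rw [abs_zero]; linarith) hNbig
      rwa [zero_smul, sub_zero] at this
    have hb2 : ∀ s u : ℝ, (s = L ∨ s = -(W / 8)) → h.x s u (q.1.1 - y • F.b) q.1.2 ∈ box N := by
      intro s u hs
      refine x_mem_box2 h (A := 2 * v' * W + W) (B := J * W + W) (N := N) hq.2 ?_ ?_ hNbig
      · rcases hs with rfl | rfl
        · rw [abs_of_nonneg (by linarith)]; linarith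
        · rw [abs_neg, abs_of_nonneg (by linarith)]; linarith
      · rw [abs_of_nonneg (by linarith)]; linarith
    obtain ⟨k1, k2⟩ := sk_lower h hq.1 (y := y) (L := L) (W := W) (I := Set.Icc (-ι) ι)
      (θ := q.1.1) (φ := q.2) (by linarith) (by linarith) (hne₃ _ _ _) (hne₄ _ _ _) hdisp hb1 hb2
      rfl rfl
    refine ⟨k1, ?_⟩
    simp only [hT']
    linarith
  have hmk : 2 * c * W * ((P0 G).prod (UU.prod UU)).real {q | 2 * c * W ≤ T' q} ≤
      ∫ q, T' q ∂((P0 G).prod (UU.prod UU)) :=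
    mul_meas_ge_le_integral_of_nonneg (hdet.mono fun q hq => hq.1) hT'i _
  have hET : ∫ q, T' q ∂((P0 G).prod (UU.prod UU)) ≤ c / 4 * W := by
    rw [hT', integral_add hi₄ hd3, he3]
    linarith
  have hp1 : ((P0 G).prod (UU.prod UU)).real {q | 2 * c * W ≤ T' q} ≤ 1 / 8 := by
    have h1 : 2 * c * W * ((P0 G).prod (UU.prod UU)).real {q | 2 * c * W ≤ T' q} ≤
      2 * c * W * (1 / 8) := by
      have : 2 * c * W * (1 / 8) = c / 4 * W := by ring
      linarith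
    exact le_of_mul_le_mul_left h1 (by positivity)
  have hp2 : ((P0 G).prod (UU.prod UU)).real {q | η₁ * N ≤ dev μ N q.1.2} ≤ 1 / 8 := by
    have hS : MeasurableSet {t | η₁ * N ≤ dev μ N t} := measurableSet_le measurable_const
      (measurable_dev μ N)
    have h1 : MeasurePreserving (Prod.fst : ((ℝ × ℝ) × Environment) × (ℝ × ℝ) → _)
      ((P0 G).prod (UU.prod UU)) (P0 G) := measurePreserving_fst
    have h2 : MeasurePreserving (Prod.snd : (ℝ × ℝ) × Environment → _) (P0 G) (iidLaw G) := by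
      unfold P0; exact measurePreserving_snd
    have h3 := (h2.comp h1).measureReal_preimage hS.nullMeasurableSet
    have h4 : ((P0 G).prod (UU.prod UU)).real {q | η₁ * N ≤ dev μ N q.1.2} =
      (iidLaw G).real {t | η₁ * N ≤ dev μ N t} := h3
    rw [h4]
    linarith
  -- conclusion
  have hfin : ((P0 G).prod (UU.prod UU)).real {q : ((ℝ × ℝ) × Environment) × (ℝ × ℝ) |
      h.sk (y • F.b) (Set.Icc (-ι) ι) Set.univ L 0 (-(W / 8)) q.1.1 q.1.2 q.2 ≤ c * W} ≤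
      1 / 8 + 1 / 8 := by
    refine le_trans (Crest.Agent.R151.G338.real_mono_ae (t := {q | 2 * c * W ≤ T' q} ∪
      {q | η₁ * N ≤ dev μ N q.1.2}) ?_) ((measureReal_union_le _ _).trans (add_le_add hp1 hp2))
    filter_upwards [hdet] with q hq hsk
    by_contra hcon
    rw [Set.mem_union, not_or] at hcon
    obtain ⟨k1, k2⟩ := hcon
    simp only [Set.mem_ofPred_eq, not_le] at k1 k2 hsk
    obtain ⟨-, k3⟩ := hq
    have k4 : 0 < c * W := by positivity
    linarith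
  unfold NF.Qm NF.nuR at hQ
  linarith

end Crest.Agent.R151.E792
end

-- ▼ part R151/E792l

/-!
# R151 / S0214 part 2, [E8] height selection, part l: the selection (helper792)
-/

set_option autoImplicit false

open MeasureTheory Filter ProbabilityTheory Topology
open Crest.ProbabilityR.FirstPassage

namespace Crest.Agent.R151.E792

open K R78 B710 Q

variable {μ : ℝ × ℝ → ℝ} {F : FlatData μ} {G : Measure ℝ} [IsProbabilityMeasure G]

/-- `FM` holds (helper56) -/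
theorem FM_of {h : Hwy F} {ε : ℝ} (hM : HwyMean G h ε) (h0 : G (Set.Iio 0) = 0)
    (h2 : Integrable (fun x : ℝ => x ^ 2) G) (hμ : IsTC G μ) : FM G h ε := by
  intro y y₂ s s₂ α β I hI h1 h3 hs hs2 hab hw
  have hal : F.al (y • F.b) = 0 := by
    have := (F.al).map_smul y F.b
    rw [this, F.al_b, smul_zero]
  have e1 := M56.fence_mean' (G := G) hM h0 h2 (d := y • F.b) (by rw [M192.be_smul_b]; exact h1)
    hI hs (by rw [hal, add_zero]; exact hs2) hab hw hμ (y2 := y₂)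
    (by rw [M192.be_smul_b]; have := M56.one_le_mg F; linarith)
  rw [hal, add_zero] at e1
  exact e1

/-- `Qm` is monotone in the level -/
lemma Qm_mono {h : Hwy F} {W y L c c' : ℝ} (hc : c ≤ c') (hQ : NF.Qm G h W y L c) :
    NF.Qm G h W y L c' := by
  unfold NF.Qm at *
  refine hQ.trans (measureReal_mono ?_ ?_)
  · intro q hq
    exact le_trans hq hc
  · have : IsProbabilityMeasure (NF.nuR G) := by unfold NF.nuR; infer_instance
    exact measure_ne_top _ _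

/-- arithmetic of the selection -/
lemma arith {M CS J x W : ℝ} (hM : 0 < M) (h4 : 4 * CS ≤ M) (hJ : 0 < J) (hx : 0 ≤ x)
    (h : M * x < 2 * CS * x + M / (4 * J) * W) : 2 * x ≤ W / J := by
  have e0 : 4 * CS * x ≤ M * x := mul_le_mul_of_nonneg_right h4 hx
  have e6 : M / (4 * J) * W = M / 4 * (W / J) := by field_simp
  rw [e6] at h
  have e8 : M / 4 * (2 * x) < M / 4 * (W / J) := by linarith
  exact (lt_of_mul_lt_mul_left e8 (by positivity)).le

/-- arithmetic of the existence -/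
lemma arith2 {M CS R x W : ℝ} (h4 : 4 * CS ≤ M) (hW : 0 < W) (hR : 0 < R) (hM : 0 < M)
    (hx0 : 0 ≤ x) (hx : 2 / (M * R) ≤ x) : 2 * CS * (x * W * R) + 1 * W ≤ M * (x * W * R) := by
  rw [div_le_iff₀ (by positivity)] at hx
  have e2 := mul_le_mul_of_nonneg_right hx hW.le
  have e3 : 0 ≤ x * W * R := by positivity
  have e4 := mul_le_mul_of_nonneg_right h4 e3
  linarith

set_option maxHeartbeats 1000000 in
/-- **[E8] height selection**, general law -/
theorem select_of {lam : ℝ} (h0 : G (Set.Iio 0) = 0) (hz : G {0} = 0) (hlam : 0 < lam)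
    (hexp : Integrable (fun x => Real.exp (lam * x)) G) (hμ : IsTC G μ) (F : FlatData μ)
    (hr : Tendsto (fun w => rate G F w) atTop (𝓝 0))
    (hr' : Tendsto (fun w => rate G F.swap w) atTop (𝓝 0)) {w0 c0 K : ℝ}
    (_hc0 : 0 < c0) (hK : 0 < K) : NF.Select G F w0 c0 K := by
  have h2 : Integrable (fun x : ℝ => x ^ 2) G := Crest.Agent.R151.K.integrable_sq h0 hlam hexp
  obtain ⟨CS, hCS⟩ : ∃ CS : ℝ, CS = 8 * 32 ^ 3 := ⟨_, rfl⟩
  have hCSp : 0 < CS := by rw [hCS]; positivity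
  obtain ⟨J₁, hJ₁, hU1⟩ := upper_main h0 hz hlam hexp hμ F hCSp.le one_pos
  unfold NF.Select NF.Ev
  obtain ⟨n0, hn0⟩ := exists_nat_ge (4 * CS)
  filter_upwards [eventually_ge_atTop (max n0 1)] with n hn
  have hn1 : 1 ≤ n := (le_max_right _ _).trans hn
  have hn2 : (1 : ℝ) ≤ n := by exact_mod_cast hn1
  have hnM : 4 * CS ≤ (n : ℝ) ^ 5 := by
    have e1 : (n0 : ℝ) ≤ n := by exact_mod_cast (le_max_left _ _).trans hn
    have e2 : (n : ℝ) ≤ (n : ℝ) ^ 5 := le_self_pow₀ hn2 (by norm_num)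
    linarith
  obtain ⟨M, hM⟩ : ∃ M : ℝ, M = (n : ℝ) ^ 5 := ⟨_, rfl⟩
  rw [← hM] at hnM
  have hMp : 0 < M := by linarith
  refine Eventually.of_forall fun δ => Eventually.of_forall fun v => Eventually.of_forall fun e => ?_
  filter_upwards [eventually_ge_atTop (1 : ℝ)] with v' hv'
  refine Eventually.of_forall fun δ' => ?_
  have hδ0' : (0 : ℝ) < min (1 / 200) (1 / (200 * K)) := by positivity
  filter_upwards [Ioc_mem_nhdsGT hδ0'] with δ0 hδ0
  obtain ⟨hδp, hδle⟩ := hδ0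
  have hδ1 : δ0 ≤ 1 / 200 := hδle.trans (min_le_left _ _)
  have hδ2 : K * δ0 ≤ 1 / 200 := by
    have e1 : δ0 ≤ 1 / (200 * K) := hδle.trans (min_le_right _ _)
    have e2 := mul_le_mul_of_nonneg_left e1 hK.le
    have e3 : K * (1 / (200 * K)) = 1 / 200 := by field_simp
    linarith
  filter_upwards [eventually_ge_atTop (1 : ℝ)] with J hJ
  have hJp : 0 < J := by linarith
  obtain ⟨J₂, hJ₂, hU2⟩ := upper_main h0 hz hlam hexp hμ F hCSp.le
    (e := M / (4 * J)) (by positivity)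
  obtain ⟨Js, hJs⟩ : ∃ Js : ℝ, Js = max (max J₁ J₂) J := ⟨_, rfl⟩
  have hJs2 : J₂ ≤ Js := by rw [hJs]; exact (le_max_right _ _).trans (le_max_left _ _)
  have hJs3 : J ≤ Js := by rw [hJs]; exact le_max_right _ _
  have hJs4 : 4 ≤ Js := hJ₂.trans hJs2
  obtain ⟨c, hc, hL⟩ := lower_main h0 hz hlam hexp hμ F (J := 2 * Js) (by linarith)
  obtain ⟨η₁, hη₁, W₁, hU1⟩ := hU1 v' hv'
  obtain ⟨η₂, hη₂, W₂, hU2⟩ := hU2 v' hv'
  obtain ⟨η₃, hη₃, W₃, hL⟩ := hL v' hv'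
  obtain ⟨η, hη⟩ : ∃ η : ℝ, η = min (min η₁ η₂) η₃ := ⟨_, rfl⟩
  have hηp : 0 < η := by rw [hη]; positivity
  have hη1 : η ≤ η₁ := by rw [hη]; exact (min_le_left _ _).trans (min_le_left _ _)
  have hη2 : η ≤ η₂ := by rw [hη]; exact (min_le_left _ _).trans (min_le_right _ _)
  have hη3 : η ≤ η₃ := by rw [hη]; exact min_le_right _ _
  -- large W
  have hδW : Tendsto (fun W : ℝ => δ0 * W) atTop atTop := tendsto_id.const_mul_atTop hδp
  have t1 : ∀ᶠ W : ℝ in atTop, rate G F.swap (δ0 * W) ≤ η / 2 :=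
    ((hr'.comp hδW).eventually (Iio_mem_nhds (by linarith : (0 : ℝ) < η / 2))).mono
      fun W hW => le_of_lt hW
  have t2 : ∀ᶠ W : ℝ in atTop, 1 / (δ0 * W) ^ 3 ≤ η / 2 := by
    have : Tendsto (fun W : ℝ => 1 / (δ0 * W) ^ 3) atTop (𝓝 0) :=
      tendsto_const_nhds.div_atTop ((tendsto_pow_atTop (by norm_num)).comp hδW)
    exact (this.eventually (Iio_mem_nhds (by linarith : (0 : ℝ) < η / 2))).mono
      fun W hW => le_of_lt hW
  have t3 : ∀ᶠ W : ℝ in atTop, rate G F (W / 2) ≤ η := by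
    have : Tendsto (fun W : ℝ => W / 2) atTop atTop := tendsto_id.atTop_div_const (by norm_num)
    exact ((hr.comp this).eventually (Iio_mem_nhds hηp)).mono fun W hW => le_of_lt hW
  have t4 : ∀ᶠ W : ℝ in atTop, rate G F W ≤ c / (M * (2 * Js)) :=
    (hr.eventually (Iio_mem_nhds (by positivity : (0 : ℝ) < c / (M * (2 * Js))))).mono
      fun W hW => le_of_lt hW
  filter_upwards [t1, t2, t3, t4, eventually_ge_atTop W₁, eventually_ge_atTop W₂,
    eventually_ge_atTop W₃, eventually_ge_atTop (1 : ℝ), eventually_ge_atTop (32 * w0)]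
    with W t1 t2 t3 t4 hW1 hW2 hW3 hW4 hW5
  intro h ε hgood hlow hwH hκ hmean hε
  have hWp : 0 < W := by linarith
  have hwH' : h.wH ≤ W / 200 := by
    rw [hwH]
    have := mul_le_mul_of_nonneg_right hδ1 hWp.le
    linarith
  have hκ' : h.κ ≤ W / 200 := by
    have := mul_le_mul_of_nonneg_right hδ2 hWp.le
    linarith
  have hFM := FM_of hmean h0 h2 hμ
  have hε' : ε ≤ η := by linarith
  set R := rate G F W with hR
  have hRp : 0 < R := hgood.pos
  have hRS : rate G F (W / 32) ≤ CS * R := by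
    have e1 := hgood.small_b (W / 32) (by linarith) (by linarith)
    have e2 : W / (W / 32) = 32 := by field_simp
    rw [e2] at e1
    rw [hCS]
    exact e1
  rw [← hM]
  -- facts
  have fU1 : ∀ y, J₁ * W ≤ y → NF.Qm G h W y (2 * v' * W) (2 * CS * (y * R) + 1 * W) :=
    hU1 W hW1 h ε R hwH' hκ' hmean hFM (hε'.trans hη1) hRp.le hRS
  have fU2 : ∀ y, J₂ * W ≤ y → NF.Qm G h W y (2 * v' * W)
      (2 * CS * (y * R) + M / (4 * J) * W) :=
    hU2 W hW2 h ε R hwH' hκ' hmean hFM (hε'.trans hη2) hRp.le hRS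
  have fL : ∀ y, W ≤ y → y ≤ 2 * Js * W → ¬ NF.Qm G h W y (2 * v' * W) (c * W) :=
    hL W hW3 h ε hwH' hκ' hmean hFM (hε'.trans hη3) (t3.trans hη3)
  have fL' : ∀ y, W ≤ y → y ≤ 2 * Js * W → ¬ NF.Qm G h W y (2 * v' * W) (M * (y * R)) := by
    intro y hy1 hy2 hQ
    refine fL y hy1 hy2 (Qm_mono ?_ hQ)
    have e1 : y * R ≤ 2 * Js * W * (c / (M * (2 * Js))) :=
      mul_le_mul hy2 t4 hRp.le (by positivity)
    have e2 := mul_le_mul_of_nonneg_left e1 hMp.le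
    have e3 : M * (2 * Js * W * (c / (M * (2 * Js)))) = c * W := by field_simp
    linarith
  -- the sequence of heights
  let P : ℕ → Prop := fun k => NF.Qm G h W (2 ^ k * W) (2 * v' * W) (M * (2 ^ k * W * R))
  have hex : ∃ k, P k := by
    obtain ⟨k, hk⟩ := pow_unbounded_of_one_lt (max J₁ (2 / (M * R))) (one_lt_two (α := ℝ))
    refine ⟨k, Qm_mono ?_ (fU1 (2 ^ k * W) ?_)⟩
    · exact arith2 hnM hWp hRp hMp (by positivity) ((le_max_right _ _).trans hk.le)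
    · exact mul_le_mul_of_nonneg_right ((le_max_left _ _).trans hk.le) hWp.le
  classical
  obtain ⟨k, hk, hmin⟩ : ∃ k, P k ∧ ∀ j < k, ¬ P j :=
    ⟨Nat.find hex, Nat.find_spec hex, fun j hj => Nat.find_min hex hj⟩
  have hklarge : 2 * Js < 2 ^ k := by
    by_contra hcon
    rw [not_lt] at hcon
    refine fL' (2 ^ k * W) ?_ (mul_le_mul_of_nonneg_right hcon hWp.le) hk
    have e1 : (1 : ℝ) ≤ 2 ^ k := one_le_pow₀ (by norm_num)
    have e2 := mul_le_mul_of_nonneg_right e1 hWp.le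
    linarith
  have hk0 : k ≠ 0 := by
    rintro rfl
    rw [pow_zero] at hklarge
    linarith
  obtain ⟨j, rfl⟩ := Nat.exists_eq_succ_of_ne_zero hk0
  have hj := hmin j (Nat.lt_succ_self j)
  have hhalf : (2 : ℝ) ^ (j + 1) * W / 2 = 2 ^ j * W := by ring
  have hjl : Js < 2 ^ j := by
    have e1 : (2 : ℝ) ^ (j.succ) = 2 * 2 ^ j := by rw [pow_succ]; ring
    rw [e1] at hklarge
    linarith
  refine ⟨2 ^ (j + 1) * W, hk, ?_, ?_, ?_⟩
  · rw [hhalf]
    exact hj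
  · have e1 : J ≤ 2 ^ (j + 1) := by
      have : (2 : ℝ) ^ (j + 1) = 2 * 2 ^ j := by rw [pow_succ]; ring
      linarith
    exact mul_le_mul_of_nonneg_right e1 hWp.le
  · have e1 : J₂ * W ≤ 2 ^ j * W := mul_le_mul_of_nonneg_right (by linarith) hWp.le
    have e2 := fU2 _ e1
    have e3 : M * (2 ^ j * W * R) < 2 * CS * (2 ^ j * W * R) + M / (4 * J) * W := by
      by_contra hcon
      rw [not_lt] at hcon
      exact hj (Qm_mono hcon e2)
    have e7 : (2 : ℝ) ^ (j + 1) * W * R = 2 * (2 ^ j * W * R) := by rw [pow_succ]; ring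
    rw [e7]
    exact arith hMp hnM hJp (by positivity) e3

/-- `rate → 0` for the Gamma law -/
lemma rate_tendsto_zero {κ r : ℝ} (hκ : 0 < κ) (hr : 0 < r) {μ : ℝ × ℝ → ℝ}
    (hμ : IsTC (gammaMeasure κ r) μ) (F : FlatData μ) :
    Tendsto (fun w => rate (gammaMeasure κ r) F w) atTop (𝓝 0) := by
  have hγ := isProbabilityMeasure_gammaMeasure hκ hr
  have h0 := Crest.Agent.R151.K.gamma_Iio κ r
  have h2 := Crest.Agent.R151.K.integrable_sq h0 (half_pos hr) (Crest.Agent.R151.K.gamma_exp hκ hr)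
  obtain ⟨C, w1, hC, hw1, hle⟩ := C710.rate_le_gamma hκ hr hμ F
  have ht : Tendsto (fun w : ℝ => C * w ^ (-0.06 : ℝ)) atTop (𝓝 0) := by
    have := (tendsto_rpow_neg_atTop (y := 0.06) (by norm_num)).const_mul C
    rw [mul_zero] at this
    exact this
  refine tendsto_of_tendsto_of_tendsto_of_le_of_le' tendsto_const_nhds ht ?_ ?_
  · filter_upwards [eventually_ge_atTop (2 * C710.fn F.al)] with w hw
    exact C710.rate_nonneg h0 h2 hμ F hw
  · filter_upwards [eventually_ge_atTop w1] with w hw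
    exact hle w hw

/-- **[E8] height selection for the Gamma law**: the field `select` of `NF.Inputs5` -/
theorem select {κ r : ℝ} (hκ : 0 < κ) (hr : 0 < r) {μ : ℝ × ℝ → ℝ}
    (hμ : IsTC (gammaMeasure κ r) μ) (F : FlatData μ) {w0 c0 K : ℝ}
    (hc0 : 0 < c0) (hK : 0 < K) : NF.Select (gammaMeasure κ r) F w0 c0 K := by
  have hγ := isProbabilityMeasure_gammaMeasure hκ hr
  exact select_of (Crest.Agent.R151.K.gamma_Iio κ r) (Crest.Agent.R151.K.gamma_zero κ r) (half_pos hr) (Crest.Agent.R151.K.gamma_exp hκ hr) hμ F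
    (rate_tendsto_zero hκ hr hμ F) (rate_tendsto_zero hκ hr hμ F.swap) hc0 hK

end Crest.Agent.R151.E792
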