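import Mathlib

-- ▼ part R151/F592a
section

/-!
# R151, F592a (helper592): cyclic sums over a finite totally ordered family of labels

Deterministic.  Labels `i : ι`, active set `A`, strict total order `lt` on `A`.
* `Nxt A lt W i j` : `j` is the cyclic successor of `i` in `A ∩ W`;
* `exists_cyc` : for a finite window the relation `Nxt` is the graph of a bijection;
* `cyc_sum_le` : the cyclic sum inequality for `F i x y = f i x + T x y + g i y`;
* `IsSucc`, `slope_sum_le` : disjoint slope intervals.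
-/

set_option autoImplicit false

namespace Crest.Agent.R151.F592

open Finset
open scoped Classical

section det

variable {ι : Type*}

/-- `lt` is a strict total order on `A` -/
structure STO (A : Set ι) (lt : ι → ι → Prop) : Prop where
  irrefl : ∀ i ∈ A, ¬ lt i i
  trans : ∀ i ∈ A, ∀ j ∈ A, ∀ k ∈ A, lt i j → lt j k → lt i k
  tri : ∀ i ∈ A, ∀ j ∈ A, i ≠ j → lt i j ∨ lt j i

theorem STO.asymm {A : Set ι} {lt : ι → ι → Prop} (h : STO A lt) {i j : ι} (hi : i ∈ A)
    (hj : j ∈ A) (hij : lt i j) : ¬ lt j i := fun hji =>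
  h.irrefl i hi (h.trans i hi j hj i hi hij hji)

theorem STO.mono {A B : Set ι} {lt : ι → ι → Prop} (h : STO A lt) (hB : B ⊆ A) : STO B lt :=
  ⟨fun i hi => h.irrefl i (hB hi), fun i hi j hj k hk => h.trans i (hB hi) j (hB hj) k (hB hk),
    fun i hi j hj => h.tri i (hB hi) j (hB hj)⟩

theorem STO.swap {A : Set ι} {lt : ι → ι → Prop} (h : STO A lt) : STO A (fun i j => lt j i) :=
  ⟨h.irrefl, fun i hi j hj k hk h1 h2 => h.trans k hk j hj i hi h2 h1,
    fun i hi j hj hne => (h.tri i hi j hj hne).symm⟩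

/-- a finite nonempty set has a largest element -/
theorem STO.exists_max {A : Set ι} {lt : ι → ι → Prop} (h : STO A lt) (s : Finset ι)
    (hs : ∀ i ∈ s, i ∈ A) (hne : s.Nonempty) : ∃ m ∈ s, ∀ k ∈ s, k ≠ m → lt k m := by
  induction s using Finset.induction_on with
  | empty => exact absurd hne (by simp)
  | insert a s ha ih =>
    rcases s.eq_empty_or_nonempty with h0 | h1
    · subst h0
      exact ⟨a, by simp, by simp⟩
    · obtain ⟨m, hm, hmax⟩ := ih (fun i hi => hs i (Finset.mem_insert_of_mem hi)) h1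
      have haA := hs a (Finset.mem_insert_self a s)
      have hmA := hs m (Finset.mem_insert_of_mem hm)
      have hne : a ≠ m := fun e => ha (e ▸ hm)
      rcases h.tri a haA m hmA hne with h2 | h2
      · refine ⟨m, Finset.mem_insert_of_mem hm, fun k hk hkm => ?_⟩
        rcases Finset.mem_insert.1 hk with rfl | hk
        · exact h2
        · exact hmax k hk hkm
      · refine ⟨a, Finset.mem_insert_self a s, fun k hk hka => ?_⟩
        rcases Finset.mem_insert.1 hk with rfl | hk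
        · exact absurd rfl hka
        · by_cases hkm : k = m
          · exact hkm ▸ h2
          · exact h.trans k (hs k (Finset.mem_insert_of_mem hk)) m hmA a haA (hmax k hk hkm) h2

theorem STO.exists_min {A : Set ι} {lt : ι → ι → Prop} (h : STO A lt) (s : Finset ι)
    (hs : ∀ i ∈ s, i ∈ A) (hne : s.Nonempty) : ∃ m ∈ s, ∀ k ∈ s, k ≠ m → lt m k :=
  h.swap.exists_max s hs hne

/-- `j` is the cyclic successor of `i` in `A ∩ W` -/
def Nxt (A : Set ι) (lt : ι → ι → Prop) (W : Set ι) (i j : ι) : Prop :=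
  (i ∈ A ∧ i ∈ W) ∧ (j ∈ A ∧ j ∈ W) ∧
    ((lt i j ∧ ∀ k ∈ W, k ∈ A → ¬ (lt i k ∧ lt k j)) ∨
      (∀ k ∈ W, k ∈ A → ¬ lt i k ∧ ¬ lt k j))

/-- `j` is the successor of `i` in `A` -/
def IsSucc (A : Set ι) (lt : ι → ι → Prop) (i j : ι) : Prop :=
  i ∈ A ∧ j ∈ A ∧ lt i j ∧ ∀ k ∈ A, ¬ (lt i k ∧ lt k j)

variable {A : Set ι} {lt : ι → ι → Prop}

theorem Nxt.inj (h : STO A lt) {W : Set ι} {i i' j : ι} (h1 : Nxt A lt W i j)
    (h2 : Nxt A lt W i' j) : i = i' := by
  obtain ⟨⟨hi, hiW⟩, ⟨hj, hjW⟩, h1⟩ := h1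
  obtain ⟨⟨hi', hiW'⟩, -, h2⟩ := h2
  by_contra hne
  rcases h1 with ⟨h3, h4⟩ | h3
  · rcases h2 with ⟨h5, h6⟩ | h5
    · rcases h.tri i hi i' hi' hne with h7 | h7
      · exact h4 i' hiW' hi' ⟨h7, h5⟩
      · exact h6 i hiW hi ⟨h7, h3⟩
    · exact (h5 i hiW hi).2 h3
  · rcases h2 with ⟨h5, h6⟩ | h5
    · exact (h3 i' hiW' hi').2 h5
    · rcases h.tri i hi i' hi' hne with h7 | h7
      · exact (h3 i' hiW' hi').1 h7
      · exact (h5 i hiW hi).1 h7

theorem Nxt.uniq (h : STO A lt) {W : Set ι} {i j j' : ι} (h1 : Nxt A lt W i j)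
    (h2 : Nxt A lt W i j') : j = j' := by
  obtain ⟨⟨hi, hiW⟩, ⟨hj, hjW⟩, h1⟩ := h1
  obtain ⟨-, ⟨hj', hjW'⟩, h2⟩ := h2
  by_contra hne
  rcases h1 with ⟨h3, h4⟩ | h3
  · rcases h2 with ⟨h5, h6⟩ | h5
    · rcases h.tri j hj j' hj' hne with h7 | h7
      · exact h6 j hjW hj ⟨h3, h7⟩
      · exact h4 j' hjW' hj' ⟨h5, h7⟩
    · exact (h5 j hjW hj).1 h3
  · rcases h2 with ⟨h5, h6⟩ | h5
    · exact (h3 j' hjW' hj').1 h5
    · rcases h.tri j hj j' hj' hne with h7 | h7
      · exact (h5 j hjW hj).2 h7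
      · exact (h3 j' hjW' hj').2 h7

theorem exists_nxt (h : STO A lt) {W : Set ι} (hW : (A ∩ W).Finite) {i : ι} (hi : i ∈ A)
    (hiW : i ∈ W) : ∃ j, Nxt A lt W i j := by
  set s : Finset ι := hW.toFinset with hs
  have hsA : ∀ k ∈ s, k ∈ A := fun k hk => (hW.mem_toFinset.1 hk).1
  have hsW : ∀ k ∈ s, k ∈ W := fun k hk => (hW.mem_toFinset.1 hk).2
  by_cases hup : (s.filter fun k => lt i k).Nonempty
  · obtain ⟨m, hm, hmin⟩ := h.exists_min (s.filter fun k => lt i k)
      (fun k hk => hsA k (Finset.mem_filter.1 hk).1) hup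
    have hm' := Finset.mem_filter.1 hm
    refine ⟨m, ⟨hi, hiW⟩, ⟨hsA m hm'.1, hsW m hm'.1⟩, Or.inl ⟨hm'.2, fun k hkW hkA hk => ?_⟩⟩
    by_cases hkm : k = m
    · exact h.irrefl m (hsA m hm'.1) (hkm ▸ hk.2)
    · exact h.asymm hkA (hsA m hm'.1) hk.2
        (hmin k (Finset.mem_filter.2 ⟨hW.mem_toFinset.2 ⟨hkA, hkW⟩, hk.1⟩) hkm)
  · obtain ⟨m, hm, hmin⟩ := h.exists_min s hsA ⟨i, hW.mem_toFinset.2 ⟨hi, hiW⟩⟩
    refine ⟨m, ⟨hi, hiW⟩, ⟨hsA m hm, hsW m hm⟩, Or.inr fun k hkW hkA => ⟨fun hik => ?_,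
      fun hkm => ?_⟩⟩
    · exact hup ⟨k, Finset.mem_filter.2 ⟨hW.mem_toFinset.2 ⟨hkA, hkW⟩, hik⟩⟩
    · by_cases hkm' : k = m
      · exact h.irrefl m (hsA m hm) (hkm' ▸ hkm)
      · exact h.asymm hkA (hsA m hm) hkm (hmin k (hW.mem_toFinset.2 ⟨hkA, hkW⟩) hkm')

/-- the relation `Nxt` on a finite window is the graph of a bijection -/
theorem exists_cyc (h : STO A lt) {W : Set ι} (hW : (A ∩ W).Finite) :
    ∃ σ : ι → ι, Set.BijOn σ (A ∩ W) (A ∩ W) ∧ ∀ i ∈ A ∩ W, ∀ j, Nxt A lt W i j ↔ j = σ i := by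
  have hex : ∀ i, ∃ j, i ∈ A ∩ W → Nxt A lt W i j := by
    intro i
    by_cases hi : i ∈ A ∩ W
    · obtain ⟨j, hj⟩ := exists_nxt h hW hi.1 hi.2
      exact ⟨j, fun _ => hj⟩
    · exact ⟨i, fun h => absurd h hi⟩
  choose σ hσ using hex
  have hmaps : Set.MapsTo σ (A ∩ W) (A ∩ W) := fun i hi => (hσ i hi).2.1
  have hinj : Set.InjOn σ (A ∩ W) := fun i hi i' hi' he =>
    Nxt.inj h (hσ i hi) (he ▸ hσ i' hi')
  refine ⟨σ, ⟨hmaps, hinj, ?_⟩, fun i hi j => ⟨fun hj => Nxt.uniq h hj (hσ i hi), fun hj =>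
    hj ▸ hσ i hi⟩⟩
  exact (hW.injOn_iff_bijOn_of_mapsTo hmaps).1 hinj |>.surjOn

/-- the cyclic sum inequality -/
theorem cyc_sum_le {α β : Type*} [Preorder α] [Preorder β] (h : STO A lt) {s : Finset ι}
    (hs : ∀ i ∈ s, i ∈ A) {σ : ι → ι} (hbij : Set.BijOn σ (s : Set ι) s)
    {t b : ι} (ht : t ∈ s) (hb : σ t = b) (hσ : ∀ i ∈ s, i ≠ t → lt i (σ i))
    (f : ι → α → ℝ) (g : ι → β → ℝ) (T : α → β → ℝ) (x : ι → α) (y : ι → β)
    (R : α) (L : β) (hR : ∀ i ∈ s, x i ≤ R) (hL : ∀ i ∈ s, L ≤ y i)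
    (hf : ∀ i ∈ s, ∀ j ∈ s, lt i j → Monotone fun u => f i u - f j u)
    (hg : ∀ i ∈ s, ∀ j ∈ s, lt i j → Antitone fun v => g i v - g j v) :
    ∑ i ∈ s, ((f i (x (σ i)) + T (x (σ i)) (y (σ i)) + g i (y (σ i)))
        - (f i (x i) + T (x i) (y i) + g i (y i))) ≤
      ((f t (x b) - f b (x b)) - (f t R - f b R)) +
        ((g t (y b) - g b (y b)) - (g t L - g b L)) := by
  have key : ∀ F : ι → ℝ, ∑ i ∈ s, F (σ i) = ∑ i ∈ s, F i := by
    intro F
    refine Finset.sum_nbij σ (fun i hi => hbij.mapsTo hi) hbij.injOn hbij.surjOn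
      fun i _ => rfl
  have hbs : b ∈ s := hb ▸ hbij.mapsTo ht
  -- rewrite the sum
  have e1 : ∑ i ∈ s, ((f i (x (σ i)) + T (x (σ i)) (y (σ i)) + g i (y (σ i)))
        - (f i (x i) + T (x i) (y i) + g i (y i))) =
      ∑ i ∈ s, ((f i (x (σ i)) - f (σ i) (x (σ i))) + (g i (y (σ i)) - g (σ i) (y (σ i)))) := by
    have h2 := key fun i => f i (x i) + T (x i) (y i) + g i (y i)
    simp only [Finset.sum_sub_distrib, Finset.sum_add_distrib] at h2 ⊢
    linarith
  rw [e1]
  have e2 : ∑ i ∈ s, ((f i R - f (σ i) R) + (g i L - g (σ i) L)) = 0 := by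
    have h2 := key fun i => f i R
    have h3 := key fun i => g i L
    simp only [Finset.sum_sub_distrib, Finset.sum_add_distrib]
    linarith
  have e3 : ∑ i ∈ s.erase t, ((f i (x (σ i)) - f (σ i) (x (σ i)))
      + (g i (y (σ i)) - g (σ i) (y (σ i)))) ≤
      ∑ i ∈ s.erase t, ((f i R - f (σ i) R) + (g i L - g (σ i) L)) := by
    refine Finset.sum_le_sum fun i hi => ?_
    obtain ⟨hit, his⟩ := Finset.mem_erase.1 hi
    have hσs : σ i ∈ s := hbij.mapsTo his
    exact add_le_add (hf i his (σ i) hσs (hσ i his hit) (hR _ hσs))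
      (hg i his (σ i) hσs (hσ i his hit) (hL _ hσs))
  rw [← Finset.add_sum_erase s _ ht] at e2 ⊢
  rw [hb] at e2 ⊢
  linarith

/-- slope intervals are disjoint: their total length is at most the length of the range -/
theorem slope_sum_le (h : STO A lt) (s : Finset ι) (hs : ∀ i ∈ s, i ∈ A) (sl : ι → ℝ)
    (hmono : ∀ i ∈ A, ∀ j ∈ A, lt i j → sl i ≤ sl j) (σ : ι → ι)
    (hσ : ∀ i ∈ s, IsSucc A lt i (σ i)) {lo hi : ℝ} (hlo : ∀ i ∈ A, lo ≤ sl i)
    (hhi : ∀ i ∈ A, sl i ≤ hi) (hlh : lo ≤ hi) :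
    ∑ i ∈ s, (sl (σ i) - sl i) ≤ hi - lo := by
  -- stronger: for nonempty `s` with maximum `m`, the sum is at most `sl (σ m) - lo`
  have key : ∀ n : ℕ, ∀ s : Finset ι, s.card = n → (∀ i ∈ s, i ∈ A) →
      (∀ i ∈ s, IsSucc A lt i (σ i)) → ∀ m ∈ s, (∀ k ∈ s, k ≠ m → lt k m) →
      ∑ i ∈ s, (sl (σ i) - sl i) ≤ sl (σ m) - lo := by
    intro n
    induction n with
    | zero =>
      intro s hn _ _ m hm _
      rw [Finset.card_eq_zero.1 hn] at hm
      exact absurd hm (by simp)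
    | succ n ih =>
      intro s hn hsA hsσ m hm hmax
      rw [← Finset.add_sum_erase s _ hm]
      rcases (s.erase m).eq_empty_or_nonempty with h0 | h1
      · rw [h0]
        simp only [Finset.sum_empty, add_zero]
        have := hlo m (hsA m hm)
        linarith
      · have hsub : ∀ i ∈ s.erase m, i ∈ s := fun i hi => (Finset.mem_erase.1 hi).2
        obtain ⟨p, hp, hpmax⟩ := h.exists_max (s.erase m) (fun i hi => hsA i (hsub i hi)) h1
        have hcard : (s.erase m).card = n := by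
          rw [Finset.card_erase_of_mem hm, hn]
          rfl
        have h2 := ih (s.erase m) hcard (fun i hi => hsA i (hsub i hi))
          (fun i hi => hsσ i (hsub i hi)) p hp hpmax
        have hpm : lt p m := hmax p (hsub p hp) (Finset.mem_erase.1 hp).1
        obtain ⟨-, hσA, -, hno⟩ := hsσ p (hsub p hp)
        have h3 : sl (σ p) ≤ sl m := by
          by_cases he : σ p = m
          · rw [he]
          · rcases h.tri (σ p) hσA m (hsA m hm) he with h4 | h4
            · exact hmono _ hσA _ (hsA m hm) h4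
            · exact absurd ⟨hpm, h4⟩ (hno m (hsA m hm))
        linarith
  rcases s.eq_empty_or_nonempty with h0 | h1
  · rw [h0]
    simp only [Finset.sum_empty]
    linarith
  · obtain ⟨m, hm, hmax⟩ := h.exists_max s hs h1
    have h2 := key s.card s rfl hs hσ m hm hmax
    have h3 := hhi (σ m) (hσ m hm).2.1
    linarith

end det

end Crest.Agent.R151.F592
end

-- ▼ part R151/F592b
section

/-!
# R151, F592b (helper592): stationary label fields on `ℤ`, mass transport, GLOBAL SUCCESSORS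

Abstract probability part of step (F) of S0213 (r151_doc S0213_856, section 9).
-/

set_option autoImplicit false

namespace Crest.Agent.R151.F592

open Finset MeasureTheory Filter Topology
open scoped Classical ENNReal

section prob

variable {Ω : Type*} [MeasurableSpace Ω] {μ : Measure Ω}

theorem lintegral_comp_mp {T : Ω → Ω} (hT : MeasurePreserving T μ μ) {f : Ω → ℝ≥0∞}
    (hf : AEMeasurable f μ) : ∫⁻ ω, f (T ω) ∂μ = ∫⁻ ω, f ω ∂μ := by
  have h1 : AEMeasurable f (Measure.map T μ) := by rwa [hT.map_eq]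
  rw [← lintegral_map' h1 hT.aemeasurable, hT.map_eq]

theorem measure_preimage_mp {T : Ω → Ω} (hT : MeasurePreserving T μ μ) {s : Set Ω}
    (hs : NullMeasurableSet s μ) : μ (T ⁻¹' s) = μ s := hT.measure_preimage hs

/-- mass transport on `ℤ` -/
theorem mass_transport {S : ℤ → Ω → Ω} (hS : ∀ z, MeasurePreserving (S z) μ μ)
    {m : Ω → ℤ → ℤ → ℝ≥0∞} (hm : ∀ x y, AEMeasurable (fun ω => m ω x y) μ)
    (hc : ∀ z ω x y, m (S z ω) x y = m ω (x + z) (y + z)) :
    ∑' y, ∫⁻ ω, m ω 0 y ∂μ = ∑' y, ∫⁻ ω, m ω y 0 ∂μ := by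
  have h1 : ∀ y, ∫⁻ ω, m ω y 0 ∂μ = ∫⁻ ω, m ω 0 (-y) ∂μ := by
    intro y
    rw [← lintegral_comp_mp (hS y) (hm 0 (-y))]
    refine lintegral_congr fun ω => ?_
    rw [hc]
    simp
  simp only [h1]
  exact ((Equiv.neg ℤ).tsum_eq fun y => ∫⁻ ω, m ω 0 y ∂μ).symm

/-- the same with the sums inside -/
theorem mass_transport' {S : ℤ → Ω → Ω} (hS : ∀ z, MeasurePreserving (S z) μ μ)
    {m : Ω → ℤ → ℤ → ℝ≥0∞} (hm : ∀ x y, AEMeasurable (fun ω => m ω x y) μ)
    (hc : ∀ z ω x y, m (S z ω) x y = m ω (x + z) (y + z)) :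
    ∫⁻ ω, ∑' y, m ω 0 y ∂μ = ∫⁻ ω, ∑' y, m ω y 0 ∂μ := by
  rw [lintegral_tsum (fun y => hm 0 y), lintegral_tsum (fun y => hm y 0)]
  exact mass_transport hS hm hc

/-- a stationary field of totally ordered labels on `ℤ` -/
structure LField (μ : Measure Ω) (S : ℤ → Ω → Ω) (A : Ω → Set ℤ) (lt : Ω → ℤ → ℤ → Prop) :
    Prop where
  mp : ∀ z, MeasurePreserving (S z) μ μ
  measA : ∀ x, NullMeasurableSet {ω | x ∈ A ω} μ
  measlt : ∀ x y, NullMeasurableSet {ω | lt ω x y} μ
  covA : ∀ z ω x, x ∈ A (S z ω) ↔ x + z ∈ A ω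
  covlt : ∀ z ω x y, lt (S z ω) x y ↔ lt ω (x + z) (y + z)
  sto : ∀ᵐ ω ∂μ, STO (A ω) (lt ω)

variable {S : ℤ → Ω → Ω} {A : Ω → Set ℤ} {lt : Ω → ℤ → ℤ → Prop}

theorem nullMeasurableSet_and {p q : Ω → Prop} (hp : NullMeasurableSet {ω | p ω} μ)
    (hq : NullMeasurableSet {ω | q ω} μ) : NullMeasurableSet {ω | p ω ∧ q ω} μ := hp.inter hq

theorem nullMeasurableSet_or {p q : Ω → Prop} (hp : NullMeasurableSet {ω | p ω} μ)
    (hq : NullMeasurableSet {ω | q ω} μ) : NullMeasurableSet {ω | p ω ∨ q ω} μ := hp.union hq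

theorem nullMeasurableSet_not {p : Ω → Prop} (hp : NullMeasurableSet {ω | p ω} μ) :
    NullMeasurableSet {ω | ¬ p ω} μ := hp.compl

theorem nullMeasurableSet_forall {ι : Type*} [Countable ι] {p : ι → Ω → Prop}
    (hp : ∀ i, NullMeasurableSet {ω | p i ω} μ) : NullMeasurableSet {ω | ∀ i, p i ω} μ := by
  have : {ω | ∀ i, p i ω} = ⋂ i, {ω | p i ω} := by ext; simp
  rw [this]
  exact NullMeasurableSet.iInter hp

theorem nullMeasurableSet_exists {ι : Type*} [Countable ι] {p : ι → Ω → Prop}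
    (hp : ∀ i, NullMeasurableSet {ω | p i ω} μ) : NullMeasurableSet {ω | ∃ i, p i ω} μ := by
  have : {ω | ∃ i, p i ω} = ⋃ i, {ω | p i ω} := by ext; simp
  rw [this]
  exact NullMeasurableSet.iUnion hp

theorem nullMeasurableSet_const (p : Prop) : NullMeasurableSet {_ω : Ω | p} μ :=
  (MeasurableSet.const p).nullMeasurableSet

theorem nullMeasurableSet_imp {p q : Ω → Prop} (hp : NullMeasurableSet {ω | p ω} μ)
    (hq : NullMeasurableSet {ω | q ω} μ) : NullMeasurableSet {ω | p ω → q ω} μ := by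
  have : {ω | p ω → q ω} = {ω | ¬ p ω ∨ q ω} := by ext; simp [imp_iff_not_or]
  rw [this]
  exact nullMeasurableSet_or (nullMeasurableSet_not hp) hq

namespace LField

theorem nullMeasurable_nxt (D : LField μ S A lt) (W : Set ℤ) (x j : ℤ) :
    NullMeasurableSet {ω | Nxt (A ω) (lt ω) W x j} μ := by
  have hk : ∀ k, NullMeasurableSet {ω | k ∈ A ω} μ := D.measA
  refine nullMeasurableSet_and (nullMeasurableSet_and (hk x) (nullMeasurableSet_const _))
    (nullMeasurableSet_and (nullMeasurableSet_and (hk j) (nullMeasurableSet_const _))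
      (nullMeasurableSet_or (nullMeasurableSet_and (D.measlt x j) ?_) ?_))
  · exact nullMeasurableSet_forall fun k => nullMeasurableSet_imp (nullMeasurableSet_const _)
      (nullMeasurableSet_imp (hk k) (nullMeasurableSet_not
        (nullMeasurableSet_and (D.measlt x k) (D.measlt k j))))
  · exact nullMeasurableSet_forall fun k => nullMeasurableSet_imp (nullMeasurableSet_const _)
      (nullMeasurableSet_imp (hk k) (nullMeasurableSet_and (nullMeasurableSet_not (D.measlt x k))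
        (nullMeasurableSet_not (D.measlt k j))))

theorem nullMeasurable_isSucc (D : LField μ S A lt) (x j : ℤ) :
    NullMeasurableSet {ω | IsSucc (A ω) (lt ω) x j} μ :=
  nullMeasurableSet_and (D.measA x) (nullMeasurableSet_and (D.measA j)
    (nullMeasurableSet_and (D.measlt x j) (nullMeasurableSet_forall fun k =>
      nullMeasurableSet_imp (D.measA k) (nullMeasurableSet_not
        (nullMeasurableSet_and (D.measlt x k) (D.measlt k j))))))

theorem cov_nxt (D : LField μ S A lt) (z : ℤ) (ω : Ω) (a b x j : ℤ) :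
    Nxt (A (S z ω)) (lt (S z ω)) (Set.Ico a b) x j ↔
      Nxt (A ω) (lt ω) (Set.Ico (a + z) (b + z)) (x + z) (j + z) := by
  have hW : ∀ k, k ∈ Set.Ico a b ↔ k + z ∈ Set.Ico (a + z) (b + z) := by
    intro k
    simp only [Set.mem_Ico]
    omega
  have hf : ∀ p : ℤ → Prop, (∀ k, p (k + z)) ↔ ∀ k, p k := fun p =>
    ⟨fun h k => by have := h (k - z); rwa [sub_add_cancel] at this, fun h k => h _⟩
  unfold Nxt
  simp only [D.covA, D.covlt, hW]
  rw [hf fun k => k ∈ Set.Ico (a + z) (b + z) → k ∈ A ω → ¬ (lt ω (x + z) k ∧ lt ω k (j + z)),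
    hf fun k => k ∈ Set.Ico (a + z) (b + z) → k ∈ A ω → ¬ lt ω (x + z) k ∧ ¬ lt ω k (j + z)]

theorem cov_isSucc (D : LField μ S A lt) (z : ℤ) (ω : Ω) (x j : ℤ) :
    IsSucc (A (S z ω)) (lt (S z ω)) x j ↔ IsSucc (A ω) (lt ω) (x + z) (j + z) := by
  have hf : ∀ p : ℤ → Prop, (∀ k, p (k + z)) ↔ ∀ k, p k := fun p =>
    ⟨fun h k => by have := h (k - z); rwa [sub_add_cancel] at this, fun h k => h _⟩
  unfold IsSucc
  simp only [D.covA, D.covlt]
  rw [hf fun k => k ∈ A ω → ¬ (lt ω (x + z) k ∧ lt ω k (j + z))]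

/-- if an event is null for `0`, it is null for all `x` -/
theorem ae_forall_of_ae_zero (hmp : ∀ z, MeasurePreserving (S z) μ μ) {p : Ω → ℤ → Prop}
    (hc : ∀ z ω x, p (S z ω) x ↔ p ω (x + z)) (h0 : ∀ᵐ ω ∂μ, p ω 0) : ∀ᵐ ω ∂μ, ∀ x, p ω x := by
  rw [ae_all_iff]
  intro x
  filter_upwards [(hmp x).quasiMeasurePreserving.ae h0] with ω hω
  have := (hc x ω 0).1 hω
  rwa [zero_add] at this

/-- no global top: the largest label cannot exist -/
theorem ae_no_top [IsProbabilityMeasure μ] (D : LField μ S A lt) :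
    ∀ᵐ ω ∂μ, ∀ x ∈ A ω, ∃ k ∈ A ω, lt ω x k := by
  set P : Ω → ℤ → Prop := fun ω x => x ∈ A ω ∧ ∀ k, k ∈ A ω → ¬ lt ω x k with hP
  have hPm : ∀ x, NullMeasurableSet {ω | P ω x} μ := fun x =>
    nullMeasurableSet_and (D.measA x) (nullMeasurableSet_forall fun k =>
      nullMeasurableSet_imp (D.measA k) (nullMeasurableSet_not (D.measlt x k)))
  have hPc : ∀ z ω x, P (S z ω) x ↔ P ω (x + z) := by
    intro z ω x
    have hf : ∀ p : ℤ → Prop, (∀ k, p (k + z)) ↔ ∀ k, p k := fun p =>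
      ⟨fun h k => by have := h (k - z); rwa [sub_add_cancel] at this, fun h k => h _⟩
    simp only [hP, D.covA, D.covlt]
    rw [hf fun k => k ∈ A ω → ¬ lt ω (x + z) k]
  have heq : ∀ x, μ {ω | P ω x} = μ {ω | P ω 0} := by
    intro x
    rw [← measure_preimage_mp (D.mp x) (hPm 0)]
    congr 1
    ext ω
    simp only [Set.mem_preimage, Set.mem_ofPred_eq, hPc, zero_add]
  have hdisj : ∀ᵐ ω ∂μ, ∀ x y, P ω x → P ω y → x = y := by
    filter_upwards [D.sto] with ω hω x y hx hy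
    by_contra hne
    rcases hω.tri x hx.1 y hy.1 hne with h | h
    · exact hx.2 y hy.1 h
    · exact hy.2 x hx.1 h
  have hsum : ∀ n : ℕ, (n : ℝ≥0∞) * μ {ω | P ω 0} ≤ 1 := by
    intro n
    have h1 : (n : ℝ≥0∞) * μ {ω | P ω 0} = ∑ x ∈ Finset.range n, μ {ω | P ω (x : ℤ)} := by
      simp [heq]
    rw [h1]
    have h2 : ∀ x : ℕ, μ {ω | P ω (x : ℤ)} =
        ∫⁻ ω, Set.indicator {ω | P ω (x : ℤ)} (fun _ => 1) ω ∂μ := fun x => by
      rw [lintegral_indicator_const₀ (hPm x), one_mul]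
    simp only [h2]
    have h3 : ∑ x ∈ Finset.range n, ∫⁻ ω, Set.indicator {ω | P ω (x : ℤ)}
        (fun _ => (1 : ℝ≥0∞)) ω ∂μ = ∫⁻ ω, ∑ x ∈ Finset.range n,
        Set.indicator {ω | P ω (x : ℤ)} (fun _ => (1 : ℝ≥0∞)) ω ∂μ :=
      (lintegral_finsetSum' (Finset.range n) (f := fun (x : ℕ) ω =>
        Set.indicator {ω | P ω (x : ℤ)} (fun _ => (1 : ℝ≥0∞)) ω)
        fun x _ => aemeasurable_const.indicator₀ (hPm x)).symm
    rw [h3]
    calc _ ≤ ∫⁻ _ω, 1 ∂μ := by
          refine lintegral_mono_ae ?_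
          filter_upwards [hdisj] with ω hω
          by_cases hex : ∃ x : ℕ, x ∈ Finset.range n ∧ P ω (x : ℤ)
          · obtain ⟨x, hx, hPx⟩ := hex
            rw [Finset.sum_eq_single_of_mem x hx]
            · exact Set.indicator_le_self' (by simp) ω
            · intro y _ hyx
              refine Set.indicator_of_notMem ?_ _
              intro hy
              exact hyx (by exact_mod_cast hω _ _ hy hPx)
          · rw [Finset.sum_eq_zero]
            · exact zero_le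
            · intro x hx
              exact Set.indicator_of_notMem (s := {ω | P ω (x : ℤ)})
                (fun h => hex ⟨x, hx, h⟩) _
      _ = 1 := by simp
  have hzero : μ {ω | P ω 0} = 0 := by
    by_contra hne
    have hlt : (μ {ω | P ω 0})⁻¹ < ⊤ := ENNReal.inv_lt_top.2 (pos_iff_ne_zero.2 hne)
    obtain ⟨n, hn⟩ := ENNReal.exists_nat_gt hlt.ne
    have h1 := hsum n
    have h2 : (μ {ω | P ω 0})⁻¹ * μ {ω | P ω 0} < n * μ {ω | P ω 0} :=
      ENNReal.mul_lt_mul_left hne (measure_ne_top _ _) hn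
    rw [ENNReal.inv_mul_cancel hne (measure_ne_top _ _)] at h2
    exact absurd h1 (not_le.2 h2)
  have h0 : ∀ᵐ ω ∂μ, ¬ P ω 0 := by
    rw [ae_iff]
    simpa using hzero
  have hall := ae_forall_of_ae_zero (p := fun ω x => ¬ P ω x) D.mp
    (fun z ω x => not_congr (hPc z ω x)) h0
  filter_upwards [hall] with ω hω x hx
  have := hω x
  simp only [hP, not_and, not_forall, not_not] at this
  obtain ⟨k, hk, hk'⟩ := this hx
  exact ⟨k, hk, hk'⟩

end LField

end prob

end Crest.Agent.R151.F592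
end

-- ▼ part R151/F592c
section

/-!
# R151, F592c (helper592): GLOBAL SUCCESSORS from the cyclic sum and the finiteness of near ties

`LField.ae_exists_succ` : a stationary totally ordered label field with
* averaged cyclic sums `≤ C h` (gap to the cyclic successor in a window of length `h`),
* for every `K`, `β` a covariant set of good labels with `P(0 active, not good) ≤ β` such that a
  good label has only finitely many good `K`-near ties,
has a.s. a global successor for every label.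
-/

set_option autoImplicit false

namespace Crest.Agent.R151.F592

open Finset MeasureTheory Filter Topology
open scoped Classical ENNReal

variable {Ω : Type*} [MeasurableSpace Ω] {μ : Measure Ω}
variable {S : ℤ → Ω → Ω} {A : Ω → Set ℤ} {lt : Ω → ℤ → ℤ → Prop}

namespace LField

/-- the event that `x` has no good cyclic successor with small gap -/
def Bd (A : Ω → Set ℤ) (lt : Ω → ℤ → ℤ → Prop) (gap : Ω → ℤ → ℤ → ℝ) (Gd : Ω → Set ℤ) (K : ℝ)
    (W : Set ℤ) (x : ℤ) : Set Ω :=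
  {ω | x ∈ A ω ∧ ¬ ∃ j, Nxt (A ω) (lt ω) W x j ∧ gap ω x j ≤ K ∧ x ∈ Gd ω ∧ j ∈ Gd ω}

variable {gap : Ω → ℤ → ℤ → ℝ} {Gd : Ω → Set ℤ}

theorem nullMeasurable_Bd (D : LField μ S A lt)
    (hgm : ∀ x y K, NullMeasurableSet {ω | gap ω x y ≤ K} μ)
    (hGm : ∀ x, NullMeasurableSet {ω | x ∈ Gd ω} μ) (K : ℝ) (W : Set ℤ) (x : ℤ) :
    NullMeasurableSet (Bd A lt gap Gd K W x) μ :=
  nullMeasurableSet_and (D.measA x) (nullMeasurableSet_not (nullMeasurableSet_exists fun j =>
    nullMeasurableSet_and (D.nullMeasurable_nxt W x j) (nullMeasurableSet_and (hgm x j K)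
      (nullMeasurableSet_and (hGm x) (hGm j)))))

theorem mem_Bd_shift (D : LField μ S A lt)
    (hgc : ∀ z ω x y, gap (S z ω) x y = gap ω (x + z) (y + z))
    (hGc : ∀ z ω x, x ∈ Gd (S z ω) ↔ x + z ∈ Gd ω) (K : ℝ) (a b : ℤ) (z x : ℤ) (ω : Ω) :
    S z ω ∈ Bd A lt gap Gd K (Set.Ico a b) x ↔
      ω ∈ Bd A lt gap Gd K (Set.Ico (a + z) (b + z)) (x + z) := by
  have hf : ∀ p : ℤ → Prop, (∃ k, p (k + z)) ↔ ∃ k, p k := fun p =>
    ⟨fun ⟨k, hk⟩ => ⟨_, hk⟩, fun ⟨k, hk⟩ => ⟨k - z, by rwa [sub_add_cancel]⟩⟩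
  unfold Bd
  simp only [Set.mem_ofPred_eq, D.covA, D.cov_nxt, hgc, hGc]
  rw [hf fun k => Nxt (A ω) (lt ω) (Set.Ico (a + z) (b + z)) (x + z) k ∧ gap ω (x + z) k ≤ K ∧
    x + z ∈ Gd ω ∧ k ∈ Gd ω]

/-- Markov: the averaged probability of `Bd` -/
theorem sum_Bd_le (D : LField μ S A lt)
    (hgm : ∀ x y K, NullMeasurableSet {ω | gap ω x y ≤ K} μ)
    (hGm : ∀ x, NullMeasurableSet {ω | x ∈ Gd ω} μ)
    (hGc : ∀ z ω x, x ∈ Gd (S z ω) ↔ x + z ∈ Gd ω)
    {C β : ℝ≥0∞} {K : ℝ} (hK : 0 < K) (h : ℕ)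
    (hcyc : ∑ x ∈ Finset.range h, ∑ j ∈ Finset.range h,
      ∫⁻ ω, Set.indicator {ω | Nxt (A ω) (lt ω) (Set.Ico 0 (h : ℤ)) x j}
        (fun ω => ENNReal.ofReal (gap ω x j)) ω ∂μ ≤ C * h)
    (hβ : μ {ω | (0 : ℤ) ∈ A ω ∧ (0 : ℤ) ∉ Gd ω} ≤ β) :
    ∑ x ∈ Finset.range h, μ (Bd A lt gap Gd K (Set.Ico 0 (h : ℤ)) (x : ℤ)) ≤
      (β + C / ENNReal.ofReal K + β) * h := by
  set W : Set ℤ := Set.Ico 0 (h : ℤ) with hW
  set N : ℤ → ℤ → Set Ω := fun x j => {ω | Nxt (A ω) (lt ω) W x j} with hN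
  have hNm : ∀ x j, NullMeasurableSet (N x j) μ := fun x j => D.nullMeasurable_nxt W x j
  set Bg : ℤ → Set Ω := fun x => {ω | x ∈ A ω ∧ x ∉ Gd ω} with hBg
  have hBgm : ∀ x, NullMeasurableSet (Bg x) μ := fun x =>
    nullMeasurableSet_and (D.measA x) (nullMeasurableSet_not (hGm x))
  have hBgβ : ∀ x, μ (Bg x) ≤ β := by
    intro x
    have : S x ⁻¹' (Bg 0) = Bg x := by
      ext ω
      simp only [hBg, Set.mem_preimage, Set.mem_ofPred_eq, D.covA, hGc, zero_add]
    rw [← this, measure_preimage_mp (D.mp x) (hBgm 0)]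
    exact hβ
  -- the three contributions
  set Gp : ℤ → ℤ → Set Ω := fun x j => N x j ∩ {ω | gap ω x j ≤ K}ᶜ with hGp
  have hGpm : ∀ x j, NullMeasurableSet (Gp x j) μ := fun x j => (hNm x j).inter (hgm x j K).compl
  set Bj : ℤ → ℤ → Set Ω := fun x j => N x j ∩ Bg j with hBj
  have hBjm : ∀ x j, NullMeasurableSet (Bj x j) μ := fun x j => (hNm x j).inter (hBgm j)
  have hfin : ∀ ω, (A ω ∩ W).Finite := fun ω => (Set.finite_Ico 0 (h : ℤ)).subset
    Set.inter_subset_right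
  have hle : ∀ x ∈ Finset.range h, μ (Bd A lt gap Gd K W (x : ℤ)) ≤
      μ (Bg x) + (∑ j ∈ Finset.range h, μ (Gp x j) + ∑ j ∈ Finset.range h, μ (Bj x j)) := by
    intro x hx
    have hsub : Bd A lt gap Gd K W (x : ℤ) ≤ᵐ[μ]
        (Bg x ∪ ((⋃ j ∈ Finset.range h, Gp x j) ∪ ⋃ j ∈ Finset.range h, Bj x j) : Set Ω) := by
      filter_upwards [D.sto] with ω hω hB
      obtain ⟨hxA, hno⟩ := hB
      have hxW : (x : ℤ) ∈ W := by
        rw [hW, Set.mem_Ico]
        exact ⟨by positivity, by exact_mod_cast Finset.mem_range.1 hx⟩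
      obtain ⟨j, hj⟩ := exists_nxt hω (hfin ω) hxA hxW
      have hjW : j ∈ W := hj.2.1.2
      obtain ⟨j', rfl⟩ : ∃ j' : ℕ, (j' : ℤ) = j := ⟨j.toNat, Int.toNat_of_nonneg hjW.1⟩
      have hj' : j' ∈ Finset.range h := by
        rw [Finset.mem_range]
        exact_mod_cast hjW.2
      by_cases h1 : (x : ℤ) ∈ Gd ω
      · by_cases h2 : gap ω x j' ≤ K
        · right; right
          refine Set.mem_biUnion hj' ⟨hj, hj.2.1.1, fun h3 => ?_⟩
          exact hno ⟨_, hj, h2, h1, h3⟩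
        · right; left
          exact Set.mem_biUnion hj' ⟨hj, h2⟩
      · left
        exact ⟨hxA, h1⟩
    refine (measure_mono_ae hsub).trans ((measure_union_le _ _).trans
      (add_le_add le_rfl ((measure_union_le _ _).trans (add_le_add ?_ ?_))))
    · exact measure_biUnion_finset_le _ _
    · exact measure_biUnion_finset_le _ _
  refine (Finset.sum_le_sum hle).trans ?_
  rw [Finset.sum_add_distrib, Finset.sum_add_distrib]
  have e1 : ∑ x ∈ Finset.range h, μ (Bg (x : ℤ)) ≤ β * h := by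
    calc ∑ x ∈ Finset.range h, μ (Bg (x : ℤ)) ≤ ∑ _x ∈ Finset.range h, β :=
          Finset.sum_le_sum fun x _ => hBgβ x
      _ = β * h := by rw [Finset.sum_const, Finset.card_range, nsmul_eq_mul, mul_comm]
  have e2 : ∑ x ∈ Finset.range h, ∑ j ∈ Finset.range h, μ (Gp (x : ℤ) (j : ℤ)) ≤
      C / ENNReal.ofReal K * h := by
    have h1 : ∀ x j : ℤ, μ (Gp x j) ≤ (∫⁻ ω, Set.indicator (N x j)
        (fun ω => ENNReal.ofReal (gap ω x j)) ω ∂μ) / ENNReal.ofReal K := by
      intro x j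
      rw [ENNReal.le_div_iff_mul_le (Or.inl (by simpa using hK)) (Or.inl ENNReal.ofReal_ne_top)]
      calc μ (Gp x j) * ENNReal.ofReal K
          = ∫⁻ ω, Set.indicator (Gp x j) (fun _ => ENNReal.ofReal K) ω ∂μ := by
            rw [lintegral_indicator_const₀ (hGpm x j), mul_comm]
        _ ≤ _ := by
            refine lintegral_mono fun ω => ?_
            by_cases hω : ω ∈ Gp x j
            · rw [Set.indicator_of_mem hω, Set.indicator_of_mem hω.1]
              exact ENNReal.ofReal_le_ofReal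
                (not_le.1 (show ¬ gap ω x j ≤ K from hω.2)).le
            · rw [Set.indicator_of_notMem hω]
              exact zero_le
    calc _ ≤ ∑ x ∈ Finset.range h, ∑ j ∈ Finset.range h, (∫⁻ ω, Set.indicator (N x j)
        (fun ω => ENNReal.ofReal (gap ω x j)) ω ∂μ) / ENNReal.ofReal K :=
          Finset.sum_le_sum fun x _ => Finset.sum_le_sum fun j _ => h1 x j
      _ = (∑ x ∈ Finset.range h, ∑ j ∈ Finset.range h, (∫⁻ ω, Set.indicator (N x j)
        (fun ω => ENNReal.ofReal (gap ω x j)) ω ∂μ)) / ENNReal.ofReal K := by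
          simp only [ENNReal.div_eq_inv_mul, Finset.mul_sum]
      _ ≤ C * h / ENNReal.ofReal K := by gcongr
      _ = C / ENNReal.ofReal K * h := by
          rw [ENNReal.div_eq_inv_mul, ENNReal.div_eq_inv_mul, mul_assoc]
  have e3 : ∑ x ∈ Finset.range h, ∑ j ∈ Finset.range h, μ (Bj (x : ℤ) (j : ℤ)) ≤ β * h := by
    rw [Finset.sum_comm]
    have h1 : ∀ j : ℤ, ∑ x ∈ Finset.range h, μ (Bj (x : ℤ) j) ≤ β := by
      intro j
      have h2 : ∀ x : ℕ, μ (Bj (x : ℤ) j) =
          ∫⁻ ω, Set.indicator (Bj (x : ℤ) j) (fun _ => (1 : ℝ≥0∞)) ω ∂μ := fun x => by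
        rw [lintegral_indicator_const₀ (hBjm x j), one_mul]
      simp only [h2]
      have h3 : ∑ x ∈ Finset.range h, ∫⁻ ω, Set.indicator (Bj (x : ℤ) j)
          (fun _ => (1 : ℝ≥0∞)) ω ∂μ = ∫⁻ ω, ∑ x ∈ Finset.range h,
          Set.indicator (Bj (x : ℤ) j) (fun _ => (1 : ℝ≥0∞)) ω ∂μ :=
        (lintegral_finsetSum' (Finset.range h) (f := fun (x : ℕ) ω =>
          Set.indicator (Bj (x : ℤ) j) (fun _ => (1 : ℝ≥0∞)) ω)
          fun x _ => aemeasurable_const.indicator₀ (hBjm x j)).symm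
      rw [h3]
      calc _ ≤ ∫⁻ ω, Set.indicator (Bg j) (fun _ => (1 : ℝ≥0∞)) ω ∂μ := by
            refine lintegral_mono_ae ?_
            filter_upwards [D.sto] with ω hω
            by_cases hex : ∃ x : ℕ, x ∈ Finset.range h ∧ ω ∈ Bj (x : ℤ) j
            · obtain ⟨x, hx, hPx⟩ := hex
              rw [Finset.sum_eq_single_of_mem x hx]
              · rw [Set.indicator_of_mem hPx, Set.indicator_of_mem hPx.2]
              · intro y _ hyx
                refine Set.indicator_of_notMem (s := Bj (y : ℤ) j) ?_ _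
                intro hy
                exact hyx (by exact_mod_cast Nxt.inj hω hy.1 hPx.1)
            · rw [Finset.sum_eq_zero]
              · exact zero_le
              · intro x hx
                exact Set.indicator_of_notMem (s := Bj (x : ℤ) j)
                  (fun h => hex ⟨x, hx, h⟩) _
        _ = μ (Bg j) := by rw [lintegral_indicator_const₀ (hBgm j), one_mul]
        _ ≤ β := hBgβ j
    calc _ ≤ ∑ _j ∈ Finset.range h, β := Finset.sum_le_sum fun j _ => h1 j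
      _ = β * h := by rw [Finset.sum_const, Finset.card_range, nsmul_eq_mul, mul_comm]
  calc _ ≤ β * h + (C / ENNReal.ofReal K * h + β * h) := add_le_add e1 (add_le_add e2 e3)
    _ = (β + C / ENNReal.ofReal K + β) * h := by ring

/-- for every `n` there is a window around `[-n, n]` with small probability of `Bd` at `0` -/
theorem exists_window (D : LField μ S A lt)
    (hgm : ∀ x y K, NullMeasurableSet {ω | gap ω x y ≤ K} μ)
    (hgc : ∀ z ω x y, gap (S z ω) x y = gap ω (x + z) (y + z))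
    (hGm : ∀ x, NullMeasurableSet {ω | x ∈ Gd ω} μ)
    (hGc : ∀ z ω x, x ∈ Gd (S z ω) ↔ x + z ∈ Gd ω)
    {C β : ℝ≥0∞} {K : ℝ} (hK : 0 < K)
    (hcyc : ∀ h : ℕ, ∑ x ∈ Finset.range h, ∑ j ∈ Finset.range h,
      ∫⁻ ω, Set.indicator {ω | Nxt (A ω) (lt ω) (Set.Ico 0 (h : ℤ)) x j}
        (fun ω => ENNReal.ofReal (gap ω x j)) ω ∂μ ≤ C * h)
    (hβ : μ {ω | (0 : ℤ) ∈ A ω ∧ (0 : ℤ) ∉ Gd ω} ≤ β) (n : ℕ) :
    ∃ a b : ℤ, a ≤ -n ∧ n < b ∧
      μ (Bd A lt gap Gd K (Set.Ico a b) 0) ≤ 2 * (β + C / ENNReal.ofReal K + β) := by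
  set N := n + 1 with hN
  set ε := β + C / ENNReal.ofReal K + β with hε
  by_contra hcon
  push Not at hcon
  have h1 := D.sum_Bd_le hgm hGm hGc hK (4 * N) (hcyc (4 * N)) hβ
  have h2 : ∀ x ∈ Finset.Ico N (3 * N), 2 * ε <
      μ (Bd A lt gap Gd K (Set.Ico 0 ((4 * N : ℕ) : ℤ)) (x : ℤ)) := by
    intro x hx
    rw [Finset.mem_Ico] at hx
    have h3 := hcon (-(x : ℤ)) (4 * N - x) (by omega) (by omega)
    have h4 : S x ⁻¹' (Bd A lt gap Gd K (Set.Ico (-(x : ℤ)) (4 * N - x)) 0) =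
        Bd A lt gap Gd K (Set.Ico 0 ((4 * N : ℕ) : ℤ)) (x : ℤ) := by
      ext ω
      rw [Set.mem_preimage, D.mem_Bd_shift hgc hGc]
      have e1 : (-(x : ℤ)) + x = 0 := by ring
      have e2 : (4 * (N : ℤ) - x) + x = ((4 * N : ℕ) : ℤ) := by push_cast; ring
      rw [e1, e2, zero_add]
    rw [← h4, measure_preimage_mp (D.mp x) (D.nullMeasurable_Bd hgm hGm _ _ _)]
    exact h3
  have hsub : Finset.Ico N (3 * N) ⊆ Finset.range (4 * N) := by
    intro x hx
    rw [Finset.mem_Ico] at hx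
    rw [Finset.mem_range]
    omega
  have h5 : ∑ x ∈ Finset.Ico N (3 * N), 2 * ε < ∑ x ∈ Finset.Ico N (3 * N),
      μ (Bd A lt gap Gd K (Set.Ico 0 ((4 * N : ℕ) : ℤ)) (x : ℤ)) := by
    refine ENNReal.sum_lt_sum_of_nonempty ?_ h2
    rw [Finset.nonempty_Ico]
    omega
  have h6 : ∑ x ∈ Finset.Ico N (3 * N), 2 * ε = ε * ((4 * N : ℕ) : ℝ≥0∞) := by
    rw [Finset.sum_const, Nat.card_Ico, nsmul_eq_mul]
    have : 3 * N - N = 2 * N := by omega
    rw [this]
    push_cast
    ring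
  have h7 := (Finset.sum_le_sum_of_subset (f := fun x : ℕ =>
    μ (Bd A lt gap Gd K (Set.Ico 0 ((4 * N : ℕ) : ℤ)) (x : ℤ))) hsub).trans h1
  rw [h6] at h5
  exact absurd (h5.trans_le h7) (lt_irrefl _)

/-- **global successors** -/
theorem ae_exists_succ [IsProbabilityMeasure μ] (D : LField μ S A lt)
    (hgm : ∀ x y K, NullMeasurableSet {ω | gap ω x y ≤ K} μ)
    (hgc : ∀ z ω x y, gap (S z ω) x y = gap ω (x + z) (y + z))
    {C : ℝ≥0∞} (hC : C ≠ ⊤)
    (hcyc : ∀ h : ℕ, ∑ x ∈ Finset.range h, ∑ j ∈ Finset.range h,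
      ∫⁻ ω, Set.indicator {ω | Nxt (A ω) (lt ω) (Set.Ico 0 (h : ℤ)) x j}
        (fun ω => ENNReal.ofReal (gap ω x j)) ω ∂μ ≤ C * h)
    (hgood : ∀ K : ℝ, 0 < K → ∀ β : ℝ≥0∞, 0 < β → ∃ Gd : Ω → Set ℤ,
      (∀ x, NullMeasurableSet {ω | x ∈ Gd ω} μ) ∧ (∀ z ω x, x ∈ Gd (S z ω) ↔ x + z ∈ Gd ω) ∧
      μ {ω | (0 : ℤ) ∈ A ω ∧ (0 : ℤ) ∉ Gd ω} ≤ β ∧
      ∀ᵐ ω ∂μ, (0 : ℤ) ∈ A ω → (0 : ℤ) ∈ Gd ω →
        {j : ℤ | j ∈ A ω ∧ j ∈ Gd ω ∧ gap ω 0 j ≤ K}.Finite) :
    ∀ᵐ ω ∂μ, ∀ x ∈ A ω, ∃ j, IsSucc (A ω) (lt ω) x j := by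
  -- the exceptional set at `0`
  set Z : Set Ω := {ω | (0 : ℤ) ∈ A ω ∧ ¬ ∃ j, IsSucc (A ω) (lt ω) 0 j} with hZ
  have hZle : ∀ K : ℝ, 0 < K → ∀ β : ℝ≥0∞, 0 < β →
      μ Z ≤ 2 * (β + C / ENNReal.ofReal K + β) := by
    intro K hK β hβ
    obtain ⟨Gd, hGm, hGc, hGβ, hfin⟩ := hgood K hK β hβ
    choose a b ha hb hab using fun n => D.exists_window hgm hgc hGm hGc hK hcyc hGβ n
    set E : ℕ → Set Ω := fun n => Bd A lt gap Gd K (Set.Ico (a n) (b n)) 0 with hE
    have hsub : Z ≤ᵐ[μ] (⋃ m : ℕ, ⋂ n ≥ m, E n : Set Ω) := by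
      filter_upwards [D.sto, D.ae_no_top, hfin] with ω hω htop hfin hZω
      obtain ⟨h0A, hno⟩ := hZω
      change ω ∈ ⋃ m : ℕ, ⋂ n ≥ m, E n
      by_contra hcon
      simp only [Set.mem_iUnion, Set.mem_iInter, not_exists, not_forall] at hcon
      -- infinitely many `n` with a good cyclic successor
      have hinf : ∀ m : ℕ, ∃ n ≥ m, ∃ j, Nxt (A ω) (lt ω) (Set.Ico (a n) (b n)) 0 j ∧
          gap ω 0 j ≤ K ∧ (0 : ℤ) ∈ Gd ω ∧ j ∈ Gd ω := by
        intro m
        obtain ⟨n, hn, hnE⟩ := hcon m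
        refine ⟨n, hn, ?_⟩
        by_contra h
        exact hnE ⟨h0A, h⟩
      have h0G : (0 : ℤ) ∈ Gd ω := by
        obtain ⟨n, -, j, -, -, h, -⟩ := hinf 0
        exact h
      have hF := hfin h0A h0G
      -- pigeonhole
      choose nn hnn jj hjj using hinf
      have hjF : ∀ m, jj m ∈ hF.toFinset := fun m => by
        rw [Set.Finite.mem_toFinset]
        exact ⟨(hjj m).1.2.1.1, (hjj m).2.2.2, (hjj m).2.1⟩
      obtain ⟨j, hj⟩ : ∃ j : ℤ, ∀ m : ℕ, ∃ m' ≥ m, jj m' = j := by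
        have h1 : ∃ j ∈ hF.toFinset, {m : ℕ | jj m = j}.Infinite := by
          by_contra hno'
          push Not at hno'
          have h2 : (⋃ j ∈ hF.toFinset, {m : ℕ | jj m = j}).Finite :=
            Set.Finite.biUnion (Finset.finite_toSet _) fun j hj => Set.not_infinite.1
              (fun hi => (Set.not_infinite.2 (hno' j hj)) hi)
          have h3 : (Set.univ : Set ℕ) ⊆ ⋃ j ∈ hF.toFinset, {m : ℕ | jj m = j} := fun m _ =>
            Set.mem_biUnion (hjF m) rfl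
          exact Set.infinite_univ (h2.subset h3)
        obtain ⟨j, -, hj⟩ := h1
        refine ⟨j, fun m => ?_⟩
        obtain ⟨m', hm', hlt⟩ := hj.exists_gt m
        exact ⟨m', hlt.le, hm'⟩
      -- windows become large
      have hwin : ∀ k : ℤ, ∃ m : ℕ, ∀ m' ≥ m, k ∈ Set.Ico (a (nn m')) (b (nn m')) := by
        intro k
        refine ⟨k.natAbs, fun m' hm' => ?_⟩
        have h1 := hnn m'
        have h2 := ha (nn m')
        have h3 := hb (nn m')
        rw [Set.mem_Ico]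
        omega
      obtain ⟨m0, -, hm0⟩ := hj 0
      have hjA : j ∈ A ω := by
        rw [← hm0]
        exact (hjj m0).1.2.1.1
      have hlt0 : lt ω 0 j := by
        obtain ⟨k, hkA, hk⟩ := htop 0 h0A
        obtain ⟨m, hm⟩ := hwin k
        obtain ⟨m', hm', hj'⟩ := hj m
        have h1 := (hjj m').1
        rw [hj'] at h1
        rcases h1.2.2 with h2 | h2
        · exact h2.1
        · exact absurd hk (h2 k (hm m' hm') hkA).1
      refine hno ⟨j, h0A, hjA, hlt0, fun k hkA hk => ?_⟩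
      obtain ⟨m, hm⟩ := hwin k
      obtain ⟨m', hm', hj'⟩ := hj m
      have h1 := (hjj m').1
      rw [hj'] at h1
      rcases h1.2.2 with h2 | h2
      · exact h2.2 k (hm m' hm') hkA hk
      · exact (h2 k (hm m' hm') hkA).1 hk.1
    refine (measure_mono_ae hsub).trans ?_
    have hmono : Monotone fun m : ℕ => ⋂ n ≥ m, E n := by
      intro m m' hmm'
      refine Set.iInter_mono fun n => ?_
      exact fun ω hω => by
        simp only [Set.mem_iInter] at hω ⊢
        exact fun hn => hω (hmm'.trans hn)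
    rw [hmono.measure_iUnion]
    refine iSup_le fun m => ?_
    refine (measure_mono ?_).trans (hab m)
    intro ω hω
    simp only [Set.mem_iInter] at hω
    exact hω m le_rfl
  have hzero : μ Z = 0 := by
    by_contra hne
    have hpos : 0 < μ Z := pos_iff_ne_zero.2 hne
    have hfinZ : μ Z ≠ ⊤ := measure_ne_top _ _
    -- choose `β = μ Z / 16` and `K` large
    set β := μ Z / 16 with hβ
    have hβpos : 0 < β := ENNReal.div_pos hne (by norm_num)
    have hCr : C = ENNReal.ofReal C.toReal := (ENNReal.ofReal_toReal hC).symm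
    set z := (μ Z).toReal with hz
    have hzpos : 0 < z := ENNReal.toReal_pos hne hfinZ
    set K : ℝ := 16 * (C.toReal + 1) / z with hK
    have hC0 : 0 ≤ C.toReal := ENNReal.toReal_nonneg
    have hKpos : 0 < K := by positivity
    have h1 := hZle K hKpos β hβpos
    have hβr : β = ENNReal.ofReal (z / 16) := by
      rw [hβ, hz, ENNReal.ofReal_div_of_pos (by norm_num), ENNReal.ofReal_toReal hfinZ]
      norm_num
    have h2 : C / ENNReal.ofReal K = ENNReal.ofReal (C.toReal / K) := by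
      rw [ENNReal.ofReal_div_of_pos hKpos, ← hCr]
    have h3 : μ Z = ENNReal.ofReal z := (ENNReal.ofReal_toReal hfinZ).symm
    rw [h2, hβr, h3, ← ENNReal.ofReal_add (by positivity) (by positivity),
      ← ENNReal.ofReal_add (by positivity) (by positivity)] at h1
    have h4 : (2 : ℝ≥0∞) = ENNReal.ofReal 2 := by norm_num
    rw [h4, ← ENNReal.ofReal_mul (by norm_num),
      ENNReal.ofReal_le_ofReal_iff (by positivity)] at h1
    have h5 : C.toReal / K ≤ z / 16 := by
      rw [hK, div_le_iff₀ hKpos, hK]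
      have : z / 16 * (16 * (C.toReal + 1) / z) = C.toReal + 1 := by
        field_simp
      rw [this]
      linarith
    linarith
  have h0 : ∀ᵐ ω ∂μ, ((0 : ℤ) ∈ A ω → ∃ j, IsSucc (A ω) (lt ω) 0 j) := by
    rw [ae_iff]
    convert hzero using 2
    ext ω
    simp [hZ]
  refine (ae_forall_of_ae_zero (p := fun ω x => x ∈ A ω → ∃ j, IsSucc (A ω) (lt ω) x j) D.mp
    (fun z ω x => ?_) h0)
  have hf : ∀ p : ℤ → Prop, (∃ k, p (k + z)) ↔ ∃ k, p k := fun p =>
    ⟨fun ⟨k, hk⟩ => ⟨_, hk⟩, fun ⟨k, hk⟩ => ⟨k - z, by rwa [sub_add_cancel]⟩⟩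
  simp only [D.covA, D.cov_isSucc]
  rw [hf fun k => IsSucc (A ω) (lt ω) (x + z) k]

end LField

end Crest.Agent.R151.F592
end

-- ▼ part R151/F592d

/-!
# R151, F592d (helper592): successor orbits

* `sucF A lt x` : the successor (if it exists);
* `ae_exists_pred` : the successor map is onto (mass transport);
* `ae_slope_eq` : a bounded monotone slope is constant along successor orbits;
* `ae_recur` : Poincaré recurrence along successor orbits;
* `ae_not_mem_of_ties` : if consecutive labels have the same functional, there are no labels.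
-/

set_option autoImplicit false

namespace Crest.Agent.R151.F592

open Finset MeasureTheory Filter Topology
open scoped Classical ENNReal

section det

variable {ι : Type*} {A : Set ι} {lt : ι → ι → Prop}

theorem IsSucc.uniq (h : STO A lt) {i j j' : ι} (h1 : IsSucc A lt i j) (h2 : IsSucc A lt i j') :
    j = j' := by
  obtain ⟨hi, hj, h3, h4⟩ := h1
  obtain ⟨-, hj', h5, h6⟩ := h2
  by_contra hne
  rcases h.tri j hj j' hj' hne with h7 | h7
  · exact h6 j hj ⟨h3, h7⟩
  · exact h4 j' hj' ⟨h5, h7⟩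

theorem IsSucc.inj (h : STO A lt) {i i' j : ι} (h1 : IsSucc A lt i j) (h2 : IsSucc A lt i' j) :
    i = i' := by
  obtain ⟨hi, hj, h3, h4⟩ := h1
  obtain ⟨hi', -, h5, h6⟩ := h2
  by_contra hne
  rcases h.tri i hi i' hi' hne with h7 | h7
  · exact h4 i' hi' ⟨h7, h5⟩
  · exact h6 i hi ⟨h7, h3⟩

/-- the successor of `x` (junk value `x`) -/
noncomputable def sucF (A : Set ι) (lt : ι → ι → Prop) (x : ι) : ι :=
  if h : ∃ j, IsSucc A lt x j then h.choose else x

theorem isSucc_sucF {x : ι} (h : ∃ j, IsSucc A lt x j) : IsSucc A lt x (sucF A lt x) := by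
  unfold sucF
  rw [dif_pos h]
  exact h.choose_spec

theorem sucF_eq (h : STO A lt) {x j : ι} (hj : IsSucc A lt x j) : sucF A lt x = j :=
  IsSucc.uniq h (isSucc_sucF ⟨j, hj⟩) hj

/-- iterated successors are active and increase strictly -/
theorem iterate_mem (hex : ∀ x ∈ A, ∃ j, IsSucc A lt x j) {x : ι} (hx : x ∈ A) (n : ℕ) :
    (sucF A lt)^[n] x ∈ A := by
  induction n with
  | zero => exact hx
  | succ n ih =>
    rw [Function.iterate_succ_apply']
    exact (isSucc_sucF (hex _ ih)).2.1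

theorem lt_iterate (h : STO A lt) (hex : ∀ x ∈ A, ∃ j, IsSucc A lt x j) {x : ι} (hx : x ∈ A)
    (n : ℕ) : lt x ((sucF A lt)^[n + 1] x) := by
  induction n with
  | zero => exact (isSucc_sucF (hex x hx)).2.2.1
  | succ n ih =>
    rw [Function.iterate_succ_apply']
    have hn := iterate_mem hex hx (n + 1)
    exact h.trans x hx _ hn _ (isSucc_sucF (hex _ hn)).2.1 ih (isSucc_sucF (hex _ hn)).2.2.1

theorem iterate_injective (h : STO A lt) (hex : ∀ x ∈ A, ∃ j, IsSucc A lt x j) {x : ι}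
    (hx : x ∈ A) : Function.Injective fun n : ℕ => (sucF A lt)^[n] x := by
  have key : ∀ n m : ℕ, n < m → (sucF A lt)^[n] x ≠ (sucF A lt)^[m] x := by
    intro n m hnm he
    obtain ⟨k, rfl⟩ := Nat.exists_eq_add_of_lt hnm
    have h1 := lt_iterate h hex (iterate_mem hex hx n) k
    have h2 : (sucF A lt)^[k + 1] ((sucF A lt)^[n] x) = (sucF A lt)^[n + k + 1] x := by
      rw [← Function.iterate_add_apply]
      congr 1
      omega
    rw [h2, ← he] at h1
    exact h.irrefl _ (iterate_mem hex hx n) h1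
  intro n m he
  rcases lt_trichotomy n m with h1 | h1 | h1
  · exact absurd he (key n m h1)
  · exact h1
  · exact absurd he.symm (key m n h1)

/-- a total preorder together with the position gives a strict total order -/
theorem sto_of_preorder {A : Set ℤ} {le : ℤ → ℤ → Prop}
    (htrans : ∀ x ∈ A, ∀ y ∈ A, ∀ z ∈ A, le x y → le y z → le x z)
    (htot : ∀ x ∈ A, ∀ y ∈ A, le x y ∨ le y x) :
    STO A (fun x y => le x y ∧ (¬ le y x ∨ x < y)) := by
  refine ⟨fun i hi h => ?_, fun i hi j hj k hk h1 h2 => ⟨htrans i hi j hj k hk h1.1 h2.1, ?_⟩,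
    fun i hi j hj hne => ?_⟩
  · rcases h with ⟨h1, h2 | h2⟩
    · exact h2 h1
    · exact lt_irrefl _ h2
  · by_cases h3 : le k i
    · right
      have h4 : le j i := htrans j hj k hk i hi h2.1 h3
      have h5 : le k j := htrans k hk i hi j hj h3 h1.1
      rcases h1.2 with h6 | h6
      · exact absurd h4 h6
      · rcases h2.2 with h7 | h7
        · exact absurd h5 h7
        · exact h6.trans h7
    · exact Or.inl h3
  · by_cases h1 : le i j
    · by_cases h2 : le j i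
      · rcases lt_or_gt_of_ne hne with h3 | h3
        · exact Or.inl ⟨h1, Or.inr h3⟩
        · exact Or.inr ⟨h2, Or.inr h3⟩
      · exact Or.inl ⟨h1, Or.inl h2⟩
    · rcases htot i hi j hj with h2 | h2
      · exact absurd h2 h1
      · exact Or.inr ⟨h2, Or.inl h1⟩

end det

variable {Ω : Type*} [MeasurableSpace Ω] {μ : Measure Ω}
variable {S : ℤ → Ω → Ω} {A : Ω → Set ℤ} {lt : Ω → ℤ → ℤ → Prop}

namespace LField

theorem sucF_shift (D : LField μ S A lt) {z : ℤ} {ω : Ω} (h : STO (A ω) (lt ω)) (x : ℤ) :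
    sucF (A (S z ω)) (lt (S z ω)) x + z = sucF (A ω) (lt ω) (x + z) := by
  by_cases hex : ∃ j, IsSucc (A ω) (lt ω) (x + z) j
  · obtain ⟨j, hj⟩ := hex
    have h1 : IsSucc (A (S z ω)) (lt (S z ω)) x (j - z) := by
      rw [D.cov_isSucc, sub_add_cancel]
      exact hj
    have h2 := isSucc_sucF ⟨_, h1⟩
    rw [D.cov_isSucc] at h2
    rw [sucF_eq h hj]
    exact IsSucc.uniq h h2 hj
  · have h1 : ¬ ∃ j, IsSucc (A (S z ω)) (lt (S z ω)) x j := by
      rintro ⟨j, hj⟩
      rw [D.cov_isSucc] at hj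
      exact hex ⟨_, hj⟩
    unfold sucF
    rw [dif_neg hex, dif_neg h1]

/-- `{ω | succ^n x = y}` is null measurable (on the event that successors exist) -/
theorem nullMeasurable_sucF (D : LField μ S A lt) (x y : ℤ) :
    NullMeasurableSet {ω | sucF (A ω) (lt ω) x = y} μ := by
  have h1 : NullMeasurableSet {ω | IsSucc (A ω) (lt ω) x y ∨
      ((∀ j, ¬ IsSucc (A ω) (lt ω) x j) ∧ x = y)} μ :=
    nullMeasurableSet_or (D.nullMeasurable_isSucc x y)
      (nullMeasurableSet_and (nullMeasurableSet_forall fun j =>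
        nullMeasurableSet_not (D.nullMeasurable_isSucc x j)) (nullMeasurableSet_const _))
  refine h1.congr ?_
  filter_upwards [D.sto] with ω hω
  apply propext
  change (IsSucc (A ω) (lt ω) x y ∨ ((∀ j, ¬ IsSucc (A ω) (lt ω) x j) ∧ x = y)) ↔
    sucF (A ω) (lt ω) x = y
  constructor
  · rintro (h | ⟨h, rfl⟩)
    · exact sucF_eq hω h
    · unfold sucF
      rw [dif_neg (not_exists.2 h)]
  · intro h
    by_cases hex : ∃ j, IsSucc (A ω) (lt ω) x j
    · left
      rw [← h]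
      exact isSucc_sucF hex
    · right
      refine ⟨not_exists.1 hex, ?_⟩
      unfold sucF at h
      rwa [dif_neg hex] at h

theorem nullMeasurable_iterate (D : LField μ S A lt) (n : ℕ) (x y : ℤ) :
    NullMeasurableSet {ω | (sucF (A ω) (lt ω))^[n] x = y} μ := by
  induction n generalizing y with
  | zero => exact nullMeasurableSet_const (μ := μ) (x = y)
  | succ n ih =>
    have : {ω | (sucF (A ω) (lt ω))^[n + 1] x = y} =
        {ω | ∃ z : ℤ, (sucF (A ω) (lt ω))^[n] x = z ∧ sucF (A ω) (lt ω) z = y} := by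
      ext ω
      simp only [Set.mem_ofPred_eq, Function.iterate_succ_apply']
      exact ⟨fun h => ⟨_, rfl, h⟩, fun ⟨z, h1, h2⟩ => by rw [h1, h2]⟩
    rw [this]
    exact nullMeasurableSet_exists fun z => nullMeasurableSet_and (ih z)
      (D.nullMeasurable_sucF z y)

theorem iterate_shift (D : LField μ S A lt) {z : ℤ} {ω : Ω} (h : STO (A ω) (lt ω)) (n : ℕ)
    (x : ℤ) : (sucF (A (S z ω)) (lt (S z ω)))^[n] x + z = (sucF (A ω) (lt ω))^[n] (x + z) := by
  induction n with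
  | zero => rfl
  | succ n ih =>
    rw [Function.iterate_succ_apply', Function.iterate_succ_apply', ← ih, D.sucF_shift h]

/-- the integral of an indicator sum which is an indicator -/
theorem lintegral_tsum_indicator {p : ℤ → Set Ω} (hp : ∀ j, NullMeasurableSet (p j) μ)
    (huniq : ∀ᵐ ω ∂μ, ∀ j j', ω ∈ p j → ω ∈ p j' → j = j') :
    ∑' j, ∫⁻ ω, Set.indicator (p j) (fun _ => (1 : ℝ≥0∞)) ω ∂μ = μ (⋃ j, p j) := by
  rw [← lintegral_tsum fun j => aemeasurable_const.indicator₀ (hp j)]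
  have hU : NullMeasurableSet (⋃ j, p j) μ := NullMeasurableSet.iUnion hp
  calc _ = ∫⁻ ω, Set.indicator (⋃ j, p j) (fun _ => (1 : ℝ≥0∞)) ω ∂μ := by
        refine lintegral_congr_ae ?_
        filter_upwards [huniq] with ω hω
        by_cases hex : ∃ j, ω ∈ p j
        · obtain ⟨j, hj⟩ := hex
          rw [Set.indicator_of_mem (Set.mem_iUnion.2 ⟨j, hj⟩), tsum_eq_single j,
            Set.indicator_of_mem hj]
          intro j' hne
          exact Set.indicator_of_notMem (fun h => hne (hω j' j h hj)) _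
        · rw [Set.indicator_of_notMem (fun h => hex (Set.mem_iUnion.1 h))]
          rw [ENNReal.tsum_eq_zero]
          intro j
          exact Set.indicator_of_notMem (fun h => hex ⟨j, h⟩) _
    _ = μ (⋃ j, p j) := by rw [lintegral_indicator_const₀ hU, one_mul]

/-- the successor map is onto -/
theorem ae_exists_pred [IsProbabilityMeasure μ] (D : LField μ S A lt)
    (hex : ∀ᵐ ω ∂μ, ∀ x ∈ A ω, ∃ j, IsSucc (A ω) (lt ω) x j) :
    ∀ᵐ ω ∂μ, ∀ x ∈ A ω, ∃ j, IsSucc (A ω) (lt ω) j x := by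
  have hm : ∀ x y, NullMeasurableSet {ω | IsSucc (A ω) (lt ω) x y} μ := D.nullMeasurable_isSucc
  have h1 := mass_transport D.mp (m := fun ω x y =>
    Set.indicator {ω | IsSucc (A ω) (lt ω) x y} (fun _ => (1 : ℝ≥0∞)) ω)
    (fun x y => aemeasurable_const.indicator₀ (hm x y)) (fun z ω x y => by
      simp only [Set.indicator, Set.mem_ofPred_eq, D.cov_isSucc])
  rw [lintegral_tsum_indicator (p := fun y => {ω | IsSucc (A ω) (lt ω) 0 y}) (fun y => hm 0 y)
      (by filter_upwards [D.sto] with ω hω j j' h h' using IsSucc.uniq hω h h'),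
    lintegral_tsum_indicator (p := fun y => {ω | IsSucc (A ω) (lt ω) y 0}) (fun y => hm y 0)
      (by filter_upwards [D.sto] with ω hω j j' h h' using IsSucc.inj hω h h')] at h1
  have hU : NullMeasurableSet (⋃ y : ℤ, {ω | IsSucc (A ω) (lt ω) y 0}) μ :=
    NullMeasurableSet.iUnion fun y => hm y 0
  have h2 : μ {ω | (0 : ℤ) ∈ A ω} ≤ μ (⋃ y : ℤ, {ω | IsSucc (A ω) (lt ω) y 0}) := by
    rw [← h1]
    refine measure_mono_ae ?_
    filter_upwards [hex] with ω hω h
    obtain ⟨j, hj⟩ := hω 0 h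
    exact Set.mem_iUnion.2 ⟨j, hj⟩
  have h3 : (⋃ y : ℤ, {ω | IsSucc (A ω) (lt ω) y 0}) ⊆ {ω | (0 : ℤ) ∈ A ω} := by
    intro ω hω
    obtain ⟨j, hj⟩ := Set.mem_iUnion.1 hω
    exact hj.2.1
  have h4 : μ ({ω | (0 : ℤ) ∈ A ω} \ ⋃ y : ℤ, {ω | IsSucc (A ω) (lt ω) y 0}) = 0 := by
    rw [measure_sdiff h3 hU (measure_ne_top _ _)]
    exact tsub_eq_zero_of_le h2
  have h0 : ∀ᵐ ω ∂μ, ((0 : ℤ) ∈ A ω → ∃ j, IsSucc (A ω) (lt ω) j 0) := by
    rw [ae_iff]
    convert h4 using 2
    ext ω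
    simp
  refine ae_forall_of_ae_zero (p := fun ω x => x ∈ A ω → ∃ j, IsSucc (A ω) (lt ω) j x) D.mp
    (fun z ω x => ?_) h0
  have hf : ∀ p : ℤ → Prop, (∃ k, p (k + z)) ↔ ∃ k, p k := fun p =>
    ⟨fun ⟨k, hk⟩ => ⟨_, hk⟩, fun ⟨k, hk⟩ => ⟨k - z, by rwa [sub_add_cancel]⟩⟩
  simp only [D.covA, D.cov_isSucc]
  rw [hf fun k => IsSucc (A ω) (lt ω) k (x + z)]

/-- slopes are constant along successor orbits -/
theorem ae_slope_eq [IsProbabilityMeasure μ] (D : LField μ S A lt)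
    {sl : Ω → ℤ → ℝ} (hslm : ∀ x, AEMeasurable (fun ω => sl ω x) μ)
    (hslc : ∀ z ω x, sl (S z ω) x = sl ω (x + z)) {B : ℝ} (hB : 0 ≤ B)
    (hmono : ∀ᵐ ω ∂μ, ∀ x ∈ A ω, ∀ y ∈ A ω, lt ω x y → sl ω x ≤ sl ω y)
    (hbd : ∀ᵐ ω ∂μ, ∀ x ∈ A ω, |sl ω x| ≤ B) :
    ∀ᵐ ω ∂μ, ∀ x j, IsSucc (A ω) (lt ω) x j → sl ω j = sl ω x := by
  -- jump at `x`
  set J : Ω → ℤ → ℝ≥0∞ := fun ω x => ∑' j, Set.indicator {ω | IsSucc (A ω) (lt ω) x j}
    (fun ω => ENNReal.ofReal (sl ω j - sl ω x)) ω with hJ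
  have hterm : ∀ x j, AEMeasurable (fun ω => Set.indicator {ω | IsSucc (A ω) (lt ω) x j}
      (fun ω => ENNReal.ofReal (sl ω j - sl ω x)) ω) μ := fun x j =>
    (((hslm j).sub (hslm x)).ennreal_ofReal).indicator₀ (D.nullMeasurable_isSucc x j)
  have hJm : ∀ x, AEMeasurable (fun ω => J ω x) μ := fun x =>
    AEMeasurable.tsum fun j => hterm x j
  have hJc : ∀ z ω x, J (S z ω) x = J ω (x + z) := by
    intro z ω x
    simp only [hJ, Set.indicator, Set.mem_ofPred_eq, D.cov_isSucc, hslc]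
    exact (Equiv.addRight z).tsum_eq fun j => if IsSucc (A ω) (lt ω) (x + z) j then
      ENNReal.ofReal (sl ω j - sl ω (x + z)) else 0
  have hJeq : ∀ x : ℤ, ∫⁻ ω, J ω x ∂μ = ∫⁻ ω, J ω 0 ∂μ := by
    intro x
    rw [← lintegral_comp_mp (D.mp x) (hJm 0)]
    refine lintegral_congr fun ω => ?_
    rw [hJc, zero_add]
  have hval : ∀ᵐ ω ∂μ, ∀ x j, IsSucc (A ω) (lt ω) x j →
      J ω x = ENNReal.ofReal (sl ω j - sl ω x) := by
    filter_upwards [D.sto] with ω hω x j hj
    simp only [hJ]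
    rw [tsum_eq_single j]
    · exact Set.indicator_of_mem (s := {ω | IsSucc (A ω) (lt ω) x j}) hj _
    · intro j' hne
      exact Set.indicator_of_notMem (s := {ω | IsSucc (A ω) (lt ω) x j'})
        (fun h => hne (IsSucc.uniq hω h hj)) _
  have hsum : ∀ n : ℕ, (n : ℝ≥0∞) * ∫⁻ ω, J ω 0 ∂μ ≤ ENNReal.ofReal (B - -B) := by
    intro n
    have h1 : (n : ℝ≥0∞) * ∫⁻ ω, J ω 0 ∂μ = ∑ x ∈ Finset.range n, ∫⁻ ω, J ω (x : ℤ) ∂μ := by
      simp [hJeq]
    have h2 : ∑ x ∈ Finset.range n, ∫⁻ ω, J ω (x : ℤ) ∂μ =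
        ∫⁻ ω, ∑ x ∈ Finset.range n, J ω (x : ℤ) ∂μ :=
      (lintegral_finsetSum' (Finset.range n) (f := fun (x : ℕ) ω => J ω (x : ℤ))
        fun x _ => hJm x).symm
    rw [h1, h2]
    calc _ ≤ ∫⁻ _ω, ENNReal.ofReal (B - -B) ∂μ := by
          refine lintegral_mono_ae ?_
          filter_upwards [D.sto, hmono, hbd, hval] with ω hω hmono hbd hval
          set s : Finset ℤ := ((Finset.range n).image fun x : ℕ => (x : ℤ)).filter
            fun x => ∃ j, IsSucc (A ω) (lt ω) x j with hs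
          have h3 : ∑ x ∈ Finset.range n, J ω (x : ℤ) = ∑ x ∈ s, J ω x := by
            rw [hs, Finset.sum_filter, Finset.sum_image (fun a _ b _ h => by exact_mod_cast h)]
            refine Finset.sum_congr rfl fun x _ => ?_
            split_ifs with h
            · rfl
            · simp only [hJ]
              rw [ENNReal.tsum_eq_zero]
              intro j
              exact Set.indicator_of_notMem (s := {ω | IsSucc (A ω) (lt ω) (x : ℤ) j})
                (fun h' => h ⟨j, h'⟩) _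
          rw [h3]
          have hsu : ∀ x ∈ s, IsSucc (A ω) (lt ω) x (sucF (A ω) (lt ω) x) := fun x hx =>
            isSucc_sucF (Finset.mem_filter.1 hx).2
          have h4 : ∑ x ∈ s, J ω x =
              ENNReal.ofReal (∑ x ∈ s, (sl ω (sucF (A ω) (lt ω) x) - sl ω x)) := by
            rw [ENNReal.ofReal_sum_of_nonneg]
            · exact Finset.sum_congr rfl fun x hx => hval x _ (hsu x hx)
            · intro x hx
              obtain ⟨h5, h6, h7, -⟩ := hsu x hx
              exact sub_nonneg.2 (hmono x h5 _ h6 h7)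
          rw [h4]
          refine ENNReal.ofReal_le_ofReal (slope_sum_le hω s (fun x hx => (hsu x hx).1) (sl ω)
            hmono _ hsu (fun x hx => (abs_le.1 (hbd x hx)).1) (fun x hx => (abs_le.1 (hbd x hx)).2)
            (by linarith))
      _ = _ := by simp
  have hzero : ∫⁻ ω, J ω 0 ∂μ = 0 := by
    by_contra hne
    have hne' : ∫⁻ ω, J ω 0 ∂μ ≠ ⊤ := by
      intro htop
      have := hsum 1
      rw [htop] at this
      simp at this
    have hlt : ENNReal.ofReal (B - -B) / (∫⁻ ω, J ω 0 ∂μ) < ⊤ :=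
      ENNReal.div_lt_top ENNReal.ofReal_ne_top hne
    obtain ⟨n, hn⟩ := ENNReal.exists_nat_gt hlt.ne
    rw [ENNReal.div_lt_iff (Or.inl hne) (Or.inl hne')] at hn
    exact absurd (hsum n) (not_le.2 hn)
  have hz0 : ∀ᵐ ω ∂μ, J ω 0 = 0 := by
    have := (lintegral_eq_zero_iff' (hJm 0)).1 hzero
    filter_upwards [this] with ω hω using hω
  have hzall := ae_forall_of_ae_zero (p := fun ω x => J ω x = 0) D.mp
    (fun z ω x => by rw [hJc]) hz0
  filter_upwards [hzall, hval, hmono] with ω hω hval hmono x j hj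
  have h1 := hval x j hj
  rw [hω x, eq_comm, ENNReal.ofReal_eq_zero] at h1
  have h2 := hmono x hj.1 j hj.2.1 hj.2.2.1
  linarith

/-- Poincaré recurrence along successor orbits -/
theorem ae_recur [IsProbabilityMeasure μ] (D : LField μ S A lt)
    (hex : ∀ᵐ ω ∂μ, ∀ x ∈ A ω, ∃ j, IsSucc (A ω) (lt ω) x j)
    {Gd : Ω → Set ℤ} (hGm : ∀ x, NullMeasurableSet {ω | x ∈ Gd ω} μ)
    (hGc : ∀ z ω x, x ∈ Gd (S z ω) ↔ x + z ∈ Gd ω) :
    ∀ᵐ ω ∂μ, ∀ x ∈ A ω, x ∈ Gd ω → ∀ m : ℕ, ∃ n ≥ m, (sucF (A ω) (lt ω))^[n] x ∈ Gd ω := by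
  -- the last visit
  set L : Ω → ℤ → Prop := fun ω x => x ∈ A ω ∧ x ∈ Gd ω ∧
    ∀ n : ℕ, (sucF (A ω) (lt ω))^[n + 1] x ∉ Gd ω with hL
  have hLm : ∀ x, NullMeasurableSet {ω | L ω x} μ := by
    intro x
    refine nullMeasurableSet_and (D.measA x) (nullMeasurableSet_and (hGm x)
      (nullMeasurableSet_forall fun n => ?_))
    have : {ω | (sucF (A ω) (lt ω))^[n + 1] x ∉ Gd ω} =
        {ω | ∀ y : ℤ, (sucF (A ω) (lt ω))^[n + 1] x = y → ¬ y ∈ Gd ω} := by
      ext ω
      simp only [Set.mem_ofPred_eq]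
      exact ⟨fun h y hy => hy ▸ h, fun h => h _ rfl⟩
    rw [this]
    exact nullMeasurableSet_forall fun y => nullMeasurableSet_imp
      (D.nullMeasurable_iterate (n + 1) x y) (nullMeasurableSet_not (hGm y))
  have hpred := D.ae_exists_pred hex
  set m : Ω → ℤ → ℤ → ℝ≥0∞ := fun ω x y => Set.indicator
    {ω | STO (A ω) (lt ω) ∧ x ∈ A ω ∧ L ω y ∧ ∃ n : ℕ, (sucF (A ω) (lt ω))^[n] x = y}
    (fun _ => (1 : ℝ≥0∞)) ω with hm
  have hSTOm : NullMeasurableSet {ω | STO (A ω) (lt ω)} μ := by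
    have h1 : {ω | STO (A ω) (lt ω)} =ᵐ[μ] (Set.univ : Set Ω) := by
      filter_upwards [D.sto] with ω hω
      exact eq_true hω
    exact (MeasurableSet.univ.nullMeasurableSet (μ := μ)).congr h1.symm
  have hset : ∀ x y, NullMeasurableSet {ω | STO (A ω) (lt ω) ∧ x ∈ A ω ∧ L ω y ∧
      ∃ n : ℕ, (sucF (A ω) (lt ω))^[n] x = y} μ := fun x y =>
    nullMeasurableSet_and hSTOm (nullMeasurableSet_and (D.measA x) (nullMeasurableSet_and (hLm y)
      (nullMeasurableSet_exists fun n => D.nullMeasurable_iterate n x y)))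
  have hmm : ∀ x y, AEMeasurable (fun ω => m ω x y) μ := fun x y =>
    aemeasurable_const.indicator₀ (hset x y)
  have hf : ∀ z : ℤ, ∀ p : ℤ → Prop, (∀ k, p (k + z)) ↔ ∀ k, p k := fun z p =>
    ⟨fun h k => by have := h (k - z); rwa [sub_add_cancel] at this, fun h k => h _⟩
  have hSTOc : ∀ z ω, STO (A (S z ω)) (lt (S z ω)) ↔ STO (A ω) (lt ω) := by
    intro z ω
    constructor
    · intro h
      refine ⟨fun i hi h' => ?_, fun i hi j hj k hk h1 h2 => ?_, fun i hi j hj hne => ?_⟩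
      · refine h.irrefl (i - z) ((D.covA _ _ _).2 (by simpa using hi)) ((D.covlt _ _ _ _).2 ?_)
        simpa using h'
      · have := h.trans (i - z) ((D.covA _ _ _).2 (by simpa using hi)) (j - z)
          ((D.covA _ _ _).2 (by simpa using hj)) (k - z) ((D.covA _ _ _).2 (by simpa using hk))
          ((D.covlt _ _ _ _).2 (by simpa using h1)) ((D.covlt _ _ _ _).2 (by simpa using h2))
        simpa using (D.covlt _ _ _ _).1 this
      · have := h.tri (i - z) ((D.covA _ _ _).2 (by simpa using hi)) (j - z)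
          ((D.covA _ _ _).2 (by simpa using hj)) (fun h' => hne (by omega))
        simpa [D.covlt] using this
    · intro h
      refine ⟨fun i hi h' => ?_, fun i hi j hj k hk h1 h2 => ?_, fun i hi j hj hne => ?_⟩
      · exact h.irrefl _ ((D.covA _ _ _).1 hi) ((D.covlt _ _ _ _).1 h')
      · exact (D.covlt _ _ _ _).2 (h.trans _ ((D.covA _ _ _).1 hi) _ ((D.covA _ _ _).1 hj) _
          ((D.covA _ _ _).1 hk) ((D.covlt _ _ _ _).1 h1) ((D.covlt _ _ _ _).1 h2))
      · simpa [D.covlt] using h.tri _ ((D.covA _ _ _).1 hi) _ ((D.covA _ _ _).1 hj)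
          (fun h' => hne (by omega))
  have hLc : ∀ z ω x, STO (A ω) (lt ω) → (L (S z ω) x ↔ L ω (x + z)) := by
    intro z ω x hω
    simp only [hL, D.covA, hGc]
    simp only [D.iterate_shift hω]
  have hmc : ∀ z ω x y, m (S z ω) x y = m ω (x + z) (y + z) := by
    intro z ω x y
    simp only [hm, Set.indicator, Set.mem_ofPred_eq, hSTOc, D.covA]
    by_cases hω : STO (A ω) (lt ω)
    · have h1 : (∃ n : ℕ, (sucF (A (S z ω)) (lt (S z ω)))^[n] x = y) ↔
          ∃ n : ℕ, (sucF (A ω) (lt ω))^[n] (x + z) = y + z := by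
        refine exists_congr fun n => ?_
        rw [← D.iterate_shift hω]
        omega
      simp only [hLc z ω y hω, h1]
    · simp [hω]
  have hmt := mass_transport' D.mp hmm hmc
  -- sent mass is at most one
  have hsent : ∫⁻ ω, ∑' y, m ω 0 y ∂μ ≤ 1 := by
    calc _ ≤ ∫⁻ _ω, 1 ∂μ := by
          refine lintegral_mono_ae ?_
          filter_upwards [hex] with ω hexω
          by_cases hy : ∃ y, STO (A ω) (lt ω) ∧ (0 : ℤ) ∈ A ω ∧ L ω y ∧
              ∃ n : ℕ, (sucF (A ω) (lt ω))^[n] 0 = y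
          · obtain ⟨y, hω, h0, hLy, n, hn⟩ := hy
            rw [tsum_eq_single y]
            · exact Set.indicator_le_self' (by simp) ω
            · intro y' hne
              refine Set.indicator_of_notMem (s := {ω | STO (A ω) (lt ω) ∧ (0 : ℤ) ∈ A ω ∧
                L ω y' ∧ ∃ n : ℕ, (sucF (A ω) (lt ω))^[n] 0 = y'}) ?_ _
              rintro ⟨-, -, hLy', n', hn'⟩
              rcases lt_trichotomy n n' with h | h | h
              · obtain ⟨k, rfl⟩ := Nat.exists_eq_add_of_lt h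
                refine hLy.2.2 k ?_
                have : (sucF (A ω) (lt ω))^[k + 1] y = y' := by
                  rw [← hn, ← hn', ← Function.iterate_add_apply]
                  congr 1
                  omega
                rw [this]
                exact hLy'.2.1
              · exact hne (by rw [← hn, ← hn', h])
              · obtain ⟨k, rfl⟩ := Nat.exists_eq_add_of_lt h
                refine hLy'.2.2 k ?_
                have : (sucF (A ω) (lt ω))^[k + 1] y' = y := by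
                  rw [← hn, ← hn', ← Function.iterate_add_apply]
                  congr 1
                  omega
                rw [this]
                exact hLy.2.1
          · have : ∑' y, m ω 0 y = 0 := by
              rw [ENNReal.tsum_eq_zero]
              intro y
              exact Set.indicator_of_notMem (s := {ω | STO (A ω) (lt ω) ∧ (0 : ℤ) ∈ A ω ∧
                L ω y ∧ ∃ n : ℕ, (sucF (A ω) (lt ω))^[n] 0 = y}) (fun h => hy ⟨y, h⟩) _
            rw [this]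
            exact zero_le
      _ = 1 := by simp
  -- received mass is infinite at a last visit
  have hrec : ∀ᵐ ω ∂μ, L ω 0 → ∑' y, m ω y 0 = ⊤ := by
    filter_upwards [D.sto, hex, hpred] with ω hω hexω hpredω hL0
    choose! pr hpr using hpredω
    have hprA : ∀ n : ℕ, pr^[n] 0 ∈ A ω := by
      intro n
      induction n with
      | zero => exact hL0.1
      | succ n ih =>
        rw [Function.iterate_succ_apply']
        exact (hpr _ ih).1
    have hsu : ∀ n : ℕ, (sucF (A ω) (lt ω))^[n] (pr^[n] 0) = 0 := by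
      intro n
      induction n with
      | zero => rfl
      | succ n ih =>
        rw [Function.iterate_succ_apply, Function.iterate_succ_apply',
          sucF_eq hω (hpr _ (hprA n))]
        exact ih
    have hinj : Function.Injective fun n : ℕ => pr^[n] 0 := by
      have key : ∀ n k : ℕ, pr^[n] 0 ≠ pr^[n + k + 1] 0 := by
        intro n k he
        have h1 : (sucF (A ω) (lt ω))^[k + 1] (pr^[n + k + 1] 0) = pr^[n] 0 := by
          have : ∀ j : ℕ, (sucF (A ω) (lt ω))^[j] (pr^[n + j] 0) = pr^[n] 0 := by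
            intro j
            induction j with
            | zero => rfl
            | succ j ih =>
              rw [Function.iterate_succ_apply, ← add_assoc, Function.iterate_succ_apply',
                sucF_eq hω (hpr _ (hprA _))]
              exact ih
          exact this (k + 1)
        have h2 := lt_iterate hω hexω (hprA (n + k + 1)) k
        rw [h1, ← he] at h2
        exact hω.irrefl _ (hprA n) h2
      intro n n' he
      rcases lt_trichotomy n n' with h | h | h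
      · obtain ⟨k, rfl⟩ := Nat.exists_eq_add_of_lt h
        exact absurd he (key n k)
      · exact h
      · obtain ⟨k, rfl⟩ := Nat.exists_eq_add_of_lt h
        exact absurd he.symm (key n' k)
    have h1 : ∑' n : ℕ, m ω (pr^[n] 0) 0 ≤ ∑' y, m ω y 0 :=
      ENNReal.tsum_comp_le_tsum_of_injective hinj fun y => m ω y 0
    have h2 : ∀ n : ℕ, m ω (pr^[n] 0) 0 = 1 := fun n =>
      Set.indicator_of_mem (s := {ω | STO (A ω) (lt ω) ∧ pr^[n] 0 ∈ A ω ∧ L ω 0 ∧
        ∃ k : ℕ, (sucF (A ω) (lt ω))^[k] (pr^[n] 0) = 0}) ⟨hω, hprA n, hL0, n, hsu n⟩ _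
    simp only [h2] at h1
    rw [ENNReal.tsum_const_eq_top_of_ne_zero one_ne_zero] at h1
    exact top_le_iff.1 h1
  have hzero : μ {ω | L ω 0} = 0 := by
    by_contra hne
    have h1 : ∫⁻ ω, Set.indicator {ω | L ω 0} (fun _ => (⊤ : ℝ≥0∞)) ω ∂μ ≤ 1 := by
      refine le_trans (lintegral_mono_ae ?_) (hmt ▸ hsent)
      filter_upwards [hrec] with ω hω
      by_cases h : L ω 0
      · rw [hω h]
        exact le_top
      · rw [Set.indicator_of_notMem (s := {ω | L ω 0}) h]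
        exact zero_le
    rw [lintegral_indicator_const₀ (hLm 0), ENNReal.top_mul hne] at h1
    simp at h1
  have h0 : ∀ᵐ ω ∂μ, (STO (A ω) (lt ω) → ¬ L ω 0) := by
    have : ∀ᵐ ω ∂μ, ¬ L ω 0 := by
      rw [ae_iff]
      simpa using hzero
    filter_upwards [this] with ω hω _ using hω
  have hall := ae_forall_of_ae_zero (p := fun ω x => STO (A ω) (lt ω) → ¬ L ω x) D.mp
    (fun z ω x => by
      rw [hSTOc]
      exact ⟨fun h hω => by rw [← hLc z ω x hω]; exact h hω,
        fun h hω => by rw [hLc z ω x hω]; exact h hω⟩) h0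
  filter_upwards [hall, D.sto, hex] with ω hall hω hexω x hxA hxG m
  induction m with
  | zero => exact ⟨0, le_rfl, hxG⟩
  | succ m ih =>
    obtain ⟨n, hn, hnG⟩ := ih
    have h1 := hall ((sucF (A ω) (lt ω))^[n] x) hω
    simp only [hL, not_and, not_forall, not_not] at h1
    obtain ⟨k, hk⟩ := h1 (iterate_mem hexω hxA n) hnG
    rw [← Function.iterate_add_apply] at hk
    exact ⟨k + 1 + n, by omega, hk⟩

/-- if consecutive labels have the same functional, there are no labels -/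
theorem measure_eq_zero_of_ties [IsProbabilityMeasure μ] (D : LField μ S A lt)
    {gap : Ω → ℤ → ℤ → ℝ}
    (hex : ∀ᵐ ω ∂μ, ∀ x ∈ A ω, ∃ j, IsSucc (A ω) (lt ω) x j)
    (hties : ∀ᵐ ω ∂μ, ∀ x j, IsSucc (A ω) (lt ω) x j → ∀ k ∈ A ω, gap ω x k = gap ω j k)
    (hself : ∀ᵐ ω ∂μ, ∀ x ∈ A ω, gap ω x x ≤ 1)
    (hgood : ∀ β : ℝ≥0∞, 0 < β → ∃ Gd : Ω → Set ℤ,
      (∀ x, NullMeasurableSet {ω | x ∈ Gd ω} μ) ∧ (∀ z ω x, x ∈ Gd (S z ω) ↔ x + z ∈ Gd ω) ∧
      μ {ω | (0 : ℤ) ∈ A ω ∧ (0 : ℤ) ∉ Gd ω} ≤ β ∧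
      ∀ᵐ ω ∂μ, (0 : ℤ) ∈ A ω → (0 : ℤ) ∈ Gd ω →
        {j : ℤ | j ∈ A ω ∧ j ∈ Gd ω ∧ gap ω 0 j ≤ 1}.Finite) :
    μ {ω | (0 : ℤ) ∈ A ω} = 0 := by
  have hle : ∀ β : ℝ≥0∞, 0 < β → μ {ω | (0 : ℤ) ∈ A ω} ≤ β := by
    intro β hβ
    obtain ⟨Gd, hGm, hGc, hGβ, hfin⟩ := hgood β hβ
    refine (measure_mono_ae ?_).trans hGβ
    filter_upwards [D.sto, hex, hties, hself, D.ae_recur hex hGm hGc, hfin]
      with ω hω hexω hties hself hrec hfin h0A
    refine ⟨h0A, fun h0G => ?_⟩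
    have hF := hfin h0A h0G
    have hrec0 := hrec 0 h0A h0G
    have hgap : ∀ n : ℕ, gap ω 0 ((sucF (A ω) (lt ω))^[n] 0) ≤ 1 := by
      intro n
      have key : ∀ k : ℕ, k ≤ n → gap ω 0 ((sucF (A ω) (lt ω))^[n] 0) =
          gap ω ((sucF (A ω) (lt ω))^[k] 0) ((sucF (A ω) (lt ω))^[n] 0) := by
        intro k
        induction k with
        | zero => intro _; rfl
        | succ k ih =>
          intro hk
          rw [ih (by omega), Function.iterate_succ_apply']
          exact hties _ _ (isSucc_sucF (hexω _ (iterate_mem hexω h0A k))) _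
            (iterate_mem hexω h0A n)
      rw [key n le_rfl]
      exact hself _ (iterate_mem hexω h0A n)
    have hinf : {n : ℕ | (sucF (A ω) (lt ω))^[n] 0 ∈ Gd ω}.Infinite := by
      rw [Set.infinite_iff_exists_gt]
      intro m
      obtain ⟨n, hn, hnG⟩ := hrec0 (m + 1)
      exact ⟨n, hnG, by omega⟩
    have h1 : ((fun n : ℕ => (sucF (A ω) (lt ω))^[n] 0) ''
        {n : ℕ | (sucF (A ω) (lt ω))^[n] 0 ∈ Gd ω}).Infinite :=
      hinf.image (iterate_injective hω hexω h0A).injOn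
    refine h1 (hF.subset ?_)
    rintro _ ⟨n, hn, rfl⟩
    exact ⟨iterate_mem hexω h0A n, hn, hgap n⟩
  by_contra hne
  obtain ⟨β, hβ, hβ'⟩ := exists_between (pos_iff_ne_zero.2 hne)
  exact absurd (hle β hβ) (not_le.2 hβ')

end LField

end Crest.Agent.R151.F592
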