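import Crest.Agent.R151.E39c
import Crest.Agent.R151.A565c
import Crest.Agent.R151.K2b
import Crest.Agent.R151.V10
import Crest.Agent.R151.B710

-- ▼ part R151/G785a
section

/-!
# R151, block S1 (helper785): goodness of an abscissa as a MEASURABLE event

`GM k D C3 c b Fp Fq y` only uses the two deterministic label functions `Fp`, `Fq` (slopes `-c1`
and `c1`, `c1 < μ (1,0)`); it implies helper39's `E39.Good` for every set of labels squeezed between
them, and its complement has small probability.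
-/

set_option autoImplicit false

open MeasureTheory ProbabilityTheory Set Filter
open scoped ENNReal Topology
open Crest.ProbabilityR.FirstPassage
open Crest.Agent.R151.K

namespace Crest.Agent.R151.G785

/-! ## squeezed functions -/

/-- `f` is squeezed between the increments of `p` and `q` -/
def Sqz (p q f : ℤ → ℝ) : Prop :=
  ∀ x, p (x + 1) - p x ≤ f (x + 1) - f x ∧ f (x + 1) - f x ≤ q (x + 1) - q x

/-- the lower bound for `f w - f y` -/
noncomputable def sq (p q : ℤ → ℝ) (y w : ℤ) : ℝ := if y < w then p w - p y else q w - q y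

lemma inc_le_of_step {p f : ℤ → ℝ} (h : ∀ x, p (x + 1) - p x ≤ f (x + 1) - f x) {y w : ℤ}
    (hyw : y ≤ w) : p w - p y ≤ f w - f y := by
  obtain ⟨n, rfl⟩ := Int.le.dest hyw
  clear hyw
  induction n with
  | zero => simp
  | succ n ih =>
    have := h (y + n)
    push_cast at this ⊢
    rw [← add_assoc]
    linarith

lemma Sqz.sq_le {p q f : ℤ → ℝ} (h : Sqz p q f) (y w : ℤ) : sq p q y w ≤ f w - f y := by
  unfold sq
  split_ifs with hyw
  · exact inc_le_of_step (fun x => (h x).1) hyw.le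
  · have := inc_le_of_step (fun x => (h x).2) (not_lt.1 hyw)
    linarith

lemma Sqz.shift {p q f : ℤ → ℝ} (h : Sqz p q f) (z : ℤ) :
    Sqz (fun x => p (x + z)) (fun x => q (x + z)) (fun x => f (x + z)) := by
  intro x
  have := h (x + z)
  have e : x + z + 1 = x + 1 + z := by ring
  rw [e] at this
  exact this

/-! ## the event -/

open Classical in
/-- the event `g3` of `E39.Good` -/
def G3 (k : ℕ) (c b : ℝ) (y : ℤ) : Set Environment :=
  {t | ∀ (v : ℤ × ℤ) (w : squareLattice.Walk (y, 0) v), w.edges.Nodup → w.length = k →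
    c * k ≤ ((w.edges.toFinset.filter fun e => b ≤ t e).card : ℝ)}

/-- the event `g1` (with the squeeze functions), on the row `j` -/
def G1 (k D : ℕ) (C3 : ℝ) (j : ℤ) (Fp Fq : Environment → ℤ → ℝ) (y : ℤ) : Set Environment :=
  {t | ∀ z : ℤ × ℤ, |z.1 - y| ≤ k → |z.2| ≤ (k : ℤ) + 1 → ∀ w : ℤ, (D : ℤ) < |w - y| →
    ∑ e ∈ E39.boxE k y, t e + (2 * C3 + 10) < passageTime t z (w, j) + sq (Fp t) (Fq t) y w}

/-- the event `g2` -/
def G2 (k : ℕ) (C3 : ℝ) (y : ℤ) : Set Environment := {t | ∑ e ∈ E39.boxE k y, t e ≤ C3}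

/-- the goodness event: squeeze functions `Fp, Fq` on the row `k+1`, `Hp, Hq` on `-(k+1)` -/
def GM (k D : ℕ) (C3 c b : ℝ) (Fp Fq Hp Hq : Environment → ℤ → ℝ) (y : ℤ) : Set Environment :=
  ((G1 k D C3 ((k : ℤ) + 1) Fp Fq y ∩ G1 k D C3 (-((k : ℤ) + 1)) Hp Hq y) ∩ G2 k C3 y) ∩
    G3 k c b y

section

variable {k D : ℕ} {C3 c b : ℝ} {j : ℤ} {Fp Fq Hp Hq : Environment → ℤ → ℝ} {y : ℤ}
  {t : Environment}

theorem GM.good (h : t ∈ GM k D C3 c b Fp Fq Hp Hq y) {L : Set ((ℤ → ℝ) × (ℤ → ℝ))}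
    (hL : ∀ a ∈ L, Sqz (Fp t) (Fq t) a.1) : E39.Good k D C3 c b L y t := by
  obtain ⟨⟨⟨h1, -⟩, h2⟩, h3⟩ := h
  refine ⟨fun a ha z hz1 hz2 w hw => ?_, h2, ?_⟩
  · have := h1 z hz1 hz2 w hw
    have h4 := (hL a ha).sq_le y w
    linarith
  · intro v w hn hl
    have := h3 v w hn hl
    convert this

theorem G1.mono {C3' : ℝ} (h : t ∈ G1 k D C3 j Fp Fq y) {D' : ℕ} (hD : D ≤ D') (hC : C3' ≤ C3) :
    t ∈ G1 k D' C3' j Fp Fq y := by
  intro z hz1 hz2 w hw
  have h1 : (D : ℤ) < |w - y| := lt_of_le_of_lt (by exact_mod_cast hD) hw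
  have := h z hz1 hz2 w h1
  linarith

/-- two points of the box are at distance at most the sum over the box -/
theorem pt_le_box (ht : Nn t) {u v : ℤ × ℤ} (hu1 : |u.1 - y| ≤ k) (hu2 : |u.2| ≤ (k : ℤ) + 1)
    (hv1 : |v.1 - y| ≤ k) (hv2 : |v.2| ≤ (k : ℤ) + 1) :
    passageTime t u v ≤ ∑ e ∈ E39.boxE k y, t e := by
  classical
  obtain ⟨w, hw⟩ := (E39.rc_rect hu1 hu2).trans (E39.rc_rect hv1 hv2).symm
  refine (pt_le ht w.toPath.1).trans (E39.walkCost_le_sum ht w.toPath.2.isTrail.edges_nodup ?_)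
  intro e he
  exact hw e (SimpleGraph.Walk.edges_toPath_subset_edges w he)

/-- localisation of the end point of a near tie at a good abscissa -/
theorem G1.loc (ht : Nn t) (h : t ∈ G1 k D C3 j Fp Fq y) (hj : |j| ≤ (k : ℤ) + 1)
    {f : ℤ → ℝ} (hf : Sqz (Fp t) (Fq t) f) {z : ℤ × ℤ} (hz1 : |z.1 - y| ≤ k)
    (hz2 : |z.2| ≤ (k : ℤ) + 1) {w : ℤ} (hw : (D : ℤ) < |w - y|) :
    passageTime t z (y, j) + f y + (2 * C3 + 10) < passageTime t z (w, j) + f w := by
  have h1 := h z hz1 hz2 w hw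
  have h2 := hf.sq_le y w
  have h3 : passageTime t z (y, j) ≤ ∑ e ∈ E39.boxE k y, t e :=
    pt_le_box ht hz1 hz2 (by simp) hj
  linarith

/-- at a good abscissa the minimum over the row is attained at distance at most `D` -/
theorem G1.exists_min (ht : Nn t) (h : t ∈ G1 k D C3 j Fp Fq y) (hC : 0 ≤ C3)
    (hj : |j| ≤ (k : ℤ) + 1) {f : ℤ → ℝ} (hf : Sqz (Fp t) (Fq t) f) {z : ℤ × ℤ}
    (hz1 : |z.1 - y| ≤ k) (hz2 : |z.2| ≤ (k : ℤ) + 1) :
    ∃ w : ℤ, |w - y| ≤ D ∧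
      ∀ w' : ℤ, passageTime t z (w, j) + f w ≤ passageTime t z (w', j) + f w' := by
  obtain ⟨w, hw, hmin⟩ := (Finset.Icc (y - D) (y + D)).exists_min_image
    (fun w => passageTime t z (w, j) + f w) ⟨y, by simp⟩
  rw [Finset.mem_Icc] at hw
  refine ⟨w, abs_le.2 ⟨by omega, by omega⟩, fun w' => ?_⟩
  by_cases hw' : |w' - y| ≤ D
  · exact hmin w' (Finset.mem_Icc.2 ⟨by have := abs_le.1 hw'; omega, by
      have := abs_le.1 hw'; omega⟩)
  · have h1 := G1.loc ht h hj hf hz1 hz2 (not_le.1 hw')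
    have h2 := hmin y (Finset.mem_Icc.2 ⟨by omega, by omega⟩)
    linarith

/-! ## measurability -/

theorem measurableSet_G3 : MeasurableSet (G3 k c b y) := by
  classical
  unfold G3
  simp only [Set.ofPred_forall]
  refine MeasurableSet.iInter fun v => MeasurableSet.iInter fun w => MeasurableSet.iInter fun _ =>
    MeasurableSet.iInter fun _ => ?_
  refine measurableSet_le measurable_const ?_
  have : (fun t : Environment =>
      (((w.edges.toFinset.filter fun e => b ≤ t e).card : ℕ) : ℝ)) =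
      fun t => ∑ e ∈ w.edges.toFinset, (if b ≤ t e then (1:ℝ) else 0) := by
    funext t
    rw [Finset.card_filter]
    push_cast
    rfl
  have h2 : Measurable (fun t : Environment =>
      ∑ e ∈ w.edges.toFinset, (if b ≤ t e then (1:ℝ) else 0)) := by
    refine Finset.measurable_sum _ fun e _ => ?_
    exact Measurable.ite (measurableSet_le measurable_const (measurable_pi_apply e))
      measurable_const measurable_const
  rw [← this] at h2
  convert h2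

theorem measurable_sq (hp : ∀ x, Measurable fun t => Fp t x) (hq : ∀ x, Measurable fun t => Fq t x)
    (y w : ℤ) : Measurable fun t => sq (Fp t) (Fq t) y w := by
  unfold sq
  split_ifs
  · exact (hp w).sub (hp y)
  · exact (hq w).sub (hq y)

theorem measurableSet_G1 (hp : ∀ x, Measurable fun t => Fp t x)
    (hq : ∀ x, Measurable fun t => Fq t x) : MeasurableSet (G1 k D C3 j Fp Fq y) := by
  unfold G1
  simp only [Set.ofPred_forall]
  refine MeasurableSet.iInter fun z => MeasurableSet.iInter fun _ => MeasurableSet.iInter fun _ =>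
    MeasurableSet.iInter fun w => MeasurableSet.iInter fun _ => ?_
  exact measurableSet_lt ((Finset.measurable_sum _ fun e _ => measurable_pi_apply e).add_const _)
    ((measurable_pt z _).add (measurable_sq hp hq y w))

theorem measurableSet_G2 : MeasurableSet (G2 k C3 y) :=
  measurableSet_le (Finset.measurable_sum _ fun e _ => measurable_pi_apply e) measurable_const

theorem measurableSet_GM (hp : ∀ x, Measurable fun t => Fp t x)
    (hq : ∀ x, Measurable fun t => Fq t x) (hp' : ∀ x, Measurable fun t => Hp t x)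
    (hq' : ∀ x, Measurable fun t => Hq t x) :
    MeasurableSet (GM k D C3 c b Fp Fq Hp Hq y) :=
  (((measurableSet_G1 hp hq).inter (measurableSet_G1 hp' hq')).inter measurableSet_G2).inter
    measurableSet_G3

end

/-! ## coercivity -/

/-- slope at `+∞` gives a linear lower bound on the right -/
lemma lower_right {p : ℤ → ℝ} {c : ℝ} (h : Tendsto (fun x : ℤ => p x / x) atTop (𝓝 (-c)))
    {ε : ℝ} (hε : 0 < ε) : ∃ B : ℝ, ∀ w : ℤ, 0 ≤ w → -(c + ε) * w - B ≤ p w := by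
  have h1 : ∀ᶠ x : ℤ in atTop, -(c + ε) < p x / x := h.eventually (lt_mem_nhds (by linarith))
  obtain ⟨N, hN⟩ := (h1.and (eventually_gt_atTop 0)).exists_forall_of_atTop
  refine ⟨∑ x ∈ Finset.Icc 0 N, |(c + ε) * x + p x|, fun w hw => ?_⟩
  rcases le_or_gt N w with hNw | hwN
  · obtain ⟨h2, h3⟩ := hN w hNw
    have h4 : (0:ℝ) < w := by exact_mod_cast h3
    rw [lt_div_iff₀ h4] at h2
    have h5 : 0 ≤ ∑ x ∈ Finset.Icc 0 N, |(c + ε) * x + p x| :=
      Finset.sum_nonneg fun _ _ => abs_nonneg _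
    linarith
  · have h5 : |(c + ε) * w + p w| ≤ ∑ x ∈ Finset.Icc 0 N, |(c + ε) * x + p x| :=
      Finset.single_le_sum (f := fun x : ℤ => |(c + ε) * x + p x|) (fun _ _ => abs_nonneg _)
        (Finset.mem_Icc.2 ⟨hw, hwN.le⟩)
    have h6 := neg_abs_le ((c + ε) * w + p w)
    linarith

lemma lower_left {p : ℤ → ℝ} {c : ℝ} (h : Tendsto (fun x : ℤ => p x / x) atBot (𝓝 c))
    {ε : ℝ} (hε : 0 < ε) : ∃ B : ℝ, ∀ w : ℤ, w ≤ 0 → (c + ε) * w - B ≤ p w := by
  have h1 : Tendsto (fun x : ℤ => (fun x => p (-x)) x / (x : ℝ)) atTop (𝓝 (-c)) := by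
    have h2 := (h.comp tendsto_neg_atTop_atBot).neg
    refine h2.congr fun x => ?_
    simp only [Function.comp, Int.cast_neg, div_neg, neg_neg]
  obtain ⟨B, hB⟩ := lower_right h1 hε
  refine ⟨B, fun w hw => ?_⟩
  have := hB (-w) (by omega)
  simp only [neg_neg, Int.cast_neg] at this
  linarith

/-- the squeeze function has a linear lower bound -/
lemma sq_lower {p q : ℤ → ℝ} {c sp sq' : ℝ}
    (hp : Tendsto (fun x : ℤ => p x / x) atTop (𝓝 sp))
    (hq : Tendsto (fun x : ℤ => q x / x) atBot (𝓝 sq')) (hsp : -c ≤ sp) (hsq : sq' ≤ c)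
    {ε : ℝ} (hε : 0 < ε) (y : ℤ) :
    ∃ B : ℝ, ∀ w : ℤ, -(c + ε) * |(w : ℝ)| - B ≤ sq p q y w := by
  obtain ⟨B1, h1'⟩ := lower_right (p := p) (c := -sp) (by rwa [neg_neg]) hε
  obtain ⟨B2, h2'⟩ := lower_left hq hε
  have h1 : ∀ w : ℤ, 0 ≤ w → -(c + ε) * w - B1 ≤ p w := fun w hw => by
    have a1 := h1' w hw
    have a2 : (0:ℝ) ≤ w := by exact_mod_cast hw
    have a3 : 0 ≤ (sp + c) * w := mul_nonneg (by linarith) a2
    nlinarith
  have h2 : ∀ w : ℤ, w ≤ 0 → (c + ε) * w - B2 ≤ q w := fun w hw => by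
    have a1 := h2' w hw
    have a2 : (w:ℝ) ≤ 0 := by exact_mod_cast hw
    have a3 : 0 ≤ (sq' - c) * w := mul_nonneg_of_nonpos_of_nonpos (by linarith) a2
    nlinarith
  refine ⟨|B1| + |B2| + |p y| + |q y| +
    ∑ x ∈ Finset.Icc (-|y|) |y|, (|p x| + |q x| + |c + ε| * |(x : ℝ)|), fun w => ?_⟩
  have hb1 := le_abs_self B1
  have hb2 := le_abs_self B2
  have hb3 := abs_nonneg B1
  have hb4 := abs_nonneg B2
  have hy1 := le_abs_self (p y)
  have hy2 := le_abs_self (q y)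
  have hy3 := abs_nonneg (p y)
  have hy4 := abs_nonneg (q y)
  have hs : 0 ≤ ∑ x ∈ Finset.Icc (-|y|) |y|, (|p x| + |q x| + |c + ε| * |(x : ℝ)|) :=
    Finset.sum_nonneg fun _ _ => by positivity
  by_cases hw : |w| ≤ |y|
  · have h5 : |p w| + |q w| + |c + ε| * |(w : ℝ)| ≤
        ∑ x ∈ Finset.Icc (-|y|) |y|, (|p x| + |q x| + |c + ε| * |(x : ℝ)|) :=
      Finset.single_le_sum (f := fun x : ℤ => |p x| + |q x| + |c + ε| * |(x : ℝ)|)
        (fun _ _ => by positivity) (Finset.mem_Icc.2 (abs_le.1 hw))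
    have h6 := neg_abs_le (p w)
    have h7 := neg_abs_le (q w)
    have h9 : -(c + ε) * |(w : ℝ)| ≤ |c + ε| * |(w : ℝ)| :=
      mul_le_mul_of_nonneg_right (neg_le_abs _) (abs_nonneg _)
    have h10 := abs_nonneg (p w)
    have h11 := abs_nonneg (q w)
    unfold sq
    split_ifs <;> linarith
  · rw [not_le] at hw
    unfold sq
    split_ifs with hyw
    · have hw0 : 0 ≤ w := by
        rcases abs_cases w with h | h <;> rcases abs_cases y with h' | h' <;> omega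
      have h3 := h1 w hw0
      have h4 : |(w : ℝ)| = w := abs_of_nonneg (by exact_mod_cast hw0)
      rw [h4]
      linarith
    · have hw0 : w ≤ 0 := by
        rcases abs_cases w with h | h <;> rcases abs_cases y with h' | h' <;> omega
      have h3 := h2 w hw0
      have h4 : |(w : ℝ)| = -w := abs_of_nonpos (by exact_mod_cast hw0)
      rw [h4]
      linarith

/-- **coercivity**: `T(z, (w, j)) + g w → ∞`, uniformly for `z` in a finite box -/
theorem coercive {μ : ℝ × ℝ → ℝ} {t : Environment} {m1 c1 : ℝ} (hm0 : 0 ≤ m1)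
    (hm : ∀ x y : ℝ, m1 * |x| ≤ μ (x, y)) (hc : c1 < m1)
    (hS : ∀ ε > 0, ∀ᶠ n : ℕ in atTop, dev μ n t ≤ ε * n) (A : ℕ) (j : ℤ) {g : ℤ → ℝ}
    (hg : ∀ ε > 0, ∃ B : ℝ, ∀ w : ℤ, -(c1 + ε) * |(w : ℝ)| - B ≤ g w) (C : ℝ) :
    ∃ D : ℕ, ∀ z : ℤ × ℤ, |z.1| ≤ A → |z.2| ≤ A → ∀ w : ℤ, (D : ℤ) < |w| →
      C < passageTime t z (w, j) + g w := by
  set δ := (m1 - c1) / 4 with hδ
  have hδ0 : 0 < δ := by rw [hδ]; linarith
  obtain ⟨B, hB⟩ := hg δ hδ0
  obtain ⟨N0, hN0⟩ := (hS δ hδ0).exists_forall_of_atTop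
  set K := m1 * A + δ * (A + |(j : ℝ)|) + B with hK
  obtain ⟨D1, hD1⟩ := exists_nat_gt ((C + K) / (2 * δ))
  refine ⟨max D1 N0, fun z hz1 hz2 w hw => ?_⟩
  have hw1 : (D1 : ℤ) < |w| := lt_of_le_of_lt (by exact_mod_cast le_max_left _ _) hw
  have hw2 : (N0 : ℤ) < |w| := lt_of_le_of_lt (by exact_mod_cast le_max_right _ _) hw
  set n : ℕ := w.natAbs + A + j.natAbs with hn
  have hnw : (w.natAbs : ℤ) = |w| := Int.natCast_natAbs w
  have hnj : (j.natAbs : ℤ) = |j| := Int.natCast_natAbs j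
  have hnN : N0 ≤ n := by omega
  have h1 := hN0 n hnN
  have hzb : z ∈ box n := by
    rw [mem_box]
    have a1 := abs_le.1 hz1
    have a2 := abs_le.1 hz2
    refine ⟨⟨?_, ?_⟩, ?_, ?_⟩ <;> omega
  have hwb : ((w, j) : ℤ × ℤ) ∈ box n := by
    rw [mem_box]
    have a1 := neg_abs_le w
    have a2 := le_abs_self w
    have a3 := neg_abs_le j
    have a4 := le_abs_self j
    refine ⟨⟨?_, ?_⟩, ?_, ?_⟩ <;> simp only <;> omega
  have h2 := (abs_le.1 (le_dev μ t hzb hwb)).1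
  have h3 : m1 * |(w : ℝ) - z.1| ≤ μ (toR ((w, j) - z)) := by
    have := hm ((w : ℝ) - z.1) ((j : ℝ) - z.2)
    refine this.trans (le_of_eq ?_)
    congr 1
    simp [toR]
  have h4 : |(w : ℝ)| - A ≤ |(w : ℝ) - z.1| := by
    have a1 : |(z.1 : ℝ)| ≤ A := by exact_mod_cast hz1
    have a2 := abs_sub_abs_le_abs_sub (w : ℝ) z.1
    linarith
  have h5 := hB w
  have h6 : (n : ℝ) = |(w : ℝ)| + A + |(j : ℝ)| := by
    have : (n : ℤ) = |w| + A + |j| := by rw [hn]; push_cast; simp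
    exact_mod_cast this
  have h7 : (D1 : ℝ) < |(w : ℝ)| := by exact_mod_cast hw1
  have h8 : (C + K) / (2 * δ) < |(w : ℝ)| := hD1.trans h7
  rw [div_lt_iff₀ (by positivity)] at h8
  have h9 : m1 * (|(w : ℝ)| - A) ≤ m1 * |(w : ℝ) - z.1| := mul_le_mul_of_nonneg_left h4 hm0
  have h10 : m1 - c1 = 4 * δ := by rw [hδ]; ring
  rw [h6] at h1
  nlinarith

end Crest.Agent.R151.G785
end

-- ▼ part R151/G785b

/-!
# R151, block S1 (helper785), part b: the goodness event `GM` has large probability, covariance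
-/

set_option autoImplicit false

open MeasureTheory ProbabilityTheory Set Filter
open scoped ENNReal Topology
open Crest.ProbabilityR.FirstPassage
open Crest.Agent.R151.K

namespace Crest.Agent.R151.G785

/-- increasing events that fill the space -/
theorem exists_compl_le {Ω : Type*} [MeasurableSpace Ω] (P : Measure Ω) [IsProbabilityMeasure P]
    {E : ℕ → Set Ω} (hm : ∀ n, MeasurableSet (E n)) (hmono : Monotone E)
    (hae : ∀ᵐ ω ∂P, ∃ n, ω ∈ E n) {e : ℝ} (he : 0 < e) :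
    ∃ n0, ∀ n, n0 ≤ n → P.real (E n)ᶜ ≤ e := by
  have h1 : Tendsto (fun n => P (E n)) atTop (𝓝 (P (⋃ n, E n))) :=
    tendsto_measure_iUnion_atTop hmono
  have h2 : P (⋃ n, E n) = 1 := by
    rw [prob_compl_eq_zero_iff (MeasurableSet.iUnion hm) |>.symm, measure_eq_zero_iff_ae_notMem]
    filter_upwards [hae] with ω hω h
    exact h (mem_iUnion.2 hω)
  rw [h2] at h1
  have h3 : Tendsto (fun n => P.real (E n)) atTop (𝓝 1) := by
    have := (ENNReal.tendsto_toReal ENNReal.one_ne_top).comp h1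
    simpa [Function.comp_def, Measure.real] using this
  obtain ⟨n0, hn0⟩ := (h3.eventually (lt_mem_nhds (show 1 - e < 1 by linarith))).exists_forall_of_atTop
  refine ⟨n0, fun n hn => ?_⟩
  rw [measureReal_compl (hm n)]
  have := hn0 n hn
  simp only [probReal_univ]
  linarith

section

variable {k : ℕ} {j : ℤ} {Fp Fq Hp Hq : Environment → ℤ → ℝ} {t : Environment}

theorem exists_G1 {μ : ℝ × ℝ → ℝ} {m1 sp sq' : ℝ} (hm0 : 0 ≤ m1)
    (hm : ∀ x y : ℝ, m1 * |x| ≤ μ (x, y)) (hS : ∀ ε > 0, ∀ᶠ n : ℕ in atTop, dev μ n t ≤ ε * n)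
    (hsp : -m1 < sp) (hsq : sq' < m1)
    (hp : Tendsto (fun x : ℤ => Fp t x / x) atTop (𝓝 sp))
    (hq : Tendsto (fun x : ℤ => Fq t x / x) atBot (𝓝 sq')) (C3 : ℝ) (y : ℤ) :
    ∃ D : ℕ, t ∈ G1 k D C3 j Fp Fq y := by
  obtain ⟨D, hD⟩ := coercive (c1 := max (-sp) sq') hm0 hm (max_lt (by linarith) hsq) hS
    (k + y.natAbs + 1) j (g := fun w => sq (Fp t) (Fq t) y w)
    (fun ε hε => sq_lower hp hq (by have := le_max_left (-sp) sq'; linarith) (le_max_right _ _) hε y)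
    (∑ e ∈ E39.boxE k y, t e + (2 * C3 + 10))
  refine ⟨D + y.natAbs, fun z hz1 hz2 w hw => ?_⟩
  have h1 := abs_le.1 hz1
  have h2 := abs_le.1 hz2
  have h5 := neg_abs_le y
  have h6 := le_abs_self y
  have h7 := abs_nonneg y
  refine hD z ?_ ?_ w ?_
  · rw [abs_le]; push_cast; omega
  · rw [abs_le]; push_cast; omega
  · push_cast at hw
    have h3 := abs_sub w y
    rw [lt_abs] at hw ⊢
    rcases hw with hw | hw
    · rcases le_or_gt 0 y with h | h
      · left; rw [abs_of_nonneg h] at hw; omega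
      · rw [abs_of_neg h] at hw; left; omega
    · rcases le_or_gt 0 y with h | h
      · right; rw [abs_of_nonneg h] at hw; omega
      · rw [abs_of_neg h] at hw; right; omega

end

section law

variable {G : Measure ℝ} [IsProbabilityMeasure G]

/-- the a.s. hypotheses on the squeeze functions of one row -/
structure SqzLaw (G : Measure ℝ) (m1 : ℝ) (Fp Fq : Environment → ℤ → ℝ) : Prop where
  measp : ∀ x, Measurable fun t => Fp t x
  measq : ∀ x, Measurable fun t => Fq t x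
  slopes : ∃ sp sq' : ℝ, -m1 < sp ∧ sq' < m1 ∧
    (∀ᵐ t ∂(iidLaw G), Tendsto (fun x : ℤ => Fp t x / x) atTop (𝓝 sp)) ∧
    ∀ᵐ t ∂(iidLaw G), Tendsto (fun x : ℤ => Fq t x / x) atBot (𝓝 sq')

theorem prob_G1 {μ : ℝ × ℝ → ℝ} {m1 : ℝ} (hm0 : 0 ≤ m1) (hm : ∀ x y : ℝ, m1 * |x| ≤ μ (x, y))
    (hS : ∀ᵐ t ∂(iidLaw G), ∀ ε > 0, ∀ᶠ n : ℕ in atTop, dev μ n t ≤ ε * n) (k : ℕ) (j : ℤ)
    {Fp Fq : Environment → ℤ → ℝ} (hF : SqzLaw G m1 Fp Fq) (C3 : ℝ) (y : ℤ) {e : ℝ} (he : 0 < e) :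
    ∃ D0, ∀ D, D0 ≤ D → (iidLaw G).real (G1 k D C3 j Fp Fq y)ᶜ ≤ e := by
  obtain ⟨sp, sq', h1, h2, h3, h4⟩ := hF.slopes
  refine exists_compl_le (iidLaw G) (fun D => measurableSet_G1 hF.measp hF.measq)
    (fun D D' hD t ht => G1.mono ht hD le_rfl) ?_ he
  filter_upwards [hS, h3, h4] with t a1 a2 a3
  exact exists_G1 hm0 hm a1 h1 h2 a2 a3 C3 y

theorem prob_G2 (k : ℕ) (y : ℤ) {e : ℝ} (he : 0 < e) :
    ∃ C0 : ℝ, 0 ≤ C0 ∧ ∀ C3, C0 ≤ C3 → (iidLaw G).real (G2 k C3 y)ᶜ ≤ e := by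
  obtain ⟨n0, hn0⟩ := exists_compl_le (iidLaw G) (E := fun n : ℕ => G2 k (n : ℝ) y)
    (fun n => measurableSet_G2)
    (fun n m hnm t ht => le_trans (show _ ≤ (n : ℝ) from ht) (by exact_mod_cast hnm))
    (Eventually.of_forall fun t => by
      obtain ⟨n, hn⟩ := exists_nat_ge (∑ e ∈ E39.boxE k y, t e)
      exact ⟨n, hn⟩) he
  refine ⟨n0, Nat.cast_nonneg _, fun C3 hC => ?_⟩
  refine (measureReal_mono ?_).trans (hn0 n0 le_rfl)
  refine compl_subset_compl.2 fun t ht => ?_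
  exact le_trans (show _ ≤ (n0 : ℝ) from ht) hC

/-- **the goodness event has probability close to one** -/
theorem exists_GM [NullSingletonClass G] (h0 : G (Iio 0) = 0) :
    ∃ a b c : ℝ, a < b ∧ 0 < c ∧ 0 < G.real (Iio a) ∧
      ∀ (μ : ℝ × ℝ → ℝ) (m1 : ℝ), 0 ≤ m1 → (∀ x y : ℝ, m1 * |x| ≤ μ (x, y)) →
      (∀ᵐ t ∂(iidLaw G), ∀ ε > 0, ∀ᶠ n : ℕ in atTop, dev μ n t ≤ ε * n) →
      ∀ (k : ℕ) (Fp Fq Hp Hq : Environment → ℤ → ℝ), SqzLaw G m1 Fp Fq → SqzLaw G m1 Hp Hq →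
      ∀ (y : ℤ) (e : ℝ), 0 < e → ∃ C0 : ℝ, 0 ≤ C0 ∧ ∀ C3, C0 ≤ C3 → ∃ D0, ∀ D, D0 ≤ D →
        (iidLaw G).real (GM k D C3 c b Fp Fq Hp Hq y)ᶜ ≤ (1 / 2) ^ k + e := by
  classical
  obtain ⟨a, b, c, hab, hc, ha, hB⟩ := V.exists_high (G := G) h0
  refine ⟨a, b, c, hab, hc, ha, fun μ m1 hm0 hm hS k Fp Fq Hp Hq hF hH y e he => ?_⟩
  obtain ⟨C0, hC0, hC0'⟩ := prob_G2 (G := G) k y (show 0 < e / 3 by linarith)
  refine ⟨C0, hC0, fun C3 hC3 => ?_⟩
  obtain ⟨D1, hD1⟩ := prob_G1 hm0 hm hS k ((k : ℤ) + 1) hF C3 y (show 0 < e / 3 by linarith)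
  obtain ⟨D2, hD2⟩ := prob_G1 hm0 hm hS k (-((k : ℤ) + 1)) hH C3 y (show 0 < e / 3 by linarith)
  refine ⟨max D1 D2, fun D hD => ?_⟩
  obtain ⟨B, hBm, hBp, hBh⟩ := hB k (y, 0)
  have hsub : (GM k D C3 c b Fp Fq Hp Hq y)ᶜ ⊆
      ((G1 k D C3 ((k : ℤ) + 1) Fp Fq y)ᶜ ∪ (G1 k D C3 (-((k : ℤ) + 1)) Hp Hq y)ᶜ) ∪
        ((G2 k C3 y)ᶜ ∪ B) := by
    intro t ht
    by_contra hcon
    simp only [mem_union, mem_compl_iff, not_or, not_not] at hcon
    obtain ⟨⟨h1, h2⟩, h3, h4⟩ := hcon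
    refine ht ⟨⟨⟨h1, h2⟩, h3⟩, fun v w hn hl => ?_⟩
    have := hBh t h4 v w hn hl.ge
    convert this
  refine (measureReal_mono hsub).trans ((measureReal_union_le _ _).trans ?_)
  have a1 := measureReal_union_le (μ := iidLaw G) (G1 k D C3 ((k : ℤ) + 1) Fp Fq y)ᶜ
    (G1 k D C3 (-((k : ℤ) + 1)) Hp Hq y)ᶜ
  have a2 := measureReal_union_le (μ := iidLaw G) (G2 k C3 y)ᶜ B
  have a3 := hD1 D ((le_max_left _ _).trans hD)
  have a4 := hD2 D ((le_max_right _ _).trans hD)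
  have a5 := hC0' C3 hC3
  linarith

end law

/-! ## covariance -/

lemma boxE_shift (k : ℕ) (y : ℤ) :
    (E39.boxE k 0).map ⟨A.eShift (y, 0), A.eShift_injective (y, 0)⟩ = E39.boxE k y := by
  ext e
  rw [Finset.mem_map]
  constructor
  · rintro ⟨e', he', rfl⟩
    rw [E39.mem_boxE] at he' ⊢
    rcases he' with ⟨a, b, ⟨h1, h2, h3, h4⟩, rfl⟩ | ⟨a, b, ⟨h1, h2, h3, h4⟩, rfl⟩
    · left
      exact ⟨a + y, b, ⟨by omega, by omega, h3, h4⟩, by simp [eH]; ring_nf⟩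
    · right
      exact ⟨a + y, b, ⟨by omega, by omega, h3, h4⟩, by simp [eV]⟩
  · intro he
    rw [E39.mem_boxE] at he
    rcases he with ⟨a, b, ⟨h1, h2, h3, h4⟩, rfl⟩ | ⟨a, b, ⟨h1, h2, h3, h4⟩, rfl⟩
    · refine ⟨eH (a - y) b, ?_, by simp [eH]; ring_nf⟩
      rw [E39.mem_boxE]
      left
      exact ⟨a - y, b, ⟨by omega, by omega, h3, h4⟩, rfl⟩
    · refine ⟨eV (a - y) b, ?_, by simp [eV]⟩
      rw [E39.mem_boxE]
      right
      exact ⟨a - y, b, ⟨by omega, by omega, h3, h4⟩, rfl⟩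

lemma sum_box_shift (k : ℕ) (y : ℤ) (t : Environment) :
    ∑ e ∈ E39.boxE k 0, A.shift (y, 0) t e = ∑ e ∈ E39.boxE k y, t e := by
  rw [← boxE_shift k y, Finset.sum_map]
  rfl

/-- covariance of the increments -/
def IncCov (F : Environment → ℤ → ℝ) (y : ℤ) (t : Environment) : Prop :=
  ∀ w, F (A.shift (y, 0) t) w - F (A.shift (y, 0) t) 0 = F t (w + y) - F t y

lemma G1_shift {k D : ℕ} {C3 : ℝ} {j : ℤ} {Fp Fq : Environment → ℤ → ℝ} {y : ℤ} {t : Environment}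
    (hp : IncCov Fp y t) (hq : IncCov Fq y t) :
    A.shift (y, 0) t ∈ G1 k D C3 j Fp Fq 0 ↔ t ∈ G1 k D C3 j Fp Fq y := by
  have hsq : ∀ w, sq (Fp (A.shift (y, 0) t)) (Fq (A.shift (y, 0) t)) 0 w =
      sq (Fp t) (Fq t) y (w + y) := by
    intro w
    unfold sq
    by_cases hw : 0 < w
    · rw [if_pos hw, if_pos (by omega), hp w]
    · rw [if_neg hw, if_neg (by omega), hq w]
  constructor
  · intro h z hz1 hz2 w hw
    have h1 := h (z - (y, 0)) (by simpa using hz1) (by simpa using hz2) (w - y)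
      (by simpa using hw)
    rw [sum_box_shift, A.pt_shift, hsq] at h1
    simpa using h1
  · intro h z hz1 hz2 w hw
    have h1 := h (z + (y, 0)) (by simpa using hz1) (by simpa using hz2) (w + y)
      (by simpa using hw)
    rw [sum_box_shift, A.pt_shift, hsq]
    simpa using h1

lemma G3_shift_aux {k : ℕ} {c b : ℝ} {y z : ℤ} {t : Environment} (h : t ∈ G3 k c b (z + y)) :
    A.shift (y, 0) t ∈ G3 k c b z := by
  classical
  intro v w hn hl
  set φ : squareLattice →g squareLattice := (tr (y, 0)).toHom with hφ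
  have hφi : Function.Injective (Sym2.map φ) := Sym2.map.injective (tr (y, 0)).injective
  have hst : φ (z, 0) = (z + y, 0) := by simp [hφ]
  set w' : squareLattice.Walk (z + y, 0) (φ v) := (w.map φ).copy hst rfl with hw'
  have hed : w'.edges = w.edges.map (Sym2.map φ) := by
    rw [hw', SimpleGraph.Walk.edges_copy, SimpleGraph.Walk.edges_map]
  have h1 := h (φ v) w' (by rw [hed]; exact hn.map hφi) (by rw [hw']; simpa using hl)
  refine h1.trans (le_of_eq ?_)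
  congr 1
  rw [hed]
  have h2 : (w.edges.map (Sym2.map φ)).toFinset = w.edges.toFinset.image (Sym2.map φ) := by
    ext e; simp
  rw [h2]
  have h3 : (w.edges.toFinset.image (Sym2.map φ)).filter (fun e => b ≤ t e) =
      (w.edges.toFinset.filter fun e => b ≤ A.shift (y, 0) t e).image (Sym2.map φ) := by
    ext e
    simp only [Finset.mem_filter, Finset.mem_image]
    constructor
    · rintro ⟨⟨e', he', rfl⟩, hb⟩
      exact ⟨e', ⟨he', hb⟩, rfl⟩
    · rintro ⟨e', ⟨he', hb⟩, rfl⟩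
      exact ⟨⟨e', he', rfl⟩, hb⟩
  convert congrArg Finset.card h3 using 1
  rw [Finset.card_image_of_injective _ hφi]

lemma G3_shift {k : ℕ} {c b : ℝ} {y : ℤ} {t : Environment} :
    A.shift (y, 0) t ∈ G3 k c b 0 ↔ t ∈ G3 k c b y := by
  constructor
  · intro h
    have h1 : A.shift (y, 0) t ∈ G3 k c b (y + -y) := by simpa using h
    have h2 := G3_shift_aux h1
    rw [A.shift_shift] at h2
    have h3 : A.shift ((0 : ℤ), (0 : ℤ)) t = t := A.shift_zero t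
    have h4 : ((-y, 0) : ℤ × ℤ) + (y, 0) = (0, 0) := by simp
    rw [h4, h3] at h2
    exact h2
  · intro h
    exact G3_shift_aux (z := 0) (by simpa using h)

theorem GM_shift {k D : ℕ} {C3 c b : ℝ} {Fp Fq Hp Hq : Environment → ℤ → ℝ} {y : ℤ}
    {t : Environment} (hp : IncCov Fp y t) (hq : IncCov Fq y t) (hp' : IncCov Hp y t)
    (hq' : IncCov Hq y t) :
    A.shift (y, 0) t ∈ GM k D C3 c b Fp Fq Hp Hq 0 ↔ t ∈ GM k D C3 c b Fp Fq Hp Hq y := by
  have h2 : A.shift (y, 0) t ∈ G2 k C3 0 ↔ t ∈ G2 k C3 y := by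
    show (∑ e ∈ E39.boxE k 0, A.shift (y, 0) t e ≤ C3) ↔ (∑ e ∈ E39.boxE k y, t e ≤ C3)
    rw [sum_box_shift]
  unfold GM
  simp only [mem_inter_iff, G1_shift hp hq, G1_shift hp' hq', h2, G3_shift]

/-- at a good abscissa a near tie with ANY end points is a near tie with end points at distance
at most `D` -/
theorem GM.nt {k D : ℕ} {C3 c b : ℝ} {Fp Fq Hp Hq : Environment → ℤ → ℝ} {y : ℤ}
    {t : Environment} (ht : Nn t) (h : t ∈ GM k D C3 c b Fp Fq Hp Hq y) (hC : 0 ≤ C3)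
    {a : (ℤ → ℝ) × (ℤ → ℝ)} (hf : Sqz (Fp t) (Fq t) a.1) (hh : Sqz (Hp t) (Hq t) a.2) {K : ℝ}
    {z₀ w₀ : ℤ} (hn : ∀ z' w' : ℤ, a.2 z₀ + passageTime t (z₀, -((k : ℤ) + 1)) (y, 0) +
      passageTime t (y, 0) (w₀, (k : ℤ) + 1) + a.1 w₀ ≤ E39.Psi k a t z' w' + K) :
    E39.NT k D K a y t := by
  obtain ⟨⟨⟨h1, h2⟩, -⟩, -⟩ := h
  have hk1 : |(k : ℤ) + 1| ≤ (k : ℤ) + 1 := by rw [abs_of_nonneg (by omega)]
  have hk2 : |-((k : ℤ) + 1)| ≤ (k : ℤ) + 1 := by rw [abs_neg]; exact hk1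
  have h0 : |((y, 0) : ℤ × ℤ).1 - y| ≤ (k : ℤ) := by simp
  have h0' : |((y, 0) : ℤ × ℤ).2| ≤ (k : ℤ) + 1 := by simp; omega
  obtain ⟨w, hw, hwm⟩ := G1.exists_min ht h1 hC hk1 hf h0 h0'
  obtain ⟨z, hz, hzm⟩ := G1.exists_min ht h2 hC hk2 hh h0 h0'
  refine ⟨z, w, hz, hw, fun z' w' => ?_⟩
  have e1 := hn z' w'
  have e2 := hwm w₀
  have e3 := hzm z₀
  rw [pt_symm ht (y, 0) (z, _), pt_symm ht (y, 0) (z₀, _)] at e3
  linarith

end Crest.Agent.R151.G785
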