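import Mathlib
import Crest.Agent.R151.H617a

/-!
# R151/H617b — block (C), corollaries (owner helper617), deterministic

`Sand D f s h`: the increments of `h` are sandwiched between those of `f p`, `f q`
for all `p < s < q` in `D`.
-/

set_option autoImplicit false

open Filter Set
open scoped Topology

namespace Crest.Agent.R151.H

/-! ### increments and telescoping -/


lemma inc_sub (h k : ℤ → ℝ) (x : ℤ) : inc (fun z => h z - k z) x = inc h x - inc k x := by
  unfold inc; ring

lemma inc_neg (h : ℤ → ℝ) (x : ℤ) : inc (fun z => -h z) x = -inc h x := by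
  unfold inc; ring

lemma sum_inc (h : ℤ → ℝ) (a : ℤ) (n : ℕ) :
    ∑ i ∈ Finset.range n, inc h (a + i) = h (a + n) - h a := by
  induction n with
  | zero => simp
  | succ n ih =>
    rw [Finset.sum_range_succ, ih]
    unfold inc
    push_cast
    rw [← add_assoc]
    ring

/-- nonnegative increments: monotone -/
lemma monotone_of_inc_nonneg {h : ℤ → ℝ} (hh : ∀ x, 0 ≤ inc h x) : Monotone h := by
  intro a b hab
  obtain ⟨n, rfl⟩ : ∃ n : ℕ, b = a + n := ⟨(b - a).toNat, by omega⟩
  have := sum_inc h a n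
  have h0 : 0 ≤ ∑ i ∈ Finset.range n, inc h (a + i) := Finset.sum_nonneg fun _ _ => hh _
  linarith

lemma sub_le_sub_of_inc_le {h k : ℤ → ℝ} (hh : ∀ x, inc h x ≤ inc k x) {a b : ℤ} (hab : a ≤ b) :
    h b - h a ≤ k b - k a := by
  have : Monotone fun z => k z - h z :=
    monotone_of_inc_nonneg fun x => by rw [inc_sub]; linarith [hh x]
  have := this hab
  simp only at this
  linarith



/-! ### sandwiched functions -/

/-- the increments of `h` are between those of `f p` and `f q` for all `p < s < q` in `D`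
(no direction of monotonicity is prescribed) -/
def SandU (D : Set ℝ) (f : ℝ → ℤ → ℝ) (s : ℝ) (h : ℤ → ℝ) : Prop :=
  ∀ p ∈ D, ∀ q ∈ D, p < s → s < q → ∀ x, inc h x ∈ uIcc (inc (f p) x) (inc (f q) x)

/-- directed version (increments decrease with the label): `inc (f q) ≤ inc h ≤ inc (f p)`
for `p < s < q`. -/
structure Sand (D : Set ℝ) (f : ℝ → ℤ → ℝ) (s : ℝ) (h : ℤ → ℝ) : Prop where
  le : ∀ p ∈ D, p < s → ∀ x, inc h x ≤ inc (f p) x
  ge : ∀ q ∈ D, s < q → ∀ x, inc (f q) x ≤ inc h x

lemma Sand.sandU {D : Set ℝ} {f : ℝ → ℤ → ℝ} {s : ℝ} {h : ℤ → ℝ} (H : Sand D f s h) :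
    SandU D f s h := fun p hp q hq hps hsq x =>
  mem_uIcc.2 (Or.inr ⟨H.ge q hq hsq x, H.le p hp hps x⟩)


/-- **(C2)** at a continuity slope all sandwiched functions agree up to a constant -/
theorem SandU.inc_eq {D : Set ℝ} {f : ℝ → ℤ → ℝ} {s : ℝ} {h h' : ℤ → ℝ}
    (hc : ContAt D f s) (H : SandU D f s h) (H' : SandU D f s h') (x : ℤ) :
    inc h x = inc h' x := by
  refine eq_of_abs_sub_le_all fun ε hε => ?_
  obtain ⟨p, hp, q, hq, hps, hsq, hle⟩ := hc (x.natAbs + 1) ε hε
  have hx : x ∈ Finset.Ico (-((x.natAbs + 1 : ℕ) : ℤ)) ((x.natAbs + 1 : ℕ) : ℤ) := by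
    rw [Finset.mem_Ico]
    omega
  have h1 := (abs_inc_sub_le_tv (f p) (f q) hx).trans hle
  refine (abs_sub_le_of_uIcc_subset_uIcc (Set.uIcc_subset_uIcc
    (H' p hp q hq hps hsq x) (H p hp q hq hps hsq x))).trans ?_
  rwa [abs_sub_comm]


/-! ### slopes -/

/-- two-sided slope -/
structure HasSlope (h : ℤ → ℝ) (c : ℝ) : Prop where
  top : Tendsto (fun x : ℤ => h x / x) atTop (𝓝 c)
  bot : Tendsto (fun x : ℤ => h x / x) atBot (𝓝 c)

lemma tendsto_const_div_atTop (a : ℝ) : Tendsto (fun x : ℤ => a / (x : ℝ)) atTop (𝓝 0) :=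
  tendsto_const_nhds.div_atTop tendsto_intCast_atTop_atTop

lemma tendsto_const_div_atBot (a : ℝ) : Tendsto (fun x : ℤ => a / (x : ℝ)) atBot (𝓝 0) :=
  tendsto_const_nhds.div_atBot (tendsto_intCast_atBot_iff.2 tendsto_id)

lemma HasSlope.neg {h : ℤ → ℝ} {c : ℝ} (H : HasSlope h c) : HasSlope (fun x => -h x) (-c) := by
  constructor
  · simpa [neg_div] using H.top.neg
  · simpa [neg_div] using H.bot.neg

lemma HasSlope.unique {h : ℤ → ℝ} {c c' : ℝ} (H : HasSlope h c) (H' : HasSlope h c') : c = c' :=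
  tendsto_nhds_unique H.top H'.top

lemma HasSlope.add_const {h : ℤ → ℝ} {c : ℝ} (H : HasSlope h c) (a : ℝ) :
    HasSlope (fun x => h x + a) c := by
  constructor
  · simpa [add_div] using H.top.add (tendsto_const_div_atTop a)
  · simpa [add_div] using H.bot.add (tendsto_const_div_atBot a)


/-- squeeze of slopes, one function above and one below, directed by increments -/
theorem hasSlope_of_squeeze {h : ℤ → ℝ} {c : ℝ}
    (hup : ∀ a, c < a → ∃ (k : ℤ → ℝ) (d : ℝ), d < a ∧ HasSlope k d ∧ ∀ x, inc h x ≤ inc k x)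
    (hlo : ∀ a, a < c → ∃ (k : ℤ → ℝ) (d : ℝ), a < d ∧ HasSlope k d ∧ ∀ x, inc k x ≤ inc h x) :
    HasSlope h c := by
  constructor
  · rw [tendsto_order]
    constructor
    · intro a ha
      obtain ⟨k, d, had, hk, hkh⟩ := hlo a ha
      have h1 := ((hk.add_const (h 0 - k 0)).top).eventually_const_lt had
      filter_upwards [h1, eventually_gt_atTop 0] with x hx hx0
      have hx0' : (0 : ℝ) < x := by exact_mod_cast hx0
      refine hx.trans_le ?_
      have := sub_le_sub_of_inc_le hkh hx0.le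
      gcongr
      linarith
    · intro a ha
      obtain ⟨k, d, had, hk, hkh⟩ := hup a ha
      have h1 := ((hk.add_const (h 0 - k 0)).top).eventually_lt_const had
      filter_upwards [h1, eventually_gt_atTop 0] with x hx hx0
      have hx0' : (0 : ℝ) < x := by exact_mod_cast hx0
      refine lt_of_le_of_lt ?_ hx
      have := sub_le_sub_of_inc_le hkh hx0.le
      gcongr
      linarith
  · rw [tendsto_order]
    constructor
    · intro a ha
      obtain ⟨k, d, had, hk, hkh⟩ := hlo a ha
      have h1 := ((hk.add_const (h 0 - k 0)).bot).eventually_const_lt had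
      filter_upwards [h1, eventually_lt_atBot 0] with x hx hx0
      have hx0' : (x : ℝ) < 0 := by exact_mod_cast hx0
      refine hx.trans_le ?_
      have := sub_le_sub_of_inc_le hkh hx0.le
      exact div_le_div_of_nonpos_of_le hx0'.le (by linarith)
    · intro a ha
      obtain ⟨k, d, had, hk, hkh⟩ := hup a ha
      have h1 := ((hk.add_const (h 0 - k 0)).bot).eventually_lt_const had
      filter_upwards [h1, eventually_lt_atBot 0] with x hx hx0
      have hx0' : (x : ℝ) < 0 := by exact_mod_cast hx0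
      refine lt_of_le_of_lt ?_ hx
      have := sub_le_sub_of_inc_le hkh hx0.le
      exact div_le_div_of_nonpos_of_le hx0'.le (by linarith)

/-- `s` is a two-sided limit point of `D` -/
def TwoSided (D : Set ℝ) (s : ℝ) : Prop :=
  (∀ a, a < s → ∃ p ∈ D, a < p ∧ p < s) ∧ ∀ b, s < b → ∃ q ∈ D, s < q ∧ q < b

lemma twoSided_of_dense {D : Set ℝ} {A B s : ℝ}
    (hD : ∀ x y, A < x → x < y → y < B → ∃ p ∈ D, x < p ∧ p < y) (h1 : A < s) (h2 : s < B) :
    TwoSided D s := by
  constructor
  · intro a ha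
    obtain ⟨c, hc1, hc2⟩ := exists_between (max_lt h1 ha)
    obtain ⟨p, hp, hp1, hp2⟩ := hD c s ((le_max_left _ _).trans_lt hc1) hc2 h2
    exact ⟨p, hp, (le_max_right _ _).trans_lt (hc1.trans hp1), hp2⟩
  · intro b hb
    obtain ⟨c, hc1, hc2⟩ := exists_between (lt_min h2 hb)
    obtain ⟨p, hp, hp1, hp2⟩ := hD s c h1 hc1 (hc2.trans_le (min_le_left _ _))
    exact ⟨p, hp, hp1, (hp2.trans hc2).trans_le (min_le_right _ _)⟩

/-- **(C3)** a sandwiched function has the slope of its label -/
theorem Sand.hasSlope {D : Set ℝ} {f : ℝ → ℤ → ℝ} {s : ℝ} {h : ℤ → ℝ} {θ : ℝ → ℝ}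
    (H : Sand D f s h) (hD : TwoSided D s) (hθ : ContinuousAt θ s)
    (hf : ∀ p ∈ D, HasSlope (f p) (θ p)) : HasSlope h (θ s) := by
  refine hasSlope_of_squeeze ?_ ?_
  · intro a ha
    have := hθ.eventually_lt_const ha
    obtain ⟨δ, hδ, hball⟩ := Metric.eventually_nhds_iff.1 this
    obtain ⟨p, hp, hp1, hp2⟩ := hD.1 (s - δ) (by linarith)
    refine ⟨f p, θ p, hball ?_, hf p hp, H.le p hp hp2⟩
    rw [Real.dist_eq, abs_lt]
    constructor <;> linarith
  · intro a ha
    have := hθ.eventually_const_lt ha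
    obtain ⟨δ, hδ, hball⟩ := Metric.eventually_nhds_iff.1 this
    obtain ⟨q, hq, hq1, hq2⟩ := hD.2 (s + δ) (by linarith)
    refine ⟨f q, θ q, hball ?_, hf q hq, H.ge q hq hq1⟩
    rw [Real.dist_eq, abs_lt]
    constructor <;> linarith

/-- **(C4)** if `h + V + k` is bounded below and `V` is bounded along sequences tending to
`+∞` and `-∞`, the slopes of `h` and `k` are opposite. -/
theorem HasSlope.add_eq_zero {h k V : ℤ → ℝ} {c d m M : ℝ} (H : HasSlope h c) (K : HasSlope k d)
    (hF : ∀ x, m ≤ h x + V x + k x) (h1 : ∃ᶠ x in atTop, V x ≤ M) (h2 : ∃ᶠ x in atBot, V x ≤ M) :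
    c + d = 0 := by
  have hsum : HasSlope (fun x => h x + k x + (M - m)) (c + d) := by
    have : HasSlope (fun x => h x + k x) (c + d) := by
      constructor
      · simpa [add_div] using H.top.add K.top
      · simpa [add_div] using H.bot.add K.bot
    exact this.add_const _
  apply le_antisymm
  · by_contra hcon
    push Not at hcon
    have e1 := hsum.bot.eventually_const_lt hcon
    obtain ⟨x, hV, hx, hx0⟩ := (h2.and_eventually (e1.and (eventually_lt_atBot 0))).exists
    have hx0' : (x : ℝ) < 0 := by exact_mod_cast hx0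
    have h3 := hF x
    rw [lt_div_iff_of_neg hx0'] at hx
    linarith
  · by_contra hcon
    push Not at hcon
    have e1 := hsum.top.eventually_lt_const hcon
    obtain ⟨x, hV, hx, hx0⟩ := (h1.and_eventually (e1.and (eventually_gt_atTop 0))).exists
    have hx0' : (0 : ℝ) < x := by exact_mod_cast hx0
    have h3 := hF x
    rw [div_lt_iff₀ hx0'] at hx
    linarith

/-! ### order (C5) -/

/-- functions with different labels: the difference is monotone -/
theorem Sand.inc_le {D : Set ℝ} {f : ℝ → ℤ → ℝ} {s s' : ℝ} {h h' : ℤ → ℝ}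
    (H : Sand D f s h) (H' : Sand D f s' h') {p : ℝ} (hp : p ∈ D) (h1 : s < p) (h2 : p < s')
    (x : ℤ) : inc h' x ≤ inc h x :=
  (H'.le p hp h2 x).trans (H.ge p hp h1 x)



end Crest.Agent.R151.H
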