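import Mathlib
import Crest.Agent.R151.H617b
import Crest.Agent.R151.A565a

-- ▼ part R151/H617d
section

/-!
# R151/H617d — block (C): environment form, total order of the labels, CLASS (owner helper617)
-/

set_option autoImplicit false

open MeasureTheory ProbabilityTheory Filter Set
open scoped ENNReal Topology
open Crest.ProbabilityR.FirstPassage

namespace Crest.Agent.R151.H

/-! ### total order of labels -/

/-- label order: upper increments decrease, lower increments increase -/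
def LabLe (a b : (ℤ → ℝ) × (ℤ → ℝ)) : Prop :=
  (∀ x, inc b.1 x ≤ inc a.1 x) ∧ ∀ x, inc a.2 x ≤ inc b.2 x

lemma LabLe.refl (a : (ℤ → ℝ) × (ℤ → ℝ)) : LabLe a a := ⟨fun _ => le_rfl, fun _ => le_rfl⟩

lemma LabLe.trans {a b c : (ℤ → ℝ) × (ℤ → ℝ)} (h1 : LabLe a b) (h2 : LabLe b c) : LabLe a c :=
  ⟨fun x => (h2.1 x).trans (h1.1 x), fun x => (h1.2 x).trans (h2.2 x)⟩

/-- increasing convention: `inc (f p) ≤ inc h ≤ inc (f q)` for `p < s < q`. -/
structure SandUp (D : Set ℝ) (f : ℝ → ℤ → ℝ) (s : ℝ) (h : ℤ → ℝ) : Prop where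
  ge : ∀ p ∈ D, p < s → ∀ x, inc (f p) x ≤ inc h x
  le : ∀ q ∈ D, s < q → ∀ x, inc h x ≤ inc (f q) x

lemma SandUp.sandU {D : Set ℝ} {f : ℝ → ℤ → ℝ} {s : ℝ} {h : ℤ → ℝ} (H : SandUp D f s h) :
    SandU D f s h := fun p hp q hq hps hsq x =>
  mem_uIcc.2 (Or.inl ⟨H.ge p hp hps x, H.le q hq hsq x⟩)

lemma SandUp.inc_le {D : Set ℝ} {f : ℝ → ℤ → ℝ} {s s' : ℝ} {h h' : ℤ → ℝ}
    (H : SandUp D f s h) (H' : SandUp D f s' h') {p : ℝ} (hp : p ∈ D) (h1 : s < p) (h2 : p < s')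
    (x : ℤ) : inc h x ≤ inc h' x :=
  (H.le p hp h1 x).trans (H'.ge p hp h2 x)

/-- (C3) in the increasing convention -/
theorem SandUp.hasSlope {D : Set ℝ} {f : ℝ → ℤ → ℝ} {s : ℝ} {h : ℤ → ℝ} {θ : ℝ → ℝ}
    (H : SandUp D f s h) (hD : TwoSided D s) (hθ : ContinuousAt θ s)
    (hf : ∀ p ∈ D, HasSlope (f p) (θ p)) : HasSlope h (θ s) := by
  refine hasSlope_of_squeeze ?_ ?_
  · intro a ha
    have := hθ.eventually_lt_const ha
    obtain ⟨δ, hδ, hball⟩ := Metric.eventually_nhds_iff.1 this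
    obtain ⟨q, hq, hq1, hq2⟩ := hD.2 (s + δ) (by linarith)
    refine ⟨f q, θ q, hball ?_, hf q hq, H.le q hq hq1⟩
    rw [Real.dist_eq, abs_lt]
    constructor <;> linarith
  · intro a ha
    have := hθ.eventually_const_lt ha
    obtain ⟨δ, hδ, hball⟩ := Metric.eventually_nhds_iff.1 this
    obtain ⟨p, hp, hp1, hp2⟩ := hD.1 (s - δ) (by linarith)
    refine ⟨f p, θ p, hball ?_, hf p hp, H.ge p hp hp2⟩
    rw [Real.dist_eq, abs_lt]
    constructor <;> linarith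

/-- two functions with comparable increments -/
def Cmp (h k : ℤ → ℝ) : Prop := (∀ x, inc h x ≤ inc k x) ∨ ∀ x, inc k x ≤ inc h x

lemma Cmp.symm {h k : ℤ → ℝ} (H : Cmp h k) : Cmp k h := Or.symm H

/-- **total order**, upper family decreasing (`Sand`), lower family increasing (`SandUp`) in the
slope parameter.  Only for equal slopes comparability of the functions is used. -/
theorem lab_total {D : Set ℝ} {f g : ℝ → ℤ → ℝ}
    {a b : (ℤ → ℝ) × (ℤ → ℝ)} {s s' : ℝ}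
    (hDs : ∀ x y, min s s' ≤ x → y ≤ max s s' → x < y → ∃ p ∈ D, x < p ∧ p < y)
    (hc : ContAt D f s ∨ ContAt D g s)
    (ha1 : Sand D f s a.1) (ha2 : SandUp D g s a.2)
    (hb1 : Sand D f s' b.1) (hb2 : SandUp D g s' b.2)
    (h1 : s = s' → Cmp a.1 b.1) (h2 : s = s' → Cmp a.2 b.2) :
    LabLe a b ∨ LabLe b a := by
  rcases lt_trichotomy s s' with hss | hss | hss
  · obtain ⟨p, hp, hp1, hp2⟩ := hDs s s' (min_le_left _ _) (le_max_right _ _) hss
    exact Or.inl ⟨fun x => ha1.inc_le hb1 hp hp1 hp2 x, fun x => ha2.inc_le hb2 hp hp1 hp2 x⟩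
  · subst hss
    rcases hc with hc | hc
    · have heq : ∀ x, inc a.1 x = inc b.1 x := fun x => ha1.sandU.inc_eq hc hb1.sandU x
      rcases h2 rfl with h | h
      · exact Or.inl ⟨fun x => (heq x).ge, h⟩
      · exact Or.inr ⟨fun x => (heq x).le, h⟩
    · have heq : ∀ x, inc a.2 x = inc b.2 x := fun x => ha2.sandU.inc_eq hc hb2.sandU x
      rcases h1 rfl with h | h
      · exact Or.inr ⟨h, fun x => (heq x).ge⟩
      · exact Or.inl ⟨h, fun x => (heq x).le⟩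
  · obtain ⟨p, hp, hp1, hp2⟩ := hDs s' s (min_le_right _ _) (le_max_left _ _) hss
    exact Or.inr ⟨fun x => hb1.inc_le ha1 hp hp1 hp2 x, fun x => hb2.inc_le ha2 hp hp1 hp2 x⟩


/-! ### CLASS: few representatives -/

/-- the mass of a label on the window `[lo, hi]` -/
def mass (lo hi : ℤ) (a : (ℤ → ℝ) × (ℤ → ℝ)) : ℝ := (a.1 hi - a.1 lo) - (a.2 hi - a.2 lo)

lemma LabLe.osc_le {a b : (ℤ → ℝ) × (ℤ → ℝ)} (h : LabLe a b) {lo hi x y : ℤ}
    (hx1 : lo ≤ x) (hx2 : x ≤ hi) (hy1 : lo ≤ y) (hy2 : y ≤ hi) :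
    |(a.1 x - b.1 x) - (a.1 y - b.1 y)| ≤ mass lo hi a - mass lo hi b ∧
      |(a.2 x - b.2 x) - (a.2 y - b.2 y)| ≤ mass lo hi a - mass lo hi b := by
  have m1 : Monotone fun z => a.1 z - b.1 z :=
    monotone_of_inc_nonneg fun x => by rw [inc_sub]; linarith [h.1 x]
  have m2 : Monotone fun z => b.2 z - a.2 z :=
    monotone_of_inc_nonneg fun x => by rw [inc_sub]; linarith [h.2 x]
  have a1 := m1 hx1
  have a2 := m1 hx2
  have a3 := m1 hy1
  have a4 := m1 hy2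
  have b1 := m2 hx1
  have b2 := m2 hx2
  have b3 := m2 hy1
  have b4 := m2 hy2
  simp only at a1 a2 a3 a4 b1 b2 b3 b4
  unfold mass
  constructor <;> rw [abs_le] <;> constructor <;> linarith


/-- **CLASS**, deterministic part: a totally preordered set of labels whose variation on the window
is at most `M` has at most `2 M / κ + 2` representatives up to oscillation `κ`. -/
theorem exists_rep {L : Set ((ℤ → ℝ) × (ℤ → ℝ))}
    (htot : ∀ a ∈ L, ∀ b ∈ L, LabLe a b ∨ LabLe b a) (lo hi : ℤ) {M κ : ℝ} (hM0 : 0 ≤ M)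
    (hκ : 0 < κ) (hM : ∀ a ∈ L, |a.1 hi - a.1 lo| + |a.2 hi - a.2 lo| ≤ M) :
    ∃ Rep : Finset ((ℤ → ℝ) × (ℤ → ℝ)), (∀ b ∈ Rep, b ∈ L) ∧ (Rep.card : ℝ) ≤ 2 * M / κ + 2 ∧
      ∀ a ∈ L, ∃ b ∈ Rep, ∀ x y, lo ≤ x → x ≤ hi → lo ≤ y → y ≤ hi →
        |(a.1 x - b.1 x) - (a.1 y - b.1 y)| ≤ κ ∧ |(a.2 x - b.2 x) - (a.2 y - b.2 y)| ≤ κ := by
  classical
  set I : Finset ℤ := Finset.Icc ⌊-M / κ⌋ ⌊M / κ⌋ with hI
  have hex : ∀ i : ℤ, (∃ a ∈ L, ⌊mass lo hi a / κ⌋ = i) ∨ ¬ ∃ a ∈ L, ⌊mass lo hi a / κ⌋ = i :=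
    fun i => em _
  let r : ℤ → (ℤ → ℝ) × (ℤ → ℝ) := fun i =>
    if h : ∃ a ∈ L, ⌊mass lo hi a / κ⌋ = i then h.choose else default
  have hr : ∀ i, (∃ a ∈ L, ⌊mass lo hi a / κ⌋ = i) → r i ∈ L ∧ ⌊mass lo hi (r i) / κ⌋ = i := by
    intro i h
    have : r i = h.choose := dif_pos h
    rw [this]
    exact h.choose_spec
  refine ⟨(I.filter fun i => ∃ a ∈ L, ⌊mass lo hi a / κ⌋ = i).image r, ?_, ?_, ?_⟩
  · intro b hb
    rw [Finset.mem_image] at hb
    obtain ⟨i, hi', rfl⟩ := hb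
    rw [Finset.mem_filter] at hi'
    exact (hr i hi'.2).1
  · have h1 : (((I.filter fun i => ∃ a ∈ L, ⌊mass lo hi a / κ⌋ = i).image r).card : ℝ) ≤
        (I.card : ℝ) := by
      exact_mod_cast Finset.card_image_le.trans (Finset.card_filter_le _ _)
    refine h1.trans ?_
    rw [hI, Int.card_Icc]
    have h2 : ⌊-M / κ⌋ ≤ ⌊M / κ⌋ := Int.floor_le_floor (by gcongr; linarith)
    have h3 : (((⌊M / κ⌋ + 1 - ⌊-M / κ⌋).toNat : ℤ) : ℝ) = (⌊M / κ⌋ + 1 - ⌊-M / κ⌋ : ℤ) := by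
      rw [Int.toNat_of_nonneg (by omega)]
    have h4 : ((⌊M / κ⌋ + 1 - ⌊-M / κ⌋).toNat : ℝ) = (⌊M / κ⌋ : ℝ) + 1 - (⌊-M / κ⌋ : ℝ) := by
      have := h3
      push_cast at this
      exact_mod_cast this
    rw [h4]
    have h5 := Int.floor_le (M / κ)
    have h6 := Int.lt_floor_add_one (-M / κ)
    rw [neg_div] at h6
    have h7 : (⌊-M / κ⌋ : ℝ) = (⌊-(M / κ)⌋ : ℝ) := by rw [neg_div]
    rw [h7]
    have h8 : 2 * M / κ = 2 * (M / κ) := by ring
    rw [h8]
    linarith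
  · intro a haL
    have hm : |mass lo hi a| ≤ M := by
      unfold mass
      exact (abs_sub _ _).trans (hM a haL)
    rw [abs_le] at hm
    have hfa : ∃ a' ∈ L, ⌊mass lo hi a' / κ⌋ = ⌊mass lo hi a / κ⌋ := ⟨a, haL, rfl⟩
    obtain ⟨hrL, hrf⟩ := hr _ hfa
    refine ⟨r ⌊mass lo hi a / κ⌋, ?_, ?_⟩
    · rw [Finset.mem_image]
      refine ⟨_, ?_, rfl⟩
      rw [Finset.mem_filter, hI, Finset.mem_Icc]
      exact ⟨⟨Int.floor_le_floor (by gcongr; exact hm.1), Int.floor_le_floor (by gcongr; exact hm.2)⟩, hfa⟩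
    · set b := r ⌊mass lo hi a / κ⌋ with hb
      intro x y hx1 hx2 hy1 hy2
      have hlt := Int.abs_sub_lt_one_of_floor_eq_floor hrf
      have hlt' : |mass lo hi b - mass lo hi a| < κ := by
        have : mass lo hi b / κ - mass lo hi a / κ = (mass lo hi b - mass lo hi a) / κ := by ring
        rw [this, abs_div, abs_of_pos hκ, div_lt_one hκ] at hlt
        exact hlt
      rw [abs_lt] at hlt'
      rcases htot a haL b hrL with h | h
      · obtain ⟨o1, o2⟩ := h.osc_le hx1 hx2 hy1 hy2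
        exact ⟨by linarith, by linarith⟩
      · obtain ⟨o1, o2⟩ := h.osc_le hx1 hx2 hy1 hy2
        rw [← abs_neg] at o1 o2
        have e1 : -((b.1 x - a.1 x) - (b.1 y - a.1 y)) = (a.1 x - b.1 x) - (a.1 y - b.1 y) := by
          ring
        have e2 : -((b.2 x - a.2 x) - (b.2 y - a.2 y)) = (a.2 x - b.2 x) - (a.2 y - b.2 y) := by
          ring
        rw [e1] at o1
        rw [e2] at o2
        exact ⟨by linarith, by linarith⟩

end Crest.Agent.R151.H
end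

-- ▼ part R151/H617e

/-!
# R151/H617e — block (C): mean form of the hypotheses, environment form, CLASS in mean
(owner helper617)
-/

set_option autoImplicit false

open MeasureTheory ProbabilityTheory Filter Set
open scoped ENNReal Topology
open Crest.ProbabilityR.FirstPassage

namespace Crest.Agent.R151.H

variable {Ω : Type*} [MeasurableSpace Ω] {P : Measure Ω}

/-- ordered integrable increments: `E |inc F - inc G|` is the difference of the means -/
lemma lintegral_inc_of_le {F G : Ω → ℤ → ℝ} {x : ℤ}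
    (hF : Integrable (fun ω => inc (F ω) x) P) (hG : Integrable (fun ω => inc (G ω) x) P)
    (hle : ∀ᵐ ω ∂P, inc (G ω) x ≤ inc (F ω) x) :
    ∫⁻ ω, ENNReal.ofReal |inc (F ω) x - inc (G ω) x| ∂P =
      ENNReal.ofReal (∫ ω, inc (F ω) x ∂P - ∫ ω, inc (G ω) x ∂P) := by
  have hFG : Integrable (fun ω => inc (F ω) x - inc (G ω) x) P := hF.sub hG
  have h0 : 0 ≤ᵐ[P] fun ω => inc (F ω) x - inc (G ω) x := by
    filter_upwards [hle] with ω hω
    simp only [Pi.zero_apply]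
    linarith
  rw [← integral_sub hF hG, ofReal_integral_eq_lintegral_ofReal hFG h0]
  refine lintegral_congr_ae ?_
  filter_upwards [hle] with ω hω
  rw [abs_of_nonneg (by linarith)]

/-- hypotheses on a monotone family of labels with affine means; `σ = -1` decreasing
(`E inc f_p = c - p`), `σ = 1` increasing (`E inc f_p = c + p`). -/
structure MeanFam (P : Measure Ω) (D : Set ℝ) (f : ℝ → Ω → ℤ → ℝ) (c σ : ℝ) : Prop where
  sign : σ = 1 ∨ σ = -1
  meas : ∀ p ∈ D, ∀ x, Measurable fun ω => f p ω x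
  int : ∀ p ∈ D, ∀ x, Integrable (fun ω => inc (f p ω) x) P
  mean : ∀ p ∈ D, ∀ x, ∫ ω, inc (f p ω) x ∂P = c + σ * p
  mono : ∀ p ∈ D, ∀ q ∈ D, p < q → ∀ᵐ ω ∂P, ∀ x, σ * inc (f p ω) x ≤ σ * inc (f q ω) x

lemma MeanFam.lintegral_le {D : Set ℝ} {f : ℝ → Ω → ℤ → ℝ} {c σ : ℝ}
    (H : MeanFam P D f c σ) : ∀ p ∈ D, ∀ q ∈ D, p ≤ q → ∀ x,
      ∫⁻ ω, ENNReal.ofReal |inc (f p ω) x - inc (f q ω) x| ∂P ≤
        ENNReal.ofReal (1 * (q - p)) := by
  intro p hp q hq hpq x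
  rcases hpq.eq_or_lt with rfl | hlt
  · simp
  rcases H.sign with hσ | hσ
  · have h1 : ∀ ω, |inc (f p ω) x - inc (f q ω) x| = |inc (f q ω) x - inc (f p ω) x| :=
      fun ω => abs_sub_comm _ _
    simp_rw [h1]
    rw [lintegral_inc_of_le (H.int q hq x) (H.int p hp x), H.mean p hp, H.mean q hq, hσ]
    · refine ENNReal.ofReal_le_ofReal ?_
      linarith
    · filter_upwards [H.mono p hp q hq hlt] with ω hω
      have := hω x
      rw [hσ] at this
      linarith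
  · rw [lintegral_inc_of_le (H.int p hp x) (H.int q hq x), H.mean p hp, H.mean q hq, hσ]
    · refine ENNReal.ofReal_le_ofReal ?_
      linarith
    · filter_upwards [H.mono p hp q hq hlt] with ω hω
      have := hω x
      rw [hσ] at this
      linarith

/-- `tv` of functions that depend on the edges in `S` -/
lemma dependsOn_tv {F G : Environment → ℤ → ℝ} {S : Set (Sym2 (ℤ × ℤ))}
    (hF : ∀ x, DependsOn (fun t => inc (F t) x) S) (hG : ∀ x, DependsOn (fun t => inc (G t) x) S)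
    (w : ℕ) : DependsOn (fun t => tv w (F t) (G t)) S := by
  intro t t' h
  simp only [tv]
  refine Finset.sum_congr rfl fun x _ => ?_
  have h1 : inc (F t) x = inc (F t') x := hF x h
  have h2 : inc (G t) x = inc (G t') x := hG x h
  rw [h1, h2]


/-- **(C) CHAIN for the environment**: upper family depending on `S`, lower family on `T`. -/
theorem chain_env (G : Measure ℝ) [IsProbabilityMeasure G] {D : Set ℝ} {A B : ℝ}
    (hD : ∀ x y, A < x → x < y → y < B → ∃ p ∈ D, x < p ∧ p < y)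
    {f g : ℝ → Environment → ℤ → ℝ} {S T : Set (Sym2 (ℤ × ℤ))} (hST : Disjoint S T)
    {c σ c' σ' : ℝ} (hf : MeanFam (iidLaw G) D f c σ) (hg : MeanFam (iidLaw G) D g c' σ')
    (hfS : ∀ p ∈ D, ∀ x, DependsOn (fun t => inc (f p t) x) S)
    (hgT : ∀ p ∈ D, ∀ x, DependsOn (fun t => inc (g p t) x) T) :
    ∀ᵐ t ∂(iidLaw G), ∀ s, A < s → s < B →
      ContAt D (fun p => f p t) s ∨ ContAt D (fun p => g p t) s :=
  chain_ae (P := iidLaw G) hD hf.meas hg.meas zero_le_one hf.lintegral_le hg.lintegral_le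
    fun p hp q hq w => R151.A.indepFun_of_dependsOn G
      (measurable_tv (hf.meas p hp) (hf.meas q hq) w) (measurable_tv (hg.meas p hp) (hg.meas q hq) w)
      (dependsOn_tv (hfS p hp) (hfS q hq) w) (dependsOn_tv (hgT p hp) (hgT q hq) w) hST


/-! ### CLASS, in mean -/

/-- **CLASS** (input of the local finite energy block): a.s. totally preordered labels with
increments bounded by integrable fields have at most `N t` classes of oscillation `≤ κ` on
`[-h, h]`, with `E N ≤ C₁ (h + 1)`. -/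
theorem class_int [IsProbabilityMeasure P] {L : Ω → Set ((ℤ → ℝ) × (ℤ → ℝ))}
    (htot : ∀ᵐ ω ∂P, ∀ a ∈ L ω, ∀ b ∈ L ω, LabLe a b ∨ LabLe b a)
    {U V : Ω → ℤ → ℝ} (hUm : ∀ x, Measurable fun ω => U ω x) (hVm : ∀ x, Measurable fun ω => V ω x)
    (hUi : ∀ x, Integrable (fun ω => U ω x) P) (hVi : ∀ x, Integrable (fun ω => V ω x) P)
    {C₀ : ℝ} (hUC : ∀ x, ∫ ω, |U ω x| ∂P ≤ C₀) (hVC : ∀ x, ∫ ω, |V ω x| ∂P ≤ C₀)
    (hb : ∀ᵐ ω ∂P, ∀ a ∈ L ω, ∀ x, |inc a.1 x| ≤ U ω x ∧ |inc a.2 x| ≤ V ω x)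
    {κ : ℝ} (hκ : 0 < κ) :
    ∃ C₁ : ℝ, 0 ≤ C₁ ∧ ∀ h : ℕ, ∃ N : Ω → ℝ, Measurable N ∧ (∀ ω, 0 ≤ N ω) ∧ Integrable N P ∧
      ∫ ω, N ω ∂P ≤ C₁ * (h + 1) ∧
      ∀ᵐ ω ∂P, ∃ Rep : Finset ((ℤ → ℝ) × (ℤ → ℝ)), (∀ b ∈ Rep, b ∈ L ω) ∧ (Rep.card : ℝ) ≤ N ω ∧
        ∀ a ∈ L ω, ∃ b ∈ Rep, ∀ x y : ℤ, -(h : ℤ) ≤ x → x ≤ h → -(h : ℤ) ≤ y → y ≤ h →
          |(a.1 x - b.1 x) - (a.1 y - b.1 y)| ≤ κ ∧ |(a.2 x - b.2 x) - (a.2 y - b.2 y)| ≤ κ := by
  have hC0 : 0 ≤ C₀ := (integral_nonneg fun ω => abs_nonneg _).trans (hUC 0)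
  refine ⟨8 * C₀ / κ + 2, by positivity, fun h => ?_⟩
  let M : Ω → ℝ := fun ω => ∑ x ∈ Finset.Ico (-(h : ℤ)) h, (|U ω x| + |V ω x|)
  have hM0 : ∀ ω, 0 ≤ M ω := fun ω => Finset.sum_nonneg fun x _ => by positivity
  have hMm : Measurable M := Finset.measurable_sum _ fun x _ => (hUm x).abs.add (hVm x).abs
  have hUVi : ∀ x, Integrable (fun ω => |U ω x| + |V ω x|) P := fun x =>
    (hUi x).abs.add (hVi x).abs
  have hMi : Integrable M P := integrable_finsetSum _ fun x _ => hUVi x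
  have hMint : ∫ ω, M ω ∂P ≤ 2 * h * (2 * C₀) := by
    simp only [M]
    rw [integral_finsetSum _ fun x _ => hUVi x]
    have h1 : ∀ x ∈ Finset.Ico (-(h : ℤ)) h, ∫ ω, (|U ω x| + |V ω x|) ∂P ≤ 2 * C₀ := by
      intro x _
      rw [integral_add (hUi x).abs (hVi x).abs]
      linarith [hUC x, hVC x]
    refine (Finset.sum_le_sum h1).trans ?_
    rw [Finset.sum_const, Int.card_Ico, nsmul_eq_mul]
    have : (((h : ℤ) - -(h : ℤ)).toNat : ℝ) = 2 * h := by
      have : ((h : ℤ) - -(h : ℤ)).toNat = 2 * h := by omega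
      rw [this]; push_cast; ring
    rw [this]
  refine ⟨fun ω => 2 * M ω / κ + 2, ((hMm.const_mul 2).div_const κ).add_const 2,
    fun ω => by have := hM0 ω; positivity, ((hMi.const_mul 2).div_const κ).add (integrable_const 2),
    ?_, ?_⟩
  · rw [integral_add ((hMi.const_mul 2).div_const κ) (integrable_const 2), integral_div,
      integral_const_mul, integral_const]
    simp only [probReal_univ, smul_eq_mul, one_mul]
    have h1 : 2 * ∫ ω, M ω ∂P ≤ 8 * C₀ * h := by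
      calc 2 * ∫ ω, M ω ∂P ≤ 2 * (2 * h * (2 * C₀)) := by gcongr
        _ = 8 * C₀ * h := by ring
    have hh : (0 : ℝ) ≤ h := Nat.cast_nonneg h
    calc (2 * ∫ ω, M ω ∂P) / κ + 2 ≤ 8 * C₀ * h / κ + 2 := by gcongr
      _ ≤ (8 * C₀ / κ + 2) * (h + 1) := by
        have e1 : (8 * C₀ / κ + 2) * ((h : ℝ) + 1) =
            8 * C₀ * h / κ + 2 + (8 * C₀ / κ + 2 * h) := by ring
        rw [e1]
        have : 0 ≤ 8 * C₀ / κ + 2 * h := by positivity
        linarith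
  · filter_upwards [htot, hb] with ω h1 h2
    have hvar : ∀ a ∈ L ω, |a.1 (h : ℤ) - a.1 (-(h : ℤ))| + |a.2 (h : ℤ) - a.2 (-(h : ℤ))| ≤
        M ω := by
      intro a ha
      have key : ∀ k : ℤ → ℝ, ∀ W : ℤ → ℝ, (∀ x, |inc k x| ≤ |W x|) →
          |k (h : ℤ) - k (-(h : ℤ))| ≤ ∑ x ∈ Finset.Ico (-(h : ℤ)) h, |W x| := by
        intro k W hW
        have e := sum_inc k (-(h : ℤ)) (2 * h)
        have e' : (-(h : ℤ) + ((2 * h : ℕ) : ℤ)) = h := by push_cast; ring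
        rw [e'] at e
        rw [← e]
        refine (Finset.abs_sum_le_sum_abs _ _).trans ?_
        have : ∑ i ∈ Finset.range (2 * h), |inc k (-(h : ℤ) + i)| =
            ∑ x ∈ Finset.Ico (-(h : ℤ)) h, |inc k x| := by
          refine Finset.sum_bij (fun i _ => -(h : ℤ) + i) ?_ ?_ ?_ ?_
          · intro i hi
            rw [Finset.mem_range] at hi
            rw [Finset.mem_Ico]
            omega
          · intro i _ j _ hij
            have : (i : ℤ) = j := by linarith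
            exact_mod_cast this
          · intro x hx
            rw [Finset.mem_Ico] at hx
            exact ⟨(x + h).toNat, by rw [Finset.mem_range]; omega, by omega⟩
          · intro i _; rfl
        rw [this]
        exact Finset.sum_le_sum fun x _ => hW x
      have k1 := key a.1 (U ω) fun x => ((h2 a ha x).1).trans (le_abs_self _)
      have k2 := key a.2 (V ω) fun x => ((h2 a ha x).2).trans (le_abs_self _)
      simp only [M]
      rw [Finset.sum_add_distrib]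
      linarith
    obtain ⟨Rep, r1, r2, r3⟩ := exists_rep h1 (-(h : ℤ)) h (hM0 ω) hκ hvar
    exact ⟨Rep, r1, r2, fun a ha => by
      obtain ⟨b, hb, hbb⟩ := r3 a ha
      exact ⟨b, hb, fun x y hx1 hx2 hy1 hy2 => hbb x y hx1 hx2 hy1 hy2⟩⟩

end Crest.Agent.R151.H
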