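import Mathlib
import Crest.Agent.R151.Y635A

/-!
# R151, Y635B: Lipschitz functions, gradient rays, Busemann functions (deterministic layer)

* `IsLip t H f`: `f x - f y ≤ t s(x, y)` on every edge, i.e. `f x - f y ≤ pt H t x y`.
* `GradStep t H f x y`: the edge `x → y` is a gradient edge: `f x - f y = t s(x, y)`.
* `Grad t H f x y`: `y` is reached from `x` along the gradient: `f x - f y = pt H t x y`.
* `IsGrad t H f v`: gradient ray; it is a geodesic ray (`IsGrad.isRay`).
* `HasGrad t H f S`: every vertex of `S` has a gradient edge inside `S`.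
* limits along filters.
* `bus t H v`: the Busemann function of a ray.
* `distTo t H L c`: distance to a set with boundary values.
-/

set_option autoImplicit false

open Crest.ProbabilityR.FirstPassage
open scoped Classical
open Filter Topology

namespace Crest.Agent.R151.Y

open Crest.Agent.R151

variable {V : Type*} {H : SimpleGraph V} {t : Sym2 V → ℝ} {f : V → ℝ} {x y z : V}

section lip

/-- `f` is `1`-Lipschitz for the passage times of `H`. -/
def IsLip (t : Sym2 V → ℝ) (H : SimpleGraph V) (f : V → ℝ) : Prop :=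
  ∀ x y, H.Adj x y → f x - f y ≤ t s(x, y)

theorem IsLip.sub_le_wcost (h : IsLip t H f) (w : H.Walk x y) : f x - f y ≤ wcost t w := by
  induction w with
  | nil => simp
  | cons hab p ih =>
    rw [wcost_cons]
    have := h _ _ hab
    linarith

theorem IsLip.sub_le_pt (h : IsLip t H f) (hxy : H.Reachable x y) : f x - f y ≤ pt H t x y :=
  le_pt hxy fun w => h.sub_le_wcost w

theorem IsLip.abs_sub_le_pt (h : IsLip t H f) (hxy : H.Reachable x y) :
    |f x - f y| ≤ pt H t x y := by
  rw [abs_sub_le_iff]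
  refine ⟨h.sub_le_pt hxy, ?_⟩
  rw [pt_comm]
  exact h.sub_le_pt hxy.symm


theorem IsLip.add_const (h : IsLip t H f) (c : ℝ) : IsLip t H fun x => f x + c := by
  intro x y hxy
  have := h x y hxy
  linarith

theorem IsLip.mono {H' : SimpleGraph V} (h : IsLip t H f) (hH : H' ≤ H) : IsLip t H' f :=
  fun x y hxy => h x y (hH hxy)

theorem IsLip.congr {t' : Sym2 V → ℝ} (h : IsLip t H f) (htt : ∀ e ∈ H.edgeSet, t e = t' e) :
    IsLip t' H f := by
  intro x y hxy
  rw [← htt _ hxy]
  exact h x y hxy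

theorem IsLip.min {g : V → ℝ} (h : IsLip t H f) (h' : IsLip t H g) :
    IsLip t H fun x => Min.min (f x) (g x) := by
  intro x y hxy
  have h1 := h x y hxy
  have h2 := h' x y hxy
  simp only
  rcases min_choice (f y) (g y) with h3 | h3 <;> rw [h3]
  · have := min_le_left (f x) (g x)
    linarith
  · have := min_le_right (f x) (g x)
    linarith

theorem IsLip.max {g : V → ℝ} (h : IsLip t H f) (h' : IsLip t H g) :
    IsLip t H fun x => Max.max (f x) (g x) := by
  intro x y hxy
  have h1 := h x y hxy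
  have h2 := h' x y hxy
  simp only
  rcases max_choice (f x) (g x) with h3 | h3 <;> rw [h3]
  · have := le_max_left (f y) (g y)
    linarith
  · have := le_max_right (f y) (g y)
    linarith


end lip

section grad

/-- gradient edge -/
def GradStep (t : Sym2 V → ℝ) (H : SimpleGraph V) (f : V → ℝ) (x y : V) : Prop :=
  H.Adj x y ∧ f x - f y = t s(x, y)

/-- `y` is reached from `x` along the gradient of `f`. -/
def Grad (t : Sym2 V → ℝ) (H : SimpleGraph V) (f : V → ℝ) (x y : V) : Prop :=
  H.Reachable x y ∧ f x - f y = pt H t x y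

theorem Grad.refl (ht : ∀ e, 0 ≤ t e) (x : V) : Grad t H f x x :=
  ⟨SimpleGraph.Reachable.refl _, by rw [pt_self ht, sub_self]⟩

theorem Grad.trans (ht : ∀ e, 0 ≤ t e) (hf : IsLip t H f) (h : Grad t H f x y)
    (h' : Grad t H f y z) : Grad t H f x z := by
  refine ⟨h.1.trans h'.1, le_antisymm (hf.sub_le_pt (h.1.trans h'.1)) ?_⟩
  have := pt_triangle ht h.1 h'.1
  rw [← h.2, ← h'.2] at this
  linarith

/-- passage times add along the gradient -/
theorem Grad.pt_add (ht : ∀ e, 0 ≤ t e) (hf : IsLip t H f) (h : Grad t H f x y)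
    (h' : Grad t H f y z) : pt H t x y + pt H t y z = pt H t x z := by
  rw [← h.2, ← h'.2, ← (h.trans ht hf h').2]
  ring

theorem GradStep.grad (ht : ∀ e, 0 ≤ t e) (hf : IsLip t H f) (h : GradStep t H f x y) :
    Grad t H f x y := by
  refine ⟨h.1.reachable, le_antisymm (hf.sub_le_pt h.1.reachable) ?_⟩
  rw [h.2]
  exact pt_le_of_adj ht h.1





/-- gradient ray -/
def IsGrad (t : Sym2 V → ℝ) (H : SimpleGraph V) (f : V → ℝ) (v : ℕ → V) : Prop :=
  ∀ k, GradStep t H f (v k) (v (k + 1))

theorem IsGrad.sum_eq {v : ℕ → V} (h : IsGrad t H f v) {i j : ℕ} (hij : i ≤ j) :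
    ∑ k ∈ Finset.Ico i j, t s(v k, v (k + 1)) = f (v i) - f (v j) := by
  induction j, hij using Nat.le_induction with
  | base => simp
  | succ j hj ih =>
    rw [Finset.sum_Ico_succ_top hj, ih, ← (h j).2]
    ring

theorem IsGrad.isRay {v : ℕ → V} (h : IsGrad t H f v) (ht : ∀ e, 0 ≤ t e)
    (hf : IsLip t H f) : IsRay t H v := by
  have hadj : ∀ k, H.Adj (v k) (v (k + 1)) := fun k => (h k).1
  refine ⟨hadj, fun i j hij => ?_⟩
  rw [h.sum_eq hij]
  obtain ⟨d, rfl⟩ := Nat.exists_eq_add_of_le hij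
  refine le_antisymm (hf.sub_le_pt (seqWalk v hadj i d).reachable) ?_
  have h1 := pt_le_wcost ht (seqWalk v hadj i d)
  have h2 := wcost_seqWalk_Ico (v := v) (hv := hadj) t hij
  rw [Nat.add_sub_cancel_left] at h2
  rwa [h2, h.sum_eq hij] at h1

theorem IsGrad.grad {v : ℕ → V} (h : IsGrad t H f v) (ht : ∀ e, 0 ≤ t e)
    (hf : IsLip t H f) {i j : ℕ} (hij : i ≤ j) : Grad t H f (v i) (v j) :=
  ⟨(h.isRay ht hf).reachable, by rw [← (h.isRay ht hf).geo i j hij, h.sum_eq hij]⟩


theorem IsGrad.tail {v : ℕ → V} (h : IsGrad t H f v) (n : ℕ) :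
    IsGrad t H f fun k => v (n + k) := fun k => h (n + k)

/-- every vertex of `S` has a gradient edge inside `S` -/
def HasGrad (t : Sym2 V → ℝ) (H : SimpleGraph V) (f : V → ℝ) (S : Set V) : Prop :=
  ∀ x ∈ S, ∃ y ∈ S, GradStep t H f x y


end grad

section limits

variable {ι : Type*} {l : Filter ι} {F : ι → V → ℝ}

theorem IsLip.lim [l.NeBot] {S : Set V} (hS : ∀ x y, H.Adj x y → x ∈ S ∧ y ∈ S)
    (hl : ∀ x ∈ S, Tendsto (fun i => F i x) l (𝓝 (f x)))
    (h : ∀ᶠ i in l, IsLip t H (F i)) : IsLip t H f := by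
  intro x y hxy
  have h1 := (hl x (hS x y hxy).1).sub (hl y (hS x y hxy).2)
  exact le_of_tendsto h1 (h.mono fun i hi => hi x y hxy)

/-- gradient edges pass to the limit -/
theorem GradStep.lim [l.NeBot] (hx : Tendsto (fun i => F i x) l (𝓝 (f x)))
    (hy : Tendsto (fun i => F i y) l (𝓝 (f y))) (h : ∃ᶠ i in l, GradStep t H (F i) x y) :
    GradStep t H f x y := by
  obtain ⟨i, hi⟩ := h.exists
  refine ⟨hi.1, ?_⟩
  have h1 := hx.sub hy
  have h2 := isClosed_singleton (x := t s(x, y)) |>.mem_of_frequently_of_tendsto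
    (h.mono fun i hi => (show F i x - F i y ∈ ({t s(x, y)} : Set ℝ) from hi.2)) h1
  exact h2

/-- By local finiteness, having a gradient edge passes to the limit. -/
theorem HasGrad.lim [H.LocallyFinite] [l.NeBot] {S : Set V}
    (hl : ∀ x ∈ S, Tendsto (fun i => F i x) l (𝓝 (f x)))
    (h : ∀ x ∈ S, ∀ᶠ i in l, ∃ y ∈ S, GradStep t H (F i) x y) : HasGrad t H f S := by
  intro x hx
  have h1 : ∃ᶠ i in l, ∃ y ∈ H.neighborFinset x, y ∈ S ∧ GradStep t H (F i) x y := by
    refine (h x hx).frequently.mono fun i hi => ?_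
    obtain ⟨y, hy, hg⟩ := hi
    exact ⟨y, by simpa using hg.1, hy, hg⟩
  have h2 : ∃ y ∈ H.neighborFinset x, ∃ᶠ i in l, y ∈ S ∧ GradStep t H (F i) x y := by
    by_contra hcon
    have hcon : ∀ y ∈ H.neighborFinset x, ¬ ∃ᶠ i in l, y ∈ S ∧ GradStep t H (F i) x y :=
      fun y hy h => hcon ⟨y, hy, h⟩
    have h3 : ∀ᶠ i in l, ∀ y ∈ H.neighborFinset x, ¬ (y ∈ S ∧ GradStep t H (F i) x y) := by
      rw [Filter.eventually_all_finset]
      intro y hy
      exact not_frequently.1 (hcon y hy)
    obtain ⟨i, ⟨y, hy, hyi⟩, hi⟩ := (h1.and_eventually h3).exists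
    exact hi y hy hyi
  obtain ⟨y, -, hy⟩ := h2
  obtain ⟨i, hi⟩ := hy.exists
  exact ⟨y, hi.1, GradStep.lim (hl x hx) (hl y hi.1) (hy.mono fun i hi => hi.2)⟩


end limits

section busemann

variable {v : ℕ → V}

/-- The Busemann function of the ray `v`, normalised to vanish at `v 0`. -/
noncomputable def bus (t : Sym2 V → ℝ) (H : SimpleGraph V) (v : ℕ → V) (x : V) : ℝ :=
  ⨅ n, (pt H t x (v n) - pt H t (v 0) (v n))

theorem bus_antitone (ht : ∀ e, 0 ≤ t e) (hv : IsRay t H v) (x : V) :
    Antitone fun n => pt H t x (v n) - pt H t (v 0) (v n) := by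
  intro m n hmn
  have h1 := hv.pt_add (Nat.zero_le m) hmn
  simp only
  by_cases hx : H.Reachable x (v m)
  · have h2 := pt_triangle ht hx (hv.reachable (i := m) (j := n))
    linarith
  · have hx' : ¬ H.Reachable x (v n) := fun h => hx (h.trans hv.reachable)
    have h3 := pt_nonneg ht (H := H) (x := v m) (y := v n)
    rw [pt_eq_zero_of_not_reachable hx, pt_eq_zero_of_not_reachable hx']
    linarith

theorem bus_bddBelow (ht : ∀ e, 0 ≤ t e) (hv : IsRay t H v) (hx : H.Reachable x (v 0)) :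
    BddBelow (Set.range fun n => pt H t x (v n) - pt H t (v 0) (v n)) := by
  refine ⟨-pt H t x (v 0), ?_⟩
  rintro _ ⟨n, rfl⟩
  have h2 := pt_triangle ht hx.symm (hx.trans (hv.reachable (i := 0) (j := n)))
  rw [pt_comm H t (v 0) x] at h2
  simp only
  linarith

theorem tendsto_bus (ht : ∀ e, 0 ≤ t e) (hv : IsRay t H v) (hx : H.Reachable x (v 0)) :
    Tendsto (fun n => pt H t x (v n) - pt H t (v 0) (v n)) atTop (𝓝 (bus t H v x)) :=
  tendsto_atTop_ciInf (bus_antitone ht hv x) (bus_bddBelow ht hv hx)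

theorem bus_le (ht : ∀ e, 0 ≤ t e) (hv : IsRay t H v) (hx : H.Reachable x (v 0)) (n : ℕ) :
    bus t H v x ≤ pt H t x (v n) - pt H t (v 0) (v n) :=
  ciInf_le (bus_bddBelow ht hv hx) n

theorem bus_sub_le_pt (ht : ∀ e, 0 ≤ t e) (hv : IsRay t H v) (hx : H.Reachable x (v 0))
    (hxy : H.Reachable x y) : bus t H v x - bus t H v y ≤ pt H t x y := by
  have h1 := (tendsto_bus ht hv hx).sub (tendsto_bus ht hv (hxy.symm.trans hx))
  refine le_of_tendsto' h1 fun n => ?_
  have := pt_triangle ht hxy ((hxy.symm.trans hx).trans (hv.reachable (i := 0) (j := n)))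
  linarith

theorem isLip_bus (ht : ∀ e, 0 ≤ t e) (hv : IsRay t H v) : IsLip t H (bus t H v) := by
  intro x y hxy
  by_cases hx : H.Reachable x (v 0)
  · exact (bus_sub_le_pt ht hv hx hxy.reachable).trans (pt_le_of_adj ht hxy)
  · have hx' : ∀ n, ¬ H.Reachable x (v n) := fun n h => hx (h.trans hv.reachable)
    have hy' : ∀ n, ¬ H.Reachable y (v n) := fun n h => hx' n (hxy.reachable.trans h)
    have : bus t H v x = bus t H v y := by
      unfold bus
      simp only [pt_eq_zero_of_not_reachable (hx' _), pt_eq_zero_of_not_reachable (hy' _)]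
    rw [this, sub_self]
    exact ht _

theorem bus_ray (ht : ∀ e, 0 ≤ t e) (hv : IsRay t H v) (m : ℕ) :
    bus t H v (v m) = -pt H t (v 0) (v m) := by
  refine tendsto_nhds_unique (tendsto_bus ht hv hv.reachable) ?_
  refine tendsto_const_nhds.congr' ?_
  filter_upwards [eventually_ge_atTop m] with n hn
  have := hv.pt_add (Nat.zero_le m) hn
  linarith

@[simp] theorem bus_zero (ht : ∀ e, 0 ≤ t e) (hv : IsRay t H v) : bus t H v (v 0) = 0 := by
  rw [bus_ray ht hv, pt_self ht, neg_zero]



theorem tendsto_bus_sub (ht : ∀ e, 0 ≤ t e) (hv : IsRay t H v) (hx : H.Reachable x (v 0))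
    (hy : H.Reachable y (v 0)) :
    Tendsto (fun n => pt H t x (v n) - pt H t y (v n)) atTop
      (𝓝 (bus t H v x - bus t H v y)) := by
  refine ((tendsto_bus ht hv hx).sub (tendsto_bus ht hv hy)).congr fun n => ?_
  ring

/-- The increments of the Busemann function do not change if we cut off an initial piece. -/
theorem bus_tail_sub (ht : ∀ e, 0 ≤ t e) (hv : IsRay t H v) (hx : H.Reachable x (v 0))
    (hy : H.Reachable y (v 0)) (m : ℕ) :
    bus t H (fun k => v (m + k)) x - bus t H (fun k => v (m + k)) y =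
      bus t H v x - bus t H v y := by
  refine tendsto_nhds_unique (tendsto_bus_sub ht (hv.tail m) (hx.trans hv.reachable)
    (hy.trans hv.reachable)) ?_
  have h1 := (tendsto_bus_sub ht hv hx hy).comp (tendsto_add_atTop_nat m)
  refine h1.congr fun n => ?_
  simp only [Function.comp_apply, add_comm n m]

theorem bus_sub_of_coal (ht : ∀ e, 0 ≤ t e) (hv : IsRay t H v) {w : ℕ → V} (hw : IsRay t H w)
    (hvw : Coal v w) (hx : H.Reachable x (v 0)) (hy : H.Reachable y (v 0)) :
    bus t H v x - bus t H v y = bus t H w x - bus t H w y := by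
  obtain ⟨i, j, hij⟩ := hvw
  have h0 : H.Reachable (v 0) (w 0) := by
    have := (hv.reachable (i := 0) (j := i + 0))
    rw [hij 0] at this
    exact this.trans hw.reachable
  rw [← bus_tail_sub ht hv hx hy i, ← bus_tail_sub ht hw (hx.trans h0) (hy.trans h0) j]
  have : (fun k => v (i + k)) = fun k => w (j + k) := funext hij
  rw [this]


end busemann

section distTo

variable {L : Set V} {c : V → ℝ}

/-- Distance to the set `L` with boundary values `c`. -/
noncomputable def distTo (t : Sym2 V → ℝ) (H : SimpleGraph V) (L : Set V) (c : V → ℝ)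
    (x : V) : ℝ := ⨅ w : L, (pt H t x w + c w)




end distTo

end Crest.Agent.R151.Y
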