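import Mathlib
import Crest.Prelude.Def_PlanarFPP
import Crest.Agent.R151.A565a
import Crest.Agent.R151.K0
import Crest.Agent.R151.Y635B
import Crest.Agent.R151.F2

-- ▼ part R151/S113A
section

/-!
# R151, SEL (helper113): measurable selection of infinite branches of a finitely branching tree

A *prefix predicate* is `g : ℕ → (ℕ → D) → Prop` where `D` is a finite alphabet, `g n w` only reads
the first `n` letters of `w` (`Cong g`) and `g (n+1) w → g n w` (`Anti g`).
`Live g n w`: the subtree above the first `n` letters of `w` is infinite.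
`sel g : ℕ → D` is the lexicographically first infinite branch.
-/

set_option autoImplicit false

open MeasureTheory

namespace Crest.Agent.R151.SEL

variable {D : Type*}

/-- `g n` only reads the first `n` letters -/
def Cong (g : ℕ → (ℕ → D) → Prop) : Prop :=
  ∀ n w w', (∀ i, i < n → w i = w' i) → g n w → g n w'

/-- prefix closed -/
def Anti (g : ℕ → (ℕ → D) → Prop) : Prop := ∀ n w, g (n + 1) w → g n w

/-- the subtree above the first `n` letters of `w` is infinite -/
def Live (g : ℕ → (ℕ → D) → Prop) (n : ℕ) (w : ℕ → D) : Prop :=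
  ∀ m, n ≤ m → ∃ w', (∀ i, i < n → w' i = w i) ∧ g m w'

theorem Anti.le {g : ℕ → (ℕ → D) → Prop} (h : Anti g) {m n : ℕ} (hmn : m ≤ n) {w : ℕ → D}
    (hw : g n w) : g m w := by
  induction n, hmn using Nat.le_induction with
  | base => exact hw
  | succ n _ ih => exact ih (h n w hw)

theorem Live.congr {g : ℕ → (ℕ → D) → Prop} {n : ℕ} {w w' : ℕ → D}
    (h : ∀ i, i < n → w i = w' i) (hw : Live g n w) : Live g n w' := by
  intro m hm
  obtain ⟨u, hu, hg⟩ := hw m hm
  exact ⟨u, fun i hi => (hu i hi).trans (h i hi), hg⟩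


theorem Live.self {g : ℕ → (ℕ → D) → Prop} (hc : Cong g) {n : ℕ} {w : ℕ → D} (hw : Live g n w) :
    g n w := by
  obtain ⟨u, hu, hg⟩ := hw n le_rfl
  exact hc n u w hu hg

theorem live_of_forall {g : ℕ → (ℕ → D) → Prop} {w : ℕ → D} (h : ∀ n, g n w) (n : ℕ) :
    Live g n w := fun m _ => ⟨w, fun _ _ => rfl, h m⟩

theorem Live.exists_succ [Finite D] {g : ℕ → (ℕ → D) → Prop} (ha : Anti g) {n : ℕ} {w : ℕ → D}
    (hw : Live g n w) : ∃ d, Live g (n + 1) (Function.update w n d) := by
  classical
  by_contra hcon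
  push Not at hcon
  have h1 : ∀ d : D, ∃ m, n + 1 ≤ m ∧ ∀ w', (∀ i, i < n + 1 → w' i = Function.update w n d i) →
      ¬ g m w' := by
    intro d
    have := hcon d
    unfold Live at this
    push Not at this
    exact this
  choose M hM1 hM2 using h1
  cases nonempty_fintype D
  obtain ⟨N, hN⟩ : ∃ N, ∀ d, M d ≤ N := by
    refine ⟨Finset.univ.sup M, fun d => Finset.le_sup (f := M) (Finset.mem_univ d)⟩
  obtain ⟨u, hu, hg⟩ := hw (max n N) (le_max_left _ _)
  refine hM2 (u n) u ?_ (ha.le ((hN (u n)).trans (le_max_right _ _)) hg)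
  intro i hi
  rcases Nat.lt_succ_iff_lt_or_eq.1 hi with h | rfl
  · rw [Function.update_of_ne h.ne, hu i h]
  · rw [Function.update_self]

section pick

variable [Fintype D] [LinearOrder D] [Inhabited D]

/-- the least letter with property `P` -/
noncomputable def pick (P : D → Prop) : D := by
  classical
  exact if h : (Finset.univ.filter P).Nonempty then (Finset.univ.filter P).min' h else default

theorem pick_spec {P : D → Prop} (h : ∃ d, P d) : P (pick P) := by
  classical
  have h' : (Finset.univ.filter P).Nonempty := by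
    obtain ⟨d, hd⟩ := h
    exact ⟨d, by simpa using hd⟩
  unfold pick
  rw [dif_pos (by convert h')]
  have := Finset.min'_mem _ h'
  rw [Finset.mem_filter] at this
  convert this.2

theorem pick_le {P : D → Prop} {d : D} (hd : P d) : pick P ≤ d := by
  classical
  have h' : (Finset.univ.filter P).Nonempty := ⟨d, by simpa using hd⟩
  unfold pick
  rw [dif_pos (by convert h')]
  have := Finset.min'_le (Finset.univ.filter P) d (by simpa using hd)
  convert this


variable [MeasurableSpace D]

theorem measurable_pick {Ω : Type*} [MeasurableSpace Ω] {P : Ω → D → Prop}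
    (h : ∀ d, MeasurableSet {t | P t d}) : Measurable fun t => pick (P t) := by
  classical
  refine measurable_to_countable' fun d => ?_
  have key : (fun t => pick (P t)) ⁻¹' {d} =
      ({t | P t d} ∩ ⋂ d' : {d' : D // d' < d}, {t | P t d'}ᶜ) ∪
        ((⋂ d', {t | P t d'}ᶜ) ∩ {_t | (default : D) = d}) := by
    ext t
    simp only [Set.mem_preimage, Set.mem_singleton_iff, Set.mem_union, Set.mem_inter_iff,
      Set.mem_setOf_eq, Set.mem_iInter, Set.mem_compl_iff, Subtype.forall]
    constructor
    · intro hd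
      by_cases he : ∃ d', P t d'
      · left
        refine ⟨hd ▸ pick_spec he, fun d' hd' hP => ?_⟩
        have := pick_le hP
        rw [hd] at this
        exact absurd hd' (not_lt.2 this)
      · right
        push Not at he
        refine ⟨he, ?_⟩
        rw [← hd]
        unfold pick
        rw [dif_neg]
        rintro ⟨d', hd'⟩
        rw [Finset.mem_filter] at hd'
        exact he d' hd'.2
    · rintro (⟨h1, h2⟩ | ⟨h1, h2⟩)
      · refine le_antisymm (pick_le h1) ?_
        by_contra hlt
        exact h2 _ (not_le.1 hlt) (pick_spec ⟨d, h1⟩)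
      · rw [← h2]
        unfold pick
        rw [dif_neg]
        rintro ⟨d', hd'⟩
        rw [Finset.mem_filter] at hd'
        exact h1 d' hd'.2
  rw [key]
  refine MeasurableSet.union (MeasurableSet.inter (h d) ?_) (MeasurableSet.inter ?_ ?_)
  · exact MeasurableSet.iInter fun d' => (h d').compl
  · exact MeasurableSet.iInter fun d' => (h d').compl
  · exact MeasurableSet.const _

end pick

section sel

variable [Fintype D] [LinearOrder D] [Inhabited D]

/-- the selected prefixes -/
noncomputable def pre (g : ℕ → (ℕ → D) → Prop) : ℕ → (ℕ → D)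
  | 0 => fun _ => default
  | n + 1 => Function.update (pre g n) n
      (pick fun d => Live g (n + 1) (Function.update (pre g n) n d))

/-- the lexicographically first infinite branch -/
noncomputable def sel (g : ℕ → (ℕ → D) → Prop) (n : ℕ) : D := pre g (n + 1) n

theorem pre_eq_sel (g : ℕ → (ℕ → D) → Prop) {n i : ℕ} (hi : i < n) : pre g n i = sel g i := by
  induction n with
  | zero => omega
  | succ n ih =>
    rcases Nat.lt_succ_iff_lt_or_eq.1 hi with h | rfl
    · rw [pre, Function.update_of_ne h.ne, ih h]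
    · rfl


theorem sel_congr {g g' : ℕ → (ℕ → D) → Prop} (h : ∀ n w, g n w ↔ g' n w) : sel g = sel g' := by
  have : g = g' := funext fun n => funext fun w => propext (h n w)
  rw [this]

theorem live_pre {g : ℕ → (ℕ → D) → Prop} (ha : Anti g) {w : ℕ → D} (h : Live g 0 w) (n : ℕ) :
    Live g n (pre g n) := by
  induction n with
  | zero => exact h.congr fun i hi => by omega
  | succ n ih =>
    rw [pre]
    exact pick_spec (P := fun d => Live g (n + 1) (Function.update (pre g n) n d))
      (ih.exists_succ ha)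

theorem live_sel {g : ℕ → (ℕ → D) → Prop} (ha : Anti g) {w : ℕ → D} (h : Live g 0 w) (n : ℕ) :
    Live g n (sel g) :=
  (live_pre ha h n).congr fun _ hi => pre_eq_sel g hi

/-- König + selection: if the tree is infinite then `sel` is an infinite branch. -/
theorem sel_spec {g : ℕ → (ℕ → D) → Prop} (hc : Cong g) (ha : Anti g) {w : ℕ → D}
    (h : Live g 0 w) (n : ℕ) : g n (sel g) := (live_sel ha h n).self hc

theorem sel_spec' {g : ℕ → (ℕ → D) → Prop} (hc : Cong g) (ha : Anti g)
    (h : ∃ w, ∀ n, g n w) (n : ℕ) : g n (sel g) := by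
  obtain ⟨w, hw⟩ := h
  exact sel_spec hc ha (live_of_forall hw 0) n


end sel

theorem exists_branch_iff [Finite D] {g : ℕ → (ℕ → D) → Prop} (hc : Cong g) (ha : Anti g) :
    (∃ w, ∀ n, g n w) ↔ ∀ m, ∃ w, g m w := by
  classical
  constructor
  · rintro ⟨w, hw⟩ m
    exact ⟨w, hw m⟩
  · intro h
    cases nonempty_fintype D
    obtain ⟨w0, -⟩ := h 0
    let e : D ≃ Fin (Fintype.card D) := Fintype.equivFin D
    letI : LinearOrder D := LinearOrder.lift' e e.injective
    haveI : Inhabited D := ⟨w0 0⟩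
    have hl : Live g 0 w0 := fun m _ => by
      obtain ⟨w, hw⟩ := h m
      exact ⟨w, fun i hi => by omega, hw⟩
    exact ⟨sel g, sel_spec hc ha hl⟩

/-! ## measurability -/

section meas

variable {Ω : Type*} [MeasurableSpace Ω]

/-- extension of a finite word -/
def ext [Inhabited D] {m : ℕ} (u : Fin m → D) (i : ℕ) : D := if h : i < m then u ⟨i, h⟩ else default

theorem ext_of_lt [Inhabited D] {m : ℕ} (u : Fin m → D) {i : ℕ} (h : i < m) :
    ext u i = u ⟨i, h⟩ := dif_pos h

theorem ext_restrict [Inhabited D] {m : ℕ} (w : ℕ → D) {i : ℕ} (h : i < m) :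
    ext (fun j : Fin m => w j) i = w i := by
  rw [ext_of_lt _ h]

theorem live_iff [Inhabited D] {g : ℕ → (ℕ → D) → Prop} (hc : Cong g) (n : ℕ) (w : ℕ → D) :
    Live g n w ↔ ∀ m, n ≤ m → ∃ u : Fin m → D, (∀ i, i < n → ext u i = w i) ∧ g m (ext u) := by
  refine forall_congr' fun m => forall_congr' fun hm => ⟨?_, ?_⟩
  · rintro ⟨w', h1, h2⟩
    refine ⟨fun j => w' j, fun i hi => ?_, hc m w' _ (fun i hi => (ext_restrict w' hi).symm) h2⟩
    rw [ext_restrict w' (hi.trans_le hm), h1 i hi]
  · rintro ⟨u, h1, h2⟩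
    exact ⟨ext u, h1, h2⟩

variable {G : Ω → ℕ → (ℕ → D) → Prop}

theorem measurableSet_live [Finite D] (hc : ∀ t, Cong (G t))
    (hm : ∀ n w, MeasurableSet {t | G t n w}) (n : ℕ) (w : ℕ → D) :
    MeasurableSet {t | Live (G t) n w} := by
  classical
  by_cases hD : Nonempty D
  swap
  · exact absurd ⟨w 0⟩ hD
  haveI : Inhabited D := ⟨w 0⟩
  have key : {t | Live (G t) n w} = ⋂ m, ⋂ (_ : n ≤ m), ⋃ u : Fin m → D,
      {_t | ∀ i, i < n → ext u i = w i} ∩ {t | G t m (ext u)} := by
    ext t
    simp only [Set.mem_setOf_eq, Set.mem_iInter, Set.mem_iUnion, Set.mem_inter_iff]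
    exact live_iff (hc t) n w
  rw [key]
  refine MeasurableSet.iInter fun m => MeasurableSet.iInter fun _ => MeasurableSet.iUnion fun u =>
    MeasurableSet.inter (MeasurableSet.const _) (hm m _)

theorem measurableSet_exists_branch [Finite D] (hc : ∀ t, Cong (G t)) (ha : ∀ t, Anti (G t))
    (hm : ∀ n w, MeasurableSet {t | G t n w}) : MeasurableSet {t | ∃ w, ∀ n, G t n w} := by
  classical
  by_cases hD : Nonempty D
  swap
  · have : {t | ∃ w, ∀ n, G t n w} = (∅ : Set Ω) := by
      ext t
      simp only [Set.mem_setOf_eq, Set.mem_empty_iff_false, iff_false, not_exists]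
      intro w
      exact absurd ⟨w 0⟩ hD
    rw [this]
    exact MeasurableSet.empty
  obtain ⟨d⟩ := hD
  have key : {t | ∃ w, ∀ n, G t n w} = {t | Live (G t) 0 fun _ => d} := by
    ext t
    simp only [Set.mem_setOf_eq]
    rw [exists_branch_iff (hc t) (ha t)]
    constructor
    · intro h m _
      obtain ⟨w, hw⟩ := h m
      exact ⟨w, fun i hi => by omega, hw⟩
    · intro h m
      obtain ⟨w, -, hw⟩ := h m (Nat.zero_le m)
      exact ⟨w, hw⟩
  rw [key]
  exact measurableSet_live hc hm 0 _

variable [Fintype D] [LinearOrder D] [Inhabited D] [MeasurableSpace D] [MeasurableSingletonClass D]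

theorem measurable_pre (hc : ∀ t, Cong (G t)) (hm : ∀ n w, MeasurableSet {t | G t n w}) (n : ℕ) :
    Measurable fun t => pre (G t) n := by
  classical
  induction n with
  | zero => exact measurable_const
  | succ n ih =>
    rw [measurable_pi_iff]
    intro i
    by_cases hi : i = n
    swap
    · have : (fun t => pre (G t) (n + 1) i) = fun t => pre (G t) n i := by
        funext t
        rw [pre, Function.update_of_ne hi]
      rw [this]
      exact (measurable_pi_apply i).comp ih
    subst hi
    have : (fun t => pre (G t) (i + 1) i) =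
        fun t => pick fun d => Live (G t) (i + 1) (Function.update (pre (G t) i) i d) := by
      funext t
      rw [pre, Function.update_self]
    rw [this]
    refine measurable_pick fun d => ?_
    have key : {t | Live (G t) (i + 1) (Function.update (pre (G t) i) i d)} =
        ⋃ u : Fin i → D, {t | ∀ j : Fin i, pre (G t) i j = u j} ∩
          {t | Live (G t) (i + 1) (Function.update (ext u) i d)} := by
      ext t
      simp only [Set.mem_setOf_eq, Set.mem_iUnion, Set.mem_inter_iff]
      constructor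
      · intro h
        refine ⟨fun j => pre (G t) i j, fun j => rfl, h.congr fun k hk => ?_⟩
        rcases Nat.lt_succ_iff_lt_or_eq.1 hk with hk | rfl
        · rw [Function.update_of_ne hk.ne, Function.update_of_ne hk.ne,
            ext_restrict (pre (G t) i) hk]
        · rw [Function.update_self, Function.update_self]
      · rintro ⟨u, h1, h2⟩
        refine h2.congr fun k hk => ?_
        rcases Nat.lt_succ_iff_lt_or_eq.1 hk with hk | rfl
        · rw [Function.update_of_ne hk.ne, Function.update_of_ne hk.ne, ext_of_lt u hk,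
            ← h1 ⟨k, hk⟩]
        · rw [Function.update_self, Function.update_self]
    rw [key]
    refine MeasurableSet.iUnion fun u => MeasurableSet.inter ?_ (measurableSet_live hc hm _ _)
    have : {t | ∀ j : Fin i, pre (G t) i j = u j} =
        ⋂ j : Fin i, (fun t => pre (G t) i j) ⁻¹' {u j} := by
      ext t
      simp
    rw [this]
    exact MeasurableSet.iInter fun j =>
      ((measurable_pi_apply _).comp ih) (measurableSet_singleton _)

theorem measurable_sel (hc : ∀ t, Cong (G t)) (hm : ∀ n w, MeasurableSet {t | G t n w}) :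
    Measurable fun t => sel (G t) := by
  rw [measurable_pi_iff]
  intro n
  exact (measurable_pi_apply n).comp (measurable_pre hc hm (n + 1))

end meas

end Crest.Agent.R151.SEL
private theorem rz_979264bebd : type_of% @_root_.Crest.Agent.R151.SEL.pre.eq_def := @_root_.Crest.Agent.R151.SEL.pre.eq_def -- L162
private theorem rz_0949297d60 : type_of% @_root_.Crest.Agent.R151.SEL.pre.eq_1 := @_root_.Crest.Agent.R151.SEL.pre.eq_1 -- L162
end

-- ▼ part R151/S113B
section

/-!
# R151, SEL B (helper113): selected lattice paths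

* `path1 x w : ℕ → ℤ × ℤ`, `path2 x w : ℤ → ℤ × ℤ` : lattice paths coded by words.
* `Pred1`, `Pred2`: measurable, prefix closed predicates of one- resp. two-sided lattice paths
  (`P n t v` only reads `v` on `[0,n]` resp. `[-n,n]`).
* `sel1 P x t`, `sel2 P x t`: the first path `v` with `v 0 = x` and `∀ n, P n t v`
  (if there is one), measurable in `t`, equivariant.
-/

set_option autoImplicit false

open MeasureTheory
open Crest.ProbabilityR.FirstPassage

namespace Crest.Agent.R151.SEL

/-- the four directions -/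
def dir (a : Fin 4) : ℤ × ℤ := ![((1 : ℤ), (0 : ℤ)), (0, 1), (-1, 0), (0, -1)] a

theorem adj_dir (x : ℤ × ℤ) (a : Fin 4) : squareLattice.Adj x (x + dir a) := by
  obtain ⟨x1, x2⟩ := x
  fin_cases a
  · have := K.adj_right x1 x2
    simpa [dir] using this
  · have := K.adj_up x1 x2
    simpa [dir] using this
  · have := (K.adj_right (x1 - 1) x2).symm
    simpa [dir, sub_eq_add_neg] using this
  · have := (K.adj_up x1 (x2 - 1)).symm
    simpa [dir, sub_eq_add_neg] using this

theorem exists_dir {x y : ℤ × ℤ} (h : squareLattice.Adj x y) : ∃ a, y = x + dir a := by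
  obtain ⟨x1, x2⟩ := x
  obtain ⟨y1, y2⟩ := y
  rw [squareLattice, SimpleGraph.fromRel_adj] at h
  obtain ⟨-, (⟨h1, h2⟩ | ⟨h1, h2⟩) | (⟨h1, h2⟩ | ⟨h1, h2⟩)⟩ := h <;> simp only at h1 h2
  · exact ⟨1, by simp [dir, h1, h2]⟩
  · exact ⟨0, by simp [dir, h1, h2]⟩
  · exact ⟨3, by simp [dir, h1, h2]⟩
  · exact ⟨2, by simp [dir, h1, h2]⟩

/-- The one-sided path coded by `w`. -/
def path1 (x : ℤ × ℤ) (w : ℕ → Fin 4) : ℕ → ℤ × ℤ
  | 0 => x
  | n + 1 => path1 x w n + dir (w n)

@[simp] theorem path1_zero (x : ℤ × ℤ) (w : ℕ → Fin 4) : path1 x w 0 = x := rfl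

theorem path1_succ (x : ℤ × ℤ) (w : ℕ → Fin 4) (n : ℕ) :
    path1 x w (n + 1) = path1 x w n + dir (w n) := rfl

theorem path1_congr (x : ℤ × ℤ) {w w' : ℕ → Fin 4} {n : ℕ} (h : ∀ i, i < n → w i = w' i) {k : ℕ}
    (hk : k ≤ n) : path1 x w k = path1 x w' k := by
  induction k with
  | zero => rfl
  | succ k ih => rw [path1_succ, path1_succ, ih (by omega), h k (by omega)]

theorem path1_add (x z : ℤ × ℤ) (w : ℕ → Fin 4) (n : ℕ) :
    path1 (x + z) w n = path1 x w n + z := by
  induction n with
  | zero => rfl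
  | succ n ih => rw [path1_succ, path1_succ, ih]; abel

theorem path1_adj (x : ℤ × ℤ) (w : ℕ → Fin 4) (n : ℕ) :
    squareLattice.Adj (path1 x w n) (path1 x w (n + 1)) := by
  rw [path1_succ]
  exact adj_dir _ _

theorem exists_path1 {v : ℕ → ℤ × ℤ} (h : ∀ n, squareLattice.Adj (v n) (v (n + 1))) :
    ∃ w, v = path1 (v 0) w := by
  choose w hw using fun n => exists_dir (h n)
  refine ⟨w, funext fun n => ?_⟩
  induction n with
  | zero => rfl
  | succ n ih => rw [path1_succ, ← ih, hw n]

theorem measurable_path1 (x : ℤ × ℤ) (n : ℕ) : Measurable fun w : ℕ → Fin 4 => path1 x w n := by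
  induction n with
  | zero => exact measurable_const
  | succ n ih =>
    have : (fun w : ℕ → Fin 4 => path1 x w (n + 1)) =
        (fun p : (ℤ × ℤ) × Fin 4 => p.1 + dir p.2) ∘ fun w => (path1 x w n, w n) := rfl
    rw [this]
    exact (measurable_of_countable _).comp (ih.prodMk (measurable_pi_apply n))

/-- forward letter -/
def fw (a : Fin (4 * 4)) : Fin 4 := (finProdFinEquiv.symm a).1

/-- backward letter -/
def bw (a : Fin (4 * 4)) : Fin 4 := (finProdFinEquiv.symm a).2

/-- The two-sided path coded by `w`. -/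
def path2 (x : ℤ × ℤ) (w : ℕ → Fin (4 * 4)) (k : ℤ) : ℤ × ℤ :=
  if 0 ≤ k then path1 x (fun i => fw (w i)) k.toNat else path1 x (fun i => bw (w i)) (-k).toNat

@[simp] theorem path2_zero (x : ℤ × ℤ) (w : ℕ → Fin (4 * 4)) : path2 x w 0 = x := rfl

theorem path2_natCast (x : ℤ × ℤ) (w : ℕ → Fin (4 * 4)) (n : ℕ) :
    path2 x w n = path1 x (fun i => fw (w i)) n := by
  simp [path2]

theorem path2_neg_natCast (x : ℤ × ℤ) (w : ℕ → Fin (4 * 4)) (n : ℕ) :
    path2 x w (-n) = path1 x (fun i => bw (w i)) n := by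
  unfold path2
  split_ifs with h
  · have : n = 0 := by omega
    subst this
    rfl
  · simp

theorem path2_congr (x : ℤ × ℤ) {w w' : ℕ → Fin (4 * 4)} {n : ℕ}
    (h : ∀ i, i < n → w i = w' i) {k : ℤ} (hk : |k| ≤ n) : path2 x w k = path2 x w' k := by
  unfold path2
  rw [abs_le] at hk
  split_ifs with h0
  · exact path1_congr x (n := n) (fun i hi => by rw [h i hi]) (by omega)
  · exact path1_congr x (n := n) (fun i hi => by rw [h i hi]) (by omega)

theorem path2_add (x z : ℤ × ℤ) (w : ℕ → Fin (4 * 4)) (k : ℤ) :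
    path2 (x + z) w k = path2 x w k + z := by
  unfold path2
  split_ifs
  · exact path1_add x z _ _
  · exact path1_add x z _ _

theorem path2_adj (x : ℤ × ℤ) (w : ℕ → Fin (4 * 4)) (k : ℤ) :
    squareLattice.Adj (path2 x w k) (path2 x w (k + 1)) := by
  rcases lt_or_ge k 0 with h | h
  · obtain ⟨n, hn⟩ : ∃ n : ℕ, k = -((n : ℤ) + 1) := ⟨(-k - 1).toNat, by omega⟩
    subst hn
    have h1 : path2 x w (-((n : ℤ) + 1)) = path1 x (fun i => bw (w i)) (n + 1) := by
      rw [show -((n : ℤ) + 1) = -((n + 1 : ℕ) : ℤ) by push_cast; ring, path2_neg_natCast]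
    have h2 : path2 x w (-((n : ℤ) + 1) + 1) = path1 x (fun i => bw (w i)) n := by
      rw [show -((n : ℤ) + 1) + 1 = -((n : ℕ) : ℤ) by ring, path2_neg_natCast]
    rw [h1, h2]
    exact (path1_adj _ _ _).symm
  · obtain ⟨n, rfl⟩ := Int.eq_ofNat_of_zero_le h
    have h1 : path2 x w ((n : ℤ) + 1) = path1 x (fun i => fw (w i)) (n + 1) := by
      rw [show (n : ℤ) + 1 = ((n + 1 : ℕ) : ℤ) by push_cast; ring, path2_natCast]
    rw [path2_natCast, h1]
    exact path1_adj _ _ _

theorem exists_path2 {v : ℤ → ℤ × ℤ} (h : ∀ n, squareLattice.Adj (v n) (v (n + 1))) :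
    ∃ w, v = path2 (v 0) w := by
  obtain ⟨w1, hw1⟩ := exists_path1 (v := fun n : ℕ => v n) fun n => by
    have := h n
    push_cast
    exact this
  obtain ⟨w2, hw2⟩ := exists_path1 (v := fun n : ℕ => v (-n)) fun n => by
    have := (h (-((n : ℤ) + 1))).symm
    rw [show -((n : ℤ) + 1) + 1 = -n by ring] at this
    push_cast
    exact this
  refine ⟨fun i => finProdFinEquiv (w1 i, w2 i), funext fun k => ?_⟩
  unfold path2
  split_ifs with h0
  · have := congrFun hw1 k.toNat
    simp only [Nat.cast_zero] at this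
    rw [show ((k.toNat : ℕ) : ℤ) = k by omega] at this
    simpa [fw] using this
  · have := congrFun hw2 (-k).toNat
    simp only [Nat.cast_zero, neg_zero] at this
    rw [show -(((-k).toNat : ℕ) : ℤ) = k by omega] at this
    simpa [bw] using this

theorem measurable_path2 (x : ℤ × ℤ) (k : ℤ) :
    Measurable fun w : ℕ → Fin (4 * 4) => path2 x w k := by
  unfold path2
  split_ifs
  · refine (measurable_path1 x _).comp (measurable_pi_lambda _ fun i => ?_)
    exact (measurable_of_countable fw).comp (measurable_pi_apply i)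
  · refine (measurable_path1 x _).comp (measurable_pi_lambda _ fun i => ?_)
    exact (measurable_of_countable bw).comp (measurable_pi_apply i)

/-! ## predicates -/

/-- measurable prefix closed predicates of one-sided lattice paths -/
structure Pred1 where
  P : ℕ → Environment → (ℕ → ℤ × ℤ) → Prop
  cong : ∀ n t v v', (∀ k, k ≤ n → v k = v' k) → P n t v → P n t v'
  anti : ∀ n t v, P (n + 1) t v → P n t v
  meas : ∀ n v, MeasurableSet {t | P n t v}

/-- measurable prefix closed predicates of two-sided lattice paths -/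
structure Pred2 where
  P : ℕ → Environment → (ℤ → ℤ × ℤ) → Prop
  cong : ∀ (n : ℕ) t v v', (∀ k : ℤ, |k| ≤ (n : ℤ) → v k = v' k) → P n t v → P n t v'
  anti : ∀ n t v, P (n + 1) t v → P n t v
  meas : ∀ n v, MeasurableSet {t | P n t v}

namespace Pred1

variable (Q : Pred1)

/-- `v` is a lattice path from `x` with the property -/
structure Sat (x : ℤ × ℤ) (t : Environment) (v : ℕ → ℤ × ℤ) : Prop where
  zero : v 0 = x
  adj : ∀ n, squareLattice.Adj (v n) (v (n + 1))
  prop : ∀ n, Q.P n t v

/-- the predicate on words -/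
def word (x : ℤ × ℤ) (t : Environment) (n : ℕ) (w : ℕ → Fin 4) : Prop := Q.P n t (path1 x w)

theorem cong_word (x : ℤ × ℤ) (t : Environment) : Cong (Q.word x t) := fun n w w' h hw =>
  Q.cong n t _ _ (fun _ hk => path1_congr x h hk) hw

theorem anti_word (x : ℤ × ℤ) (t : Environment) : Anti (Q.word x t) := fun n _ hw =>
  Q.anti n t _ hw

theorem meas_word (x : ℤ × ℤ) (n : ℕ) (w : ℕ → Fin 4) : MeasurableSet {t | Q.word x t n w} :=
  Q.meas n _

theorem exists_sat_iff (x : ℤ × ℤ) (t : Environment) :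
    (∃ v, Q.Sat x t v) ↔ ∃ w, ∀ n, Q.word x t n w := by
  constructor
  · rintro ⟨v, hv⟩
    obtain ⟨w, hw⟩ := exists_path1 hv.adj
    refine ⟨w, fun n => ?_⟩
    unfold word
    rw [← hv.zero, ← hw]
    exact hv.prop n
  · rintro ⟨w, hw⟩
    exact ⟨path1 x w, rfl, path1_adj x w, hw⟩




theorem measurableSet_exists (x : ℤ × ℤ) : MeasurableSet {t | ∃ v, Q.Sat x t v} := by
  simp only [exists_sat_iff]
  exact measurableSet_exists_branch (Q.cong_word x) (Q.anti_word x) (Q.meas_word x)



/-- equivariance of a predicate under translations -/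
def Equiv (z : ℤ × ℤ) : Prop :=
  ∀ n t v, Q.P n (A.shift z t) v ↔ Q.P n t fun k => v k + z

variable {Q}



end Pred1

namespace Pred2

variable (Q : Pred2)

/-- `v` is a two-sided lattice path with `v 0 = x` and the property -/
structure Sat (x : ℤ × ℤ) (t : Environment) (v : ℤ → ℤ × ℤ) : Prop where
  zero : v 0 = x
  adj : ∀ n, squareLattice.Adj (v n) (v (n + 1))
  prop : ∀ n, Q.P n t v

/-- the predicate on words -/
def word (x : ℤ × ℤ) (t : Environment) (n : ℕ) (w : ℕ → Fin (4 * 4)) : Prop :=
  Q.P n t (path2 x w)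

theorem cong_word (x : ℤ × ℤ) (t : Environment) : Cong (Q.word x t) := fun n w w' h hw =>
  Q.cong n t _ _ (fun _ hk => path2_congr x h hk) hw

theorem anti_word (x : ℤ × ℤ) (t : Environment) : Anti (Q.word x t) := fun n _ hw =>
  Q.anti n t _ hw

theorem meas_word (x : ℤ × ℤ) (n : ℕ) (w : ℕ → Fin (4 * 4)) :
    MeasurableSet {t | Q.word x t n w} := Q.meas n _

theorem exists_sat_iff (x : ℤ × ℤ) (t : Environment) :
    (∃ v, Q.Sat x t v) ↔ ∃ w, ∀ n, Q.word x t n w := by
  constructor
  · rintro ⟨v, hv⟩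
    obtain ⟨w, hw⟩ := exists_path2 hv.adj
    refine ⟨w, fun n => ?_⟩
    unfold word
    rw [← hv.zero, ← hw]
    exact hv.prop n
  · rintro ⟨w, hw⟩
    exact ⟨path2 x w, rfl, path2_adj x w, hw⟩

/-- the selected path -/
noncomputable def sel2 (x : ℤ × ℤ) (t : Environment) : ℤ → ℤ × ℤ := path2 x (sel (Q.word x t))

theorem sat_sel2 {x : ℤ × ℤ} {t : Environment} (h : ∃ v, Q.Sat x t v) :
    Q.Sat x t (Q.sel2 x t) := by
  rw [exists_sat_iff] at h
  exact ⟨rfl, path2_adj x _, fun n => sel_spec' (Q.cong_word x t) (Q.anti_word x t) h n⟩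


theorem measurableSet_exists (x : ℤ × ℤ) : MeasurableSet {t | ∃ v, Q.Sat x t v} := by
  simp only [exists_sat_iff]
  exact measurableSet_exists_branch (Q.cong_word x) (Q.anti_word x) (Q.meas_word x)

theorem measurable_sel2 (x : ℤ × ℤ) : Measurable fun t => Q.sel2 x t := by
  rw [measurable_pi_iff]
  intro n
  exact (measurable_path2 x n).comp (measurable_sel (Q.cong_word x) (Q.meas_word x))

theorem measurable_sel2_apply (x : ℤ × ℤ) (n : ℤ) : Measurable fun t => Q.sel2 x t n :=
  (measurable_pi_apply n).comp (Q.measurable_sel2 x)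

/-- equivariance of a predicate under translations -/
def Equiv (z : ℤ × ℤ) : Prop :=
  ∀ n t v, Q.P n (A.shift z t) v ↔ Q.P n t fun k => v k + z

variable {Q}


theorem Equiv.sel2 {z : ℤ × ℤ} (h : Q.Equiv z) (x : ℤ × ℤ) (t : Environment) (n : ℤ) :
    Q.sel2 (x + z) t n = Q.sel2 x (A.shift z t) n + z := by
  unfold Pred2.sel2
  rw [path2_add]
  congr 2
  refine sel_congr fun n w => ?_
  unfold word
  rw [h n t]
  have : path2 (x + z) w = fun k => path2 x w k + z := funext fun k => path2_add x z w k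
  rw [this]

end Pred2

/-! ## random vertices inside measurable functions -/

/-- evaluate a family of measurable functions at a measurable lattice point -/
theorem measurable_eval {Ω β I : Type*} [MeasurableSpace Ω] [MeasurableSpace β] [Countable I]
    [MeasurableSpace I] [MeasurableSingletonClass I] {f : Ω → I → β}
    (hf : ∀ y, Measurable fun t => f t y) {V : Ω → I} (hV : Measurable V) :
    Measurable fun t => f t (V t) := by
  have h1 : Measurable (Function.uncurry f) := measurable_from_prod_countable_left hf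
  exact h1.comp (measurable_id.prodMk hV)

end Crest.Agent.R151.SEL
namespace Crest.Agent.R151.SEL.Pred1.Equiv
end Crest.Agent.R151.SEL.Pred1.Equiv
end

-- ▼ part R151/S113C
section

/-!
# R151, SEL C (helper113): rays, gradient rays and bigeodesics as selected paths

* `rayPred H C`, `gradPred f C`, `bigeoPred C`: the predicates "geodesic ray of `H`", "gradient ray
  of the random function `f`", "bigeodesic", each with the side condition `∀ k, v k ∈ C k`.
* existence events are measurable, the selected path is measurable in the environment.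
* Busemann functions along measurable paths are measurable.
* translations.
-/

set_option autoImplicit false

open MeasureTheory
open Crest.ProbabilityR.FirstPassage

namespace Crest.Agent.R151.SEL

open Crest.Agent.R151 Crest.Agent.R151.Y

/-! ## measurability of passage times of a subgraph -/

theorem measurable_wcost {H : SimpleGraph (ℤ × ℤ)} {x y : ℤ × ℤ} (w : H.Walk x y) :
    Measurable fun t : Environment => wcost t w := by
  unfold wcost
  have : ∀ l : List (Sym2 (ℤ × ℤ)), Measurable fun t : Environment => (l.map t).sum := by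
    intro l
    induction l with
    | nil => simp
    | cons e l ih =>
      simp only [List.map_cons, List.sum_cons]
      exact (measurable_pi_apply e).add ih
  exact this _

theorem countable_walk' (H : SimpleGraph (ℤ × ℤ)) (x y : ℤ × ℤ) : Countable (H.Walk x y) := by
  have : Function.Injective (fun w : H.Walk x y => w.support) := by
    intro w w' h
    exact SimpleGraph.Walk.ext_support h
  exact this.countable

theorem measurable_pt' (H : SimpleGraph (ℤ × ℤ)) (x y : ℤ × ℤ) :
    Measurable fun t : Environment => pt H t x y := by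
  unfold pt
  have := countable_walk' H x y
  exact Measurable.iInf fun w => measurable_wcost w

/-- `pt H` at random points -/
theorem measurable_pt_eval {Ω : Type*} [MeasurableSpace Ω] (H : SimpleGraph (ℤ × ℤ))
    {τ : Ω → Environment} (hτ : Measurable τ) {X Y : Ω → ℤ × ℤ} (hX : Measurable X)
    (hY : Measurable Y) : Measurable fun ω => pt H (τ ω) (X ω) (Y ω) := by
  have h1 : Measurable fun ω => (fun p : (ℤ × ℤ) × (ℤ × ℤ) => pt H (τ ω) p.1 p.2) (X ω, Y ω) :=
    measurable_eval (f := fun ω (p : (ℤ × ℤ) × (ℤ × ℤ)) => pt H (τ ω) p.1 p.2)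
      (fun p => (measurable_pt' H p.1 p.2).comp hτ) (hX.prodMk hY)
  exact h1

/-- the Busemann function of a measurable path is measurable -/
theorem measurable_bus {Ω : Type*} [MeasurableSpace Ω] (H : SimpleGraph (ℤ × ℤ))
    {τ : Ω → Environment} (hτ : Measurable τ) {v : Ω → ℕ → ℤ × ℤ}
    (hv : ∀ n, Measurable fun ω => v ω n) (x : ℤ × ℤ) :
    Measurable fun ω => bus (τ ω) H (v ω) x := by
  unfold bus
  refine Measurable.iInf fun n => ?_
  exact (measurable_pt_eval H hτ measurable_const (hv n)).sub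
    (measurable_pt_eval H hτ (hv 0) (hv n))

/-! ## one-sided predicates -/

/-- conjunction -/
def Pred1.and (Q Q' : Pred1) : Pred1 where
  P n t v := Q.P n t v ∧ Q'.P n t v
  cong n t v v' h hP := ⟨Q.cong n t v v' h hP.1, Q'.cong n t v v' h hP.2⟩
  anti n t v hP := ⟨Q.anti n t v hP.1, Q'.anti n t v hP.2⟩
  meas n v := (Q.meas n v).inter (Q'.meas n v)

theorem Pred1.sat_and {Q Q' : Pred1} {x : ℤ × ℤ} {t : Environment} {v : ℕ → ℤ × ℤ} :
    (Q.and Q').Sat x t v ↔ Q.Sat x t v ∧ Q'.Sat x t v :=
  ⟨fun h => ⟨⟨h.zero, h.adj, fun n => (h.prop n).1⟩, ⟨h.zero, h.adj, fun n => (h.prop n).2⟩⟩,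
    fun h => ⟨h.1.zero, h.1.adj, fun n => ⟨h.1.prop n, h.2.prop n⟩⟩⟩













/-! ## two-sided predicates -/

/-- conjunction -/
def Pred2.and (Q Q' : Pred2) : Pred2 where
  P n t v := Q.P n t v ∧ Q'.P n t v
  cong n t v v' h hP := ⟨Q.cong n t v v' h hP.1, Q'.cong n t v v' h hP.2⟩
  anti n t v hP := ⟨Q.anti n t v hP.1, Q'.anti n t v hP.2⟩
  meas n v := (Q.meas n v).inter (Q'.meas n v)

theorem Pred2.sat_and {Q Q' : Pred2} {x : ℤ × ℤ} {t : Environment} {v : ℤ → ℤ × ℤ} :
    (Q.and Q').Sat x t v ↔ Q.Sat x t v ∧ Q'.Sat x t v :=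
  ⟨fun h => ⟨⟨h.zero, h.adj, fun n => (h.prop n).1⟩, ⟨h.zero, h.adj, fun n => (h.prop n).2⟩⟩,
    fun h => ⟨h.1.zero, h.1.adj, fun n => ⟨h.1.prop n, h.2.prop n⟩⟩⟩



/-- injective two-sided geodesics of the square lattice -/
def bigPred : Pred2 where
  P n t v := (∀ i j : ℤ, |i| ≤ n → |j| ≤ n → v i = v j → i = j) ∧
    ∀ i j : ℤ, |i| ≤ n → |j| ≤ n → i < j →
      ∑ k ∈ Finset.Ico i j, t s(v k, v (k + 1)) = passageTime t (v i) (v j)
  cong n t v v' h hP := by
    refine ⟨fun i j hi hj hv => hP.1 i j hi hj ?_, fun i j hi hj hij => ?_⟩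
    · rw [h i hi, h j hj, hv]
    · rw [← h i hi, ← h j hj, ← hP.2 i j hi hj hij]
      refine Finset.sum_congr rfl fun k hk => ?_
      rw [Finset.mem_Ico] at hk
      rw [abs_le] at hi hj
      rw [h k (abs_le.2 (by omega)), h (k + 1) (abs_le.2 (by omega))]
  anti n t v hP := ⟨fun i j hi hj => hP.1 i j (by push_cast; omega) (by push_cast; omega),
    fun i j hi hj => hP.2 i j (by push_cast; omega) (by push_cast; omega)⟩
  meas n v := by
    have : {t : Environment | (∀ i j : ℤ, |i| ≤ n → |j| ≤ n → v i = v j → i = j) ∧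
        ∀ i j : ℤ, |i| ≤ n → |j| ≤ n → i < j →
          ∑ k ∈ Finset.Ico i j, t s(v k, v (k + 1)) = passageTime t (v i) (v j)} =
      {_t : Environment | ∀ i j : ℤ, |i| ≤ n → |j| ≤ n → v i = v j → i = j} ∩
      (⋂ i : ℤ, ⋂ j : ℤ, ⋂ (_ : |i| ≤ n), ⋂ (_ : |j| ≤ n), ⋂ (_ : i < j), {t : Environment |
        ∑ k ∈ Finset.Ico i j, t s(v k, v (k + 1)) = passageTime t (v i) (v j)}) := by
      ext t
      simp
    rw [this]
    refine MeasurableSet.inter (MeasurableSet.const _) ?_
    refine MeasurableSet.iInter fun i => MeasurableSet.iInter fun j => MeasurableSet.iInter fun _ =>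
      MeasurableSet.iInter fun _ => MeasurableSet.iInter fun _ =>
        measurableSet_eq_fun ?_ (K.measurable_pt _ _)
    exact Finset.measurable_sum _ fun k _ => measurable_pi_apply _

theorem sat_bigPred {x : ℤ × ℤ} {t : Environment} {v : ℤ → ℤ × ℤ} :
    bigPred.Sat x t v ↔ v 0 = x ∧ IsBigeodesic t v := by
  constructor
  · intro h
    refine ⟨h.zero, fun i j hij => ?_, h.adj, fun i j hij => ?_⟩
    · have h1 := h.prop (max i.natAbs j.natAbs)
      refine h1.1 i j ?_ ?_ hij <;> push_cast <;> simp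
    · have h1 := h.prop (max i.natAbs j.natAbs)
      refine h1.2 i j ?_ ?_ hij <;> push_cast <;> simp
  · rintro ⟨h1, h2, h3, h4⟩
    exact ⟨h1, h3, fun n => ⟨fun i j _ _ hij => h2 hij, fun i j _ _ hij => h4 i j hij⟩⟩





/-! ## translations -/

theorem wcost_shift (z : ℤ × ℤ) (t : Environment) {H H' : SimpleGraph (ℤ × ℤ)}
    (φ : H →g H') (hφ : ∀ x, φ x = x + z) {x y : ℤ × ℤ} (w : H.Walk x y) :
    wcost (A.shift z t) w = wcost t (w.map φ) := by
  rw [wcost_map]
  congr 1
  funext e
  induction e with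
  | _ a b => simp [A.shift, hφ]

/-- passage times of translated graphs -/
theorem pt_shift (z : ℤ × ℤ) (t : Environment) {H H' : SimpleGraph (ℤ × ℤ)}
    (hH : ∀ x y, H.Adj x y ↔ H'.Adj (x + z) (y + z)) (x y : ℤ × ℤ) :
    pt H (A.shift z t) x y = pt H' t (x + z) (y + z) := by
  let φ : H ≃g H' := ⟨Equiv.addRight z, fun {a b} => (hH a b).symm⟩
  have hφ : ∀ x, φ.toHom x = x + z := fun x => rfl
  unfold pt
  refine Function.Surjective.iInf_congr (fun w : H.Walk x y => w.map φ.toHom) ?_ ?_
  · intro w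
    have hx : φ.symm.toHom (x + z) = x := by
      change (Equiv.addRight z).symm (x + z) = x
      simp
    have hy : φ.symm.toHom (y + z) = y := by
      change (Equiv.addRight z).symm (y + z) = y
      simp
    refine ⟨(w.map φ.symm.toHom).copy hx hy, ?_⟩
    apply SimpleGraph.Walk.ext_support
    rw [SimpleGraph.Walk.support_map, SimpleGraph.Walk.support_copy,
      SimpleGraph.Walk.support_map, List.map_map]
    refine (List.map_congr_left fun a _ => ?_).trans (List.map_id _)
    change (Equiv.addRight z) ((Equiv.addRight z).symm a) = a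
    simp
  · intro w
    exact (wcost_shift z t φ.toHom hφ w).symm

theorem squareLattice_adj_add (z x y : ℤ × ℤ) :
    squareLattice.Adj (x + z) (y + z) ↔ squareLattice.Adj x y := by
  rw [squareLattice, SimpleGraph.fromRel_adj, SimpleGraph.fromRel_adj]
  obtain ⟨z1, z2⟩ := z
  obtain ⟨x1, x2⟩ := x
  obtain ⟨y1, y2⟩ := y
  simp only [Prod.mk_add_mk, ne_eq, Prod.mk.injEq]
  constructor <;> intro h <;> omega

theorem passageTime_shift (z : ℤ × ℤ) (t : Environment) (x y : ℤ × ℤ) :
    passageTime (A.shift z t) x y = passageTime t (x + z) (y + z) := by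
  rw [passageTime_eq_pt, passageTime_eq_pt]
  exact pt_shift z t (fun a b => (squareLattice_adj_add z a b).symm) x y


theorem isBigeodesic_shift (z : ℤ × ℤ) (t : Environment) (v : ℤ → ℤ × ℤ) :
    IsBigeodesic (A.shift z t) v ↔ IsBigeodesic t fun k => v k + z := by
  unfold IsBigeodesic
  refine and_congr ?_ (and_congr ?_ ?_)
  · constructor
    · intro h i j hij
      exact h (add_right_cancel hij)
    · intro h i j hij
      exact h (by simp only [hij])
  · exact forall_congr' fun i => (squareLattice_adj_add z _ _).symm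
  · refine forall_congr' fun i => forall_congr' fun j => forall_congr' fun _ => ?_
    rw [passageTime_shift]
    rfl

theorem bus_shift (z : ℤ × ℤ) (t : Environment) {H H' : SimpleGraph (ℤ × ℤ)}
    (hH : ∀ x y, H.Adj x y ↔ H'.Adj (x + z) (y + z)) (v : ℕ → ℤ × ℤ) (x : ℤ × ℤ) :
    bus (A.shift z t) H v x = bus t H' (fun k => v k + z) (x + z) := by
  unfold bus
  refine iInf_congr fun n => ?_
  rw [pt_shift z t hH, pt_shift z t hH]



theorem Pred1.Equiv.and {z : ℤ × ℤ} {Q Q' : Pred1} (h : Q.Equiv z) (h' : Q'.Equiv z) :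
    (Q.and Q').Equiv z := fun n t v => and_congr (h n t v) (h' n t v)



theorem Pred2.Equiv.and {z : ℤ × ℤ} {Q Q' : Pred2} (h : Q.Equiv z) (h' : Q'.Equiv z) :
    (Q.and Q').Equiv z := fun n t v => and_congr (h n t v) (h' n t v)

theorem equiv_bigPred (z : ℤ × ℤ) : bigPred.Equiv z := by
  intro n t v
  unfold bigPred
  refine and_congr ?_ ?_
  · refine forall_congr' fun i => forall_congr' fun j => forall_congr' fun _ =>
      forall_congr' fun _ => ?_
    rw [add_left_inj]
  · refine forall_congr' fun i => forall_congr' fun j => forall_congr' fun _ =>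
      forall_congr' fun _ => forall_congr' fun _ => ?_
    rw [passageTime_shift]
    rfl



end Crest.Agent.R151.SEL
end

-- ▼ part R151/S113D
section

/-!
# R151, SEL D (helper113): the selected bigeodesic that leaves the lower half plane at `z`

* `CrP t v` : `v` is a bigeodesic, `v (-1)` is the vertex below `v 0` and `v k`, `k ≥ 0`, stays
  in `{y ≥ (v 0).2}`.
* `Cr z t` : there is one with `v 0 = z`; `gam z t`: the selected one.
* `jn z t`: entrance index, `xh z t`: the last vertex of the lower ray.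
* `upray`, `loray`: the two rays, `fg`, `gg` their Busemann functions.
Everything is measurable in `t` and covariant under all translations of the lattice.
-/

set_option autoImplicit false

open MeasureTheory
open Crest.ProbabilityR.FirstPassage

namespace Crest.Agent.R151.SEL

open Crest.Agent.R151 Crest.Agent.R151.Y

/-- the half plane `{y ≥ k}` -/
def Up (k : ℤ) : Set (ℤ × ℤ) := {z | k ≤ z.2}

/-- the half plane `{y ≤ k}` -/
def Dn (k : ℤ) : Set (ℤ × ℤ) := {z | z.2 ≤ k}

@[simp] theorem mem_Up {k : ℤ} {z : ℤ × ℤ} : z ∈ Up k ↔ k ≤ z.2 := Iff.rfl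

@[simp] theorem mem_Dn {k : ℤ} {z : ℤ × ℤ} : z ∈ Dn k ↔ z.2 ≤ k := Iff.rfl

theorem adj_Up_add (k : ℤ) (a x y : ℤ × ℤ) :
    (reg (Up k)).Adj x y ↔ (reg (Up (k + a.2))).Adj (x + a) (y + a) := by
  rw [reg_adj, reg_adj, squareLattice_adj_add]
  simp only [mem_Up, Prod.snd_add, add_le_add_iff_right]

theorem adj_Dn_add (k : ℤ) (a x y : ℤ × ℤ) :
    (reg (Dn k)).Adj x y ↔ (reg (Dn (k + a.2))).Adj (x + a) (y + a) := by
  rw [reg_adj, reg_adj, squareLattice_adj_add]
  simp only [mem_Dn, Prod.snd_add, add_le_add_iff_right]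

/-! ## the predicate -/


/-- the side condition as a prefix predicate -/
def lastUpPred : Pred2 where
  P n _ v := ∀ k : ℤ, |k| ≤ n → (k = -1 → (v k).2 = (v 0).2 - 1) ∧ (0 ≤ k → (v 0).2 ≤ (v k).2)
  cong n _ v v' h hP := fun k hk => by
    rw [← h k hk, ← h 0 (by simp)]
    exact hP k hk
  anti n _ v hP := fun k hk => hP k (by push_cast; omega)
  meas n v := MeasurableSet.const _




/-- the prefix predicate of `CrP` -/
def crPred : Pred2 := bigPred.and lastUpPred







/-- the selected bigeodesic -/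
noncomputable def gam (z : ℤ × ℤ) (t : Environment) : ℤ → ℤ × ℤ := crPred.sel2 z t





/-! ## least index of a random set of natural numbers -/


/-! ## the lower ray -/

/-- entrance index: the least `j` such that `gam (-i)`, `i ≥ j`, stays strictly below the line -/
noncomputable def jn (z : ℤ × ℤ) (t : Environment) : ℕ :=
  sInf {j | ∀ i : ℕ, j ≤ i → (gam z t (-i)).2 ≤ z.2 - 1}








/-- the last vertex of the lower ray -/
noncomputable def xh (z : ℤ × ℤ) (t : Environment) : ℤ × ℤ := gam z t (-(jn z t : ℤ))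














/-! ## label functions -/







end Crest.Agent.R151.SEL
end

-- ▼ part R151/S113E

/-!
# R151, SEL E (helper113): last entrance to a half plane, tails, label functions at every level

For a two-sided path `v` with `(v n).2 → ±∞` as `n → ±∞` (`UpDown v`):
* `entU k v`: the time of the last entrance to `{y ≥ k}`; `tailU k v : ℕ → ℤ × ℤ` the path from
  there on; `fU t k v w` its Busemann function in `reg (Up k)`;
* `entD k v`: the time of the first exit from `{y ≤ k}`; `tailD k v` the path from there backwards;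
  `fD t k v w` its Busemann function in `reg (Dn k)`.
All of them are measurable functions of a measurable path, and covariant.
-/

set_option autoImplicit false

open MeasureTheory Filter
open Crest.ProbabilityR.FirstPassage

namespace Crest.Agent.R151.SEL

open Crest.Agent.R151 Crest.Agent.R151.Y

/-- the path comes from `y = -∞` and goes to `y = +∞` -/
def UpDown (v : ℤ → ℤ × ℤ) : Prop :=
  Tendsto (fun n => (v n).2) atTop atTop ∧ Tendsto (fun n => (v n).2) atBot atBot

/-- last entrance time to `{y ≥ k}` -/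
noncomputable def entU (k : ℤ) (v : ℤ → ℤ × ℤ) : ℤ := sInf {j | ∀ i, j ≤ i → k ≤ (v i).2}

/-- first exit time from `{y ≤ k}` -/
noncomputable def entD (k : ℤ) (v : ℤ → ℤ × ℤ) : ℤ := sSup {j | ∀ i, i ≤ j → (v i).2 ≤ k}

/-- the part in `{y ≥ k}` -/
noncomputable def tailU (k : ℤ) (v : ℤ → ℤ × ℤ) (n : ℕ) : ℤ × ℤ := v (entU k v + n)

/-- the part in `{y ≤ k}`, backwards -/
noncomputable def tailD (k : ℤ) (v : ℤ → ℤ × ℤ) (n : ℕ) : ℤ × ℤ := v (entD k v - n)

section deterministic

variable {k : ℤ} {v : ℤ → ℤ × ℤ}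

theorem UpDown.nonemptyU (h : UpDown v) (k : ℤ) :
    ({j | ∀ i, j ≤ i → k ≤ (v i).2} : Set ℤ).Nonempty := by
  obtain ⟨N, hN⟩ := eventually_atTop.1 (h.1.eventually (eventually_ge_atTop k))
  exact ⟨N, fun i hi => hN i hi⟩

theorem UpDown.bddBelowU (h : UpDown v) (k : ℤ) :
    BddBelow {j : ℤ | ∀ i, j ≤ i → k ≤ (v i).2} := by
  obtain ⟨N, hN⟩ := eventually_atBot.1 (h.2.eventually (eventually_le_atBot (k - 1)))
  refine ⟨N, fun j hj => ?_⟩
  by_contra hcon
  have h1 := hN N le_rfl
  have h2 := hj N (by omega)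
  omega

theorem UpDown.entU_spec (h : UpDown v) {i : ℤ} (hi : entU k v ≤ i) : k ≤ (v i).2 :=
  (Int.csInf_mem (h.nonemptyU k) (h.bddBelowU k)) i hi

theorem UpDown.entU_le (h : UpDown v) {j : ℤ} (hj : ∀ i, j ≤ i → k ≤ (v i).2) : entU k v ≤ j :=
  csInf_le (h.bddBelowU k) hj

theorem UpDown.entU_pred (h : UpDown v) : (v (entU k v - 1)).2 < k := by
  by_contra hcon
  have : entU k v ≤ entU k v - 1 := by
    refine h.entU_le fun i hi => ?_
    rcases eq_or_lt_of_le hi with h1 | h1
    · rw [← h1]
      omega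
    · exact h.entU_spec (by omega)
  omega

theorem snd_succ_le {v : ℤ → ℤ × ℤ} (hadj : ∀ n, squareLattice.Adj (v n) (v (n + 1))) (n : ℤ) :
    (v (n + 1)).2 ≤ (v n).2 + 1 ∧ (v n).2 ≤ (v (n + 1)).2 + 1 ∧
      (v (n + 1)).1 ≤ (v n).1 + 1 ∧ (v n).1 ≤ (v (n + 1)).1 + 1 ∧
      ((v (n + 1)).2 = (v n).2 ∨ (v (n + 1)).1 = (v n).1) := by
  obtain ⟨a, ha⟩ := exists_dir (hadj n)
  have h1 : (v (n + 1)).2 = (v n).2 + (dir a).2 := by rw [ha, Prod.snd_add]
  have h2 : (v (n + 1)).1 = (v n).1 + (dir a).1 := by rw [ha, Prod.fst_add]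
  fin_cases a <;> simp [dir] at h1 h2 <;> omega

theorem UpDown.entU_snd (h : UpDown v) (hadj : ∀ n, squareLattice.Adj (v n) (v (n + 1))) :
    (v (entU k v)).2 = k := by
  have h1 := h.entU_pred (k := k)
  have h2 := h.entU_spec (k := k) le_rfl
  have h3 := snd_succ_le hadj (entU k v - 1)
  rw [sub_add_cancel] at h3
  omega

theorem UpDown.entU_pred_eq (h : UpDown v) (hadj : ∀ n, squareLattice.Adj (v n) (v (n + 1))) :
    v (entU k v - 1) = ((v (entU k v)).1, k - 1) := by
  have h1 := h.entU_pred (k := k)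
  have h2 := h.entU_spec (k := k) le_rfl
  have h3 := snd_succ_le hadj (entU k v - 1)
  rw [sub_add_cancel] at h3
  have h4 := h.entU_snd (k := k) hadj
  refine Prod.ext ?_ ?_
  · omega
  · change _ = k - 1
    omega

theorem UpDown.nonemptyD (h : UpDown v) (k : ℤ) :
    ({j | ∀ i, i ≤ j → (v i).2 ≤ k} : Set ℤ).Nonempty := by
  obtain ⟨N, hN⟩ := eventually_atBot.1 (h.2.eventually (eventually_le_atBot k))
  exact ⟨N, fun i hi => hN i hi⟩

theorem UpDown.bddAboveD (h : UpDown v) (k : ℤ) :
    BddAbove {j : ℤ | ∀ i, i ≤ j → (v i).2 ≤ k} := by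
  obtain ⟨N, hN⟩ := eventually_atTop.1 (h.1.eventually (eventually_ge_atTop (k + 1)))
  refine ⟨N, fun j hj => ?_⟩
  by_contra hcon
  have h1 := hN N le_rfl
  have h2 := hj N (by omega)
  omega

theorem UpDown.entD_spec (h : UpDown v) {i : ℤ} (hi : i ≤ entD k v) : (v i).2 ≤ k :=
  (Int.csSup_mem (h.nonemptyD k) (h.bddAboveD k)) i hi

theorem UpDown.le_entD (h : UpDown v) {j : ℤ} (hj : ∀ i, i ≤ j → (v i).2 ≤ k) : j ≤ entD k v :=
  le_csSup (h.bddAboveD k) hj

theorem UpDown.entD_succ (h : UpDown v) : k < (v (entD k v + 1)).2 := by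
  by_contra hcon
  have : entD k v + 1 ≤ entD k v := by
    refine h.le_entD fun i hi => ?_
    rcases eq_or_lt_of_le hi with h1 | h1
    · rw [h1]
      omega
    · exact h.entD_spec (by omega)
  omega

theorem UpDown.entD_snd (h : UpDown v) (hadj : ∀ n, squareLattice.Adj (v n) (v (n + 1))) :
    (v (entD k v)).2 = k := by
  have h1 := h.entD_succ (k := k)
  have h2 := h.entD_spec (k := k) le_rfl
  have h3 := snd_succ_le hadj (entD k v)
  omega

theorem UpDown.entD_lt_entU (h : UpDown v) {k l : ℤ} (hkl : k < l) : entD k v < entU l v := by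
  by_contra hcon
  have h1 := h.entD_spec (k := k) (i := entU l v) (by omega)
  have h2 := h.entU_spec (k := l) (i := entU l v) le_rfl
  omega

theorem UpDown.entU_mono (h : UpDown v) {k l : ℤ} (hkl : k ≤ l) : entU k v ≤ entU l v :=
  h.entU_le fun _ hi => hkl.trans (h.entU_spec hi)

theorem UpDown.entD_mono (h : UpDown v) {k l : ℤ} (hkl : k ≤ l) : entD k v ≤ entD l v :=
  h.le_entD fun _ hi => (h.entD_spec hi).trans hkl

theorem UpDown.shift (h : UpDown v) (a : ℤ × ℤ) : UpDown fun n => v n + a := by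
  refine ⟨?_, ?_⟩
  · simpa using tendsto_atTop_add_const_right _ a.2 h.1
  · simpa using tendsto_atBot_add_const_right _ a.2 h.2



theorem entU_add (k : ℤ) (v : ℤ → ℤ × ℤ) (a : ℤ × ℤ) :
    entU (k + a.2) (fun n => v n + a) = entU k v := by
  unfold entU
  congr 1
  ext j
  simp

theorem entD_add (k : ℤ) (v : ℤ → ℤ × ℤ) (a : ℤ × ℤ) :
    entD (k + a.2) (fun n => v n + a) = entD k v := by
  unfold entD
  congr 1
  ext j
  simp

theorem tailU_add (k : ℤ) (v : ℤ → ℤ × ℤ) (a : ℤ × ℤ) :
    tailU (k + a.2) (fun n => v n + a) = fun n => tailU k v n + a := by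
  funext n
  unfold tailU
  rw [entU_add]

theorem tailD_add (k : ℤ) (v : ℤ → ℤ × ℤ) (a : ℤ × ℤ) :
    tailD (k + a.2) (fun n => v n + a) = fun n => tailD k v n + a := by
  funext n
  unfold tailD
  rw [entD_add]





/-- reflection in the line `y = 0` composed with time reversal -/
def rv (v : ℤ → ℤ × ℤ) (n : ℤ) : ℤ × ℤ := ((v (-n)).1, -(v (-n)).2)

theorem rv_rv (v : ℤ → ℤ × ℤ) : rv (rv v) = v := by
  funext n
  simp [rv]

theorem UpDown.rv (h : UpDown v) : UpDown (rv v) := by
  refine ⟨?_, ?_⟩
  · have := (tendsto_neg_atBot_atTop.comp h.2).comp tendsto_neg_atTop_atBot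
    exact this
  · have := (tendsto_neg_atTop_atBot.comp h.1).comp tendsto_neg_atBot_atTop
    exact this

theorem UpDown.entU_rv (h : UpDown v) : entU (-k) (SEL.rv v) = -entD k v := by
  have hr := h.rv
  refine le_antisymm ?_ ?_
  · refine hr.entU_le fun i hi => ?_
    have := h.entD_spec (k := k) (i := -i) (by omega)
    simp only [SEL.rv]
    omega
  · have : -entU (-k) (SEL.rv v) ≤ entD k v := by
      refine h.le_entD fun i hi => ?_
      have := hr.entU_spec (k := -k) (i := -i) (by omega)
      simp only [SEL.rv, neg_neg] at this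
      omega
    omega

theorem UpDown.tailU_rv (h : UpDown v) (n : ℕ) :
    tailU (-k) (SEL.rv v) n = ((tailD k v n).1, -(tailD k v n).2) := by
  unfold tailU tailD
  rw [h.entU_rv]
  simp only [SEL.rv]
  have : -(-entD k v + (n : ℤ)) = entD k v - n := by ring
  rw [this]

end deterministic

section rays

variable {t : Environment} {v : ℤ → ℤ × ℤ}

theorem isRay_tailU (h : IsBigeodesic t v) (ht : ∀ e, 0 ≤ t e) (hv : UpDown v) (k : ℤ) :
    IsRay t (reg (Up k)) (tailU k v) := by
  have hr := isRay_of_isBigeodesic h ht (entU k v)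
  refine hr.of_le ht (reg_le _) fun n => ?_
  rw [reg_adj]
  exact ⟨hr.adj n, hv.entU_spec (by omega), hv.entU_spec (by omega)⟩

theorem isRay_tailD (h : IsBigeodesic t v) (ht : ∀ e, 0 ≤ t e) (hv : UpDown v) (k : ℤ) :
    IsRay t (reg (Dn k)) (tailD k v) := by
  have hr := isRay_of_isBigeodesic_neg h ht (entD k v)
  refine hr.of_le ht (reg_le _) fun n => ?_
  rw [reg_adj]
  exact ⟨hr.adj n, hv.entD_spec (by omega), hv.entD_spec (by omega)⟩

/-- Busemann function of the upper tail in `{y ≥ k}` -/
noncomputable def fU (t : Environment) (k : ℤ) (v : ℤ → ℤ × ℤ) (w : ℤ × ℤ) : ℝ :=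
  bus t (reg (Up k)) (tailU k v) w

/-- Busemann function of the lower tail in `{y ≤ k}` -/
noncomputable def fD (t : Environment) (k : ℤ) (v : ℤ → ℤ × ℤ) (w : ℤ × ℤ) : ℝ :=
  bus t (reg (Dn k)) (tailD k v) w

theorem fU_shift (a : ℤ × ℤ) (t : Environment) (k : ℤ) (v : ℤ → ℤ × ℤ) (w : ℤ × ℤ) :
    fU t (k + a.2) (fun n => v n + a) (w + a) = fU (A.shift a t) k v w := by
  unfold fU
  rw [tailU_add, bus_shift a t (adj_Up_add k a)]

theorem fD_shift (a : ℤ × ℤ) (t : Environment) (k : ℤ) (v : ℤ → ℤ × ℤ) (w : ℤ × ℤ) :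
    fD t (k + a.2) (fun n => v n + a) (w + a) = fD (A.shift a t) k v w := by
  unfold fD
  rw [tailD_add, bus_shift a t (adj_Dn_add k a)]



end rays

/-! ## measurability -/

section meas

variable {Ω : Type*} [MeasurableSpace Ω]

theorem int_sSup_eq (S : Set ℤ) : sSup S = -sInf (-S) := by
  by_cases hne : S.Nonempty
  · by_cases hb : BddAbove S
    · rw [csInf_neg hne hb, neg_neg]
    · have hb' : ¬ BddBelow (-S) := by
        rwa [bddBelow_neg]
      rw [Int.csSup_of_not_bddAbove hb, Int.csInf_of_not_bddBelow hb', neg_zero]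
  · rw [Set.not_nonempty_iff_eq_empty] at hne
    rw [hne, Set.neg_empty, Int.csSup_empty, Int.csInf_empty, neg_zero]

/-- infimum of a random upward closed set of integers -/
theorem measurable_sInf_int {P : Ω → ℤ → Prop} (h : ∀ j, MeasurableSet {ω | P ω j})
    (hup : ∀ ω i j, i ≤ j → P ω i → P ω j) : Measurable fun ω => sInf {j | P ω j} := by
  refine measurable_to_countable' fun m => ?_
  have key : (fun ω => sInf {j | P ω j}) ⁻¹' {m} =
      ({ω | P ω m} ∩ {ω | P ω (m - 1)}ᶜ) ∪
        ({_ω | m = 0} ∩ ((⋂ i, {ω | P ω i}ᶜ) ∪ (⋂ i, {ω | P ω i}))) := by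
    ext ω
    simp only [Set.mem_preimage, Set.mem_singleton_iff, Set.mem_union, Set.mem_inter_iff,
      Set.mem_ofPred_eq, Set.mem_iInter, Set.mem_compl_iff]
    constructor
    · intro hm
      by_cases hne : {j | P ω j}.Nonempty
      · by_cases hb : BddBelow {j | P ω j}
        · left
          have h1 := Int.csInf_mem hne hb
          rw [hm] at h1
          refine ⟨h1, fun hP => ?_⟩
          have h2 : sInf {j | P ω j} ≤ m - 1 := csInf_le hb hP
          omega
        · right
          rw [Int.csInf_of_not_bddBelow hb] at hm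
          refine ⟨hm.symm, Or.inr fun i => ?_⟩
          rw [not_bddBelow_iff] at hb
          obtain ⟨j, hj, hji⟩ := hb i
          exact hup ω j i hji.le hj
      · right
        rw [Set.not_nonempty_iff_eq_empty] at hne
        refine ⟨?_, Or.inl fun i hP => ?_⟩
        · rw [← hm, hne, Int.csInf_empty]
        · have : i ∈ {j | P ω j} := hP
          rw [hne] at this
          exact this
    · rintro (⟨h1, h2⟩ | ⟨h0, h1 | h1⟩)
      · have hlow : ∀ j, P ω j → m ≤ j := fun j hj => by
          by_contra hcon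
          exact h2 (hup ω j (m - 1) (by omega) hj)
        exact le_antisymm (csInf_le ⟨m, hlow⟩ h1) (le_csInf ⟨m, h1⟩ hlow)
      · have : {j | P ω j} = ∅ := Set.eq_empty_iff_forall_notMem.2 h1
        rw [this, Int.csInf_empty, h0]
      · have hb : ¬ BddBelow {j | P ω j} := by
          rw [not_bddBelow_iff]
          exact fun j => ⟨j - 1, h1 _, by omega⟩
        rw [Int.csInf_of_not_bddBelow hb, h0]
  rw [key]
  refine MeasurableSet.union ((h m).inter (h (m - 1)).compl) ((MeasurableSet.const _).inter ?_)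
  exact (MeasurableSet.iInter fun i => (h i).compl).union (MeasurableSet.iInter fun i => h i)

variable {γ : Ω → ℤ → ℤ × ℤ}

theorem measurable_entU (hγ : ∀ n, Measurable fun ω => γ ω n) (k : ℤ) :
    Measurable fun ω => entU k (γ ω) := by
  refine measurable_sInf_int (P := fun ω j => ∀ i, j ≤ i → k ≤ (γ ω i).2) (fun j => ?_)
    (fun ω i j hij h l hl => h l (hij.trans hl))
  have : {ω | ∀ i, j ≤ i → k ≤ (γ ω i).2} =
      ⋂ i : ℤ, ⋂ (_ : j ≤ i), (fun ω => γ ω i) ⁻¹' {w | k ≤ w.2} := by
    ext ω
    simp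
  rw [this]
  exact MeasurableSet.iInter fun i => MeasurableSet.iInter fun _ =>
    hγ i (MeasurableSet.of_discrete)

theorem measurable_entD (hγ : ∀ n, Measurable fun ω => γ ω n) (k : ℤ) :
    Measurable fun ω => entD k (γ ω) := by
  have h1 : ∀ ω, entD k (γ ω) = -sInf {j | ∀ i, i ≤ -j → (γ ω i).2 ≤ k} := by
    intro ω
    unfold entD
    have h2 : {j : ℤ | ∀ i, i ≤ -j → (γ ω i).2 ≤ k} =
        -{j : ℤ | ∀ i, i ≤ j → (γ ω i).2 ≤ k} := by
      ext j
      simp
    rw [int_sSup_eq, h2]
  simp_rw [h1]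
  refine (measurable_sInf_int (P := fun ω j => ∀ i, i ≤ -j → (γ ω i).2 ≤ k) (fun j => ?_)
    (fun ω i j hij h l hl => h l (by omega))).neg
  have : {ω | ∀ i, i ≤ -j → (γ ω i).2 ≤ k} =
      ⋂ i : ℤ, ⋂ (_ : i ≤ -j), (fun ω => γ ω i) ⁻¹' {w | w.2 ≤ k} := by
    ext ω
    simp
  rw [this]
  exact MeasurableSet.iInter fun i => MeasurableSet.iInter fun _ =>
    hγ i (MeasurableSet.of_discrete)

theorem measurable_tailU (hγ : ∀ n, Measurable fun ω => γ ω n) (k : ℤ) (n : ℕ) :
    Measurable fun ω => tailU k (γ ω) n :=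
  measurable_eval (f := fun ω (m : ℤ) => γ ω (m + n)) (fun m => hγ (m + n)) (measurable_entU hγ k)

theorem measurable_tailD (hγ : ∀ n, Measurable fun ω => γ ω n) (k : ℤ) (n : ℕ) :
    Measurable fun ω => tailD k (γ ω) n :=
  measurable_eval (f := fun ω (m : ℤ) => γ ω (m - n)) (fun m => hγ (m - n)) (measurable_entD hγ k)

theorem measurable_fU {τ : Ω → Environment} (hτ : Measurable τ)
    (hγ : ∀ n, Measurable fun ω => γ ω n) (k : ℤ) (w : ℤ × ℤ) :
    Measurable fun ω => fU (τ ω) k (γ ω) w :=
  measurable_bus _ hτ (fun n => measurable_tailU hγ k n) w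

theorem measurable_fD {τ : Ω → Environment} (hτ : Measurable τ)
    (hγ : ∀ n, Measurable fun ω => γ ω n) (k : ℤ) (w : ℤ × ℤ) :
    Measurable fun ω => fD (τ ω) k (γ ω) w :=
  measurable_bus _ hτ (fun n => measurable_tailD hγ k n) w


end meas

/-! ## the selected bigeodesic -/








end Crest.Agent.R151.SEL
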