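import Mathlib
import Crest.Agent.R151.H617e
import Crest.Agent.R151.S113E
import Crest.Agent.R151.K9e

/-!
# R151/H617f — block (C): reindexing by slopes, cut slopes, percolation instance (owner helper617)
-/

set_option autoImplicit false

open MeasureTheory ProbabilityTheory Filter Set
open scoped ENNReal Topology
open Crest.ProbabilityR.FirstPassage

namespace Crest.Agent.R151.H

variable {Ω : Type*} [MeasurableSpace Ω] {P : Measure Ω}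

/-! ### reindexing by slopes -/

/-- label functions indexed by directions `t ∈ Q ∩ T`, mean increment `-φ₁ t`, decreasing in `t` -/
structure DirFam (P : Measure Ω) (Q T : Set ℝ) (φ₁ : ℝ → ℝ) (F : ℝ → Ω → ℤ → ℝ) : Prop where
  open_T : IsOpen T
  mono_φ : MonotoneOn φ₁ T
  cont_φ : ContinuousOn φ₁ T
  count : Q.Countable
  dense : Dense Q
  meas : ∀ t ∈ Q ∩ T, ∀ x, Measurable fun ω => F t ω x
  int : ∀ t ∈ Q ∩ T, ∀ x, Integrable (fun ω => inc (F t ω) x) P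
  mean : ∀ t ∈ Q ∩ T, ∀ x, ∫ ω, inc (F t ω) x ∂P = -φ₁ t
  mono : ∀ t ∈ Q ∩ T, ∀ t' ∈ Q ∩ T, t < t' → ∀ᵐ ω ∂P, ∀ x, inc (F t' ω) x ≤ inc (F t ω) x

/-- the slopes -/
def slopes (Q T : Set ℝ) (φ₁ : ℝ → ℝ) : Set ℝ := φ₁ '' (Q ∩ T)









/-! ### the cut slope -/

/-- **cut**: a function comparable with every member of a decreasing family has a slope label -/
theorem exists_slope {D : Set ℝ} {f : ℝ → ℤ → ℝ} {A B : ℝ} (hAB : A ≤ B) (hD : D ⊆ Icc A B)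
    (hmono : ∀ p ∈ D, ∀ q ∈ D, p < q → ∀ x, inc (f q) x ≤ inc (f p) x) {h : ℤ → ℝ}
    (hcmp : ∀ p ∈ D, (∀ x, inc h x ≤ inc (f p) x) ∨ ∀ x, inc (f p) x ≤ inc h x) :
    ∃ s ∈ Icc A B, Sand D f s h := by
  set E : Set ℝ := insert A {p | p ∈ D ∧ ∀ x, inc h x ≤ inc (f p) x} with hE
  have hEb : ∀ p ∈ E, p ≤ B := by
    rintro p (rfl | ⟨hp, -⟩)
    · exact hAB
    · exact (hD hp).2
  have hbdd : BddAbove E := ⟨B, hEb⟩
  have hA : A ∈ E := mem_insert _ _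
  refine ⟨sSup E, ⟨le_csSup hbdd hA, csSup_le ⟨A, hA⟩ hEb⟩, ⟨?_, ?_⟩⟩
  · intro p hp hps x
    obtain ⟨p', hp', hlt⟩ := exists_lt_of_lt_csSup ⟨A, hA⟩ hps
    rcases hp' with rfl | ⟨hp'D, hp'x⟩
    · exact absurd (hD hp).1 (not_le.2 hlt)
    · exact (hp'x x).trans (hmono p hp p' hp'D hlt x)
  · intro q hq hsq x
    rcases hcmp q hq with h1 | h1
    · exact absurd (le_csSup hbdd (mem_insert_of_mem _ ⟨hq, h1⟩)) (not_le.2 hsq)
    · exact h1 x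

/-- the same for an increasing family -/
theorem exists_slope_up {D : Set ℝ} {f : ℝ → ℤ → ℝ} {A B : ℝ} (hAB : A ≤ B) (hD : D ⊆ Icc A B)
    (hmono : ∀ p ∈ D, ∀ q ∈ D, p < q → ∀ x, inc (f p) x ≤ inc (f q) x) {h : ℤ → ℝ}
    (hcmp : ∀ p ∈ D, (∀ x, inc h x ≤ inc (f p) x) ∨ ∀ x, inc (f p) x ≤ inc h x) :
    ∃ s ∈ Icc A B, SandUp D f s h := by
  set E : Set ℝ := insert A {p | p ∈ D ∧ ∀ x, inc (f p) x ≤ inc h x} with hE
  have hEb : ∀ p ∈ E, p ≤ B := by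
    rintro p (rfl | ⟨hp, -⟩)
    · exact hAB
    · exact (hD hp).2
  have hbdd : BddAbove E := ⟨B, hEb⟩
  have hA : A ∈ E := mem_insert _ _
  refine ⟨sSup E, ⟨le_csSup hbdd hA, csSup_le ⟨A, hA⟩ hEb⟩, ⟨?_, ?_⟩⟩
  · intro p hp hps x
    obtain ⟨p', hp', hlt⟩ := exists_lt_of_lt_csSup ⟨A, hA⟩ hps
    rcases hp' with rfl | ⟨hp'D, hp'x⟩
    · exact absurd (hD hp).1 (not_le.2 hlt)
    · exact (hmono p hp p' hp'D hlt x).trans (hp'x x)
  · intro q hq hsq x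
    rcases hcmp q hq with h1 | h1
    · exact h1 x
    · exact absurd (le_csSup hbdd (mem_insert_of_mem _ ⟨hq, h1⟩)) (not_le.2 hsq)

/-- uniqueness of the cut, from two-sided slopes or simply from separation of the family -/
theorem Sand.unique {D : Set ℝ} {f : ℝ → ℤ → ℝ} {s s' : ℝ} {h : ℤ → ℝ}
    (H : Sand D f s h) (H' : Sand D f s' h)
    (hsep : ∀ x y, min s s' ≤ x → y ≤ max s s' → x < y → ∃ p ∈ D, ∃ q ∈ D, x < p ∧ p < q ∧ q < y ∧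
      ∃ z, inc (f p) z ≠ inc (f q) z)
    (hmono : ∀ p ∈ D, ∀ q ∈ D, p < q → ∀ x, inc (f q) x ≤ inc (f p) x) : s = s' := by
  have key : ∀ {s s' : ℝ}, Sand D f s h → Sand D f s' h → s < s' →
      (∃ p ∈ D, ∃ q ∈ D, s < p ∧ p < q ∧ q < s' ∧ ∃ z, inc (f p) z ≠ inc (f q) z) → False := by
    rintro s s' H H' hlt ⟨p, hp, q, hq, h1, h2, h3, z, hz⟩
    have e1 := H.ge p hp h1 z
    have e2 := H'.le q hq h3 z
    have e3 := hmono p hp q hq h2 z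
    exact hz (le_antisymm (e1.trans e2) e3)
  rcases lt_trichotomy s s' with hlt | h0 | hlt
  · exact (key H H' hlt (hsep s s' (min_le_left _ _) (le_max_right _ _) hlt)).elim
  · exact h0
  · exact (key H' H hlt (hsep s' s (min_le_right _ _) (le_max_left _ _) hlt)).elim

/-! ### percolation instance -/

open Crest.Agent.R151 Crest.Agent.R151.Y Crest.Agent.R151.SEL

/-- a ray function restricted to a row: increments are bounded by the boundary passage times -/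
theorem abs_inc_le_of_isLip {t : Environment} {R : Set (ℤ × ℤ)} {f : ℤ × ℤ → ℝ}
    (hf : IsLip t (reg R) f) {k x : ℤ} (h1 : ((x, k) : ℤ × ℤ) ∈ R)
    (h2 : ((x + 1, k) : ℤ × ℤ) ∈ R) :
    |inc (fun w => f (w, k)) x| ≤ K.pR t R (x, k) (x + 1, k) := by
  rw [pR_eq_pt h1]
  have hadj : (reg R).Adj (x, k) (x + 1, k) := by
    rw [reg_adj]
    exact ⟨K.adj_right x k, h1, h2⟩
  have := hf.abs_sub_le_pt hadj.reachable
  unfold inc
  rwa [abs_sub_comm]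

/-- the label of an up-down path: rows `k` (upper) and `j` (lower) -/
noncomputable def lab (t : Environment) (k j : ℤ) (v : ℤ → ℤ × ℤ) : (ℤ → ℝ) × (ℤ → ℝ) :=
  (fun w => fU t k v (w, k), fun w => fD t j v (w, j))

theorem inc_lab_le {t : Environment} (ht : ∀ e, 0 ≤ t e) {v : ℤ → ℤ × ℤ} (h : IsBigeodesic t v)
    (hv : UpDown v) (k j x : ℤ) :
    |inc (lab t k j v).1 x| ≤ K.pR t (Up k) (x, k) (x + 1, k) ∧
      |inc (lab t k j v).2 x| ≤ K.pR t (Dn j) (x, j) (x + 1, j) :=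
  ⟨abs_inc_le_of_isLip (isLip_bus ht (isRay_tailU h ht hv k)) (by simp [Up]) (by simp [Up]),
    abs_inc_le_of_isLip (isLip_bus ht (isRay_tailD h ht hv j)) (by simp [Dn]) (by simp [Dn])⟩

/-- **CLASS for percolation**: rows `k` (functions of `Up k`) and `j` (functions of `Dn j`). -/
theorem class_rows {G : Measure ℝ} [IsProbabilityMeasure G] (hG : M51.Law213 G) (k j : ℤ)
    {L : Environment → Set ((ℤ → ℝ) × (ℤ → ℝ))}
    (htot : ∀ᵐ t ∂(iidLaw G), ∀ a ∈ L t, ∀ b ∈ L t, LabLe a b ∨ LabLe b a)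
    (hb : ∀ᵐ t ∂(iidLaw G), ∀ a ∈ L t, ∀ x, |inc a.1 x| ≤ K.pR t (Up k) (x, k) (x + 1, k) ∧
      |inc a.2 x| ≤ K.pR t (Dn j) (x, j) (x + 1, j))
    {κ : ℝ} (hκ : 0 < κ) :
    ∃ C₁ : ℝ, 0 ≤ C₁ ∧ ∀ h : ℕ, ∃ N : Environment → ℝ, Measurable N ∧ (∀ t, 0 ≤ N t) ∧
      Integrable N (iidLaw G) ∧ ∫ t, N t ∂(iidLaw G) ≤ C₁ * (h + 1) ∧
      ∀ᵐ t ∂(iidLaw G), ∃ Rep : Finset ((ℤ → ℝ) × (ℤ → ℝ)), (∀ b ∈ Rep, b ∈ L t) ∧
        (Rep.card : ℝ) ≤ N t ∧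
        ∀ a ∈ L t, ∃ b ∈ Rep, ∀ x y : ℤ, -(h : ℤ) ≤ x → x ≤ h → -(h : ℤ) ≤ y → y ≤ h →
          |(a.1 x - b.1 x) - (a.1 y - b.1 y)| ≤ κ ∧ |(a.2 x - b.2 x) - (a.2 y - b.2 y)| ≤ κ := by
  have hUr : ({z : ℤ × ℤ | z.2 ∈ Ici k} : Set (ℤ × ℤ)) = Up k := rfl
  have hDr : ({z : ℤ × ℤ | z.2 ∈ Iic j} : Set (ℤ × ℤ)) = Dn j := rfl
  have rU := K.regMom_row hG (M51.thick_Ici k) ordConnected_Ici
  have rD := K.regMom_row hG (M51.thick_Iic j) ordConnected_Iic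
  rw [hUr] at rU
  rw [hDr] at rD
  have hnn : ∀ᵐ t ∂(iidLaw G), K.Nn t := K.ae_Nn hG.h0
  have mean : ∀ (R : Set (ℤ × ℤ)) (k : ℤ), K.RegMom G R (K.cM G) →
      (∀ x : ℤ, ((x, k) : ℤ × ℤ) ∈ R) → ∀ x : ℤ,
      Integrable (fun t => K.pR t R (x, k) (x + 1, k)) (iidLaw G) ∧
      ∫ t, |K.pR t R (x, k) (x + 1, k)| ∂(iidLaw G) ≤ K.cM G := by
    intro R k hR hmem x
    refine ⟨hR.int _ (hmem _) _ (hmem _), ?_⟩
    have h1 : ∫ t, |K.pR t R (x, k) (x + 1, k)| ∂(iidLaw G) =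
        ∫ t, K.pR t R (x, k) (x + 1, k) ∂(iidLaw G) := by
      refine integral_congr_ae ?_
      filter_upwards [hnn] with t ht
      rw [abs_of_nonneg (K.pR_nonneg ht _ _ _)]
    rw [h1]
    have h2 := hR.le _ (hmem x) _ (hmem (x + 1))
    have h3 : (K.n1 (((x + 1, k) : ℤ × ℤ) - (x, k)) : ℝ) = 1 := by
      simp [K.n1]
    rw [h3] at h2
    linarith
  exact class_int htot (U := fun t x => K.pR t (Up k) (x, k) (x + 1, k))
    (V := fun t x => K.pR t (Dn j) (x, j) (x + 1, j))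
    (fun x => K.measurable_pR _ _ _) (fun x => K.measurable_pR _ _ _)
    (fun x => (mean _ _ rU (fun x => by simp [Up]) x).1)
    (fun x => (mean _ _ rD (fun x => by simp [Dn]) x).1)
    (C₀ := K.cM G) (fun x => (mean _ _ rU (fun x => by simp [Up]) x).2)
    (fun x => (mean _ _ rD (fun x => by simp [Dn]) x).2) hb hκ

/-- edges of `Up k` and of `Dn j` are disjoint for `j < k` -/
lemma disjoint_edges {j k : ℤ} (hjk : j < k) :
    Disjoint {e : Sym2 (ℤ × ℤ) | ∀ z ∈ e, z ∈ Up k} {e : Sym2 (ℤ × ℤ) | ∀ z ∈ e, z ∈ Dn j} := by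
  rw [Set.disjoint_left]
  intro e h1 h2
  induction e with
  | _ x y =>
    have a := h1 x (by simp)
    have b := h2 x (by simp)
    simp only [Up, Dn, mem_ofPred_eq] at a b
    omega

/-- **total order of all labels**, from CHAIN -/
theorem labels_total {Ω : Type*} [MeasurableSpace Ω] {P : Measure Ω} {D : Set ℝ} {A B : ℝ}
    (hD : ∀ x y, A < x → x < y → y < B → ∃ p ∈ D, x < p ∧ p < y)
    {f g : ℝ → Ω → ℤ → ℝ}
    (hc : ∀ᵐ ω ∂P, ∀ s, A < s → s < B →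
      ContAt D (fun p => f p ω) s ∨ ContAt D (fun p => g p ω) s)
    {L : Ω → Set ((ℤ → ℝ) × (ℤ → ℝ))} {sl : Ω → (ℤ → ℝ) × (ℤ → ℝ) → ℝ}
    (hL : ∀ᵐ ω ∂P, ∀ a ∈ L ω, A < sl ω a ∧ sl ω a < B ∧
      Sand D (fun p => f p ω) (sl ω a) a.1 ∧ SandUp D (fun p => g p ω) (sl ω a) a.2)
    (hU : ∀ᵐ ω ∂P, ∀ a ∈ L ω, ∀ b ∈ L ω, sl ω a = sl ω b → Cmp a.1 b.1)
    (hV : ∀ᵐ ω ∂P, ∀ a ∈ L ω, ∀ b ∈ L ω, sl ω a = sl ω b → Cmp a.2 b.2) :
    ∀ᵐ ω ∂P, ∀ a ∈ L ω, ∀ b ∈ L ω, LabLe a b ∨ LabLe b a := by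
  filter_upwards [hc, hL, hU, hV] with ω h1 h2 h3 h4 a ha b hb
  obtain ⟨a1, a2, a3, a4⟩ := h2 a ha
  obtain ⟨b1, b2, b3, b4⟩ := h2 b hb
  refine lab_total ?_ (h1 _ a1 a2) a3 a4 b3 b4 (h3 a ha b hb) (h4 a ha b hb)
  intro x y hx hy hxy
  refine hD x y ((lt_min a1 b1).trans_le hx) hxy (hy.trans_lt (max_lt a2 b2))

end Crest.Agent.R151.H
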