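import Crest.Agent.R151.Q5b

/-!
# R151 / S0214 part 2, Q5c — walks and lists, staircases (owner helper777)
-/

set_option autoImplicit false

open MeasureTheory Filter ProbabilityTheory Topology
open Crest.ProbabilityR.FirstPassage
open Crest.Agent.R151.K

namespace Crest.Agent.R151.Q

open B710 (FlatData)
open SimpleGraph (Walk)

/-! ### Walks and lists -/


lemma mem_pathsBT_of_isPath {Q : Finset (ℤ × ℤ)} {h : ℤ × ℤ → ℝ} {κ : ℝ} {x y : ℤ × ℤ}
    {w : squareLattice.Walk x y} (hp : w.IsPath) (hQ : ∀ z ∈ w.support, z ∈ Q)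
    (hb : bt h κ w.support) : w.support ∈ pathsBT Q x y h κ := by
  refine ⟨hp.support_nodup, w.isChain_adj_support, hQ, ?_, ?_, hb⟩
  · rw [← SimpleGraph.Walk.cons_tail_support w]; rfl
  · rw [List.getLast?_eq_getLast_of_ne_nil w.support_ne_nil, SimpleGraph.Walk.getLast_support]

lemma bypass_mem_pathsBT {Q : Finset (ℤ × ℤ)} {h : ℤ × ℤ → ℝ} {κ : ℝ} {x y : ℤ × ℤ}
    (w : squareLattice.Walk x y) (hQ : ∀ z ∈ w.support, z ∈ Q)
    (hb : bt h κ w.support) : w.bypass.support ∈ pathsBT Q x y h κ :=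
  mem_pathsBT_of_isPath w.bypass_isPath (fun z hz => hQ z (w.support_bypass_subset_support hz))
    (hb.sublist w.support_bypass_sublist_support)


/-! ### Chains -/

/-- sup-distance at most one -/
def near (x y : ℤ × ℤ) : Prop := |x.1 - y.1| ≤ 1 ∧ |x.2 - y.2| ≤ 1

lemma near_refl (x : ℤ × ℤ) : near x x := by simp [near]

lemma exists_walk_near {x y : ℤ × ℤ} (h : near x y) :
    ∃ w : squareLattice.Walk x y, ∀ v ∈ w.support, near v y := by
  obtain ⟨x1, x2⟩ := x
  obtain ⟨y1, y2⟩ := y
  obtain ⟨h1, h2⟩ := h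
  simp only at h1 h2
  -- horizontal step
  have hor : ∃ w : squareLattice.Walk (x1, x2) (y1, x2),
      ∀ v ∈ w.support, near v (y1, y2) := by
    rw [abs_le] at h1
    rcases (show x1 = y1 ∨ y1 = x1 + 1 ∨ x1 = y1 + 1 by omega) with rfl | rfl | rfl
    · refine ⟨SimpleGraph.Walk.nil, ?_⟩
      intro v hv
      rw [SimpleGraph.Walk.support_nil, List.mem_singleton] at hv
      subst hv
      exact ⟨by simp, h2⟩
    · refine ⟨SimpleGraph.Walk.cons (adj_right x1 x2) SimpleGraph.Walk.nil, ?_⟩
      intro v hv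
      simp only [SimpleGraph.Walk.support_cons, SimpleGraph.Walk.support_nil, List.mem_cons,
        List.not_mem_nil, or_false] at hv
      rcases hv with rfl | rfl
      · exact ⟨by simp, h2⟩
      · exact ⟨by simp, h2⟩
    · refine ⟨SimpleGraph.Walk.cons (adj_right y1 x2).symm SimpleGraph.Walk.nil, ?_⟩
      intro v hv
      simp only [SimpleGraph.Walk.support_cons, SimpleGraph.Walk.support_nil, List.mem_cons,
        List.not_mem_nil, or_false] at hv
      rcases hv with rfl | rfl
      · exact ⟨by simp, h2⟩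
      · exact ⟨by simp, h2⟩
  have ver : ∃ w : squareLattice.Walk (y1, x2) (y1, y2),
      ∀ v ∈ w.support, near v (y1, y2) := by
    rw [abs_le] at h2
    rcases (show x2 = y2 ∨ y2 = x2 + 1 ∨ x2 = y2 + 1 by omega) with rfl | rfl | rfl
    · refine ⟨SimpleGraph.Walk.nil, ?_⟩
      intro v hv
      rw [SimpleGraph.Walk.support_nil, List.mem_singleton] at hv
      subst hv
      exact near_refl _
    · refine ⟨SimpleGraph.Walk.cons (adj_up y1 x2) SimpleGraph.Walk.nil, ?_⟩
      intro v hv
      simp only [SimpleGraph.Walk.support_cons, SimpleGraph.Walk.support_nil, List.mem_cons,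
        List.not_mem_nil, or_false] at hv
      rcases hv with rfl | rfl
      · simp [near]
      · exact near_refl _
    · refine ⟨SimpleGraph.Walk.cons (adj_up y1 y2).symm SimpleGraph.Walk.nil, ?_⟩
      intro v hv
      simp only [SimpleGraph.Walk.support_cons, SimpleGraph.Walk.support_nil, List.mem_cons,
        List.not_mem_nil, or_false] at hv
      rcases hv with rfl | rfl
      · simp [near]
      · exact near_refl _
  obtain ⟨w1, hw1⟩ := hor
  obtain ⟨w2, hw2⟩ := ver
  refine ⟨w1.append w2, ?_⟩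
  intro v hv
  rw [SimpleGraph.Walk.mem_support_append_iff] at hv
  rcases hv with hv | hv
  · exact hw1 v hv
  · exact hw2 v hv

/-- a walk along a chain of points with consecutive sup-distance at most one; the order of the walk
follows the order of the chain -/
lemma exists_chain_walk (c : ℕ → ℤ × ℤ) (n : ℕ) (hc : ∀ i < n, near (c i) (c (i + 1))) :
    ∃ w : squareLattice.Walk (c 0) (c n),
      (∀ v ∈ w.support, ∃ i ≤ n, near v (c i)) ∧
      w.support.Pairwise (fun u v => ∃ i j, i ≤ j ∧ j ≤ n ∧ near u (c i) ∧ near v (c j)) := by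
  induction n with
  | zero =>
    refine ⟨SimpleGraph.Walk.nil, ?_, ?_⟩
    · intro v hv
      rw [SimpleGraph.Walk.support_nil, List.mem_singleton] at hv
      subst hv
      exact ⟨0, le_rfl, near_refl _⟩
    · simp
  | succ n ih =>
    obtain ⟨w, hw1, hw2⟩ := ih fun i hi => hc i (by omega)
    obtain ⟨w', hw'⟩ := exists_walk_near (hc n (by omega))
    refine ⟨w.append w', ?_, ?_⟩
    · intro v hv
      rw [SimpleGraph.Walk.mem_support_append_iff] at hv
      rcases hv with hv | hv
      · obtain ⟨i, hi, h⟩ := hw1 v hv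
        exact ⟨i, by omega, h⟩
      · exact ⟨n + 1, le_rfl, hw' v hv⟩
    · rw [SimpleGraph.Walk.support_append, List.pairwise_append]
      refine ⟨?_, ?_, ?_⟩
      · refine hw2.imp ?_
        rintro u v ⟨i, j, h1, h2, h3, h4⟩
        exact ⟨i, j, h1, by omega, h3, h4⟩
      · refine List.Pairwise.imp_of_mem (R := fun _ _ => True) ?_ (List.pairwise_of_forall
          fun _ _ => trivial)
        intro u v hu hv _
        exact ⟨n + 1, n + 1, le_rfl, le_rfl, hw' u (List.mem_of_mem_tail hu),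
          hw' v (List.mem_of_mem_tail hv)⟩
      · intro u hu v hv
        obtain ⟨i, hi, h⟩ := hw1 u hu
        exact ⟨i, n + 1, by omega, le_rfl, h, hw' v (List.mem_of_mem_tail hv)⟩

/-! ### The staircase along a segment -/

/-- point of the segment -/
noncomputable def sgm (P Q : ℝ × ℝ) (s : ℝ) : ℝ × ℝ := P + s • (Q - P)

/-- coordinatewise rounding -/
noncomputable def rd (v : ℝ × ℝ) : ℤ × ℤ := (round v.1, round v.2)

lemma norm_rd (v : ℝ × ℝ) : ‖toR (rd v) - v‖ ≤ 1 / 2 := by
  unfold rd toR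
  rw [Prod.norm_def]
  refine max_le ?_ ?_
  · have := abs_sub_round v.1
    rw [Prod.fst_sub, Real.norm_eq_abs, abs_sub_comm]; exact this
  · have := abs_sub_round v.2
    rw [Prod.snd_sub, Real.norm_eq_abs, abs_sub_comm]; exact this

lemma rd_toR (z : ℤ × ℤ) : rd (toR z) = z := by
  unfold rd toR; simp

lemma near_rd {u v : ℝ × ℝ} (h : ‖u - v‖ < 1) : near (rd u) (rd v) := by
  have aux : ∀ x y : ℝ, |x - y| < 1 → |round x - round y| ≤ 1 := by
    intro x y hxy
    have h1 := abs_sub_round x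
    have h2 := abs_sub_round y
    have h3 : |((round x - round y : ℤ) : ℝ)| < 2 := by
      push_cast
      rw [abs_le] at h1 h2
      rw [abs_lt] at hxy ⊢
      constructor <;> linarith [h1.1, h1.2, h2.1, h2.2, hxy.1, hxy.2]
    have h4 : |round x - round y| < 2 := by
      have : ((|round x - round y| : ℤ) : ℝ) < 2 := by rwa [Int.cast_abs]
      exact_mod_cast this
    omega
  exact ⟨aux _ _ ((norm_fst_le (u - v)).trans_lt h), aux _ _ ((norm_snd_le (u - v)).trans_lt h)⟩

lemma norm_toR_near {x y : ℤ × ℤ} (h : near x y) : ‖toR x - toR y‖ ≤ 1 := by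
  unfold toR
  rw [Prod.norm_def]
  refine max_le ?_ ?_
  · rw [Prod.fst_sub, Real.norm_eq_abs]
    have := h.1
    have e : |(x.1 : ℝ) - y.1| = ((|x.1 - y.1| : ℤ) : ℝ) := by push_cast; rfl
    rw [e]; exact_mod_cast this
  · rw [Prod.snd_sub, Real.norm_eq_abs]
    have := h.2
    have e : |(x.2 : ℝ) - y.2| = ((|x.2 - y.2| : ℤ) : ℝ) := by push_cast; rfl
    rw [e]; exact_mod_cast this

/-- **Staircase**: a walk from `P` to `Q` following the segment within distance `3/2`, in order. -/
lemma exists_staircase (P Q : ℤ × ℤ) :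
    ∃ w : squareLattice.Walk P Q,
      (∀ v ∈ w.support, ∃ s, 0 ≤ s ∧ s ≤ 1 ∧ ‖toR v - sgm (toR P) (toR Q) s‖ ≤ 3 / 2) ∧
      w.support.Pairwise (fun u v => ∃ s s', 0 ≤ s ∧ s ≤ s' ∧ s' ≤ 1 ∧
        ‖toR u - sgm (toR P) (toR Q) s‖ ≤ 3 / 2 ∧ ‖toR v - sgm (toR P) (toR Q) s'‖ ≤ 3 / 2) := by
  obtain ⟨n, hn⟩ := exists_nat_gt ‖toR Q - toR P‖
  have hn0 : (0 : ℝ) < n := (norm_nonneg _).trans_lt hn
  have hnne : n ≠ 0 := by rintro rfl; simp at hn0
  set c : ℕ → ℤ × ℤ := fun i => rd (sgm (toR P) (toR Q) ((i : ℝ) / n)) with hcdef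
  have hc : ∀ i < n, near (c i) (c (i + 1)) := by
    intro i _
    apply near_rd
    have e : sgm (toR P) (toR Q) ((i : ℝ) / n) - sgm (toR P) (toR Q) (((i + 1 : ℕ) : ℝ) / n) =
        (-(1 / (n : ℝ))) • (toR Q - toR P) := by
      unfold sgm
      push_cast
      rw [add_sub_add_left_eq_sub, ← sub_smul]
      congr 1
      field_simp
      ring
    rw [e, norm_smul, norm_neg, Real.norm_eq_abs, abs_of_pos (by positivity), one_div,
      inv_mul_lt_iff₀ hn0, mul_one]
    exact hn
  obtain ⟨w, hw1, hw2⟩ := exists_chain_walk c n hc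
  have h0 : c 0 = P := by
    simp only [hcdef, Nat.cast_zero, zero_div]
    unfold sgm; rw [zero_smul, add_zero, rd_toR]
  have h1 : c n = Q := by
    simp only [hcdef]
    rw [div_self hn0.ne']
    unfold sgm; rw [one_smul, add_sub_cancel, rd_toR]
  have hdist : ∀ (v : ℤ × ℤ) (i : ℕ), near v (c i) →
      ‖toR v - sgm (toR P) (toR Q) ((i : ℝ) / n)‖ ≤ 3 / 2 := by
    intro v i hv
    have a1 := norm_toR_near hv
    have a2 := norm_rd (sgm (toR P) (toR Q) ((i : ℝ) / n))
    calc ‖toR v - sgm (toR P) (toR Q) ((i : ℝ) / n)‖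
        = ‖(toR v - toR (c i)) + (toR (c i) - sgm (toR P) (toR Q) ((i : ℝ) / n))‖ := by
          congr 1; abel
      _ ≤ _ := norm_add_le _ _
      _ ≤ 1 + 1 / 2 := add_le_add a1 a2
      _ = 3 / 2 := by norm_num
  refine ⟨w.copy h0 h1, ?_, ?_⟩
  · intro v hv
    rw [SimpleGraph.Walk.support_copy] at hv
    obtain ⟨i, hi, h⟩ := hw1 v hv
    have hi' : (i : ℝ) ≤ n := by exact_mod_cast hi
    exact ⟨(i : ℝ) / n, by positivity, by rw [div_le_one hn0]; exact hi', hdist v i h⟩
  · rw [SimpleGraph.Walk.support_copy]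
    refine hw2.imp ?_
    rintro u v ⟨i, j, hij, hj, h3, h4⟩
    have hi' : (i : ℝ) ≤ j := by exact_mod_cast hij
    have hj' : (j : ℝ) ≤ n := by exact_mod_cast hj
    exact ⟨(i : ℝ) / n, (j : ℝ) / n, by positivity,
      by gcongr, by rw [div_le_one hn0]; exact hj', hdist u i h3, hdist v j h4⟩

/-! ### Straight walks -/

/-- straight walk of `k` steps in the direction `f` -/
lemma exists_straight (x f : ℤ × ℤ) (hf : ∀ z, squareLattice.Adj z (z + f)) (k : ℕ) :
    ∃ w : squareLattice.Walk x (x + k • f),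
      (∀ v ∈ w.support, ∃ i ≤ k, v = x + i • f) ∧
      w.support.Pairwise (fun u v => ∃ i j, i ≤ j ∧ j ≤ k ∧ u = x + i • f ∧ v = x + j • f) := by
  induction k with
  | zero =>
    refine ⟨(SimpleGraph.Walk.nil : squareLattice.Walk x x).copy rfl (by simp), ?_, ?_⟩
    · intro v hv
      rw [SimpleGraph.Walk.support_copy, SimpleGraph.Walk.support_nil, List.mem_singleton] at hv
      exact ⟨0, le_rfl, by simp [hv]⟩
    · simp
  | succ k ih =>
    obtain ⟨w, hw1, hw2⟩ := ih
    have e : x + k • f + f = x + (k + 1) • f := by rw [add_smul, one_smul, add_assoc]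
    refine ⟨(w.append (SimpleGraph.Walk.cons (hf _) SimpleGraph.Walk.nil)).copy rfl e, ?_, ?_⟩
    · intro v hv
      rw [SimpleGraph.Walk.support_copy, SimpleGraph.Walk.mem_support_append_iff] at hv
      rcases hv with hv | hv
      · obtain ⟨i, hi, h⟩ := hw1 v hv
        exact ⟨i, by omega, h⟩
      · simp only [SimpleGraph.Walk.support_cons, SimpleGraph.Walk.support_nil, List.mem_cons,
          List.not_mem_nil, or_false] at hv
        rcases hv with rfl | rfl
        · exact ⟨k, by omega, rfl⟩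
        · exact ⟨k + 1, le_rfl, e⟩
    · rw [SimpleGraph.Walk.support_copy, SimpleGraph.Walk.support_append, List.pairwise_append]
      refine ⟨?_, by simp, ?_⟩
      · refine hw2.imp ?_
        rintro u v ⟨i, j, h1, h2, h3, h4⟩
        exact ⟨i, j, h1, by omega, h3, h4⟩
      · intro u hu v hv
        obtain ⟨i, hi, h⟩ := hw1 u hu
        simp only [SimpleGraph.Walk.support_cons, SimpleGraph.Walk.support_nil, List.tail_cons,
          List.mem_singleton] at hv
        exact ⟨i, k + 1, by omega, le_rfl, h, by rw [hv, e]⟩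

end Crest.Agent.R151.Q
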