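import Crest.Agent.R151.Q2
import Crest.Agent.R151.J69b
import Crest.Agent.R151.M192b_Mg
import Crest.Agent.R151.G338h
import Crest.Agent.R151.R78J
import Crest.Agent.R151.M192c
import Crest.Agent.R151.Q5c

-- ▼ part R151/J69c
section

/-!
# R151/J69c — the value function of the strategy (owner helper69): definitions

`θ` = offset of the base point of row `0` (`θ = ξ - B`), `θ' = θ - g • b - η` = offset of the lower
highway of row `0` (height `g` above the base line, jitter `η`), `u` = phase of this highway.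
`Lam F W θ` = half-lane `|al| ≤ W / 2`, `be ≥ 0` (everything relative to the base point).
`Vv h W P g N s θ θ' u t` = excess of the best walk of the half-lane from the position `s` of the
lower highway of row `0` to the vertex nearest to the point at height `g` above the base point of row `N` (`P` = pitch of the A-rows).
`fS` = its normalised mean, plus the gauge `Y (x_{-L} → x_s)`.  It is used as `fA` AND as `fB`: the
A-row and the B-row at the same height share their lower highway.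
-/

set_option autoImplicit false

open MeasureTheory Filter ProbabilityTheory
open Crest.ProbabilityR.FirstPassage
open Crest.Agent.R151.K Crest.Agent.R151.Q

namespace Crest.Agent.R151.J69

open B710 (FlatData)

variable {μ : ℝ × ℝ → ℝ} {F : FlatData μ}

/-- the half-lane `|al| ≤ W / 2`, `be ≥ 0` over the base point -/
def Lam (F : FlatData μ) (W : ℝ) (θ : ℝ × ℝ) : Set (ℤ × ℤ) :=
  {z | |F.al (pos θ z)| ≤ W / 2 ∧ 0 ≤ F.be (pos θ z)}

/-- the vertex nearest to the point at height `g` above the base point of row `N` -/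
noncomputable def endv (F : FlatData μ) (P g : ℝ) (N : ℕ) (θ : ℝ × ℝ) : ℤ × ℤ :=
  nr (θ - (N * P + g) • F.b)

/-- excess of the best walk of the half-lane from the position `s` of the lower highway of row `0`
to the vertex `endv` -/
noncomputable def Vv (h : Hwy F) (W P g : ℝ) (N : ℕ) (s : ℝ) (θ θ' : ℝ × ℝ) (u : ℝ)
    (t : Environment) : ℝ :=
  pR t (Lam F W θ) (h.x s u θ' t) (endv F P g N θ) - (phi F (endv F P g N θ) - phi F (h.x s u θ' t))

/-- value with gauge -/
noncomputable def gV (h : Hwy F) (W P g L : ℝ) (N : ℕ) (s : ℝ) (θ θ' : ℝ × ℝ) (u : ℝ)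
    (t : Environment) : ℝ :=
  h.Y (-L) s u θ' t + Vv h W P g N s θ θ' u t

/-- the normalised value function of the strategy: `x` = label (`al / W`), `l` = cost unit -/
noncomputable def fS (G : Measure ℝ) (h : Hwy F) (W P g L l : ℝ) (N : ℕ) (x : ℝ) : ℝ :=
  (∫ q : ((ℝ × ℝ) × Environment) × ((ℝ × ℝ) × ℝ),
    gV h W P g L N (x * W) q.1.1 (q.1.1 - g • F.b - q.2.1) q.2.2 q.1.2
      ∂((P0 G).prod (UU2.prod UU))) / l

end Crest.Agent.R151.J69
end

-- ▼ part R151/J69d
section

/-!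
# R151/J69d — the strategy, deterministic part (owner helper69)

* `pR_le_hull` : the passage time in a region is at most the hull cost (converted at the end points)
  if the open crossings and the highway pieces stay in the region.
* `ixspec` : `h.ix s` is a position (`R78.IsPos`) for the frame of the flat data.
* `Conn`/`pR` bounds for the half-lane `Lam`.
-/

set_option autoImplicit false

open MeasureTheory Filter ProbabilityTheory
open Crest.ProbabilityR.FirstPassage
open Crest.Agent.R151.K Crest.Agent.R151.Q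

namespace Crest.Agent.R151.J69

open B710 (FlatData)
open R78 (V Wk IsHwy hc hp hull routes IsOpen shp hullY IsStrip Frame IsPos Back)
open M192 (frame frame_al frame_be al_pos be_pos isStrip)

/-! ### Routes in a region -/

/-- routes whose open crossing and whose highway pieces stay in `R` bound the passage time in `R` -/
theorem pR_le_hull {t : Environment} (ht : Nn t) {H H' : ℤ → V} (hH : IsHwy H) (hH' : IsHwy H')
    {A R : Set V} {i j : ℤ}
    (hopen : ∀ z w (g : Wk (H z) (H' w)), IsOpen H H' A g → ∀ v ∈ g.support, v ∈ R)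
    (hseg : ∀ z k, i ≤ k → k ≤ z → H z ∈ A → H k ∈ R)
    (hseg' : ∀ w k, w ≤ k → k ≤ j → H' w ∈ A → H' k ∈ R)
    (hne : (routes t H H' A i j).Nonempty) :
    Conn R (H i) (H' j) ∧ pR t R (H i) (H' j) ≤ hull t H H' A i j - hc t H i + hc t H' j := by
  have key : ∀ c ∈ routes t H H' A i j,
      Conn R (H i) (H' j) ∧ pR t R (H i) (H' j) + hc t H i - hc t H' j ≤ c := by
    rintro _ ⟨z, w, hz, hw, g, hg, rfl⟩
    obtain ⟨s, hs, hs'⟩ := hH.exists_seg hz
    obtain ⟨s', hs2, hs2'⟩ := hH'.exists_seg hw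
    have hsup : ∀ v ∈ ((s.append g).append s').support, v ∈ R := by
      intro v hv
      rw [R78.mem_support_append, R78.mem_support_append] at hv
      rcases hv with (hv | hv) | hv
      · obtain ⟨k, h1, h2, rfl⟩ := (hs' v).1 hv
        exact hseg z k h1 h2 (hg.sub _ g.start_mem_support)
      · exact hopen z w g hg v hv
      · obtain ⟨k, h1, h2, rfl⟩ := (hs2' v).1 hv
        exact hseg' w k h1 h2 (hg.sub _ g.end_mem_support)
    refine ⟨⟨_, hsup⟩, ?_⟩
    have h1 := pR_le ht _ hsup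
    rw [walkCost_append, walkCost_append, hs t, hs2 t] at h1
    linarith
  obtain ⟨c, hcm⟩ := hne
  refine ⟨(key c hcm).1, ?_⟩
  have : pR t R (H i) (H' j) + hc t H i - hc t H' j ≤ hull t H H' A i j :=
    le_csInf ⟨c, hcm⟩ fun c hcm => (key c hcm).2
  linarith

/-! ### Labels -/

variable {μ : ℝ × ℝ → ℝ} {F : FlatData μ} (h : Hwy F)

/-- `h.ix s` is the position `s` on the highway -/
lemma isPos_ix (s u : ℝ) (θ : ℝ × ℝ) (t : Environment) :
    IsPos (frame F) (h.H u θ t) (s - F.al θ) (h.ix s u θ t) := by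
  obtain ⟨i, hi⟩ := (isStrip h u θ t).exists_pos (s - F.al θ)
  have hi1 : s ≤ F.al (pos θ (h.H u θ t i)) := by
    have := hi.ge
    rw [frame_al] at this
    rw [al_pos]; linarith
  have hi2 : ∀ k < i, F.al (pos θ (h.H u θ t k)) < s := by
    intro k hk
    have := hi.lt k hk
    rw [frame_al] at this
    rw [al_pos]; linarith
  have hlb : i ∈ lowerBounds {k | s ≤ F.al (pos θ (h.H u θ t k))} := by
    intro k hk
    by_contra hc
    push Not at hc
    exact absurd (hi2 k hc) (not_lt.2 hk)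
  have e : h.ix s u θ t = i := by
    unfold Hwy.ix firstGe
    exact le_antisymm (csInf_le ⟨i, hlb⟩ hi1) (le_csInf ⟨i, hi1⟩ hlb)
  rw [e]; exact hi


lemma le_al_x (s u : ℝ) (θ : ℝ × ℝ) (t : Environment) : s ≤ F.al (pos θ (h.x s u θ t)) := by
  have := (isPos_ix h s u θ t).ge
  rw [frame_al] at this
  rw [al_pos]
  unfold Hwy.x
  linarith


lemma ix_mono {s s' : ℝ} (hs : s ≤ s') (u : ℝ) (θ : ℝ × ℝ) (t : Environment) :
    h.ix s u θ t ≤ h.ix s' u θ t :=
  (isPos_ix h s u θ t).mono (isPos_ix h s' u θ t) (by linarith)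

/-- pieces of the highway after the position `s` and before a vertex with `al ≤ r` -/
lemma al_seg_right {s r u : ℝ} {θ : ℝ × ℝ} {t : Environment} {z k : ℤ}
    (hk : h.ix s u θ t ≤ k) (hkz : k ≤ z) (hz : F.al (pos θ (h.H u θ t z)) ≤ r) :
    s - h.κ ≤ F.al (pos θ (h.H u θ t k)) ∧ F.al (pos θ (h.H u θ t k)) ≤ r + h.κ := by
  have h1 := h.back u θ t _ _ hk
  have h2 := h.back u θ t _ _ hkz
  have h3 := le_al_x h s u θ t
  unfold Hwy.x at h3
  constructor <;> linarith

/-- pieces of the highway before the position `s` and after a vertex with `al ≥ r` -/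
lemma al_seg_left {s r u : ℝ} {θ : ℝ × ℝ} {t : Environment} {w k : ℤ}
    (hk : k ≤ h.ix s u θ t) (hkw : w ≤ k) (hw : r ≤ F.al (pos θ (h.H u θ t w))) :
    r - h.κ ≤ F.al (pos θ (h.H u θ t k)) ∧
      F.al (pos θ (h.H u θ t k)) ≤ s + cF F := by
  have h2 := h.back u θ t _ _ hkw
  constructor
  · linarith
  · rcases eq_or_lt_of_le hk with rfl | hk
    · exact h.al_x_le s u θ t
    · have := h.al_lt_of_lt_ix hk
      have := cF_nonneg F
      linarith

/-! ### The row and the gap as routes in the half-lane -/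

/-- **one route**: lower highway with offset `θ₁` (phase `u₁`), upper highway with offset `θ₂`
(phase `u₂`), open crossings with `r ≤ al ≤ r'` (relative to `θ`), labels `s → s'`. -/
theorem pR_le_hull_hwy {t : Environment} (ht : Nn t) {θ θ₁ θ₂ : ℝ × ℝ} {u₁ u₂ s s' r r' : ℝ}
    {A R : Set V}
    (hA : ∀ v ∈ A, r ≤ F.al (pos θ v) ∧ F.al (pos θ v) ≤ r')
    (hR : ∀ v, min (s + F.al (θ - θ₁)) r - h.κ ≤ F.al (pos θ v) →
      F.al (pos θ v) ≤ max r' (s' + F.al (θ - θ₂)) + (h.κ + cF F) →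
      -(h.wH / 2) + F.be (θ - θ₁) ≤ F.be (pos θ v) →
      F.be (pos θ v) ≤ h.wH / 2 + F.be (θ - θ₂) → v ∈ R)
    (hlt : h.wH + F.be (θ₂ - θ₁) < 0)
    (hne : (routes t (h.H u₁ θ₁ t) (h.H u₂ θ₂ t) A (h.ix s u₁ θ₁ t) (h.ix s' u₂ θ₂ t)).Nonempty) :
    Conn R (h.x s u₁ θ₁ t) (h.x s' u₂ θ₂ t) ∧
      pR t R (h.x s u₁ θ₁ t) (h.x s' u₂ θ₂ t) - (phi F (h.x s' u₂ θ₂ t) - phi F (h.x s u₁ θ₁ t)) ≤
        hullY t (phi F) (h.H u₁ θ₁ t) (h.H u₂ θ₂ t) A (h.ix s u₁ θ₁ t) (h.ix s' u₂ θ₂ t) := by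
  have e1 : ∀ (θ' : ℝ × ℝ) (v : V), F.al (pos θ v) = F.al (pos θ' v) + F.al (θ - θ') := by
    intro θ' v; rw [al_pos, al_pos, map_sub]; ring
  have e2 : ∀ (θ' : ℝ × ℝ) (v : V), F.be (pos θ v) = F.be (pos θ' v) + F.be (θ - θ') := by
    intro θ' v; rw [be_pos, be_pos, map_sub]; ring
  have hst1 := isStrip h u₁ θ₁ t
  have hst2 := isStrip h u₂ θ₂ t
  have hlt' : h.wH / 2 - F.be θ₁ < -(h.wH / 2) - F.be θ₂ := by
    rw [map_sub] at hlt; linarith
  have hbelt : F.be (θ - θ₁) ≤ F.be (θ - θ₂) - h.wH := by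
    simp only [map_sub] at hlt ⊢; linarith
  have hw0 : 0 ≤ h.wH := by
    have := (abs_nonneg _).trans (h.strip u₁ θ₁ t 0)
    linarith
  have h0 := h.κ_nonneg
  have hc0 := cF_nonneg F
  have key := pR_le_hull (R := R) ht (h.isHwy u₁ θ₁ t) (h.isHwy u₂ θ₂ t) (A := A)
    (i := h.ix s u₁ θ₁ t) (j := h.ix s' u₂ θ₂ t) ?_ ?_ ?_ hne
  · refine ⟨key.1, ?_⟩
    have := key.2
    unfold hullY hp Hwy.x
    linarith
  · -- open crossings
    intro z w g hg v hv
    obtain ⟨a1, a2⟩ := hA v (hg.sub v hv)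
    obtain ⟨b1, b2⟩ := hst1.open_in_row hst2 hlt' hg v hv
    rw [frame_be] at b1 b2
    have hp := be_pos F θ v
    have hm3 := min_le_right (s + F.al (θ - θ₁)) r
    have hm4 := le_max_left r' (s' + F.al (θ - θ₂))
    refine hR v ?_ ?_ ?_ ?_
    · linarith
    · linarith
    · rw [hp, map_sub]; linarith
    · rw [hp, map_sub]; linarith
  · -- lower highway
    intro z k hk hkz hz
    have hz' : F.al (pos θ₁ (h.H u₁ θ₁ t z)) ≤ r' - F.al (θ - θ₁) := by
      have := (hA _ hz).2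
      rw [e1 θ₁] at this; linarith
    obtain ⟨a1, a2⟩ := al_seg_right h hk hkz hz'
    have b := abs_le.1 (h.strip u₁ θ₁ t k)
    have ea := e1 θ₁ (h.H u₁ θ₁ t k)
    have eb := e2 θ₁ (h.H u₁ θ₁ t k)
    have hm3 := min_le_left (s + F.al (θ - θ₁)) r
    have hm4 := le_max_left r' (s' + F.al (θ - θ₂))
    refine hR _ ?_ ?_ ?_ ?_
    · linarith
    · linarith
    · linarith [b.1]
    · linarith [b.2]
  · -- upper highway
    intro w k hkw hk hw
    have hw' : r - F.al (θ - θ₂) ≤ F.al (pos θ₂ (h.H u₂ θ₂ t w)) := by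
      have := (hA _ hw).1
      rw [e1 θ₂] at this; linarith
    obtain ⟨a1, a2⟩ := al_seg_left h hk hkw hw'
    have b := abs_le.1 (h.strip u₂ θ₂ t k)
    have ea := e1 θ₂ (h.H u₂ θ₂ t k)
    have eb := e2 θ₂ (h.H u₂ θ₂ t k)
    have hm3 := min_le_right (s + F.al (θ - θ₁)) r
    have hm4 := le_max_right r' (s' + F.al (θ - θ₂))
    refine hR _ ?_ ?_ ?_ ?_
    · linarith
    · linarith
    · linarith [b.1]
    · linarith [b.2]

end Crest.Agent.R151.J69
end

-- ▼ part R151/J69e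
section

/-!
# R151/J69e — the value function: measurability, invariance, locality (owner helper69)
-/

set_option autoImplicit false

open MeasureTheory Filter ProbabilityTheory
open Crest.ProbabilityR.FirstPassage
open Crest.Agent.R151.K Crest.Agent.R151.Q

namespace Crest.Agent.R151.J69

open B710 (FlatData)
open R78 (V Wk IsHwy hc hp hull routes IsOpen shp hullY IsStrip Frame IsPos Back)
open M192 (frame frame_al frame_be al_pos be_pos isStrip)

/-! ### Measurability of region passage times with random data -/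

section meas

variable {Ω : Type*} [MeasurableSpace Ω]

theorem measurable_pR_rand {T : Ω → Environment} {R : Ω → Set (ℤ × ℤ)} {x y : Ω → ℤ × ℤ}
    (hT : Measurable T) (hR : ∀ v, MeasurableSet {ω | v ∈ R ω}) (hx : Measurable x)
    (hy : Measurable y) : Measurable fun ω => pR (T ω) (R ω) (x ω) (y ω) := by
  have e : (fun ω => pR (T ω) (R ω) (x ω) (y ω)) = fun ω => sInf {c : ℝ |
      ∃ q : (Σ ab : (ℤ × ℤ) × (ℤ × ℤ), squareLattice.Walk ab.1 ab.2),
        (x ω = q.1.1 ∧ y ω = q.1.2 ∧ ∀ v ∈ q.2.support, v ∈ R ω) ∧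
        c = (fun q ω => walkCost (T ω) q.2 :
          (Σ ab : (ℤ × ℤ) × (ℤ × ℤ), squareLattice.Walk ab.1 ab.2) → Ω → ℝ) q ω} := by
    funext ω
    unfold pR iInf
    congr 1
    ext c
    constructor
    · rintro ⟨⟨w, hw⟩, rfl⟩
      exact ⟨⟨(x ω, y ω), w⟩, ⟨rfl, rfl, hw⟩, rfl⟩
    · rintro ⟨⟨⟨a, b⟩, w⟩, ⟨h1, h2, h3⟩, rfl⟩
      simp only at h1 h2 w h3
      subst h1
      subst h2
      exact ⟨⟨w, h3⟩, rfl⟩
  rw [e]
  refine G338.measurable_sInf_aux (fun q => ?_) (fun q => (measurable_walkCost q.2).comp hT)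
  refine MeasurableSet.inter (hx (measurableSet_singleton _)) ?_
  refine MeasurableSet.inter (hy (measurableSet_singleton _)) ?_
  have : {ω | ∀ v ∈ q.2.support, v ∈ R ω} = ⋂ v ∈ q.2.support, {ω | v ∈ R ω} := by
    ext ω; simp
  show MeasurableSet {ω | ∀ v ∈ q.2.support, v ∈ R ω}
  rw [this]
  exact MeasurableSet.biInter (Set.to_countable {v | v ∈ q.2.support}) fun v _ => hR v

end meas

variable {μ : ℝ × ℝ → ℝ} {F : FlatData μ} (h : Hwy F)

section meas2

variable {Ω : Type*} [MeasurableSpace Ω] {θ θ' : Ω → ℝ × ℝ} {u : Ω → ℝ} {t : Ω → Environment}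
  (hθ : Measurable θ) (hθ' : Measurable θ') (hu : Measurable u) (ht : Measurable t)
include hθ hθ' hu ht

omit hθ in
lemma meas_x (s : ℝ) : Measurable fun ω => h.x s (u ω) (θ' ω) (t ω) := by
  unfold Hwy.x
  exact measurable_at (h.meas_H hu hθ' ht) (h.meas_ix s hu hθ' ht)

omit hθ in
lemma meas_Y (s s' : ℝ) : Measurable fun ω => h.Y s s' (u ω) (θ' ω) (t ω) := by
  unfold Hwy.Y hp
  have hphi : Measurable (phi F) := measurable_of_countable _
  have hH : ∀ k, Measurable fun ω => h.H (u ω) (θ' ω) (t ω) k := h.meas_H hu hθ' ht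
  refine Measurable.sub (Measurable.sub ?_ ?_) (Measurable.sub ?_ ?_)
  · exact measurable_at (fun k => measurable_hc ht hH k) (h.meas_ix s' hu hθ' ht)
  · exact hphi.comp (measurable_at hH (h.meas_ix s' hu hθ' ht))
  · exact measurable_at (fun k => measurable_hc ht hH k) (h.meas_ix s hu hθ' ht)
  · exact hphi.comp (measurable_at hH (h.meas_ix s hu hθ' ht))

omit hθ' hu ht in
lemma meas_endv (P g : ℝ) (N : ℕ) : Measurable fun ω => endv F P g N (θ ω) := by
  unfold endv
  exact measurable_nr.comp (hθ.sub_const _)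

omit hθ' hu ht in
lemma meas_Lam (W : ℝ) (v : ℤ × ℤ) : MeasurableSet {ω | v ∈ Lam F W (θ ω)} := by
  have h1 : Measurable fun ω => F.al (pos (θ ω) v) :=
    F.al.continuous.measurable.comp (Hwy.meas_pos hθ measurable_const)
  have h2 : Measurable fun ω => F.be (pos (θ ω) v) :=
    F.be.continuous.measurable.comp (Hwy.meas_pos hθ measurable_const)
  exact (measurableSet_le h1.abs measurable_const).inter (measurableSet_le measurable_const h2)

lemma meas_Vv (W P g : ℝ) (N : ℕ) (s : ℝ) :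
    Measurable fun ω => Vv h W P g N s (θ ω) (θ' ω) (u ω) (t ω) := by
  unfold Vv
  have hphi : Measurable (phi F) := measurable_of_countable _
  have h1 := meas_x h hθ' hu ht s
  have h2 := meas_endv (F := F) hθ P g N
  exact (measurable_pR_rand ht (meas_Lam hθ W) h1 h2).sub ((hphi.comp h2).sub (hphi.comp h1))

lemma meas_gV (W P g L : ℝ) (N : ℕ) (s : ℝ) :
    Measurable fun ω => gV h W P g L N s (θ ω) (θ' ω) (u ω) (t ω) :=
  (meas_Y h hθ' hu ht (-L) s).add (meas_Vv h hθ hθ' hu ht W P g N s)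

end meas2

/-! ### Invariance -/

lemma x_cov (s u : ℝ) (θ : ℝ × ℝ) (t : Environment) (m : ℤ × ℤ) :
    h.x s u (θ + toR m) (act (tr m) t) = h.x s u θ t - m := by
  unfold Hwy.x
  rw [M192.ix_cov, h.cov]

lemma Y_inv (s s' u : ℝ) : Inv fun θ t => h.Y s s' u θ t := by
  intro m θ t
  have e : h.H u (θ + toR m) (act (tr m) t) = fun k => h.H u θ t k - m := by
    funext k; exact h.cov u θ t m k
  unfold Hwy.Y
  simp only
  rw [M192.ix_cov, M192.ix_cov, e, M192.hp_tr, M192.hp_tr]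
  ring

lemma endv_cov (P g : ℝ) (N : ℕ) (θ : ℝ × ℝ) (m : ℤ × ℤ) :
    endv F P g N (θ + toR m) = endv F P g N θ - m := by
  unfold endv
  rw [add_sub_right_comm, nr_add]

lemma Lam_add (W : ℝ) (θ : ℝ × ℝ) (m : ℤ × ℤ) :
    Lam F W (θ + toR m) = (fun u => u + m) ⁻¹' Lam F W θ := by
  ext v
  simp only [Lam, Set.mem_ofPred_eq, Set.mem_preimage, M192.pos_add_toR]

lemma Vv_inv (W P g : ℝ) (N : ℕ) (s : ℝ) (θ θ' : ℝ × ℝ) (u : ℝ) (t : Environment) (m : ℤ × ℤ) :
    Vv h W P g N s (θ + toR m) (θ' + toR m) u (act (tr m) t) = Vv h W P g N s θ θ' u t := by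
  unfold Vv
  rw [x_cov, endv_cov, Lam_add, pR_tr, sub_add_cancel, sub_add_cancel]
  have e : ∀ z : ℤ × ℤ, phi F (z - m) = phi F z - phi F m := fun z => Hwy.phi_sub z m
  rw [e, e]; ring

lemma gV_inv (W P g L : ℝ) (N : ℕ) (s : ℝ) (θ θ' : ℝ × ℝ) (u : ℝ) (t : Environment) (m : ℤ × ℤ) :
    gV h W P g L N s (θ + toR m) (θ' + toR m) u (act (tr m) t) = gV h W P g L N s θ θ' u t := by
  unfold gV
  rw [Vv_inv]
  have := Y_inv h (-L) s u m θ' t
  simp only at this
  rw [this]

/-! ### Locality -/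

/-- the region above the base line -/
def Abv (F : FlatData μ) (θ : ℝ × ℝ) : Set (ℤ × ℤ) := {z | 0 ≤ F.be (pos θ z)}

lemma strip_sub_Abv {θ θ' : ℝ × ℝ} (hθ : h.wH / 2 ≤ F.be (θ - θ')) :
    edgesIn {z | |F.be (pos θ' z)| ≤ h.wH / 2} ⊆ edgesIn (Abv F θ) := by
  intro e he z hz
  have h0 : |F.be (pos θ' z)| ≤ h.wH / 2 := he z hz
  have h1 := (abs_le.1 h0).1
  show 0 ≤ F.be (pos θ z)
  have e2 : F.be (pos θ z) = F.be (pos θ' z) + F.be (θ - θ') := by
    rw [be_pos, be_pos, map_sub]; ring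
  linarith

lemma Y_loc {θ θ' : ℝ × ℝ} (hθ : h.wH / 2 ≤ F.be (θ - θ')) {t t' : Environment}
    (ht : ∀ e ∈ edgesIn (Abv F θ), t e = t' e) (s s' u : ℝ) :
    h.H u θ' t = h.H u θ' t' ∧ (∀ s, h.ix s u θ' t = h.ix s u θ' t') ∧
      h.Y s s' u θ' t = h.Y s s' u θ' t' := by
  have hH : h.H u θ' t = h.H u θ' t' := h.loc u θ' t t' fun e he => ht e (strip_sub_Abv h hθ he)
  have hix : ∀ s, h.ix s u θ' t = h.ix s u θ' t' := fun s => by unfold Hwy.ix; rw [hH]
  have hhc : ∀ k, hc t (h.H u θ' t) k = hc t' (h.H u θ' t) k := by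
    intro k
    refine M192.hc_congr (fun k => ?_) k
    refine ht _ (strip_sub_Abv h hθ ?_)
    rw [mem_edgesIn]
    exact ⟨h.strip u θ' t k, h.strip u θ' t (k + 1)⟩
  refine ⟨hH, hix, ?_⟩
  unfold Hwy.Y hp
  rw [← hix, ← hix, ← hH, hhc, hhc]

lemma gV_loc (W P g L : ℝ) (N : ℕ) (s u : ℝ) {θ θ' : ℝ × ℝ} (hθ : h.wH / 2 ≤ F.be (θ - θ')) :
    DependsOn (fun t => gV h W P g L N s θ θ' u t) (edgesIn (Abv F θ)) := by
  intro t t' ht
  obtain ⟨h1, h2, h3⟩ := Y_loc h hθ ht (-L) s u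
  have hx : h.x s u θ' t = h.x s u θ' t' := by unfold Hwy.x; rw [h1, h2]
  simp only [gV, Vv]
  rw [h3, hx]
  have hp : pR t (Lam F W θ) (h.x s u θ' t') (endv F P g N θ) =
      pR t' (Lam F W θ) (h.x s u θ' t') (endv F P g N θ) := by
    refine pR_congr (fun a ha b hb => ht _ ?_) _ _
    rw [mem_edgesIn]
    exact ⟨ha.2, hb.2⟩
  rw [hp]

end Crest.Agent.R151.J69
end

-- ▼ part R151/J69f

/-!
# R151/J69f — connectivity of the half-lane, integrability of the value function (owner helper69)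
-/

set_option autoImplicit false

open MeasureTheory Filter ProbabilityTheory
open Crest.ProbabilityR.FirstPassage
open Crest.Agent.R151.K Crest.Agent.R151.Q

namespace Crest.Agent.R151.J69

open B710 (FlatData)
open R78 (V Wk IsHwy hc hp hull routes IsOpen shp hullY IsStrip Frame IsPos Back)
open M192 (frame frame_al frame_be al_pos be_pos isStrip)

variable {μ : ℝ × ℝ → ℝ} {F : FlatData μ} (h : Hwy F)

/-! ### Connectivity -/

/-- a linear functional along a walk close to a segment -/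
lemma near_segment (f : ℝ × ℝ →L[ℝ] ℝ) {c : ℝ} (hc : ‖f‖ ≤ c) {P Q v : ℤ × ℤ} {s : ℝ} (hs0 : 0 ≤ s)
    (hs1 : s ≤ 1) (hv : ‖toR v - sgm (toR P) (toR Q) s‖ ≤ 3 / 2) :
    |f (toR v) - ((1 - s) * f (toR P) + s * f (toR Q))| ≤ 3 / 2 * c := by
  have e : f (toR v) - ((1 - s) * f (toR P) + s * f (toR Q)) =
      f (toR v - sgm (toR P) (toR Q) s) := by
    unfold sgm
    rw [map_sub, map_add, map_smul, map_sub, smul_eq_mul]; ring
  rw [e, ← Real.norm_eq_abs]
  have h0 : 0 ≤ ‖f‖ := norm_nonneg f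
  calc ‖f (toR v - sgm (toR P) (toR Q) s)‖ ≤ ‖f‖ * ‖toR v - sgm (toR P) (toR Q) s‖ :=
        f.le_opNorm _
    _ ≤ c * (3 / 2) := by
        have := norm_nonneg (toR v - sgm (toR P) (toR Q) s)
        gcongr
        exact h0.trans hc
    _ = 3 / 2 * c := by ring

/-- two points of a half-lane are joined in a slightly larger half-lane -/
theorem exists_walk_halflane (F : FlatData μ) (θ : ℝ × ℝ) {r b0 : ℝ} {x y : ℤ × ℤ}
    (hx : |F.al (pos θ x)| ≤ r) (hy : |F.al (pos θ y)| ≤ r)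
    (hx' : b0 ≤ F.be (pos θ x)) (hy' : b0 ≤ F.be (pos θ y)) :
    ∃ w : squareLattice.Walk x y, ∀ v ∈ w.support,
      |F.al (pos θ v)| ≤ r + 3 / 2 * cF F ∧ b0 - 3 / 2 * cF F ≤ F.be (pos θ v) := by
  obtain ⟨w, hw, -⟩ := exists_staircase x y
  refine ⟨w, fun v hv => ?_⟩
  obtain ⟨s, hs0, hs1, hs⟩ := hw v hv
  have hna : ‖F.al‖ ≤ cF F := by unfold cF; linarith [norm_nonneg F.be]
  have hnb : ‖F.be‖ ≤ cF F := by unfold cF; linarith [norm_nonneg F.al]
  have h1 := abs_le.1 (near_segment F.al hna hs0 hs1 hs)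
  have h2 := abs_le.1 (near_segment F.be hnb hs0 hs1 hs)
  rw [al_pos, abs_le] at hx hy
  rw [be_pos] at hx' hy'
  rw [al_pos, be_pos, abs_le]
  have hs1' : 0 ≤ 1 - s := by linarith
  have e1 : (1 - s) * (F.al (toR x) + F.al θ) + s * (F.al (toR y) + F.al θ) =
      (1 - s) * F.al (toR x) + s * F.al (toR y) + F.al θ := by ring
  have e2 : (1 - s) * (F.be (toR x) + F.be θ) + s * (F.be (toR y) + F.be θ) =
      (1 - s) * F.be (toR x) + s * F.be (toR y) + F.be θ := by ring
  have a1 : (1 - s) * (F.al (toR x) + F.al θ) + s * (F.al (toR y) + F.al θ) ≤ r := by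
    nlinarith [hx.2, hy.2]
  have a2 : -r ≤ (1 - s) * (F.al (toR x) + F.al θ) + s * (F.al (toR y) + F.al θ) := by
    nlinarith [hx.1, hy.1]
  have a3 : b0 ≤ (1 - s) * (F.be (toR x) + F.be θ) + s * (F.be (toR y) + F.be θ) := by
    nlinarith
  rw [e1] at a1 a2
  rw [e2] at a3
  refine ⟨⟨?_, ?_⟩, ?_⟩
  · linarith [h1.1]
  · linarith [h1.2]
  · linarith [h2.1]

/-- points well inside the half-lane are connected in the half-lane -/
theorem conn_Lam {W : ℝ} {θ : ℝ × ℝ} {x y : ℤ × ℤ}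
    (hx : |F.al (pos θ x)| ≤ W / 2 - 2 * cF F) (hy : |F.al (pos θ y)| ≤ W / 2 - 2 * cF F)
    (hx' : 2 * cF F ≤ F.be (pos θ x)) (hy' : 2 * cF F ≤ F.be (pos θ y)) :
    Conn (Lam F W θ) x y := by
  obtain ⟨w, hw⟩ := exists_walk_halflane F θ hx hy hx' hy'
  have hc := cF_nonneg F
  refine ⟨w, fun v hv => ⟨?_, ?_⟩⟩
  · linarith [(hw v hv).1]
  · linarith [(hw v hv).2]

/-! ### Integrability -/

variable {G : Measure ℝ} [IsProbabilityMeasure G]

lemma integrable_walkCost (h1 : Integrable (fun x : ℝ => x) G) {x y : ℤ × ℤ}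
    (w : squareLattice.Walk x y) : Integrable (fun t : Environment => walkCost t w) (iidLaw G) := by
  unfold walkCost
  have hie : ∀ e : Sym2 (ℤ × ℤ), Integrable (fun t : Environment => t e) (iidLaw G) :=
    fun e => (mp_eval (G := G) e).integrable_comp_of_integrable h1
  induction w.edges with
  | nil => simp
  | cons e l ih =>
    simp only [List.map_cons, List.sum_cons]
    exact (hie e).add ih

/-- integrability of passage times of the half-lane between random vertices -/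
theorem integrable_pR_Lam {Ψ : Type*} [MeasurableSpace Ψ] (π : Measure Ψ) [IsProbabilityMeasure π]
    (h0 : G (Set.Iio 0) = 0) (h1 : Integrable (fun x : ℝ => x) G) {W : ℝ} {M : ℕ}
    {X Y : ((ℝ × ℝ) × Environment) × Ψ → ℤ × ℤ} (hX : Measurable X) (hY : Measurable Y)
    (hXY : ∀ᵐ q ∂((P0 G).prod π), X q ∈ box M ∧ Y q ∈ box M ∧
      (|F.al (pos q.1.1 (X q))| ≤ W / 2 - 4 * cF F ∧ 4 * cF F ≤ F.be (pos q.1.1 (X q))) ∧
      (|F.al (pos q.1.1 (Y q))| ≤ W / 2 - 4 * cF F ∧ 4 * cF F ≤ F.be (pos q.1.1 (Y q)))) :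
    Integrable (fun q => pR q.1.2 (Lam F W q.1.1) (X q) (Y q)) ((P0 G).prod π) := by
  classical
  -- deterministic walks
  let good : ℤ × ℤ → ℤ × ℤ → Prop := fun x y => ∃ w : squareLattice.Walk x y, ∀ v ∈ w.support,
    |F.al (toR v)| ≤ W / 2 - cF F ∧ cF F ≤ F.be (toR v)
  let c : ℤ × ℤ → ℤ × ℤ → Environment → ℝ := fun x y t =>
    if hg : good x y then walkCost t hg.choose else 0
  have hcint : ∀ x y, Integrable (c x y) (iidLaw G) := by
    intro x y
    by_cases hg : good x y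
    · have : c x y = fun t => walkCost t hg.choose := by funext t; simp only [c, dif_pos hg]
      rw [this]; exact integrable_walkCost h1 _
    · have : c x y = fun _ => 0 := by funext t; simp only [c, dif_neg hg]
      rw [this]; exact integrable_const _
  let D : Environment → ℝ := fun t => ∑ x ∈ box M, ∑ y ∈ box M, c x y t
  have hDint : Integrable D (iidLaw G) :=
    integrable_finsetSum _ fun x _ => integrable_finsetSum _ fun y _ => hcint x y
  have hD' : Integrable (fun q : ((ℝ × ℝ) × Environment) × Ψ => D q.1.2) ((P0 G).prod π) := by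
    have ha : Integrable (fun p : (ℝ × ℝ) × Environment => D p.2) (P0 G) := by
      unfold P0
      exact hDint.comp_snd UU2
    exact ha.comp_fst π
  have hRm : ∀ v, MeasurableSet {q : ((ℝ × ℝ) × Environment) × Ψ | v ∈ Lam F W q.1.1} :=
    fun v => meas_Lam (F := F) (θ := fun q : ((ℝ × ℝ) × Environment) × Ψ => q.1.1)
      (measurable_fst.comp measurable_fst) W v
  refine hD'.mono' (measurable_pR_rand (measurable_snd.comp measurable_fst) hRm hX
    hY).aestronglyMeasurable ?_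
  filter_upwards [ae_P0_Nn (Ψ := Ψ) (ν := π) h0, hXY] with q hq hq'
  obtain ⟨hN, hξ⟩ := hq
  obtain ⟨hX1, hY1, ⟨hx, hx'⟩, ⟨hy, hy'⟩⟩ := hq'
  rw [Real.norm_eq_abs, abs_of_nonneg (pR_nonneg hN _ _ _)]
  have hξn := norm_jitter hξ
  have hal := abs_le.1 (abs_al_le' F hξn)
  have hbe := abs_le.1 (abs_be_le' F hξn)
  have hc := cF_nonneg F
  have hg : good (X q) (Y q) := by
    obtain ⟨w, hw⟩ := exists_walk_halflane F q.1.1 hx hy hx' hy'
    refine ⟨w, fun v hv => ?_⟩
    obtain ⟨a1, a2⟩ := hw v hv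
    rw [al_pos, abs_le] at a1
    rw [be_pos] at a2
    rw [abs_le]
    refine ⟨⟨by linarith [a1.1], by linarith [a1.2]⟩, by linarith⟩
  have hsub : ∀ v ∈ (hg.choose).support, v ∈ Lam F W q.1.1 := by
    intro v hv
    obtain ⟨a1, a2⟩ := hg.choose_spec v hv
    rw [abs_le] at a1
    refine ⟨?_, ?_⟩
    · rw [al_pos, abs_le]; exact ⟨by linarith [a1.1], by linarith [a1.2]⟩
    · rw [be_pos]; linarith
  have hcn : ∀ x y, 0 ≤ c x y q.1.2 := by
    intro x y
    by_cases hg : good x y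
    · simp only [c, dif_pos hg]; exact walkCost_nonneg hN _
    · simp only [c, dif_neg hg]; exact le_rfl
  calc pR q.1.2 (Lam F W q.1.1) (X q) (Y q) ≤ walkCost q.1.2 hg.choose := pR_le hN _ hsub
    _ = c (X q) (Y q) q.1.2 := by simp only [c, dif_pos hg]
    _ ≤ ∑ y ∈ box M, c (X q) y q.1.2 :=
        Finset.single_le_sum (f := fun y => c (X q) y q.1.2) (fun y _ => hcn _ y) hY1
    _ ≤ D q.1.2 := Finset.single_le_sum (f := fun x => ∑ y ∈ box M, c x y q.1.2)
        (fun x _ => Finset.sum_nonneg fun y _ => hcn x y) hX1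

/-- a function of a random vertex of a fixed box is integrable -/
lemma integrable_fun_box {Ω : Type*} [MeasurableSpace Ω] {P : Measure Ω} [IsFiniteMeasure P]
    {X : Ω → ℤ × ℤ} (hX : Measurable X) {M : ℕ} (hM : ∀ᵐ q ∂P, X q ∈ box M) (f : ℤ × ℤ → ℝ) :
    Integrable (fun q => f (X q)) P := by
  have hfm : Measurable f := measurable_of_countable f
  refine Integrable.of_bound (hfm.comp hX).aestronglyMeasurable (∑ z ∈ box M, |f z|) ?_
  filter_upwards [hM] with q hq
  rw [Real.norm_eq_abs]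
  exact Finset.single_le_sum (f := fun z => |f z|) (fun z _ => abs_nonneg _) hq

end Crest.Agent.R151.J69
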