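import Mathlib
import Crest.Agent.R88.Birkhoff
import Crest.Agent.R151.K7
import Crest.Agent.R151.K8
import Crest.Agent.R151.F2
import Crest.Agent.R151.M51C

-- ▼ part R151/K9k
section

/-!
# R151/K9k — Kingman's subadditive ergodic theorem, ergodic nonnegative case (owner helper507)
-/

set_option autoImplicit false
set_option linter.unusedSectionVars false

open MeasureTheory Filter

namespace Crest.Agent.R151.K

variable {Ω : Type*} [MeasurableSpace Ω] {P : Measure Ω} [IsProbabilityMeasure P] {τ : Ω → Ω}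
  {A : Set Ω} {g : ℕ → Ω → ℝ}

/-- A nonnegative subadditive process (satisfying the triangle inequality) over an ergodic map. -/
structure Subadd (P : Measure Ω) (τ : Ω → Ω) (A : Set Ω) (g : ℕ → Ω → ℝ) : Prop where
  erg : ∀ k, 0 < k → Ergodic (τ^[k]) P
  ae : ∀ᵐ ω ∂P, ω ∈ A
  inv : ∀ ω ∈ A, τ ω ∈ A
  meas : ∀ n, Measurable (g n)
  int : Integrable (g 1) P
  zero : ∀ ω ∈ A, g 0 ω = 0
  nonneg : ∀ ω ∈ A, ∀ n, 0 ≤ g n ω
  sub : ∀ ω ∈ A, ∀ m n, g (m + n) ω ≤ g m ω + g n (τ^[m] ω)
  rev : ∀ ω ∈ A, ∀ n, g n (τ ω) ≤ g 1 ω + g (n + 1) ω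

namespace Subadd

variable (h : Subadd P τ A g)
include h

lemma mp (k : ℕ) : MeasurePreserving (τ^[k]) P P := by
  rcases Nat.eq_zero_or_pos k with rfl | hk
  · simpa using MeasurePreserving.id P
  · exact (h.erg k hk).toMeasurePreserving

lemma iterate_mem {ω : Ω} (hω : ω ∈ A) (k : ℕ) : τ^[k] ω ∈ A := by
  induction k with
  | zero => exact hω
  | succ k ih => rw [Function.iterate_succ_apply']; exact h.inv _ ih

lemma le_sum {ω : Ω} (hω : ω ∈ A) (n : ℕ) :
    g n ω ≤ ∑ i ∈ Finset.range n, g 1 (τ^[i] ω) := by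
  induction n with
  | zero => simp [h.zero ω hω]
  | succ n ih =>
    rw [Finset.sum_range_succ]
    exact (h.sub ω hω n 1).trans (add_le_add ih le_rfl)

lemma integrable_comp {f : Ω → ℝ} (hf : Integrable f P) (k : ℕ) :
    Integrable (fun ω => f (τ^[k] ω)) P :=
  (h.mp k).integrable_comp_of_integrable hf

lemma integral_comp {f : Ω → ℝ} (hf : AEStronglyMeasurable f P) (k : ℕ) :
    ∫ ω, f (τ^[k] ω) ∂P = ∫ ω, f ω ∂P := by
  have h1 := h.mp k
  conv_rhs => rw [← h1.map_eq]
  rw [integral_map h1.measurable.aemeasurable (by rw [h1.map_eq]; exact hf)]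

lemma integrable (n : ℕ) : Integrable (g n) P := by
  have hs : Integrable (fun ω => ∑ i ∈ Finset.range n, g 1 (τ^[i] ω)) P :=
    integrable_finsetSum _ fun i _ => h.integrable_comp h.int i
  refine hs.mono' (h.meas n).aestronglyMeasurable ?_
  filter_upwards [h.ae] with ω hω
  rw [Real.norm_eq_abs, abs_of_nonneg (h.nonneg ω hω n)]
  exact h.le_sum hω n

lemma subadditive : Subadditive fun n => ∫ ω, g n ω ∂P := by
  intro m n
  change ∫ ω, g (m + n) ω ∂P ≤ ∫ ω, g m ω ∂P + ∫ ω, g n ω ∂P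
  have e : ∫ ω, g n ω ∂P = ∫ ω, g n (τ^[m] ω) ∂P := (h.integral_comp (h.integrable n).1 m).symm
  rw [e, ← integral_add (h.integrable m) (h.integrable_comp (h.integrable n) m)]
  refine integral_mono_ae (h.integrable _)
    ((h.integrable m).add (h.integrable_comp (h.integrable n) m)) ?_
  filter_upwards [h.ae] with ω hω using h.sub ω hω m n

lemma mean_nonneg (n : ℕ) : 0 ≤ ∫ ω, g n ω ∂P :=
  integral_nonneg_of_ae (by filter_upwards [h.ae] with ω hω using h.nonneg ω hω n)

lemma bddBelow : BddBelow (Set.range fun n : ℕ => (∫ ω, g n ω ∂P) / n) :=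
  ⟨0, by rintro _ ⟨n, rfl⟩; exact div_nonneg (h.mean_nonneg n) (Nat.cast_nonneg n)⟩

lemma tendsto_mean : Tendsto (fun n : ℕ => (∫ ω, g n ω ∂P) / n) atTop
    (nhds h.subadditive.lim) := h.subadditive.tendsto_lim h.bddBelow


lemma birk {f : Ω → ℝ} (hf : Measurable f) (hfi : Integrable f P) {k : ℕ} (hk : 0 < k) :
    ∀ᵐ ω ∂P, Tendsto (fun N : ℕ => (∑ i ∈ Finset.range N, f (τ^[k * i] ω)) / N) atTop
      (nhds (∫ ω, f ω ∂P)) := by
  filter_upwards [R88.birkhoff_real (h.erg k hk) hf hfi] with ω hω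
  refine hω.congr fun N => ?_
  rw [birkhoffSum, inv_mul_eq_div]
  simp only [Function.iterate_mul]

/-- the increments are negligible -/
lemma incr : ∀ᵐ ω ∂P, Tendsto (fun N : ℕ => g 1 (τ^[N] ω) / N) atTop (nhds 0) := by
  filter_upwards [h.birk (h.meas 1) h.int one_pos] with ω hω
  simp only [one_mul] at hω
  have h1 := hω.comp (tendsto_add_atTop_nat 1)
  have h2 : Tendsto (fun N : ℕ => ((N + 1 : ℕ) : ℝ) / N) atTop (nhds 1) := by
    have : Tendsto (fun N : ℕ => 1 + 1 / (N : ℝ)) atTop (nhds (1 + 0)) :=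
      tendsto_const_nhds.add tendsto_one_div_atTop_nhds_zero_nat
    rw [add_zero] at this
    refine this.congr' ?_
    filter_upwards [eventually_gt_atTop 0] with N hN
    have : (0 : ℝ) < N := by exact_mod_cast hN
    push_cast
    field_simp
  have h3 := (h1.mul h2).sub hω
  rw [mul_one, sub_self] at h3
  refine h3.congr' ?_
  filter_upwards [eventually_gt_atTop 0] with N hN
  have hN' : (0 : ℝ) < N := by exact_mod_cast hN
  have hN1 : (0 : ℝ) < ((N + 1 : ℕ) : ℝ) := by positivity
  simp only [Function.comp_apply, Finset.sum_range_succ]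
  field_simp
  ring

/-- upper bound along blocks of length `k` -/
lemma le_blocks {ω : Ω} (hω : ω ∈ A) (k q : ℕ) :
    g (k * q) ω ≤ ∑ i ∈ Finset.range q, g k (τ^[k * i] ω) := by
  induction q with
  | zero => simp [h.zero ω hω]
  | succ q ih =>
    rw [Finset.sum_range_succ, Nat.mul_succ]
    exact (h.sub ω hω (k * q) k).trans (add_le_add ih le_rfl)

/-- a.s. upper bound -/
lemma upper (k : ℕ) (hk : 0 < k) {ε : ℝ} (hε : 0 < ε) : ∀ᵐ ω ∂P, ∀ᶠ n : ℕ in atTop,
    g n ω / n ≤ (∫ ω, g k ω ∂P) / k + ε := by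
  filter_upwards [h.birk (h.meas k) (h.integrable k) hk, h.incr, h.ae] with ω h1 h2 hω
  have hkR : (0 : ℝ) < k := by exact_mod_cast hk
  -- the block sums
  have hdiv : Tendsto (fun n : ℕ => n / k) atTop atTop :=
    Nat.tendsto_div_const_atTop hk.ne'
  have e1 : ∀ᶠ n : ℕ in atTop, (∑ i ∈ Finset.range (n / k), g k (τ^[k * i] ω)) ≤
      (∫ ω, g k ω ∂P + ε * k / 2) * ((n / k : ℕ) : ℝ) := by
    have h3 := (h1.comp hdiv).eventually_le_const
      (show ∫ ω, g k ω ∂P < ∫ ω, g k ω ∂P + ε * k / 2 by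
        have : 0 < ε * k / 2 := by positivity
        linarith)
    filter_upwards [h3, hdiv.eventually_gt_atTop 0] with n hn hn0
    simp only [Function.comp_apply] at hn
    rwa [div_le_iff₀ (by exact_mod_cast hn0)] at hn
  have e2 : ∀ᶠ m : ℕ in atTop, g 1 (τ^[m] ω) ≤ ε / (2 * k) * m := by
    have h3 := h2.eventually_le_const (show (0 : ℝ) < ε / (2 * k) by positivity)
    filter_upwards [h3, eventually_gt_atTop 0] with m hm hm0
    rwa [div_le_iff₀ (by exact_mod_cast hm0)] at hm
  rw [eventually_atTop] at e2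
  obtain ⟨m0, hm0⟩ := e2
  filter_upwards [e1, eventually_ge_atTop (m0 + k), eventually_gt_atTop 0] with n hn1 hn2 hn3
  have hnR : (0 : ℝ) < n := by exact_mod_cast hn3
  obtain ⟨q, hq⟩ : ∃ q, q = n / k := ⟨_, rfl⟩
  obtain ⟨r, hr⟩ : ∃ r, r = n % k := ⟨_, rfl⟩
  have hdm : n = k * q + r := by rw [hq, hr]; exact (Nat.div_add_mod n k).symm
  have hrk : r < k := by rw [hr]; exact Nat.mod_lt _ hk
  rw [← hq] at hn1
  have h3 : g n ω ≤ g (k * q) ω + g r (τ^[k * q] ω) := by
    conv_lhs => rw [hdm]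
    exact h.sub ω hω (k * q) r
  have h4 : g r (τ^[k * q] ω) ≤ ∑ i ∈ Finset.range r, g 1 (τ^[i] (τ^[k * q] ω)) :=
    h.le_sum (h.iterate_mem hω _) r
  have h5 : ∑ i ∈ Finset.range r, g 1 (τ^[i] (τ^[k * q] ω)) ≤
      ∑ _i ∈ Finset.range r, ε / (2 * k) * (n : ℝ) := by
    refine Finset.sum_le_sum fun i hi => ?_
    rw [Finset.mem_range] at hi
    rw [← Function.iterate_add_apply]
    have h6 := hm0 (i + k * q) (by omega)
    refine h6.trans ?_
    have : ((i + k * q : ℕ) : ℝ) ≤ n := by exact_mod_cast (by omega : i + k * q ≤ n)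
    gcongr
  rw [Finset.sum_const, Finset.card_range, nsmul_eq_mul] at h5
  have h6 : (r : ℝ) * (ε / (2 * k) * n) ≤ ε / 2 * n := by
    have h7 : (r : ℝ) ≤ k := by exact_mod_cast hrk.le
    calc (r : ℝ) * (ε / (2 * k) * n) ≤ k * (ε / (2 * k) * n) := by gcongr
      _ = ε / 2 * n := by field_simp
  have h7 := h.le_blocks hω k q
  have h8 : (∫ ω, g k ω ∂P + ε * k / 2) * (q : ℝ) ≤ (∫ ω, g k ω ∂P + ε * k / 2) * (n / k) := by
    have h9 : (q : ℝ) ≤ n / k := by
      rw [le_div_iff₀ hkR]
      exact_mod_cast (by rw [mul_comm]; omega : q * k ≤ n)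
    have h10 := h.mean_nonneg k
    gcongr
  rw [div_le_iff₀ hnR]
  have h9 : (∫ ω, g k ω ∂P + ε * k / 2) * ((n : ℝ) / k) =
      (∫ ω, g k ω ∂P) / k * n + ε / 2 * n := by field_simp
  have h10 : ((∫ ω, g k ω ∂P) / k + ε) * n = (∫ ω, g k ω ∂P) / k * n + ε / 2 * n + ε / 2 * n := by
    ring
  rw [h10]
  linarith

/-- the set where no block of length `≤ N` is cheap -/
def bad (g : ℕ → Ω → ℝ) (r : ℝ) (N : ℕ) : Set Ω := {ω | ∀ l, 1 ≤ l → l ≤ N → r * l < g l ω}

lemma measurableSet_bad (r : ℝ) (N : ℕ) : MeasurableSet (bad g r N) := by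
  have : bad g r N = ⋂ l : ℕ, ⋂ _ : 1 ≤ l, ⋂ _ : l ≤ N, {ω | r * l < g l ω} := by
    ext ω; simp [bad]
  rw [this]
  exact MeasurableSet.iInter fun l => MeasurableSet.iInter fun _ => MeasurableSet.iInter fun _ =>
    measurableSet_lt measurable_const (h.meas l)

/-- **the block decomposition** -/
lemma block {r : ℝ} (hr : 0 ≤ r) (N n : ℕ) : ∀ ω ∈ A, g n ω ≤ r * n +
    (∑ i ∈ Finset.range n, (bad g r N).indicator (g 1) (τ^[i] ω)) +
    ∑ i ∈ (Finset.range n).filter (fun i => n < i + N + 1), g 1 (τ^[i] ω) := by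
  induction n using Nat.strong_induction_on with
  | _ n ih =>
    intro ω hω
    have hind : ∀ ω' ∈ A, 0 ≤ (bad g r N).indicator (g 1) ω' := fun ω' hω' =>
      Set.indicator_apply_nonneg fun _ => h.nonneg ω' hω' 1
    rcases Nat.eq_zero_or_pos n with rfl | hn
    · simp [h.zero ω hω]
    · -- general shift of the right-hand side
      have shift : ∀ l, 1 ≤ l → l ≤ n →
          (∑ i ∈ Finset.range (n - l), (bad g r N).indicator (g 1) (τ^[i] (τ^[l] ω))) +
          (∑ i ∈ (Finset.range (n - l)).filter (fun i => n - l < i + N + 1),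
            g 1 (τ^[i] (τ^[l] ω))) + (∑ i ∈ Finset.range l,
              (bad g r N).indicator (g 1) (τ^[i] ω)) ≤
          (∑ i ∈ Finset.range n, (bad g r N).indicator (g 1) (τ^[i] ω)) +
          ∑ i ∈ (Finset.range n).filter (fun i => n < i + N + 1), g 1 (τ^[i] ω) := by
        intro l hl1 hl2
        have e1 : (∑ i ∈ Finset.range n, (bad g r N).indicator (g 1) (τ^[i] ω)) =
            (∑ i ∈ Finset.range l, (bad g r N).indicator (g 1) (τ^[i] ω)) +
            ∑ i ∈ Finset.range (n - l), (bad g r N).indicator (g 1) (τ^[i] (τ^[l] ω)) := by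
          conv_lhs => rw [show n = l + (n - l) by omega, Finset.sum_range_add]
          congr 1
          refine Finset.sum_congr rfl fun i _ => ?_
          rw [← Function.iterate_add_apply, add_comm l i]
        have e2 : (∑ i ∈ (Finset.range (n - l)).filter (fun i => n - l < i + N + 1),
            g 1 (τ^[i] (τ^[l] ω))) ≤
            ∑ i ∈ (Finset.range n).filter (fun i => n < i + N + 1), g 1 (τ^[i] ω) := by
          have e3 : (∑ i ∈ (Finset.range (n - l)).filter (fun i => n - l < i + N + 1),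
            g 1 (τ^[i] (τ^[l] ω))) = ∑ i ∈ ((Finset.range (n - l)).filter
              (fun i => n - l < i + N + 1)).map (addRightEmbedding l), g 1 (τ^[i] ω) := by
            rw [Finset.sum_map]
            refine Finset.sum_congr rfl fun i _ => ?_
            rw [addRightEmbedding_apply, ← Function.iterate_add_apply]
          rw [e3]
          refine Finset.sum_le_sum_of_subset_of_nonneg ?_ fun i _ _ =>
            h.nonneg _ (h.iterate_mem hω _) 1
          intro i hi
          simp only [Finset.mem_map, Finset.mem_filter, Finset.mem_range,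
            addRightEmbedding_apply] at hi ⊢
          omega
        linarith
      by_cases hb : ω ∈ bad g r N
      · have h1 := h.sub ω hω 1 (n - 1)
        rw [show 1 + (n - 1) = n by omega] at h1
        have h2 := ih (n - 1) (by omega) (τ^[1] ω) (h.iterate_mem hω 1)
        have h3 := shift 1 le_rfl hn
        have h4 : (bad g r N).indicator (g 1) ω = g 1 ω := Set.indicator_of_mem hb _
        rw [Finset.sum_range_one, Function.iterate_zero_apply, h4] at h3
        have h5 : r * ((n - 1 : ℕ) : ℝ) ≤ r * n := by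
          have : ((n - 1 : ℕ) : ℝ) ≤ n := by exact_mod_cast Nat.sub_le n 1
          gcongr
        linarith
      · simp only [bad, Set.mem_ofPred_eq, not_forall, not_lt] at hb
        obtain ⟨l, hl1, hl2, hl3⟩ := hb
        rcases le_or_gt l n with hln | hln
        · have h1 := h.sub ω hω l (n - l)
          rw [show l + (n - l) = n by omega] at h1
          have h2 := ih (n - l) (by omega) (τ^[l] ω) (h.iterate_mem hω l)
          have h3 := shift l hl1 hln
          have h4 : 0 ≤ ∑ i ∈ Finset.range l, (bad g r N).indicator (g 1) (τ^[i] ω) :=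
            Finset.sum_nonneg fun i _ => hind _ (h.iterate_mem hω i)
          have h5 : r * l + r * ((n - l : ℕ) : ℝ) = r * n := by
            rw [← mul_add]
            congr 1
            exact_mod_cast (by omega : l + (n - l) = n)
          linarith
        · have h1 := h.le_sum hω n
          have h2 : (Finset.range n).filter (fun i => n < i + N + 1) = Finset.range n := by
            apply Finset.filter_true_of_mem
            intro i _
            omega
          rw [h2]
          have h4 : 0 ≤ ∑ i ∈ Finset.range n, (bad g r N).indicator (g 1) (τ^[i] ω) :=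
            Finset.sum_nonneg fun i _ => hind _ (h.iterate_mem hω i)
          have h5 : 0 ≤ r * n := by positivity
          linarith

/-- If cheap blocks occur a.s., the time constant is small. -/
lemma lim_le_of_ae {r : ℝ} (hr : 0 ≤ r) (hae : ∀ᵐ ω ∂P, ∃ l, 1 ≤ l ∧ g l ω ≤ r * l) :
    h.subadditive.lim ≤ r := by
  -- the bad part of the increments
  have hB : Tendsto (fun N : ℕ => ∫ ω, (bad g r N).indicator (g 1) ω ∂P) atTop
      (nhds (∫ _, (0 : ℝ) ∂P)) := by
    refine tendsto_integral_of_dominated_convergence (fun ω => |g 1 ω|) ?_ h.int.abs ?_ ?_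
    · intro N
      exact ((h.meas 1).indicator (h.measurableSet_bad r N)).aestronglyMeasurable
    · intro N
      filter_upwards with ω
      rw [Real.norm_eq_abs]
      by_cases hω : ω ∈ bad g r N
      · rw [Set.indicator_of_mem hω]
      · rw [Set.indicator_of_notMem hω, abs_zero]; exact abs_nonneg _
    · filter_upwards [hae] with ω hω
      obtain ⟨l, hl1, hl2⟩ := hω
      refine tendsto_const_nhds.congr' ?_
      filter_upwards [eventually_ge_atTop l] with N hN
      rw [Set.indicator_of_notMem]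
      intro hb
      have := hb l hl1 hN
      linarith
  rw [integral_zero] at hB
  refine le_of_forall_pos_le_add fun ε hε => ?_
  obtain ⟨N, hN⟩ := (hB.eventually_le_const hε).exists
  -- the mean of the block decomposition
  have hmean : ∀ n : ℕ, ∫ ω, g n ω ∂P ≤ r * n + n * ε + N * ∫ ω, g 1 ω ∂P := by
    intro n
    have hint1 : Integrable ((bad g r N).indicator (g 1)) P :=
      h.int.indicator (h.measurableSet_bad r N)
    have i1 : Integrable (fun ω => ∑ i ∈ Finset.range n,
        (bad g r N).indicator (g 1) (τ^[i] ω)) P :=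
      integrable_finsetSum _ fun i _ => h.integrable_comp hint1 i
    have i2 : Integrable (fun ω => ∑ i ∈ (Finset.range n).filter (fun i => n < i + N + 1),
        g 1 (τ^[i] ω)) P := integrable_finsetSum _ fun i _ => h.integrable_comp h.int i
    have h1 := integral_mono_ae (h.integrable n)
      (((integrable_const (r * n)).add i1).add i2) (by
        filter_upwards [h.ae] with ω hω using h.block hr N n ω hω)
    refine h1.trans ?_
    rw [integral_add' ((integrable_const (r * n)).add i1) i2,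
      integral_add' (integrable_const (r * n)) i1,
      integral_finsetSum _ fun i _ => h.integrable_comp hint1 i,
      integral_finsetSum _ fun i _ => h.integrable_comp h.int i]
    simp only [h.integral_comp hint1.1, h.integral_comp h.int.1, Finset.sum_const,
      Finset.card_range, nsmul_eq_mul, integral_const, probReal_univ, smul_eq_mul, one_mul]
    have h2 : ((Finset.range n).filter (fun i => n < i + N + 1)).card ≤ N := by
      calc ((Finset.range n).filter (fun i => n < i + N + 1)).card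
          ≤ (Finset.Ico (n - N) n).card := by
            apply Finset.card_le_card
            intro i hi
            simp only [Finset.mem_filter, Finset.mem_range, Finset.mem_Ico] at hi ⊢
            omega
        _ ≤ N := by rw [Nat.card_Ico]; omega
    have h3 : (((Finset.range n).filter (fun i => n < i + N + 1)).card : ℝ) ≤ N := by
      exact_mod_cast h2
    have h4 := h.mean_nonneg 1
    have h5 : (n : ℝ) * ∫ ω, (bad g r N).indicator (g 1) ω ∂P ≤ n * ε := by gcongr
    have h6 := mul_le_mul_of_nonneg_right h3 h4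
    linarith
  have h1 := h.tendsto_mean
  have h2 : Tendsto (fun n : ℕ => r + ε + (N * ∫ ω, g 1 ω ∂P) / (n : ℝ)) atTop
      (nhds (r + ε + 0)) :=
    tendsto_const_nhds.add (tendsto_const_div_atTop_nhds_zero_nat _)
  rw [add_zero] at h2
  refine le_of_tendsto_of_tendsto h1 h2 ?_
  filter_upwards [eventually_gt_atTop 0] with n hn
  have hnR : (0 : ℝ) < n := by exact_mod_cast hn
  rw [div_le_iff₀ hnR]
  refine (hmean n).trans (le_of_eq ?_)
  field_simp

/-- the set where the lower limit is at most `r` -/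
def low (g : ℕ → Ω → ℝ) (r : ℝ) : Set Ω :=
  {ω | ∀ q : ℕ, ∃ᶠ n : ℕ in atTop, g n ω ≤ (r + 1 / (q + 1)) * n}

lemma measurableSet_low (r : ℝ) : MeasurableSet (low g r) := by
  have : low g r = ⋂ q : ℕ, ⋂ m : ℕ, ⋃ n : ℕ, ⋃ _ : m ≤ n,
      {ω | g n ω ≤ (r + 1 / ((q : ℝ) + 1)) * n} := by
    ext ω
    simp [low, frequently_atTop]
  rw [this]
  exact MeasurableSet.iInter fun q => MeasurableSet.iInter fun m => MeasurableSet.iUnion fun n =>
    MeasurableSet.iUnion fun _ => measurableSet_le (h.meas n) measurable_const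

lemma low_inv {r : ℝ} (hr : 0 ≤ r) {ω : Ω} (hω : ω ∈ A) : τ ω ∈ low g r ↔ ω ∈ low g r := by
  have key : ∀ (C : ℝ) (q : ℕ), ∀ᶠ n : ℕ in atTop, C ≤ (1 / ((q : ℝ) + 1)) * n := by
    intro C q
    have : Tendsto (fun n : ℕ => (1 / ((q : ℝ) + 1)) * (n : ℝ)) atTop atTop :=
      tendsto_natCast_atTop_atTop.const_mul_atTop (by positivity)
    exact this.eventually_ge_atTop C
  constructor
  · intro h1 q
    -- `g (n+1) ω ≤ g 1 ω + g n (τ ω)`
    have h2 := (h1 (2 * q + 1)).and_eventually (key (g 1 ω) (2 * q + 1))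
    have h3 : ∃ᶠ n : ℕ in atTop, g (n + 1) ω ≤ (r + 1 / ((q : ℝ) + 1)) * ((n + 1 : ℕ) : ℝ) := by
      refine h2.mono fun n hn => ?_
      obtain ⟨hn1, hn2⟩ := hn
      have h4 := h.sub ω hω 1 n
      rw [add_comm 1 n, Function.iterate_one] at h4
      push_cast at hn1 hn2 ⊢
      have e : (1 : ℝ) / (2 * q + 1 + 1) = 1 / ((q : ℝ) + 1) / 2 := by field_simp; ring
      rw [e] at hn1 hn2
      have h5 : 0 ≤ 1 / ((q : ℝ) + 1) := by positivity
      nlinarith [(Nat.cast_nonneg n : (0 : ℝ) ≤ n)]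
    exact (tendsto_add_atTop_nat 1).frequently h3
  · intro h1 q
    have h2 := (h1 (2 * q + 1)).and_eventually ((key (g 1 ω + r + 1) (2 * q + 1)).and
      (eventually_ge_atTop 1))
    rw [frequently_atTop] at h2 ⊢
    intro m
    obtain ⟨n, hn, hn1, hn2, hn3⟩ := h2 (m + 1)
    refine ⟨n - 1, by omega, ?_⟩
    have h4 := h.rev ω hω (n - 1)
    rw [Nat.sub_add_cancel hn3] at h4
    rw [Nat.cast_sub hn3]
    push_cast at hn1 hn2 ⊢
    have e : (1 : ℝ) / (2 * q + 1 + 1) = 1 / ((q : ℝ) + 1) / 2 := by field_simp; ring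
    rw [e] at hn1 hn2
    have h5 : 0 ≤ 1 / ((q : ℝ) + 1) := by positivity
    have h6 : 1 / ((q : ℝ) + 1) ≤ 1 := by
      rw [div_le_one (by positivity)]
      linarith [(Nat.cast_nonneg q : (0 : ℝ) ≤ q)]
    nlinarith [(Nat.cast_nonneg n : (0 : ℝ) ≤ n)]

/-- a.s. lower bound -/
lemma lower {r : ℝ} (hr : 0 ≤ r) (hlt : r < h.subadditive.lim) :
    ∀ᵐ ω ∂P, ∀ᶠ n : ℕ in atTop, r * n < g n ω := by
  -- the zero-one law
  have hA : ∀ᵐ ω ∂P, ω ∈ low g r → False := by
    have hpre : τ ⁻¹' (low g r) =ᵐ[P] low g r := by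
      filter_upwards [h.ae] with ω hω
      exact propext (h.low_inv hr hω)
    have herg : Ergodic τ P := by simpa using h.erg 1 one_pos
    rcases herg.quasiErgodic.ae_mem_or_ae_notMem₀ (h.measurableSet_low r).nullMeasurableSet hpre
      with h1 | h1
    · exfalso
      -- choose `q` with `r + 1/(q+1) < lim`
      obtain ⟨q, hq⟩ : ∃ q : ℕ, r + 1 / ((q : ℝ) + 1) < h.subadditive.lim := by
        obtain ⟨q, hq⟩ := exists_nat_one_div_lt (sub_pos.2 hlt)
        exact ⟨q, by linarith⟩
      have h2 : h.subadditive.lim ≤ r + 1 / ((q : ℝ) + 1) := by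
        refine h.lim_le_of_ae (by positivity) ?_
        filter_upwards [h1] with ω hω
        obtain ⟨n, hn1, hn2⟩ := frequently_atTop.1 (hω q) 1
        exact ⟨n, hn1, hn2⟩
      linarith
    · filter_upwards [h1] with ω hω hω' using hω hω'
  filter_upwards [hA] with ω hω
  by_contra hcon
  apply hω
  intro q
  rw [Filter.not_eventually] at hcon
  refine hcon.mono fun n hn => ?_
  rw [not_lt] at hn
  refine hn.trans ?_
  have : (0 : ℝ) ≤ 1 / ((q : ℝ) + 1) := by positivity
  gcongr
  linarith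

/-- **Kingman's theorem.** -/
theorem kingman : ∀ᵐ ω ∂P, Tendsto (fun n : ℕ => g n ω / n) atTop
    (nhds h.subadditive.lim) := by
  have hlim0 : 0 ≤ h.subadditive.lim := by
    refine ge_of_tendsto h.tendsto_mean ?_
    filter_upwards with n
    exact div_nonneg (h.mean_nonneg n) (Nat.cast_nonneg n)
  have hup : ∀ᵐ ω ∂P, ∀ k : ℕ, 0 < k → ∀ q : ℕ, ∀ᶠ n : ℕ in atTop,
      g n ω / n ≤ (∫ ω, g k ω ∂P) / k + 1 / (q + 1) := by
    rw [ae_all_iff]; intro k
    rcases Nat.eq_zero_or_pos k with rfl | hk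
    · filter_upwards with ω h0; exact absurd h0 (lt_irrefl 0)
    · have : ∀ᵐ ω ∂P, ∀ q : ℕ, ∀ᶠ n : ℕ in atTop,
          g n ω / n ≤ (∫ ω, g k ω ∂P) / k + 1 / (q + 1) := by
        rw [ae_all_iff]; intro q
        exact h.upper k hk (by positivity)
      filter_upwards [this] with ω hω _ using hω
  have hlow : ∀ᵐ ω ∂P, ∀ q : ℕ, ∀ᶠ n : ℕ in atTop,
      max 0 (h.subadditive.lim - 1 / (q + 1)) * n ≤ g n ω := by
    rw [ae_all_iff]; intro q
    rcases le_or_gt (h.subadditive.lim) (1 / (q + 1)) with hle | hgt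
    · filter_upwards [h.ae] with ω hω
      rw [max_eq_left (by linarith)]
      filter_upwards with n
      rw [zero_mul]
      exact h.nonneg ω hω n
    · have := h.lower (r := h.subadditive.lim - 1 / (q + 1)) (by linarith) (by
        have : (0 : ℝ) < 1 / ((q : ℝ) + 1) := by positivity
        linarith)
      filter_upwards [this] with ω hω
      rw [max_eq_right (by linarith)]
      filter_upwards [hω] with n hn using hn.le
  filter_upwards [hup, hlow] with ω h1 h2
  rw [Metric.tendsto_nhds]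
  intro ε hε
  obtain ⟨q, hq⟩ := exists_nat_one_div_lt (show 0 < ε / 2 by positivity)
  obtain ⟨k, hk0, hk⟩ : ∃ k : ℕ, 0 < k ∧ (∫ ω, g k ω ∂P) / k < h.subadditive.lim + ε / 2 := by
    have := (h.tendsto_mean.eventually_lt_const
      (show h.subadditive.lim < h.subadditive.lim + ε / 2 by linarith)).and
      (eventually_gt_atTop 0)
    obtain ⟨k, hk1, hk2⟩ := this.exists
    exact ⟨k, hk2, hk1⟩
  filter_upwards [h1 k hk0 q, h2 q, eventually_gt_atTop 0] with n hn1 hn2 hn3
  have hnR : (0 : ℝ) < n := by exact_mod_cast hn3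
  rw [Real.dist_eq, abs_lt]
  constructor
  · have h3 : (h.subadditive.lim - 1 / (q + 1)) * n ≤ g n ω :=
      (mul_le_mul_of_nonneg_right (le_max_right _ _) hnR.le).trans hn2
    rw [← le_div_iff₀ hnR] at h3
    linarith
  · linarith

end Subadd

end Crest.Agent.R151.K
end

-- ▼ part R151/K9a
section

/-!
# R151/K9a — the time constant under a second moment hypothesis on passage times (owner helper507)

`Mom G m`   : `E T(x,y)² ≤ (m |y-x|₁)²`.  Holds for the law of S0213 (`mom_of_law213`) and for laws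
with a second moment (`mom_of_sq`).
`IsTC1 G μ` : `T(0, ⌊s v⌋)/s → μ v` in `L¹`, for every `v`.
`Mom.exists_tc` : existence.  Norm properties: `Mom.mu_*`.
-/

set_option autoImplicit false
set_option linter.unusedSectionVars false

open MeasureTheory Filter ProbabilityTheory
open Crest.ProbabilityR.FirstPassage

namespace Crest.Agent.R151.K

/-- Second moments of the passage times grow at most quadratically. -/
structure Mom (G : Measure ℝ) (m : ℝ) : Prop where
  h0 : G (Set.Iio 0) = 0
  nonneg : 0 ≤ m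
  sq_int : ∀ x y, Integrable (fun t => passageTime t x y ^ 2) (iidLaw G)
  sq_le : ∀ x y, ∫ t, passageTime t x y ^ 2 ∂(iidLaw G) ≤ (m * n1 (y - x)) ^ 2

/-- `L¹` time constant. -/
def IsTC1 (G : Measure ℝ) (μ : ℝ × ℝ → ℝ) : Prop :=
  ∀ v : ℝ × ℝ, Tendsto (fun s : ℝ => ∫ t, |passageTime t 0 (fl v s) / s - μ v| ∂(iidLaw G)) atTop
    (nhds 0)

variable {G : Measure ℝ} [IsProbabilityMeasure G] {m : ℝ}

theorem mom_of_law213 (hG : M51.Law213 G) : ∃ m, Mom G m := by
  obtain ⟨C, hC, h⟩ := M51.exists_integral_sq_le hG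
  refine ⟨Real.sqrt C, hG.h0, Real.sqrt_nonneg _, fun x y => ?_, fun x y => ?_⟩
  · exact (memLp_two_iff_integrable_sq (measurable_pt x y).aestronglyMeasurable).1
      (M51.memLp_pt hG x y)
  · rw [mul_pow, Real.sq_sqrt hC]
    exact h x y


lemma isTC1_of_isTC {μ : ℝ × ℝ → ℝ} (h0 : G (Set.Iio 0) = 0)
    (h2 : Integrable (fun x : ℝ => x ^ 2) G) (hμ : IsTC G μ) : IsTC1 G μ :=
  fun v => l1conv h0 h2 hμ v

lemma toR_nsmul (n : ℕ) (x : ℤ × ℤ) : toR (n • x) = (n : ℝ) • toR x := by
  have h1 : (n • x).1 = n * x.1 := by rw [Prod.smul_fst, nsmul_eq_mul]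
  have h2 : (n • x).2 = n * x.2 := by rw [Prod.smul_snd, nsmul_eq_mul]
  simp only [toR, h1, h2, Prod.smul_mk, smul_eq_mul, Int.cast_mul, Int.cast_natCast]

lemma n1_nsmul (n : ℕ) (x : ℤ × ℤ) : n1 (n • x) = n * n1 x := by
  have h1 : (n • x).1 = n * x.1 := by rw [Prod.smul_fst, nsmul_eq_mul]
  have h2 : (n • x).2 = n * x.2 := by rw [Prod.smul_snd, nsmul_eq_mul]
  simp only [n1, h1, h2, Int.natAbs_mul, Int.natAbs_natCast]
  ring

namespace Mom

section moments

variable (hM : Mom G m)
include hM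

lemma memLp (x y : ℤ × ℤ) : MemLp (fun t => passageTime t x y) 2 (iidLaw G) :=
  (memLp_two_iff_integrable_sq (measurable_pt x y).aestronglyMeasurable).2 (hM.sq_int x y)

lemma int (x y : ℤ × ℤ) : Integrable (fun t => passageTime t x y) (iidLaw G) :=
  (hM.memLp x y).integrable (by norm_num)

lemma pt_le (x y : ℤ × ℤ) : ∫ t, passageTime t x y ∂(iidLaw G) ≤ m * n1 (y - x) := by
  have h1 : (∫ t, passageTime t x y ∂(iidLaw G)) ^ 2 ≤
      ∫ t, passageTime t x y ^ 2 ∂(iidLaw G) := by
    have h := variance_nonneg (fun t : Environment => passageTime t x y) (iidLaw G)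
    rw [variance_eq_sub (hM.memLp x y)] at h
    simp only [Pi.pow_apply] at h
    linarith
  have h2 := h1.trans (hM.sq_le x y)
  have h3 : 0 ≤ m * n1 (y - x) := mul_nonneg hM.nonneg (Nat.cast_nonneg _)
  exact le_of_sq_le_sq h2 h3
where
  le_of_sq_le_sq {a b : ℝ} (h : a ^ 2 ≤ b ^ 2) (hb : 0 ≤ b) : a ≤ b :=
    (le_abs_self a).trans (abs_le_of_sq_le_sq h hb)

lemma ET_le (x : ℤ × ℤ) : ET G x ≤ m * n1 x := by
  have := hM.pt_le 0 x
  rwa [sub_zero] at this

lemma ET_add_le (x y : ℤ × ℤ) : ET G (x + y) ≤ ET G x + ET G y := by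
  have h1 : ET G y = ∫ t, passageTime t x (x + y) ∂(iidLaw G) := by
    rw [integral_pt, add_sub_cancel_left]
  rw [h1, ET, ET, ← integral_add (hM.int _ _) (hM.int _ _)]
  refine integral_mono_ae (hM.int _ _) ((hM.int _ _).add (hM.int _ _)) ?_
  filter_upwards [ae_Nn (G := G) hM.h0] with t ht using pt_triangle ht _ _ _

lemma ET_nsmul_le (x : ℤ × ℤ) (k : ℕ) : ET G (k • x) ≤ k * ET G x := by
  induction k with
  | zero => simp [ET_zero hM.h0]
  | succ k ih =>
    rw [succ_nsmul]
    refine (hM.ET_add_le _ _).trans ?_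
    push_cast
    linarith

lemma abs_ET_sub_le (x y : ℤ × ℤ) : |ET G x - ET G y| ≤ m * n1 (x - y) := by
  have h1 := hM.ET_add_le (x - y) y
  have h3 := hM.ET_add_le (y - x) x
  rw [sub_add_cancel] at h1 h3
  have h4 := hM.ET_le (x - y)
  have h5 := hM.ET_le (y - x)
  have h6 : n1 (y - x) = n1 (x - y) := by rw [← neg_sub, n1_neg]
  rw [h6] at h5
  rw [abs_le]
  constructor <;> linarith

/-- comparison of two points in `L¹` -/
lemma l1_diff_le (x y : ℤ × ℤ) :
    ∫ t, |passageTime t 0 x - passageTime t 0 y| ∂(iidLaw G) ≤ m * n1 (y - x) := by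
  refine le_trans ?_ (hM.pt_le x y)
  refine integral_mono_ae ((hM.int _ _).sub (hM.int _ _)).abs (hM.int _ _) ?_
  filter_upwards [ae_Nn (G := G) hM.h0] with t ht
  have t1 := pt_triangle ht 0 x y
  have t2 := pt_triangle ht 0 y x
  rw [pt_symm ht y x] at t2
  change |passageTime t 0 x - passageTime t 0 y| ≤ passageTime t x y
  rw [abs_le]; constructor <;> linarith

/-! ### Existence -/

lemma subadd {x : ℤ × ℤ} (hx : x ≠ 0) : Subadd (iidLaw G) (A.shift x) {t | Nn t}
    (fun n t => passageTime t 0 (n • x)) := by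
  have hiter : ∀ (k : ℕ) (t : Environment), (A.shift x)^[k] t = A.shift (k • x) t := by
    intro k
    induction k with
    | zero => intro t; simp
    | succ k ih =>
      intro t
      rw [Function.iterate_succ_apply', ih, A.shift_shift]
      congr 1
      rw [succ_nsmul']
  have hptshift : ∀ (z : ℤ × ℤ) (t : Environment) (a b : ℤ × ℤ),
      passageTime (A.shift z t) a b = passageTime t (a + z) (b + z) :=
    fun z t a b => pt_iso t (tr z) a b
  refine ⟨?_, ae_Nn hM.h0, ?_, ?_, ?_, ?_, ?_, ?_, ?_⟩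
  · intro k hk
    have : (A.shift x)^[k] = A.shift (k • x) := funext (hiter k)
    rw [this]
    refine ergodic_shift ?_
    intro h0
    rcases smul_eq_zero.1 h0 with h | h
    · omega
    · exact hx h
  · intro t ht e
    exact ht _
  · intro n
    exact measurable_pt 0 (n • x)
  · exact hM.int 0 (1 • x)
  · intro t ht
    rw [zero_nsmul]
    exact pt_self ht 0
  · intro t ht n
    exact pt_nonneg ht 0 (n • x)
  · intro t ht a b
    rw [hiter, hptshift, zero_add, ← add_nsmul, add_comm b a]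
    exact pt_triangle ht 0 (a • x) ((a + b) • x)
  · intro t ht n
    rw [hptshift, zero_add, one_smul, ← succ_nsmul]
    have := pt_triangle ht x 0 ((n + 1) • x)
    rwa [pt_symm ht x 0] at this

/-- a.s. convergence along the multiples of a lattice vector. -/
lemma exists_dir (x : ℤ × ℤ) : ∃ γ : ℝ, ∀ᵐ t ∂(iidLaw G),
    Tendsto (fun n : ℕ => passageTime t 0 (n • x) / n) atTop (nhds γ) := by
  rcases eq_or_ne x 0 with rfl | hx
  · refine ⟨0, ?_⟩
    filter_upwards [ae_Nn (G := G) hM.h0] with t ht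
    simp [pt_self ht]
  · exact ⟨_, (hM.subadd hx).kingman⟩

/-- `L¹` convergence along the multiples of a lattice vector. -/
lemma exists_dir_l1 (x : ℤ × ℤ) : ∃ γ : ℝ, Tendsto (fun n : ℕ =>
    ∫ t, |passageTime t 0 (n • x) / n - γ| ∂(iidLaw G)) atTop (nhds 0) := by
  obtain ⟨γ, hγ⟩ := hM.exists_dir x
  refine ⟨γ, ?_⟩
  have hI : ∀ n : ℕ, Integrable (fun t => (passageTime t 0 (n • x) / n) ^ 2) (iidLaw G) := by
    intro n
    have := (hM.sq_int 0 (n • x)).div_const ((n : ℝ) ^ 2)
    simpa only [div_pow] using this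
  have hI2 : ∀ n : ℕ, Integrable (fun t => (passageTime t 0 (n • x) / n - γ) ^ 2)
      (iidLaw G) := by
    intro n
    refine (((hI n).const_mul 2).add (integrable_const (2 * γ ^ 2))).mono' ?_ ?_
    · exact ((((measurable_pt 0 (n • x)).div_const _).sub_const _).pow_const 2).aestronglyMeasurable
    · filter_upwards with t
      rw [Real.norm_eq_abs, abs_of_nonneg (sq_nonneg _)]
      change (passageTime t 0 (n • x) / n - γ) ^ 2 ≤
        2 * (passageTime t 0 (n • x) / n) ^ 2 + 2 * γ ^ 2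
      nlinarith [sq_nonneg (passageTime t 0 (n • x) / n + γ)]
  have hkey := tendsto_integral_abs (P := iidLaw G)
    (Y := fun s t => passageTime t 0 (⌊s⌋₊ • x) / (⌊s⌋₊ : ℝ) - γ)
    (C := 2 * (m * n1 x) ^ 2 + 2 * γ ^ 2) ?_ ?_ ?_ ?_
  · have := hkey.comp tendsto_natCast_atTop_atTop
    simpa [Function.comp_def, Nat.floor_natCast] using this
  · intro s
    exact ((measurable_pt 0 (⌊s⌋₊ • x)).div_const _).sub_const _
  · intro s _
    exact hI2 _
  · intro s hs
    have hn : 1 ≤ ⌊s⌋₊ := (Nat.one_le_floor_iff s).2 hs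
    have hnR : (0 : ℝ) < (⌊s⌋₊ : ℝ) := by exact_mod_cast hn
    refine (integral_mono (hI2 ⌊s⌋₊) (((hI ⌊s⌋₊).const_mul 2).add (integrable_const (2 * γ ^ 2)))
      (fun t => ?_)).trans ?_
    · change (passageTime t 0 (⌊s⌋₊ • x) / (⌊s⌋₊ : ℝ) - γ) ^ 2 ≤
        2 * (passageTime t 0 (⌊s⌋₊ • x) / (⌊s⌋₊ : ℝ)) ^ 2 + 2 * γ ^ 2
      nlinarith [sq_nonneg (passageTime t 0 (⌊s⌋₊ • x) / (⌊s⌋₊ : ℝ) + γ)]
    · rw [integral_add' ((hI ⌊s⌋₊).const_mul 2) (integrable_const _), integral_const_mul]
      simp only [integral_const, probReal_univ, smul_eq_mul, one_mul]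
      have h3 := hM.sq_le 0 (⌊s⌋₊ • x)
      rw [sub_zero] at h3
      have h4 : ∫ t, (passageTime t 0 (⌊s⌋₊ • x) / (⌊s⌋₊ : ℝ)) ^ 2 ∂(iidLaw G)
          = (∫ t, passageTime t 0 (⌊s⌋₊ • x) ^ 2 ∂(iidLaw G)) / (⌊s⌋₊ : ℝ) ^ 2 := by
        simp only [div_pow]
        rw [integral_div]
      have h5 : (n1 (⌊s⌋₊ • x) : ℝ) = ⌊s⌋₊ * n1 x := by
        rw [n1_nsmul]; push_cast; ring
      have h6 : (∫ t, passageTime t 0 (⌊s⌋₊ • x) ^ 2 ∂(iidLaw G)) / (⌊s⌋₊ : ℝ) ^ 2
          ≤ (m * n1 x) ^ 2 := by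
        rw [div_le_iff₀ (by positivity)]
        refine h3.trans (le_of_eq ?_)
        rw [h5]; ring
      rw [h4]
      linarith
  · filter_upwards [hγ] with t ht
    have h1 : Tendsto (fun n : ℕ => passageTime t 0 (n • x) / n - γ) atTop (nhds (γ - γ)) :=
      ht.sub tendsto_const_nhds
    rw [sub_self] at h1
    exact h1.comp tendsto_nat_floor_atTop

lemma exists_mu (v : ℝ × ℝ) : ∃ γ : ℝ, Tendsto (fun s : ℝ =>
    ∫ t, |passageTime t 0 (fl v s) / s - γ| ∂(iidLaw G)) atTop (nhds 0) := by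
  choose γ hγ using hM.exists_dir_l1
  -- the approximation at scale `k`
  obtain ⟨a, ha⟩ : ∃ a : ℕ → ℝ, a = fun k : ℕ => γ (fl v k) / k := ⟨_, rfl⟩
  have hIs : ∀ (s c : ℝ), Integrable (fun t => |passageTime t 0 (fl v s) / s - c|) (iidLaw G) :=
    fun s c => (((hM.int 0 (fl v s)).div_const s).sub (integrable_const c)).abs
  have key : ∀ k : ℕ, 0 < k → ∀ δ : ℝ, 0 < δ → ∀ᶠ s : ℝ in atTop,
      ∫ t, |passageTime t 0 (fl v s) / s - a k| ∂(iidLaw G) ≤ 2 * m / k + δ := by
    intro k hk δ hδ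
    have hkR : (0 : ℝ) < k := by exact_mod_cast hk
    -- along the multiples of `x`
    obtain ⟨x, hx⟩ : ∃ x, x = fl v k := ⟨_, rfl⟩
    have hfloor : Tendsto (fun s : ℝ => ⌊s / k⌋₊) atTop atTop :=
      tendsto_nat_floor_atTop.comp (tendsto_id.atTop_div_const hkR)
    have e1 := (hγ x).comp hfloor
    have e2 := (e1.const_mul (1 / (k : ℝ))).eventually_le_const
      (show 1 / (k : ℝ) * 0 < δ / 3 by rw [mul_zero]; positivity)
    have e3 : Tendsto (fun s : ℝ => (m * (k * l1 v + 2 + 0)) / s) atTop (nhds 0) :=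
      tendsto_const_nhds.div_atTop tendsto_id
    have e4 := e3.eventually_le_const (show (0 : ℝ) < δ / 3 by positivity)
    have e5 : Tendsto (fun s : ℝ => |γ x| / s) atTop (nhds 0) :=
      tendsto_const_nhds.div_atTop tendsto_id
    have e6 := e5.eventually_le_const (show (0 : ℝ) < δ / 3 by positivity)
    filter_upwards [e2, e4, e6, eventually_gt_atTop 0, eventually_ge_atTop (k : ℝ)]
      with s hs1 hs2 hs3 hs0 hsk
    simp only [Function.comp_apply] at hs1
    obtain ⟨n, hn⟩ : ∃ n, n = ⌊s / k⌋₊ := ⟨_, rfl⟩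
    rw [← hn] at hs1
    have hn1 : (n : ℝ) ≤ s / k := by rw [hn]; exact Nat.floor_le (by positivity)
    have hn2 : s / k < n + 1 := by rw [hn]; exact Nat.lt_floor_add_one _
    have hnpos : 0 < n := by
      rw [hn]
      exact Nat.floor_pos.2 ((le_div_iff₀ hkR).2 (by linarith))
    have hnR : (0 : ℝ) < n := by exact_mod_cast hnpos
    -- the distance
    have hdist : (n1 (n • x - fl v s) : ℝ) ≤ 2 * s / k + (k * l1 v + 2) := by
      rw [← l1_toR]
      have d1 : toR (n • x - fl v s) = ((s • v - toR (fl v s)) - (n : ℝ) • ((k : ℝ) • v - toR x))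
          + ((n : ℝ) * k - s) • v := by
        rw [toR_sub, toR_nsmul]
        module
      rw [d1]
      refine (l1_add_le _ _).trans ?_
      have d2 := l1_fl v s
      have d3 := l1_fl v k
      rw [← hx] at d3
      have d4 : l1 ((s • v - toR (fl v s)) - (n : ℝ) • ((k : ℝ) • v - toR x)) ≤
          l1 (s • v - toR (fl v s)) + n * l1 ((k : ℝ) • v - toR x) := by
        rw [sub_eq_add_neg]
        refine (l1_add_le _ _).trans (le_of_eq ?_)
        congr 1
        simp only [l1, Prod.fst_neg, Prod.snd_neg, Prod.smul_fst, Prod.smul_snd, smul_eq_mul,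
          abs_neg, abs_mul, Nat.abs_cast]
        ring
      have d5 : l1 (((n : ℝ) * k - s) • v) ≤ k * l1 v := by
        have : |(n : ℝ) * k - s| ≤ k := by
          rw [abs_le]
          rw [div_lt_iff₀ hkR] at hn2
          rw [le_div_iff₀ hkR] at hn1
          constructor <;> nlinarith
        have d6 : l1 (((n : ℝ) * k - s) • v) = |(n : ℝ) * k - s| * l1 v := by
          simp only [l1, Prod.smul_fst, Prod.smul_snd, smul_eq_mul, abs_mul]
          ring
        rw [d6]
        exact mul_le_mul_of_nonneg_right this (l1_nonneg v)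
      have d7 : (n : ℝ) * l1 ((k : ℝ) • v - toR x) ≤ 2 * s / k := by
        calc (n : ℝ) * l1 ((k : ℝ) • v - toR x) ≤ (s / k) * 2 := by
              have := l1_nonneg ((k : ℝ) • v - toR x)
              gcongr
          _ = 2 * s / k := by ring
      linarith
    -- the three errors
    have i1 : Integrable (fun t => |passageTime t 0 (fl v s) - passageTime t 0 (n • x)|)
        (iidLaw G) := ((hM.int _ _).sub (hM.int _ _)).abs
    have i2 : Integrable (fun t => |passageTime t 0 (n • x) / n - γ x|) (iidLaw G) :=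
      (((hM.int 0 (n • x)).div_const (n : ℝ)).sub (integrable_const _)).abs
    have hb : ∀ t : Environment, |passageTime t 0 (fl v s) / s - a k| ≤
        (1 / s) * |passageTime t 0 (fl v s) - passageTime t 0 (n • x)| +
          (1 / k) * |passageTime t 0 (n • x) / n - γ x| + |γ x| / s := by
      intro t
      have e : passageTime t 0 (fl v s) / s - a k =
          (1 / s) * (passageTime t 0 (fl v s) - passageTime t 0 (n • x)) +
          (n / s) * (passageTime t 0 (n • x) / n - γ x) + (n / s - 1 / k) * γ x := by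
        rw [ha]
        simp only [← hx]
        field_simp
        ring
      rw [e]
      refine (abs_add_three _ _ _).trans ?_
      rw [abs_mul, abs_mul, abs_mul, abs_of_pos (one_div_pos.2 hs0),
        abs_of_pos (div_pos hnR hs0)]
      have f1 : (n : ℝ) / s ≤ 1 / k := by
        rw [div_le_div_iff₀ hs0 hkR]
        rw [le_div_iff₀ hkR] at hn1
        linarith
      have f2 : |(n : ℝ) / s - 1 / k| ≤ 1 / s := by
        rw [abs_of_nonpos (by linarith), neg_sub, sub_le_iff_le_add, ← add_div,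
          div_le_div_iff₀ hkR hs0]
        rw [div_lt_iff₀ hkR] at hn2
        linarith
      have f3 : |(n : ℝ) / s - 1 / k| * |γ x| ≤ |γ x| / s := by
        calc |(n : ℝ) / s - 1 / k| * |γ x| ≤ (1 / s) * |γ x| := by gcongr
          _ = |γ x| / s := by ring
      have f4 : (n : ℝ) / s * |passageTime t 0 (n • x) / n - γ x| ≤
          1 / k * |passageTime t 0 (n • x) / n - γ x| := by gcongr
      linarith
    refine (integral_mono (hIs s (a k)) (((i1.const_mul (1 / s)).add (i2.const_mul (1 / (k:ℝ)))).add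
      (integrable_const (|γ x| / s))) hb).trans ?_
    refine (integral_add3 (|γ x| / s) (i1.const_mul (1 / s)) (i2.const_mul (1 / (k : ℝ)))).le.trans ?_
    rw [integral_const_mul, integral_const_mul]
    have g1 : (1 / s) * ∫ t, |passageTime t 0 (fl v s) - passageTime t 0 (n • x)| ∂(iidLaw G)
        ≤ 2 * m / k + δ / 3 := by
      have g2 := hM.l1_diff_le (fl v s) (n • x)
      have g3 := mul_le_mul_of_nonneg_left hdist hM.nonneg
      have g4 : (1 / s) * (m * (2 * s / k + (k * l1 v + 2))) =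
          2 * m / k + (m * (k * l1 v + 2 + 0)) / s := by
        field_simp
        ring
      calc (1 / s) * ∫ t, |passageTime t 0 (fl v s) - passageTime t 0 (n • x)| ∂(iidLaw G)
          ≤ (1 / s) * (m * (2 * s / k + (k * l1 v + 2))) := by
            have : (0 : ℝ) ≤ 1 / s := by positivity
            exact mul_le_mul_of_nonneg_left (g2.trans g3) this
        _ ≤ _ := by rw [g4]; linarith
    linarith
  -- the sequence is Cauchy
  have hcs : ∀ j k : ℕ, 0 < j → 0 < k → |a j - a k| ≤ 2 * m / j + 2 * m / k := by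
    intro j k hj hk
    refine le_of_forall_pos_le_add fun δ hδ => ?_
    obtain ⟨s, hs1, hs2⟩ := ((key j hj (δ / 2) (by positivity)).and
      (key k hk (δ / 2) (by positivity))).exists
    have h1 : |a j - a k| ≤ ∫ t, |passageTime t 0 (fl v s) / s - a j| ∂(iidLaw G) +
        ∫ t, |passageTime t 0 (fl v s) / s - a k| ∂(iidLaw G) := by
      rw [← integral_add (hIs s _) (hIs s _)]
      have : |a j - a k| = ∫ _, |a j - a k| ∂(iidLaw G) := by simp
      rw [this]
      refine integral_mono (integrable_const _) ((hIs s _).add (hIs s _)) fun t => ?_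
      change |a j - a k| ≤ |passageTime t 0 (fl v s) / s - a j| +
        |passageTime t 0 (fl v s) / s - a k|
      rw [abs_sub_comm (passageTime t 0 (fl v s) / s) (a j)]
      refine le_trans (le_of_eq ?_) (abs_add_le _ _)
      congr 1
      ring
    linarith
  have hcauchy : CauchySeq a := by
    rw [Metric.cauchySeq_iff']
    intro ε hε
    obtain ⟨N, hN⟩ := exists_nat_gt (4 * m / ε)
    refine ⟨N + 1, fun n hn => ?_⟩
    rw [Real.dist_eq]
    have hN1 : (0 : ℝ) < ((N + 1 : ℕ) : ℝ) := by positivity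
    have h1 := hcs n (N + 1) (by omega) (Nat.succ_pos _)
    have h2 : 2 * m / n ≤ 2 * m / ((N + 1 : ℕ) : ℝ) := by
      have h3 : ((N + 1 : ℕ) : ℝ) ≤ n := by exact_mod_cast hn
      have := hM.nonneg
      gcongr
    have h3 : 2 * m / ((N + 1 : ℕ) : ℝ) < ε / 2 := by
      rw [div_lt_iff₀ hN1]
      rw [div_lt_iff₀ hε] at hN
      push_cast
      nlinarith
    linarith
  obtain ⟨g, hg⟩ := cauchySeq_tendsto_of_complete hcauchy
  refine ⟨g, ?_⟩
  rw [Metric.tendsto_nhds]
  intro ε hε
  -- choose k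
  have hev := ((Metric.tendsto_nhds.1 hg) (ε / 4) (by positivity)).and
    ((eventually_gt_atTop 0).and
      ((tendsto_const_div_atTop_nhds_zero_nat (2 * m)).eventually_le_const
        (show (0 : ℝ) < ε / 4 by positivity)))
  obtain ⟨k, hk1, hk2, hk3⟩ := hev.exists
  rw [Real.dist_eq, abs_lt] at hk1
  filter_upwards [key k hk2 (ε / 4) (by positivity)] with s hs
  rw [Real.dist_eq, sub_zero, abs_of_nonneg (integral_nonneg fun t => abs_nonneg _)]
  have h1 : ∫ t, |passageTime t 0 (fl v s) / s - g| ∂(iidLaw G) ≤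
      ∫ t, |passageTime t 0 (fl v s) / s - a k| ∂(iidLaw G) + |a k - g| := by
    have h2 : |a k - g| = ∫ _, |a k - g| ∂(iidLaw G) := by simp
    rw [h2, ← integral_add (hIs s _) (integrable_const _)]
    refine integral_mono (hIs s _) ((hIs s _).add (integrable_const _)) fun t => ?_
    change |passageTime t 0 (fl v s) / s - g| ≤ |passageTime t 0 (fl v s) / s - a k| + |a k - g|
    refine le_trans (le_of_eq ?_) (abs_add_le _ _)
    congr 1
    ring
  have h2 : |a k - g| < ε / 4 := by rw [abs_lt]; constructor <;> linarith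
  linarith

/-- **Existence of the time constant.** -/
theorem exists_tc : ∃ μ : ℝ × ℝ → ℝ, IsTC1 G μ := by
  choose μ hμ using hM.exists_mu
  exact ⟨μ, hμ⟩

end moments

end Mom

end Crest.Agent.R151.K
end

-- ▼ part R151/K9b

/-!
# R151/K9b — the `L¹` time constant is a norm (owner helper507)
-/

set_option autoImplicit false

open MeasureTheory Filter ProbabilityTheory
open Crest.ProbabilityR.FirstPassage

namespace Crest.Agent.R151.K

variable {G : Measure ℝ} [IsProbabilityMeasure G] {m : ℝ} {μ : ℝ × ℝ → ℝ}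

namespace Mom

variable (hM : Mom G m) (hμ : IsTC1 G μ)

include hM hμ

/-- Convergence of the means. -/
lemma ET_tendsto (v : ℝ × ℝ) :
    Tendsto (fun s : ℝ => ET G (fl v s) / s) atTop (nhds (μ v)) := by
  rw [tendsto_iff_norm_sub_tendsto_zero]
  refine squeeze_zero (fun s => norm_nonneg _) (fun s => ?_) (hμ v)
  have hI1 : Integrable (fun t => passageTime t 0 (fl v s) / s) (iidLaw G) :=
    (hM.int 0 (fl v s)).div_const s
  have : ET G (fl v s) / s - μ v = ∫ t, (passageTime t 0 (fl v s) / s - μ v) ∂(iidLaw G) := by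
    rw [integral_sub hI1 (integrable_const _), integral_div]
    simp [ET]
  rw [this]
  exact norm_integral_le_integral_norm _

/-- Points at bounded distance of `s v` may be used. -/
lemma ET_tendsto' (v : ℝ × ℝ) (x : ℝ → ℤ × ℤ) (c : ℕ) (hx : ∀ s, n1 (x s - fl v s) ≤ c) :
    Tendsto (fun s : ℝ => ET G (x s) / s) atTop (nhds (μ v)) := by
  have h1 := hM.ET_tendsto hμ v
  have h3 : Tendsto (fun s : ℝ => ET G (x s) / s - ET G (fl v s) / s) atTop (nhds 0) := by
    have h4 : Tendsto (fun s : ℝ => (m * c) / s) atTop (nhds 0) :=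
      tendsto_const_nhds.div_atTop tendsto_id
    refine squeeze_zero_norm' ?_ h4
    filter_upwards [eventually_gt_atTop 0] with s hs
    rw [← sub_div, norm_div, Real.norm_eq_abs, Real.norm_eq_abs, abs_of_pos hs]
    have h5 := hM.abs_ET_sub_le (x s) (fl v s)
    have h6 := hM.nonneg
    have h7 : (n1 (x s - fl v s) : ℝ) ≤ c := by exact_mod_cast hx s
    gcongr
    exact h5.trans (by gcongr)
  have := h3.add h1
  simpa using this

/-- Natural multiples. -/
lemma ET_tendsto_nat (v : ℝ × ℝ) :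
    Tendsto (fun n : ℕ => ET G (fl v n) / n) atTop (nhds (μ v)) :=
  (hM.ET_tendsto hμ v).comp tendsto_natCast_atTop_atTop

lemma mu_nonneg (v : ℝ × ℝ) : 0 ≤ μ v := by
  refine ge_of_tendsto (hM.ET_tendsto hμ v) ?_
  filter_upwards [eventually_ge_atTop 0] with s hs
  exact div_nonneg (ET_nonneg hM.h0 _) hs

lemma mu_zero : μ 0 = 0 := by
  have h1 := hM.ET_tendsto hμ 0
  have h3 : ∀ s : ℝ, ET G (fl 0 s) / s = 0 := by
    intro s
    have : fl 0 s = 0 := by simp [fl]
    rw [this, ET_zero hM.h0, zero_div]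
  simp only [h3] at h1
  exact (tendsto_nhds_unique h1 tendsto_const_nhds)

lemma mu_smul {c : ℝ} (hc : 0 ≤ c) (v : ℝ × ℝ) : μ (c • v) = c * μ v := by
  rcases hc.eq_or_lt with rfl | hc
  · rw [zero_smul, zero_mul]; exact hM.mu_zero hμ
  have h1 := hM.ET_tendsto hμ (c • v)
  have h3 := ((hM.ET_tendsto hμ v).comp (tendsto_id.const_mul_atTop hc)).const_mul c
  refine tendsto_nhds_unique h1 (h3.congr fun s => ?_)
  simp only [Function.comp_apply, id, fl_smul]
  rcases eq_or_ne s 0 with rfl | hs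
  · simp
  · field_simp

lemma mu_add_le (v w : ℝ × ℝ) : μ (v + w) ≤ μ v + μ w := by
  have h1 := hM.ET_tendsto hμ (v + w)
  have h3 := (hM.ET_tendsto hμ v).add (hM.ET_tendsto' hμ w
    (fun s => fl (v + w) s - fl v s) 2 (n1_fl_sub_le v w))
  refine le_of_tendsto_of_tendsto h1 h3 ?_
  filter_upwards [eventually_gt_atTop 0] with s hs
  rw [← add_div]
  gcongr
  have := hM.ET_add_le (fl v s) (fl (v + w) s - fl v s)
  rwa [add_sub_cancel] at this

lemma mu_neg (v : ℝ × ℝ) : μ (-v) = μ v := by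
  have h1 := hM.ET_tendsto hμ v
  have h3 := hM.ET_tendsto' hμ (-v) (fun s => -fl v s) 2 (fun s => by
    have := n1_fl_neg_le v s
    rwa [← neg_sub, n1_neg] at this)
  simp only [ET_neg hM.h0] at h3
  exact tendsto_nhds_unique h3 h1

lemma mu_le (v : ℝ × ℝ) : μ v ≤ m * l1 v := by
  have h1 := hM.ET_tendsto hμ v
  have h4 : Tendsto (fun s : ℝ => m * l1 v + (2 * m) / s) atTop
      (nhds (m * l1 v + 0)) :=
    tendsto_const_nhds.add (tendsto_const_nhds.div_atTop tendsto_id)
  rw [add_zero] at h4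
  refine le_of_tendsto_of_tendsto h1 h4 ?_
  filter_upwards [eventually_gt_atTop 0] with s hs
  have h5 := hM.ET_le (fl v s)
  have h6 := hM.nonneg
  have h7 : (n1 (fl v s) : ℝ) ≤ s * l1 v + 2 := by
    rw [← l1_toR]
    simp only [l1, toR, fl]
    have h1 := abs_floor_le (s * v.1)
    have h2 := abs_floor_le (s * v.2)
    rw [abs_mul, abs_of_pos hs] at h1 h2
    nlinarith
  rw [div_le_iff₀ hs]
  calc ET G (fl v s) ≤ m * (n1 (fl v s) : ℝ) := h5
    _ ≤ m * (s * l1 v + 2) := by gcongr
    _ = _ := by field_simp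

lemma abs_mu_sub_le (v w : ℝ × ℝ) : |μ v - μ w| ≤ m * l1 (v - w) := by
  have h1 := hM.mu_add_le hμ (v - w) w
  have h3 := hM.mu_add_le hμ (w - v) v
  rw [sub_add_cancel] at h1 h3
  have h4 := hM.mu_le hμ (v - w)
  have h5 : μ (w - v) = μ (v - w) := by rw [← neg_sub, hM.mu_neg hμ]
  rw [abs_le]
  constructor <;> linarith

lemma mu_le_ET (x : ℤ × ℤ) : μ (toR x) ≤ ET G x := by
  have h1 := hM.ET_tendsto_nat hμ (toR x)
  refine le_of_tendsto h1 ?_
  filter_upwards [eventually_gt_atTop 0] with k hk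
  rw [fl_natCast, div_le_iff₀ (by exact_mod_cast hk), mul_comm]
  exact hM.ET_nsmul_le x k

lemma mu_swap (v : ℝ × ℝ) : μ (v.2, v.1) = μ v := by
  have h1 := hM.ET_tendsto hμ v
  have h3 := hM.ET_tendsto hμ (v.2, v.1)
  have h4 : ∀ x : ℤ × ℤ, ET G (x.2, x.1) = ET G x := by
    intro x
    have h := integral_pt_iso (G := G) sw (fun t => passageTime t 0 x)
      (measurable_pt _ _).aestronglyMeasurable
    simp only [pt_act, sw_apply] at h
    exact h
  refine tendsto_nhds_unique h3 (h1.congr fun s => ?_)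
  rw [← h4]
  rfl

lemma mu_neg_fst (v : ℝ × ℝ) : μ (-v.1, v.2) = μ v := by
  have h1 := hM.ET_tendsto hμ v
  have h4 : ∀ x : ℤ × ℤ, ET G (-x.1, x.2) = ET G x := by
    intro x
    have h := integral_pt_iso (G := G) ng (fun t => passageTime t 0 x)
      (measurable_pt _ _).aestronglyMeasurable
    simp only [pt_act, ng_apply, Prod.fst_zero, Prod.snd_zero, neg_zero] at h
    exact h
  have h3 := hM.ET_tendsto' hμ (-v.1, v.2) (fun s => (-(fl v s).1, (fl v s).2)) 2 (fun s => by
    have := n1_fl_neg_le v s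
    rw [← neg_sub, n1_neg] at this
    simp only [n1, fl, Prod.fst_neg, Prod.snd_neg, Prod.fst_sub, Prod.snd_sub] at this ⊢
    omega)
  simp only [h4] at h3
  exact tendsto_nhds_unique h3 h1


omit hμ in
/-- Linear lower bound for the means. -/
theorem exists_ET_ge (hz : G {0} = 0) :
    ∃ c : ℝ, 0 < c ∧ ∀ x : ℤ × ℤ, c * n1 x ≤ ET G x := by
  obtain ⟨c, hc, hb⟩ := prob_Bad_le (G := G) hM.h0 hz
  refine ⟨c / 2, by positivity, fun x => ?_⟩
  rcases Nat.eq_zero_or_pos (n1 x) with hx | hx
  · rw [hx]; simpa using ET_nonneg hM.h0 x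
  have hb1 := hb (n1 x) 0
  have hhalf : ((1 : ℝ) / 2) ^ (n1 x) ≤ 1 / 2 := by
    calc ((1 : ℝ) / 2) ^ (n1 x) ≤ (1 / 2) ^ 1 :=
          pow_le_pow_of_le_one (by norm_num) (by norm_num) hx
      _ = 1 / 2 := by norm_num
  have hm := measurableSet_Bad c (n1 x) 0
  have hcompl : 1 / 2 ≤ (iidLaw G).real (Bad c (n1 x) 0)ᶜ := by
    rw [probReal_compl_eq_one_sub hm]
    linarith
  have h3 : ∫ t, (Bad c (n1 x) 0)ᶜ.indicator (fun _ => c * (n1 x : ℝ)) t ∂(iidLaw G)
      ≤ ET G x := by
    unfold ET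
    refine integral_mono_ae ((integrable_const _).indicator hm.compl) (hM.int _ _) ?_
    filter_upwards [ae_Nn (G := G) hM.h0] with t ht
    by_cases htb : t ∈ Bad c (n1 x) 0
    · simp only [Set.indicator, Set.mem_compl_iff, htb, not_true_eq_false, if_false]
      exact pt_nonneg ht _ _
    · simp only [Set.indicator, Set.mem_compl_iff, htb, not_false_eq_true, if_true]
      exact pt_ge_of_not_Bad ht htb (by rw [sub_zero])
  rw [integral_indicator hm.compl, setIntegral_const, smul_eq_mul] at h3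
  have h4 : (0 : ℝ) ≤ c * n1 x := by positivity
  nlinarith

/-- `μ v ≥ c |v|₁`. -/
theorem exists_mu_ge (hz : G {0} = 0) : ∃ c : ℝ, 0 < c ∧ ∀ v : ℝ × ℝ, c * l1 v ≤ μ v := by
  obtain ⟨c, hc, hE⟩ := hM.exists_ET_ge hz
  refine ⟨c, hc, fun v => ?_⟩
  have h1 := hM.ET_tendsto hμ v
  have h4 : Tendsto (fun s : ℝ => c * l1 v - (2 * c) / s) atTop (nhds (c * l1 v - 0)) :=
    tendsto_const_nhds.sub (tendsto_const_nhds.div_atTop tendsto_id)
  rw [sub_zero] at h4
  refine le_of_tendsto_of_tendsto h4 h1 ?_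
  filter_upwards [eventually_gt_atTop 0] with s hs
  rw [le_div_iff₀ hs]
  refine le_trans ?_ (hE (fl v s))
  have h5 : s * l1 v ≤ (n1 (fl v s) : ℝ) + 2 := by
    rw [← l1_toR]
    have h6 := l1_fl v s
    have h7 := l1_add_le (s • v - toR (fl v s)) (toR (fl v s))
    rw [sub_add_cancel] at h7
    have h8 : l1 (s • v) = s * l1 v := by
      simp only [l1, Prod.smul_fst, Prod.smul_snd, smul_eq_mul, abs_mul, abs_of_pos hs]
      ring
    linarith
  have h9 : (c * l1 v - 2 * c / s) * s = c * (s * l1 v - 2) := by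
    field_simp
  rw [h9]
  exact mul_le_mul_of_nonneg_left (by linarith) hc.le

/-- The `L¹` time constant is a norm. -/
theorem normLike (hz : G {0} = 0) : B710.NormLike μ := by
  obtain ⟨c, hc, hlow⟩ := hM.exists_mu_ge hμ hz
  have hm := hM.nonneg
  refine ⟨fun s v hs => hM.mu_smul hμ hs v, hM.mu_neg hμ, hM.mu_add_le hμ,
    ⟨c, hc, hlow⟩, ⟨m + 1, by linarith, fun v => ?_⟩⟩
  refine (hM.mu_le hμ v).trans ?_
  have := l1_nonneg v
  change m * l1 v ≤ (m + 1) * l1 v
  nlinarith

end Mom

end Crest.Agent.R151.K
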