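import Crest.Agent.R151.K9e

-- ▼ part R151/K9f
section

/-!
# R151/K9f — almost sure local control (owner helper507)

`fuk_nagaev` : large deviations for sums of i.i.d. nonnegative variables with two moments.
`Field.as_line` : almost surely, eventually in `n`, every segment of a line of the box of radius `n`
has field sum at most `A · length + η n`.
-/

set_option autoImplicit false
set_option linter.unusedSectionVars false

open MeasureTheory Filter ProbabilityTheory
open Crest.ProbabilityR.FirstPassage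

namespace Crest.Agent.R151.K

section fn

variable {Ω : Type*} [MeasurableSpace Ω] {P : Measure Ω} [IsProbabilityMeasure P]

lemma exp_le_quad {x y : ℝ} (hx : 0 ≤ x) (hxy : x ≤ y) :
    Real.exp x ≤ 1 + x + x ^ 2 * Real.exp y := by
  -- `e^x - 1 - x ≤ x² e^x`
  have h1 : Real.exp x ≤ 1 + x + x ^ 2 * Real.exp x := by
    have h2 : 1 - x ≤ Real.exp (-x) := by
      have := Real.add_one_le_exp (-x)
      linarith
    rcases le_total x 1 with h | h
    · -- `e^x (1 - x^2) ≤ 1 + x`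
      have h3 : (1 - x) * Real.exp x ≤ 1 := by
        calc (1 - x) * Real.exp x ≤ Real.exp (-x) * Real.exp x := by gcongr
          _ = 1 := by rw [← Real.exp_add]; simp
      have h4 : (1 + x) * ((1 - x) * Real.exp x) ≤ (1 + x) * 1 := by gcongr
      nlinarith
    · have h3 : 1 ≤ x ^ 2 := by nlinarith
      have h4 : Real.exp x ≤ x ^ 2 * Real.exp x := by
        nlinarith [Real.exp_pos x]
      linarith
  have h2 : x ^ 2 * Real.exp x ≤ x ^ 2 * Real.exp y := by gcongr
  linarith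

/-- exponential moment of a truncated variable -/
lemma exp_trunc {X : Ω → ℝ} (hX : Measurable X) (hX0 : ∀ᵐ ω ∂P, 0 ≤ X ω) {e V : ℝ}
    (h2 : Integrable (fun ω => X ω ^ 2) P) (he : ∫ ω, X ω ∂P ≤ e) (hV : ∫ ω, X ω ^ 2 ∂P ≤ V)
    {l y : ℝ} (hl : 0 ≤ l) (hy : 0 ≤ y) :
    Integrable (fun ω => Real.exp (l * min (X ω) y)) P ∧
    ∫ ω, Real.exp (l * min (X ω) y) ∂P ≤ Real.exp (l * e + l ^ 2 * V * Real.exp (l * y)) := by
  have hX1 : Integrable X P :=
    ((memLp_two_iff_integrable_sq hX.aestronglyMeasurable).2 h2).integrable (by norm_num)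
  have hm : Measurable fun ω => Real.exp (l * min (X ω) y) := by fun_prop
  have hI : Integrable (fun ω => Real.exp (l * min (X ω) y)) P := by
    refine (integrable_const (Real.exp (l * y))).mono' hm.aestronglyMeasurable ?_
    filter_upwards with ω
    rw [Real.norm_eq_abs, abs_of_nonneg (Real.exp_nonneg _), Real.exp_le_exp]
    exact mul_le_mul_of_nonneg_left (min_le_right _ _) hl
  refine ⟨hI, ?_⟩
  have hR : Integrable (fun ω => 1 + l * X ω + l ^ 2 * Real.exp (l * y) * X ω ^ 2) P :=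
    ((integrable_const (1 : ℝ)).add (hX1.const_mul l)).add (h2.const_mul _)
  have h3 : ∫ ω, Real.exp (l * min (X ω) y) ∂P ≤
      ∫ ω, (1 + l * X ω + l ^ 2 * Real.exp (l * y) * X ω ^ 2) ∂P := by
    refine integral_mono_ae hI hR ?_
    filter_upwards [hX0] with ω hω
    have h4 : 0 ≤ min (X ω) y := le_min hω hy
    have h5 := exp_le_quad (mul_nonneg hl h4) (mul_le_mul_of_nonneg_left (min_le_right (X ω) y) hl)
    have h6 : min (X ω) y ≤ X ω := min_le_left _ _
    have h7 : (l * min (X ω) y) ^ 2 ≤ l ^ 2 * X ω ^ 2 := by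
      rw [mul_pow]
      gcongr
    have h8 : l * min (X ω) y ≤ l * X ω := mul_le_mul_of_nonneg_left h6 hl
    have h9 : (l * min (X ω) y) ^ 2 * Real.exp (l * y) ≤ l ^ 2 * X ω ^ 2 * Real.exp (l * y) := by
      gcongr
    change Real.exp (l * min (X ω) y) ≤ 1 + l * X ω + l ^ 2 * Real.exp (l * y) * X ω ^ 2
    linarith
  have h4 : ∫ ω, (1 + l * X ω + l ^ 2 * Real.exp (l * y) * X ω ^ 2) ∂P =
      1 + l * ∫ ω, X ω ∂P + l ^ 2 * Real.exp (l * y) * ∫ ω, X ω ^ 2 ∂P := by
    have i1 : Integrable (fun ω => 1 + l * X ω) P := (integrable_const (1 : ℝ)).add (hX1.const_mul l)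
    rw [integral_add i1 (h2.const_mul _), integral_add (integrable_const _) (hX1.const_mul l),
      integral_const_mul, integral_const_mul]
    simp
  rw [h4] at h3
  have h5 : l * ∫ ω, X ω ∂P ≤ l * e := mul_le_mul_of_nonneg_left he hl
  have h6 : l ^ 2 * Real.exp (l * y) * ∫ ω, X ω ^ 2 ∂P ≤ l ^ 2 * V * Real.exp (l * y) := by
    have : l ^ 2 * Real.exp (l * y) * ∫ ω, X ω ^ 2 ∂P ≤ l ^ 2 * Real.exp (l * y) * V :=
      mul_le_mul_of_nonneg_left hV (by positivity)
    linarith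
  have h7 := Real.add_one_le_exp (l * e + l ^ 2 * V * Real.exp (l * y))
  linarith

/-- **Fuk–Nagaev inequality** (basic form). The independence is only used in the form `hprod`. -/
lemma fuk_nagaev {ι : Type*} {X : ι → Ω → ℝ} (s : Finset ι)
    (hX : ∀ i, Measurable (X i)) (hX0 : ∀ i, ∀ᵐ ω ∂P, 0 ≤ X i ω) {e V : ℝ} (he0 : 0 ≤ e)
    (hV0 : 0 ≤ V)
    (h2 : ∀ i, Integrable (fun ω => X i ω ^ 2) P) (he : ∀ i, ∫ ω, X i ω ∂P ≤ e)
    (hV : ∀ i, ∫ ω, X i ω ^ 2 ∂P ≤ V) {N : ℕ} (hN : s.card ≤ N) {l y x q : ℝ} (hl : 0 ≤ l)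
    (hy : 0 ≤ y) (hq : ∀ i, P.real {ω | y < X i ω} ≤ q) (hq0 : 0 ≤ q)
    (hprod : ∫ ω, ∏ i ∈ s, Real.exp (l * min (X i ω) y) ∂P =
      ∏ i ∈ s, ∫ ω, Real.exp (l * min (X i ω) y) ∂P) :
    P.real {ω | x < ∑ i ∈ s, X i ω} ≤ N * q +
      Real.exp (-(l * x) + N * (l * e + l ^ 2 * V * Real.exp (l * y))) := by
  have hcard : (s.card : ℝ) ≤ N := by exact_mod_cast hN
  -- truncation
  have hsub : {ω | x < ∑ i ∈ s, X i ω} ⊆ (⋃ i ∈ s, {ω | y < X i ω}) ∪
      {ω | Real.exp (l * x) ≤ ∏ i ∈ s, Real.exp (l * min (X i ω) y)} := by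
    intro ω hω
    by_cases h : ∃ i ∈ s, y < X i ω
    · left
      simpa using h
    · right
      push Not at h
      simp only [Set.mem_ofPred_eq] at hω ⊢
      rw [← Real.exp_sum, ← Finset.mul_sum, Real.exp_le_exp]
      refine mul_le_mul_of_nonneg_left ?_ hl
      have : ∑ i ∈ s, min (X i ω) y = ∑ i ∈ s, X i ω :=
        Finset.sum_congr rfl fun i hi => min_eq_left (h i hi)
      rw [this]
      exact hω.le
  have h3 : P.real (⋃ i ∈ s, {ω | y < X i ω}) ≤ N * q := by
    refine (measureReal_biUnion_finset_le _ _).trans ?_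
    refine (Finset.sum_le_card_nsmul _ _ q fun i _ => hq i).trans ?_
    rw [nsmul_eq_mul]
    gcongr
  -- the truncated sum
  have hmom : ∀ i, ∫ ω, Real.exp (l * min (X i ω) y) ∂P ≤
      Real.exp (l * e + l ^ 2 * V * Real.exp (l * y)) :=
    fun i => (exp_trunc (hX i) (hX0 i) (h2 i) (he i) (hV i) hl hy).2
  have hmeas : Measurable fun ω => ∏ i ∈ s, Real.exp (l * min (X i ω) y) :=
    Finset.measurable_prod _ fun i _ => (((hX i).min measurable_const).const_mul l).exp
  have h4 : Integrable (fun ω => ∏ i ∈ s, Real.exp (l * min (X i ω) y)) P := by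
    refine (integrable_const (∏ _i ∈ s, Real.exp (l * y))).mono' hmeas.aestronglyMeasurable ?_
    filter_upwards with ω
    rw [Real.norm_eq_abs, abs_of_nonneg (Finset.prod_nonneg fun i _ => Real.exp_nonneg _)]
    refine Finset.prod_le_prod (fun i _ => Real.exp_nonneg _) fun i _ => ?_
    rw [Real.exp_le_exp]
    exact mul_le_mul_of_nonneg_left (min_le_right _ _) hl
  have h5 : ∫ ω, ∏ i ∈ s, Real.exp (l * min (X i ω) y) ∂P ≤
      Real.exp (N * (l * e + l ^ 2 * V * Real.exp (l * y))) := by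
    rw [hprod]
    calc ∏ i ∈ s, ∫ ω, Real.exp (l * min (X i ω) y) ∂P
        ≤ ∏ _i ∈ s, Real.exp (l * e + l ^ 2 * V * Real.exp (l * y)) :=
          Finset.prod_le_prod (fun i _ => integral_nonneg fun ω => Real.exp_nonneg _)
            fun i _ => hmom i
      _ = Real.exp (s.card * (l * e + l ^ 2 * V * Real.exp (l * y))) := by
          rw [Finset.prod_const, ← Real.exp_nat_mul]
      _ ≤ _ := by
          rw [Real.exp_le_exp]
          gcongr
  have h6 := mul_meas_ge_le_integral_of_nonneg (μ := P)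
    (f := fun ω => ∏ i ∈ s, Real.exp (l * min (X i ω) y))
    (Filter.Eventually.of_forall fun ω => Finset.prod_nonneg fun i _ => Real.exp_nonneg _) h4
    (Real.exp (l * x))
  have h7 : P.real {ω | Real.exp (l * x) ≤ ∏ i ∈ s, Real.exp (l * min (X i ω) y)} ≤
      Real.exp (-(l * x) + N * (l * e + l ^ 2 * V * Real.exp (l * y))) := by
    rw [Real.exp_add, Real.exp_neg, ← div_eq_inv_mul, le_div_iff₀ (Real.exp_pos _), mul_comm]
    exact h6.trans h5
  exact (measureReal_mono hsub).trans ((measureReal_union_le _ _).trans (add_le_add h3 h7))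

/-- second moments and dyadic tails -/
lemma summable_tail {X : Ω → ℝ} (hX : Measurable X)
    (h2 : Integrable (fun ω => X ω ^ 2) P) {a : ℝ} (ha : 0 < a) :
    Summable fun j : ℕ => (4 : ℝ) ^ j * P.real {ω | a * 2 ^ j < X ω} := by
  have hpt : ∀ (J : ℕ) (z : ℝ), ∑ j ∈ Finset.range J, (4 : ℝ) ^ j * (if a * 2 ^ j < z then 1 else 0)
      ≤ 4 / 3 * (z / a) ^ 2 := by
    intro J z
    induction J with
    | zero => simp; positivity
    | succ J ih =>
      by_cases h : a * 2 ^ J < z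
      · have h1 : ∑ j ∈ Finset.range (J + 1), (4 : ℝ) ^ j * (if a * 2 ^ j < z then 1 else 0) ≤
            ∑ j ∈ Finset.range (J + 1), (4 : ℝ) ^ j := by
          refine Finset.sum_le_sum fun j _ => ?_
          split_ifs <;> simp
        have h2 : ∑ j ∈ Finset.range (J + 1), (4 : ℝ) ^ j ≤ 4 / 3 * 4 ^ J := by
          rw [geom_sum_eq (by norm_num)]
          rw [pow_succ]
          linarith
        have h3 : (4 : ℝ) ^ J ≤ (z / a) ^ 2 := by
          have h4 : (2 : ℝ) ^ J ≤ z / a := by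
            rw [le_div_iff₀ ha]; linarith
          calc (4 : ℝ) ^ J = (2 ^ J) ^ 2 := by rw [← pow_mul, mul_comm, pow_mul]; norm_num
            _ ≤ (z / a) ^ 2 := by gcongr
        linarith
      · rw [Finset.sum_range_succ, if_neg h, mul_zero, add_zero]
        exact ih
  refine summable_of_sum_range_le (c := 4 / 3 * (∫ ω, X ω ^ 2 ∂P) / a ^ 2) (fun j => by positivity)
    fun J => ?_
  have hms : ∀ j : ℕ, MeasurableSet {ω | a * 2 ^ j < X ω} := fun j =>
    measurableSet_lt measurable_const hX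
  have h1 : ∀ j : ℕ, P.real {ω | a * 2 ^ j < X ω} =
      ∫ ω, (if a * 2 ^ j < X ω then (1 : ℝ) else 0) ∂P := by
    intro j
    have : ∫ ω, (if a * 2 ^ j < X ω then (1 : ℝ) else 0) ∂P =
        ∫ ω, ({ω | a * 2 ^ j < X ω}).indicator (fun _ => (1 : ℝ)) ω ∂P := by
      congr 1
    rw [this, integral_indicator (hms j)]
    simp
  have hint : ∀ j : ℕ, Integrable (fun ω => (4 : ℝ) ^ j * (if a * 2 ^ j < X ω then (1 : ℝ) else 0))
      P := by
    intro j
    have : Integrable (({ω | a * 2 ^ j < X ω}).indicator (fun _ => (1 : ℝ))) P :=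
      (integrable_const _).indicator (hms j)
    exact (this.const_mul ((4 : ℝ) ^ j)).congr (Filter.Eventually.of_forall fun ω => rfl)
  calc ∑ j ∈ Finset.range J, (4 : ℝ) ^ j * P.real {ω | a * 2 ^ j < X ω}
      = ∫ ω, ∑ j ∈ Finset.range J, (4 : ℝ) ^ j * (if a * 2 ^ j < X ω then (1 : ℝ) else 0) ∂P := by
        rw [integral_finsetSum _ fun j _ => hint j]
        refine Finset.sum_congr rfl fun j _ => ?_
        rw [integral_const_mul, h1]
    _ ≤ ∫ ω, 4 / 3 * (X ω / a) ^ 2 ∂P := by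
        refine integral_mono (integrable_finsetSum _ fun j _ => hint j) ?_ fun ω => hpt J (X ω)
        have := (h2.div_const (a ^ 2)).const_mul (4 / 3 : ℝ)
        simpa only [div_pow] using this
    _ = 4 / 3 * (∫ ω, X ω ^ 2 ∂P) / a ^ 2 := by
        simp only [div_pow]
        rw [integral_const_mul, integral_div]
        ring

end fn

/-! ### Products of functions of disjoint edge sets -/

variable {G : Measure ℝ} [IsProbabilityMeasure G]

lemma indep_of_disjoint' {S T : Set (Sym2 (ℤ × ℤ))} (h : Disjoint S T)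
    {f g : Environment → ℝ} (hf : Measurable f) (hg : Measurable g)
    (hfd : DependsOn f S) (hgd : DependsOn g T) : IndepFun f g (iidLaw G) := by
  have h1 := A.indep_sig G h
  rw [IndepFun_iff_Indep]
  exact indep_of_indep_of_le_left (indep_of_indep_of_le_right h1 (A.comap_le_sig hg hgd))
    (A.comap_le_sig hf hfd)

lemma prod_integral {ι : Type*} (s : Finset ι) (F : ι → Environment → ℝ)
    (S : ι → Set (Sym2 (ℤ × ℤ))) (hF : ∀ i, Measurable (F i)) (hd : ∀ i, DependsOn (F i) (S i))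
    (hS : ∀ i ∈ s, ∀ j ∈ s, i ≠ j → Disjoint (S i) (S j)) :
    ∫ t, ∏ i ∈ s, F i t ∂(iidLaw G) = ∏ i ∈ s, ∫ t, F i t ∂(iidLaw G) := by
  classical
  induction s using Finset.induction_on with
  | empty => simp
  | insert a s ha ih =>
    rw [Finset.prod_insert ha, ← ih fun i hi j hj hij =>
      hS i (Finset.mem_insert_of_mem hi) j (Finset.mem_insert_of_mem hj) hij]
    have hdep : DependsOn (fun t => ∏ i ∈ s, F i t) (⋃ i ∈ s, S i) := by
      intro t t' htt
      refine Finset.prod_congr rfl fun i hi => ?_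
      exact hd i fun e he => htt e (Set.mem_biUnion hi he)
    have hdisj : Disjoint (S a) (⋃ i ∈ s, S i) := by
      rw [Set.disjoint_iUnion₂_right]
      intro i hi
      exact hS a (Finset.mem_insert_self a s) i (Finset.mem_insert_of_mem hi)
        (by rintro rfl; exact ha hi)
    have hm : Measurable fun t => ∏ i ∈ s, F i t := Finset.measurable_prod _ fun i _ => hF i
    have hind := indep_of_disjoint' (G := G) hdisj (hF a) hm (hd a) hdep
    have := hind.integral_mul_eq_mul_integral (hF a).aestronglyMeasurable hm.aestronglyMeasurable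
    rw [← this]
    refine integral_congr_ae (Filter.Eventually.of_forall fun t => ?_)
    change ∏ i ∈ insert a s, F i t = F a t * ∏ i ∈ s, F i t
    rw [Finset.prod_insert ha]

namespace Field

variable {c : ℤ × ℤ → Environment → ℝ} (hc : Field G c)
include hc

lemma sum_tail (h0 : G (Set.Iio 0) = 0) (s : Finset ℤ) (l : ℤ → ℤ × ℤ)
    (hl : ∀ i ∈ s, ∀ j ∈ s, i ≠ j → 7 ≤ |(l i).1 - (l j).1| ∨ 7 ≤ |(l i).2 - (l j).2|)
    {L : ℕ} (hL : 0 < L) (hs : s.card ≤ L) :
    (iidLaw G).real {t | ((∫ t, c 0 t ∂(iidLaw G)) + 1) * L < ∑ i ∈ s, c (l i) t} ≤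
      L * (iidLaw G).real {t | (1 / 8 : ℝ) * L < c 0 t} +
      Real.exp (256 * ∫ t, c 0 t ^ 2 ∂(iidLaw G)) / (L : ℝ) ^ 4 := by
  obtain ⟨e, he⟩ : ∃ e, e = ∫ t, c 0 t ∂(iidLaw G) := ⟨_, rfl⟩
  obtain ⟨V, hV⟩ : ∃ V, V = ∫ t, c 0 t ^ 2 ∂(iidLaw G) := ⟨_, rfl⟩
  have he0 : 0 ≤ e := by
    rw [he]
    refine integral_nonneg_of_ae ?_
    filter_upwards [ae_Nn (G := G) h0] with t ht using hc.nn 0 t ht
  have hV0 : 0 ≤ V := by rw [hV]; exact integral_nonneg fun t => sq_nonneg _
  have hLR : (0 : ℝ) < L := by exact_mod_cast hL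
  have hL1 : (1 : ℝ) ≤ L := by exact_mod_cast hL
  rw [← he, ← hV]
  have hlog0 : 0 ≤ Real.log L := Real.log_nonneg hL1
  have key := fuk_nagaev (P := iidLaw G) (X := fun i => c (l i)) s (fun i => hc.meas _)
    (fun i => by filter_upwards [ae_Nn (G := G) h0] with t ht using hc.nn _ t ht) he0 hV0
    (fun i => hc.sq' _)
    (fun i => by rw [he, ← hc.integral_eq (fun x => x) measurable_id (l i)])
    (fun i => by rw [hV, ← hc.integral_eq (fun x => x ^ 2) (measurable_id.pow_const 2) (l i)])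
    hs (l := 4 * Real.log L / L) (y := (1 / 8 : ℝ) * L) (x := (e + 1) * L)
    (q := (iidLaw G).real {t | (1 / 8 : ℝ) * L < c 0 t}) (by positivity) (by positivity)
    (fun i => by
      have h1 : (iidLaw G).real {t | (1 / 8 : ℝ) * L < c (l i) t} =
          (iidLaw G).real {t | (1 / 8 : ℝ) * L < c 0 t} := by
        have h2 := (mp_act (G := G) (tr (l i))).measureReal_preimage
          (s := {t | (1 / 8 : ℝ) * L < c 0 t})
          (measurableSet_lt measurable_const (hc.meas 0)).nullMeasurableSet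
        rw [← h2]
        congr 1
        ext t
        simp only [Set.mem_preimage, Set.mem_ofPred_eq, hc.cov]
      exact h1.le) measureReal_nonneg
    (prod_integral s _ (fun i => edgesIn (M51.sbox (l i) 3))
      (fun i => (((hc.meas _).min measurable_const).const_mul _).exp)
      (fun i t t' htt => by
        change Real.exp _ = Real.exp _
        rw [hc.dep (l i) htt])
      (fun i hi j hj hij => disjoint_edges (hl i hi j hj hij)))
  refine key.trans ?_
  have e1 : 4 * Real.log L / L * (1 / 8 * L) = Real.log L / 2 := by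
    field_simp
    ring
  have e2 : Real.exp (Real.log L / 2) = Real.sqrt L := by
    rw [Real.sqrt_eq_rpow, Real.rpow_def_of_pos hLR]
    congr 1; ring
  rw [e1, e2]
  -- `(log L)² ≤ 16 √L`
  have hlog : Real.log L ^ 2 ≤ 16 * Real.sqrt L := by
    have h1 : Real.log L ≤ 4 * (L : ℝ) ^ (1 / 4 : ℝ) := by
      have := Real.log_le_rpow_div hLR.le (show (0 : ℝ) < 1 / 4 by norm_num)
      linarith
    have h2 : ((L : ℝ) ^ (1 / 4 : ℝ)) ^ 2 = Real.sqrt L := by
      rw [Real.sqrt_eq_rpow, ← Real.rpow_natCast, ← Real.rpow_mul hLR.le]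
      norm_num
    calc Real.log L ^ 2 ≤ (4 * (L : ℝ) ^ (1 / 4 : ℝ)) ^ 2 := by gcongr
      _ = 16 * Real.sqrt L := by rw [mul_pow, h2]; norm_num
  have hsq : Real.sqrt L * Real.sqrt L = L := Real.mul_self_sqrt hLR.le
  have e3 : -(4 * Real.log L / L * ((e + 1) * L)) + L * (4 * Real.log L / L * e +
      (4 * Real.log L / L) ^ 2 * V * Real.sqrt L) ≤ -(4 * Real.log L) + 256 * V := by
    have h3 : (L : ℝ) * ((4 * Real.log L / L) ^ 2 * V * Real.sqrt L) =
        16 * V * (Real.log L ^ 2 * Real.sqrt L / L) := by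
      field_simp
      ring
    have h4 : Real.log L ^ 2 * Real.sqrt L / L ≤ 16 := by
      rw [div_le_iff₀ hLR]
      calc Real.log L ^ 2 * Real.sqrt L ≤ 16 * Real.sqrt L * Real.sqrt L := by gcongr
        _ = 16 * L := by rw [mul_assoc, hsq]
    have h5 : 16 * V * (Real.log L ^ 2 * Real.sqrt L / L) ≤ 16 * V * 16 := by gcongr
    have h6 : -(4 * Real.log L / L * ((e + 1) * L)) + L * (4 * Real.log L / L * e) =
        -(4 * Real.log L) := by
      field_simp
      ring
    rw [mul_add, h3]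
    linarith
  have e4 : Real.exp (-(4 * Real.log L) + 256 * V) = Real.exp (256 * V) / (L : ℝ) ^ 4 := by
    rw [Real.exp_add, Real.exp_neg, show 4 * Real.log (L : ℝ) = ((4 : ℕ) : ℝ) * Real.log L by norm_num,
      Real.exp_nat_mul, Real.exp_log hLR, mul_comm, ← div_eq_mul_inv]
  gcongr
  rw [← e4]
  exact Real.exp_le_exp.2 e3

/-- the constant of the line bounds -/
noncomputable def cA (G : Measure ℝ) (c : ℤ × ℤ → Environment → ℝ) : ℝ :=
  7 * ((∫ t, c 0 t ∂(iidLaw G)) + 1)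

/-- a block of `L` consecutive points of a line -/
lemma block_tail (h0 : G (Set.Iio 0) = 0) (l : ℤ → ℤ × ℤ)
    (hl : ∀ i j, 7 ≤ |i - j| → 7 ≤ |(l i).1 - (l j).1| ∨ 7 ≤ |(l i).2 - (l j).2|)
    {L : ℕ} (hL : 0 < L) (a : ℤ) :
    (iidLaw G).real {t | cA G c * L < ∑ i ∈ Finset.Ico a (a + L), c (l i) t} ≤
      7 * (L * (iidLaw G).real {t | (1 / 8 : ℝ) * L < c 0 t} +
      Real.exp (256 * ∫ t, c 0 t ^ 2 ∂(iidLaw G)) / (L : ℝ) ^ 4) := by
  have hsub : {t | cA G c * L < ∑ i ∈ Finset.Ico a (a + L), c (l i) t} ⊆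
      ⋃ r ∈ Finset.range 7, {t | ((∫ t, c 0 t ∂(iidLaw G)) + 1) * L <
        ∑ i ∈ (Finset.Ico a (a + L)).filter (fun i => (i % 7).toNat = r), c (l i) t} := by
    intro t ht
    simp only [Set.mem_iUnion, Set.mem_ofPred_eq] at ht ⊢
    by_contra hcon
    push Not at hcon
    have h1 : ∑ i ∈ Finset.Ico a (a + L), c (l i) t = ∑ r ∈ Finset.range 7,
        ∑ i ∈ (Finset.Ico a (a + L)).filter (fun i => (i % 7).toNat = r), c (l i) t := by
      rw [Finset.sum_fiberwise_of_maps_to]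
      intro i _
      rw [Finset.mem_range]
      omega
    rw [h1] at ht
    have h2 : ∑ r ∈ Finset.range 7,
        ∑ i ∈ (Finset.Ico a (a + L)).filter (fun i => (i % 7).toNat = r), c (l i) t ≤
        ∑ _r ∈ Finset.range 7, ((∫ t, c 0 t ∂(iidLaw G)) + 1) * L :=
      Finset.sum_le_sum fun r hr => hcon r hr
    rw [Finset.sum_const, Finset.card_range, nsmul_eq_mul] at h2
    unfold cA at ht
    push_cast at h2
    linarith
  refine (measureReal_mono hsub (measure_ne_top _ _)).trans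
    ((measureReal_biUnion_finset_le _ _).trans ?_)
  refine (Finset.sum_le_card_nsmul _ _ (L * (iidLaw G).real {t | (1 / 8 : ℝ) * L < c 0 t} +
      Real.exp (256 * ∫ t, c 0 t ^ 2 ∂(iidLaw G)) / (L : ℝ) ^ 4) fun r _ => ?_).trans ?_
  · refine hc.sum_tail h0 _ l ?_ hL ?_
    · intro i hi j hj hij
      rw [Finset.mem_filter] at hi hj
      refine hl i j ?_
      rw [le_abs]
      omega
    · refine (Finset.card_filter_le _ _).trans ?_
      rw [Int.card_Ico]; omega
  · rw [Finset.card_range, nsmul_eq_mul]; norm_num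

end Field

end Crest.Agent.R151.K
end

-- ▼ part R151/K9g
section

/-!
# R151/K9g — almost sure local control (owner helper507)

`Field.as_line` : almost surely, eventually in `n`, every segment of a line of the box of radius `n`
has field sum at most `A · length + η n`.
`as_ctl` : almost surely, eventually in `n`, `T(x,y) ≤ A |y-x|₁ + η n` for all `x, y` in box `n`.
-/

set_option autoImplicit false
set_option linter.unusedSectionVars false

open MeasureTheory Filter ProbabilityTheory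
open Crest.ProbabilityR.FirstPassage

namespace Crest.Agent.R151.K

variable {G : Measure ℝ} [IsProbabilityMeasure G] {m : ℝ} {μ : ℝ × ℝ → ℝ}

/-- covering a segment by blocks -/
lemma sum_cover {f : ℤ → ℝ} (hf : ∀ i, 0 ≤ f i) {L : ℕ} (hL : 0 < L) {B : ℝ} (hB : 0 ≤ B)
    (a : ℤ) (k : ℕ)
    (h : ∀ q : ℤ, a / L ≤ q → q ≤ (a + k - 1) / L →
      ∑ i ∈ Finset.Ico (q * L) (q * L + L), f i ≤ B * L) :
    ∑ i ∈ Finset.Ico a (a + k), f i ≤ B * k + 2 * B * L := by
  have hL' : (0 : ℤ) < L := by exact_mod_cast hL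
  have hLR : (0 : ℝ) < L := by exact_mod_cast hL
  rcases Nat.eq_zero_or_pos k with rfl | hk
  · simp; positivity
  have hk' : (1 : ℤ) ≤ k := by exact_mod_cast hk
  obtain ⟨M, hM⟩ : ∃ M : Finset ℤ, M = Finset.Icc (a / L) ((a + k - 1) / L) := ⟨_, rfl⟩
  have h1 : ∑ i ∈ Finset.Ico a (a + k), f i =
      ∑ q ∈ M, ∑ i ∈ (Finset.Ico a (a + k)).filter (fun i => i / L = q), f i := by
    rw [Finset.sum_fiberwise_of_maps_to]
    intro i hi
    rw [Finset.mem_Ico] at hi
    rw [hM, Finset.mem_Icc]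
    exact ⟨Int.ediv_le_ediv hL' hi.1, Int.ediv_le_ediv hL' (by omega)⟩
  have h2 : ∀ q ∈ M, ∑ i ∈ (Finset.Ico a (a + k)).filter (fun i => i / L = q), f i ≤ B * L := by
    intro q hq
    rw [hM, Finset.mem_Icc] at hq
    refine le_trans ?_ (h q hq.1 hq.2)
    refine Finset.sum_le_sum_of_subset_of_nonneg ?_ fun i _ _ => hf i
    intro i hi
    rw [Finset.mem_filter] at hi
    rw [Finset.mem_Ico]
    have e1 := Int.ediv_mul_le i hL'.ne'
    have e2 := Int.lt_ediv_add_one_mul_self i hL'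
    rw [hi.2] at e1 e2
    constructor
    · exact e1
    · linarith
  rw [h1]
  refine (Finset.sum_le_card_nsmul _ _ _ h2).trans ?_
  rw [nsmul_eq_mul]
  have h3 : (M.card : ℝ) ≤ k / L + 2 := by
    rw [hM, Int.card_Icc]
    have e1 := Int.ediv_mul_le (a + k - 1) hL'.ne'
    have e2 := Int.lt_ediv_add_one_mul_self a hL'
    obtain ⟨u, hu⟩ : ∃ u, u = (a + k - 1) / (L : ℤ) := ⟨_, rfl⟩
    obtain ⟨v, hv⟩ : ∃ v, v = a / (L : ℤ) := ⟨_, rfl⟩
    rw [← hu] at e1
    rw [← hv] at e2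
    rw [← hu, ← hv]
    have huv : v ≤ u := by rw [hu, hv]; exact Int.ediv_le_ediv hL' (by omega)
    have e3 : (((u + 1 - v).toNat : ℕ) : ℝ) = (u : ℝ) + 1 - v := by
      have : (((u + 1 - v).toNat : ℕ) : ℤ) = u + 1 - v := Int.toNat_of_nonneg (by omega)
      have h4 : ((((u + 1 - v).toNat : ℕ) : ℤ) : ℝ) = ((u + 1 - v : ℤ) : ℝ) := by rw [this]
      push_cast at h4
      exact h4
    rw [e3]
    have e1' : (u : ℝ) * L ≤ a + k - 1 := by exact_mod_cast e1
    have e2' : (a : ℝ) < (v + 1) * L := by exact_mod_cast e2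
    have e4 : ((u : ℝ) - v - 1) * L ≤ k := by nlinarith
    have e5 : (u : ℝ) - v - 1 ≤ k / L := by rw [le_div_iff₀ hLR]; exact e4
    linarith
  calc (M.card : ℝ) * (B * L) ≤ (k / L + 2) * (B * L) := by gcongr
    _ = B * k + 2 * B * L := by field_simp

namespace Field

variable {c : ℤ × ℤ → Environment → ℝ} (hc : Field G c)
include hc

lemma cA_nonneg (h0 : G (Set.Iio 0) = 0) : 0 ≤ cA G c := by
  unfold cA
  have : 0 ≤ ∫ t, c 0 t ∂(iidLaw G) := by
    refine integral_nonneg_of_ae ?_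
    filter_upwards [ae_Nn (G := G) h0] with t ht using hc.nn 0 t ht
  positivity

/-- **Almost sure line bound.** -/
theorem as_line (h0 : G (Set.Iio 0) = 0) (l : ℤ → ℤ → ℤ × ℤ)
    (hl : ∀ b i j, 7 ≤ |i - j| → 7 ≤ |(l b i).1 - (l b j).1| ∨ 7 ≤ |(l b i).2 - (l b j).2|)
    {η : ℝ} (hη : 0 < η) :
    ∀ᵐ t ∂(iidLaw G), ∀ᶠ n : ℕ in atTop, ∀ b : ℤ, |b| ≤ n → ∀ (a : ℤ) (k : ℕ),
      -(n : ℤ) ≤ a → a + k ≤ n + 1 →
      ∑ i ∈ Finset.Ico a (a + k), c (l b i) t ≤ cA G c * k + η * n := by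
  have hA := hc.cA_nonneg h0
  obtain ⟨A, hAdef⟩ : ∃ A, A = cA G c := ⟨_, rfl⟩
  rw [← hAdef] at hA
  -- the number of blocks
  obtain ⟨q, hq0, hq⟩ : ∃ q : ℕ, 0 < q ∧ 4 * A / q ≤ η := by
    obtain ⟨q, hq⟩ := exists_nat_gt (4 * A / η)
    refine ⟨q + 1, Nat.succ_pos _, ?_⟩
    rw [div_lt_iff₀ hη] at hq
    rw [div_le_iff₀ (by positivity)]
    push_cast
    nlinarith
  have hqR : (0 : ℝ) < q := by exact_mod_cast hq0
  obtain ⟨V, hV⟩ : ∃ V, V = Real.exp (256 * ∫ t, c 0 t ^ 2 ∂(iidLaw G)) := ⟨_, rfl⟩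
  have hV0 : 0 ≤ V := by rw [hV]; positivity
  -- the bad events
  let bad : ℕ → Set Environment := fun j => if 2 ^ j < 2 * q then ∅ else
    ⋃ b ∈ Finset.Icc (-(2 ^ j : ℤ)) (2 ^ j), ⋃ p ∈ Finset.Icc (-(2 * q + 2 : ℤ)) (2 * q + 2),
      {t | A * ((2 ^ j / q : ℕ) : ℝ) <
        ∑ i ∈ Finset.Ico (p * ((2 ^ j / q : ℕ) : ℤ)) (p * ((2 ^ j / q : ℕ) : ℤ) + ((2 ^ j / q : ℕ) : ℤ)), c (l b i) t}
  have hbad : ∀ j, (iidLaw G).real (bad j) ≤
      (3 * (4 * q + 5) * 7) * ((4 : ℝ) ^ j * (iidLaw G).real {t | (1 / (16 * q : ℝ)) * 2 ^ j < c 0 t}) +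
      (3 * (4 * q + 5) * 7 * V * (2 * q) ^ 4) * (1 / 8 : ℝ) ^ j := by
    intro j
    simp only [bad]
    split_ifs with hj
    · rw [measureReal_empty]
      positivity
    · push Not at hj
      obtain ⟨L, hL⟩ : ∃ L, L = 2 ^ j / q := ⟨_, rfl⟩
      have hLpos : 0 < L := by
        rw [hL]
        exact Nat.div_pos (by omega) hq0
      have hLR : (0 : ℝ) < L := by exact_mod_cast hLpos
      have hL1 : (L : ℝ) ≤ 2 ^ j := by
        have : L ≤ 2 ^ j := by rw [hL]; exact Nat.div_le_self _ _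
        exact_mod_cast this
      have hL2 : (2 : ℝ) ^ j / (2 * q) ≤ L := by
        rw [div_le_iff₀ (by positivity)]
        have h1 : 2 ^ j < (L + 1) * q := by
          rw [hL]
          have := Nat.lt_div_mul_add (a := 2 ^ j) hq0
          linarith [add_mul (2 ^ j / q) 1 q]
        have h2 : 2 ^ j ≤ L * (2 * q) := by nlinarith
        exact_mod_cast h2
      rw [← hL]
      have hblock : ∀ (b p : ℤ), (iidLaw G).real {t | A * (L : ℝ) <
          ∑ i ∈ Finset.Ico (p * (L : ℤ)) (p * (L : ℤ) + (L : ℤ)), c (l b i) t} ≤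
          7 * ((2 : ℝ) ^ j * (iidLaw G).real {t | (1 / (16 * q : ℝ)) * 2 ^ j < c 0 t} +
            V * (2 * q) ^ 4 / (16 : ℝ) ^ j) := by
        intro b p
        have h1 := hc.block_tail h0 (l b) (hl b) hLpos (p * L)
        rw [← hAdef, ← hV] at h1
        refine h1.trans ?_
        have h2 : (iidLaw G).real {t | (1 / 8 : ℝ) * L < c 0 t} ≤
            (iidLaw G).real {t | (1 / (16 * q : ℝ)) * 2 ^ j < c 0 t} := by
          refine measureReal_mono ?_
          intro t ht
          simp only [Set.mem_ofPred_eq] at ht ⊢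
          refine lt_of_le_of_lt ?_ ht
          calc 1 / (16 * q : ℝ) * 2 ^ j = 1 / 8 * (2 ^ j / (2 * q)) := by field_simp; norm_num
            _ ≤ 1 / 8 * L := by gcongr
        have h3 : V / (L : ℝ) ^ 4 ≤ V * (2 * q) ^ 4 / (16 : ℝ) ^ j := by
          rw [div_le_div_iff₀ (by positivity) (by positivity)]
          have h4 : (16 : ℝ) ^ j ≤ (2 * q) ^ 4 * (L : ℝ) ^ 4 := by
            have h5 : (2 : ℝ) ^ j ≤ 2 * q * L := by
              rw [div_le_iff₀ (by positivity)] at hL2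
              linarith
            calc (16 : ℝ) ^ j = (2 ^ j) ^ 4 := by rw [← pow_mul, mul_comm, pow_mul]; norm_num
              _ ≤ (2 * q * L) ^ 4 := by gcongr
              _ = (2 * q) ^ 4 * (L : ℝ) ^ 4 := by ring
          calc V * (16 : ℝ) ^ j ≤ V * ((2 * q) ^ 4 * (L : ℝ) ^ 4) := by gcongr
            _ = V * (2 * q) ^ 4 * (L : ℝ) ^ 4 := by ring
        gcongr
      refine (measureReal_biUnion_finset_le _ _).trans ?_
      refine (Finset.sum_le_sum fun b _ => (measureReal_biUnion_finset_le _ _).trans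
        (Finset.sum_le_card_nsmul _ _ _ fun p _ => hblock b p)).trans ?_
      rw [Finset.sum_const, nsmul_eq_mul, nsmul_eq_mul]
      have hc1 : (((Finset.Icc (-(2 ^ j : ℤ)) (2 ^ j)).card : ℕ) : ℝ) ≤ 3 * 2 ^ j := by
        rw [Int.card_Icc]
        have h5 : ((2 : ℤ) ^ j + 1 - -(2 ^ j)).toNat = 2 * 2 ^ j + 1 := by
          have : ((2 : ℤ) ^ j + 1 - -(2 ^ j)) = ((2 * 2 ^ j + 1 : ℕ) : ℤ) := by push_cast; ring
          rw [this, Int.toNat_natCast]
        rw [h5]
        push_cast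
        have : (1 : ℝ) ≤ 2 ^ j := one_le_pow₀ (by norm_num)
        linarith
      have hc2 : (((Finset.Icc (-(2 * q + 2 : ℤ)) (2 * q + 2)).card : ℕ) : ℝ) = 4 * q + 5 := by
        rw [Int.card_Icc]
        have h5 : ((2 * (q : ℤ) + 2) + 1 - -(2 * q + 2)).toNat = 4 * q + 5 := by omega
        rw [h5]
        push_cast
        ring
      rw [hc2]
      have hfac : (2 : ℝ) ^ j * (1 / 16) ^ j = (1 / 8) ^ j := by
        rw [← mul_pow]; norm_num
      have h4 : (2 : ℝ) ^ j * 2 ^ j = 4 ^ j := by rw [← mul_pow]; norm_num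
      calc (((Finset.Icc (-(2 ^ j : ℤ)) (2 ^ j)).card : ℕ) : ℝ) * ((4 * q + 5) *
            (7 * ((2 : ℝ) ^ j * (iidLaw G).real {t | (1 / (16 * q : ℝ)) * 2 ^ j < c 0 t} +
            V * (2 * q) ^ 4 / (16 : ℝ) ^ j)))
          ≤ (3 * 2 ^ j) * ((4 * q + 5) *
            (7 * ((2 : ℝ) ^ j * (iidLaw G).real {t | (1 / (16 * q : ℝ)) * 2 ^ j < c 0 t} +
            V * (2 * q) ^ 4 / (16 : ℝ) ^ j))) := by
            refine mul_le_mul_of_nonneg_right hc1 ?_
            positivity
        _ = (3 * (4 * q + 5) * 7) * (((2 : ℝ) ^ j * 2 ^ j) *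
              (iidLaw G).real {t | (1 / (16 * q : ℝ)) * 2 ^ j < c 0 t}) +
            (3 * (4 * q + 5) * 7 * V * (2 * q) ^ 4) * ((2 : ℝ) ^ j * (1 / 16) ^ j) := by
            rw [one_div_pow]
            field_simp
        _ = _ := by rw [hfac, h4]
  have hsum : Summable fun j : ℕ =>
      (3 * (4 * q + 5) * 7 : ℝ) * ((4 : ℝ) ^ j * (iidLaw G).real {t | (1 / (16 * q : ℝ)) * 2 ^ j < c 0 t}) +
      (3 * (4 * q + 5) * 7 * V * (2 * q) ^ 4) * (1 / 8 : ℝ) ^ j :=
    ((summable_tail (hc.meas 0) hc.sq (by positivity)).mul_left _).add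
      ((summable_geometric_of_lt_one (by norm_num) (by norm_num)).mul_left _)
  filter_upwards [borel_cantelli hsum hbad, ae_Nn (G := G) h0] with t ht htn
  rw [← hAdef]
  -- the scale of `n`
  have hlog : Tendsto (fun n : ℕ => Nat.log 2 n + 1) atTop atTop := by
    refine tendsto_atTop_mono (fun n => Nat.le_succ _) ?_
    rw [tendsto_atTop_atTop]
    intro b
    exact ⟨2 ^ b, fun n hn => Nat.le_log_of_pow_le (by norm_num) hn⟩
  filter_upwards [hlog.eventually ht, eventually_ge_atTop (2 * q), eventually_gt_atTop 0]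
    with n hn hnq hn0
  intro b hb a k ha hak
  obtain ⟨j, hj⟩ : ∃ j, j = Nat.log 2 n + 1 := ⟨_, rfl⟩
  rw [← hj] at hn
  have hj1 : n < 2 ^ j := by rw [hj]; exact Nat.lt_pow_succ_log_self (by norm_num) n
  have hj2 : 2 ^ j ≤ 2 * n := by
    rw [hj, pow_succ, mul_comm]
    exact Nat.mul_le_mul_left 2 (Nat.pow_log_le_self 2 hn0.ne')
  have hjq : ¬ 2 ^ j < 2 * q := by omega
  simp only [bad, if_neg hjq, Set.mem_iUnion, not_exists, Set.mem_ofPred_eq, not_lt] at hn
  obtain ⟨L, hL⟩ : ∃ L, L = 2 ^ j / q := ⟨_, rfl⟩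
  rw [← hL] at hn
  have hLpos : 0 < L := by
    rw [hL]
    exact Nat.div_pos (by omega) hq0
  have hL' : (0 : ℤ) < L := by exact_mod_cast hLpos
  have hLn : L * q ≤ 2 * n := by
    calc L * q ≤ 2 ^ j := by rw [hL]; exact Nat.div_mul_le_self _ _
      _ ≤ 2 * n := hj2
  have hnL : n < 2 * q * L := by
    have h1 : 2 ^ j < (L + 1) * q := by
      rw [hL]
      have := Nat.lt_div_mul_add (a := 2 ^ j) hq0
      linarith [add_mul (2 ^ j / q) 1 q]
    nlinarith
  have hnLz : (n : ℤ) < 2 * q * L := by exact_mod_cast hnL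
  have hcov := sum_cover (f := fun i => c (l b i) t) (fun i => hc.nn _ t htn) hLpos hA a k (by
    intro p hp1 hp2
    refine hn b ?_ p ?_
    · rw [Finset.mem_Icc]
      rw [abs_le] at hb
      have : (n : ℤ) < 2 ^ j := by exact_mod_cast hj1
      constructor <;> linarith
    · rw [Finset.mem_Icc]
      have e1 : -(2 * q + 2 : ℤ) ≤ a / L := by
        rw [Int.le_ediv_iff_mul_le hL']
        nlinarith
      have e2 : (a + k - 1) / L ≤ (2 * q + 2 : ℤ) := by
        have : (a + k - 1) / L ≤ (2 * q * L) / L := Int.ediv_le_ediv hL' (by linarith)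
        rw [Int.mul_ediv_cancel _ hL'.ne'] at this
        linarith
      constructor <;> linarith)
  refine hcov.trans ?_
  have hfin : 2 * A * (L : ℝ) ≤ η * n := by
    have h1 : (L : ℝ) * q ≤ 2 * n := by exact_mod_cast hLn
    have h2 : 4 * A ≤ η * q := by rwa [div_le_iff₀ hqR] at hq
    have h3 : 2 * A * (L : ℝ) * q ≤ η * n * q := by
      calc 2 * A * (L : ℝ) * q = 2 * A * (L * q) := by ring
        _ ≤ 2 * A * (2 * n) := by gcongr
        _ = 4 * A * n := by ring
        _ ≤ η * q * n := by gcongr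
        _ = η * n * q := by ring
    exact le_of_mul_le_mul_right h3 hqR
  linarith

end Field

/-- **Almost sure local control.** -/
theorem as_ctl (hG : M51.Law213 G) : ∃ A : ℝ, 0 ≤ A ∧ ∀ η : ℝ, 0 < η →
    ∀ᵐ t ∂(iidLaw G), ∀ᶠ n : ℕ in atTop, ∀ x ∈ box n, ∀ y ∈ box n,
      passageTime t x y ≤ A * n1 (y - x) + η * n := by
  have hfH := field_cH hG
  have hfV := field_cV hG
  have hA1 := hfH.cA_nonneg hG.h0
  have hA2 := hfV.cA_nonneg hG.h0
  refine ⟨Field.cA G cH + Field.cA G cV, by positivity, fun η hη => ?_⟩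
  filter_upwards [hfH.as_line hG.h0 (fun b i => (i, b)) (fun b i j h => Or.inl h)
    (half_pos hη), hfV.as_line hG.h0 (fun a i => (a, i)) (fun a i j h => Or.inr h)
    (half_pos hη), ae_Nn (G := G) hG.h0] with t h1 h2 ht
  filter_upwards [h1, h2] with n hn1 hn2
  intro x hx y hy
  obtain ⟨a, b⟩ := x
  obtain ⟨u, v⟩ := y
  rw [mem_box] at hx hy
  simp only at hx hy
  have hrow : passageTime t (a, b) (u, b) ≤ Field.cA G cH * (u - a).natAbs + η / 2 * n := by
    have key : ∀ a c : ℤ, a ≤ c → -(n : ℤ) ≤ a → c ≤ n →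
        passageTime t (a, b) (c, b) ≤ Field.cA G cH * (c - a).natAbs + η / 2 * n := by
      intro a c hac ha hc'
      have h1 := pt_row_cH ht a b (c - a).toNat
      have h3 := hn1 b (by rw [abs_le]; omega) a (c - a).toNat ha (by omega)
      rw [Int.toNat_of_nonneg (by omega), add_sub_cancel] at h1 h3
      have h4 : (((c - a).toNat : ℕ) : ℝ) = (((c - a).natAbs : ℕ) : ℝ) := by
        congr 1; omega
      rw [h4] at h3
      linarith
    rcases le_total a u with hac | hac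
    · exact key a u hac hx.1.1 hy.1.2
    · rw [pt_symm ht, show (u - a).natAbs = (a - u).natAbs by omega]
      exact key u a hac hy.1.1 hx.1.2
  have hcol : passageTime t (u, b) (u, v) ≤ Field.cA G cV * (v - b).natAbs + η / 2 * n := by
    have key : ∀ b d : ℤ, b ≤ d → -(n : ℤ) ≤ b → d ≤ n →
        passageTime t (u, b) (u, d) ≤ Field.cA G cV * (d - b).natAbs + η / 2 * n := by
      intro b d hbd hb hd'
      have h1 := pt_col_cV ht u b (d - b).toNat
      have h3 := hn2 u (by rw [abs_le]; omega) b (d - b).toNat hb (by omega)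
      rw [Int.toNat_of_nonneg (by omega), add_sub_cancel] at h1 h3
      have h4 : (((d - b).toNat : ℕ) : ℝ) = (((d - b).natAbs : ℕ) : ℝ) := by
        congr 1; omega
      rw [h4] at h3
      linarith
    rcases le_total b v with hbd | hbd
    · exact key b v hbd hx.2.1 hy.2.2
    · rw [pt_symm ht, show (v - b).natAbs = (b - v).natAbs by omega]
      exact key v b hbd hy.2.1 hx.2.2
  have htri := pt_triangle ht (a, b) (u, b) (u, v)
  have hn1' : (n1 ((u, v) - (a, b)) : ℝ) = ((u - a).natAbs : ℝ) + ((v - b).natAbs : ℝ) := by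
    simp only [n1, Prod.mk_sub_mk]
    push_cast
    rfl
  rw [hn1']
  have q1 : (0 : ℝ) ≤ ((u - a).natAbs : ℝ) := Nat.cast_nonneg _
  have q2 : (0 : ℝ) ≤ ((v - b).natAbs : ℝ) := Nat.cast_nonneg _
  nlinarith [mul_nonneg hA1 q2, mul_nonneg hA2 q1]

end Crest.Agent.R151.K
end

-- ▼ part R151/K9h

/-!
# R151/K9h — the almost sure shape theorem for the law of S0213 (owner helper507)
-/

set_option autoImplicit false
set_option linter.unusedSectionVars false

open MeasureTheory Filter ProbabilityTheory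
open Crest.ProbabilityR.FirstPassage

namespace Crest.Agent.R151.K

variable {G : Measure ℝ} [IsProbabilityMeasure G] {m : ℝ} {μ : ℝ × ℝ → ℝ}

/-! ### Visits of an ergodic map -/

/-- A set of probability at least `1 - δ` is visited in every window `[M, (1 + 3δ) M + 1]`. -/
lemma visits {Ω : Type*} [MeasurableSpace Ω] {P : Measure Ω} [IsProbabilityMeasure P]
    {τ : Ω → Ω} (hτ : Ergodic τ P) {B : Set Ω} (hB : MeasurableSet B) {δ : ℝ} (hδ : 0 < δ)
    (hδ2 : δ < 1 / 2) (hP : 1 - δ ≤ P.real B) :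
    ∀ᵐ ω ∂P, ∀ᶠ M : ℕ in atTop, ∃ k : ℕ, M ≤ k ∧ (k : ℝ) ≤ (1 + 3 * δ) * M + 1 ∧
      τ^[k] ω ∈ B := by
  have hf : Measurable (B.indicator (fun _ : Ω => (1 : ℝ))) := measurable_const.indicator hB
  have hfi : Integrable (B.indicator (fun _ : Ω => (1 : ℝ))) P :=
    (integrable_const 1).indicator hB
  have hint : ∫ ω, B.indicator (fun _ : Ω => (1 : ℝ)) ω ∂P = P.real B := by
    rw [integral_indicator hB]
    simp [Measure.real]
  filter_upwards [R88.birkhoff_real hτ hf hfi] with ω hω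
  rw [hint] at hω
  have hc : 1 / (1 + 3 * δ) < P.real B := by
    refine lt_of_lt_of_le ?_ hP
    rw [div_lt_iff₀ (by positivity)]
    nlinarith
  have hev := hω.eventually (eventually_gt_nhds hc)
  rw [eventually_atTop] at hev
  obtain ⟨L0, hL0⟩ := hev
  filter_upwards [eventually_ge_atTop L0] with M hM
  by_contra hcon
  push Not at hcon
  obtain ⟨L, hL⟩ : ∃ L, L = ⌊(1 + 3 * δ) * M⌋₊ + 1 := ⟨_, rfl⟩
  have hLgt : (1 + 3 * δ) * M < L := by
    rw [hL]; push_cast; exact Nat.lt_floor_add_one _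
  have hLle : (L : ℝ) ≤ (1 + 3 * δ) * M + 1 := by
    rw [hL]; push_cast
    linarith [Nat.floor_le (show 0 ≤ (1 + 3 * δ) * (M : ℝ) by positivity)]
  have hML : M ≤ L := by
    have : (M : ℝ) ≤ L := by
      have : (0 : ℝ) ≤ M := Nat.cast_nonneg _
      nlinarith
    exact_mod_cast this
  have h1 := hL0 L (hM.trans hML)
  have hLpos : (0 : ℝ) < L := by rw [hL]; positivity
  have hsum : birkhoffSum τ (B.indicator (fun _ : Ω => (1 : ℝ))) L ω ≤ M := by
    rw [birkhoffSum]
    calc ∑ k ∈ Finset.range L, B.indicator (fun _ : Ω => (1 : ℝ)) (τ^[k] ω)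
        ≤ ∑ k ∈ Finset.range L, (if k < M then (1 : ℝ) else 0) := by
          refine Finset.sum_le_sum fun k hk => ?_
          rw [Finset.mem_range] at hk
          split_ifs with hkM
          · exact Set.indicator_le_self' (fun _ _ => zero_le_one) _
          · rw [Set.indicator_of_notMem]
            refine hcon k (not_lt.1 hkM) ?_
            have : (k : ℝ) ≤ L := by exact_mod_cast hk.le
            linarith
      _ = M := by
          rw [← Finset.sum_filter, Finset.sum_const, nsmul_eq_mul, mul_one]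
          congr 1
          have : Finset.filter (fun k => k < M) (Finset.range L) = Finset.range M := by
            ext k; simp only [Finset.mem_filter, Finset.mem_range]; omega
          rw [this, Finset.card_range]
  rw [inv_mul_eq_div, div_lt_div_iff₀ (by positivity) hLpos] at h1
  have h0 : (0 : ℝ) ≤ M := Nat.cast_nonneg _
  nlinarith

/-! ### The grid of multiples -/

/-- `x` is close to a multiple `M j` of a bounded vector `j`. -/
lemma near_mul {K n : ℕ} (hK : 0 < K) (hKn : K ≤ n) {x : ℤ × ℤ} (hx : x ∈ box n) :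
    ∃ j ∈ box (2 * K + 1), ∀ k : ℕ, n / K ≤ k → k ≤ 3 * (n / K) → k • j ∈ box (9 * n) ∧
      (n1 (x - k • j) : ℤ) ≤ 2 * (n / K : ℕ) + (k - (n / K : ℕ)) * (4 * K + 2) := by
  obtain ⟨M, hM⟩ : ∃ M, M = n / K := ⟨_, rfl⟩
  have hM0 : 0 < M := by rw [hM]; exact Nat.div_pos hKn hK
  have hM0' : (0 : ℤ) < M := by exact_mod_cast hM0
  have hK' : (0 : ℤ) < K := by exact_mod_cast hK
  have hMK : M * K ≤ n := by rw [hM]; exact Nat.div_mul_le_self _ _
  have hMK' : n < (M + 1) * K := by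
    rw [hM]
    have := Nat.lt_div_mul_add (a := n) hK
    linarith [add_mul (n / K) 1 K]
  have hMKz : (M : ℤ) * K ≤ n := by exact_mod_cast hMK
  have hMKz' : (n : ℤ) < (M + 1) * K := by exact_mod_cast hMK'
  rw [mem_box] at hx
  refine ⟨(x.1 / M, x.2 / M), ?_, ?_⟩
  · rw [mem_box]
    have key : ∀ a : ℤ, -(n : ℤ) ≤ a → a ≤ n → -((2 * K + 1 : ℕ) : ℤ) ≤ a / M ∧
        a / M ≤ ((2 * K + 1 : ℕ) : ℤ) := by
      intro a h1 h2
      push_cast
      constructor
      · rw [Int.le_ediv_iff_mul_le hM0']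
        nlinarith
      · have : a / M ≤ ((2 * K + 1) * M) / M := Int.ediv_le_ediv hM0' (by nlinarith)
        rwa [Int.mul_ediv_cancel _ hM0'.ne'] at this
    exact ⟨key _ hx.1.1 hx.1.2, key _ hx.2.1 hx.2.2⟩
  · intro k hk1 hk2
    rw [← hM] at hk1 hk2
    have hk1' : (M : ℤ) ≤ k := by exact_mod_cast hk1
    have hk2' : (k : ℤ) ≤ 3 * M := by exact_mod_cast hk2
    have key : ∀ a : ℤ, -(n : ℤ) ≤ a → a ≤ n →
        (-((9 * n : ℕ) : ℤ) ≤ k * (a / M) ∧ k * (a / M) ≤ ((9 * n : ℕ) : ℤ)) ∧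
        ((a - k * (a / M)).natAbs : ℤ) ≤ M + (k - M) * (2 * K + 1) := by
      intro a h1 h2
      obtain ⟨q, hq⟩ : ∃ q, q = a / M := ⟨_, rfl⟩
      have e1 : (M : ℤ) * q ≤ a := by rw [hq]; exact Int.mul_ediv_self_le hM0'.ne'
      have e2 : a < M * q + M := by
        rw [hq]
        have := Int.lt_mul_ediv_self_add (x := a) hM0'
        linarith
      have e3 : -(2 * K + 1 : ℤ) ≤ q := by
        rw [hq, Int.le_ediv_iff_mul_le hM0']
        nlinarith
      have e4 : q ≤ (2 * K + 1 : ℤ) := by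
        rw [hq]
        have : a / M ≤ ((2 * K + 1) * M) / M := Int.ediv_le_ediv hM0' (by nlinarith)
        rwa [Int.mul_ediv_cancel _ hM0'.ne'] at this
      rw [← hq]
      have hk0 : (0 : ℤ) ≤ k := by positivity
      have g1 : (k : ℤ) * (2 * K + 1) ≤ 9 * n := by nlinarith
      have g2 : (0 : ℤ) ≤ (k : ℤ) - M := by linarith
      have g3 : ((k : ℤ) - M) * q ≤ ((k : ℤ) - M) * (2 * K + 1) :=
        mul_le_mul_of_nonneg_left e4 g2
      have g4 : -(((k : ℤ) - M) * (2 * K + 1)) ≤ ((k : ℤ) - M) * q := by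
        have := mul_le_mul_of_nonneg_left e3 g2
        linarith
      have g5 : (k : ℤ) * q ≤ k * (2 * K + 1) := mul_le_mul_of_nonneg_left e4 hk0
      have g6 : -((k : ℤ) * (2 * K + 1)) ≤ k * q := by
        have := mul_le_mul_of_nonneg_left e3 hk0
        linarith
      refine ⟨⟨by push_cast; linarith, by push_cast; linarith⟩, ?_⟩
      rw [Int.natCast_natAbs, abs_le]
      have g7 : (k : ℤ) * q = M * q + (k - M) * q := by ring
      constructor <;> linarith
    obtain ⟨k1, k2⟩ := key _ hx.1.1 hx.1.2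
    obtain ⟨k3, k4⟩ := key _ hx.2.1 hx.2.2
    have hsm : k • (x.1 / (M : ℤ), x.2 / (M : ℤ)) = ((k : ℤ) * (x.1 / M), (k : ℤ) * (x.2 / M)) := by
      ext <;> simp
    rw [mem_box, hsm]
    refine ⟨⟨k1, k3⟩, ?_⟩
    rw [← hM]
    simp only [n1, Prod.fst_sub, Prod.snd_sub]
    push_cast at k2 k4 ⊢
    linarith

namespace Mom

variable (hM : Mom G m) (hμ : IsTC1 G μ)
include hM hμ

/-- Almost sure convergence along the multiples of a lattice vector. -/
lemma as_dir (x : ℤ × ℤ) : ∀ᵐ t ∂(iidLaw G),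
    Tendsto (fun n : ℕ => passageTime t 0 (n • x) / n) atTop (nhds (μ (toR x))) := by
  rcases eq_or_ne x 0 with rfl | hx
  · filter_upwards [ae_Nn (G := G) hM.h0] with t ht
    have : toR 0 = 0 := by ext <;> simp [toR]
    rw [this, hM.mu_zero hμ]
    simp [pt_self ht]
  · have h1 := (hM.subadd hx).tendsto_mean
    have h2 := hM.ET_tendsto_nat hμ (toR x)
    have h3 : (hM.subadd hx).subadditive.lim = μ (toR x) := by
      refine tendsto_nhds_unique h1 (h2.congr fun n => ?_)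
      rw [fl_natCast]
      rfl
    rw [← h3]
    exact (hM.subadd hx).kingman

lemma tri_err {t : Environment} (ht : Nn t) (o x x' : ℤ × ℤ) {A e c : ℝ}
    (h1 : passageTime t x x' ≤ A * n1 (x' - x) + e)
    (h2 : |passageTime t o x' - μ (toR (x' - o))| ≤ c) :
    |passageTime t o x - μ (toR (x - o))| ≤ (A + m) * n1 (x' - x) + e + c := by
  have t1 := pt_triangle ht o x' x
  have t2 := pt_triangle ht o x x'
  rw [pt_symm ht x' x] at t1
  have h3 := hM.abs_mu_sub_le hμ (toR (x' - o)) (toR (x - o))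
  have h4 : toR (x' - o) - toR (x - o) = toR (x' - x) := by
    rw [← toR_sub]; congr 1; abel
  rw [h4, l1_toR] at h3
  rw [abs_le] at h2 h3 ⊢
  obtain ⟨a1, a2⟩ := h2
  obtain ⟨b1, b2⟩ := h3
  have e1 : (A + m) * n1 (x' - x) = A * n1 (x' - x) + m * n1 (x' - x) := by ring
  rw [e1]
  constructor <;> linarith

/-- **The almost sure one-point shape theorem.** -/
theorem as_shape_one (hG : M51.Law213 G) {ε : ℝ} (hε : 0 < ε) :
    ∀ᵐ t ∂(iidLaw G), ∀ᶠ n : ℕ in atTop, ∀ x ∈ box n,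
      |passageTime t 0 x - μ (toR x)| ≤ ε * n := by
  have hm := hM.nonneg
  obtain ⟨A, hA, hctl⟩ := as_ctl hG
  obtain ⟨K, hK0, hK⟩ : ∃ K : ℕ, 0 < K ∧ (A + m) * 2 ≤ ε / 4 * K := by
    obtain ⟨K, hK⟩ := exists_nat_gt ((A + m) * 2 / (ε / 4))
    rw [div_lt_iff₀ (by positivity)] at hK
    refine ⟨K + 1, Nat.succ_pos _, ?_⟩
    push_cast
    nlinarith
  have hKR : (0 : ℝ) < K := by exact_mod_cast hK0
  have hdir : ∀ᵐ t ∂(iidLaw G), ∀ j : ℤ × ℤ,
      Tendsto (fun n : ℕ => passageTime t 0 (n • j) / n) atTop (nhds (μ (toR j))) :=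
    ae_all_iff.2 fun j => hM.as_dir hμ j
  filter_upwards [hctl (ε / 40) (by positivity), hdir, ae_Nn (G := G) hM.h0] with t h1 h2 ht
  have h3 : ∀ᶠ M : ℕ in atTop, ∀ j ∈ box (2 * K + 1),
      |passageTime t 0 (M • j) / M - μ (toR j)| < ε / 4 := by
    rw [eventually_all_finset]
    intro j _
    have := (h2 j).sub_const (μ (toR j))
    rw [sub_self] at this
    have := this.abs
    rw [abs_zero] at this
    exact this.eventually_lt_const (by positivity)
  have h1' : ∀ᶠ n : ℕ in atTop, ∀ x ∈ box (9 * n), ∀ y ∈ box (9 * n),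
      passageTime t x y ≤ A * n1 (y - x) + ε / 40 * (9 * n : ℕ) :=
    (tendsto_id.const_mul_atTop' (by norm_num : 0 < 9)).eventually h1
  have h3' : ∀ᶠ n : ℕ in atTop, ∀ j ∈ box (2 * K + 1),
      |passageTime t 0 ((n / K) • j) / (n / K : ℕ) - μ (toR j)| < ε / 4 :=
    (Nat.tendsto_div_const_atTop hK0.ne').eventually h3
  filter_upwards [h1', h3', eventually_ge_atTop K] with n hn1 hn3 hnK
  intro x hx
  obtain ⟨j, hj, hjk⟩ := near_mul hK0 hnK hx
  obtain ⟨g1, g2⟩ := hjk (n / K) le_rfl (by omega)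
  obtain ⟨M, hMd⟩ : ∃ M, M = n / K := ⟨_, rfl⟩
  rw [← hMd] at g1 g2 hn3
  have hM0 : 0 < M := by rw [hMd]; exact Nat.div_pos hnK hK0
  have hMR : (0 : ℝ) < M := by exact_mod_cast hM0
  have hMK : (M : ℝ) * K ≤ n := by
    have : M * K ≤ n := by rw [hMd]; exact Nat.div_mul_le_self _ _
    exact_mod_cast this
  have hMn : (M : ℝ) ≤ n := by
    have : (1 : ℝ) ≤ K := by exact_mod_cast hK0
    nlinarith
  have hxb : x ∈ box (9 * n) := by
    rw [mem_box] at hx ⊢
    push_cast
    omega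
  have e1 := hn1 x hxb (M • j) g1
  have e2 : |passageTime t 0 (M • j) - μ (toR (M • j - 0))| ≤ ε / 4 * M := by
    rw [sub_zero, toR_nsmul, hM.mu_smul hμ hMR.le]
    have h5 := (hn3 j hj).le
    have h6 : passageTime t 0 (M • j) - M * μ (toR j)
        = (passageTime t 0 (M • j) / M - μ (toR j)) * M := by
      field_simp
    rw [h6, abs_mul, abs_of_pos hMR]
    gcongr
  have e3 := hM.tri_err hμ ht 0 x (M • j) e1 e2
  rw [sub_zero] at e3
  refine e3.trans ?_
  have e4 : (n1 (M • j - x) : ℝ) ≤ 2 * M := by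
    have h7 : n1 (M • j - x) = n1 (x - M • j) := by rw [← neg_sub, n1_neg]
    rw [h7]
    have h8 : (n1 (x - M • j) : ℤ) ≤ 2 * M := by linarith
    exact_mod_cast h8
  have e5 : (A + m) * n1 (M • j - x) ≤ ε / 4 * n := by
    calc (A + m) * n1 (M • j - x) ≤ (A + m) * (2 * M) := by gcongr
      _ = (A + m) * 2 * M := by ring
      _ ≤ ε / 4 * K * M := by gcongr
      _ = ε / 4 * (M * K) := by ring
      _ ≤ ε / 4 * n := by gcongr
  have e6 : ε / 4 * M ≤ ε / 4 * n := by gcongr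
  have e7 : ε / 40 * ((9 * n : ℕ) : ℝ) ≤ ε / 4 * n := by
    push_cast
    have : (0 : ℝ) ≤ n := Nat.cast_nonneg _
    nlinarith
  have e8 : 0 ≤ ε / 4 * n := by positivity
  linarith

end Mom

/-! ### Two points -/

lemma shift_iterate (x : ℤ × ℤ) (k : ℕ) (t : Environment) :
    (A.shift x)^[k] t = A.shift (k • x) t := by
  induction k with
  | zero => simp
  | succ k ih =>
    rw [Function.iterate_succ_apply', ih, A.shift_shift]
    congr 1
    rw [succ_nsmul']

lemma pt_shift (z : ℤ × ℤ) (t : Environment) (a b : ℤ × ℤ) :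
    passageTime (A.shift z t) a b = passageTime t (a + z) (b + z) :=
  pt_iso t (tr z) a b

/-- Environments with a good one-point shape from the scale `N` on. -/
def Gd (μ : ℝ × ℝ → ℝ) (δ : ℝ) (N : ℕ) : Set Environment :=
  {t | ∀ n ≥ N, ∀ x ∈ box n, |passageTime t 0 x - μ (toR x)| ≤ δ * n}

lemma measurableSet_Gd (μ : ℝ × ℝ → ℝ) (δ : ℝ) (N : ℕ) : MeasurableSet (Gd μ δ N) := by
  have : Gd μ δ N = ⋂ (n : ℕ) (_ : n ≥ N) (x ∈ box n),
      {t | |passageTime t 0 x - μ (toR x)| ≤ δ * n} := by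
    ext t
    simp [Gd]
  rw [this]
  refine MeasurableSet.iInter fun n => MeasurableSet.iInter fun _ => MeasurableSet.iInter fun x =>
    MeasurableSet.iInter fun _ => ?_
  exact measurableSet_le ((measurable_pt 0 x).sub_const _).abs measurable_const

lemma mono_Gd (μ : ℝ × ℝ → ℝ) (δ : ℝ) : Monotone (Gd μ δ) :=
  fun _ _ h _ ht n hn => ht n (h.trans hn)

namespace Mom

variable (hM : Mom G m) (hμ : IsTC1 G μ)
include hM hμ

lemma exists_Gd (hG : M51.Law213 G) {δ : ℝ} (hδ : 0 < δ) :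
    ∃ N, 1 - δ ≤ (iidLaw G).real (Gd μ δ N) := by
  have h1 : iidLaw G (⋃ N, Gd μ δ N) = 1 := by
    refine prob_compl_eq_zero_iff (MeasurableSet.iUnion fun N => measurableSet_Gd μ δ N) |>.1 ?_
    have h2 := hM.as_shape_one hμ hG hδ
    rw [ae_iff] at h2
    refine measure_mono_null ?_ h2
    intro t ht
    simp only [Set.mem_compl_iff, Set.mem_iUnion, not_exists] at ht
    simp only [Set.mem_ofPred_eq, eventually_atTop, not_exists]
    intro N hN
    exact ht N hN
  have h3 := tendsto_measure_iUnion_atTop (μ := iidLaw G) (mono_Gd μ δ)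
  rw [h1] at h3
  have h4 := (ENNReal.tendsto_toReal ENNReal.one_ne_top).comp h3
  rw [ENNReal.toReal_one] at h4
  have h5 := h4.eventually (eventually_ge_nhds (show 1 - δ < 1 by linarith))
  obtain ⟨N, hN⟩ := h5.exists
  exact ⟨N, hN⟩

/-- **The almost sure uniform (two-point) shape theorem.** -/
theorem as_shape_two (hG : M51.Law213 G) {ε : ℝ} (hε : 0 < ε) :
    ∀ᵐ t ∂(iidLaw G), ∀ᶠ n : ℕ in atTop, dev μ n t ≤ ε * n := by
  have hm := hM.nonneg
  obtain ⟨B, hA, hctl⟩ := as_ctl hG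
  obtain ⟨δ, hδ0, hδ1, hδ2⟩ : ∃ δ : ℝ, 0 < δ ∧ δ < 1 / 3 ∧ ((B + m) * 18 + 10) * δ ≤ ε / 4 := by
    refine ⟨min (1 / 4) (ε / 4 / ((B + m) * 18 + 10)), by positivity, ?_, ?_⟩
    · exact (min_le_left _ _).trans_lt (by norm_num)
    · have : 0 < (B + m) * 18 + 10 := by positivity
      calc _ ≤ ((B + m) * 18 + 10) * (ε / 4 / ((B + m) * 18 + 10)) := by
            gcongr; exact min_le_right _ _
        _ = ε / 4 := by field_simp
  obtain ⟨K, hK0, hK⟩ : ∃ K : ℕ, 0 < K ∧ (B + m) * 2 ≤ ε / 4 * K := by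
    obtain ⟨K, hK⟩ := exists_nat_gt ((B + m) * 2 / (ε / 4))
    rw [div_lt_iff₀ (by positivity)] at hK
    refine ⟨K + 1, Nat.succ_pos _, ?_⟩
    push_cast
    nlinarith
  have hKR : (0 : ℝ) < K := by exact_mod_cast hK0
  obtain ⟨N, hN⟩ := hM.exists_Gd hμ hG hδ0
  have hvis : ∀ᵐ t ∂(iidLaw G), ∀ j : ℤ × ℤ, j ≠ 0 → ∀ᶠ M : ℕ in atTop, ∃ k : ℕ, M ≤ k ∧
      (k : ℝ) ≤ (1 + 3 * δ) * M + 1 ∧ A.shift (k • j) t ∈ Gd μ δ N := by
    rw [ae_all_iff]
    intro j
    by_cases hj : j = 0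
    · exact Eventually.of_forall fun t h => absurd hj h
    · filter_upwards [visits (ergodic_shift (G := G) hj) (measurableSet_Gd μ δ N) hδ0
        (by linarith) hN] with t ht _
      simpa only [shift_iterate] using ht
  filter_upwards [hctl (ε / 40) (by positivity), hvis, hM.as_shape_one hμ hG hδ0,
    ae_Nn (G := G) hM.h0] with t h1 h2 h3 ht
  -- good multiples
  have h4 : ∀ᶠ M : ℕ in atTop, ∀ j ∈ box (2 * K + 1), ∃ k : ℕ, M ≤ k ∧
      (k : ℝ) ≤ (1 + 3 * δ) * M + 1 ∧
      ∀ n : ℕ, N ≤ n → n / K = M → ∀ y : ℤ × ℤ, y ∈ box (10 * n) →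
        (j ≠ 0 ∨ ∀ y ∈ box (10 * n), |passageTime t 0 y - μ (toR y)| ≤ δ * (10 * n : ℕ)) →
        |passageTime t (k • j) (k • j + y) - μ (toR y)| ≤ δ * (10 * n : ℕ) := by
    rw [eventually_all_finset]
    intro j _
    by_cases hj : j = 0
    · refine Eventually.of_forall fun M => ⟨M, le_rfl, ?_, ?_⟩
      · have : (0 : ℝ) ≤ M := Nat.cast_nonneg _
        nlinarith
      · intro n _ _ y hy hor
        rcases hor with h | h
        · exact absurd hj h
        · rw [hj, smul_zero, zero_add]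
          exact h y hy
    · filter_upwards [h2 j hj] with M hM'
      obtain ⟨k, hk1, hk2, hk3⟩ := hM'
      refine ⟨k, hk1, hk2, ?_⟩
      intro n hn _ y hy _
      have := hk3 (10 * n) (by omega) y hy
      rwa [pt_shift, zero_add, add_comm y] at this
  have h1' : ∀ᶠ n : ℕ in atTop, ∀ x ∈ box (9 * n), ∀ y ∈ box (9 * n),
      passageTime t x y ≤ B * n1 (y - x) + ε / 40 * (9 * n : ℕ) :=
    (tendsto_id.const_mul_atTop' (by norm_num : 0 < 9)).eventually h1
  have h3' : ∀ᶠ n : ℕ in atTop, ∀ x ∈ box (10 * n),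
      |passageTime t 0 x - μ (toR x)| ≤ δ * (10 * n : ℕ) :=
    (tendsto_id.const_mul_atTop' (by norm_num : 0 < 10)).eventually h3
  have h4' := (Nat.tendsto_div_const_atTop hK0.ne').eventually h4
  have h5 : ∀ᶠ n : ℕ in atTop, (B + m) * (6 * K) ≤ ε / 4 * n := by
    have := (tendsto_natCast_atTop_atTop (R := ℝ)).eventually_ge_atTop
      ((B + m) * (6 * K) / (ε / 4))
    filter_upwards [this] with n hn
    rw [div_le_iff₀ (by positivity)] at hn
    linarith
  filter_upwards [h1', h3', h4', h5, eventually_ge_atTop K, eventually_ge_atTop N] with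
    n hn1 hn3 hn4 hn5 hnK hnN
  have key : ∀ x ∈ box n, ∀ y ∈ box n,
      |passageTime t x y - μ (toR (y - x))| ≤ ε * n := by
    intro x hx y hy
    obtain ⟨j, hj, hjk⟩ := near_mul hK0 hnK hx
    obtain ⟨k, hk1, hk2, hk3⟩ := hn4 j hj
    obtain ⟨M, hMd⟩ : ∃ M, M = n / K := ⟨_, rfl⟩
    rw [← hMd] at hk1 hk2 hk3 hjk
    have hM0 : 0 < M := by rw [hMd]; exact Nat.div_pos hnK hK0
    have hM1 : (1 : ℝ) ≤ M := by exact_mod_cast hM0
    have hMR : (0 : ℝ) < M := by linarith
    have hMK : (M : ℝ) * K ≤ n := by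
      have : M * K ≤ n := by rw [hMd]; exact Nat.div_mul_le_self _ _
      exact_mod_cast this
    have hkM : k ≤ 3 * M := by
      have : (k : ℝ) ≤ 3 * M := by nlinarith
      exact_mod_cast this
    obtain ⟨g1, g2⟩ := hjk k hk1 hkM
    have hxb : x ∈ box (9 * n) := by
      rw [mem_box] at hx ⊢
      push_cast
      omega
    have e1 := hn1 x hxb (k • j) g1
    have hyb : y - k • j ∈ box (10 * n) := by
      rw [mem_box] at hy g1 ⊢
      simp only [Prod.fst_sub, Prod.snd_sub]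
      push_cast at g1 ⊢
      omega
    have e2 := hk3 n hnN hMd.symm (y - k • j) hyb (Or.inr hn3)
    rw [add_sub_cancel] at e2
    have e2' : |passageTime t y (k • j) - μ (toR (k • j - y))| ≤ δ * (10 * n : ℕ) := by
      rw [pt_symm ht]
      have : μ (toR (k • j - y)) = μ (toR (y - k • j)) := by
        rw [← hM.mu_neg hμ (toR (y - k • j))]
        congr 1
        ext <;> simp [toR]
      rwa [this]
    have e3 := hM.tri_err hμ ht y x (k • j) e1 e2'
    have e3' : |passageTime t x y - μ (toR (y - x))| ≤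
        (B + m) * n1 (k • j - x) + ε / 40 * (9 * n : ℕ) + δ * (10 * n : ℕ) := by
      rw [pt_symm ht]
      have : μ (toR (y - x)) = μ (toR (x - y)) := by
        rw [← hM.mu_neg hμ (toR (x - y))]
        congr 1
        ext <;> simp [toR]
      rwa [this]
    refine e3'.trans ?_
    have e4 : (n1 (k • j - x) : ℝ) ≤ 2 * M + (3 * δ * M + 1) * (6 * K) := by
      have h7 : n1 (k • j - x) = n1 (x - k • j) := by rw [← neg_sub, n1_neg]
      rw [h7]
      have h8 : (n1 (x - k • j) : ℝ) ≤ 2 * M + (k - M) * (4 * K + 2) := by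
        exact_mod_cast g2
      have h9 : (k : ℝ) - M ≤ 3 * δ * M + 1 := by linarith
      have h10 : (4 * K + 2 : ℝ) ≤ 6 * K := by
        have : (1 : ℝ) ≤ K := by exact_mod_cast hK0
        linarith
      have h11 : (0 : ℝ) ≤ (k : ℝ) - M := by
        have : (M : ℝ) ≤ k := by exact_mod_cast hk1
        linarith
      calc (n1 (x - k • j) : ℝ) ≤ 2 * M + (k - M) * (4 * K + 2) := h8
        _ ≤ 2 * M + (k - M) * (6 * K) := by gcongr
        _ ≤ 2 * M + (3 * δ * M + 1) * (6 * K) := by gcongr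
    have hn0 : (0 : ℝ) ≤ n := Nat.cast_nonneg _
    have e5 : (B + m) * n1 (k • j - x) ≤ ε / 4 * n + (B + m) * 18 * δ * n + ε / 4 * n := by
      calc (B + m) * n1 (k • j - x) ≤ (B + m) * (2 * M + (3 * δ * M + 1) * (6 * K)) := by gcongr
        _ = (B + m) * 2 * M + (B + m) * 18 * δ * (M * K) + (B + m) * (6 * K) := by ring
        _ ≤ ε / 4 * K * M + (B + m) * 18 * δ * n + ε / 4 * n := by gcongr
        _ = ε / 4 * (M * K) + (B + m) * 18 * δ * n + ε / 4 * n := by ring
        _ ≤ ε / 4 * n + (B + m) * 18 * δ * n + ε / 4 * n := by gcongr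
    have e7 : ε / 40 * ((9 * n : ℕ) : ℝ) ≤ ε / 4 * n := by
      push_cast
      nlinarith
    have e8 : (B + m) * 18 * δ * n + δ * ((10 * n : ℕ) : ℝ) ≤ ε / 4 * n := by
      push_cast
      calc (B + m) * 18 * δ * n + δ * (10 * n) = (((B + m) * 18 + 10) * δ) * n := by ring
        _ ≤ ε / 4 * n := by gcongr
    linarith
  refine Finset.sup'_le _ _ fun p hp => ?_
  rw [Finset.mem_product] at hp
  exact key p.1 hp.1 p.2 hp.2

/-- Form with "for every `ε`" inside. -/
theorem as_ushape (hG : M51.Law213 G) :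
    ∀ᵐ t ∂(iidLaw G), ∀ ε : ℝ, 0 < ε → ∀ᶠ n : ℕ in atTop, dev μ n t ≤ ε * n := by
  have h := ae_all_iff.2 fun i : ℕ => hM.as_shape_two hμ hG
    (ε := 1 / ((i : ℝ) + 1)) (by positivity)
  filter_upwards [h] with t ht ε hε
  obtain ⟨i, hi⟩ := exists_nat_one_div_lt hε
  filter_upwards [ht i] with n hn
  refine hn.trans ?_
  gcongr

end Mom

end Crest.Agent.R151.K
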