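import Crest.Agent.R151.X684d
import Crest.Agent.R151.K5

-- ▼ part R151/W5
section

/-!
# R151, W5: exponential lower tail for point-to-line passage times (general law)

`prob_skel_ge`: union bound over skeletons for the number of bad blocks.
`ld_line`: if crossings of tall blocks are rarely cheap, then the passage time from a point to a
distant column has an exponential lower tail.
-/

set_option autoImplicit false

open MeasureTheory ProbabilityTheory Filter Topology
open Crest.ProbabilityR.FirstPassage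
open Crest.Agent.R151.A (shift eShift block sig eX)
open Crest.Agent.R151.K (Nn)
open Crest.Agent.R151.X

namespace Crest.Agent.R151.W

variable (G : Measure ℝ) [IsProbabilityMeasure G]

/-! ## union bound over skeletons -/

lemma exp_indicator (θ : ℝ) (E : Set Environment) (t : Environment) :
    Real.exp (θ * (E.indicator (fun _ => (1 : ℝ)) t)) =
      1 + (Real.exp θ - 1) * E.indicator (fun _ => (1 : ℝ)) t := by
  by_cases h : t ∈ E
  · simp [Set.indicator_of_mem h]
  · simp [Set.indicator_of_notMem h]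

lemma cnt_le (F : ℕ → Set Environment) (M : ℕ) (t : Environment) : cnt F M t ≤ M := by
  unfold cnt
  refine (Finset.sum_le_sum (g := fun _ => (1 : ℝ)) fun k _ => ?_).trans (by simp)
  exact Set.indicator_le_self' (fun _ _ => zero_le_one) t

lemma integral_exp_cnt_pos {S : ℕ → Set (Sym2 (ℤ × ℤ))} {F : ℕ → Set Environment}
    (hF : ∀ k, MeasurableSet[sig (S k)] (F k))
    (hdis : ∀ M : ℕ, Disjoint (⋃ j ∈ Finset.range M, S j) (S M)) {p θ : ℝ} (hθ : 0 ≤ θ)
    (hp : ∀ k, (iidLaw G).real (F k) ≤ p) (M : ℕ) :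
    ∫ t, Real.exp (θ * cnt F M t) ∂(iidLaw G) ≤ (1 + (Real.exp θ - 1) * p) ^ M := by
  have hθ1 : 0 ≤ Real.exp θ - 1 := by linarith [Real.one_le_exp hθ]
  have hp0 : 0 ≤ p := measureReal_nonneg.trans (hp 0)
  induction M with
  | zero => simp [cnt]
  | succ M ih =>
    have h1 : ∀ t, Real.exp (θ * cnt F (M + 1) t) = Real.exp (θ * cnt F M t) *
        Real.exp (θ * ((F M).indicator (fun _ => (1 : ℝ)) t)) := by
      intro t
      rw [← Real.exp_add]
      congr 1
      unfold cnt
      rw [Finset.sum_range_succ]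
      ring
    have hm1 : Measurable[sig (⋃ j ∈ Finset.range M, S j)] fun t => Real.exp (θ * cnt F M t) :=
      Real.measurable_exp.comp ((measurable_cnt hF M).const_mul θ)
    have hm2 : Measurable[sig (S M)] fun t : Environment =>
        Real.exp (θ * ((F M).indicator (fun _ => (1 : ℝ)) t)) :=
      Real.measurable_exp.comp
        (((@measurable_const _ _ _ (sig (S M)) (1 : ℝ)).indicator (hF M)).const_mul θ)
    have hind : IndepFun (fun t => Real.exp (θ * cnt F M t))
        (fun t => Real.exp (θ * ((F M).indicator (fun _ => (1 : ℝ)) t))) (iidLaw G) := by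
      rw [IndepFun_iff_Indep]
      exact indep_of_indep_of_le_left (indep_of_indep_of_le_right (A.indep_sig G (hdis M))
        hm2.comap_le) hm1.comap_le
    simp_rw [h1]
    rw [hind.integral_fun_mul_eq_mul_integral
      ((hm1.mono (sig_le _) le_rfl).aestronglyMeasurable)
      ((hm2.mono (sig_le _) le_rfl).aestronglyMeasurable)]
    have h2 : ∫ t, Real.exp (θ * ((F M).indicator (fun _ => (1 : ℝ)) t)) ∂(iidLaw G) =
        1 + (Real.exp θ - 1) * (iidLaw G).real (F M) := by
      simp_rw [exp_indicator]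
      have hFM : MeasurableSet (F M) := sig_le _ _ (hF M)
      rw [integral_add (integrable_const _)
        (((integrable_const (1 : ℝ)).indicator hFM).const_mul _), integral_const_mul,
        integral_indicator_const _ hFM]
      simp
    rw [h2, pow_succ]
    have h3 : 1 + (Real.exp θ - 1) * (iidLaw G).real (F M) ≤ 1 + (Real.exp θ - 1) * p := by
      have := mul_le_mul_of_nonneg_left (hp M) hθ1
      linarith
    have h4 : 0 ≤ 1 + (Real.exp θ - 1) * (iidLaw G).real (F M) := by positivity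
    have h5 : 0 ≤ ∫ t, Real.exp (θ * cnt F M t) ∂(iidLaw G) :=
      integral_nonneg fun t => (Real.exp_pos _).le
    exact mul_le_mul ih h3 h4 (h5.trans ih)

/-- Chernoff bound for many bad events among independent rare ones -/
lemma prob_cnt_ge {S : ℕ → Set (Sym2 (ℤ × ℤ))} {F : ℕ → Set Environment}
    (hF : ∀ k, MeasurableSet[sig (S k)] (F k))
    (hdis : ∀ M : ℕ, Disjoint (⋃ j ∈ Finset.range M, S j) (S M)) {p θ : ℝ} (hθ : 0 ≤ θ)
    (hp : ∀ k, (iidLaw G).real (F k) ≤ p) (M : ℕ) (K : ℝ) :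
    (iidLaw G).real {t | K ≤ cnt F M t} ≤
      Real.exp (-(θ * K)) * (1 + (Real.exp θ - 1) * p) ^ M := by
  have hm : Measurable (cnt F M) := (measurable_cnt hF M).mono (sig_le _) le_rfl
  have hint : Integrable (fun t => Real.exp (θ * cnt F M t)) (iidLaw G) := by
    refine Integrable.of_bound (Real.measurable_exp.comp (hm.const_mul θ)).aestronglyMeasurable
      (Real.exp (θ * M)) ?_
    refine Eventually.of_forall fun t => ?_
    rw [Real.norm_eq_abs, abs_of_pos (Real.exp_pos _), Real.exp_le_exp]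
    exact mul_le_mul_of_nonneg_left (cnt_le F M t) hθ
  have h1 : Real.exp (θ * K) * (iidLaw G).real {t | K ≤ cnt F M t} ≤
      ∫ t, Real.exp (θ * cnt F M t) ∂(iidLaw G) := by
    have h2 := mul_meas_ge_le_integral_of_nonneg (μ := iidLaw G)
      (f := fun t => Real.exp (θ * cnt F M t))
      (Eventually.of_forall fun t => (Real.exp_pos _).le) hint (Real.exp (θ * K))
    refine le_trans ?_ h2
    refine mul_le_mul_of_nonneg_left ?_ (Real.exp_pos _).le
    refine measureReal_mono ?_ (measure_ne_top _ _)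
    intro t ht
    simp only [Set.mem_ofPred_eq, Real.exp_le_exp] at ht ⊢
    exact mul_le_mul_of_nonneg_left ht hθ
  have h2 := integral_exp_cnt_pos G hF hdis hθ hp M
  have h3 : (iidLaw G).real {t | K ≤ cnt F M t} =
      Real.exp (-(θ * K)) * (Real.exp (θ * K) * (iidLaw G).real {t | K ≤ cnt F M t}) := by
    rw [← mul_assoc, ← Real.exp_add]
    simp
  rw [h3]
  exact mul_le_mul_of_nonneg_left (h1.trans h2) (Real.exp_pos _).le

/-- the event that some skeleton of bounded variation has many bad blocks -/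
def SkelGe (F : ℕ → ℤ → Set Environment) (M : ℕ) (V K : ℝ) : Set Environment :=
  {t | ∃ r : ℕ → ℤ, r 0 = 0 ∧ ∑ k ∈ Finset.range M, |((r (k + 1) - r k : ℤ) : ℝ)| ≤ V ∧
    K ≤ cnt (fun k => F k (r (k + 1))) M t}

/-- the union bound over skeletons, many bad blocks -/
lemma prob_skel_ge {S : ℕ → Set (Sym2 (ℤ × ℤ))} {F : ℕ → ℤ → Set Environment}
    (hF : ∀ k r, MeasurableSet[sig (S k)] (F k r))
    (hdis : ∀ M : ℕ, Disjoint (⋃ j ∈ Finset.range M, S j) (S M)) {p θ : ℝ} (hθ : 0 ≤ θ)
    (hp : ∀ k r, (iidLaw G).real (F k r) ≤ p) (M : ℕ) {V K l : ℝ} (hl : 0 < l) :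
    (iidLaw G).real (SkelGe F M V K) ≤
      Real.exp (l * V) * ((1 + Real.exp (-l)) / (1 - Real.exp (-l))) ^ M *
        (Real.exp (-(θ * K)) * (1 + (Real.exp θ - 1) * p) ^ M) := by
  classical
  set D : Finset (Fin M → ℤ) := (W.finite_sum_abs_le (Fin M) V).toFinset with hD
  -- the skeleton with increments `d`
  set R : (Fin M → ℤ) → ℕ → ℤ := fun d k =>
    ∑ j : Fin M, if (j : ℕ) < k then d j else 0 with hR
  have hsub : SkelGe F M V K ⊆
      ⋃ d ∈ D, {t | K ≤ cnt (fun k => F k (R d (k + 1))) M t} := by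
    rintro t ⟨r, h0, h1, h2⟩
    set d : Fin M → ℤ := fun j => r (j + 1) - r j with hd
    have hRd : ∀ k ≤ M, R d k = r k := by
      intro k hk
      have h3 : R d k = ∑ j ∈ Finset.range M, if j < k then (r (j + 1) - r j) else 0 := by
        simp only [hR, hd]
        exact Fin.sum_univ_eq_sum_range (fun j => if j < k then (r (j + 1) - r j) else 0) M
      rw [h3, ← Finset.sum_filter]
      have h4 : (Finset.range M).filter (fun j => j < k) = Finset.range k := by
        ext j; simp only [Finset.mem_filter, Finset.mem_range]; omega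
      rw [h4, Finset.sum_range_sub, h0, sub_zero]
    have hdD : d ∈ D := by
      rw [hD, Set.Finite.mem_toFinset]
      show ∑ i, |((d i : ℤ) : ℝ)| ≤ V
      have h3 : ∑ i : Fin M, |((d i : ℤ) : ℝ)| =
          ∑ k ∈ Finset.range M, |((r (k + 1) - r k : ℤ) : ℝ)| :=
        Fin.sum_univ_eq_sum_range (fun k => |((r (k + 1) - r k : ℤ) : ℝ)|) M
      rw [h3]
      exact h1
    simp only [Set.mem_iUnion]
    refine ⟨d, hdD, ?_⟩
    have h5 : cnt (fun k => F k (R d (k + 1))) M t = cnt (fun k => F k (r (k + 1))) M t := by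
      unfold cnt
      refine Finset.sum_congr rfl fun k hk => ?_
      show (F k (R d (k + 1))).indicator _ t = (F k (r (k + 1))).indicator _ t
      rw [hRd (k + 1) (by have := Finset.mem_range.1 hk; omega)]
    simp only [Set.mem_ofPred_eq, h5]
    exact h2
  have hcard := W.card_sum_abs_le' D (K := V) hl (by
    intro d hd
    rw [hD, Set.Finite.mem_toFinset] at hd
    exact hd)
  rw [Fintype.card_fin] at hcard
  have h1 : (iidLaw G).real (SkelGe F M V K) ≤
      ∑ d ∈ D, (iidLaw G).real {t | K ≤ cnt (fun k => F k (R d (k + 1))) M t} :=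
    (measureReal_mono hsub (measure_ne_top _ _)).trans (measureReal_biUnion_finset_le _ _)
  have h2 : ∑ d ∈ D, (iidLaw G).real {t | K ≤ cnt (fun k => F k (R d (k + 1))) M t} ≤
      ∑ _d ∈ D, Real.exp (-(θ * K)) * (1 + (Real.exp θ - 1) * p) ^ M :=
    Finset.sum_le_sum fun d _ =>
      prob_cnt_ge G (fun k => hF k (R d (k + 1))) hdis hθ (fun k => hp k _) M K
  rw [Finset.sum_const, nsmul_eq_mul] at h2
  refine (h1.trans h2).trans ?_
  have hp0 : 0 ≤ p := measureReal_nonneg.trans (hp 0 0)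
  have hθ1 : 0 ≤ Real.exp θ - 1 := by linarith [Real.one_le_exp hθ]
  exact mul_le_mul_of_nonneg_right hcard (by positivity)

/-! ## the deterministic part -/

omit [IsProbabilityMeasure G] in
lemma walkCost_add_const (t : Environment) (δ : ℝ) {x y : ℤ × ℤ} (w : squareLattice.Walk x y) :
    walkCost (fun e => t e + δ) w = walkCost t w + δ * w.length := by
  unfold walkCost
  rw [← SimpleGraph.Walk.length_edges]
  induction w.edges with
  | nil => simp
  | cons e l ih =>
    simp only [List.map_cons, List.sum_cons, List.length_cons, ih]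
    push_cast
    ring

omit [IsProbabilityMeasure G] in
lemma snd_sub_le_of_Cr {t : Environment} (hNn : Nn t) {δ : ℝ} (hδ : 0 < δ)
    {S : Set (Sym2 (ℤ × ℤ))} {x y : ℤ × ℤ} {c : ℝ} (h : Cr S x y c (fun e => t e + δ)) :
    δ * |((y.2 - x.2 : ℤ) : ℝ)| ≤ c := by
  obtain ⟨w, -, h2⟩ := h
  rw [walkCost_add_const] at h2
  have h3 := K.walkCost_nonneg hNn w
  have h4 : |((y.2 - x.2 : ℤ) : ℝ)| ≤ w.length := by
    have h5 := K.n1_le_length w
    have h6 : |((y.2 - x.2 : ℤ) : ℝ)| = (((y.2 - x.2).natAbs : ℕ) : ℝ) := by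
      rw [Nat.cast_natAbs, Int.cast_abs]
    rw [h6]
    have h7 : (y.2 - x.2).natAbs ≤ w.length := by
      refine le_trans ?_ h5
      simp only [K.n1, Prod.snd_sub]
      omega
    exact_mod_cast h7
  have h5 := mul_le_mul_of_nonneg_left h4 hδ.le
  linarith

omit [IsProbabilityMeasure G] in
lemma Cr_of_add {t : Environment} {δ : ℝ} (hδ : 0 ≤ δ)
    {S : Set (Sym2 (ℤ × ℤ))} {x y : ℤ × ℤ} {c : ℝ} (h : Cr S x y c (fun e => t e + δ)) :
    Cr S x y c t := by
  obtain ⟨w, h1, h2⟩ := h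
  rw [walkCost_add_const] at h2
  exact ⟨w, h1, by nlinarith [mul_nonneg hδ (Nat.cast_nonneg (α := ℝ) w.length)]⟩

/-- a cheap crossing of the block of columns `[p, q)` starting at a height in `[a, b)` -/
def CrossBad (p q a b : ℤ) (v : ℝ) : Set Environment :=
  {t | ∃ x y : ℤ, (a ≤ x ∧ x < b) ∧ Cr (block p q) (p, x) (q, y) v t}

lemma abs_ediv_sub_le (a b : ℤ) {L : ℕ} (hL : 1 ≤ L) :
    |((a / L - b / L : ℤ) : ℝ)| ≤ |((a - b : ℤ) : ℝ)| / L + 1 := by
  have hL' : (0 : ℤ) < L := by exact_mod_cast hL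
  have hLR : (0 : ℝ) < L := by exact_mod_cast hL
  have h1 := Int.mul_ediv_add_emod a L
  have h2 := Int.mul_ediv_add_emod b L
  have h3 := Int.emod_nonneg a hL'.ne'
  have h4 := Int.emod_lt_of_pos a hL'
  have h5 := Int.emod_nonneg b hL'.ne'
  have h6 := Int.emod_lt_of_pos b hL'
  have h7 : |(L : ℤ) * (a / L - b / L)| ≤ |a - b| + L := by
    have : (L : ℤ) * (a / L - b / L) = (a - b) + (b % L - a % L) := by linarith
    rw [this]
    refine (abs_add_le _ _).trans ?_
    have : |b % (L : ℤ) - a % L| ≤ L := by rw [abs_le]; constructor <;> omega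
    omega
  have h8 : (L : ℝ) * |((a / L - b / L : ℤ) : ℝ)| ≤ |((a - b : ℤ) : ℝ)| + L := by
    have h9 : ((|(L : ℤ) * (a / L - b / L)| : ℤ) : ℝ) ≤ ((|a - b| + L : ℤ) : ℝ) := by
      exact_mod_cast h7
    rw [Int.cast_abs, Int.cast_mul, abs_mul] at h9
    push_cast at h9 ⊢
    rw [abs_of_pos hLR] at h9
    exact h9
  have h10 : |((a - b : ℤ) : ℝ)| / L + 1 = (|((a - b : ℤ) : ℝ)| + L) / L := by field_simp
  rw [h10, le_div_iff₀ hLR]
  linarith

lemma skel_of_walk {t : Environment} (hNn : Nn t) {δ B v : ℝ} (hδ : 0 < δ) (hv : 0 < v)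
    {L M : ℕ} (hL : 1 ≤ L) {y : ℤ × ℤ} (w : squareLattice.Walk (0, 0) y)
    (hy : (M : ℤ) * L ≤ y.1) (hB : walkCost t w + δ * w.length ≤ B) :
    t ∈ SkelGe (fun k r => CrossBad (k * L) ((k + 1 : ℕ) * L) (r * L) ((r + 1) * L) v) M
      (B / (δ * L) + M) (M - B / v) := by
  have hLR : (0 : ℝ) < L := by exact_mod_cast hL
  set t' : Environment := fun e => t e + δ with ht'
  have hcost : walkCost t' w ≤ B := by rw [ht', walkCost_add_const]; exact hB
  obtain ⟨X, Z, c, l, hZ0, hZ1, hX1, hl, hc, hlM, hsum⟩ :=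
    chain t' Set.univ L M 0 w rfl (by simpa using hy) (fun e _ => Set.mem_univ e)
  have hl1 : ∀ k < M, δ * |(((X k).2 - (Z k).2 : ℤ) : ℝ)| ≤ l k := fun k hk =>
    snd_sub_le_of_Cr hNn hδ (hl k hk)
  have hc1 : ∀ k < M, δ * |(((Z (k + 1)).2 - (X k).2 : ℤ) : ℝ)| ≤ c k := fun k hk =>
    snd_sub_le_of_Cr hNn hδ (hc k hk)
  have hlM1 : 0 ≤ l M := (mul_nonneg hδ.le (abs_nonneg _)).trans (snd_sub_le_of_Cr hNn hδ hlM)
  have hl0 : ∀ k < M, 0 ≤ l k := fun k hk => (mul_nonneg hδ.le (abs_nonneg _)).trans (hl1 k hk)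
  have hc0 : ∀ k < M, 0 ≤ c k := fun k hk => (mul_nonneg hδ.le (abs_nonneg _)).trans (hc1 k hk)
  have hsum' : ∑ k ∈ Finset.range M, (l k + c k) ≤ B := by linarith
  set r : ℕ → ℤ := fun k => Nat.casesOn k 0 fun k => (X k).2 / L with hr
  refine ⟨r, rfl, ?_, ?_⟩
  · -- total variation
    have key : ∀ n ≤ M, L * ∑ k ∈ Finset.range n, |((r (k + 1) - r k : ℤ) : ℝ)| ≤
        L * n + (∑ k ∈ Finset.range n, (l k + c k)) / δ -
          |(((Z n).2 - (Nat.casesOn n (Z 0) X : ℤ × ℤ).2 : ℤ) : ℝ)| := by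
      intro n
      induction n with
      | zero => intro _; simp
      | succ n ih =>
        intro hn
        have h1 := ih (by omega)
        rw [Finset.sum_range_succ, Finset.sum_range_succ, mul_add, add_div]
        have h2 := hl1 n (by omega)
        have h3 := hc1 n (by omega)
        have h4 : |(((X n).2 - (Z n).2 : ℤ) : ℝ)| + |(((Z (n + 1)).2 - (X n).2 : ℤ) : ℝ)| ≤
            (l n + c n) / δ := by
          rw [le_div_iff₀ hδ]; linarith
        have h5 : L * |((r (n + 1) - r n : ℤ) : ℝ)| ≤ L +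
            |(((X n).2 - (Nat.casesOn n (Z 0) X : ℤ × ℤ).2 : ℤ) : ℝ)| := by
          have h6 : r (n + 1) = (X n).2 / L := rfl
          have h7 : r n = (Nat.casesOn n (Z 0) X : ℤ × ℤ).2 / L := by
            cases n with
            | zero => simp [hr, hZ0]
            | succ n => rfl
          rw [h6, h7]
          have h8 := abs_ediv_sub_le (X n).2 (Nat.casesOn n (Z 0) X : ℤ × ℤ).2 hL
          have h9 := mul_le_mul_of_nonneg_left h8 hLR.le
          rw [mul_add, mul_div_cancel₀ _ hLR.ne'] at h9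
          linarith
        have h6 : |(((X n).2 - (Nat.casesOn n (Z 0) X : ℤ × ℤ).2 : ℤ) : ℝ)| ≤
            |(((X n).2 - (Z n).2 : ℤ) : ℝ)| +
            |(((Z n).2 - (Nat.casesOn n (Z 0) X : ℤ × ℤ).2 : ℤ) : ℝ)| := by
          have : (((X n).2 - (Nat.casesOn n (Z 0) X : ℤ × ℤ).2 : ℤ) : ℝ) =
              (((X n).2 - (Z n).2 : ℤ) : ℝ) +
              (((Z n).2 - (Nat.casesOn n (Z 0) X : ℤ × ℤ).2 : ℤ) : ℝ) := by
            push_cast; ring
          rw [this]
          exact abs_add_le _ _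
        push_cast at h1 h4 h5 h6 ⊢
        linarith
    have h1 := key M le_rfl
    have h2 := abs_nonneg (((Z M).2 - (Nat.casesOn M (Z 0) X : ℤ × ℤ).2 : ℤ) : ℝ)
    have h3 : (∑ k ∈ Finset.range M, (l k + c k)) / δ ≤ B / δ :=
      div_le_div_of_nonneg_right hsum' hδ.le
    have h4 : L * ∑ k ∈ Finset.range M, |((r (k + 1) - r k : ℤ) : ℝ)| ≤ L * M + B / δ := by
      linarith
    have h5 : B / (δ * L) + M = (L * M + B / δ) / L := by field_simp; ring
    rw [h5, le_div_iff₀ hLR]
    linarith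
  · -- number of bad blocks
    have h1 : ∀ k ∈ Finset.range M, (1 : ℝ) - (l k + c k) / v ≤
        (CrossBad (k * L) ((k + 1 : ℕ) * L) (r (k + 1) * L) ((r (k + 1) + 1) * L) v).indicator
          (fun _ => (1 : ℝ)) t := by
      intro k hk
      have hk' := Finset.mem_range.1 hk
      by_cases hmem : t ∈ CrossBad (k * L) ((k + 1 : ℕ) * L) (r (k + 1) * L)
          ((r (k + 1) + 1) * L) v
      · rw [Set.indicator_of_mem hmem]
        have : 0 ≤ (l k + c k) / v := div_nonneg (add_nonneg (hl0 k hk') (hc0 k hk')) hv.le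
        linarith
      · rw [Set.indicator_of_notMem hmem, sub_nonpos, le_div_iff₀ hv, one_mul]
        by_contra hcon
        push Not at hcon
        apply hmem
        refine ⟨(X k).2, (Z (k + 1)).2, ⟨?_, ?_⟩, ?_⟩
        · show (X k).2 / L * L ≤ (X k).2
          exact Int.ediv_mul_le _ (by omega)
        · show (X k).2 < ((X k).2 / L + 1) * L
          exact Int.lt_ediv_add_one_mul_self _ (by omega)
        · have h2 := Cr_of_add hδ.le (hc k hk')
          have h3 : ((k : ℤ) * L, (X k).2) = X k := by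
            have := hX1 k hk'
            ext
            · simp only; rw [this]; ring
            · rfl
          have h4 : (((k + 1 : ℕ) : ℤ) * L, (Z (k + 1)).2) = Z (k + 1) := by
            have := hZ1 (k + 1) (by omega)
            ext
            · simp only; rw [this]; ring
            · rfl
          rw [h3, h4]
          refine h2.mono ?_ (by linarith [hl0 k hk'])
          rintro e ⟨-, he⟩
          simpa using he
    have h2 := Finset.sum_le_sum h1
    rw [Finset.sum_sub_distrib, Finset.sum_const, Finset.card_range, nsmul_eq_mul, mul_one,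
      ← Finset.sum_div] at h2
    refine le_trans ?_ h2
    have : (∑ k ∈ Finset.range M, (l k + c k)) / v ≤ B / v :=
      div_le_div_of_nonneg_right hsum' hv.le
    linarith

/-! ## block events -/

lemma measurableSet_CrossBad (p q a b : ℤ) (v : ℝ) :
    MeasurableSet[sig (block p q)] (CrossBad p q a b v) := by
  have : CrossBad p q a b v = ⋃ x : ℤ, ⋃ y : ℤ,
      {t | (a ≤ x ∧ x < b) ∧ True ∧ Cr (block p q) (p, x) (q, y) v t} := by
    ext t; simp [CrossBad]
  rw [this]
  refine MeasurableSet.iUnion fun x => MeasurableSet.iUnion fun y => ?_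
  exact measurableSet_and_const _ _ (measurableSet_Cr _ _ _ _)

lemma CrossBad_shift (p q a b : ℤ) (v : ℝ) (z : ℤ × ℤ) :
    shift z ⁻¹' (CrossBad p q a b v) = CrossBad (p + z.1) (q + z.1) (a + z.2) (b + z.2) v := by
  ext t
  obtain ⟨z1, z2⟩ := z
  simp only [Set.mem_preimage, CrossBad, Set.mem_ofPred_eq]
  constructor
  · rintro ⟨x, y, h1, h3⟩
    refine ⟨x + z2, y + z2, ⟨by omega, by omega⟩, ?_⟩
    exact (Cr_shift (z1, z2) (mem_block_shift (z1, z2) p q) (p, x) (q, y) v t).1 h3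
  · rintro ⟨x, y, h1, h3⟩
    refine ⟨x - z2, y - z2, ⟨by omega, by omega⟩, ?_⟩
    refine (Cr_shift (z1, z2) (mem_block_shift (z1, z2) p q) (p, x - z2) (q, y - z2) v t).2 ?_
    have e1 : ((p, x - z2) + (z1, z2) : ℤ × ℤ) = (p + z1, x) := by ext <;> simp
    have e2 : ((q, y - z2) + (z1, z2) : ℤ × ℤ) = (q + z1, y) := by ext <;> simp
    rw [e1, e2]
    exact h3

lemma prob_CrossBad_shift (p q a b : ℤ) (v : ℝ) (z : ℤ × ℤ) :
    (iidLaw G).real (CrossBad (p + z.1) (q + z.1) (a + z.2) (b + z.2) v) =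
      (iidLaw G).real (CrossBad p q a b v) := by
  rw [← CrossBad_shift]
  simp only [Measure.real]
  rw [(A.mp_shift G z).measure_preimage
    (sig_le _ _ (measurableSet_CrossBad p q a b v)).nullMeasurableSet]

omit [IsProbabilityMeasure G] in
lemma SkelGe_mono {F : ℕ → ℤ → Set Environment} {M : ℕ} {V V' K K' : ℝ} (hV : V ≤ V')
    (hK : K' ≤ K) : SkelGe F M V K ⊆ SkelGe F M V' K' := by
  rintro t ⟨r, h1, h2, h3⟩
  exact ⟨r, h1, h2.trans hV, hK.trans h3⟩

omit [IsProbabilityMeasure G] in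
lemma real_mono_ae {E F : Set Environment} [IsFiniteMeasure (iidLaw G)]
    (h : ∀ᵐ t ∂(iidLaw G), t ∈ E → t ∈ F) :
    (iidLaw G).real E ≤ (iidLaw G).real F :=
  ENNReal.toReal_mono (measure_ne_top _ _) (measure_mono_ae h)

/-- crossings of tall blocks are rarely cheap -/
def BlockRare (G : Measure ℝ) (m : ℝ) : Prop :=
  ∀ ε > 0, ∀ p > 0, ∃ L : ℕ, 1 ≤ L ∧ (iidLaw G).real (CrossBad 0 L 0 L ((m - ε) * L)) ≤ p

set_option maxHeartbeats 1000000 in
/-- **Exponential lower tail of point-to-line passage times.** -/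
theorem ld_line (h0 : G (Set.Iio 0) = 0) (hz : G {0} = 0) {m : ℝ} (hm : 0 < m)
    (hB : BlockRare G m) {ε : ℝ} (hε : 0 < ε) :
    ∃ c > 0, ∃ C : ℝ, 0 < C ∧ ∀ k : ℕ,
      (iidLaw G).real {t | ∃ y : ℤ, passageTime t (0, 0) (k, y) ≤ (m - ε) * k} ≤
        C * Real.exp (-(c * k)) := by
  -- reduction to small ε
  wlog hεm : ε ≤ m / 2 generalizing ε with Hw
  · obtain ⟨c, hc, C, hC, h⟩ := Hw (half_pos hm) le_rfl
    refine ⟨c, hc, C, hC, fun k => ?_⟩
    refine le_trans (measureReal_mono ?_ (measure_ne_top _ _)) (h k)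
    rintro t ⟨y, hy⟩
    refine ⟨y, hy.trans ?_⟩
    have : (0 : ℝ) ≤ k := Nat.cast_nonneg k
    nlinarith
  obtain ⟨c0, hc0, hBad⟩ := K.prob_Bad_le (G := G) h0 hz
  obtain ⟨A0, hA⟩ := exists_nat_ge (m / c0 + 1)
  have hA1 : (1 : ℝ) ≤ A0 := by
    have : 0 ≤ m / c0 := by positivity
    linarith
  have hA2 : m ≤ c0 * A0 := by
    have : m / c0 ≤ A0 := by linarith
    rw [div_le_iff₀ hc0] at this
    linarith
  have hA0 : (0 : ℝ) < A0 := by linarith
  set δ : ℝ := ε / (8 * A0) with hδ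
  have hδ0 : 0 < δ := by positivity
  set K1 : ℝ := (1 + Real.exp (-1)) / (1 - Real.exp (-1)) with hK1
  have he1 : Real.exp (-1) < 1 := by rw [Real.exp_lt_one_iff]; norm_num
  have hK1p : 0 < K1 := by
    rw [hK1]; exact div_pos (by positivity) (by linarith)
  set η : ℝ := ε / (2 * m) with hη
  have hη0 : 0 < η := by positivity
  set V0 : ℝ := 2 * m / δ + 1 with hV0
  set θ : ℝ := (V0 + |Real.log K1| + Real.log 2 + 1) / η with hθ
  have hlog2 : 0 < Real.log 2 := Real.log_pos (by norm_num)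
  have hV0p : 0 < V0 := by positivity
  have hθ0 : 0 < θ := by positivity
  have hθη : θ * η = V0 + |Real.log K1| + Real.log 2 + 1 := by rw [hθ]; field_simp
  obtain ⟨L, hL, hLp⟩ := hB (ε / 4) (by positivity) (Real.exp (-θ)) (Real.exp_pos _)
  have hLR : (1 : ℝ) ≤ L := by exact_mod_cast hL
  set v : ℝ := (m - ε / 4) * L with hv
  have hv0 : 0 < v := by
    have : 0 < m - ε / 4 := by linarith
    positivity
  set F : ℕ → ℤ → Set Environment := fun k r =>
    CrossBad (k * L) ((k + 1 : ℕ) * L) (r * L) ((r + 1) * L) v with hF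
  have hFp : ∀ k r, (iidLaw G).real (F k r) ≤ Real.exp (-θ) := by
    intro k r
    have h1 := prob_CrossBad_shift G 0 L 0 L v (k * L, r * L)
    have e1 : (L : ℤ) + k * L = ((k + 1 : ℕ) : ℤ) * L := by push_cast; ring
    have e2 : (L : ℤ) + r * L = (r + 1) * L := by ring
    simp only [zero_add, e1, e2] at h1
    rw [hF]
    simp only
    rw [h1]
    exact hLp
  have hFm : ∀ (k : ℕ) (r : ℤ),
      MeasurableSet[sig (block ((k : ℤ) * L) ((k + 1 : ℕ) * L))] (F k r) := fun k r =>
    measurableSet_CrossBad _ _ _ _ _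
  have hdis : ∀ M : ℕ, Disjoint (⋃ j ∈ Finset.range M, block ((j : ℤ) * L) ((j + 1 : ℕ) * L))
      (block ((M : ℤ) * L) ((M + 1 : ℕ) * L)) := by
    intro M
    rw [Set.disjoint_iUnion₂_left]
    intro j hj
    refine A.block_disjoint ?_
    have h1 : j + 1 ≤ M := Finset.mem_range.1 hj
    have h2 : ((j + 1 : ℕ) : ℤ) ≤ M := by exact_mod_cast h1
    exact mul_le_mul_of_nonneg_right h2 (by positivity)
  -- probability of the skeleton event
  have h30 : 0 ≤ 1 + (Real.exp θ - 1) * Real.exp (-θ) := by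
    have : 0 ≤ Real.exp θ - 1 := by linarith [Real.one_le_exp hθ0.le]
    positivity
  have hskel : ∀ M : ℕ, (iidLaw G).real (SkelGe F M (V0 * M) (η * M - 1)) ≤
      Real.exp θ * Real.exp (-(M : ℝ)) := by
    intro M
    refine (prob_skel_ge G hFm hdis hθ0.le hFp M one_pos).trans ?_
    rw [← hK1]
    have h1 : (1 + (Real.exp θ - 1) * Real.exp (-θ)) ^ M ≤ Real.exp (Real.log 2 * M) := by
      have h2 : 1 + (Real.exp θ - 1) * Real.exp (-θ) ≤ 2 := by
        have : (Real.exp θ - 1) * Real.exp (-θ) = 1 - Real.exp (-θ) := by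
          rw [sub_mul, ← Real.exp_add]; simp
        rw [this]
        linarith [Real.exp_pos (-θ)]
      refine (pow_le_pow_left₀ h30 h2 M).trans (le_of_eq ?_)
      rw [mul_comm, Real.exp_nat_mul, Real.exp_log (by norm_num)]
    have h2 : K1 ^ M ≤ Real.exp (|Real.log K1| * M) := by
      have h3 : K1 ≤ Real.exp |Real.log K1| := by
        conv_lhs => rw [← Real.exp_log hK1p]
        exact Real.exp_le_exp.2 (le_abs_self _)
      refine (pow_le_pow_left₀ hK1p.le h3 M).trans (le_of_eq ?_)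
      rw [mul_comm, Real.exp_nat_mul]
    calc Real.exp (1 * (V0 * M)) * K1 ^ M *
        (Real.exp (-(θ * (η * M - 1))) * (1 + (Real.exp θ - 1) * Real.exp (-θ)) ^ M)
        ≤ Real.exp (1 * (V0 * M)) * Real.exp (|Real.log K1| * M) *
        (Real.exp (-(θ * (η * M - 1))) * Real.exp (Real.log 2 * M)) := by
          have := pow_nonneg h30 M
          gcongr
      _ = Real.exp θ * Real.exp (-(M : ℝ)) := by
          rw [← Real.exp_add, ← Real.exp_add, ← Real.exp_add, ← Real.exp_add]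
          congr 1
          have : θ * (η * M - 1) = (θ * η) * M - θ := by ring
          rw [this, hθη]
          ring
  refine ⟨min (1 / L) (Real.log 2), lt_min (by positivity) hlog2, Real.exp (θ + 1) + 1,
    by positivity, fun k => ?_⟩
  have hk0 : (0 : ℝ) ≤ k := Nat.cast_nonneg k
  set c : ℝ := min (1 / L) (Real.log 2) with hc
  have hcL : c * k ≤ k / L := by
    have := mul_le_mul_of_nonneg_right (min_le_left (1 / (L : ℝ)) (Real.log 2)) hk0
    rw [one_div_mul_eq_div] at this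
    exact this
  have hc2 : c * k ≤ Real.log 2 * k :=
    mul_le_mul_of_nonneg_right (min_le_right _ _) hk0
  set M : ℕ := k / L with hM
  have hMk1 : M * L ≤ k := Nat.div_mul_le_self k L
  have hMk2 : k < (M + 1) * L := by
    have := Nat.lt_mul_div_succ k hL
    rw [mul_comm]; exact this
  have hMk1' : (M : ℝ) * L ≤ k := by exact_mod_cast hMk1
  have hMk2' : (k : ℝ) ≤ (M + 1) * L := by exact_mod_cast hMk2.le
  have hML : (k : ℝ) / L ≤ M + 1 := by rw [div_le_iff₀ (by linarith)]; exact hMk2'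
  rcases Nat.eq_zero_or_pos M with hM0 | hM0
  · refine (measureReal_le_one).trans ?_
    have h1 : (k : ℝ) / L ≤ 1 := by rw [hM0] at hML; simpa using hML
    have h2 : Real.exp (-(1 : ℝ)) ≤ Real.exp (-(c * k)) := Real.exp_le_exp.2 (by linarith)
    have h3 : (1 : ℝ) ≤ Real.exp (θ + 1) * Real.exp (-1) := by
      rw [← Real.exp_add]
      exact Real.one_le_exp (by linarith)
    have h4 : Real.exp (θ + 1) * Real.exp (-1) ≤ Real.exp (θ + 1) * Real.exp (-(c * k)) :=
      mul_le_mul_of_nonneg_left h2 (Real.exp_pos _).le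
    have h5 := Real.exp_pos (-(c * k))
    linarith
  have hMR : (1 : ℝ) ≤ M := by exact_mod_cast hM0
  have hkpos : (0 : ℝ) < k := by nlinarith
  have hsub : ∀ᵐ t ∂(iidLaw G),
      t ∈ {t | ∃ y : ℤ, passageTime t (0, 0) (k, y) ≤ (m - ε) * k} →
      t ∈ SkelGe F M (V0 * M) (η * M - 1) ∪ K.Bad c0 (A0 * k) (0, 0) := by
    filter_upwards [K.ae_Nn (G := G) h0] with t hNn
    rintro ⟨y, hy⟩
    by_cases hbad : t ∈ K.Bad c0 (A0 * k) (0, 0)
    · exact Or.inr hbad
    left
    have hlt : passageTime t (0, 0) (k, y) < (m - 7 / 8 * ε) * k := by nlinarith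
    obtain ⟨w, hw⟩ := K.exists_walk_lt t _ _ hlt
    have hw' := (K.walkCost_bypass_le hNn w).trans_lt hw
    have hlen : w.bypass.length < A0 * k := by
      by_contra hcon
      push Not at hcon
      have h1 := K.cost_ge_of_not_Bad hNn hbad w.bypass (w.bypass_isPath.isTrail.edges_nodup) hcon
      push_cast at h1
      have h2 : m * k ≤ c0 * (A0 * k) := by
        rw [← mul_assoc]; exact mul_le_mul_of_nonneg_right hA2 hk0
      nlinarith
    have hlen' : (w.bypass.length : ℝ) ≤ A0 * k := by exact_mod_cast hlen.le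
    have hBb : walkCost t w.bypass + δ * w.bypass.length ≤ (m - 3 / 4 * ε) * k := by
      have h1 : δ * w.bypass.length ≤ δ * (A0 * k) := mul_le_mul_of_nonneg_left hlen' hδ0.le
      have h2 : δ * (A0 * k) = ε / 8 * k := by rw [hδ]; field_simp
      nlinarith
    have h1 := skel_of_walk hNn hδ0 hv0 hL w.bypass (M := M)
      (by show (M : ℤ) * L ≤ (k : ℤ); exact_mod_cast hMk1) hBb
    refine SkelGe_mono ?_ ?_ h1
    · have h2 : (m - 3 / 4 * ε) * k / (δ * L) ≤ 2 * m / δ * M := by
        rw [div_le_iff₀ (by positivity)]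
        have h3 : 2 * m / δ * M * (δ * L) = 2 * m * (M * L) := by field_simp
        rw [h3]
        have h4 : (M + 1 : ℝ) * L ≤ 2 * (M * L) := by nlinarith
        nlinarith
      rw [hV0]
      linarith
    · -- M - B / v ≥ η M - 1
      have h2 : (m - 3 / 4 * ε) * k / v ≤ (1 - η) * (M + 1) := by
        rw [div_le_iff₀ hv0]
        have h3 : m - 3 / 4 * ε ≤ (1 - η) * (m - ε / 4) := by
          have h4 : η * m = ε / 2 := by rw [hη]; field_simp
          nlinarith
        have h4 : 0 ≤ m - 3 / 4 * ε := by linarith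
        calc (m - 3 / 4 * ε) * k ≤ (m - 3 / 4 * ε) * ((M + 1) * L) :=
              mul_le_mul_of_nonneg_left hMk2' h4
          _ ≤ ((1 - η) * (m - ε / 4)) * ((M + 1) * L) :=
              mul_le_mul_of_nonneg_right h3 (by positivity)
          _ = (1 - η) * (M + 1) * v := by rw [hv]; ring
      have h3 : (1 - η) * (M + 1 : ℝ) ≤ M - (η * M - 1) := by nlinarith
      linarith
  have h1 := real_mono_ae G hsub
  have h2 := (h1.trans (measureReal_union_le _ _)).trans
    (add_le_add (hskel M) (hBad (A0 * k) (0, 0)))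
  refine h2.trans ?_
  have h3 : Real.exp θ * Real.exp (-(M : ℝ)) ≤ Real.exp (θ + 1) * Real.exp (-(c * k)) := by
    rw [← Real.exp_add, ← Real.exp_add, Real.exp_le_exp]
    linarith
  have h4 : (1 / 2 : ℝ) ^ (A0 * k) ≤ Real.exp (-(c * k)) := by
    have h5 : (1 / 2 : ℝ) ^ (A0 * k) ≤ (1 / 2) ^ k := by
      refine pow_le_pow_of_le_one (by norm_num) (by norm_num) ?_
      have : 1 ≤ A0 := by exact_mod_cast hA1
      exact Nat.le_mul_of_pos_left k this
    have h6 : (1 / 2 : ℝ) ^ k = Real.exp (-(Real.log 2 * k)) := by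
      rw [Real.exp_neg, mul_comm, Real.exp_nat_mul, Real.exp_log (by norm_num), one_div, inv_pow]
    rw [h6] at h5
    refine h5.trans (Real.exp_le_exp.2 (by linarith))
  rw [add_mul, one_mul]
  exact add_le_add h3 h4

end Crest.Agent.R151.W
end

-- ▼ part R151/W5b

/-!
# R151, W5b: lower tail of column passage times from the shape theorem
-/

set_option autoImplicit false

open MeasureTheory ProbabilityTheory Filter Topology
open Crest.ProbabilityR.FirstPassage
open Crest.Agent.R151.A (shift eShift block sig eX)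
open Crest.Agent.R151.K (Nn toR)
open Crest.Agent.R151.X

namespace Crest.Agent.R151.W

variable {G : Measure ℝ} [IsProbabilityMeasure G]

/-- tall blocks are rarely cheap, from the shape theorem in probability -/
theorem blockRare_of_shape (h0 : G (Set.Iio 0) = 0) (hz : G {0} = 0) {μ : ℝ × ℝ → ℝ} {m : ℝ}
    (hlow : ∀ L y : ℤ, 0 ≤ L → m * L ≤ μ (toR (L, y)))
    (hshape : ∀ ε > 0, ∃ n0 : ℕ, ∀ n ≥ n0, (iidLaw G).real {t | ε * n ≤ K.dev μ n t} ≤ ε) :
    BlockRare G m := by
  intro ε hε p hp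
  obtain ⟨c0, hc0, hBad⟩ := K.prob_Bad_le (G := G) h0 hz
  obtain ⟨D, hD⟩ := exists_nat_ge (|m| / c0 + 1)
  have hD1 : (1 : ℝ) ≤ D := by
    have : 0 ≤ |m| / c0 := by positivity
    linarith
  have hD1' : 1 ≤ D := by exact_mod_cast hD1
  have hD2 : m ≤ c0 * D := by
    have : |m| / c0 ≤ D := by linarith
    rw [div_le_iff₀ hc0] at this
    linarith [le_abs_self m]
  set ε' : ℝ := min (ε / (D + 2)) (p / 2) with hε'
  have hε'0 : 0 < ε' := lt_min (by positivity) (by positivity)
  obtain ⟨n0, hn0⟩ := hshape ε' hε'0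
  -- L * 2^{-L} small
  have hlim : Tendsto (fun L : ℕ => (L : ℝ) * (1 / 2) ^ L) atTop (𝓝 0) :=
    tendsto_self_mul_const_pow_of_lt_one (by norm_num) (by norm_num)
  obtain ⟨L0, hL0⟩ := eventually_atTop.1 (hlim.eventually_lt_const (show 0 < p / 2 by positivity))
  set L : ℕ := max (max L0 n0) 1 with hL
  have hL1 : 1 ≤ L := le_max_right _ _
  have hLL0 : L0 ≤ L := (le_max_left _ _).trans (le_max_left _ _)
  have hLn0 : n0 ≤ (D + 2) * L := by
    have h1 : n0 ≤ L := (le_max_right _ _).trans (le_max_left _ _)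
    nlinarith
  have hLR : (1 : ℝ) ≤ L := by exact_mod_cast hL1
  refine ⟨L, hL1, ?_⟩
  have hsub : ∀ᵐ t ∂(iidLaw G), t ∈ CrossBad 0 L 0 L ((m - ε) * L) →
      t ∈ {t | ε' * ((D + 2) * L : ℕ) ≤ K.dev μ ((D + 2) * L) t} ∪
        ⋃ x ∈ Finset.range L, K.Bad c0 (D * L) (0, (x : ℤ)) := by
    filter_upwards [K.ae_Nn (G := G) h0] with t hNn
    rintro ⟨x, y, ⟨hx1, hx2⟩, hcr⟩
    have hpt := le_of_Cr hNn hcr
    by_cases hbad : t ∈ ⋃ x ∈ Finset.range L, K.Bad c0 (D * L) (0, (x : ℤ))
    · exact Or.inr hbad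
    left
    have hnb : t ∉ K.Bad c0 (D * L) (0, x) := by
      intro hcon
      apply hbad
      simp only [Set.mem_iUnion]
      refine ⟨x.toNat, Finset.mem_range.2 (by omega), ?_⟩
      rw [Int.toNat_of_nonneg hx1]
      exact hcon
    have hdist : (y - x).natAbs < D * L := by
      by_contra hcon
      push Not at hcon
      have h1 := K.pt_ge_of_not_Bad hNn hnb (n := D * L) (x := (0, x)) (y := ((L : ℤ), y))
        (hcon.trans (by simp only [K.n1, Prod.mk_sub_mk]; omega))
      push_cast at h1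
      have h2 : m * L ≤ c0 * (D * L) := by
        rw [← mul_assoc]; exact mul_le_mul_of_nonneg_right hD2 (by positivity)
      nlinarith
    have hDL : (D : ℤ) * L = ((D * L : ℕ) : ℤ) := by push_cast; ring
    have hbx : ((0 : ℤ), x) ∈ K.box ((D + 2) * L) := by
      rw [K.mem_box]
      have : (((D + 2) * L : ℕ) : ℤ) = (D : ℤ) * L + 2 * L := by push_cast; ring
      rw [this, hDL]
      simp only
      omega
    have hby : ((L : ℤ), y) ∈ K.box ((D + 2) * L) := by
      rw [K.mem_box]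
      have : (((D + 2) * L : ℕ) : ℤ) = (D : ℤ) * L + 2 * L := by push_cast; ring
      rw [this, hDL]
      simp only
      omega
    have h1 := K.le_dev μ t hbx hby
    have h2 := hlow L (y - x) (by positivity)
    have h3 : (((L : ℤ), y) - ((0 : ℤ), x) : ℤ × ℤ) = ((L : ℤ), y - x) := by
      simp
    rw [h3] at h1
    have h4 := (abs_le.1 h1).1
    show ε' * ((D + 2) * L : ℕ) ≤ K.dev μ ((D + 2) * L) t
    have h5 : ε' * (((D + 2) * L : ℕ) : ℝ) ≤ ε * L := by
      push_cast
      have h6 : ε' ≤ ε / (D + 2) := min_le_left _ _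
      have h7 : ε' * ((D + 2) * L) ≤ ε / (D + 2) * ((D + 2) * L) :=
        mul_le_mul_of_nonneg_right h6 (by positivity)
      have h8 : ε / (D + 2) * ((D + 2) * L) = ε * L := by field_simp
      linarith
    push_cast at h2 h5 ⊢
    linarith
  refine (real_mono_ae G hsub).trans ((measureReal_union_le _ _).trans ?_)
  have h1 : (iidLaw G).real {t | ε' * ((D + 2) * L : ℕ) ≤ K.dev μ ((D + 2) * L) t} ≤ p / 2 :=
    (hn0 _ hLn0).trans (min_le_right _ _)
  have h2 : (iidLaw G).real (⋃ x ∈ Finset.range L, K.Bad c0 (D * L) (0, (x : ℤ))) ≤ p / 2 := by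
    refine (measureReal_biUnion_finset_le _ _).trans ?_
    refine (Finset.sum_le_sum fun (x : ℕ) _ => hBad (D * L) ((0 : ℤ), (x : ℤ))).trans ?_
    rw [Finset.sum_const, Finset.card_range, nsmul_eq_mul]
    refine le_trans ?_ (hL0 L hLL0).le
    refine mul_le_mul_of_nonneg_left ?_ (by positivity)
    exact pow_le_pow_of_le_one (by norm_num) (by norm_num) (Nat.le_mul_of_pos_left L hD1')
  linarith

/-- invariance of the distribution of passage times under lattice automorphisms -/
lemma real_pt_iso (φ : squareLattice ≃g squareLattice) (x y : ℤ × ℤ) (a : ℝ) :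
    (iidLaw G).real {t | passageTime t (φ x) (φ y) ≤ a} =
      (iidLaw G).real {t | passageTime t x y ≤ a} := by
  have hm : MeasurableSet {t : Environment | passageTime t x y ≤ a} :=
    measurableSet_le (K.measurable_pt x y) measurable_const
  have h := (K.mp_act (G := G) φ).measure_preimage hm.nullMeasurableSet
  have e : {t : Environment | passageTime t (φ x) (φ y) ≤ a} =
      K.act φ ⁻¹' {t | passageTime t x y ≤ a} := by
    ext t
    simp only [Set.mem_preimage, Set.mem_ofPred_eq, K.pt_act]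
  simp only [Measure.real]
  rw [e, h]

/-- lower tail of column passage times, abstract form -/
theorem col_of_blockRare (h0 : G (Set.Iio 0) = 0) (hz : G {0} = 0) {m : ℝ} (hm : 0 < m)
    (hB : BlockRare G m) {ε : ℝ} (hε : 0 < ε) :
    ∃ c > 0, ∃ C : ℝ, 0 < C ∧ ∀ a z z' : ℤ,
      (iidLaw G).real {t | passageTime t (a, z) (a, z') ≤ (m - ε) * |((z' - z : ℤ) : ℝ)|} ≤
        C * Real.exp (-(c * |((z' - z : ℤ) : ℝ)|)) := by
  obtain ⟨c, hc, C, hC, h⟩ := ld_line G h0 hz hm hB hε
  refine ⟨c, hc, C, hC, ?_⟩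
  -- the case `z ≤ z'`
  have key : ∀ (a z : ℤ) (k : ℕ), (iidLaw G).real
      {t | passageTime t (a, z) (a, z + k) ≤ (m - ε) * k} ≤ C * Real.exp (-(c * k)) := by
    intro a z k
    have h1 := real_pt_iso (G := G) (K.tr (a, z)) (0, 0) (0, (k : ℤ)) ((m - ε) * k)
    have h2 := real_pt_iso (G := G) K.sw (0, 0) ((k : ℤ), 0) ((m - ε) * k)
    simp only [K.tr_apply, K.sw_apply, Prod.mk_add_mk, zero_add] at h1 h2
    rw [add_comm z (k : ℤ), h1, h2]
    refine le_trans (measureReal_mono ?_ (measure_ne_top _ _)) (h k)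
    intro t ht
    exact ⟨0, ht⟩
  intro a z z'
  rcases le_total z z' with hzz | hzz
  · have h1 := key a z (z' - z).toNat
    have h2 : (((z' - z).toNat : ℕ) : ℤ) = z' - z := Int.toNat_of_nonneg (by omega)
    have h3 : (((z' - z).toNat : ℕ) : ℝ) = |((z' - z : ℤ) : ℝ)| := by
      rw [abs_of_nonneg (by exact_mod_cast (by omega : (0 : ℤ) ≤ z' - z))]
      exact_mod_cast h2
    rw [h2, h3, add_sub_cancel] at h1
    exact h1
  · have h1 := key a z' (z - z').toNat
    have h2 : (((z - z').toNat : ℕ) : ℤ) = z - z' := Int.toNat_of_nonneg (by omega)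
    have h3 : (((z - z').toNat : ℕ) : ℝ) = |((z' - z : ℤ) : ℝ)| := by
      rw [show (z' - z : ℤ) = -(z - z') by ring, Int.cast_neg, abs_neg,
        abs_of_nonneg (by exact_mod_cast (by omega : (0 : ℤ) ≤ z - z'))]
      exact_mod_cast h2
    rw [h2, h3, add_sub_cancel] at h1
    refine le_trans ?_ h1
    refine real_mono_ae G ?_
    filter_upwards [K.ae_Nn (G := G) h0] with t hNn ht
    have ht' : passageTime t (a, z) (a, z') ≤ (m - ε) * |((z' - z : ℤ) : ℝ)| := ht
    show passageTime t (a, z') (a, z) ≤ _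
    rwa [K.pt_symm hNn]

/-- lower tail of point-to-line passage times in the four lattice directions, abstract form -/
theorem line_of_blockRare (h0 : G (Set.Iio 0) = 0) (hz : G {0} = 0) {m : ℝ} (hm : 0 < m)
    (hB : BlockRare G m) {ε : ℝ} (hε : 0 < ε) :
    ∃ c > 0, ∃ C : ℝ, 0 < C ∧ ∀ (a b : ℤ) (k : ℕ),
      (iidLaw G).real {t | ∃ y : ℤ, passageTime t (a, b) (a + k, y) ≤ (m - ε) * k} ≤
        C * Real.exp (-(c * k)) ∧
      (iidLaw G).real {t | ∃ y : ℤ, passageTime t (a, b) (a - k, y) ≤ (m - ε) * k} ≤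
        C * Real.exp (-(c * k)) ∧
      (iidLaw G).real {t | ∃ y : ℤ, passageTime t (a, b) (y, b + k) ≤ (m - ε) * k} ≤
        C * Real.exp (-(c * k)) ∧
      (iidLaw G).real {t | ∃ y : ℤ, passageTime t (a, b) (y, b - k) ≤ (m - ε) * k} ≤
        C * Real.exp (-(c * k)) := by
  obtain ⟨c, hc, C, hC, h⟩ := ld_line G h0 hz hm hB hε
  refine ⟨c, hc, C, hC, fun a b k => ?_⟩
  set v : ℝ := (m - ε) * k with hv
  have hmeas : ∀ (u : ℤ × ℤ) (f : ℤ → ℤ × ℤ),
      MeasurableSet {t : Environment | ∃ y : ℤ, passageTime t u (f y) ≤ v} := by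
    intro u f
    have : {t : Environment | ∃ y : ℤ, passageTime t u (f y) ≤ v} =
        ⋃ y : ℤ, {t | passageTime t u (f y) ≤ v} := by ext t; simp
    rw [this]
    exact MeasurableSet.iUnion fun y => measurableSet_le (K.measurable_pt _ _) measurable_const
  have iso : ∀ (φ : squareLattice ≃g squareLattice) (u : ℤ × ℤ) (f : ℤ → ℤ × ℤ),
      (iidLaw G).real {t : Environment | ∃ y : ℤ, passageTime t (φ u) (φ (f y)) ≤ v} =
      (iidLaw G).real {t : Environment | ∃ y : ℤ, passageTime t u (f y) ≤ v} := by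
    intro φ u f
    have h1 := (K.mp_act (G := G) φ).measure_preimage (hmeas u f).nullMeasurableSet
    have e : {t : Environment | ∃ y : ℤ, passageTime t (φ u) (φ (f y)) ≤ v} =
        K.act φ ⁻¹' {t : Environment | ∃ y : ℤ, passageTime t u (f y) ≤ v} := by
      ext t
      simp only [Set.mem_preimage, Set.mem_ofPred_eq, K.pt_act]
    simp only [Measure.real]
    rw [e, h1]
  have h1 := h k
  rw [← hv] at h1
  -- translation
  have tr : ∀ (f : ℤ → ℤ × ℤ) (g : ℤ → ℤ × ℤ),
      (∀ y, ∃ y', g y = f y' + (a, b)) →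
      (iidLaw G).real {t : Environment | ∃ y : ℤ, passageTime t (0, 0) (f y) ≤ v} ≤
        C * Real.exp (-(c * k)) →
      (iidLaw G).real {t : Environment | ∃ y : ℤ, passageTime t (a, b) (g y) ≤ v} ≤
        C * Real.exp (-(c * k)) := by
    intro f g hg hf
    rw [← iso (K.tr (a, b)) (0, 0) f] at hf
    refine le_trans (measureReal_mono ?_ (measure_ne_top _ _)) hf
    rintro t ⟨y, hy⟩
    obtain ⟨y', hy'⟩ := hg y
    refine ⟨y', ?_⟩
    simp only [K.tr_apply]
    rw [← hy']
    have : ((0, 0) + (a, b) : ℤ × ℤ) = (a, b) := by simp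
    rw [this]
    exact hy
  have h2 : (iidLaw G).real {t : Environment | ∃ y : ℤ, passageTime t (0, 0) (-(k : ℤ), y) ≤ v} ≤
      C * Real.exp (-(c * k)) := by
    have := iso K.ng (0, 0) (fun y => ((k : ℤ), y))
    simp only [K.ng_apply, neg_zero] at this
    rw [this]; exact h1
  have sw : ∀ j : ℤ, (iidLaw G).real {t : Environment | ∃ y : ℤ,
      passageTime t (0, 0) (j, y) ≤ v} ≤ C * Real.exp (-(c * k)) →
      (iidLaw G).real {t : Environment | ∃ y : ℤ, passageTime t (0, 0) (y, j) ≤ v} ≤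
      C * Real.exp (-(c * k)) := by
    intro j hj
    have := iso K.sw (0, 0) (fun y => (j, y))
    simp only [K.sw_apply] at this
    rw [this]; exact hj
  refine ⟨tr (fun y => ((k : ℤ), y)) _ (fun y => ⟨y - b, ?_⟩) h1,
    tr (fun y => (-(k : ℤ), y)) _ (fun y => ⟨y - b, ?_⟩) h2,
    tr (fun y => (y, (k : ℤ))) _ (fun y => ⟨y - a, ?_⟩) (sw _ h1),
    tr (fun y => (y, -(k : ℤ))) _ (fun y => ⟨y - a, ?_⟩) (sw _ h2)⟩ <;>
  · ext <;> simp <;> ring

/-- polynomial form of the lower tail (684's field `col`) -/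
theorem col_poly_of (h0 : G (Set.Iio 0) = 0) (hz : G {0} = 0) {m v : ℝ} (hm : 0 < m)
    (hB : BlockRare G m) (hv : v < m) :
    ∃ C : ℝ, 0 ≤ C ∧ ∀ k : ℕ, 1 ≤ k →
      (iidLaw G).real {t | passageTime t (0, 0) (0, (k : ℤ)) ≤ v * k} ≤ C / (k : ℝ) ^ 6 := by
  obtain ⟨c, hc, C, hC, h⟩ := line_of_blockRare (G := G) h0 hz hm hB (ε := m - v) (by linarith)
  refine ⟨C * (Nat.factorial 6 / c ^ 6), by positivity, fun k hk => ?_⟩
  have hkR : (0 : ℝ) < k := by exact_mod_cast hk
  have h1 := (h 0 0 k).2.2.1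
  have h2 : (iidLaw G).real {t | passageTime t (0, 0) (0, (k : ℤ)) ≤ v * k} ≤
      C * Real.exp (-(c * k)) := by
    refine le_trans (measureReal_mono ?_ (measure_ne_top _ _)) h1
    intro t ht
    refine ⟨0, ?_⟩
    have e : (0 : ℤ) + (k : ℤ) = k := zero_add _
    rw [e, sub_sub_cancel]
    exact ht
  refine h2.trans ?_
  rw [mul_div_assoc]
  refine mul_le_mul_of_nonneg_left ?_ hC.le
  have h3 := Real.pow_div_factorial_le_exp (x := c * k) (by positivity) 6
  rw [Real.exp_neg, div_div, inv_eq_one_div, div_le_div_iff₀ (Real.exp_pos _) (by positivity),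
    one_mul, ← mul_pow]
  have h4 : (0 : ℝ) < (Nat.factorial 6 : ℝ) := by positivity
  rw [div_le_iff₀ h4] at h3
  linarith


/-! ## laws with an exponential moment -/

section exp_moment

variable {μ : ℝ × ℝ → ℝ} {lam : ℝ}

lemma mu_low (h0 : G (Set.Iio 0) = 0) (h2 : Integrable (fun x : ℝ => x ^ 2) G)
    (hμ : K.IsTC G μ) (L y : ℤ) (hL : 0 ≤ L) : μ (0, 1) * L ≤ μ (toR (L, y)) := by
  have hLR : (0 : ℝ) ≤ (L : ℝ) := by exact_mod_cast hL
  have h1 : μ (((L : ℝ), (y : ℝ)) + ((L : ℝ), -(y : ℝ))) ≤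
      μ ((L : ℝ), (y : ℝ)) + μ ((L : ℝ), -(y : ℝ)) := K.mu_add_le h0 h2 hμ _ _
  have h3 : μ ((L : ℝ), -(y : ℝ)) = μ ((L : ℝ), (y : ℝ)) := by
    have e1 := K.mu_neg h0 h2 hμ ((L : ℝ), -(y : ℝ))
    have e2 := K.mu_neg_fst h0 h2 hμ ((L : ℝ), (y : ℝ))
    simp only [Prod.neg_mk, neg_neg] at e1 e2
    rw [← e1, e2]
  have h4 : (((L : ℝ), (y : ℝ)) + ((L : ℝ), -(y : ℝ)) : ℝ × ℝ) = (2 * (L : ℝ)) • ((1 : ℝ), (0 : ℝ)) := by
    ext <;> simp; ring
  rw [h3, h4, K.mu_smul h0 h2 hμ (by positivity)] at h1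
  have h5 : μ ((1 : ℝ), (0 : ℝ)) = μ (0, 1) := by
    have := K.mu_swap h0 h2 hμ (0, 1)
    exact this
  rw [h5] at h1
  show μ (0, 1) * L ≤ μ ((L : ℝ), (y : ℝ))
  linarith

theorem blockRare_of_isTC (h0 : G (Set.Iio 0) = 0) (hz : G {0} = 0) (hlam : 0 < lam)
    (hexp : Integrable (fun x => Real.exp (lam * x)) G) (hμ : K.IsTC G μ) :
    BlockRare G (μ (0, 1)) :=
  blockRare_of_shape h0 hz (mu_low h0 (K.integrable_sq h0 hlam hexp) hμ)
    fun _ hε => K.uniform_shape_prob h0 hlam hexp hμ hε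

lemma mu_pos (h0 : G (Set.Iio 0) = 0) (hz : G {0} = 0) (hlam : 0 < lam)
    (hexp : Integrable (fun x => Real.exp (lam * x)) G) (hμ : K.IsTC G μ) : 0 < μ (0, 1) := by
  obtain ⟨c, hc, h⟩ := K.exists_mu_ge h0 hz (K.integrable_sq h0 hlam hexp) hμ
  have := h (0, 1)
  simp only [K.l1] at this
  norm_num at this
  linarith

/-- **COL**: exponential lower tail of column passage times. -/
theorem col (h0 : G (Set.Iio 0) = 0) (hz : G {0} = 0) (hlam : 0 < lam)
    (hexp : Integrable (fun x => Real.exp (lam * x)) G) (hμ : K.IsTC G μ) {ε : ℝ} (hε : 0 < ε) :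
    ∃ c > 0, ∃ C : ℝ, 0 < C ∧ ∀ a z z' : ℤ,
      (iidLaw G).real {t | passageTime t (a, z) (a, z') ≤
        (μ (0, 1) - ε) * |((z' - z : ℤ) : ℝ)|} ≤
        C * Real.exp (-(c * |((z' - z : ℤ) : ℝ)|)) :=
  col_of_blockRare h0 hz (mu_pos h0 hz hlam hexp hμ) (blockRare_of_isTC h0 hz hlam hexp hμ) hε

/-- point-to-line version -/
theorem line (h0 : G (Set.Iio 0) = 0) (hz : G {0} = 0) (hlam : 0 < lam)
    (hexp : Integrable (fun x => Real.exp (lam * x)) G) (hμ : K.IsTC G μ) {ε : ℝ} (hε : 0 < ε) :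
    ∃ c > 0, ∃ C : ℝ, 0 < C ∧ ∀ k : ℕ,
      (iidLaw G).real {t | ∃ y : ℤ, passageTime t (0, 0) (k, y) ≤ (μ (0, 1) - ε) * k} ≤
        C * Real.exp (-(c * k)) :=
  ld_line G h0 hz (mu_pos h0 hz hlam hexp hμ) (blockRare_of_isTC h0 hz hlam hexp hμ) hε




end exp_moment

end Crest.Agent.R151.W
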