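import Mathlib
import Crest.Agent.R151.F2
import Crest.Agent.R151.Y635B

/-!
# R151, Y635C: compactness (deterministic layer)

* limits of sequences of paths along an ultrafilter (`exists_seq_lim`, `exists_seq_lim₂`);
* long geodesics from `x` give a ray (`exists_isRay_of_geo`), rays converge to rays;
* passage times in an increasing union of graphs;
* two-sided geodesics `IsBiRay`, joining two rays, long geodesics through a finite set give a
  two-sided geodesic.
-/

set_option autoImplicit false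

open Crest.ProbabilityR.FirstPassage
open scoped Classical
open Filter Topology

namespace Crest.Agent.R151.Y

open Crest.Agent.R151

variable {V : Type*} {H : SimpleGraph V} {t : Sym2 V → ℝ} {f : V → ℝ} {x y z : V}

theorem neighborSet_finite {H : SimpleGraph (ℤ × ℤ)} (hH : H ≤ squareLattice) (x : ℤ × ℤ) :
    (H.neighborSet x).Finite :=
  Set.Finite.subset (Set.finite_range _) (neighborSet_subset hH x)

section ulim

/-- Pointwise limit of functions with values in finite sets, along an ultrafilter. -/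
theorem exists_ulim {ι κ : Type*} (U : Ultrafilter ι) (a : ι → κ → V) (F : κ → Set V)
    (hF : ∀ k, (F k).Finite) (h : ∀ k, ∀ᶠ i in (U : Filter ι), a i k ∈ F k) :
    ∃ v : κ → V, ∀ k, v k ∈ F k ∧ ∀ᶠ i in (U : Filter ι), a i k = v k := by
  have key : ∀ k, ∃ y ∈ F k, ∀ᶠ i in (U : Filter ι), a i k = y := by
    intro k
    have h1 : ⋃ y ∈ F k, {i | a i k = y} ∈ U := by
      refine mem_of_superset (h k) ?_
      intro i hi
      simp only [Set.mem_iUnion]
      exact ⟨a i k, hi, rfl⟩
    rw [Ultrafilter.finite_biUnion_mem_iff (hF k)] at h1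
    obtain ⟨y, hy, hy'⟩ := h1
    exact ⟨y, hy, hy'⟩
  choose v hv using key
  exact ⟨v, hv⟩

/-- The set of vertices reached from `F` in at most `n` steps. -/
def stepSet (H : SimpleGraph V) (F : Set V) : ℕ → Set V
  | 0 => F
  | n + 1 => ⋃ x ∈ stepSet H F n, H.neighborSet x

theorem stepSet_finite (hlf : ∀ x, (H.neighborSet x).Finite) {F : Set V} (hF : F.Finite) (n : ℕ) :
    (stepSet H F n).Finite := by
  induction n with
  | zero => exact hF
  | succ n ih => exact Set.Finite.biUnion ih fun x _ => hlf x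

/-- Compactness for one-sided paths. -/
theorem exists_seq_lim {ι : Type*} (hlf : ∀ x, (H.neighborSet x).Finite) (U : Ultrafilter ι)
    (a : ι → ℕ → V) {F : Set V} (hF : F.Finite) (h0 : ∀ᶠ i in (U : Filter ι), a i 0 ∈ F)
    (hadj : ∀ k, ∀ᶠ i in (U : Filter ι), H.Adj (a i k) (a i (k + 1))) :
    ∃ v : ℕ → V, v 0 ∈ F ∧ (∀ k, H.Adj (v k) (v (k + 1))) ∧
      ∀ n, ∀ᶠ i in (U : Filter ι), ∀ k ≤ n, a i k = v k := by
  have hmem : ∀ k, ∀ᶠ i in (U : Filter ι), a i k ∈ stepSet H F k := by
    intro k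
    induction k with
    | zero => exact h0
    | succ k ih =>
      filter_upwards [ih, hadj k] with i hi hi'
      simp only [stepSet, Set.mem_iUnion]
      exact ⟨a i k, hi, hi'⟩
  obtain ⟨v, hv⟩ := exists_ulim U a (stepSet H F) (stepSet_finite hlf hF) hmem
  refine ⟨v, (hv 0).1, fun k => ?_, fun n => ?_⟩
  · obtain ⟨i, h1, h2, h3⟩ := ((hv k).2.and ((hv (k + 1)).2.and (hadj k))).exists
    rwa [h1, h2] at h3
  · have : ∀ᶠ i in (U : Filter ι), ∀ k ∈ Finset.range (n + 1), a i k = v k := by
      rw [Filter.eventually_all_finset]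
      exact fun k _ => (hv k).2
    exact this.mono fun i hi k hk => hi k (Finset.mem_range.2 (by omega))


end ulim

section union




end union

section rays

/-- Limits of geodesic pieces: if for every `n`, `U`-eventually the first `n` steps of `a i` are a
geodesic of `Hn i`, then the limit is a ray of the union. -/
theorem isRay_of_lim {ι : Type*} (U : Ultrafilter ι) (ht : ∀ e, 0 ≤ t e)
    (a : ι → ℕ → V) {v : ℕ → V} (hadj : ∀ k, H.Adj (v k) (v (k + 1)))
    (hlim : ∀ n, ∀ᶠ i in (U : Filter ι), ∀ k ≤ n, a i k = v k)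
    (hgeo : ∀ n, ∀ ε > 0, ∀ᶠ i in (U : Filter ι),
      ∑ k ∈ Finset.Ico 0 n, t s(a i k, a i (k + 1)) ≤ pt H t (a i 0) (a i n) + ε) :
    IsRay t H v := by
  refine IsRay.of_initial ht hadj fun n => ⟨n, le_rfl, ?_⟩
  refine le_of_forall_pos_le_add fun ε hε => ?_
  obtain ⟨i, h1, h2⟩ := ((hlim n).and (hgeo n ε hε)).exists
  rw [h1 0 (Nat.zero_le n), h1 n le_rfl] at h2
  refine le_trans (le_of_eq ?_) h2
  refine Finset.sum_congr rfl fun k hk => ?_
  rw [Finset.mem_Ico] at hk
  rw [h1 k hk.2.le, h1 (k + 1) hk.2]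

/-- Long geodesics from `x` converge to a geodesic ray, along any ultrafilter along which their
lengths tend to infinity. -/
theorem exists_isRay_of_geo {ι : Type*} (hlf : ∀ x, (H.neighborSet x).Finite)
    (ht : ∀ e, 0 ≤ t e) (U : Ultrafilter ι) {z : ι → V} (w : ∀ i, H.Walk x (z i))
    (hw : ∀ᶠ i in (U : Filter ι), IsGeo t (w i))
    (hlen : ∀ n, ∀ᶠ i in (U : Filter ι), n ≤ (w i).length) :
    ∃ v : ℕ → V, IsRay t H v ∧ v 0 = x ∧
      ∀ n, ∀ᶠ i in (U : Filter ι), ∀ k ≤ n, (w i).getVert k = v k := by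
  obtain ⟨v, h0, hadj, hlim⟩ := exists_seq_lim hlf U (fun i => (w i).getVert)
    (Set.finite_singleton x) (Eventually.of_forall fun i => by simp)
    (fun k => (hlen (k + 1)).mono fun i hi => (w i).adj_getVert_succ (by omega))
  refine ⟨v, isRay_of_lim U ht (fun i => (w i).getVert) hadj hlim ?_, by simpa using h0, hlim⟩
  intro n ε hε
  filter_upwards [hw, hlen n] with i hi hi'
  have h1 := hi.take ht n
  have h2 : ((w i).take n).length = n := by simp [hi']
  have h3 := sum_getVert t ((w i).take n)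
  rw [h2] at h3
  have h4 : pt H t ((w i).getVert 0) ((w i).getVert n) = wcost t ((w i).take n) := by
    rw [h1, SimpleGraph.Walk.getVert_zero]
  rw [h4, ← h3, ← Finset.range_eq_Ico]
  refine le_trans (le_of_eq ?_) (le_add_of_nonneg_right hε.le)
  refine Finset.sum_congr rfl fun k hk => ?_
  rw [Finset.mem_range] at hk
  rw [SimpleGraph.Walk.take_getVert, SimpleGraph.Walk.take_getVert, min_eq_right (by omega),
    min_eq_right (by omega)]


end rays

section biray

theorem sum_consecutive_int (g : ℤ → ℝ) {a b c : ℤ} (hab : a ≤ b) (hbc : b ≤ c) :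
    ∑ k ∈ Finset.Ico a b, g k + ∑ k ∈ Finset.Ico b c, g k = ∑ k ∈ Finset.Ico a c, g k := by
  rw [← Finset.Ico_union_Ico_eq_Ico hab hbc, Finset.sum_union]
  exact Finset.Ico_disjoint_Ico_consecutive a b c

/-- A two-sided geodesic of `H`. -/
structure IsBiRay (t : Sym2 V → ℝ) (H : SimpleGraph V) (v : ℤ → V) : Prop where
  adj : ∀ k, H.Adj (v k) (v (k + 1))
  geo : ∀ i j, i ≤ j → ∑ k ∈ Finset.Ico i j, t s(v k, v (k + 1)) = pt H t (v i) (v j)

variable {v : ℤ → V}

theorem sum_shift_nat (g : ℤ → ℝ) (i : ℤ) (n : ℕ) :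
    ∑ k ∈ Finset.Ico i (i + n), g k = ∑ k ∈ Finset.range n, g (i + k) := by
  refine (Finset.sum_bij (fun (k : ℕ) _ => i + (k : ℤ)) ?_ ?_ ?_ ?_).symm
  · intro k hk
    rw [Finset.mem_range] at hk
    rw [Finset.mem_Ico]
    omega
  · intro a₁ _ a₂ _ h
    simpa using h
  · intro k hk
    rw [Finset.mem_Ico] at hk
    exact ⟨(k - i).toNat, by rw [Finset.mem_range]; omega, by omega⟩
  · intro k _
    rfl

theorem IsBiRay.isRay (h : IsBiRay t H v) (i : ℤ) : IsRay t H fun k : ℕ => v (i + k) := by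
  refine ⟨fun k => ?_, fun a b hab => ?_⟩
  · have := h.adj (i + k)
    push_cast
    rwa [← add_assoc]
  · obtain ⟨d, rfl⟩ := Nat.exists_eq_add_of_le hab
    have h1 := h.geo (i + a) (i + a + d) (by omega)
    rw [sum_shift_nat] at h1
    rw [Finset.sum_Ico_eq_sum_range, Nat.add_sub_cancel_left]
    push_cast
    rw [← add_assoc, ← h1]
    refine Finset.sum_congr rfl fun k _ => ?_
    rw [show i + (↑a + ↑k) = i + ↑a + ↑k by ring, show i + (↑a + ↑k + 1) = i + ↑a + ↑k + 1 by ring]


theorem IsBiRay.injective (h : IsBiRay t H v) (ht : ∀ e, 0 < t e) : Function.Injective v := by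
  intro i j hij
  rcases le_total i j with hle | hle
  · have h1 := (h.isRay i).injective ht (a₁ := 0) (a₂ := (j - i).toNat) (by
      simp only [Nat.cast_zero, add_zero]
      rw [hij]
      congr 1
      omega)
    omega
  · have h1 := (h.isRay j).injective ht (a₁ := 0) (a₂ := (i - j).toNat) (by
      simp only [Nat.cast_zero, add_zero]
      rw [← hij]
      congr 1
      omega)
    omega

theorem isBigeodesic_iff {t : Environment} {v : ℤ → ℤ × ℤ} (ht : ∀ e, 0 < t e) :
    IsBigeodesic t v ↔ IsBiRay t squareLattice v := by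
  constructor
  · intro h
    refine ⟨h.2.1, fun i j hij => ?_⟩
    rcases hij.eq_or_lt with rfl | hij
    · simp [pt_self fun e => (ht e).le]
    · rw [h.2.2 i j hij, passageTime_eq_pt]
  · intro h
    refine ⟨h.injective ht, h.adj, fun i j hij => ?_⟩
    rw [h.geo i j hij.le, passageTime_eq_pt]



end biray

end Crest.Agent.R151.Y
private theorem rz_efb1f8bfaa : type_of% @_root_.Crest.Agent.R151.Y.stepSet.eq_def := @_root_.Crest.Agent.R151.Y.stepSet.eq_def -- L51
private theorem rz_037acc3d0a : type_of% @_root_.Crest.Agent.R151.Y.stepSet.eq_1 := @_root_.Crest.Agent.R151.Y.stepSet.eq_1 -- L51
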