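import Mathlib
import Crest.Agent.R151.Y635C

/-!
# R151, Y635D: separators, Hopf-Lax, the pair functional of a two-sided geodesic

* `Sep H Hp A L`: `Hp ≤ H` contains every edge of `H` with an end in `A \ L` (side `A`, boundary
  `L`).  `sep_reg`: half planes and strips.
* last visit / first exit decompositions of walks and of one- and two-sided paths;
* Hopf-Lax formula for passage times and for Busemann functions;
* the pair functional `g p + pt H t p q + f q` is minimal at the (first entrance, last exit) pair of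
  a two-sided geodesic (`IsBiRay.pair_min`), and conversely a minimal pair with gradient rays gives
  a two-sided geodesic (`exists_isBiRay_of_pair_min`).
-/

set_option autoImplicit false

open Crest.ProbabilityR.FirstPassage
open scoped Classical
open Filter Topology

namespace Crest.Agent.R151.Y

open Crest.Agent.R151

variable {V : Type*} {H Hp Hm : SimpleGraph V} {A L B M : Set V}
  {t : Sym2 V → ℝ} {f g : V → ℝ} {x y z p q : V}

/-- `Hp` contains every edge of `H` with an end in `A \ L`. -/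
structure Sep (H Hp : SimpleGraph V) (A L : Set V) : Prop where
  le : Hp ≤ H
  sub : L ⊆ A
  sep : ∀ a b, H.Adj a b → b ∈ A → b ∉ L → Hp.Adj a b ∧ a ∈ A


theorem adj_snd_le {a b : ℤ × ℤ} (h : squareLattice.Adj a b) : b.2 ≤ a.2 + 1 := by
  simp only [squareLattice, SimpleGraph.fromRel_adj] at h
  omega

theorem adj_fst_le {a b : ℤ × ℤ} (h : squareLattice.Adj a b) : b.1 ≤ a.1 + 1 := by
  simp only [squareLattice, SimpleGraph.fromRel_adj] at h
  omega

theorem adj_neg_snd_le {a b : ℤ × ℤ} (h : squareLattice.Adj a b) : -b.2 ≤ -a.2 + 1 := by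
  simp only [squareLattice, SimpleGraph.fromRel_adj] at h
  omega

theorem adj_neg_fst_le {a b : ℤ × ℤ} (h : squareLattice.Adj a b) : -b.1 ≤ -a.1 + 1 := by
  simp only [squareLattice, SimpleGraph.fromRel_adj] at h
  omega



section walks

/-- Last visit of the boundary `L` by a walk that ends in `A`. -/
theorem Sep.last_visit (h : Sep H Hp A L) (w : H.Walk x y) (hy : y ∈ A) :
    (x ∈ A ∧ ∃ w2 : Hp.Walk x y, w = w2.mapLe h.le) ∨
      ∃ z ∈ L, ∃ (w1 : H.Walk x z) (w2 : Hp.Walk z y), w = w1.append (w2.mapLe h.le) := by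
  induction w with
  | nil => exact Or.inl ⟨hy, .nil, rfl⟩
  | @cons a b c hab p ih =>
    rcases ih hy with ⟨hb, w2, hw2⟩ | ⟨z, hz, w1, w2, hw⟩
    · by_cases hbL : b ∈ L
      · exact Or.inr ⟨b, hbL, .cons hab .nil, w2, by rw [hw2]; rfl⟩
      · obtain ⟨h1, h2⟩ := h.sep a b hab hb hbL
        exact Or.inl ⟨h2, .cons h1 w2, by rw [hw2]; rfl⟩
    · exact Or.inr ⟨z, hz, .cons hab w1, w2, by rw [hw]; rfl⟩

/-- Last visit, start outside `A \ L`. -/
theorem Sep.exists_last_visit (h : Sep H Hp A L) (w : H.Walk x y) (hx : x ∈ A → x ∈ L)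
    (hy : y ∈ A) :
    ∃ z ∈ L, ∃ (w1 : H.Walk x z) (w2 : Hp.Walk z y), w = w1.append (w2.mapLe h.le) := by
  rcases h.last_visit w hy with ⟨h1, w2, hw2⟩ | h1
  · exact ⟨x, hx h1, .nil, w2, hw2⟩
  · exact h1

theorem Sep.exists_last_visit_cost (h : Sep H Hp A L) (t : Sym2 V → ℝ) (w : H.Walk x y)
    (hx : x ∈ A → x ∈ L) (hy : y ∈ A) :
    ∃ z ∈ L, z ∈ w.support ∧ ∃ (w1 : H.Walk x z) (w2 : Hp.Walk z y),
      wcost t w = wcost t w1 + wcost t w2 := by
  obtain ⟨z, hz, w1, w2, rfl⟩ := h.exists_last_visit w hx hy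
  refine ⟨z, hz, ?_, w1, w2, by simp⟩
  rw [SimpleGraph.Walk.mem_support_append_iff]
  exact Or.inl w1.end_mem_support


/-- Two-sided separation: lower side `B` with boundary `M`, upper side `A` with boundary `L`. -/
structure Sep2 (H Hm Hp : SimpleGraph V) (B M A L : Set V) : Prop where
  lo : Sep H Hm B M
  up : Sep H Hp A L
  h1 : ∀ x ∈ B, x ∈ A → x ∈ L
  h2 : ∀ x ∈ L, x ∈ B → x ∈ M


end walks

section hopfLax

/-- Hopf-Lax, upper bound -/
theorem Sep.pt_le (h : Sep H Hp A L) (ht : ∀ e, 0 ≤ t e) (hxz : H.Reachable x z)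
    (hzy : Hp.Reachable z y) : pt H t x y ≤ pt H t x z + pt Hp t z y :=
  (pt_triangle ht hxz (hzy.mono h.le)).trans (by
    have := pt_anti h.le ht hzy
    linarith)


/-- Hopf-Lax for passage times. -/
theorem Sep.hopfLax_pt (h : Sep H Hp A L) (ht : ∀ e, 0 ≤ t e) (hxy : H.Reachable x y)
    (hx : x ∈ A → x ∈ L) (hy : y ∈ A) (hr : ∀ z ∈ L, Hp.Reachable z y) :
    pt H t x y = ⨅ z : L, (pt H t x z + pt Hp t z y) := by
  obtain ⟨w0⟩ := hxy
  obtain ⟨z0, hz0, w01, w02, -⟩ := h.exists_last_visit w0 hx hy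
  have : Nonempty L := ⟨⟨z0, hz0⟩⟩
  have hrx : ∀ z ∈ L, H.Reachable x z := fun z hz =>
    (w01.reachable.trans (((hr z0 hz0).trans (hr z hz).symm).mono h.le))
  have hb : BddBelow (Set.range fun z : L => pt H t x z + pt Hp t z y) :=
    ⟨0, by
      rintro _ ⟨z, rfl⟩
      exact add_nonneg (pt_nonneg ht) (pt_nonneg ht)⟩
  refine le_antisymm (le_ciInf fun z => h.pt_le ht (hrx z z.2) (hr z z.2)) ?_
  refine le_pt ⟨w0⟩ fun w => ?_
  obtain ⟨z, hz, -, w1, w2, hc⟩ := h.exists_last_visit_cost t w hx hy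
  refine (ciInf_le hb ⟨z, hz⟩).trans ?_
  rw [hc]
  exact add_le_add (pt_le_wcost ht w1) (pt_le_wcost ht w2)

/-- Hopf-Lax for Busemann functions of rays in the upper side. -/
theorem Sep.hopfLax_bus (h : Sep H Hp A L) (ht : ∀ e, 0 ≤ t e) {v : ℕ → V}
    (hv : IsRay t H v) (hadj : ∀ k, Hp.Adj (v k) (v (k + 1))) (hvA : ∀ k, v k ∈ A)
    (hx0 : H.Reachable x (v 0)) (hx : x ∈ A → x ∈ L) (hr : ∀ z ∈ L, Hp.Reachable z (v 0)) :
    (∀ z ∈ L, bus t H v x ≤ pt H t x z + bus t Hp v z) ∧
      bus t H v x = ⨅ z : L, (pt H t x z + bus t Hp v z) := by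
  have hvp : IsRay t Hp v := hv.of_le ht h.le hadj
  have heq : ∀ n, pt Hp t (v 0) (v n) = pt H t (v 0) (v n) := fun n =>
    hv.pt_eq_of_le ht h.le hadj (Nat.zero_le n)
  have hrx : ∀ z ∈ L, H.Reachable x z := fun z hz =>
    hx0.trans ((hr z hz).symm.mono h.le)
  have h1 : ∀ z ∈ L, bus t H v x ≤ pt H t x z + bus t Hp v z := by
    intro z hz
    have h2 := (tendsto_bus ht hvp (hr z hz)).const_add (pt H t x z)
    refine ge_of_tendsto' h2 fun n => ?_
    have h3 := bus_le ht hv hx0 n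
    have h4 := h.pt_le ht (hrx z hz) ((hr z hz).trans (hvp.reachable (i := 0) (j := n)))
    rw [heq]
    linarith
  refine ⟨h1, ?_⟩
  obtain ⟨w0⟩ := hx0
  obtain ⟨z0, hz0, w01, w02, -⟩ := h.exists_last_visit w0 hx (hvA 0)
  have : Nonempty L := ⟨⟨z0, hz0⟩⟩
  have hb : BddBelow (Set.range fun z : L => pt H t x z + bus t Hp v z) :=
    ⟨bus t H v x, by rintro _ ⟨z, rfl⟩; exact h1 z z.2⟩
  refine le_antisymm (le_ciInf fun z => h1 z z.2) ?_
  refine le_ciInf fun n => ?_
  rw [h.hopfLax_pt ht (w0.reachable.trans hv.reachable) hx (hvA n)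
    (fun z hz => (hr z hz).trans hvp.reachable), ← heq, le_sub_iff_add_le]
  refine le_ciInf fun z => ?_
  have h2 := bus_le ht hvp (hr z z.2) n
  have h3 := ciInf_le hb z
  linarith

end hopfLax

section lastExit



end lastExit

section pair

theorem IsBiRay.neg {v : ℤ → V} (h : IsBiRay t H v) : IsBiRay t H fun k => v (-k) := by
  refine ⟨fun k => ?_, fun i j hij => ?_⟩
  · have := (h.adj (-(k + 1))).symm
    rwa [show -(k + 1) + 1 = -k by ring] at this
  · have h1 := h.geo (-j) (-i) (by omega)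
    rw [pt_comm] at h1
    rw [← h1]
    refine Finset.sum_bij (fun k _ => -(k + 1)) ?_ ?_ ?_ ?_
    · intro k hk
      rw [Finset.mem_Ico] at *
      omega
    · intro a₁ _ a₂ _ h
      simpa using h
    · intro k hk
      rw [Finset.mem_Ico] at hk
      refine ⟨-k - 1, ?_, ?_⟩
      · rw [Finset.mem_Ico]
        omega
      · omega
    · intro k _
      rw [show -(k + 1) + 1 = -k by ring, Sym2.eq_swap]

/-- the backward half -/
theorem IsBiRay.isRay_neg {v : ℤ → V} (h : IsBiRay t H v) (i : ℤ) :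
    IsRay t H fun k : ℕ => v (i - k) := by
  have h1 := h.neg.isRay (-i)
  have : (fun k : ℕ => v (-(-i + k))) = fun k : ℕ => v (i - k) := by
    funext k
    congr 1
    ring
  rwa [this] at h1

theorem IsBiRay.pt_add {v : ℤ → V} (h : IsBiRay t H v) {i j k : ℤ} (hij : i ≤ j) (hjk : j ≤ k) :
    pt H t (v i) (v j) + pt H t (v j) (v k) = pt H t (v i) (v k) := by
  rw [← h.geo i j hij, ← h.geo j k hjk, ← h.geo i k (hij.trans hjk), sum_consecutive_int _ hij hjk]

theorem IsBiRay.reachable {v : ℤ → V} (h : IsBiRay t H v) (i j : ℤ) :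
    H.Reachable (v i) (v j) := by
  have key : ∀ (i : ℤ) (n : ℕ), H.Reachable (v i) (v (i + n)) := by
    intro i n
    have := (h.isRay i).reachable (i := 0) (j := n)
    simpa using this
  rcases le_total i j with hij | hij
  · have := key i (j - i).toNat
    rwa [show i + ((j - i).toNat : ℤ) = j by omega] at this
  · have := key j (i - j).toNat
    rw [show j + ((i - j).toNat : ℤ) = i by omega] at this
    exact this.symm

/-- **Pair functional.** For a two-sided geodesic of `H` whose part after `v j` lives in `Hp` and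
whose part before `v i` lives in `Hm`, `i ≤ j`:
`T(v i, v j) ≤ g p + T(p, q) + f q` where `f`, `g` are the Busemann functions (of `Hp`, `Hm`) of the
two ends, normalised to vanish at `v j`, `v i`. -/
theorem IsBiRay.pair_min {v : ℤ → V} (h : IsBiRay t H v) (ht : ∀ e, 0 ≤ t e) (hp : Hp ≤ H)
    (hm : Hm ≤ H) {i j : ℤ} (hij : i ≤ j) (hup : ∀ k, j ≤ k → Hp.Adj (v k) (v (k + 1)))
    (hlo : ∀ k, k < i → Hm.Adj (v k) (v (k + 1))) (hpi : Hm.Reachable p (v i))
    (hqj : Hp.Reachable q (v j)) :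
    pt H t (v i) (v j) ≤ bus t Hm (fun k : ℕ => v (i - k)) p + pt H t p q +
      bus t Hp (fun k : ℕ => v (j + k)) q := by
  have hu : IsRay t H fun k : ℕ => v (j + k) := h.isRay j
  have hl : IsRay t H fun k : ℕ => v (i - k) := h.isRay_neg i
  have hua : ∀ k : ℕ, Hp.Adj (v (j + k)) (v (j + (k + 1 : ℕ))) := by
    intro k
    have := hup (j + k) (by omega)
    push_cast
    rwa [← add_assoc]
  have hla : ∀ k : ℕ, Hm.Adj (v (i - k)) (v (i - (k + 1 : ℕ))) := by
    intro k
    have := (hlo (i - (k + 1 : ℕ)) (by push_cast; omega)).symm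
    rwa [show i - ((k + 1 : ℕ) : ℤ) + 1 = i - k by push_cast; ring] at this
  have hup' : IsRay t Hp fun k : ℕ => v (j + k) := hu.of_le ht hp hua
  have hlo' : IsRay t Hm fun k : ℕ => v (i - k) := hl.of_le ht hm hla
  have e0 : v (j + ((0 : ℕ) : ℤ)) = v j := by simp
  have e1 : v (i - ((0 : ℕ) : ℤ)) = v i := by simp
  have hq' : Hp.Reachable q (v (j + ((0 : ℕ) : ℤ))) := by rwa [e0]
  have hp' : Hm.Reachable p (v (i - ((0 : ℕ) : ℤ))) := by rwa [e1]
  have l1 := (tendsto_bus ht hlo' hp').add_const (pt H t p q)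
  have l2 := l1.add (tendsto_bus ht hup' hq')
  refine ge_of_tendsto' l2 fun n => ?_
  -- the full geodesic from `v (i - n)` to `v (j + n)`
  have a1 := h.pt_add (i := i - n) (j := i) (k := j) (by omega) hij
  have a2 := h.pt_add (i := i - n) (j := j) (k := j + n) (by omega) (by omega)
  have r1 : Hm.Reachable (v (i - n)) p := by
    have := hlo'.reachable (i := 0) (j := n)
    exact (hp'.trans this).symm
  have r2 : Hp.Reachable q (v (j + n)) := hq'.trans (hup'.reachable (i := 0) (j := n))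
  have r3 : H.Reachable p q := by
    have := (hpi.mono hm).trans ((h.reachable i j).trans (hqj.mono hp).symm)
    exact this
  have b1 := pt_triangle ht (r1.mono hm) (r3.trans (r2.mono hp))
  have b2 := pt_triangle ht r3 (r2.mono hp)
  have b3 := pt_anti hm ht r1
  have b4 := pt_anti hp ht r2
  have c1 : pt Hm t (v (i - ((0 : ℕ) : ℤ))) (v (i - n)) = pt H t (v (i - n)) (v i) := by
    have := hl.pt_eq_of_le ht hm hla (Nat.zero_le n)
    rw [this, pt_comm, e1]
  have c2 : pt Hp t (v (j + ((0 : ℕ) : ℤ))) (v (j + n)) = pt H t (v j) (v (j + n)) := by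
    have := hu.pt_eq_of_le ht hp hua (Nat.zero_le n)
    rw [this, e0]
  rw [pt_comm Hm t (v (i - n)) p] at b3
  rw [c1, c2]
  linarith



end pair

end Crest.Agent.R151.Y
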