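import Crest.Agent.R151.K2b
import Crest.Agent.R151.B710
import Crest.Agent.R151.Y635D
import Crest.Agent.R151.Pl6
import Crest.Agent.R151.A565a
import Crest.Agent.R151.W5b
import Crest.Agent.R151.F2

-- ▼ part R151/L763a
section

/-!
# R151/L763a — abstract linearity lemma (owner helper763)

A random function on the half plane which is `μ`-Lipschitz up to `o(n)` and whose mean is the linear
functional `ρ` up to `o(n)` is linear in `L¹`, uniformly in half boxes, provided that `μ` is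
differentiable at a point `v` of the open upper half plane with `ρ v = μ v`.
-/

set_option autoImplicit false

open MeasureTheory Filter Topology
open Crest.ProbabilityR.FirstPassage

namespace Crest.Agent.R151.LIN

open K

/-- the upper half of the box `box n` -/
noncomputable def hb (n : ℕ) : Finset (ℤ × ℤ) := (box n).filter fun x => 0 ≤ x.2




















end Crest.Agent.R151.LIN
end

-- ▼ part R151/L763b
section

/-!
# R151/L763b — strips, half planes, cutting at a row, limits of Hopf–Lax formulas (owner helper763)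
Deterministic layer of block HLX: a fixed environment `t` with nonnegative weights.
-/

set_option autoImplicit false

open Filter Topology
open Crest.ProbabilityR.FirstPassage

namespace Crest.Agent.R151.LIN

open K

/-- horizontal strip `k ≤ y ≤ N` -/
def Sp (k N : ℤ) : Set (ℤ × ℤ) := {z | k ≤ z.2 ∧ z.2 ≤ N}

/-- upper half plane `k ≤ y` -/
def Hk (k : ℤ) : Set (ℤ × ℤ) := {z | k ≤ z.2}

lemma mem_Sp {k N : ℤ} {z : ℤ × ℤ} : z ∈ Sp k N ↔ k ≤ z.2 ∧ z.2 ≤ N := Iff.rfl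
lemma mem_Hk {k : ℤ} {z : ℤ × ℤ} : z ∈ Hk k ↔ k ≤ z.2 := Iff.rfl

lemma Sp_subset_Hk (k N : ℤ) : Sp k N ⊆ Hk k := fun _ h => h.1

lemma Sp_inter {k j N : ℤ} (h : k ≤ j) : Sp k N ∩ Hk j = Sp j N := by
  ext z; simp only [Sp, Hk, Set.mem_inter_iff, Set.mem_ofPred_eq]; omega


lemma lin_Sp {k N : ℤ} {x y : ℤ × ℤ} (hx : x ∈ Sp k N) (hy : y ∈ Sp k N) : LIn (Sp k N) x y := by
  refine ⟨fun i _ => hx, fun i hi => ?_⟩
  simp only [Sp, Set.mem_ofPred_eq] at hx hy ⊢
  omega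

lemma lin_Hk {k : ℤ} {x y : ℤ × ℤ} (hx : x ∈ Hk k) (hy : y ∈ Hk k) : LIn (Hk k) x y := by
  refine ⟨fun i _ => hx, fun i hi => ?_⟩
  simp only [Hk, Set.mem_ofPred_eq] at hx hy ⊢
  omega

lemma conn_Sp {k N : ℤ} {x y : ℤ × ℤ} (hx : x ∈ Sp k N) (hy : y ∈ Sp k N) : Conn (Sp k N) x y :=
  (exists_path_edgesR (lin_Sp hx hy)).1

lemma conn_Hk {k : ℤ} {x y : ℤ × ℤ} (hx : x ∈ Hk k) (hy : y ∈ Hk k) : Conn (Hk k) x y :=
  (exists_path_edgesR (lin_Hk hx hy)).1

/-! ### cutting walks at a row -/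

lemma snd_le_of_adj {a b : ℤ × ℤ} (h : squareLattice.Adj a b) : b.2 ≤ a.2 + 1 ∧ a.2 ≤ b.2 + 1 :=
  ⟨Y.adj_snd_le h, Y.adj_snd_le h.symm⟩

/-- last visit of a row -/
lemma last_row (j : ℤ) : ∀ {x y : ℤ × ℤ} (w : squareLattice.Walk x y), j ≤ y.2 →
    (∀ v ∈ w.support, j < v.2) ∨
      ∃ (z : ℤ × ℤ) (w1 : squareLattice.Walk x z) (w2 : squareLattice.Walk z y),
        w = w1.append w2 ∧ z.2 = j ∧ ∀ v ∈ w2.support, j ≤ v.2 := by
  intro x y w
  induction w with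
  | @nil u =>
    intro hy
    rcases hy.lt_or_eq with h | h
    · left; intro v hv
      rw [SimpleGraph.Walk.support_nil, List.mem_singleton] at hv
      rw [hv]; exact h
    · right
      refine ⟨u, SimpleGraph.Walk.nil, SimpleGraph.Walk.nil, rfl, h.symm, fun v hv => ?_⟩
      rw [SimpleGraph.Walk.support_nil, List.mem_singleton] at hv
      rw [hv, h]
  | @cons a b c h p ih =>
    intro hy
    rcases ih hy with h1 | ⟨z, w1, w2, e, hz, h2⟩
    · have hb := h1 b p.start_mem_support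
      have hab := snd_le_of_adj h
      rcases (show j ≤ a.2 by omega).lt_or_eq with h3 | h3
      · left; intro v hv
        rw [SimpleGraph.Walk.support_cons, List.mem_cons] at hv
        rcases hv with rfl | hv
        · exact h3
        · exact h1 v hv
      · right
        refine ⟨a, SimpleGraph.Walk.nil, SimpleGraph.Walk.cons h p, rfl, h3.symm, fun v hv => ?_⟩
        rw [SimpleGraph.Walk.support_cons, List.mem_cons] at hv
        rcases hv with rfl | hv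
        · exact h3.le
        · exact (h1 v hv).le
    · right
      exact ⟨z, SimpleGraph.Walk.cons h w1, w2, by rw [e]; rfl, hz, h2⟩

/-- first hit of a row from below -/
lemma first_row (j : ℤ) : ∀ {x y : ℤ × ℤ} (w : squareLattice.Walk x y), x.2 ≤ j → j ≤ y.2 →
      ∃ (z : ℤ × ℤ) (w1 : squareLattice.Walk x z) (w2 : squareLattice.Walk z y),
        w = w1.append w2 ∧ z.2 = j ∧ ∀ v ∈ w1.support, v.2 ≤ j := by
  intro x y w
  induction w with
  | @nil u =>
    intro hx hy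
    refine ⟨u, SimpleGraph.Walk.nil, SimpleGraph.Walk.nil, rfl, le_antisymm hx hy, fun v hv => ?_⟩
    rw [SimpleGraph.Walk.support_nil, List.mem_singleton] at hv
    rw [hv]; exact hx
  | @cons a b c h p ih =>
    intro hx hy
    rcases hx.lt_or_eq with h3 | h3
    · have hab := snd_le_of_adj h
      obtain ⟨z, w1, w2, e, hz, h2⟩ := ih (by omega) hy
      refine ⟨z, SimpleGraph.Walk.cons h w1, w2, by rw [e]; rfl, hz, fun v hv => ?_⟩
      rw [SimpleGraph.Walk.support_cons, List.mem_cons] at hv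
      rcases hv with rfl | hv
      · exact h3.le
      · exact h2 v hv
    · refine ⟨a, SimpleGraph.Walk.nil, SimpleGraph.Walk.cons h p, rfl, h3, fun v hv => ?_⟩
      rw [SimpleGraph.Walk.support_nil, List.mem_singleton] at hv
      rw [hv, h3]

variable {t : Environment}

lemma mem_support_append_left {x y z : ℤ × ℤ} {w1 : squareLattice.Walk x z}
    {w2 : squareLattice.Walk z y} {v : ℤ × ℤ} (h : v ∈ w1.support) : v ∈ (w1.append w2).support := by
  rw [SimpleGraph.Walk.mem_support_append_iff]; exact Or.inl h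

lemma mem_support_append_right {x y z : ℤ × ℤ} {w1 : squareLattice.Walk x z}
    {w2 : squareLattice.Walk z y} {v : ℤ × ℤ} (h : v ∈ w2.support) : v ∈ (w1.append w2).support := by
  rw [SimpleGraph.Walk.mem_support_append_iff]; exact Or.inr h

/-- cutting at the last visit of row `j` -/
lemma exists_cut (ht : Nn t) {R : Set (ℤ × ℤ)} {j : ℤ} {z b : ℤ × ℤ} (hc : Conn R z b)
    (hz : z.2 ≤ j) (hb : j ≤ b.2) {ε : ℝ} (hε : 0 < ε) :
    ∃ q : ℤ, Conn R z (q, j) ∧ Conn (R ∩ Hk j) (q, j) b ∧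
      pR t R z (q, j) + pR t (R ∩ Hk j) (q, j) b ≤ pR t R z b + ε := by
  obtain ⟨w, hw, hw'⟩ := exists_walk_lt_pR (t := t) hc (show pR t R z b < pR t R z b + ε by linarith)
  rcases last_row j w hb with h | ⟨⟨q, j'⟩, w1, w2, e, hj, h2⟩
  · exact absurd (h z w.start_mem_support) (by omega)
  · simp only at hj
    subst hj
    have h1 : ∀ v ∈ w1.support, v ∈ R := fun v hv => hw v (by rw [e]; exact mem_support_append_left hv)
    have h3 : ∀ v ∈ w2.support, v ∈ R ∩ Hk j' := fun v hv =>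
      ⟨hw v (by rw [e]; exact mem_support_append_right hv), h2 v hv⟩
    refine ⟨q, ⟨w1, h1⟩, ⟨w2, h3⟩, ?_⟩
    have := pR_le ht w1 h1
    have := pR_le ht w2 h3
    rw [e, walkCost_append] at hw'
    linarith

/-- cutting at the first hit of row `j` -/
lemma exists_cut_first (ht : Nn t) {R : Set (ℤ × ℤ)} {j : ℤ} {z b : ℤ × ℤ} (hc : Conn R z b)
    (hz : z.2 ≤ j) (hb : j ≤ b.2) {ε : ℝ} (hε : 0 < ε) :
    ∃ q : ℤ, Conn (R ∩ {u | u.2 ≤ j}) z (q, j) ∧ Conn R (q, j) b ∧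
      pR t (R ∩ {u | u.2 ≤ j}) z (q, j) + pR t R (q, j) b ≤ pR t R z b + ε := by
  obtain ⟨w, hw, hw'⟩ := exists_walk_lt_pR (t := t) hc (show pR t R z b < pR t R z b + ε by linarith)
  obtain ⟨⟨q, j'⟩, w1, w2, e, hj, h2⟩ := first_row j w hz hb
  simp only at hj
  subst hj
  have h1 : ∀ v ∈ w1.support, v ∈ R ∩ {u | u.2 ≤ j'} := fun v hv =>
    ⟨hw v (by rw [e]; exact mem_support_append_left hv), h2 v hv⟩
  have h3 : ∀ v ∈ w2.support, v ∈ R := fun v hv =>
    hw v (by rw [e]; exact mem_support_append_right hv)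
  refine ⟨q, ⟨w1, h1⟩, ⟨w2, h3⟩, ?_⟩
  have := pR_le ht w1 h1
  have := pR_le ht w2 h3
  rw [e, walkCost_append] at hw'
  linarith


/-- strip passage times decrease to half plane passage times -/
lemma tendsto_strip (ht : Nn t) {k : ℤ} {x y : ℤ × ℤ} (hx : x ∈ Hk k) (hy : y ∈ Hk k)
    {Ns : ℕ → ℤ} (hN : Tendsto Ns atTop atTop) :
    Tendsto (fun i => pR t (Sp k (Ns i)) x y) atTop (𝓝 (pR t (Hk k) x y)) := by
  rw [Metric.tendsto_atTop]
  intro ε hε
  obtain ⟨w, hw, hw'⟩ := exists_walk_lt_pR (t := t) (conn_Hk hx hy)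
    (show pR t (Hk k) x y < pR t (Hk k) x y + ε by linarith)
  obtain ⟨M, hM⟩ : ∃ M : ℤ, ∀ v ∈ w.support, v.2 ≤ M := by
    refine ⟨(w.support.map Prod.snd).toFinset.sup' ⟨x.2, ?_⟩ id, fun v hv => ?_⟩
    · simp only [List.mem_toFinset, List.mem_map]
      exact ⟨x, w.start_mem_support, rfl⟩
    · refine Finset.le_sup' (f := id) ?_
      simp only [List.mem_toFinset, List.mem_map]
      exact ⟨v, hv, rfl⟩
  obtain ⟨i0, hi0⟩ := (Filter.tendsto_atTop.1 hN M).exists_forall_of_atTop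
  refine ⟨i0, fun i hi => ?_⟩
  have hin : ∀ v ∈ w.support, v ∈ Sp k (Ns i) := fun v hv => ⟨hw v hv, (hM v hv).trans (hi0 i hi)⟩
  have h1 := pR_le ht w hin
  have h2 : pR t (Hk k) x y ≤ pR t (Sp k (Ns i)) x y :=
    pR_anti ht (Sp_subset_Hk k (Ns i)) ⟨w, hin⟩
  rw [Real.dist_eq, abs_of_nonneg (by linarith)]
  linarith

/-- **Limit of Hopf–Lax formulas.**  `R i` is the infimum of `T_i(x,q) + g_i(q)` over the points
`q` of row `j`, `g_i → f` pointwise with a uniform linear lower bound of slope smaller than the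
coercivity rate of the passage time. -/
theorem hopfLax_lim (ht : Nn t) {k j : ℤ} (hkj : k ≤ j) {x : ℤ × ℤ} (hx : x ∈ Hk k)
    {Ns : ℕ → ℤ} (hN : Tendsto Ns atTop atTop) {g : ℕ → ℤ → ℝ} {f : ℤ → ℝ}
    (hg : ∀ q, Tendsto (fun i => g i q) atTop (𝓝 (f q)))
    {c1 c2 B1 B2 : ℝ} (hc : c2 < c1)
    (hT : ∀ q : ℤ, c1 * |(q : ℝ)| - B1 ≤ passageTime t x (q, j))
    (hlow : ∀ᶠ i in atTop, ∀ q : ℤ, -(c2 * |(q : ℝ)|) - B2 ≤ g i q)
    {R : ℕ → ℝ}
    (hR1 : ∀ᶠ i in atTop, ∀ q : ℤ, R i ≤ pR t (Sp k (Ns i)) x (q, j) + g i q)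
    (hR2 : ∀ᶠ i in atTop, ∀ ε : ℝ, 0 < ε → ∃ q : ℤ,
      pR t (Sp k (Ns i)) x (q, j) + g i q ≤ R i + ε) :
    BddBelow (Set.range fun q : ℤ => pR t (Hk k) x (q, j) + f q) ∧
    Tendsto R atTop (𝓝 (⨅ q : ℤ, (pR t (Hk k) x (q, j) + f q))) ∧
    ∃ q : ℤ, pR t (Hk k) x (q, j) + f q = ⨅ q : ℤ, (pR t (Hk k) x (q, j) + f q) := by
  have hqH : ∀ q : ℤ, ((q, j) : ℤ × ℤ) ∈ Hk k := fun q => hkj
  have hTH : ∀ q : ℤ, c1 * |(q : ℝ)| - B1 ≤ pR t (Hk k) x (q, j) := fun q =>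
    (hT q).trans (pt_le_pR ht (conn_Hk hx (hqH q)))
  have hf : ∀ q : ℤ, -(c2 * |(q : ℝ)|) - B2 ≤ f q := by
    intro q
    refine ge_of_tendsto (hg q) ?_
    filter_upwards [hlow] with i hi using hi q
  have hlb : ∀ q : ℤ, (c1 - c2) * |(q : ℝ)| - (B1 + B2) ≤ pR t (Hk k) x (q, j) + f q := by
    intro q
    have := hTH q; have := hf q
    nlinarith
  have hbdd : BddBelow (Set.range fun q : ℤ => pR t (Hk k) x (q, j) + f q) := by
    refine ⟨-(B1 + B2), ?_⟩
    rintro _ ⟨q, rfl⟩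
    have := hlb q
    have h2 : 0 ≤ (c1 - c2) * |(q : ℝ)| := mul_nonneg (by linarith) (abs_nonneg _)
    simp only
    linarith
  set m : ℝ := ⨅ q : ℤ, (pR t (Hk k) x (q, j) + f q) with hm
  have hmle : ∀ q : ℤ, m ≤ pR t (Hk k) x (q, j) + f q := fun q => ciInf_le hbdd q
  -- a finite window that contains all near minimisers
  obtain ⟨Q, hQ⟩ : ∃ Q : ℕ, ∀ q : ℤ, (Q : ℝ) < |(q : ℝ)| →
      m + 2 < (c1 - c2) * |(q : ℝ)| - (B1 + B2) := by
    obtain ⟨Q, hQ⟩ := exists_nat_ge ((m + 2 + (B1 + B2)) / (c1 - c2))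
    refine ⟨Q, fun q hq => ?_⟩
    have h1 : (m + 2 + (B1 + B2)) / (c1 - c2) < |(q : ℝ)| := lt_of_le_of_lt hQ hq
    rw [div_lt_iff₀ (by linarith)] at h1
    nlinarith
  refine ⟨hbdd, ?_, ?_⟩
  · rw [Metric.tendsto_atTop]
    intro ε hε
    set δ := min (ε / 4) (1 / 4) with hδ
    have hδpos : 0 < δ := by positivity
    have hδ1 : δ ≤ ε / 4 := min_le_left _ _
    have hδ2 : δ ≤ 1 / 4 := min_le_right _ _
    obtain ⟨q0, hq0⟩ := exists_lt_of_ciInf_lt (show m < m + δ by linarith)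
    have h1 : Tendsto (fun i => pR t (Sp k (Ns i)) x (q0, j) + g i q0) atTop
        (𝓝 (pR t (Hk k) x (q0, j) + f q0)) := (tendsto_strip ht hx (hqH q0) hN).add (hg q0)
    have h2 : ∀ᶠ i in atTop, pR t (Sp k (Ns i)) x (q0, j) + g i q0 < m + 2 * δ := by
      refine (h1.eventually (gt_mem_nhds ?_)).mono fun i hi => hi
      linarith
    have h3 : ∀ᶠ i in atTop, ∀ q ∈ Finset.Icc (-(Q : ℤ)) Q, f q - δ < g i q := by
      rw [Filter.eventually_all_finset]
      intro q _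
      exact (hg q).eventually (lt_mem_nhds (by linarith))
    have h4 : ∀ᶠ i in atTop, max x.2 j ≤ Ns i := Filter.tendsto_atTop.1 hN _
    have h5 := ((h2.and h3).and h4).and ((hlow.and hR1).and hR2)
    obtain ⟨i0, hi0⟩ := h5.exists_forall_of_atTop
    refine ⟨i0, fun i hi => ?_⟩
    obtain ⟨⟨⟨a1, a2⟩, a3⟩, ⟨a4, a5⟩, a6⟩ := hi0 i hi
    have hxS : x ∈ Sp k (Ns i) := ⟨hx, (le_max_left _ _).trans a3⟩
    have hqS : ∀ q : ℤ, ((q, j) : ℤ × ℤ) ∈ Sp k (Ns i) := fun q =>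
      ⟨hkj, (le_max_right _ _).trans a3⟩
    have hup : R i < m + 2 * δ := (a5 q0).trans_lt a1
    obtain ⟨q, hq⟩ := a6 δ hδpos
    have b1 : passageTime t x (q, j) ≤ pR t (Sp k (Ns i)) x (q, j) :=
      pt_le_pR ht (conn_Sp hxS (hqS q))
    have b2 : pR t (Hk k) x (q, j) ≤ pR t (Sp k (Ns i)) x (q, j) :=
      pR_anti ht (Sp_subset_Hk k (Ns i)) (conn_Sp hxS (hqS q))
    have hqQ : |(q : ℝ)| ≤ Q := by
      by_contra hcon
      push Not at hcon
      have b3 := hQ q hcon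
      have b4 := hT q
      have b5 := a4 q
      nlinarith
    have hqmem : q ∈ Finset.Icc (-(Q : ℤ)) Q := by
      rw [Finset.mem_Icc]
      have := abs_le.1 hqQ
      exact ⟨by exact_mod_cast this.1, by exact_mod_cast this.2⟩
    have b6 := a2 q hqmem
    have b7 := hmle q
    rw [Real.dist_eq, abs_lt]
    constructor <;> linarith
  · -- attained minimum
    have hne : (Finset.Icc (-(Q : ℤ)) Q).Nonempty := ⟨0, by simp⟩
    obtain ⟨q1, hq1, hq1'⟩ := Finset.exists_min_image (Finset.Icc (-(Q : ℤ)) Q)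
      (fun q : ℤ => pR t (Hk k) x (q, j) + f q) hne
    refine ⟨q1, le_antisymm ?_ (hmle q1)⟩
    refine le_of_forall_pos_lt_add fun ε hε => ?_
    obtain ⟨q2, hq2⟩ := exists_lt_of_ciInf_lt (show m < m + min ε 1 by
      have : 0 < min ε 1 := by positivity
      linarith)
    have hqQ : |(q2 : ℝ)| ≤ Q := by
      by_contra hcon
      push Not at hcon
      have b3 := hQ q2 hcon
      have b4 := hlb q2
      have : min ε 1 ≤ 1 := min_le_right _ _
      linarith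
    have hqmem : q2 ∈ Finset.Icc (-(Q : ℤ)) Q := by
      rw [Finset.mem_Icc]
      have := abs_le.1 hqQ
      exact ⟨by exact_mod_cast this.1, by exact_mod_cast this.2⟩
    have := hq1' q2 hqmem
    have : min ε 1 ≤ ε := min_le_left _ _
    linarith

end Crest.Agent.R151.LIN
end

-- ▼ part R151/L763c
section

/-!
# R151/L763c — label functions of the half planes (owner helper763)

Input: line limits `f0 τ` of `T_{[0,N]}((x,0),(⌊τN⌋,N)) - T_{[0,N]}((0,0),(⌊τN⌋,N))` on the line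
`y = 0`.  Output: the functions `FH τ k` on all half planes, with Hopf–Lax formulas.
-/

set_option autoImplicit false

open MeasureTheory Filter Topology
open Crest.ProbabilityR.FirstPassage

namespace Crest.Agent.R151.LIN

open K

lemma shift_eq_act (z : ℤ × ℤ) (t : Environment) : A.shift z t = act (tr z) t := by
  funext e
  induction e with
  | _ x y => rfl

lemma pR_shift (t : Environment) (z : ℤ × ℤ) {R R' : Set (ℤ × ℤ)} (h : ∀ u, u ∈ R ↔ u + z ∈ R')
    (x y : ℤ × ℤ) : pR (A.shift z t) R x y = pR t R' (x + z) (y + z) := by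
  rw [shift_eq_act, ← pR_tr]
  congr 1
  ext u
  exact h u

lemma Nn.shift {t : Environment} (ht : Nn t) (z : ℤ × ℤ) : Nn (A.shift z t) := fun _ => ht _

/-! ### a diagonal subsequence -/

lemma exists_diag {Ω : Type*} [MeasurableSpace Ω] {P : Measure Ω} [IsProbabilityMeasure P]
    {ι : Type*} [Countable ι] (X : ι → ℕ → Ω → ℝ)
    (h : ∀ a, ∀ ε : ℝ, 0 < ε → Tendsto (fun N => P.real {ω | ε ≤ X a N ω}) atTop (𝓝 0)) :
    ∃ Ns : ℕ → ℕ, StrictMono Ns ∧ ∀ᵐ ω ∂P, ∀ a, ∀ ε : ℝ, 0 < ε → ∀ᶠ i in atTop,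
      X a (Ns i) ω < ε := by
  classical
  have : Encodable ι := Encodable.ofCountable ι
  let F : ℕ → Finset ι := fun i =>
    (Finset.range (i + 1)).biUnion fun n => (Encodable.decode (α := ι) n).toFinset
  have hF : ∀ a : ι, ∀ i, Encodable.encode a ≤ i → a ∈ F i := by
    intro a i hi
    simp only [F, Finset.mem_biUnion, Finset.mem_range]
    exact ⟨Encodable.encode a, by omega, by simp⟩
  let E : ℕ → ℕ → Set Ω := fun i N => ⋃ a ∈ F i, {ω | (1 / 2 : ℝ) ^ i ≤ X a N ω}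
  have hE : ∀ i, ∀ᶠ N in atTop, P.real (E i N) ≤ (1 / 2 : ℝ) ^ i := by
    intro i
    have h1 : Tendsto (fun N => ∑ a ∈ F i, P.real {ω | (1 / 2 : ℝ) ^ i ≤ X a N ω}) atTop
        (𝓝 (∑ a ∈ F i, 0)) := tendsto_finsetSum _ fun a _ => h a _ (by positivity)
    rw [Finset.sum_const_zero] at h1
    filter_upwards [h1.eventually (gt_mem_nhds (show (0 : ℝ) < (1 / 2) ^ i by positivity))]
      with N hN
    exact (measureReal_biUnion_finset_le _ _).trans hN.le
  obtain ⟨Ns, hNs, hNs'⟩ := extraction_forall_of_eventually hE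
  refine ⟨Ns, hNs, ?_⟩
  have hsum : ∑' i, P (E i (Ns i)) ≠ ⊤ := by
    have h1 : ∀ i, P (E i (Ns i)) ≤ ENNReal.ofReal ((1 / 2 : ℝ) ^ i) := fun i => by
      rw [← ofReal_measureReal (measure_ne_top P _)]
      exact ENNReal.ofReal_le_ofReal (hNs' i)
    refine ne_top_of_le_ne_top ?_ (ENNReal.tsum_le_tsum h1)
    rw [← ENNReal.ofReal_tsum_of_nonneg (fun i => by positivity)
      (summable_geometric_of_lt_one (by norm_num) (by norm_num))]
    exact ENNReal.ofReal_ne_top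
  have hbc := measure_limsup_atTop_eq_zero hsum
  have hae : ∀ᵐ ω ∂P, ∀ᶠ i in atTop, ω ∉ E i (Ns i) := by
    rw [ae_iff]
    refine measure_mono_null (fun ω hω => ?_) hbc
    simp only [Set.mem_ofPred_eq, not_eventually, not_not] at hω
    rw [Filter.limsup_eq_iInf_iSup_of_nat]
    simp only [Set.iInf_eq_iInter, Set.iSup_eq_iUnion, Set.mem_iInter, Set.mem_iUnion]
    intro n
    obtain ⟨i, hi, hi'⟩ := (Filter.frequently_atTop.1 hω) n
    exact ⟨i, hi, hi'⟩
  filter_upwards [hae] with ω hω a ε hε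
  have h1 : ∀ᶠ i : ℕ in atTop, (1 / 2 : ℝ) ^ i < ε :=
    (tendsto_pow_atTop_nhds_zero_of_lt_one (by norm_num) (by norm_num)).eventually
      (gt_mem_nhds hε)
  filter_upwards [hω, h1, eventually_ge_atTop (Encodable.encode a)] with i h2 h3 h4
  by_contra hcon
  push Not at hcon
  refine h2 ?_
  simp only [E, Set.mem_iUnion]
  exact ⟨a, hF a i h4, (h3.le.trans hcon)⟩

/-! ### coercivity of the passage time -/

variable {G : Measure ℝ} [IsProbabilityMeasure G]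

/-- almost surely `T(z, w) ≥ c |w.1| - B` for every `c < m`, `m = μ e₁` -/
theorem ae_coer (h0 : G (Set.Iio 0) = 0) (hz : G {0} = 0) {m : ℝ} (hm : 0 < m)
    (hB : W.BlockRare G m) :
    ∀ᵐ t ∂(iidLaw G), ∀ c < m, ∀ z : ℤ × ℤ, ∃ B : ℝ, ∀ w : ℤ × ℤ,
      c * |(w.1 : ℝ)| - B ≤ passageTime t z w := by
  have key : ∀ n : ℕ, ∀ a b : ℤ, ∀ᵐ t ∂(iidLaw G), ∀ᶠ k : ℕ in atTop, ∀ y : ℤ,
      (m - 1 / (n + 1)) * k < passageTime t (a, b) (a + k, y) ∧
      (m - 1 / (n + 1)) * k < passageTime t (a, b) (a - k, y) := by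
    intro n a b
    obtain ⟨c, hc, C, hC, h⟩ := W.line_of_blockRare h0 hz hm hB
      (ε := 1 / ((n : ℝ) + 1)) (by positivity)
    have hs : ∀ S : ℕ → Set Environment,
        (∀ k, (iidLaw G).real (S k) ≤ C * Real.exp (-(c * k))) →
        ∀ᵐ t ∂(iidLaw G), ∀ᶠ k in atTop, t ∉ S k := by
      intro S hS
      have h1 : ∑' k, (iidLaw G) (S k) ≠ ⊤ := by
        have h2 : ∀ k, (iidLaw G) (S k) ≤ ENNReal.ofReal (C * Real.exp (-(c * k))) := fun k => by
          rw [← ofReal_measureReal (measure_ne_top _ _)]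
          exact ENNReal.ofReal_le_ofReal (hS k)
        refine ne_top_of_le_ne_top ?_ (ENNReal.tsum_le_tsum h2)
        have h3 : Summable fun k : ℕ => C * Real.exp (-(c * k)) := by
          refine Summable.mul_left C ?_
          have : (fun k : ℕ => Real.exp (-(c * k))) = fun k : ℕ => (Real.exp (-c)) ^ k := by
            funext k
            rw [← Real.exp_nat_mul]
            congr 1; ring
          rw [this]
          exact summable_geometric_of_lt_one (Real.exp_pos _).le (Real.exp_lt_one_iff.2 (by linarith))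
        rw [← ENNReal.ofReal_tsum_of_nonneg (fun k => by positivity) h3]
        exact ENNReal.ofReal_ne_top
      have hbc := measure_limsup_atTop_eq_zero h1
      rw [ae_iff]
      refine measure_mono_null (fun ω hω => ?_) hbc
      simp only [Set.mem_ofPred_eq, not_eventually, not_not] at hω
      rw [Filter.limsup_eq_iInf_iSup_of_nat]
      simp only [Set.iInf_eq_iInter, Set.iSup_eq_iUnion, Set.mem_iInter, Set.mem_iUnion]
      intro n
      obtain ⟨i, hi, hi'⟩ := (Filter.frequently_atTop.1 hω) n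
      exact ⟨i, hi, hi'⟩
    have e1 := hs _ fun k => (h a b k).1
    have e2 := hs _ fun k => (h a b k).2.1
    filter_upwards [e1, e2] with t h1 h2
    filter_upwards [h1, h2] with k h3 h4 y
    simp only [not_exists, not_le] at h3 h4
    exact ⟨h3 y, h4 y⟩
  have key' : ∀ᵐ t ∂(iidLaw G), ∀ n : ℕ, ∀ a b : ℤ, ∀ᶠ k : ℕ in atTop, ∀ y : ℤ,
      (m - 1 / (n + 1)) * k < passageTime t (a, b) (a + k, y) ∧
      (m - 1 / (n + 1)) * k < passageTime t (a, b) (a - k, y) := by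
    rw [ae_all_iff]; intro n; rw [ae_all_iff]; intro a; rw [ae_all_iff]; intro b
    exact key n a b
  filter_upwards [key', ae_Nn h0] with t ht hnn c hc z
  obtain ⟨n, hn⟩ := exists_nat_one_div_lt (show (0 : ℝ) < m - c by linarith)
  obtain ⟨K0, hK0⟩ := (ht n z.1 z.2).exists_forall_of_atTop
  refine ⟨|c| * (K0 + |(z.1 : ℝ)|), fun w => ?_⟩
  have hT := K.pt_nonneg hnn z w
  have hw : |(w.1 : ℝ)| ≤ |((w.1 - z.1 : ℤ) : ℝ)| + |(z.1 : ℝ)| := by
    have : (w.1 : ℝ) = ((w.1 - z.1 : ℤ) : ℝ) + (z.1 : ℝ) := by push_cast; ring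
    rw [this]; exact abs_add_le _ _
  have hcw : c * |(w.1 : ℝ)| ≤ |c| * |(w.1 : ℝ)| :=
    mul_le_mul_of_nonneg_right (le_abs_self c) (abs_nonneg _)
  have habs : 0 ≤ |c| := abs_nonneg c
  set d : ℤ := w.1 - z.1 with hd
  by_cases hsm : d.natAbs < K0
  · have h1 : |((d : ℤ) : ℝ)| ≤ K0 := by
      rw [← Int.cast_abs, Int.abs_eq_natAbs]
      exact_mod_cast hsm.le
    have h2 : |c| * |(w.1 : ℝ)| ≤ |c| * (K0 + |(z.1 : ℝ)|) :=
      mul_le_mul_of_nonneg_left (by linarith) habs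
    linarith
  · push Not at hsm
    have h3 := hK0 d.natAbs hsm w.2
    have hd' : |(d : ℝ)| = ((d.natAbs : ℕ) : ℝ) := by
      rw [← Int.cast_abs, Int.abs_eq_natAbs]
      simp
    have h4 : (m - 1 / (n + 1)) * (d.natAbs : ℝ) < passageTime t z w := by
      rcases le_total 0 d with h5 | h5
      · have e : ((z.1 + (d.natAbs : ℤ) : ℤ), w.2) = w := by
          refine Prod.ext ?_ rfl
          simp only
          omega
        have := h3.1
        rwa [e] at this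
      · have e : ((z.1 - (d.natAbs : ℤ) : ℤ), w.2) = w := by
          refine Prod.ext ?_ rfl
          simp only
          omega
        have := h3.2
        rwa [e] at this
    have h5 : c * (d.natAbs : ℝ) ≤ (m - 1 / (n + 1)) * (d.natAbs : ℝ) :=
      mul_le_mul_of_nonneg_right (by linarith) (by positivity)
    -- `c |w.1| ≤ c |d| + |c| |z.1|`
    have h6 : c * |(w.1 : ℝ)| ≤ c * |(d : ℝ)| + |c| * |(z.1 : ℝ)| := by
      have h7 : |(|(w.1 : ℝ)| - |(d : ℝ)|)| ≤ |(z.1 : ℝ)| := by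
        have := abs_abs_sub_abs_le (w.1 : ℝ) (d : ℝ)
        refine this.trans (le_of_eq ?_)
        congr 1
        rw [hd]; push_cast; ring
      have h8 : c * (|(w.1 : ℝ)| - |(d : ℝ)|) ≤ |c| * |(z.1 : ℝ)| := by
        refine (le_abs_self _).trans ?_
        rw [abs_mul]
        exact mul_le_mul_of_nonneg_left h7 habs
      linarith
    rw [hd'] at h6
    have : 0 ≤ |c| * K0 := by positivity
    linarith

end Crest.Agent.R151.LIN
end

-- ▼ part R151/L763d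

/-!
# R151/L763d — Hopf–Lax for the label functions of the half planes (owner helper763)

Input: line limits `f0 τ` (structure `LineFns`).  Output: the functions `FH f0 τ k` on the half
planes `Hk k`, Hopf–Lax formulas between levels, Lipschitz and gradient properties.
-/

set_option autoImplicit false

open MeasureTheory Filter Topology
open Crest.ProbabilityR.FirstPassage

namespace Crest.Agent.R151.LIN

open K

/-- increments on row `k` of the passage time of the strip `[k, N]` to the point `(b, N)` -/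
noncomputable def gl (k N b : ℤ) (t : Environment) (x : ℤ) : ℝ :=
  pR t (Sp k N) (x, k) (b, N) - pR t (Sp k N) (0, k) (b, N)

/-- label function on row `k` -/
noncomputable def fl (f0 : ℝ → Environment → ℤ → ℝ) (τ : ℝ) (k : ℤ) (t : Environment) (x : ℤ) : ℝ :=
  f0 τ (A.shift (0, k) t) x - f0 τ (A.shift (0, k) t) 0

/-- Hopf–Lax functional of the half plane `Hk k` with datum on row `j` -/
noncomputable def mH (f0 : ℝ → Environment → ℤ → ℝ) (τ : ℝ) (k j : ℤ) (t : Environment)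
    (z : ℤ × ℤ) : ℝ :=
  ⨅ q : ℤ, (pR t (Hk k) z (q, j) + fl f0 τ j t q)

/-- **the label function of the half plane** `Hk k`, normalised at `(0, k)` -/
noncomputable def FH (f0 : ℝ → Environment → ℤ → ℝ) (τ : ℝ) (k : ℤ) (t : Environment)
    (z : ℤ × ℤ) : ℝ :=
  mH f0 τ k (max k z.2 + 1) t z - mH f0 τ k (max k z.2 + 1) t (0, k)

/-- the far target -/
noncomputable def bt (τ : ℝ) (N : ℤ) : ℤ × ℤ := (⌊τ * N⌋, N)

/-- **Input of HLX**: the line limits, for every direction `τ ∈ D`.  `cc τ` is `-` the slope of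
`f0 τ`.  The targets are `(z N, N)` with `z N - ⌊τ N⌋` bounded. -/
structure LineFns (G : Measure ℝ) (D : Set ℝ) (cc : ℝ → ℝ) (m1 : ℝ)
    (f0 : ℝ → Environment → ℤ → ℝ) : Prop where
  conv : ∀ τ ∈ D, ∀ (C : ℤ) (z : ℕ → ℤ), (∀ N : ℕ, |z N - ⌊τ * N⌋| ≤ C) → ∀ x : ℤ,
    ∀ ε : ℝ, 0 < ε → Tendsto (fun N : ℕ => (iidLaw G).real
      {t | ε ≤ |gl 0 N (z N) t x - (f0 τ t x - f0 τ t 0)|}) atTop (𝓝 0)
  slopeR : ∀ τ ∈ D, ∀ᵐ t ∂(iidLaw G), Tendsto (fun x : ℕ => f0 τ t x / x) atTop (𝓝 (-cc τ))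
  slopeL : ∀ τ ∈ D, ∀ᵐ t ∂(iidLaw G), Tendsto (fun x : ℕ => f0 τ t (-x) / x) atTop (𝓝 (cc τ))
  abs_lt : ∀ τ ∈ D, |cc τ| < m1
  lowR : ∀ τ ∈ D, ∃ τ' ∈ D, ∀ (C : ℤ) (z : ℕ → ℤ), (∀ N : ℕ, |z N - ⌊τ * N⌋| ≤ C) →
    Tendsto (fun N : ℕ => (iidLaw G).real
      {t | ∃ x : ℤ, 0 ≤ x ∧ gl 0 N (z N) t x < f0 τ' t x - f0 τ' t 0}) atTop (𝓝 0)
  lowL : ∀ τ ∈ D, ∃ τ' ∈ D, ∀ (C : ℤ) (z : ℕ → ℤ), (∀ N : ℕ, |z N - ⌊τ * N⌋| ≤ C) →
    Tendsto (fun N : ℕ => (iidLaw G).real
      {t | ∃ x : ℤ, x ≤ 0 ∧ gl 0 N (z N) t x < f0 τ' t x - f0 τ' t 0}) atTop (𝓝 0)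

variable {G : Measure ℝ} [IsProbabilityMeasure G] {D : Set ℝ} {cc : ℝ → ℝ} {m1 : ℝ}
  {f0 : ℝ → Environment → ℤ → ℝ}


lemma gl_shift (k N b : ℤ) (t : Environment) (x : ℤ) :
    gl k N b t x = gl 0 (N - k) b (A.shift (0, k) t) x := by
  unfold gl
  have h : ∀ u : ℤ × ℤ, u ∈ Sp 0 (N - k) ↔ u + (0, k) ∈ Sp k N := by
    intro u
    simp only [mem_Sp, Prod.snd_add]
    omega
  rw [pR_shift t (0, k) h, pR_shift t (0, k) h]
  simp

lemma preserving (k : ℤ) : MeasurePreserving (A.shift (0, k)) (iidLaw G) (iidLaw G) :=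
  A.mp_shift G (0, k)

/-- the shift of a not necessarily measurable set has at most... the same measure -/
lemma real_shift_eq (k : ℤ) (S : Set Environment) :
    (iidLaw G).real ((A.shift (0, k)) ⁻¹' S) = (iidLaw G).real S := by
  have h1 : (iidLaw G) ((A.shift (0, k)) ⁻¹' S) = (iidLaw G) S := by
    let e : Environment ≃ᵐ Environment :=
      { toFun := A.shift (0, k)
        invFun := A.shift (0, -k)
        left_inv := fun t => by
          rw [A.shift_shift]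
          have : ((0, -k) + (0, k) : ℤ × ℤ) = 0 := by ext <;> simp
          rw [this, A.shift_zero]
        right_inv := fun t => by
          rw [A.shift_shift]
          have : ((0, k) + (0, -k) : ℤ × ℤ) = 0 := by ext <;> simp
          rw [this, A.shift_zero]
        measurable_toFun := A.measurable_shift _
        measurable_invFun := A.measurable_shift _ }
    have he : MeasurePreserving e (iidLaw G) (iidLaw G) := preserving k
    exact he.measure_preimage_equiv S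
  rw [measureReal_def, measureReal_def, h1]

/-- the abscissa of the target at absolute height `N + j` -/
noncomputable def zj (τ : ℝ) (j : ℤ) (N : ℕ) : ℤ := ⌊τ * ((N : ℤ) + j : ℤ)⌋

lemma zj_close (τ : ℝ) (j : ℤ) (N : ℕ) : |zj τ j N - ⌊τ * N⌋| ≤ ⌈|τ * j|⌉ + 1 := by
  have h1 := Int.floor_le (τ * N)
  have h2 := Int.lt_floor_add_one (τ * N)
  have h3 := Int.floor_le (τ * ((N : ℤ) + j : ℤ))
  have h4 := Int.lt_floor_add_one (τ * ((N : ℤ) + j : ℤ))
  have h5 := Int.le_ceil |τ * j|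
  have h6 := abs_le.1 (le_refl |τ * j|)
  have key : |((zj τ j N - ⌊τ * N⌋ : ℤ) : ℝ)| < (⌈|τ * j|⌉ : ℝ) + 2 := by
    unfold zj
    push_cast at h3 h4 ⊢
    rw [abs_lt]
    constructor <;> nlinarith [h6.1, h6.2]
  have : |zj τ j N - ⌊τ * N⌋| < ⌈|τ * j|⌉ + 2 := by exact_mod_cast key
  omega


lemma real_congr_shift (k : ℤ) {S S' : Set Environment} (h : ∀ t, A.shift (0, k) t ∈ S ↔ t ∈ S') :
    (iidLaw G).real S = (iidLaw G).real S' := by
  rw [← real_shift_eq k S]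
  congr 1
  ext t
  exact h t

lemma gl_row (τ : ℝ) (j : ℤ) (N : ℕ) (t : Environment) (x : ℤ) :
    gl 0 N (zj τ j N) (A.shift (0, j) t) x = gl j (N + j) (zj τ j N) t x := by
  rw [gl_shift j]
  congr 1
  omega

/-- along the absolute heights `N + j` the functions of row `j` converge in probability -/
lemma conv_row (L : LineFns G D cc m1 f0) {τ : ℝ} (hτ : τ ∈ D) (j x : ℤ) {ε : ℝ} (hε : 0 < ε) :
    Tendsto (fun N : ℕ => (iidLaw G).real
      {t | ε ≤ |gl j (N + j) (zj τ j N) t x - fl f0 τ j t x|}) atTop (𝓝 0) := by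
  have h := L.conv τ hτ _ _ (zj_close τ j) x ε hε
  refine h.congr fun N => ?_
  refine real_congr_shift j fun t => ?_
  simp only [Set.mem_ofPred_eq, gl_row, fl]

lemma low_row_aux {τ τ' : ℝ} (j : ℤ) (s : ℤ → Prop)
    (h : Tendsto (fun N : ℕ => (iidLaw G).real
      {t | ∃ x : ℤ, s x ∧ gl 0 N (zj τ j N) t x < f0 τ' t x - f0 τ' t 0}) atTop (𝓝 0)) :
    Tendsto (fun N : ℕ => (iidLaw G).real
      {t | ∃ x : ℤ, s x ∧ gl j (N + j) (zj τ j N) t x < fl f0 τ' j t x}) atTop (𝓝 0) := by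
  refine h.congr fun N => ?_
  refine real_congr_shift j fun t => ?_
  simp only [Set.mem_ofPred_eq, gl_row, fl]

/-- change of parametrisation: heights `N` instead of `N + j` -/
lemma tendsto_reheight (j : ℤ) {u : ℤ → ℝ}
    (h : Tendsto (fun N : ℕ => u (N + j)) atTop (𝓝 0)) :
    Tendsto (fun N : ℕ => u N) atTop (𝓝 0) := by
  rw [Metric.tendsto_atTop] at h ⊢
  intro ε hε
  obtain ⟨N0, hN0⟩ := h ε hε
  refine ⟨N0 + j.natAbs, fun N hN => ?_⟩
  have h1 : ((((N : ℤ) - j).toNat : ℕ) : ℤ) = (N : ℤ) - j := by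
    rw [Int.toNat_of_nonneg]; omega
  have h2 := hN0 ((N : ℤ) - j).toNat (by omega)
  rw [h1] at h2
  simpa using h2

/-- function of row `j` at the finite height `N` -/
noncomputable def gN (τ : ℝ) (j : ℤ) (N : ℤ) (t : Environment) (x : ℤ) : ℝ :=
  gl j N ⌊τ * N⌋ t x

/-- **the subsequence of heights** -/
theorem exists_sub (L : LineFns G D cc m1 f0) {τ : ℝ} (hτ : τ ∈ D) :
    ∃ τR ∈ D, ∃ τL ∈ D, ∃ Ns : ℕ → ℕ, StrictMono Ns ∧ ∀ᵐ t ∂(iidLaw G), ∀ j : ℤ,
      (∀ x : ℤ, Tendsto (fun i => gN τ j (Ns i) t x) atTop (𝓝 (fl f0 τ j t x))) ∧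
      (∀ᶠ i in atTop, ∀ x : ℤ, 0 ≤ x → fl f0 τR j t x ≤ gN τ j (Ns i) t x) ∧
      (∀ᶠ i in atTop, ∀ x : ℤ, x ≤ 0 → fl f0 τL j t x ≤ gN τ j (Ns i) t x) := by
  classical
  obtain ⟨τR, hR, hR'⟩ := L.lowR τ hτ
  obtain ⟨τL, hL, hL'⟩ := L.lowL τ hτ
  refine ⟨τR, hR, τL, hL, ?_⟩
  let X : (ℤ × ℤ) ⊕ (ℤ ⊕ ℤ) → ℕ → Environment → ℝ := fun a N t =>
    match a with
    | Sum.inl (j, x) => |gN τ j N t x - fl f0 τ j t x|
    | Sum.inr (Sum.inl j) => if ∃ x : ℤ, 0 ≤ x ∧ gN τ j N t x < fl f0 τR j t x then 1 else 0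
    | Sum.inr (Sum.inr j) => if ∃ x : ℤ, x ≤ 0 ∧ gN τ j N t x < fl f0 τL j t x then 1 else 0
  have hX : ∀ a, ∀ ε : ℝ, 0 < ε →
      Tendsto (fun N => (iidLaw G).real {t | ε ≤ X a N t}) atTop (𝓝 0) := by
    rintro (⟨j, x⟩ | j | j) ε hε
    · refine tendsto_reheight j (u := fun N : ℤ => (iidLaw G).real
        {t | ε ≤ |gN τ j N t x - fl f0 τ j t x|}) ?_
      have := conv_row L hτ j x hε
      exact this
    · have h1 := tendsto_reheight j (u := fun N : ℤ => (iidLaw G).real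
        {t | ∃ x : ℤ, 0 ≤ x ∧ gN τ j N t x < fl f0 τR j t x})
        (low_row_aux j (fun x => 0 ≤ x) (hR' _ _ (zj_close τ j)))
      refine squeeze_zero (fun _ => measureReal_nonneg) (fun N => ?_) h1
      refine measureReal_mono (fun t ht => ?_) (measure_ne_top _ _)
      simp only [X, Set.mem_ofPred_eq] at ht ⊢
      by_contra hcon
      rw [if_neg hcon] at ht
      linarith
    · have h1 := tendsto_reheight j (u := fun N : ℤ => (iidLaw G).real
        {t | ∃ x : ℤ, x ≤ 0 ∧ gN τ j N t x < fl f0 τL j t x})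
        (low_row_aux j (fun x => x ≤ 0) (hL' _ _ (zj_close τ j)))
      refine squeeze_zero (fun _ => measureReal_nonneg) (fun N => ?_) h1
      refine measureReal_mono (fun t ht => ?_) (measure_ne_top _ _)
      simp only [X, Set.mem_ofPred_eq] at ht ⊢
      by_contra hcon
      rw [if_neg hcon] at ht
      linarith
  obtain ⟨Ns, hNs, hae⟩ := exists_diag X hX
  refine ⟨Ns, hNs, ?_⟩
  filter_upwards [hae] with t ht j
  refine ⟨fun x => ?_, ?_, ?_⟩
  · rw [Metric.tendsto_atTop]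
    intro ε hε
    obtain ⟨i0, hi0⟩ := (ht (Sum.inl (j, x)) ε hε).exists_forall_of_atTop
    exact ⟨i0, fun i hi => by rw [Real.dist_eq]; exact hi0 i hi⟩
  · filter_upwards [ht (Sum.inr (Sum.inl j)) 1 one_pos] with i hi x hx
    by_contra hcon
    push Not at hcon
    simp only [X] at hi
    rw [if_pos ⟨x, hx, hcon⟩] at hi
    exact lt_irrefl _ hi
  · filter_upwards [ht (Sum.inr (Sum.inr j)) 1 one_pos] with i hi x hx
    by_contra hcon
    push Not at hcon
    simp only [X] at hi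
    rw [if_pos ⟨x, hx, hcon⟩] at hi
    exact lt_irrefl _ hi

/-- a function on `ℕ` with slope `> -c` is at least `-(c x) - B` -/
lemma exists_lower {u : ℕ → ℝ} {a c : ℝ} (h : Tendsto (fun x : ℕ => u x / x) atTop (𝓝 a))
    (hc : -c < a) : ∃ B : ℝ, ∀ x : ℕ, -(c * x) - B ≤ u x := by
  have h1 := (h.eventually (lt_mem_nhds hc)).and (eventually_gt_atTop 0)
  obtain ⟨x0, hx0⟩ := h1.exists_forall_of_atTop
  refine ⟨∑ x ∈ Finset.range x0, |u x + c * x|, fun x => ?_⟩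
  have hnn : 0 ≤ ∑ x ∈ Finset.range x0, |u x + c * x| := Finset.sum_nonneg fun _ _ => abs_nonneg _
  by_cases hx : x < x0
  · have := Finset.single_le_sum (f := fun x : ℕ => |u x + c * x|) (fun _ _ => abs_nonneg _)
      (Finset.mem_range.2 hx)
    have h2 := neg_abs_le (u x + c * x)
    linarith
  · push Not at hx
    obtain ⟨h2, h3⟩ := hx0 x hx
    have h4 : (0 : ℝ) < x := by exact_mod_cast h3
    rw [lt_div_iff₀ h4] at h2
    linarith

/-- everything that is needed about one environment, for a fixed direction `τ` -/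
structure Good (f0 : ℝ → Environment → ℤ → ℝ) (m1 τ : ℝ) (Ns : ℕ → ℕ) (t : Environment) : Prop where
  nn : Nn t
  sub : StrictMono Ns
  conv : ∀ j x : ℤ, Tendsto (fun i => gN τ j (Ns i) t x) atTop (𝓝 (fl f0 τ j t x))
  low : ∃ c2 < m1, ∀ j : ℤ, ∃ B : ℝ, ∀ᶠ i in atTop, ∀ x : ℤ,
    -(c2 * |(x : ℝ)|) - B ≤ gN τ j (Ns i) t x
  coer : ∀ c < m1, ∀ z : ℤ × ℤ, ∃ B : ℝ, ∀ w : ℤ × ℤ, c * |(w.1 : ℝ)| - B ≤ passageTime t z w

theorem ae_good (L : LineFns G D cc m1 f0) (h0 : G (Set.Iio 0) = 0) (hz : G {0} = 0)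
    (hm : 0 < m1) (hB : W.BlockRare G m1) {τ : ℝ} (hτ : τ ∈ D) :
    ∃ Ns : ℕ → ℕ, ∀ᵐ t ∂(iidLaw G), Good f0 m1 τ Ns t := by
  obtain ⟨τR, hR, τL, hL, Ns, hNs, hae⟩ := exists_sub L hτ
  refine ⟨Ns, ?_⟩
  have hsR : ∀ᵐ t ∂(iidLaw G), ∀ j : ℤ,
      Tendsto (fun x : ℕ => f0 τR (A.shift (0, j) t) x / x) atTop (𝓝 (-cc τR)) := by
    rw [ae_all_iff]; intro j
    exact (preserving j).quasiMeasurePreserving.ae (L.slopeR τR hR)
  have hsL : ∀ᵐ t ∂(iidLaw G), ∀ j : ℤ,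
      Tendsto (fun x : ℕ => f0 τL (A.shift (0, j) t) (-x) / x) atTop (𝓝 (cc τL)) := by
    rw [ae_all_iff]; intro j
    exact (preserving j).quasiMeasurePreserving.ae (L.slopeL τL hL)
  filter_upwards [hae, hsR, hsL, ae_Nn h0, ae_coer h0 hz hm hB] with t h1 h2 h3 h4 h5
  have hcR := L.abs_lt τR hR
  have hcL := L.abs_lt τL hL
  obtain ⟨c2, hc2, hc2'⟩ := exists_between (max_lt hcR hcL)
  have hR2 : |cc τR| < c2 := (le_max_left _ _).trans_lt hc2
  have hL2 : |cc τL| < c2 := (le_max_right _ _).trans_lt hc2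
  refine ⟨h4, hNs, fun j x => (h1 j).1 x, ⟨c2, hc2', fun j => ?_⟩, h5⟩
  obtain ⟨BR, hBR⟩ := exists_lower (c := c2) (h2 j) (by
    have := (abs_lt.1 hR2).2; linarith)
  obtain ⟨BL, hBL⟩ := exists_lower (c := c2) (h3 j) (by
    have := (abs_lt.1 hL2).1; linarith)
  refine ⟨max (BR + f0 τR (A.shift (0, j) t) 0) (BL + f0 τL (A.shift (0, j) t) 0), ?_⟩
  filter_upwards [(h1 j).2.1, (h1 j).2.2] with i h6 h7 x
  rcases le_total 0 x with hx | hx
  · have h8 := h6 x hx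
    obtain ⟨n, rfl⟩ := Int.eq_ofNat_of_zero_le hx
    have h9 := hBR n
    have h10 := le_max_left (BR + f0 τR (A.shift (0, j) t) 0) (BL + f0 τL (A.shift (0, j) t) 0)
    simp only [fl] at h8
    have h11 : |((n : ℤ) : ℝ)| = (n : ℝ) := by simp
    rw [h11]
    linarith
  · have h8 := h7 x hx
    obtain ⟨n, hn⟩ := Int.eq_ofNat_of_zero_le (show 0 ≤ -x by omega)
    have hx' : x = -(n : ℤ) := by omega
    subst hx'
    have h9 := hBL n
    have h10 := le_max_right (BR + f0 τR (A.shift (0, j) t) 0) (BL + f0 τL (A.shift (0, j) t) 0)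
    simp only [fl] at h8
    have h11 : |((-(n : ℤ) : ℤ) : ℝ)| = (n : ℝ) := by simp
    rw [h11]
    linarith

variable {τ : ℝ} {Ns : ℕ → ℕ} {t : Environment}

lemma Good.tendsto_Ns (h : Good f0 m1 τ Ns t) : Tendsto (fun i => ((Ns i : ℕ) : ℤ)) atTop atTop :=
  tendsto_natCast_atTop_atTop.comp h.sub.tendsto_atTop

/-- **The basic limit**: Hopf–Lax from row `j`. -/
theorem Good.main (h : Good f0 m1 τ Ns t) {k j : ℤ} (hkj : k ≤ j) {z : ℤ × ℤ} (hz : z ∈ Hk k)
    (hzj : z.2 ≤ j) :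
    BddBelow (Set.range fun q : ℤ => pR t (Hk k) z (q, j) + fl f0 τ j t q) ∧
    Tendsto (fun i => pR t (Sp k (Ns i)) z (bt τ (Ns i)) - pR t (Sp j (Ns i)) (0, j) (bt τ (Ns i)))
      atTop (𝓝 (mH f0 τ k j t z)) ∧
    ∃ q : ℤ, pR t (Hk k) z (q, j) + fl f0 τ j t q = mH f0 τ k j t z := by
  obtain ⟨c2, hc2, hlow⟩ := h.low
  obtain ⟨B2, hB2⟩ := hlow j
  obtain ⟨c1, hc1, hc1'⟩ := exists_between hc2
  obtain ⟨B1, hB1⟩ := h.coer c1 hc1' z
  have hbig : ∀ᶠ i in atTop, j ≤ Ns i := h.tendsto_Ns.eventually_ge_atTop j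
  refine hopfLax_lim h.nn hkj hz h.tendsto_Ns (g := fun i q => gN τ j (Ns i) t q)
    (fun q => h.conv j q) hc1 (fun q => hB1 (q, j)) hB2 ?_ ?_
  · filter_upwards [hbig] with i hi q
    have m1 : z ∈ Sp k (Ns i) := ⟨hz, hzj.trans hi⟩
    have m2 : ((q, j) : ℤ × ℤ) ∈ Sp k (Ns i) := ⟨hkj, hi⟩
    have m3 : ((q, j) : ℤ × ℤ) ∈ Sp j (Ns i) := ⟨le_rfl, hi⟩
    have m4 : bt τ (Ns i) ∈ Sp k (Ns i) := ⟨hkj.trans hi, le_rfl⟩
    have m5 : bt τ (Ns i) ∈ Sp j (Ns i) := ⟨hi, le_rfl⟩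
    have h1 := pR_triangle h.nn (conn_Sp m1 m2) (conn_Sp m2 m4)
    have h2 : pR t (Sp k (Ns i)) (q, j) (bt τ (Ns i)) ≤ pR t (Sp j (Ns i)) (q, j) (bt τ (Ns i)) :=
      pR_anti h.nn (fun u (hu : j ≤ u.2 ∧ u.2 ≤ _) => (⟨hkj.trans hu.1, hu.2⟩ : k ≤ u.2 ∧ u.2 ≤ _))
        (conn_Sp m3 m5)
    simp only [gN, gl]
    change _ ≤ pR t (Sp k (Ns i)) z (q, j) + (pR t (Sp j (Ns i)) (q, j) (bt τ (Ns i)) -
      pR t (Sp j (Ns i)) (0, j) (bt τ (Ns i)))
    linarith
  · filter_upwards [hbig] with i hi ε hε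
    have m1 : z ∈ Sp k (Ns i) := ⟨hz, hzj.trans hi⟩
    have m4 : bt τ (Ns i) ∈ Sp k (Ns i) := ⟨hkj.trans hi, le_rfl⟩
    obtain ⟨q, -, -, hq⟩ := exists_cut h.nn (conn_Sp m1 m4) hzj (show j ≤ (bt τ (Ns i)).2 from hi) hε
    rw [Sp_inter hkj] at hq
    refine ⟨q, ?_⟩
    simp only [gN, gl]
    change pR t (Sp k (Ns i)) z (q, j) + (pR t (Sp j (Ns i)) (q, j) (bt τ (Ns i)) -
      pR t (Sp j (Ns i)) (0, j) (bt τ (Ns i))) ≤ _
    linarith

end Crest.Agent.R151.LIN
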