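import Crest.Agent.R151.L763e
import Crest.Agent.R151.D624d

/-!
# R151/L763f — covariance, monotonicity, measurability, dependence of the label functions
(owner helper763)
-/

set_option autoImplicit false

open MeasureTheory Filter Topology
open Crest.ProbabilityR.FirstPassage

namespace Crest.Agent.R151.LIN

open K

section abstract

variable {Ω : Type*} [MeasurableSpace Ω] {P : Measure Ω} [IsProbabilityMeasure P]

/-- limits in probability of ordered sequences are ordered (no measurability) -/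
lemma ae_le_of_prob {U V : ℕ → Ω → ℝ} {u v : Ω → ℝ} (hUV : ∀ᵐ ω ∂P, ∀ᶠ N in atTop, U N ω ≤ V N ω)
    (hU : ∀ ε : ℝ, 0 < ε → Tendsto (fun N => P.real {ω | ε ≤ |U N ω - u ω|}) atTop (𝓝 0))
    (hV : ∀ ε : ℝ, 0 < ε → Tendsto (fun N => P.real {ω | ε ≤ |V N ω - v ω|}) atTop (𝓝 0)) :
    ∀ᵐ ω ∂P, u ω ≤ v ω := by
  obtain ⟨Ns, hNs, hae⟩ := exists_diag (ι := Bool) (P := P)
    (fun b N ω => if b then |U N ω - u ω| else |V N ω - v ω|) (by
      rintro (_ | _) ε hε
      · simpa using hV ε hε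
      · simpa using hU ε hε)
  filter_upwards [hae, hUV] with ω hω hω'
  have e1 : ∀ ε : ℝ, 0 < ε → ∀ᶠ i in atTop, |U (Ns i) ω - u ω| < ε := fun ε hε => by
    simpa using hω true ε hε
  have e2 : ∀ ε : ℝ, 0 < ε → ∀ᶠ i in atTop, |V (Ns i) ω - v ω| < ε := fun ε hε => by
    simpa using hω false ε hε
  refine le_of_forall_pos_le_add fun ε hε => ?_
  obtain ⟨i, h1, h2, h3⟩ := ((e1 (ε / 2) (by linarith)).and ((e2 (ε / 2) (by linarith)).and
    (hNs.tendsto_atTop.eventually hω'))).exists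
  have h4 := (abs_lt.1 h1).1
  have h5 := (abs_lt.1 h2).2
  linarith

lemma ae_eq_of_prob {U : ℕ → Ω → ℝ} {u v : Ω → ℝ}
    (hU : ∀ ε : ℝ, 0 < ε → Tendsto (fun N => P.real {ω | ε ≤ |U N ω - u ω|}) atTop (𝓝 0))
    (hV : ∀ ε : ℝ, 0 < ε → Tendsto (fun N => P.real {ω | ε ≤ |U N ω - v ω|}) atTop (𝓝 0)) :
    ∀ᵐ ω ∂P, u ω = v ω := by
  filter_upwards [ae_le_of_prob (Eventually.of_forall fun _ => Eventually.of_forall fun _ => le_rfl)
    hU hV, ae_le_of_prob (Eventually.of_forall fun _ => Eventually.of_forall fun _ => le_rfl)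
    hV hU] with ω h1 h2
  exact le_antisymm h1 h2

lemma prob_sub {U V : ℕ → Ω → ℝ} {u v : Ω → ℝ}
    (hU : ∀ ε : ℝ, 0 < ε → Tendsto (fun N => P.real {ω | ε ≤ |U N ω - u ω|}) atTop (𝓝 0))
    (hV : ∀ ε : ℝ, 0 < ε → Tendsto (fun N => P.real {ω | ε ≤ |V N ω - v ω|}) atTop (𝓝 0))
    (ε : ℝ) (hε : 0 < ε) :
    Tendsto (fun N => P.real {ω | ε ≤ |(U N ω - V N ω) - (u ω - v ω)|}) atTop (𝓝 0) := by
  have h := (hU (ε / 2) (by linarith)).add (hV (ε / 2) (by linarith))
  rw [add_zero] at h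
  refine squeeze_zero (fun _ => measureReal_nonneg) (fun N => ?_) h
  refine (measureReal_mono (fun ω hω => ?_) (measure_ne_top _ _)).trans (measureReal_union_le _ _)
  simp only [Set.mem_ofPred_eq, Set.mem_union] at hω ⊢
  by_contra hcon
  push Not at hcon
  have h1 := abs_lt.1 hcon.1
  have h2 := abs_lt.1 hcon.2
  have h3 : |(U N ω - V N ω) - (u ω - v ω)| < ε := by
    rw [abs_lt]; constructor <;> linarith [h1.1, h1.2, h2.1, h2.2]
  linarith

end abstract

variable {G : Measure ℝ} [IsProbabilityMeasure G] {D : Set ℝ} {cc : ℝ → ℝ} {m1 : ℝ}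
  {f0 : ℝ → Environment → ℤ → ℝ}

lemma preserving' (a : ℤ × ℤ) : MeasurePreserving (A.shift a) (iidLaw G) (iidLaw G) :=
  A.mp_shift G a

/-- shifts preserve the (outer) measure of arbitrary sets -/
lemma real_shift_eq' (a : ℤ × ℤ) (S : Set Environment) :
    (iidLaw G).real ((A.shift a) ⁻¹' S) = (iidLaw G).real S := by
  have h1 : (iidLaw G) ((A.shift a) ⁻¹' S) = (iidLaw G) S := by
    let e : Environment ≃ᵐ Environment :=
      { toFun := A.shift a
        invFun := A.shift (-a)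
        left_inv := fun t => by rw [A.shift_shift, neg_add_cancel, A.shift_zero]
        right_inv := fun t => by rw [A.shift_shift, add_neg_cancel, A.shift_zero]
        measurable_toFun := A.measurable_shift _
        measurable_invFun := A.measurable_shift _ }
    have he : MeasurePreserving e (iidLaw G) (iidLaw G) := preserving' a
    exact he.measure_preimage_equiv S
  rw [measureReal_def, measureReal_def, h1]

lemma prob_shift (a : ℤ × ℤ) {U : ℕ → Environment → ℝ} {u : Environment → ℝ}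
    (hU : ∀ ε : ℝ, 0 < ε → Tendsto (fun N => (iidLaw G).real {t | ε ≤ |U N t - u t|}) atTop (𝓝 0))
    (ε : ℝ) (hε : 0 < ε) :
    Tendsto (fun N => (iidLaw G).real {t | ε ≤ |U N (A.shift a t) - u (A.shift a t)|})
      atTop (𝓝 0) := by
  refine (hU ε hε).congr fun N => ?_
  rw [← real_shift_eq' a {t | ε ≤ |U N t - u t|}]
  rfl

/-! ### covariance -/

lemma gl_hshift (N b a : ℤ) (t : Environment) (x : ℤ) :
    gl 0 N b (A.shift (a, 0) t) x = gl 0 N (b + a) t (x + a) - gl 0 N (b + a) t a := by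
  unfold gl
  have h : ∀ u : ℤ × ℤ, u ∈ Sp 0 N ↔ u + (a, 0) ∈ Sp 0 N := by
    intro u
    simp only [mem_Sp, Prod.snd_add, add_zero]
  rw [pR_shift t (a, 0) h, pR_shift t (a, 0) h]
  simp only [Prod.mk_add_mk, add_zero, zero_add]
  ring

/-- horizontal covariance of the line functions -/
theorem LineFns.hcov (L : LineFns G D cc m1 f0) {τ : ℝ} (hτ : τ ∈ D) (a : ℤ) :
    ∀ᵐ t ∂(iidLaw G), ∀ x : ℤ, f0 τ (A.shift (a, 0) t) x - f0 τ (A.shift (a, 0) t) 0 =
      f0 τ t (x + a) - f0 τ t a := by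
  rw [ae_all_iff]
  intro x
  have h1 := prob_shift (a, 0) (fun ε hε => L.conv τ hτ 0 (fun N => ⌊τ * N⌋) (by simp) x ε hε)
  have h2 := L.conv τ hτ |a| (fun N => ⌊τ * N⌋ + a) (by simp) (x + a)
  have h3 := L.conv τ hτ |a| (fun N => ⌊τ * N⌋ + a) (by simp) a
  have h4 := prob_sub h2 h3
  refine ae_eq_of_prob h1 (fun ε hε => ?_)
  refine (h4 ε hε).congr fun N => ?_
  congr 1
  ext t
  simp only [Set.mem_ofPred_eq, gl_hshift]
  rw [show f0 τ t (x + a) - f0 τ t 0 - (f0 τ t a - f0 τ t 0) = f0 τ t (x + a) - f0 τ t a by ring]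

/-- **covariance of the label functions of all rows under all shifts** -/
theorem LineFns.cov (L : LineFns G D cc m1 f0) {τ : ℝ} (hτ : τ ∈ D) :
    ∀ᵐ t ∂(iidLaw G), ∀ (a : ℤ × ℤ) (k x : ℤ),
      fl f0 τ k (A.shift a t) x = fl f0 τ (k + a.2) t (x + a.1) - fl f0 τ (k + a.2) t a.1 := by
  rw [ae_all_iff]
  intro a
  rw [ae_all_iff]
  intro k
  have h := (preserving' (G := G) (0, k + a.2)).quasiMeasurePreserving.ae (L.hcov hτ a.1)
  filter_upwards [h] with t ht x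
  have h1 := ht x
  rw [A.shift_shift] at h1
  have h2 : ((a.1, 0) + (0, k + a.2) : ℤ × ℤ) = (0, k) + a := by
    ext <;> simp
  rw [h2] at h1
  unfold fl
  rw [A.shift_shift, h1]
  ring

/-! ### monotonicity in the direction -/

lemma gl_mono {t : Environment} (ht : Nn t) {N b b' : ℤ} (hN : 0 ≤ N) (hb : b ≤ b') {x y : ℤ}
    (hxy : x ≤ y) : gl 0 N b' t y - gl 0 N b' t x ≤ gl 0 N b t y - gl 0 N b t x := by
  have m : ∀ u : ℤ, ((u, 0) : ℤ × ℤ) ∈ Sp 0 N := fun u => ⟨le_rfl, hN⟩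
  have m' : ∀ u : ℤ, ((u, N) : ℤ × ℤ) ∈ Sp 0 N := fun u => ⟨hN, le_rfl⟩
  have := Pl.strip_switch ht (R := Sp 0 N) (lo := 0) (hi := N) (fun z hz => hz)
    (a := (x, 0)) (b := (y, 0)) (c := (b, N)) (d := (b', N)) rfl rfl rfl rfl hxy hb
    (conn_Sp (m x) (m' b')) (conn_Sp (m y) (m' b))
  unfold gl
  linarith

theorem LineFns.mono (L : LineFns G D cc m1 f0) (h0 : G (Set.Iio 0) = 0) {τ τ' : ℝ} (hτ : τ ∈ D)
    (hτ' : τ' ∈ D) (hle : τ ≤ τ') : ∀ᵐ t ∂(iidLaw G), ∀ x y : ℤ, x ≤ y →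
      f0 τ' t y - f0 τ' t x ≤ f0 τ t y - f0 τ t x := by
  rw [ae_all_iff]; intro x
  rw [ae_all_iff]; intro y
  by_cases hxy : x ≤ y
  swap
  · exact Eventually.of_forall fun t h => absurd h hxy
  have e1 := prob_sub (fun ε hε => L.conv τ' hτ' 0 (fun N => ⌊τ' * N⌋) (by simp) y ε hε)
    (fun ε hε => L.conv τ' hτ' 0 (fun N => ⌊τ' * N⌋) (by simp) x ε hε)
  have e2 := prob_sub (fun ε hε => L.conv τ hτ 0 (fun N => ⌊τ * N⌋) (by simp) y ε hε)
    (fun ε hε => L.conv τ hτ 0 (fun N => ⌊τ * N⌋) (by simp) x ε hε)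
  have key := ae_le_of_prob (P := iidLaw G) (U := fun N t => gl 0 N ⌊τ' * N⌋ t y - gl 0 N ⌊τ' * N⌋ t x)
    (V := fun N t => gl 0 N ⌊τ * N⌋ t y - gl 0 N ⌊τ * N⌋ t x) ?_ e1 e2
  · filter_upwards [key] with t ht _
    linarith
  · filter_upwards [ae_Nn h0] with t ht
    refine Eventually.of_forall fun N => gl_mono ht (by positivity) ?_ hxy
    exact Int.floor_le_floor (by gcongr)

theorem LineFns.fl_mono (L : LineFns G D cc m1 f0) (h0 : G (Set.Iio 0) = 0) {τ τ' : ℝ}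
    (hτ : τ ∈ D) (hτ' : τ' ∈ D) (hle : τ ≤ τ') : ∀ᵐ t ∂(iidLaw G), ∀ k x y : ℤ, x ≤ y →
      fl f0 τ' k t y - fl f0 τ' k t x ≤ fl f0 τ k t y - fl f0 τ k t x := by
  rw [ae_all_iff]; intro k
  filter_upwards [(preserving k).quasiMeasurePreserving.ae (L.mono h0 hτ hτ' hle)] with t ht x y hxy
  have := ht x y hxy
  unfold fl
  linarith

/-! ### slopes on every row -/

theorem LineFns.slopes (L : LineFns G D cc m1 f0) {τ : ℝ} (hτ : τ ∈ D) :
    ∀ᵐ t ∂(iidLaw G), ∀ k : ℤ,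
      Tendsto (fun x : ℕ => fl f0 τ k t x / x) atTop (𝓝 (-cc τ)) ∧
      Tendsto (fun x : ℕ => fl f0 τ k t (-x) / x) atTop (𝓝 (cc τ)) := by
  rw [ae_all_iff]; intro k
  filter_upwards [(preserving k).quasiMeasurePreserving.ae (L.slopeR τ hτ),
    (preserving k).quasiMeasurePreserving.ae (L.slopeL τ hτ)] with t h1 h2
  have h3 : Tendsto (fun x : ℕ => f0 τ (A.shift (0, k) t) 0 / (x : ℝ)) atTop (𝓝 0) :=
    tendsto_const_div_atTop_nhds_zero_nat _
  constructor
  · have := h1.sub h3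
    rw [sub_zero] at this
    refine this.congr fun x => ?_
    unfold fl
    ring
  · have := h2.sub h3
    rw [sub_zero] at this
    refine this.congr fun x => ?_
    unfold fl
    ring

/-! ### measurability and dependence -/

/-- measurability and exact dependence of the data -/
structure LineMeas (f0 : ℝ → Environment → ℤ → ℝ) : Prop where
  meas : ∀ τ x, Measurable fun t => f0 τ t x
  dep : ∀ τ t t', (∀ e ∈ edgesIn (Hk 0), t e = t' e) → f0 τ t = f0 τ t'

variable (M : LineMeas f0)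
include M

lemma LineMeas.fl_meas (τ : ℝ) (k x : ℤ) : Measurable fun t => fl f0 τ k t x :=
  ((M.meas τ x).comp (A.measurable_shift _)).sub ((M.meas τ 0).comp (A.measurable_shift _))

omit M in
lemma shift_agree {k : ℤ} {t t' : Environment} (h : ∀ e ∈ edgesIn (Hk k), t e = t' e) :
    ∀ e ∈ edgesIn (Hk 0), A.shift (0, k) t e = A.shift (0, k) t' e := by
  intro e he
  rw [A.shift_apply, A.shift_apply]
  induction e with
  | h a b =>
    rw [A.eShift_mk]
    have h1 := mem_edgesIn.1 he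
    simp only [mem_Hk] at h1
    refine h _ (mem_edgesIn.2 ?_)
    simp only [mem_Hk, Prod.snd_add]
    omega

lemma LineMeas.fl_dep (τ : ℝ) (k : ℤ) {t t' : Environment}
    (h : ∀ e ∈ edgesIn (Hk k), t e = t' e) : fl f0 τ k t = fl f0 τ k t' := by
  funext x
  unfold fl
  rw [M.dep τ _ _ (shift_agree h)]






omit M

/-! ### covariance of `FH` -/

variable {τ : ℝ} {Ns : ℕ → ℕ} {t : Environment}





/-- **the structure of helper624** -/
theorem LineFns.hl (L : LineFns G D cc m1 f0) (M : LineMeas f0) (h0 : G (Set.Iio 0) = 0)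
    (hz : G {0} = 0) (hm : 0 < m1) (hB : W.BlockRare G m1) {τ : ℝ} (hτ : τ ∈ D) :
    D624.HL G (fun k t x => fl f0 τ k t x) := by
  obtain ⟨Ns, hG⟩ := ae_good L h0 hz hm hB hτ
  refine ⟨fun k x => M.fl_meas τ k x, fun k t t' h => M.fl_dep τ k h, ?_, ?_, ?_⟩
  · filter_upwards [L.cov hτ] with t ht z k
    exact ⟨-fl f0 τ (k + z.2) t z.1, fun x => by rw [ht z k x]; ring⟩
  · filter_upwards [hG] with t ht k x y
    rw [← ht.FH_row, ← ht.FH_row]
    have := ht.FH_sub_le (k := k) (z := (x, k)) (z' := (y, k)) (le_refl k) (le_refl k)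
    rwa [pR_eq_pt (le_refl k : ((x, k) : ℤ × ℤ) ∈ Hk k)] at this
  · filter_upwards [hG] with t ht k h hkh
    obtain ⟨κ, hκ⟩ := ht.hopfLax hkh.le
    refine ⟨κ, fun x => ?_⟩
    have hx : ((x, k) : ℤ × ℤ) ∈ Hk k := le_refl k
    obtain ⟨h1, q, h2⟩ := hκ (x, k) hx hkh.le
    rw [ht.FH_row, ht.FH_row, pR_eq_pt hx] at h2
    refine ⟨fun w => ?_, q, h2⟩
    have := h1 w
    rwa [ht.FH_row, ht.FH_row, pR_eq_pt hx] at this

end Crest.Agent.R151.LIN
namespace Crest.Agent.R151.LIN.Good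
end Crest.Agent.R151.LIN.Good
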