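import Crest.Agent.R151.L763f
import Crest.Agent.R151.D411a

-- ▼ part R151/L763g
section

/-!
# R151/L763g — from the localisation (L) of near geodesics to the one sided lower bounds
`lowR`, `lowL` of `LineFns` (owner helper763)
-/

set_option autoImplicit false

open MeasureTheory Filter Topology
open Crest.ProbabilityR.FirstPassage

namespace Crest.Agent.R151.LIN

open K

lemma Sp_inter_le {k N M : ℤ} (h : N ≤ M) : Sp k M ∩ {u : ℤ × ℤ | u.2 ≤ N} = Sp k N := by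
  ext u
  simp only [Set.mem_inter_iff, mem_Sp, Set.mem_ofPred_eq]
  omega

/-- `w` is almost optimal for the first hit of row `N` on the way from `(0,0)` to `(b, M)` -/
def NearOpt (t : Environment) (N M b w : ℤ) : Prop :=
  pR t (Sp 0 N) (0, 0) (w, N) + pR t (Sp 0 M) (w, N) (b, M) ≤ pR t (Sp 0 M) (0, 0) (b, M) + 1

lemma exists_nearOpt {t : Environment} (ht : Nn t) {N M b : ℤ} (hN : 0 ≤ N) (hNM : N ≤ M) {ε : ℝ}
    (hε : 0 < ε) : ∃ w : ℤ, pR t (Sp 0 N) (0, 0) (w, N) + pR t (Sp 0 M) (w, N) (b, M) ≤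
      pR t (Sp 0 M) (0, 0) (b, M) + ε := by
  have m0 : ((0, 0) : ℤ × ℤ) ∈ Sp 0 M := ⟨le_rfl, hN.trans hNM⟩
  have mb : ((b, M) : ℤ × ℤ) ∈ Sp 0 M := ⟨hN.trans hNM, le_rfl⟩
  obtain ⟨q, -, -, hq⟩ := exists_cut_first ht (conn_Sp m0 mb) (j := N) hN hNM hε
  rw [Sp_inter_le hNM] at hq
  exact ⟨q, hq⟩

/-- deterministic comparison, right half -/
lemma det_right {t : Environment} (ht : Nn t) {N M b z : ℤ} (hN : 0 ≤ N) (hNM : N ≤ M)
    (h : ∀ w : ℤ, w ≤ z → ¬ NearOpt t N M b w) {x : ℤ} (hx : 0 ≤ x) :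
    gl 0 M b t x ≤ gl 0 N z t x := by
  refine le_of_forall_pos_le_add fun ε hε => ?_
  obtain ⟨w, hw⟩ := exists_nearOpt ht (b := b) hN hNM (ε := min ε 1) (lt_min hε one_pos)
  have hzw : z ≤ w := by
    by_contra hcon
    push Not at hcon
    refine h w hcon.le ?_
    unfold NearOpt
    have := min_le_right ε 1
    linarith
  have m : ∀ u : ℤ, ((u, 0) : ℤ × ℤ) ∈ Sp 0 N := fun u => ⟨le_rfl, hN⟩
  have m' : ∀ u : ℤ, ((u, N) : ℤ × ℤ) ∈ Sp 0 N := fun u => ⟨hN, le_rfl⟩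
  have M0 : ∀ u : ℤ, ((u, 0) : ℤ × ℤ) ∈ Sp 0 M := fun u => ⟨le_rfl, hN.trans hNM⟩
  have MN : ∀ u : ℤ, ((u, N) : ℤ × ℤ) ∈ Sp 0 M := fun u => ⟨hN, hNM⟩
  have MM : ∀ u : ℤ, ((u, M) : ℤ × ℤ) ∈ Sp 0 M := fun u => ⟨hN.trans hNM, le_rfl⟩
  have hsw := Pl.strip_switch ht (R := Sp 0 N) (lo := 0) (hi := N) (fun z hz => hz)
    (a := (0, 0)) (b := (x, 0)) (c := (z, N)) (d := (w, N)) rfl rfl rfl rfl hx hzw
    (conn_Sp (m 0) (m' w)) (conn_Sp (m x) (m' z))
  have htri := pR_triangle ht (conn_Sp (M0 x) (MN w)) (conn_Sp (MN w) (MM b))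
  have han : pR t (Sp 0 M) (x, 0) (w, N) ≤ pR t (Sp 0 N) (x, 0) (w, N) := by
    refine pR_anti ht (fun u (hu : (0 : ℤ) ≤ u.2 ∧ u.2 ≤ N) => ?_) (conn_Sp (m x) (m' w))
    exact (⟨hu.1, hu.2.trans hNM⟩ : (0 : ℤ) ≤ u.2 ∧ u.2 ≤ M)
  have := min_le_left ε 1
  unfold gl
  linarith

/-- deterministic comparison, left half -/
lemma det_left {t : Environment} (ht : Nn t) {N M b z : ℤ} (hN : 0 ≤ N) (hNM : N ≤ M)
    (h : ∀ w : ℤ, z ≤ w → ¬ NearOpt t N M b w) {x : ℤ} (hx : x ≤ 0) :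
    gl 0 M b t x ≤ gl 0 N z t x := by
  refine le_of_forall_pos_le_add fun ε hε => ?_
  obtain ⟨w, hw⟩ := exists_nearOpt ht (b := b) hN hNM (ε := min ε 1) (lt_min hε one_pos)
  have hzw : w ≤ z := by
    by_contra hcon
    push Not at hcon
    refine h w hcon.le ?_
    unfold NearOpt
    have := min_le_right ε 1
    linarith
  have m : ∀ u : ℤ, ((u, 0) : ℤ × ℤ) ∈ Sp 0 N := fun u => ⟨le_rfl, hN⟩
  have m' : ∀ u : ℤ, ((u, N) : ℤ × ℤ) ∈ Sp 0 N := fun u => ⟨hN, le_rfl⟩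
  have M0 : ∀ u : ℤ, ((u, 0) : ℤ × ℤ) ∈ Sp 0 M := fun u => ⟨le_rfl, hN.trans hNM⟩
  have MN : ∀ u : ℤ, ((u, N) : ℤ × ℤ) ∈ Sp 0 M := fun u => ⟨hN, hNM⟩
  have MM : ∀ u : ℤ, ((u, M) : ℤ × ℤ) ∈ Sp 0 M := fun u => ⟨hN.trans hNM, le_rfl⟩
  have hsw := Pl.strip_switch ht (R := Sp 0 N) (lo := 0) (hi := N) (fun z hz => hz)
    (a := (x, 0)) (b := (0, 0)) (c := (w, N)) (d := (z, N)) rfl rfl rfl rfl hx hzw
    (conn_Sp (m x) (m' z)) (conn_Sp (m 0) (m' w))
  have htri := pR_triangle ht (conn_Sp (M0 x) (MN w)) (conn_Sp (MN w) (MM b))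
  have han : pR t (Sp 0 M) (x, 0) (w, N) ≤ pR t (Sp 0 N) (x, 0) (w, N) := by
    refine pR_anti ht (fun u (hu : (0 : ℤ) ≤ u.2 ∧ u.2 ≤ N) => ?_) (conn_Sp (m x) (m' w))
    exact (⟨hu.1, hu.2.trans hNM⟩ : (0 : ℤ) ≤ u.2 ∧ u.2 ≤ M)
  have := min_le_left ε 1
  unfold gl
  linarith

/-- a fixed function bounded below by `U M` on events of probability `≥ 1 - δ` for infinitely many
`M` is bounded below by the limit with probability `≥ 1 - δ` -/
lemma prob_limit {Ω : Type*} [MeasurableSpace Ω] {P : Measure Ω} [IsProbabilityMeasure P]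
    {ι : Type*} [Countable ι] {S : Set ι} {g : Ω → ι → ℝ} {U : ℕ → Ω → ι → ℝ} {u : Ω → ι → ℝ}
    (hU : ∀ x, ∀ ε : ℝ, 0 < ε → Tendsto (fun M => P.real {ω | ε ≤ |U M ω x - u ω x|}) atTop (𝓝 0))
    {A : ℕ → Set Ω} (hA : ∀ᵐ ω ∂P, ∀ᶠ M in atTop, ω ∉ A M → ∀ x ∈ S, U M ω x ≤ g ω x) {δ : ℝ}
    (hδ : ∃ᶠ M in atTop, P.real (A M) ≤ δ) : P.real {ω | ∃ x ∈ S, g ω x < u ω x} ≤ δ := by
  obtain ⟨φ, hφ, hφA⟩ := extraction_of_frequently_atTop hδ
  obtain ⟨ψ, hψ, hae⟩ := exists_diag (P := P) (fun x i ω => |U (φ i) ω x - u ω x|)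
    (fun x ε hε => (hU x ε hε).comp hφ.tendsto_atTop)
  have hsub : ∀ᵐ ω ∂P, ω ∈ {ω | ∃ x ∈ S, g ω x < u ω x} →
      ω ∈ ⋃ n : ℕ, ⋂ i ∈ Set.Ici n, A (φ (ψ i)) := by
    filter_upwards [hae, hA] with ω h1 h2 hω
    obtain ⟨x, hx, hlt⟩ := hω
    have e1 : ∀ᶠ i in atTop, ω ∈ A (φ (ψ i)) := by
      have h3 := (hφ.tendsto_atTop.comp hψ.tendsto_atTop).eventually h2
      filter_upwards [h1 x (u ω x - g ω x) (by linarith), h3] with i h4 h5
      by_contra hcon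
      have h6 := h5 hcon x hx
      have h7 := (abs_lt.1 h4).1
      simp only [Function.comp] at h6
      linarith
    obtain ⟨n, hn⟩ := e1.exists_forall_of_atTop
    refine Set.mem_iUnion.2 ⟨n, ?_⟩
    simp only [Set.mem_iInter]
    intro i hi
    exact hn i hi
  have hle : P {ω | ∃ x ∈ S, g ω x < u ω x} ≤ P (⋃ n : ℕ, ⋂ i ∈ Set.Ici n, A (φ (ψ i))) :=
    measure_mono_ae hsub
  have hmono : Monotone fun n : ℕ => ⋂ i ∈ Set.Ici n, A (φ (ψ i)) := by
    intro n m hnm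
    exact Set.biInter_subset_biInter_left fun i hi => le_trans hnm hi
  have hδ0 : 0 ≤ δ := measureReal_nonneg.trans (hφA 0)
  have hle2 : P (⋃ n : ℕ, ⋂ i ∈ Set.Ici n, A (φ (ψ i))) ≤ ENNReal.ofReal δ := by
    rw [hmono.measure_iUnion]
    refine iSup_le fun n => ?_
    have h1 : (⋂ i ∈ Set.Ici n, A (φ (ψ i))) ⊆ A (φ (ψ n)) :=
      Set.biInter_subset_of_mem (show n ∈ Set.Ici n from le_refl n)
    refine (measure_mono h1).trans ?_
    rw [← ENNReal.ofReal_toReal (measure_ne_top P (A (φ (ψ n))))]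
    exact ENNReal.ofReal_le_ofReal (hφA _)
  have := hle.trans hle2
  rw [measureReal_def]
  exact ENNReal.toReal_le_of_le_ofReal hδ0 this

variable {G : Measure ℝ} [IsProbabilityMeasure G]

/-- convergence in probability of the row `0` functions towards the points `(⌊τ M⌋, M)` -/
def ConvAt (G : Measure ℝ) (f : Environment → ℤ → ℝ) (τ : ℝ) : Prop :=
  ∀ x : ℤ, ∀ ε : ℝ, 0 < ε → Tendsto (fun M : ℕ => (iidLaw G).real
      {t | ε ≤ |gl 0 M ⌊τ * M⌋ t x - (f t x - f t 0)|}) atTop (𝓝 0)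

/-- near geodesics towards `τ` do not exit to the left of `s` -/
def LocL (G : Measure ℝ) (τ s : ℝ) : Prop :=
  ∀ δ : ℝ, 0 < δ → ∀ᶠ N : ℕ in atTop, ∃ᶠ M : ℕ in atTop,
    (iidLaw G).real {t | ∃ w : ℤ, (w : ℝ) ≤ s * N ∧ NearOpt t N M ⌊τ * M⌋ w} ≤ δ

/-- near geodesics towards `τ` do not exit to the right of `s` -/
def LocR (G : Measure ℝ) (τ s : ℝ) : Prop :=
  ∀ δ : ℝ, 0 < δ → ∀ᶠ N : ℕ in atTop, ∃ᶠ M : ℕ in atTop,
    (iidLaw G).real {t | ∃ w : ℤ, s * N ≤ (w : ℝ) ∧ NearOpt t N M ⌊τ * M⌋ w} ≤ δ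

theorem low_right (h0 : G (Set.Iio 0) = 0) {f : Environment → ℤ → ℝ} {τ' s : ℝ}
    (hc : ConvAt G f τ') (hL : LocL G τ' s) {z : ℕ → ℤ} (hz : ∀ᶠ N : ℕ in atTop, (z N : ℝ) ≤ s * N) :
    Tendsto (fun N : ℕ => (iidLaw G).real
      {t | ∃ x : ℤ, 0 ≤ x ∧ gl 0 N (z N) t x < f t x - f t 0}) atTop (𝓝 0) := by
  rw [tendsto_order]
  refine ⟨fun a ha => Eventually.of_forall fun N => ha.trans_le measureReal_nonneg, fun a ha => ?_⟩
  filter_upwards [hL (a / 2) (by linarith), hz] with N hN hzN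
  have := prob_limit (P := iidLaw G) (S := {x : ℤ | 0 ≤ x}) (g := fun t x => gl 0 N (z N) t x)
    (U := fun M t x => gl 0 M ⌊τ' * M⌋ t x) (u := fun t x => f t x - f t 0) hc
    (A := fun M => {t | ∃ w : ℤ, (w : ℝ) ≤ s * N ∧ NearOpt t N M ⌊τ' * M⌋ w}) ?_ hN
  · exact this.trans_lt (by linarith)
  · filter_upwards [ae_Nn h0] with t ht
    filter_upwards [eventually_ge_atTop N] with M hM hA x hx
    refine det_right ht (by positivity) (by exact_mod_cast hM) (fun w hw hno => hA ⟨w, ?_, hno⟩) hx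
    exact (by exact_mod_cast hw : (w : ℝ) ≤ z N).trans hzN

theorem low_left (h0 : G (Set.Iio 0) = 0) {f : Environment → ℤ → ℝ} {τ' s : ℝ}
    (hc : ConvAt G f τ') (hL : LocR G τ' s) {z : ℕ → ℤ} (hz : ∀ᶠ N : ℕ in atTop, s * N ≤ (z N : ℝ)) :
    Tendsto (fun N : ℕ => (iidLaw G).real
      {t | ∃ x : ℤ, x ≤ 0 ∧ gl 0 N (z N) t x < f t x - f t 0}) atTop (𝓝 0) := by
  rw [tendsto_order]
  refine ⟨fun a ha => Eventually.of_forall fun N => ha.trans_le measureReal_nonneg, fun a ha => ?_⟩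
  filter_upwards [hL (a / 2) (by linarith), hz] with N hN hzN
  have := prob_limit (P := iidLaw G) (S := {x : ℤ | x ≤ 0}) (g := fun t x => gl 0 N (z N) t x)
    (U := fun M t x => gl 0 M ⌊τ' * M⌋ t x) (u := fun t x => f t x - f t 0) hc
    (A := fun M => {t | ∃ w : ℤ, s * N ≤ (w : ℝ) ∧ NearOpt t N M ⌊τ' * M⌋ w}) ?_ hN
  · exact this.trans_lt (by linarith)
  · filter_upwards [ae_Nn h0] with t ht
    filter_upwards [eventually_ge_atTop N] with M hM hA x hx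
    refine det_left ht (by positivity) (by exact_mod_cast hM) (fun w hw hno => hA ⟨w, ?_, hno⟩) hx
    exact hzN.trans (by exact_mod_cast hw : (z N : ℝ) ≤ w)

end Crest.Agent.R151.LIN
end

-- ▼ part R151/B411c1
section

/-!
# R151 / S0213, B411c1: the function `φ s = μ (s, 1)` and the excess lemma (c1)

For a smooth norm `μ` (`D411.SmoothNorm`): `ph μ s = μ (s, 1)`, `ph1 μ = deriv (ph μ)`.

* `ph` is differentiable and convex, `ph1` is monotone, continuous, bounded by `μ (1, 0)`, odd and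
  takes every value of `(-μ (1,0), μ (1,0))`;
* `ph1_lt_iff`: `|ph1 μ s| < μ (1, 0) ↔ μ (1, 0) * |s| < μ (s, 1)`;
* `contact_iff`: `(x, 1)` is in the facet of `(s, 1)` iff `ph1 μ x = ph1 μ s`;
* `exists_bracket`;
* `excess_pos` (c1).
-/

set_option autoImplicit false

namespace Crest.Agent.R151.BUS

open Filter Topology Set
open Crest.Agent.R151.B710 Crest.Agent.R151.D411

/-- the profile of the norm on the line of height one -/
def ph (μ : ℝ × ℝ → ℝ) (s : ℝ) : ℝ := μ (s, 1)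

/-- the derivative of the profile -/
noncomputable def ph1 (μ : ℝ × ℝ → ℝ) : ℝ → ℝ := deriv (ph μ)

variable {μ : ℝ × ℝ → ℝ} (h : SmoothNorm μ)
include h

theorem differentiable_ph : Differentiable ℝ (ph μ) := by
  intro s
  have h1 : DifferentiableAt ℝ μ (s, 1) := h.diff _ (by simp)
  have h2 : DifferentiableAt ℝ (fun x : ℝ => ((x, 1) : ℝ × ℝ)) s := by fun_prop
  exact h1.comp s h2

theorem hasDerivAt_ph (s : ℝ) : HasDerivAt (ph μ) (ph1 μ s) s :=
  (differentiable_ph h s).hasDerivAt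

theorem continuous_ph : Continuous (ph μ) := (differentiable_ph h).continuous

omit h in
/-- the gradient of `μ` at `(s, 1)` -/
theorem fderiv_eq (h : SmoothNorm μ) (s : ℝ) :
    fderiv ℝ μ (s, 1) = lfun (ph1 μ s) (ph μ s - ph1 μ s * s) := by
  have h1 : DifferentiableAt ℝ μ (s, 1) := h.diff _ (by simp)
  have e1 : fderiv ℝ μ (s, 1) (1, 0) = ph1 μ s := by
    have h2 : HasDerivAt (fun x : ℝ => ((x, 1) : ℝ × ℝ)) (1, 0) s :=
      (hasDerivAt_id s).prodMk (hasDerivAt_const s (1 : ℝ))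
    have h3 := h1.hasFDerivAt.comp_hasDerivAt s h2
    exact h3.unique (hasDerivAt_ph h s)
  have e2 : fderiv ℝ μ (s, 1) (s, 1) = ph μ s := h.norm.fderiv_self h1
  have e3 : fderiv ℝ μ (s, 1) (0, 1) = ph μ s - ph1 μ s * s := by
    have : ((0, 1) : ℝ × ℝ) = (s, 1) - s • ((1, 0) : ℝ × ℝ) := by
      ext <;> simp
    rw [this, map_sub, map_smul, e1, e2, smul_eq_mul]
    ring
  apply ContinuousLinearMap.ext
  intro v
  have : v = v.1 • ((1, 0) : ℝ × ℝ) + v.2 • ((0, 1) : ℝ × ℝ) := by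
    ext <;> simp
  conv_lhs => rw [this]
  rw [map_add, map_smul, map_smul, e1, e3, lfun_apply]
  simp only [smul_eq_mul]
  ring

/-- the supporting functional at `(s, 1)` -/
theorem lfun_le (s : ℝ) (v : ℝ × ℝ) : lfun (ph1 μ s) (ph μ s - ph1 μ s * s) v ≤ μ v := by
  rw [← fderiv_eq h s]
  exact h.norm.fderiv_le (h.diff _ (by simp)) v

omit h in
theorem lfun_self (s : ℝ) : lfun (ph1 μ s) (ph μ s - ph1 μ s * s) (s, 1) = μ (s, 1) := by
  rw [lfun_apply]
  simp only [ph]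
  ring

/-- gradient inequality -/
theorem grad_le (x y : ℝ) : ph μ x + ph1 μ x * (y - x) ≤ ph μ y := by
  have := lfun_le h x (y, 1)
  rw [lfun_apply] at this
  simp only [mul_one] at this
  have e : ph μ y = μ (y, 1) := rfl
  rw [e]
  linarith


theorem monotone_ph1 : Monotone (ph1 μ) := by
  intro x y hxy
  rcases hxy.eq_or_lt with rfl | hlt
  · exact le_rfl
  · have h1 := grad_le h x y
    have h2 := grad_le h y x
    have h3 : ph1 μ x * (y - x) ≤ ph1 μ y * (y - x) := by linarith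
    exact le_of_mul_le_mul_right h3 (by linarith)






/-- `(x, 1)` is in the facet of `(s, 1)` iff the derivatives agree -/
theorem contact_iff (s x : ℝ) : μ (x, 1) = μ (s, 1) + ph1 μ s * (x - s) ↔ ph1 μ x = ph1 μ s := by
  constructor
  · intro hc
    have e := grad_unique (h.diff (x, 1) (by simp)) (lfun_le h x) (lfun_le h s) (lfun_self x)
      (by rw [lfun_apply, hc]; simp only [ph]; ring)
    exact (lfun_inj e).1
  · intro hc
    have h1 := grad_le h s x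
    have h2 := grad_le h x s
    rw [hc] at h2
    apply le_antisymm
    · change ph μ x ≤ ph μ s + _
      linarith
    · exact h1



/-- every slope of modulus less than `μ (1, 0)` is attained -/
theorem exists_ph1_eq {p : ℝ} (hp : |p| < μ (1, 0)) : ∃ s, ph1 μ s = p := by
  set m1 := μ (1, 0) with hm1
  have hg : Continuous fun x => ph μ x - p * x := (continuous_ph h).sub (continuous_const.mul continuous_id)
  have hlow : ∀ x, (m1 - |p|) * |x| ≤ ph μ x - p * x := by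
    intro x
    have h1 := h.axis_le (x, 1)
    simp only at h1
    have h2 : p * x ≤ |p| * |x| := by rw [← abs_mul]; exact le_abs_self _
    change m1 * |x| ≤ ph μ x at h1
    linarith
  obtain ⟨s, hs⟩ : ∃ s, ∀ x, ph μ s - p * s ≤ ph μ x - p * x := by
    set R : ℝ := (ph μ 0 + 1) / (m1 - |p|) with hR
    have hd : 0 < m1 - |p| := by linarith
    have hph0 : 0 ≤ ph μ 0 := h.norm.nonneg _
    have hR0 : 0 ≤ R := by positivity
    obtain ⟨s, hs1, hs2⟩ := (isCompact_Icc (a := -R) (b := R)).exists_isMinOn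
      ⟨0, by constructor <;> linarith⟩ hg.continuousOn
    refine ⟨s, fun x => ?_⟩
    by_cases hx : x ∈ Icc (-R) R
    · exact hs2 hx
    · have h0 : ph μ s - p * s ≤ ph μ 0 - p * 0 := hs2 (by constructor <;> linarith)
      have h1 : R < |x| := by
        by_contra hc
        push Not at hc
        exact hx (abs_le.1 hc)
      have h2 := hlow x
      have h3 : (m1 - |p|) * R < (m1 - |p|) * |x| := mul_lt_mul_of_pos_left h1 hd
      have h4 : (m1 - |p|) * R = ph μ 0 + 1 := by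
        rw [hR]; field_simp
      linarith
  refine ⟨s, ?_⟩
  have hmin : IsLocalMin (fun x => ph μ x - p * x) s := Filter.Eventually.of_forall hs
  have hd : HasDerivAt (fun x => ph μ x - p * x) (ph1 μ s - p) s := by
    have h1 := (hasDerivAt_ph h s).fun_sub ((hasDerivAt_id' s).const_mul p)
    simpa using h1
  have := hmin.hasDerivAt_eq_zero hd
  linarith


theorem exists_bracket {s : ℝ} (hs : |ph1 μ s| < μ (1, 0)) {ε : ℝ} (hε : 0 < ε) :
    ∃ s1 s2, s1 < s ∧ s < s2 ∧ |ph1 μ s1| < μ (1, 0) ∧ |ph1 μ s2| < μ (1, 0) ∧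
      ph1 μ s - ε < ph1 μ s1 ∧ ph1 μ s1 < ph1 μ s ∧ ph1 μ s < ph1 μ s2 ∧
      ph1 μ s2 < ph1 μ s + ε := by
  rw [abs_lt] at hs
  set p := ph1 μ s with hp
  set m1 := μ (1, 0) with hm1
  set δ := min ε (min (p + m1) (m1 - p)) / 2 with hδ
  have h0 : 0 < min ε (min (p + m1) (m1 - p)) :=
    lt_min hε (lt_min (by linarith) (by linarith))
  have h1 : 0 < δ := by positivity
  have h2 : δ < ε := by
    have := min_le_left ε (min (p + m1) (m1 - p))
    linarith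
  have h3 : δ < p + m1 := by
    have := (min_le_right ε (min (p + m1) (m1 - p))).trans (min_le_left _ _)
    linarith
  have h4 : δ < m1 - p := by
    have := (min_le_right ε (min (p + m1) (m1 - p))).trans (min_le_right _ _)
    linarith
  have a1 : |p - δ| < m1 := by rw [abs_lt]; constructor <;> linarith
  have a2 : |p + δ| < m1 := by rw [abs_lt]; constructor <;> linarith
  obtain ⟨s1, hs1⟩ := exists_ph1_eq h a1
  obtain ⟨s2, hs2⟩ := exists_ph1_eq h a2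
  refine ⟨s1, s2, ?_, ?_, by rw [hs1]; exact a1, by rw [hs2]; exact a2, by linarith, by linarith,
    by linarith, by linarith⟩
  · by_contra hc
    push Not at hc
    have := monotone_ph1 h hc
    linarith
  · by_contra hc
    push Not at hc
    have := monotone_ph1 h hc
    linarith

/-- strict monotonicity of derivatives gives points outside the facet -/
theorem contact_ne {s x : ℝ} (hx : ph1 μ x ≠ ph1 μ s) :
    μ (x, 1) ≠ μ (s, 1) + ph1 μ s * (x - s) := fun hc => hx ((contact_iff h s x).1 hc)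


end Crest.Agent.R151.BUS
end

-- ▼ part R151/L763h

/-!
# R151/L763h — `LineFns` from convergence, slopes and localisation (owner helper763)
-/

set_option autoImplicit false

open MeasureTheory Filter Topology
open Crest.ProbabilityR.FirstPassage

namespace Crest.Agent.R151.LIN

open K BUS D411

variable {G : Measure ℝ} [IsProbabilityMeasure G] {μ : ℝ × ℝ → ℝ}

/-- the directions outside the axial facets -/
def Dir (μ : ℝ × ℝ → ℝ) : Set ℝ := {s | |ph1 μ s| < μ (1, 0)}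

/-- conclusion of the localisation block -/
def Loc (G : Measure ℝ) (μ : ℝ × ℝ → ℝ) : Prop :=
  ∀ τ s1 s2 : ℝ, τ ∈ Dir μ → s1 < τ → τ < s2 → ph1 μ s1 ≠ ph1 μ τ → ph1 μ s2 ≠ ph1 μ τ →
    LocL G τ s1 ∧ LocR G τ s2

lemma eventually_mul_gt {a b : ℝ} (hab : a < b) (C : ℝ) :
    ∀ᶠ N : ℕ in atTop, a * N + C ≤ b * N := by
  have h : Tendsto (fun N : ℕ => (b - a) * (N : ℝ)) atTop atTop :=
    tendsto_natCast_atTop_atTop.const_mul_atTop (by linarith)
  filter_upwards [h.eventually_ge_atTop C] with N hN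
  nlinarith

theorem lineFns_of_loc (hμ : SmoothNorm μ) (h0 : G (Set.Iio 0) = 0)
    {f0 : ℝ → Environment → ℤ → ℝ}
    (conv : ∀ τ ∈ Dir μ, ∀ (C : ℤ) (z : ℕ → ℤ), (∀ N : ℕ, |z N - ⌊τ * N⌋| ≤ C) → ∀ x : ℤ,
      ∀ ε : ℝ, 0 < ε → Tendsto (fun N : ℕ => (iidLaw G).real
        {t | ε ≤ |gl 0 N (z N) t x - (f0 τ t x - f0 τ t 0)|}) atTop (𝓝 0))
    (slopeR : ∀ τ ∈ Dir μ, ∀ᵐ t ∂(iidLaw G),
      Tendsto (fun x : ℕ => f0 τ t x / x) atTop (𝓝 (-ph1 μ τ)))
    (slopeL : ∀ τ ∈ Dir μ, ∀ᵐ t ∂(iidLaw G),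
      Tendsto (fun x : ℕ => f0 τ t (-x) / x) atTop (𝓝 (ph1 μ τ)))
    (loc : Loc G μ) : LineFns G (Dir μ) (ph1 μ) (μ (1, 0)) f0 where
  conv := conv
  slopeR := slopeR
  slopeL := slopeL
  abs_lt := fun τ hτ => hτ
  lowR := by
    intro τ hτ
    obtain ⟨-, s', -, h1, -, h2, -, -, h3, -⟩ := exists_bracket hμ hτ one_pos
    obtain ⟨-, τ', -, h4, -, h5, -, -, h6, -⟩ := exists_bracket hμ h2 one_pos
    obtain ⟨-, s2, -, h7, -, h8, -, -, h9, -⟩ := exists_bracket hμ h5 one_pos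
    refine ⟨τ', h5, fun C z hz => ?_⟩
    have hl := (loc τ' s' s2 h5 h4 h7 h6.ne h9.ne').1
    refine low_right h0 (f := f0 τ') (fun x ε hε => conv τ' h5 0 (fun N => ⌊τ' * N⌋) (by simp) x ε hε)
      hl ?_
    filter_upwards [eventually_mul_gt h1 C] with N hN
    have e1 := (abs_le.1 (hz N)).2
    have e2 : (z N : ℝ) ≤ ⌊τ * N⌋ + C := by exact_mod_cast (by omega : z N ≤ ⌊τ * N⌋ + C)
    have e3 := Int.floor_le (τ * N)
    linarith
  lowL := by
    intro τ hτ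
    obtain ⟨s', -, h1, -, h2, -, -, h3, -, -⟩ := exists_bracket hμ hτ one_pos
    obtain ⟨τ', -, h4, -, h5, -, -, h6, -, -⟩ := exists_bracket hμ h2 one_pos
    obtain ⟨s1, -, h7, -, h8, -, -, h9, -, -⟩ := exists_bracket hμ h5 one_pos
    refine ⟨τ', h5, fun C z hz => ?_⟩
    have hl := (loc τ' s1 s' h5 h7 h4 h9.ne h6.ne').2
    refine low_left h0 (f := f0 τ') (fun x ε hε => conv τ' h5 0 (fun N => ⌊τ' * N⌋) (by simp) x ε hε)
      hl ?_
    filter_upwards [eventually_mul_gt h1 (C + 1)] with N hN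
    have e1 := (abs_le.1 (hz N)).1
    have e2 : (⌊τ * N⌋ : ℝ) - C ≤ z N := by exact_mod_cast (by omega : ⌊τ * N⌋ - C ≤ z N)
    have e3 := Int.lt_floor_add_one (τ * N)
    linarith

end Crest.Agent.R151.LIN
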