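import Mathlib
import Crest.Agent.R151.Y635D
import Crest.Agent.R151.Pl8
import Crest.Agent.R151.H617b

/-!
# R151, SL906A: rays of the half-plane and strip limits (deterministic, fixed environment)

`strip k N = {k ≤ y ≤ N}`, `half k = {k ≤ y}`, `sd k N t x z` = increment
`T_strip((x+1,k),z) - T_strip((x,k),z)`.

* `strip_reach`, `half_reach`
* `exists_pt_strip_le`: `T_strip(k,N) → T_half(k)` as `N → ∞`
* `sd_anti`: the increment is antitone in the target `z` on the top row (planarity)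
* `ray_strip`: for a ray `v` of the half-plane and the first hit `z N` of the row `N`,
  `T_strip(x,z N) - T_strip(y,z N) → bus x - bus y`, for all `x y` (785's remark)
* `comparable`: two strip limits are totally comparable (on the whole row)
* `exists_sand`: label of a function comparable with all members of a family
-/

set_option autoImplicit false

open Crest.ProbabilityR.FirstPassage
open scoped Classical
open Filter Topology

namespace Crest.Agent.R151.SL9

open Crest.Agent.R151 Crest.Agent.R151.Y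

/-- the strip `k ≤ y ≤ N` -/
abbrev strip (k N : ℤ) : Set (ℤ × ℤ) := {z | k ≤ z.2 ∧ z.2 ≤ N}

/-- the half-plane `k ≤ y` -/
abbrev half (k : ℤ) : Set (ℤ × ℤ) := {z | k ≤ z.2}

theorem strip_subset_half (k N : ℤ) : strip k N ⊆ half k := fun _ h => h.1


theorem row_reach {R : Set (ℤ × ℤ)} {b : ℤ} (hR : ∀ x : ℤ, (x, b) ∈ R) (a c : ℤ) :
    (reg R).Reachable (a, b) (c, b) := by
  have key : ∀ n : ℕ, ∀ a : ℤ, (reg R).Reachable (a, b) (a + n, b) := by
    intro n
    induction n with
    | zero => intro a; simp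
    | succ n ih =>
      intro a
      have h2 : (reg R).Reachable (a + n, b) (a + n + 1, b) :=
        SimpleGraph.Adj.reachable ⟨K.adj_right _ _, hR _, hR _⟩
      have := (ih a).trans h2
      push_cast
      rwa [← add_assoc]
  rcases le_total a c with h | h
  · have := key (c - a).toNat a
    rwa [Int.toNat_of_nonneg (by omega), add_sub_cancel] at this
  · have := (key (a - c).toNat c).symm
    rwa [Int.toNat_of_nonneg (by omega), add_sub_cancel] at this

theorem col_reach {R : Set (ℤ × ℤ)} {a b c : ℤ} (hbc : b ≤ c)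
    (hR : ∀ y : ℤ, b ≤ y → y ≤ c → (a, y) ∈ R) :
    (reg R).Reachable (a, b) (a, c) := by
  have key : ∀ n : ℕ, b + n ≤ c → (reg R).Reachable (a, b) (a, b + n) := by
    intro n
    induction n with
    | zero => intro _; simp
    | succ n ih =>
      intro hn
      push_cast at hn
      have h2 : (reg R).Reachable (a, b + n) (a, b + n + 1) :=
        SimpleGraph.Adj.reachable ⟨K.adj_up _ _, hR _ (by omega) (by omega),
          hR _ (by omega) (by omega)⟩
      have := (ih (by omega)).trans h2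
      push_cast
      rwa [← add_assoc]
  have := key (c - b).toNat (by omega)
  rwa [Int.toNat_of_nonneg (by omega), add_sub_cancel] at this

theorem strip_reach {k N : ℤ} {x y : ℤ × ℤ} (hx : x ∈ strip k N) (hy : y ∈ strip k N) :
    (reg (strip k N)).Reachable x y := by
  obtain ⟨a, b⟩ := x
  obtain ⟨c, d⟩ := y
  have hkN : k ≤ N := hx.1.trans hx.2
  have h1 : (reg (strip k N)).Reachable (a, k) (a, b) :=
    col_reach hx.1 fun y h1 h2 => ⟨h1, h2.trans hx.2⟩
  have h2 : (reg (strip k N)).Reachable (c, k) (c, d) :=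
    col_reach hy.1 fun y h1 h2 => ⟨h1, h2.trans hy.2⟩
  exact h1.symm.trans ((row_reach (R := strip k N) (fun x => ⟨le_rfl, hkN⟩) a c).trans h2)

theorem half_reach {k : ℤ} {x y : ℤ × ℤ} (hx : k ≤ x.2) (hy : k ≤ y.2) :
    (reg (half k)).Reachable x y := by
  have h := strip_reach (k := k) (N := max x.2 y.2) (x := x) (y := y) ⟨hx, le_max_left _ _⟩
    ⟨hy, le_max_right _ _⟩
  exact h.mono (reg_mono (strip_subset_half _ _))


theorem pt_half_le_strip {t : Environment} (ht : ∀ e, 0 ≤ t e) {k N : ℤ} {x y : ℤ × ℤ}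
    (hx : x ∈ strip k N) (hy : y ∈ strip k N) :
    pt (reg (half k)) t x y ≤ pt (reg (strip k N)) t x y :=
  pt_anti (reg_mono (strip_subset_half _ _)) ht (strip_reach hx hy)


/-- strip times converge to half-plane times -/
theorem exists_pt_strip_le {t : Environment} (ht : ∀ e, 0 ≤ t e) {k : ℤ} {x y : ℤ × ℤ}
    (hx : k ≤ x.2) (hy : k ≤ y.2) {ε : ℝ} (hε : 0 < ε) :
    ∃ M : ℤ, ∀ N, M ≤ N → pt (reg (strip k N)) t x y ≤ pt (reg (half k)) t x y + ε := by
  obtain ⟨w, hw⟩ := exists_wcost_lt (half_reach hx hy)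
    (show pt (reg (half k)) t x y < pt (reg (half k)) t x y + ε by linarith)
  -- a bound for the heights of `w`
  obtain ⟨M, hM⟩ : ∃ M : ℤ, ∀ z ∈ w.support, z.2 ≤ M := by
    have hfin : (w.support.toFinset.image Prod.snd).Nonempty :=
      ⟨x.2, Finset.mem_image.2 ⟨x, by simp, rfl⟩⟩
    exact ⟨(w.support.toFinset.image Prod.snd).max' hfin, fun z hz =>
      Finset.le_max' _ _ (Finset.mem_image.2 ⟨z, by simpa using hz, rfl⟩)⟩
  refine ⟨M, fun N hN => ?_⟩
  have hsup := reg_support w hx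
  have hsup' : ∀ z ∈ (w.mapLe (reg_le _)).support, z ∈ strip k N := by
    intro z hz
    rw [SimpleGraph.Walk.support_mapLe_eq_support] at hz
    exact ⟨hsup z hz, (hM z hz).trans hN⟩
  obtain ⟨w', hw'⟩ := exists_reg_walk (w.mapLe (reg_le _)) hsup'
  have h1 : wcost t w' = wcost t w := by
    unfold wcost
    rw [hw', SimpleGraph.Walk.edges_mapLe_eq_edges]
  have h2 := pt_le_wcost ht w'
  linarith

/-- `T_strip(x,z) - T_strip(y,z)` -/
noncomputable def sdiff (k N : ℤ) (t : Environment) (x y z : ℤ × ℤ) : ℝ :=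
  pt (reg (strip k N)) t x z - pt (reg (strip k N)) t y z

/-- planarity: for `x.1 ≤ y.1` on the bottom row and `z.1 ≤ z'.1` on the top row -/
theorem sdiff_mono {t : Environment} (ht : ∀ e, 0 ≤ t e) {k N : ℤ} (hkN : k ≤ N)
    {x y z z' : ℤ × ℤ} (hx : x.2 = k) (hy : y.2 = k) (hz : z.2 = N) (hz' : z'.2 = N)
    (hxy : x.1 ≤ y.1) (hzz : z.1 ≤ z'.1) : sdiff k N t y x z' ≤ sdiff k N t y x z := by
  have mx : x ∈ strip k N := ⟨hx.ge, by omega⟩
  have my : y ∈ strip k N := ⟨hy.ge, by omega⟩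
  have mz : z ∈ strip k N := ⟨by omega, by omega⟩
  have mz' : z' ∈ strip k N := ⟨by omega, by omega⟩
  have h := Pl.strip_switch (R := strip k N) (t := t) ht (lo := k) (hi := N) (fun z hz => hz)
    hx hy hz' hz hxy hzz ((conn_iff_reachable mx).2 (strip_reach mx mz'))
    ((conn_iff_reachable my).2 (strip_reach my mz))
  rw [pR_eq_pt mx, pR_eq_pt my, pR_eq_pt mx, pR_eq_pt my] at h
  unfold sdiff
  linarith

/-! ### rays -/

section ray

variable {t : Environment} {k : ℤ} {v : ℕ → ℤ × ℤ}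

theorem ray_height (hv : IsRay t (reg (half k)) v) (n : ℕ) : k ≤ (v n).2 := (hv.adj n).2.1

/-- first index at which the ray is on the row `N` or above -/
noncomputable def fidx (v : ℕ → ℤ × ℤ) (N : ℤ) : ℕ := sInf {n | N ≤ (v n).2}

theorem fidx_spec (hu : ∀ N : ℤ, ∃ n, N ≤ (v n).2) (N : ℤ) : N ≤ (v (fidx v N)).2 :=
  Nat.sInf_mem (s := {n | N ≤ (v n).2}) (hu N)

theorem lt_of_lt_fidx {N : ℤ} {n : ℕ} (h : n < fidx v N) : (v n).2 < N := by
  have := Nat.notMem_of_lt_sInf h
  simpa using this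

theorem fidx_eq (hadj : ∀ n, squareLattice.Adj (v n) (v (n + 1)))
    (hu : ∀ N : ℤ, ∃ n, N ≤ (v n).2) {N : ℤ} (h0 : (v 0).2 ≤ N) : (v (fidx v N)).2 = N := by
  refine le_antisymm ?_ (fidx_spec hu N)
  rcases Nat.eq_zero_or_pos (fidx v N) with h | h
  · rw [h]; exact h0
  · obtain ⟨m, hm⟩ := Nat.exists_eq_succ_of_ne_zero h.ne'
    have h1 : (v m).2 < N := lt_of_lt_fidx (by omega)
    have h2 := adj_snd_le (hadj m)
    rw [hm]
    simp only [Nat.succ_eq_add_one]
    omega


theorem exists_le_fidx (v : ℕ → ℤ × ℤ) (m : ℕ) : ∃ M : ℤ, ∀ N, M ≤ N →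
    (∃ n, N ≤ (v n).2) → m ≤ fidx v N := by
  obtain ⟨M, hM⟩ : ∃ M : ℤ, ∀ n ≤ m, (v n).2 ≤ M := by
    have hfin : ((Finset.range (m + 1)).image fun n => (v n).2).Nonempty :=
      ⟨(v 0).2, Finset.mem_image.2 ⟨0, by simp, rfl⟩⟩
    exact ⟨((Finset.range (m + 1)).image fun n => (v n).2).max' hfin, fun n hn =>
      Finset.le_max' ((Finset.range (m + 1)).image fun n => (v n).2) _
        (Finset.mem_image.2 ⟨n, Finset.mem_range.2 (Nat.lt_succ_of_le hn), rfl⟩)⟩
  refine ⟨M + 1, fun N hN hne => ?_⟩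
  by_contra hcon
  push Not at hcon
  have h1 := hM _ hcon.le
  have h2 : N ≤ (v (fidx v N)).2 := Nat.sInf_mem (s := {n | N ≤ (v n).2}) hne
  omega

/-- the initial piece of a ray until the first hit of row `N` is a geodesic of the strip -/
theorem pt_strip_ray (ht : ∀ e, 0 ≤ t e) (hv : IsRay t (reg (half k)) v)
    (hu : ∀ N : ℤ, ∃ n, N ≤ (v n).2) {N : ℤ} (h0 : (v 0).2 ≤ N) {m : ℕ} (hm : m ≤ fidx v N) :
    pt (reg (strip k N)) t (v m) (v (fidx v N)) = pt (reg (half k)) t (v m) (v (fidx v N)) := by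
  have hadj : ∀ n, squareLattice.Adj (v n) (v (n + 1)) := fun n => (hv.adj n).1
  have hmem : ∀ n, n ≤ fidx v N → v n ∈ strip k N := by
    intro n hn
    rcases hn.lt_or_eq with h | h
    · exact ⟨ray_height hv n, (lt_of_lt_fidx h).le⟩
    · exact ⟨ray_height hv n, by rw [h, fidx_eq hadj hu h0]⟩
  refine le_antisymm ?_ (pt_half_le_strip ht (hmem _ hm) (hmem _ le_rfl))
  obtain ⟨d, hd⟩ := Nat.exists_eq_add_of_le hm
  -- the seqWalk in the half-plane
  have hsup : ∀ z ∈ ((seqWalk v hv.adj m d).mapLe (reg_le _)).support, z ∈ strip k N := by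
    intro z hz
    rw [SimpleGraph.Walk.support_mapLe_eq_support, mem_support_seqWalk] at hz
    obtain ⟨j, hj, rfl⟩ := hz
    exact hmem _ (by omega)
  obtain ⟨w', hw'⟩ := exists_reg_walk ((seqWalk v hv.adj m d).mapLe (reg_le _)) hsup
  have h1 : wcost t w' = wcost t (seqWalk v hv.adj m d) := by
    unfold wcost
    rw [hw', SimpleGraph.Walk.edges_mapLe_eq_edges]
  have h2 := pt_le_wcost ht w'
  have h3 : wcost t (seqWalk v hv.adj m d) = pt (reg (half k)) t (v m) (v (m + d)) :=
    hv.isGeo_seqWalk m d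
  rw [h1, h3, ← hd] at h2
  exact h2

/-- **Strip limits along a ray.** -/
theorem ray_strip_zero (ht : ∀ e, 0 ≤ t e) (hv : IsRay t (reg (half k)) v)
    (hu : ∀ N : ℤ, ∃ n, N ≤ (v n).2) {x : ℤ × ℤ} (hx : k ≤ x.2) :
    Tendsto (fun N : ℕ => sdiff k N t x (v 0) (v (fidx v N))) atTop
      (𝓝 (bus t (reg (half k)) v x)) := by
  have hadj : ∀ n, squareLattice.Adj (v n) (v (n + 1)) := fun n => (hv.adj n).1
  have hr : (reg (half k)).Reachable x (v 0) := half_reach hx (ray_height hv 0)
  have hbig : ∀ᶠ N : ℕ in atTop, (v 0).2 ≤ (N : ℤ) ∧ x.2 ≤ (N : ℤ) ∧ k ≤ (N : ℤ) := by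
    filter_upwards [eventually_ge_atTop ((v 0).2.toNat + x.2.toNat + k.toNat)] with N hN
    omega
  rw [tendsto_order]
  constructor
  · intro a ha
    filter_upwards [hbig] with N hN
    refine ha.trans_le ?_
    have h1 := bus_le ht hv hr (fidx v N)
    have h2 := pt_strip_ray ht hv hu hN.1 (m := 0) (Nat.zero_le _)
    have h3 : v (fidx v N) ∈ strip k N := ⟨ray_height hv _, (fidx_eq hadj hu hN.1).le⟩
    have h4 := pt_half_le_strip (t := t) ht (k := k) (N := N) (x := x) (y := v (fidx v N))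
      ⟨hx, hN.2.1⟩ h3
    unfold sdiff
    rw [h2]
    linarith
  · intro a ha
    -- choose `m` with `T(x, v m) - T(v 0, v m)` close to the Busemann limit
    obtain ⟨m, hm⟩ := ((tendsto_bus ht hv hr).eventually_lt_const ha).exists
    set δ := a - (pt (reg (half k)) t x (v m) - pt (reg (half k)) t (v 0) (v m)) with hδ
    have hδ0 : 0 < δ := by rw [hδ]; linarith
    obtain ⟨M, hM⟩ := exists_pt_strip_le (t := t) ht (k := k) hx (ray_height hv m)
      (half_pos hδ0)
    obtain ⟨M', hM'⟩ := exists_le_fidx v m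
    filter_upwards [hbig, eventually_ge_atTop (M.toNat + M'.toNat + (v m).2.toNat)] with N hN hN2
    have h2 := pt_strip_ray ht hv hu hN.1 (m := 0) (Nat.zero_le _)
    have hmf : m ≤ fidx v N := hM' N (by omega) (hu _)
    have h2' := pt_strip_ray ht hv hu hN.1 hmf
    have h3 : v (fidx v N) ∈ strip k N := ⟨ray_height hv _, (fidx_eq hadj hu hN.1).le⟩
    have h5 : v m ∈ strip k N := ⟨ray_height hv _, by omega⟩
    have h6 : x ∈ strip k N := ⟨hx, hN.2.1⟩
    have h7 := pt_triangle (t := t) ht (strip_reach h6 h5) (strip_reach h5 h3)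
    have h8 := hM N (by omega)
    have h9 := hv.pt_add (Nat.zero_le m) hmf
    unfold sdiff
    rw [h2]
    rw [h2'] at h7
    linarith

/-- **Strip limits along a ray**, two points. -/
theorem ray_strip (ht : ∀ e, 0 ≤ t e) (hv : IsRay t (reg (half k)) v)
    (hu : ∀ N : ℤ, ∃ n, N ≤ (v n).2) {x y : ℤ × ℤ} (hx : k ≤ x.2) (hy : k ≤ y.2) :
    Tendsto (fun N : ℕ => sdiff k N t x y (v (fidx v N))) atTop
      (𝓝 (bus t (reg (half k)) v x - bus t (reg (half k)) v y)) := by
  refine ((ray_strip_zero ht hv hu hx).sub (ray_strip_zero ht hv hu hy)).congr fun N => ?_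
  unfold sdiff
  ring

end ray

/-! ### comparability -/

/-- `f : ℤ → ℝ` is a strip limit of the half-plane `{k ≤ y}` along the sequence `N j`, with
targets `z j` on the row `N j`. -/
structure StripLim (t : Environment) (k : ℤ) (N : ℕ → ℤ) (z : ℕ → ℤ) (f : ℤ → ℝ) : Prop where
  top : ∀ᶠ j in atTop, k ≤ N j
  lim : ∀ x y : ℤ, Tendsto (fun j => sdiff k (N j) t (x, k) (y, k) (z j, N j)) atTop
    (𝓝 (f x - f y))

theorem StripLim.comp {t : Environment} {k : ℤ} {N z : ℕ → ℤ} {f : ℤ → ℝ}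
    (h : StripLim t k N z f) {φ : ℕ → ℕ} (hφ : Tendsto φ atTop atTop) :
    StripLim t k (N ∘ φ) (z ∘ φ) f :=
  ⟨hφ.eventually h.top, fun x y => (h.lim x y).comp hφ⟩


/-- the Busemann function of a ray is a strip limit along every sequence of heights -/
theorem stripLim_ray {t : Environment} {k : ℤ} {v : ℕ → ℤ × ℤ} (ht : ∀ e, 0 ≤ t e)
    (hv : IsRay t (reg (half k)) v) (hu : ∀ N : ℤ, ∃ n, N ≤ (v n).2) :
    StripLim t k (fun N => (N : ℤ)) (fun N => (v (fidx v N)).1)
      (fun x => bus t (reg (half k)) v (x, k)) := by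
  refine ⟨?_, fun x y => ?_⟩
  · filter_upwards [eventually_ge_atTop k.toNat] with N hN
    omega
  · refine (ray_strip ht hv hu (x := (x, k)) (y := (y, k)) le_rfl le_rfl).congr' ?_
    filter_upwards [eventually_ge_atTop (v 0).2.toNat] with N hN
    have h := fidx_eq (v := v) (fun n => (hv.adj n).1) hu (N := N) (by omega)
    have : v (fidx v N) = ((v (fidx v N)).1, (N : ℤ)) := Prod.ext rfl h
    rw [← this]

/-- **one-sided comparison**: if infinitely often the target of `f` is weakly left of the target of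
`g` then the increments of `g` are at most those of `f`. -/
theorem StripLim.inc_le {t : Environment} (ht : ∀ e, 0 ≤ t e) {k : ℤ} {N z z' : ℕ → ℤ}
    {f g : ℤ → ℝ} (hf : StripLim t k N z f) (hg : StripLim t k N z' g)
    (h : ∃ᶠ j in atTop, z j ≤ z' j) (x : ℤ) : H.inc g x ≤ H.inc f x := by
  by_contra hcon
  push Not at hcon
  unfold H.inc at hcon
  have h1 := hf.lim (x + 1) x
  have h2 := hg.lim (x + 1) x
  obtain ⟨c, hc1, hc2⟩ := exists_between hcon
  obtain ⟨j, hj, h3, h4, h5⟩ := (h.and_eventually ((h1.eventually_lt_const hc1).and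
    ((h2.eventually_const_lt hc2).and hf.top))).exists
  have := sdiff_mono ht (k := k) (N := N j) h5 (x := (x, k)) (y := (x + 1, k))
    (z := (z j, N j)) (z' := (z' j, N j)) rfl rfl rfl rfl (by simp) hj
  linarith

/-- **TOTAL COMPARABILITY** of strip limits along the same heights -/
theorem StripLim.comparable {t : Environment} (ht : ∀ e, 0 ≤ t e) {k : ℤ} {N z z' : ℕ → ℤ}
    {f g : ℤ → ℝ} (hf : StripLim t k N z f) (hg : StripLim t k N z' g) :
    (∀ x, H.inc f x ≤ H.inc g x) ∨ (∀ x, H.inc g x ≤ H.inc f x) := by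
  by_cases h : ∃ᶠ j in atTop, z j ≤ z' j
  · exact Or.inr fun x => hf.inc_le ht hg h x
  · left
    rw [not_frequently] at h
    exact fun x => hg.inc_le ht hf ((h.mono fun j hj => by omega).frequently) x

/-- a ray and a strip limit along some sequence of heights -/
theorem ray_comparable {t : Environment} (ht : ∀ e, 0 ≤ t e) {k : ℤ} {N : ℕ → ℕ} {z : ℕ → ℤ}
    {f : ℤ → ℝ} (hN : Tendsto N atTop atTop) (hf : StripLim t k (fun j => (N j : ℤ)) z f)
    {v : ℕ → ℤ × ℤ} (hv : IsRay t (reg (half k)) v) (hu : ∀ N : ℤ, ∃ n, N ≤ (v n).2) :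
    (∀ x, H.inc (fun x => bus t (reg (half k)) v (x, k)) x ≤ H.inc f x) ∨
      (∀ x, H.inc f x ≤ H.inc (fun x => bus t (reg (half k)) v (x, k)) x) :=
  StripLim.comparable ht ((stripLim_ray ht hv hu).comp hN) hf


/-! ### labels -/


end Crest.Agent.R151.SL9
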