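import Mathlib
import Crest.Agent.R151.SL906A
import Crest.Agent.R151.L763e

-- ▼ part R151/SL906B
section

/-!
# R151, SL906B: total comparability for arbitrary target sequences in the half-plane
(469's two planar lemmas, deterministic)

`HalfLim t k b B`: `B : ℤ → ℝ` is the limit of `T_half((x,k), b n)` up to constants, where
`b n` are points of the half-plane `{k ≤ y}` with heights tending to infinity.

* `sep_cross`: a walk between two boundary points meets every walk from a boundary point between
  them to the top row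
* `swap`: exchange at a common vertex
* `quasiconcave`, `quasiconvex`: three-point inequalities for `B - f`
* `HalfLim.comparable`: `B` and a strip limit `f` are totally comparable
-/

set_option autoImplicit false

open Crest.ProbabilityR.FirstPassage
open scoped Classical
open Filter Topology

namespace Crest.Agent.R151.SL9

open Crest.Agent.R151 Crest.Agent.R151.Y Crest.Agent.R151.Pl









/-! ### limits -/

/-- `B : ℤ → ℝ` is the limit of `T_half((x,k), b n)` up to constants; `b n` in the half-plane,
heights tending to infinity. -/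
structure HalfLim (t : Environment) (k : ℤ) (b : ℕ → Pt) (B : ℤ → ℝ) : Prop where
  height : Tendsto (fun n => (b n).2) atTop atTop
  lim : ∀ x y : ℤ, Tendsto (fun n => pt (reg (half k)) t (x, k) (b n) -
    pt (reg (half k)) t (y, k) (b n)) atTop (𝓝 (B x - B y))

variable {t : Environment} {k : ℤ} {N z : ℕ → ℤ} {b : ℕ → Pt} {f B : ℤ → ℝ}





end Crest.Agent.R151.SL9
end

-- ▼ part R151/L763s

/-!
# R151/L763s — instances for helper906's `StripLim` (owner helper763)
-/

set_option autoImplicit false

open MeasureTheory Filter Topology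
open Crest.ProbabilityR.FirstPassage

namespace Crest.Agent.R151.LIN

open K

variable {m1 : ℝ} {f0 : ℝ → Environment → ℤ → ℝ} {τ : ℝ} {Ns : ℕ → ℕ} {t : Environment}

theorem Good.sdiff_lim (h : Good f0 m1 τ Ns t) {k : ℤ} {z z' : ℤ × ℤ} (hz : z ∈ Hk k)
    (hz' : z' ∈ Hk k) :
    Tendsto (fun i => SL9.sdiff k (Ns i) t z z' (⌊τ * (Ns i)⌋, Ns i)) atTop
      (𝓝 (FH f0 τ k t z - FH f0 τ k t z')) := by
  refine (h.lim_sub hz hz').congr' ?_
  filter_upwards [h.tendsto_Ns.eventually_ge_atTop (max z.2 z'.2)] with i hi
  have m1 : z ∈ Sp k (Ns i) := ⟨hz, (le_max_left _ _).trans hi⟩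
  have m2 : z' ∈ Sp k (Ns i) := ⟨hz', (le_max_right _ _).trans hi⟩
  rw [pR_eq_pt m1, pR_eq_pt m2]
  rfl

theorem Good.stripLim (h : Good f0 m1 τ Ns t) (k : ℤ) :
    SL9.StripLim t k (fun i => (Ns i : ℤ)) (fun i => ⌊τ * (Ns i)⌋) (fl f0 τ k t) := by
  refine ⟨h.tendsto_Ns.eventually_ge_atTop k, fun x y => ?_⟩
  have := h.sdiff_lim (k := k) (z := (x, k)) (z' := (y, k)) (le_refl k) (le_refl k)
  rwa [h.FH_row, h.FH_row] at this

end Crest.Agent.R151.LIN
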