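import Crest.Agent.R151.L763h
import Crest.Agent.R151.L763s
import Crest.Agent.R151.D624g
import Crest.Agent.R151.H617f
import Crest.Agent.R151.G785b

/-!
# R151/L763k — families of label functions indexed by the slope (owner helper763)

`Sys G μ f0` : everything that is known about the line functions.
`fP f0 μ p k t x` : the label function of the row `k` with slope `-p`, `|p| < μ (1,0)`.
-/

set_option autoImplicit false

open MeasureTheory Filter Topology
open Crest.ProbabilityR.FirstPassage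

namespace Crest.Agent.R151.LIN

open K BUS D411 H

/-- **the system of line functions** -/
structure Sys (G : Measure ℝ) (μ : ℝ × ℝ → ℝ) (f0 : ℝ → Environment → ℤ → ℝ) : Prop where
  smooth : SmoothNorm μ
  h0 : G (Set.Iio 0) = 0
  hat : ∀ x, G {x} = 0
  hm : 0 < μ (1, 0)
  rare : W.BlockRare G (μ (1, 0))
  line : LineFns G (Dir μ) (ph1 μ) (μ (1, 0)) f0
  meas : LineMeas f0
  int : ∀ τ ∈ Dir μ, ∀ x, Integrable (fun t => inc (f0 τ t) x) (iidLaw G)
  mean : ∀ τ ∈ Dir μ, ∀ x, ∫ t, inc (f0 τ t) x ∂(iidLaw G) = -ph1 μ τ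

open Classical in
/-- a direction with slope `p` -/
noncomputable def dirP (μ : ℝ × ℝ → ℝ) (p : ℝ) : ℝ :=
  if h : ∃ s, ph1 μ s = p then h.choose else 0

lemma ph1_dirP {μ : ℝ × ℝ → ℝ} (h : SmoothNorm μ) {p : ℝ} (hp : |p| < μ (1, 0)) :
    ph1 μ (dirP μ p) = p := by
  have e : ∃ s, ph1 μ s = p := exists_ph1_eq h hp
  unfold dirP
  rw [dif_pos e]
  exact e.choose_spec

lemma dirP_mem {μ : ℝ × ℝ → ℝ} (h : SmoothNorm μ) {p : ℝ} (hp : |p| < μ (1, 0)) :
    dirP μ p ∈ Dir μ := by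
  change |ph1 μ (dirP μ p)| < μ (1, 0)
  rwa [ph1_dirP h hp]

lemma dirP_lt {μ : ℝ × ℝ → ℝ} (h : SmoothNorm μ) {p q : ℝ} (hp : |p| < μ (1, 0))
    (hq : |q| < μ (1, 0)) (hpq : p < q) : dirP μ p < dirP μ q := by
  by_contra hcon
  push Not at hcon
  have := monotone_ph1 h hcon
  rw [ph1_dirP h hp, ph1_dirP h hq] at this
  linarith

/-- **the label function of row `k` with slope `-p`** -/
noncomputable def fP (f0 : ℝ → Environment → ℤ → ℝ) (μ : ℝ × ℝ → ℝ) (p : ℝ) (k : ℤ)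
    (t : Environment) (x : ℤ) : ℝ := fl f0 (dirP μ p) k t x


/-- two one sided limits along `ℕ` give `HasSlope` -/
lemma hasSlope_of_nat {h : ℤ → ℝ} {c : ℝ} (h1 : Tendsto (fun x : ℕ => h x / x) atTop (𝓝 c))
    (h2 : Tendsto (fun x : ℕ => h (-x) / x) atTop (𝓝 (-c))) : HasSlope h c := by
  have hnat : Tendsto Int.toNat atTop atTop := by
    refine tendsto_atTop.2 fun b => ?_
    filter_upwards [eventually_ge_atTop (b : ℤ)] with x hx
    omega
  constructor
  · refine (h1.comp hnat).congr' ?_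
    filter_upwards [eventually_ge_atTop (0 : ℤ)] with x hx
    have : ((x.toNat : ℕ) : ℤ) = x := Int.toNat_of_nonneg hx
    simp only [Function.comp]
    rw [this]
    congr 1
    exact_mod_cast congrArg (Int.cast : ℤ → ℝ) this
  · have h3 := (h2.neg).comp (hnat.comp (tendsto_neg_atBot_atTop (G := ℤ)))
    rw [neg_neg] at h3
    refine h3.congr' ?_
    filter_upwards [eventually_le_atBot (0 : ℤ)] with x hx
    have : (((-x).toNat : ℕ) : ℤ) = -x := Int.toNat_of_nonneg (by omega)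
    simp only [Function.comp]
    rw [this, neg_neg]
    have e : (((-x).toNat : ℕ) : ℝ) = -x := by exact_mod_cast congrArg (Int.cast : ℤ → ℝ) this
    rw [e, div_neg, neg_neg]

section

variable {G : Measure ℝ} [IsProbabilityMeasure G] {μ : ℝ × ℝ → ℝ}
  {f0 : ℝ → Environment → ℤ → ℝ} (S : Sys G μ f0)
include S

theorem Sys.ae_good {τ : ℝ} (hτ : τ ∈ Dir μ) :
    ∃ Ns : ℕ → ℕ, ∀ᵐ t ∂(iidLaw G), Good f0 (μ (1, 0)) τ Ns t :=
  LIN.ae_good S.line S.h0 (S.hat 0) S.hm S.rare hτ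

theorem Sys.hl {τ : ℝ} (hτ : τ ∈ Dir μ) : D624.HL G (fun k t x => fl f0 τ k t x) :=
  S.line.hl S.meas S.h0 (S.hat 0) S.hm S.rare hτ

/-- 624's hypotheses, for every real slope -/
theorem Sys.hlP {p : ℝ} (hp : |p| < μ (1, 0)) : D624.HL G (fP f0 μ p) :=
  S.hl (dirP_mem S.smooth hp)



omit S in
lemma inc_fl (τ : ℝ) (k : ℤ) (t : Environment) (x : ℤ) :
    inc (fl f0 τ k t) x = inc (f0 τ (A.shift (0, k) t)) x := by
  simp only [inc, fl]
  ring

theorem Sys.measP (p : ℝ) (k x : ℤ) : Measurable fun t => fP f0 μ p k t x :=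
  S.meas.fl_meas _ k x

theorem Sys.depP (p : ℝ) (k : ℤ) {t t' : Environment} (h : ∀ e ∈ edgesIn (Hk k), t e = t' e) :
    fP f0 μ p k t = fP f0 μ p k t' :=
  S.meas.fl_dep _ k h

theorem Sys.intP {p : ℝ} (hp : |p| < μ (1, 0)) (k x : ℤ) :
    Integrable (fun t => inc (fP f0 μ p k t) x) (iidLaw G) := by
  have h1 := S.int _ (dirP_mem S.smooth hp) x
  have h2 := (preserving (G := G) k).integrable_comp_of_integrable h1
  refine h2.congr (Eventually.of_forall fun t => ?_)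
  simp only [Function.comp]
  exact (inc_fl _ _ _ _).symm

theorem Sys.meanP {p : ℝ} (hp : |p| < μ (1, 0)) (k x : ℤ) :
    ∫ t, inc (fP f0 μ p k t) x ∂(iidLaw G) = -p := by
  have h1 := S.mean _ (dirP_mem S.smooth hp) x
  rw [ph1_dirP S.smooth hp] at h1
  rw [← h1]
  have h3 : Measurable fun t => inc (f0 (dirP μ p) t) x :=
    (S.meas.meas _ _).sub (S.meas.meas _ _)
  have h2 := (preserving (G := G) k).map_eq
  conv_rhs => rw [← h2]
  rw [integral_map (preserving (G := G) k).measurable.aemeasurable h3.aestronglyMeasurable]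
  refine integral_congr_ae (Eventually.of_forall fun t => ?_)
  exact inc_fl _ _ _ _

theorem Sys.monoP {p q : ℝ} (hp : |p| < μ (1, 0)) (hq : |q| < μ (1, 0)) (hpq : p ≤ q) :
    ∀ᵐ t ∂(iidLaw G), ∀ k x : ℤ, inc (fP f0 μ q k t) x ≤ inc (fP f0 μ p k t) x := by
  rcases hpq.eq_or_lt with rfl | hlt
  · exact Eventually.of_forall fun _ _ _ => le_rfl
  filter_upwards [S.line.fl_mono S.h0 (dirP_mem S.smooth hp) (dirP_mem S.smooth hq)
    (dirP_lt S.smooth hp hq hlt).le] with t ht k x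
  exact ht k x (x + 1) (by omega)

/-- **617's mean family, all rows** -/
theorem Sys.meanFamP {D : Set ℝ} (hD : ∀ p ∈ D, |p| < μ (1, 0)) (k : ℤ) :
    MeanFam (iidLaw G) D (fun p t x => fP f0 μ p k t x) 0 (-1) where
  sign := Or.inr rfl
  meas := fun p _ x => S.measP p k x
  int := fun p hp x => S.intP (hD p hp) k x
  mean := fun p hp x => by
    have := S.meanP (hD p hp) k x
    simp only [zero_add, neg_mul, one_mul]
    exact this
  mono := fun p hp q hq hpq => by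
    filter_upwards [S.monoP (hD p hp) (hD q hq) hpq.le] with t ht x
    have := ht k x
    simp only [neg_mul, one_mul, neg_le_neg_iff]
    exact this

theorem Sys.slopeP {p : ℝ} (hp : |p| < μ (1, 0)) :
    ∀ᵐ t ∂(iidLaw G), ∀ k : ℤ, HasSlope (fP f0 μ p k t) (-p) := by
  filter_upwards [S.line.slopes (dirP_mem S.smooth hp)] with t ht k
  rw [ph1_dirP S.smooth hp] at ht
  refine hasSlope_of_nat (ht k).1 ?_
  rw [neg_neg]
  exact (ht k).2

/-- covariance under all shifts -/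
theorem Sys.covP {p : ℝ} (hp : |p| < μ (1, 0)) :
    ∀ᵐ t ∂(iidLaw G), ∀ (a : ℤ × ℤ) (k x : ℤ),
      fP f0 μ p k (A.shift a t) x = fP f0 μ p (k + a.2) t (x + a.1) - fP f0 μ p (k + a.2) t a.1 :=
  S.line.cov (dirP_mem S.smooth hp)

/-- 785's form of the horizontal covariance -/
theorem Sys.incCovP {p : ℝ} (hp : |p| < μ (1, 0)) :
    ∀ᵐ t ∂(iidLaw G), ∀ k y : ℤ, G785.IncCov (fP f0 μ p k) y t := by
  filter_upwards [S.covP hp] with t ht k y w
  have h1 := ht (y, 0) k w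
  have h2 := ht (y, 0) k 0
  simp only [add_zero, zero_add] at h1 h2
  rw [h1, h2]
  ring

/-- 906's strip limits -/
theorem Sys.stripLimP {p : ℝ} (hp : |p| < μ (1, 0)) :
    ∃ Ns : ℕ → ℕ, StrictMono Ns ∧ ∀ᵐ t ∂(iidLaw G), ∀ k : ℤ,
      SL9.StripLim t k (fun i => (Ns i : ℤ)) (fun i => ⌊dirP μ p * (Ns i)⌋) (fP f0 μ p k t) := by
  obtain ⟨Ns, hG⟩ := S.ae_good (dirP_mem S.smooth hp)
  have hmono : StrictMono Ns := by
    obtain ⟨t, ht⟩ := hG.exists
    exact ht.sub
  refine ⟨Ns, hmono, ?_⟩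
  filter_upwards [hG] with t ht k
  exact ht.stripLim k

/-- **comparability with all rays**, all rows -/
theorem Sys.cmpP {p : ℝ} (hp : |p| < μ (1, 0)) :
    ∀ᵐ t ∂(iidLaw G), ∀ (k : ℤ) (u : ℕ → ℤ × ℤ), Y.IsRay t (reg (Hk k)) u →
      (∀ N : ℤ, ∃ n, N ≤ (u n).2) →
      Cmp (fP f0 μ p k t) (fun x => Y.bus t (reg (Hk k)) u (x, k)) := by
  obtain ⟨Ns, hmono, hS⟩ := S.stripLimP hp
  filter_upwards [hS, ae_Nn S.h0] with t ht hn k u hu hh
  exact (SL9.ray_comparable hn hmono.tendsto_atTop (ht k) hu hh).symm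





end

end Crest.Agent.R151.LIN
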