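import Crest.Agent.R151.M192g
import Crest.Agent.R151.R78P

/-!
# R151 / S0214 part 2, M192h — the objects of the stack (definitions; owner helper192)

`ω = ((ξ, t), ψ)`, `ψ k = (η_k, (u_k, u'_k))`; `th k` = offset of row `k`; `Lk k`, `Uk k` = lower and
upper highway of row `k`; gauge labels `±L`; `sumY N` = the path independent sum of
`R78.chain_pr_gauge`; `laneX w H` = excess of the lane of width `w` and height `H`.
-/

set_option autoImplicit false

open MeasureTheory Filter ProbabilityTheory Topology Set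
open Crest.ProbabilityR.FirstPassage
open Crest.Agent.R151.K Crest.Agent.R151.Q

namespace Crest.Agent.R151.NF

open B710 (FlatData)

variable {μ : ℝ × ℝ → ℝ}

namespace Cf

variable {G : Measure ℝ} {F : FlatData μ} {w0 c0 K : ℝ} {p : Num} (c : Cf G F w0 c0 K p)

/-- displacement of the upper highway -/
noncomputable def dA : ℝ × ℝ := c.yA • F.b

/-- offset of row `k` -/
noncomputable def th (k : ℕ) (ω : M192.St (ℝ × ℝ)) : ℝ × ℝ := ω.1.1 - c.B k - (ω.2 k).1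

/-- lower highway of row `k` -/
noncomputable def Lk (k : ℕ) (ω : M192.St (ℝ × ℝ)) : ℤ → ℤ × ℤ :=
  c.h.Lo (c.th k ω) ω.1.2 (ω.2 k).2

/-- upper highway of row `k` -/
noncomputable def Uk (k : ℕ) (ω : M192.St (ℝ × ℝ)) : ℤ → ℤ × ℤ :=
  c.h.Up c.dA (c.th k ω) ω.1.2 (ω.2 k).2

/-- index of the label `s` on the lower highway of row `k` -/
noncomputable def jL (s : ℝ) (k : ℕ) (ω : M192.St (ℝ × ℝ)) : ℤ :=
  c.h.iL s (c.th k ω) ω.1.2 (ω.2 k).2

/-- index of the label `s` on the upper highway of row `k` -/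
noncomputable def jU (s : ℝ) (k : ℕ) (ω : M192.St (ℝ × ℝ)) : ℤ :=
  c.h.iU c.dA s (c.th k ω) ω.1.2 (ω.2 k).2

/-- the path independent sum -/
noncomputable def sumY (N : ℕ) (ω : M192.St (ℝ × ℝ)) : ℝ :=
  R78.SUMY ω.1.2 (phi F) N (fun k => c.Lk k ω) (fun k => c.Uk k ω) (fun _ => univ)
    (fun k => c.jL (-c.L) k ω) (fun k => c.jL c.L k ω) (fun k => c.jU (-c.L) k ω)
    (fun k => c.jU c.L k ω)

/-- cost of the lower highway of row `k` between the gauge points -/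
noncomputable def cstL (k : ℕ) (ω : M192.St (ℝ × ℝ)) : ℝ :=
  c.h.cst (-c.L) c.L (ω.2 k).2.1 (c.th k ω) ω.1.2

/-- cost of the upper highway of row `k` between the gauge points -/
noncomputable def cstU (k : ℕ) (ω : M192.St (ℝ × ℝ)) : ℝ :=
  c.h.cst (-c.L) c.L (ω.2 k).2.2 (c.th k ω - c.dA) ω.1.2

/-- excess of the lane of width `w` over the height `H` -/
noncomputable def laneX (_c : Cf G F w0 c0 K p) (w H : ℝ) (ω : M192.St (ℝ × ℝ)) : ℝ :=
  pR ω.1.2 (laneB F w ω.1.1) (nr ω.1.1) (nr (ω.1.1 - H • F.b)) -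
    (phi F (nr (ω.1.1 - H • F.b)) - phi F (nr ω.1.1))

/-- the terms of `sumY` -/
lemma sumY_eq (N : ℕ) (ω : M192.St (ℝ × ℝ)) : c.sumY N ω =
    ∑ k ∈ Finset.range (N + 1), c.h.hkY c.dA univ (-c.L) c.L (c.th k ω) ω.1.2 (ω.2 k).2 +
    ∑ k ∈ Finset.range N, c.h.gY ((2 * c.g) • F.b + (ω.2 (k + 1)).1 - (ω.2 k).1) (-c.L) c.L
      (c.th k ω - c.dA) ω.1.2 ((ω.2 k).2.2, (ω.2 (k + 1)).2.1) -
    ∑ k ∈ Finset.range N, c.h.Y (-c.L) c.L (ω.2 k).2.2 (c.th k ω - c.dA) ω.1.2 -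
    ∑ k ∈ Finset.range N, c.h.Y (-c.L) c.L (ω.2 (k + 1)).2.1 (c.th (k + 1) ω) ω.1.2 := by
  unfold sumY R78.SUMY
  have e1 : ∀ k, c.th k ω - c.dA - ((2 * c.g) • F.b + (ω.2 (k + 1)).1 - (ω.2 k).1) =
      c.th (k + 1) ω := by
    intro k
    unfold th dA B
    have hP : c.P = c.yA + 2 * c.g := rfl
    push_cast
    rw [hP]
    module
  congr 1
  congr 1
  congr 1
  refine Finset.sum_congr rfl fun k _ => ?_
  simp only [Hwy.gY, Hwy.Lo, Hwy.Up, Hwy.iL, Hwy.iU, e1]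
  rfl

end Cf

end Crest.Agent.R151.NF
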