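import Crest.Agent.R151.V3
import Crest.Agent.R151.K1c

-- ▼ part R151/U750a
section

/-!
# R151/U750a — passage times in finite edge sets between vertex sets (owner helper750)

`TE E A B t` is the minimum over all subsets `S ⊆ E` which join `A` to `B` of `∑ e ∈ S, t e`.
-/

set_option autoImplicit false

open MeasureTheory Filter
open Crest.ProbabilityR.FirstPassage
open Crest.Agent.R151.K
open Crest.Agent.R151.V (pmin pmin_le exists_pmin measurable_pmin)

namespace Crest.Agent.R151.U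

abbrev Pt := ℤ × ℤ
abbrev Edge := Sym2 (ℤ × ℤ)

/-- `A` and `B` are joined by a walk with all edges in `S`. -/
def Conn (S : Set Edge) (A B : Set Pt) : Prop :=
  ∃ a ∈ A, ∃ b ∈ B, ∃ w : squareLattice.Walk a b, ∀ e ∈ w.edges, e ∈ S

open Classical in
/-- The connecting subsets of `E`. -/
noncomputable def PP (E : Finset Edge) (A B : Set Pt) : Finset (Finset Edge) :=
  E.powerset.filter (fun S => Conn (↑S) A B)

open Classical in
/-- The passage time from `A` to `B` inside `E`. -/
noncomputable def TE (E : Finset Edge) (A B : Set Pt) (t : Environment) : ℝ :=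
  if h : (PP E A B).Nonempty then pmin (PP E A B) h t else 0

lemma mem_PP {E : Finset Edge} {A B : Set Pt} {S : Finset Edge} :
    S ∈ PP E A B ↔ S ⊆ E ∧ Conn (↑S) A B := by
  simp [PP]

lemma Conn.mono {S S' : Set Edge} {A A' B B' : Set Pt} (h : Conn S A B) (hS : S ⊆ S')
    (hA : A ⊆ A') (hB : B ⊆ B') : Conn S' A' B' := by
  obtain ⟨a, ha, b, hb, w, hw⟩ := h
  exact ⟨a, hA ha, b, hB hb, w, fun e he => hS (hw e he)⟩

lemma Conn.symm {S : Set Edge} {A B : Set Pt} (h : Conn S A B) : Conn S B A := by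
  obtain ⟨a, ha, b, hb, w, hw⟩ := h
  refine ⟨b, hb, a, ha, w.reverse, fun e he => hw e ?_⟩
  simpa using he

lemma Conn.trans {S S' : Set Edge} {A C : Set Pt} {b : Pt} (h : Conn S A {b})
    (h' : Conn S' {b} C) : Conn (S ∪ S') A C := by
  obtain ⟨a, ha, b1, hb1, w, hw⟩ := h
  obtain ⟨b2, hb2, c, hc, w', hw'⟩ := h'
  rw [Set.mem_singleton_iff] at hb1 hb2
  subst hb1
  subst hb2
  refine ⟨a, ha, c, hc, w.append w', fun e he => ?_⟩
  rw [SimpleGraph.Walk.edges_append, List.mem_append] at he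
  rcases he with he | he
  · exact Or.inl (hw e he)
  · exact Or.inr (hw' e he)

lemma conn_walk {a b : Pt} (w : squareLattice.Walk a b) {S : Set Edge}
    (hw : ∀ e ∈ w.edges, e ∈ S) {A B : Set Pt} (ha : a ∈ A) (hb : b ∈ B) : Conn S A B :=
  ⟨a, ha, b, hb, w, hw⟩

lemma conn_self {S : Set Edge} {A B : Set Pt} {a : Pt} (ha : a ∈ A) (hb : a ∈ B) : Conn S A B :=
  ⟨a, ha, a, hb, SimpleGraph.Walk.nil, by simp⟩

lemma PP_nonempty {E : Finset Edge} {A B : Set Pt} (h : Conn (↑E) A B) : (PP E A B).Nonempty :=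
  ⟨E, mem_PP.2 ⟨Finset.Subset.refl _, h⟩⟩

lemma TE_eq {E : Finset Edge} {A B : Set Pt} (h : Conn (↑E) A B) (t : Environment) :
    TE E A B t = pmin (PP E A B) (PP_nonempty h) t := by
  unfold TE
  rw [dif_pos (PP_nonempty h)]

lemma TE_eq_fun {E : Finset Edge} {A B : Set Pt} (h : Conn (↑E) A B) :
    TE E A B = pmin (PP E A B) (PP_nonempty h) := by
  funext t
  exact TE_eq h t

lemma TE_le {E S : Finset Edge} {A B : Set Pt} (hS : S ⊆ E) (h : Conn (↑S) A B)
    (t : Environment) : TE E A B t ≤ ∑ e ∈ S, t e := by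
  have hE : Conn (↑E) A B := h.mono (by exact_mod_cast hS) subset_rfl subset_rfl
  rw [TE_eq hE]
  exact pmin_le (mem_PP.2 ⟨hS, h⟩) t

lemma exists_TE {E : Finset Edge} {A B : Set Pt} (h : Conn (↑E) A B) (t : Environment) :
    ∃ S ⊆ E, Conn (↑S) A B ∧ TE E A B t = ∑ e ∈ S, t e := by
  obtain ⟨S, hS, hSt⟩ := exists_pmin (PP E A B) (PP_nonempty h) t
  rw [mem_PP] at hS
  exact ⟨S, hS.1, hS.2, by rw [TE_eq h]; exact hSt⟩

lemma measurable_TE (E : Finset Edge) (A B : Set Pt) : Measurable (TE E A B) := by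
  by_cases h : (PP E A B).Nonempty
  · have : TE E A B = pmin (PP E A B) h := by
      funext t
      unfold TE
      rw [dif_pos h]
    rw [this]
    exact measurable_pmin _ _
  · have : TE E A B = fun _ => 0 := by
      funext t
      unfold TE
      rw [dif_neg h]
    rw [this]
    exact measurable_const

lemma TE_nonneg {E : Finset Edge} {A B : Set Pt} {t : Environment} (ht : Nn t) :
    0 ≤ TE E A B t := by
  by_cases h : (PP E A B).Nonempty
  · unfold TE
    rw [dif_pos h]
    exact Crest.Agent.R151.V.pmin_nonneg ht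
  · unfold TE
    rw [dif_neg h]

lemma sum_edges_le {t : Environment} (ht : Nn t) {a b : Pt} (w : squareLattice.Walk a b) :
    ∑ e ∈ w.edges.toFinset, t e ≤ walkCost t w := by
  unfold walkCost
  induction w.edges with
  | nil => simp
  | cons e l ih =>
    rw [List.toFinset_cons, List.map_cons, List.sum_cons]
    calc ∑ e' ∈ insert e l.toFinset, t e' ≤ t e + ∑ e' ∈ l.toFinset, t e' := by
          by_cases he : e ∈ l.toFinset
          · rw [Finset.insert_eq_of_mem he]
            linarith [ht e]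
          · rw [Finset.sum_insert he]
      _ ≤ _ := by linarith

lemma sum_edges_path {t : Environment} {a b : Pt} (w : squareLattice.Walk a b) (hw : w.IsPath) :
    walkCost t w = ∑ e ∈ w.edges.toFinset, t e := by
  unfold walkCost
  exact (List.sum_toFinset t hw.isTrail.edges_nodup).symm

lemma TE_le_walk {E : Finset Edge} {A B : Set Pt} {t : Environment} (ht : Nn t) {a b : Pt}
    (w : squareLattice.Walk a b) (hw : ∀ e ∈ w.edges, e ∈ E) (ha : a ∈ A) (hb : b ∈ B) :
    TE E A B t ≤ walkCost t w := by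
  refine le_trans (TE_le (S := w.edges.toFinset) ?_ ?_ t) (sum_edges_le ht w)
  · intro e he
    exact hw e (by simpa using he)
  · exact conn_walk w (fun e he => by simpa using he) ha hb

lemma exists_path_of_conn {S : Set Edge} {A B : Set Pt} (h : Conn S A B) :
    ∃ a ∈ A, ∃ b ∈ B, ∃ w : squareLattice.Walk a b, w.IsPath ∧ ∀ e ∈ w.edges, e ∈ S := by
  classical
  obtain ⟨a, ha, b, hb, w, hw⟩ := h
  exact ⟨a, ha, b, hb, w.bypass, w.bypass_isPath, fun e he => hw e (w.edges_bypass_subset_edges he)⟩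

lemma exists_walk_TE {E : Finset Edge} {A B : Set Pt} {t : Environment} (ht : Nn t)
    (h : Conn (↑E) A B) :
    ∃ a ∈ A, ∃ b ∈ B, ∃ w : squareLattice.Walk a b, w.IsPath ∧ (∀ e ∈ w.edges, e ∈ E) ∧
      walkCost t w ≤ TE E A B t := by
  obtain ⟨S, hSE, hS, hSt⟩ := exists_TE h t
  obtain ⟨a, ha, b, hb, w, hw, hwS⟩ := exists_path_of_conn hS
  refine ⟨a, ha, b, hb, w, hw, fun e he => hSE (by exact_mod_cast hwS e he), ?_⟩
  rw [hSt, sum_edges_path w hw]
  exact Finset.sum_le_sum_of_subset_of_nonneg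
    (fun e he => by have := hwS e (by simpa using he); exact_mod_cast this) (fun e _ _ => ht e)

lemma TE_mono {E E' : Finset Edge} {A A' B B' : Set Pt} (hE : E ⊆ E') (hA : A ⊆ A')
    (hB : B ⊆ B') (h : Conn (↑E) A B) (t : Environment) : TE E' A' B' t ≤ TE E A B t := by
  obtain ⟨S, hSE, hS, hSt⟩ := exists_TE h t
  rw [hSt]
  exact TE_le (hSE.trans hE) (hS.mono subset_rfl hA hB) t

lemma TE_trans {E : Finset Edge} {A C : Set Pt} {b : Pt} {t : Environment} (ht : Nn t)
    (h : Conn (↑E) A {b}) (h' : Conn (↑E) {b} C) :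
    TE E A C t ≤ TE E A {b} t + TE E {b} C t := by
  classical
  obtain ⟨S, hSE, hS, hSt⟩ := exists_TE h t
  obtain ⟨S', hSE', hS', hSt'⟩ := exists_TE h' t
  rw [hSt, hSt']
  refine (TE_le (S := S ∪ S') (Finset.union_subset hSE hSE') ?_ t).trans ?_
  · have := hS.trans hS'
    refine this.mono ?_ subset_rfl subset_rfl
    simp
  · rw [← Finset.sum_union_inter]
    have : 0 ≤ ∑ e ∈ S ∩ S', t e := Finset.sum_nonneg fun e _ => ht e
    linarith

lemma pt_le_TE {E : Finset Edge} {a b : Pt} {t : Environment} (ht : Nn t)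
    (h : Conn (↑E) {a} {b}) : passageTime t a b ≤ TE E {a} {b} t := by
  obtain ⟨a', ha, b', hb, w, -, -, hc⟩ := exists_walk_TE ht h
  rw [Set.mem_singleton_iff] at ha hb
  subst ha
  subst hb
  exact (pt_le ht w).trans hc

lemma exists_TE_pt {E : Finset Edge} {A B : Set Pt} {t : Environment} (ht : Nn t)
    (h : Conn (↑E) A B) : ∃ a ∈ A, ∃ b ∈ B, passageTime t a b ≤ TE E A B t := by
  obtain ⟨a, ha, b, hb, w, -, -, hc⟩ := exists_walk_TE ht h
  exact ⟨a, ha, b, hb, (pt_le ht w).trans hc⟩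

/-! ### lattice automorphisms -/

lemma conn_iso (φ : squareLattice ≃g squareLattice) {S : Set Edge} {A B : Set Pt}
    (h : Conn S A B) : Conn (Sym2.map φ '' S) (φ '' A) (φ '' B) := by
  obtain ⟨a, ha, b, hb, w, hw⟩ := h
  refine ⟨φ a, ⟨a, ha, rfl⟩, φ b, ⟨b, hb, rfl⟩, w.map φ.toHom, fun e he => ?_⟩
  rw [SimpleGraph.Walk.edges_map, List.mem_map] at he
  obtain ⟨e', he', rfl⟩ := he
  exact ⟨e', hw e' he', rfl⟩

lemma TE_iso_le (φ : squareLattice ≃g squareLattice) (E : Finset Edge) (A B : Set Pt)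
    (h : Conn (↑E) A B) (t : Environment) :
    TE (E.image (Sym2.map φ)) (φ '' A) (φ '' B) t ≤ TE E A B (act φ t) := by
  classical
  obtain ⟨S, hSE, hS, hSt⟩ := exists_TE h (act φ t)
  rw [hSt]
  refine (TE_le (S := S.image (Sym2.map φ)) (Finset.image_subset_image hSE) ?_ t).trans ?_
  · have := conn_iso φ hS
    rwa [Finset.coe_image]
  · rw [Finset.sum_image (fun x _ y _ hxy => Sym2.map.injective φ.injective hxy)]
    rfl

lemma TE_iso (φ : squareLattice ≃g squareLattice) (E : Finset Edge) (A B : Set Pt)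
    (h : Conn (↑E) A B) (t : Environment) :
    TE (E.image (Sym2.map φ)) (φ '' A) (φ '' B) t = TE E A B (act φ t) := by
  classical
  apply le_antisymm (TE_iso_le φ E A B h t)
  have h1 : Conn (↑(E.image (Sym2.map φ))) (φ '' A) (φ '' B) := by
    have := conn_iso φ h
    rwa [Finset.coe_image]
  have h2 := TE_iso_le φ.symm (E.image (Sym2.map φ)) (φ '' A) (φ '' B) h1 (act φ t)
  have e1 : (E.image (Sym2.map φ)).image (Sym2.map φ.symm) = E := by
    rw [Finset.image_image]
    have : (Sym2.map (⇑φ.symm) ∘ Sym2.map (⇑φ)) = id := by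
      funext e
      rw [Function.comp_apply, Sym2.map_map]
      have : (⇑φ.symm ∘ ⇑φ) = id := by
        funext x
        simp
      rw [this, Sym2.map_id]
    rw [this, Finset.image_id]
  have e2 : ∀ C : Set Pt, φ.symm '' (φ '' C) = C := by
    intro C
    rw [← Set.image_comp]
    have : (⇑φ.symm ∘ ⇑φ) = id := by
      funext x
      simp
    rw [this, Set.image_id]
  have e3 : act φ.symm (act φ t) = t := by
    funext e
    unfold act
    rw [Sym2.map_map]
    have : (⇑φ ∘ ⇑φ.symm) = id := by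
      funext x
      simp
    rw [this, Sym2.map_id]
    rfl
  rw [e1, e2, e2, e3] at h2
  exact h2

end Crest.Agent.R151.U
end

-- ▼ part R151/U750b

/-!
# R151/U750b — boxes, vertical segments, decomposition of walks at a column (owner helper750)
-/

set_option autoImplicit false

open MeasureTheory Filter
open Crest.ProbabilityR.FirstPassage
open Crest.Agent.R151.K

namespace Crest.Agent.R151.U

lemma adj_cases {p q : Pt} (h : squareLattice.Adj p q) :
    q = (p.1 + 1, p.2) ∨ q = (p.1 - 1, p.2) ∨ q = (p.1, p.2 + 1) ∨ q = (p.1, p.2 - 1) := by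
  rw [squareLattice, SimpleGraph.fromRel_adj] at h
  obtain ⟨_, h⟩ := h
  obtain ⟨p1, p2⟩ := p
  obtain ⟨q1, q2⟩ := q
  simp only [Prod.mk.injEq] at h ⊢
  omega

/-- The half-open box: horizontal edges `(x,y)-(x+1,y)` with `a ≤ x < b`, `|y-y0| ≤ R`, and the
vertical edges in the columns `a ≤ x < b` inside `|y-y0| ≤ R`. -/
noncomputable def Box (a b y0 R : ℤ) : Finset Edge :=
  ((Finset.Ico a b ×ˢ Finset.Icc (y0 - R) (y0 + R)).image fun p : Pt => eH p.1 p.2) ∪
  ((Finset.Ico a b ×ˢ Finset.Ico (y0 - R) (y0 + R)).image fun p : Pt => eV p.1 p.2)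

lemma mem_Box_adj {a b y0 R : ℤ} {p q : Pt} (h : squareLattice.Adj p q) :
    s(p, q) ∈ Box a b y0 R ↔ (a ≤ p.1 ∧ p.1 ≤ b ∧ a ≤ q.1 ∧ q.1 ≤ b ∧ (p.1 < b ∨ q.1 < b) ∧
      y0 - R ≤ p.2 ∧ p.2 ≤ y0 + R ∧ y0 - R ≤ q.2 ∧ q.2 ≤ y0 + R) := by
  unfold Box
  simp only [Finset.mem_union, Finset.mem_image, Finset.mem_product, Finset.mem_Ico,
    Finset.mem_Icc, eH, eV]
  obtain ⟨p1, p2⟩ := p
  constructor
  · rintro (⟨⟨x, y⟩, hx, he⟩ | ⟨⟨x, y⟩, hx, he⟩)
    · rw [Sym2.eq_iff] at he
      rcases he with ⟨h1, h2⟩ | ⟨h1, h2⟩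
      · rw [← h2]
        simp only [Prod.mk.injEq] at h1 hx ⊢
        omega
      · rw [← h1]
        simp only [Prod.mk.injEq] at h2 hx ⊢
        omega
    · rw [Sym2.eq_iff] at he
      rcases he with ⟨h1, h2⟩ | ⟨h1, h2⟩
      · rw [← h2]
        simp only [Prod.mk.injEq] at h1 hx ⊢
        omega
      · rw [← h1]
        simp only [Prod.mk.injEq] at h2 hx ⊢
        omega
  · intro hb
    rcases adj_cases h with rfl | rfl | rfl | rfl
    · left
      exact ⟨(p1, p2), by simp only at hb ⊢; omega, rfl⟩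
    · left
      refine ⟨(p1 - 1, p2), by simp only at hb ⊢; omega, ?_⟩
      rw [Sym2.eq_swap]
      simp
    · right
      exact ⟨(p1, p2), by simp only at hb ⊢; omega, rfl⟩
    · right
      refine ⟨(p1, p2 - 1), by simp only at hb ⊢; omega, ?_⟩
      rw [Sym2.eq_swap]
      simp

lemma Box_mono {a b y0 R a' b' y0' R' : ℤ} (h1 : a' ≤ a) (h2 : b ≤ b') (h3 : y0' - R' ≤ y0 - R)
    (h4 : y0 + R ≤ y0' + R') : Box a b y0 R ⊆ Box a' b' y0' R' := by
  unfold Box
  apply Finset.union_subset_union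
  · apply Finset.image_subset_image
    apply Finset.product_subset_product
    · exact Finset.Ico_subset_Ico h1 h2
    · exact Finset.Icc_subset_Icc h3 h4
  · apply Finset.image_subset_image
    apply Finset.product_subset_product
    · exact Finset.Ico_subset_Ico h1 h2
    · exact Finset.Ico_subset_Ico h3 h4

/-- Vertical segment `{x} × [y, y+l)`. -/
def seg (x y : ℤ) (l : ℕ) : Set Pt := {p | p.1 = x ∧ y ≤ p.2 ∧ p.2 < y + l}

lemma mem_seg {x y : ℤ} {l : ℕ} {p : Pt} : p ∈ seg x y l ↔ p.1 = x ∧ y ≤ p.2 ∧ p.2 < y + l :=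
  Iff.rfl

lemma image_tr_seg (z : Pt) (x y : ℤ) (l : ℕ) : tr z '' seg x y l = seg (x + z.1) (y + z.2) l := by
  ext p
  simp only [Set.mem_image, mem_seg, tr_apply]
  constructor
  · rintro ⟨q, hq, rfl⟩
    simp only [Prod.fst_add, Prod.snd_add]
    omega
  · intro hp
    refine ⟨p - z, ?_, by simp⟩
    simp only [Prod.fst_sub, Prod.snd_sub]
    omega

lemma image_tr_Box (z : Pt) (a b y0 R : ℤ) :
    (Box a b y0 R).image (Sym2.map (tr z)) = Box (a + z.1) (b + z.1) (y0 + z.2) R := by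
  unfold Box
  rw [Finset.image_union, Finset.image_image, Finset.image_image]
  congr 1
  · ext e
    simp only [Finset.mem_image, Finset.mem_product, Finset.mem_Ico, Finset.mem_Icc,
      Function.comp_apply, eH, Sym2.map_mk, tr_apply]
    constructor
    · rintro ⟨⟨x, y⟩, hx, rfl⟩
      refine ⟨(x + z.1, y + z.2), by simp only at hx ⊢; omega, ?_⟩
      exact Sym2.eq_iff.2 (Or.inl ⟨Prod.ext (by simp) (by simp),
        Prod.ext (by simp only [Prod.fst_add]; ring) (by simp)⟩)
    · rintro ⟨⟨x, y⟩, hx, rfl⟩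
      refine ⟨(x - z.1, y - z.2), by simp only at hx ⊢; omega, ?_⟩
      exact Sym2.eq_iff.2 (Or.inl ⟨Prod.ext (by simp) (by simp),
        Prod.ext (by simp only [Prod.fst_add]; ring) (by simp)⟩)
  · ext e
    simp only [Finset.mem_image, Finset.mem_product, Finset.mem_Ico, Finset.mem_Icc,
      Function.comp_apply, eV, Sym2.map_mk, tr_apply]
    constructor
    · rintro ⟨⟨x, y⟩, hx, rfl⟩
      refine ⟨(x + z.1, y + z.2), by simp only at hx ⊢; omega, ?_⟩
      exact Sym2.eq_iff.2 (Or.inl ⟨Prod.ext (by simp) (by simp),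
        Prod.ext (by simp) (by simp only [Prod.snd_add]; ring)⟩)
    · rintro ⟨⟨x, y⟩, hx, rfl⟩
      refine ⟨(x - z.1, y - z.2), by simp only at hx ⊢; omega, ?_⟩
      exact Sym2.eq_iff.2 (Or.inl ⟨Prod.ext (by simp) (by simp),
        Prod.ext (by simp) (by simp only [Prod.snd_add]; ring)⟩)

/-! ### straight walks -/

lemma conn_row {a b y0 R : ℤ} {x x' y : ℤ} (hx : a ≤ x) (hxx : x ≤ x') (hx' : x' ≤ b)
    (hy : y0 - R ≤ y) (hy' : y ≤ y0 + R) :
    Conn (↑(Box a b y0 R)) {(x, y)} {(x', y)} := by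
  obtain ⟨n, rfl⟩ : ∃ n : ℕ, x' = x + n := ⟨(x' - x).toNat, by omega⟩
  clear hxx
  induction n with
  | zero => exact conn_self (a := (x, y)) rfl (by simp)
  | succ n ih =>
    have h1 := ih (by push_cast at hx' ⊢; omega)
    have h2 : Conn (↑(Box a b y0 R)) {(x + n, y)} {(x + (n + 1 : ℕ), y)} := by
      have hadj := adj_right (x + n) y
      refine conn_walk (SimpleGraph.Walk.cons hadj SimpleGraph.Walk.nil) ?_ rfl (by
        rw [Set.mem_singleton_iff]; push_cast; ring_nf)
      intro e he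
      simp only [SimpleGraph.Walk.edges_cons, SimpleGraph.Walk.edges_nil, List.mem_singleton] at he
      subst he
      rw [Finset.mem_coe, mem_Box_adj hadj]
      push_cast at hx'
      simp only
      omega
    have := h1.trans h2
    rwa [Set.union_self] at this

lemma conn_col {a b y0 R : ℤ} {x y y' : ℤ} (hx : a ≤ x) (hx' : x < b) (hyy : y ≤ y')
    (hy : y0 - R ≤ y) (hy' : y' ≤ y0 + R) :
    Conn (↑(Box a b y0 R)) {(x, y)} {(x, y')} := by
  obtain ⟨n, rfl⟩ : ∃ n : ℕ, y' = y + n := ⟨(y' - y).toNat, by omega⟩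
  clear hyy
  induction n with
  | zero => exact conn_self (a := (x, y)) rfl (by simp)
  | succ n ih =>
    have h1 := ih (by push_cast at hy' ⊢; omega)
    have h2 : Conn (↑(Box a b y0 R)) {(x, y + n)} {(x, y + (n + 1 : ℕ))} := by
      have hadj := adj_up x (y + n)
      refine conn_walk (SimpleGraph.Walk.cons hadj SimpleGraph.Walk.nil) ?_ rfl (by
        rw [Set.mem_singleton_iff]; push_cast; ring_nf)
      intro e he
      simp only [SimpleGraph.Walk.edges_cons, SimpleGraph.Walk.edges_nil, List.mem_singleton] at he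
      subst he
      rw [Finset.mem_coe, mem_Box_adj hadj]
      push_cast at hy'
      simp only
      omega
    have := h1.trans h2
    rwa [Set.union_self] at this

/-- Any two vertices of a box (the first off the last column) are joined. -/
lemma conn_box {a b y0 R : ℤ} {p q : Pt} (h1 : a ≤ p.1) (h2 : p.1 ≤ b) (h3 : a ≤ q.1)
    (h4 : q.1 ≤ b) (hab : a < b) (h5 : y0 - R ≤ p.2) (h6 : p.2 ≤ y0 + R) (h7 : y0 - R ≤ q.2)
    (h8 : q.2 ≤ y0 + R) : Conn (↑(Box a b y0 R)) {p} {q} := by
  obtain ⟨p1, p2⟩ := p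
  obtain ⟨q1, q2⟩ := q
  simp only at h1 h2 h3 h4 h5 h6 h7 h8
  have e1 : Conn (↑(Box a b y0 R)) {(p1, p2)} {(a, p2)} :=
    (conn_row le_rfl h1 h2 h5 h6).symm
  have e2 : Conn (↑(Box a b y0 R)) {(a, q2)} {(q1, q2)} := conn_row le_rfl h3 h4 h7 h8
  have e3 : Conn (↑(Box a b y0 R)) {(a, p2)} {(a, q2)} := by
    rcases le_total p2 q2 with h | h
    · exact conn_col le_rfl hab h h5 h8
    · exact (conn_col le_rfl hab h h7 h6).symm
  have := (e1.trans e3).trans e2
  rwa [Set.union_self, Set.union_self] at this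

lemma conn_box_sets {a b y0 R : ℤ} {A B : Set Pt} {p q : Pt} (hp : p ∈ A) (hq : q ∈ B)
    (h1 : a ≤ p.1) (h2 : p.1 ≤ b) (h3 : a ≤ q.1)
    (h4 : q.1 ≤ b) (hab : a < b) (h5 : y0 - R ≤ p.2) (h6 : p.2 ≤ y0 + R) (h7 : y0 - R ≤ q.2)
    (h8 : q.2 ≤ y0 + R) : Conn (↑(Box a b y0 R)) A B :=
  (conn_box h1 h2 h3 h4 hab h5 h6 h7 h8).mono subset_rfl (by simpa using hp) (by simpa using hq)

/-! ### translation invariance of the means -/

variable {G : Measure ℝ} [IsProbabilityMeasure G]



/-! ### decomposition of walks at a column -/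

/-- all end points weakly left of column `n`, and not both on it -/
def Lft (n : ℤ) (e : Edge) : Prop := (∀ p ∈ e, p.1 ≤ n) ∧ ∃ p ∈ e, p.1 < n

/-- all end points weakly right of column `n`, and not both on it -/
def Rgt (n : ℤ) (e : Edge) : Prop := (∀ p ∈ e, n ≤ p.1) ∧ ∃ p ∈ e, n < p.1

lemma first_hit (n : ℤ) {a b : Pt} (w : squareLattice.Walk a b) (ha : a.1 ≤ n) (hb : n ≤ b.1) :
    ∃ c : Pt, c.1 = n ∧ ∃ (w1 : squareLattice.Walk a c) (w2 : squareLattice.Walk c b),
      w = w1.append w2 ∧ ∀ e ∈ w1.edges, Lft n e := by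
  induction w with
  | nil => exact ⟨_, le_antisymm ha hb, SimpleGraph.Walk.nil, SimpleGraph.Walk.nil, rfl, by simp⟩
  | @cons a a' b h w' ih =>
    by_cases han : a.1 = n
    · exact ⟨a, han, SimpleGraph.Walk.nil, SimpleGraph.Walk.cons h w', rfl, by simp⟩
    · have hlt : a.1 < n := lt_of_le_of_ne ha han
      have ha' : a'.1 ≤ n := by
        rcases adj_cases h with rfl | rfl | rfl | rfl <;> simp only <;> omega
      obtain ⟨c, hc, w1, w2, hw, he⟩ := ih ha' hb
      refine ⟨c, hc, SimpleGraph.Walk.cons h w1, w2, by rw [hw]; rfl, ?_⟩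
      intro e hee
      rw [SimpleGraph.Walk.edges_cons, List.mem_cons] at hee
      rcases hee with rfl | hee
      · refine ⟨?_, a, Sym2.mem_mk_left _ _, hlt⟩
        intro p hp
        rcases Sym2.mem_iff.1 hp with rfl | rfl
        · exact ha
        · exact ha'
      · exact he e hee

lemma first_hit' (n : ℤ) {a b : Pt} (w : squareLattice.Walk a b) (ha : n ≤ a.1) (hb : b.1 ≤ n) :
    ∃ c : Pt, c.1 = n ∧ ∃ (w1 : squareLattice.Walk a c) (w2 : squareLattice.Walk c b),
      w = w1.append w2 ∧ ∀ e ∈ w1.edges, Rgt n e := by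
  induction w with
  | nil => exact ⟨_, le_antisymm hb ha, SimpleGraph.Walk.nil, SimpleGraph.Walk.nil, rfl, by simp⟩
  | @cons a a' b h w' ih =>
    by_cases han : a.1 = n
    · exact ⟨a, han, SimpleGraph.Walk.nil, SimpleGraph.Walk.cons h w', rfl, by simp⟩
    · have hlt : n < a.1 := lt_of_le_of_ne ha (Ne.symm han)
      have ha' : n ≤ a'.1 := by
        rcases adj_cases h with rfl | rfl | rfl | rfl <;> simp only <;> omega
      obtain ⟨c, hc, w1, w2, hw, he⟩ := ih ha' hb
      refine ⟨c, hc, SimpleGraph.Walk.cons h w1, w2, by rw [hw]; rfl, ?_⟩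
      intro e hee
      rw [SimpleGraph.Walk.edges_cons, List.mem_cons] at hee
      rcases hee with rfl | hee
      · refine ⟨?_, a, Sym2.mem_mk_left _ _, hlt⟩
        intro p hp
        rcases Sym2.mem_iff.1 hp with rfl | rfl
        · exact ha
        · exact ha'
      · exact he e hee

lemma last_visit (n : ℤ) {a b : Pt} (w : squareLattice.Walk a b) (ha : a.1 ≤ n) (hb : n ≤ b.1) :
    ∃ c : Pt, c.1 = n ∧ ∃ (w1 : squareLattice.Walk a c) (w2 : squareLattice.Walk c b),
      w = w1.append w2 ∧ ∀ e ∈ w2.edges, Rgt n e := by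
  obtain ⟨c, hc, w1, w2, hw, he⟩ := first_hit' n w.reverse hb ha
  refine ⟨c, hc, w2.reverse, w1.reverse, ?_, ?_⟩
  · have := congrArg SimpleGraph.Walk.reverse hw
    rwa [SimpleGraph.Walk.reverse_reverse, SimpleGraph.Walk.reverse_append] at this
  · intro e hee
    rw [SimpleGraph.Walk.edges_reverse, List.mem_reverse] at hee
    exact he e hee

/-- Decomposition at column `n`: before the first hit, between, and after the last visit. -/
lemma decomp3 (n : ℤ) {a b : Pt} (w : squareLattice.Walk a b) (ha : a.1 ≤ n) (hb : n ≤ b.1) :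
    ∃ c d : Pt, c.1 = n ∧ d.1 = n ∧ ∃ (w1 : squareLattice.Walk a c) (w2 : squareLattice.Walk c d)
      (w3 : squareLattice.Walk d b), w = w1.append (w2.append w3) ∧ (∀ e ∈ w1.edges, Lft n e) ∧
      ∀ e ∈ w3.edges, Rgt n e := by
  obtain ⟨c, hc, w1, w', hw, he⟩ := first_hit n w ha hb
  obtain ⟨d, hd, w2, w3, hw', he'⟩ := last_visit n w' hc.le hb
  exact ⟨c, d, hc, hd, w1, w2, w3, by rw [hw, hw'], he, he'⟩

lemma walk_dist {a b : Pt} (w : squareLattice.Walk a b) :
    ∀ p ∈ w.support, |p.1 - a.1| ≤ w.length ∧ |p.2 - a.2| ≤ w.length := by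
  induction w with
  | nil =>
    intro p hp
    simp only [SimpleGraph.Walk.support_nil, List.mem_singleton] at hp
    subst hp
    simp
  | @cons a a' b h w' ih =>
    intro p hp
    rw [SimpleGraph.Walk.support_cons, List.mem_cons] at hp
    rw [SimpleGraph.Walk.length_cons]
    push_cast
    rcases hp with rfl | hp
    · simp only [sub_self, abs_zero]
      constructor <;> positivity
    · obtain ⟨h1, h2⟩ := ih p hp
      rw [abs_le] at h1 h2
      rcases adj_cases h with rfl | rfl | rfl | rfl <;> simp only at h1 h2 <;>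
        constructor <;> rw [abs_le] <;> constructor <;> omega

lemma edge_mem_support {a b : Pt} (w : squareLattice.Walk a b) {e : Edge} (he : e ∈ w.edges)
    {p : Pt} (hp : p ∈ e) : p ∈ w.support := by
  induction e using Sym2.inductionOn with
  | _ x y =>
    rcases Sym2.mem_iff.1 hp with rfl | rfl
    · exact w.fst_mem_support_of_mem_edges he
    · exact w.snd_mem_support_of_mem_edges he

lemma adj_of_mem_edges {a b : Pt} (w : squareLattice.Walk a b) {x y : Pt}
    (he : s(x, y) ∈ w.edges) : squareLattice.Adj x y := w.adj_of_mem_edges he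

/-- A walk whose edges lie in a box and weakly left of column `n`, and of length `≤ L`,
lies in the smaller box around its starting height. -/
lemma walk_sub_Box {a b : Pt} (w : squareLattice.Walk a b) {A' B' y0' R' : ℤ}
    (hl : ∀ e ∈ w.edges, (∀ p ∈ e, A' ≤ p.1 ∧ p.1 ≤ B') ∧ ∃ p ∈ e, p.1 < B')
    (hR : |a.2 - y0'| + w.length ≤ R') :
    ∀ e ∈ w.edges, e ∈ Box A' B' y0' R' := by
  intro e he
  have hl1 := hl e he
  have hs : ∀ p ∈ e, p ∈ w.support := fun p hp => edge_mem_support w he hp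
  induction e using Sym2.inductionOn with
  | _ x y =>
    have hadj := adj_of_mem_edges w he
    rw [mem_Box_adj hadj]
    obtain ⟨hl2, q, hq, hql⟩ := hl1
    have hx := hl2 x (Sym2.mem_mk_left _ _)
    have hy := hl2 y (Sym2.mem_mk_right _ _)
    have dx := (walk_dist w x (hs x (Sym2.mem_mk_left _ _))).2
    have dy := (walk_dist w y (hs y (Sym2.mem_mk_right _ _))).2
    rw [abs_le] at dx dy
    have h0 := abs_le.1 (le_refl |a.2 - y0'|)
    refine ⟨hx.1, hx.2, hy.1, hy.2, ?_, ?_, ?_, ?_, ?_⟩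
    · rcases Sym2.mem_iff.1 hq with rfl | rfl
      · exact Or.inl hql
      · exact Or.inr hql
    all_goals omega

end Crest.Agent.R151.U
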