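import Crest.Agent.R151.U750b

/-!
# R151/U750c — hypotheses of the block, local steps, linear bounds (owner helper750)
-/

set_option autoImplicit false
set_option linter.unusedSectionVars false

open MeasureTheory Filter
open scoped Topology
open Crest.ProbabilityR.FirstPassage
open Crest.Agent.R151.K

namespace Crest.Agent.R151.U

attribute [local irreducible] Box TE

/-- cell length at scale `2^k` -/
def len (k : ℕ) : ℕ := 2 ^ (15 * k / 16)

/-- Fluctuations of segment-to-segment times in boxes. -/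
def DEV (G : Measure ℝ) : Prop :=
  ∀ C0 : ℕ, ∃ (C : ℝ) (k0 : ℕ), ∀ k : ℕ, k0 ≤ k → ∀ (a b y0 R x x' y y' : ℤ) (l l' : ℕ),
    a + len k ≤ b → b - a ≤ C0 * 2 ^ k → R ≤ C0 * 2 ^ k → a ≤ x → x ≤ b → a ≤ x' → x' ≤ b →
    y0 - R ≤ y → y + l ≤ y0 + R + 1 → y0 - R ≤ y' → y' + l' ≤ y0 + R + 1 →
    len k ≤ l → len k ≤ l' →
    Integrable (TE (Box a b y0 R) (seg x y l) (seg x' y' l')) (iidLaw G) ∧
    ∫ t, |TE (Box a b y0 R) (seg x y l) (seg x' y' l') t -
      ∫ t', TE (Box a b y0 R) (seg x y l) (seg x' y' l') t' ∂(iidLaw G)| ∂(iidLaw G) ≤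
      C * (2 : ℝ) ^ ((5 / 8 : ℝ) * k)

/-- The event that some path of length at least `L` from `x` is too cheap. -/
def Cheap (c : ℝ) (L : ℕ) (x : Pt) : Set Environment :=
  {t | ∃ (y : Pt) (w : squareLattice.Walk x y), w.IsPath ∧ L ≤ w.length ∧
    walkCost t w < c * w.length}

/-- Hypotheses of the block (corner data `al, be, s, a` and the law `G`). -/
structure Hyp (G : Measure ℝ) (al be s a : ℝ) : Prop where
  h0 : G (Set.Iio 0) = 0
  hI : ∀ x y : Pt, Integrable (fun t => passageTime t x y) (iidLaw G)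
  hlow : ∀ x : Pt, al * x.1 + be * x.2 + a * |x.2 - s * x.1| ≤ ET G x
  hup : Tendsto (fun m : ℕ => ET G ((m : ℤ), ⌊s * m⌋) / m) atTop (𝓝 (al + be * s))
  ha : 0 < a
  loc1 : Integrable (TE (Box 0 3 0 3) {(0, 0)} {(0, 1)}) (iidLaw G)
  loc2 : Integrable (TE (Box 0 3 0 3) {(0, 0)} {(1, 0)}) (iidLaw G)
  loc3 : Integrable (TE (Box 0 3 0 3) {(0, 0)} (seg 3 (-1) 3)) (iidLaw G)
  pei : ∃ c : ℝ, 0 < c ∧ ∀ (L : ℕ) (x : Pt), 1 ≤ L →
    (iidLaw G) (Cheap c L x) ≤ ENNReal.ofReal ((1 / 2 : ℝ) ^ L)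
  dev : DEV G

/-- local vertical step -/
noncomputable def sV (x y : ℤ) (t : Environment) : ℝ :=
  TE (Box x (x + 3) y 3) {(x, y)} {(x, y + 1)} t

/-- local horizontal step -/
noncomputable def sH (x y : ℤ) (t : Environment) : ℝ :=
  TE (Box x (x + 3) y 3) {(x, y)} {(x + 1, y)} t

/-- local exit step -/
noncomputable def sX (x y : ℤ) (t : Environment) : ℝ :=
  TE (Box x (x + 3) y 3) {(x, y)} (seg (x + 3) (y - 1) 3) t

lemma conn_sV (x y : ℤ) : Conn (↑(Box x (x + 3) y 3)) {(x, y)} {(x, y + 1)} :=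
  conn_box (by simp) (by simp) (by simp) (by simp) (by omega)
    (by simp) (by simp) (by simp only; omega) (by simp only; omega)

lemma conn_sH (x y : ℤ) : Conn (↑(Box x (x + 3) y 3)) {(x, y)} {(x + 1, y)} :=
  conn_box (by simp) (by simp) (by simp) (by simp only; omega) (by omega)
    (by simp) (by simp) (by simp only; omega) (by simp only; omega)

lemma conn_sX (x y : ℤ) : Conn (↑(Box x (x + 3) y 3)) {(x, y)} (seg (x + 3) (y - 1) 3) :=
  conn_box_sets (p := (x, y)) (q := (x + 3, y)) rfl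
    ⟨rfl, by simp only; omega, by simp only; push_cast; omega⟩
    (by simp) (by simp) (by simp) (by simp) (by omega) (by simp) (by simp) (by simp) (by simp)

lemma measurable_sV (x y : ℤ) : Measurable (sV x y) := measurable_TE _ _ _
lemma measurable_sH (x y : ℤ) : Measurable (sH x y) := measurable_TE _ _ _
lemma measurable_sX (x y : ℤ) : Measurable (sX x y) := measurable_TE _ _ _

variable {t : Environment}

lemma sV_nonneg (ht : Nn t) (x y : ℤ) : 0 ≤ sV x y t := TE_nonneg ht
lemma sH_nonneg (ht : Nn t) (x y : ℤ) : 0 ≤ sH x y t := TE_nonneg ht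
lemma sX_nonneg (ht : Nn t) (x y : ℤ) : 0 ≤ sX x y t := TE_nonneg ht

/-- connection along a column, ordered heights -/
lemma TE_col_le' (ht : Nn t) {a b y0 R x : ℤ} (hx : a ≤ x) (hx' : x + 3 ≤ b) (y : ℤ) (n : ℕ)
    (hy : y0 - R + 3 ≤ y) (hy' : y + n + 3 ≤ y0 + R) :
    TE (Box a b y0 R) {(x, y)} {(x, y + n)} t ≤ ∑ i ∈ Finset.range n, sV x (y + i) t := by
  induction n with
  | zero =>
    have : TE (Box a b y0 R) {(x, y)} {(x, y + ((0 : ℕ) : ℤ))} t ≤
        walkCost t (SimpleGraph.Walk.nil : squareLattice.Walk (x, y) (x, y)) :=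
      TE_le_walk ht _ (by simp) rfl (by simp)
    simpa [walkCost] using this
  | succ n ih =>
    rw [Finset.sum_range_succ]
    have h1 := ih (by push_cast at hy' ⊢; omega)
    push_cast at hy'
    have h2 := TE_trans (E := Box a b y0 R) (A := {(x, y)}) (C := {(x, y + ((n + 1 : ℕ) : ℤ))})
      (b := (x, y + n)) ht
      (conn_col hx (by omega) (by omega) (by omega) (by omega))
      (conn_col hx (by omega) (by push_cast; omega) (by omega) (by push_cast; omega))
    have h3 : TE (Box a b y0 R) {(x, y + n)} {(x, y + ((n + 1 : ℕ) : ℤ))} t ≤ sV x (y + n) t := by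
      unfold sV
      have e : y + ((n + 1 : ℕ) : ℤ) = y + n + 1 := by push_cast; ring
      rw [e]
      exact TE_mono (Box_mono hx hx' (by omega) (by omega)) subset_rfl subset_rfl
        (conn_sV x (y + n)) t
    linarith

/-- connection along a column, any two heights of a window -/
lemma TE_col_le (ht : Nn t) {a b y0 R x : ℤ} (hx : a ≤ x) (hx' : x + 3 ≤ b) (y : ℤ) (n : ℕ)
    (hy : y0 - R + 3 ≤ y) (hy' : y + n + 3 ≤ y0 + R) {p q : Pt} (hp : p.1 = x) (hq : q.1 = x)
    (hp1 : y ≤ p.2) (hp2 : p.2 ≤ y + n) (hq1 : y ≤ q.2) (hq2 : q.2 ≤ y + n) :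
    TE (Box a b y0 R) {p} {q} t ≤ ∑ i ∈ Finset.range n, sV x (y + i) t := by
  have key : ∀ p q : Pt, p.1 = x → q.1 = x → y ≤ p.2 → q.2 ≤ y + n → p.2 ≤ q.2 →
      TE (Box a b y0 R) {p} {q} t ≤ ∑ i ∈ Finset.range n, sV x (y + i) t := by
    rintro ⟨p1, p2⟩ ⟨q1, q2⟩ h1 h2 h3 h4 h5
    simp only at h1 h2 h3 h4 h5
    subst h1
    subst h2
    obtain ⟨j, rfl⟩ : ∃ j : ℕ, p2 = y + j := ⟨(p2 - y).toNat, by omega⟩
    obtain ⟨m, rfl⟩ : ∃ m : ℕ, q2 = y + j + m := ⟨(q2 - (y + j)).toNat, by omega⟩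
    have h6 := TE_col_le' (t := t) (y0 := y0) (R := R) ht hx hx' (y + j) m (by omega) (by omega)
    refine h6.trans ?_
    have h7 : ∑ i ∈ Finset.range m, sV q1 (y + j + i) t =
        ∑ i ∈ Finset.Ico j (j + m), sV q1 (y + i) t := by
      rw [Finset.sum_Ico_eq_sum_range]
      simp only [add_tsub_cancel_left]
      refine Finset.sum_congr rfl fun i _ => ?_
      push_cast
      rw [add_assoc]
    rw [h7]
    apply Finset.sum_le_sum_of_subset_of_nonneg
    · intro i hi
      rw [Finset.mem_Ico] at hi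
      rw [Finset.mem_range]
      omega
    · intro i _ _
      exact sV_nonneg ht _ _
  have hsym : ∀ p q : Pt, TE (Box a b y0 R) {p} {q} t = TE (Box a b y0 R) {q} {p} t := by
    intro p q
    unfold TE
    have : PP (Box a b y0 R) {p} {q} = PP (Box a b y0 R) {q} {p} := by
      ext S
      rw [mem_PP, mem_PP]
      exact ⟨fun h => ⟨h.1, h.2.symm⟩, fun h => ⟨h.1, h.2.symm⟩⟩
    simp only [this]
  rcases le_total p.2 q.2 with h | h
  · exact key p q hp hq hp1 hq2 h
  · rw [hsym]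
    exact key q p hq hp hq1 hp2 h

/-- connection along a row -/
lemma TE_row_le (ht : Nn t) {a b y0 R y : ℤ} (hy : y0 - R + 3 ≤ y) (hy' : y + 3 ≤ y0 + R)
    (x : ℤ) (n : ℕ) (hx : a ≤ x) (hx' : x + n + 2 ≤ b) :
    TE (Box a b y0 R) {(x, y)} {(x + n, y)} t ≤ ∑ i ∈ Finset.range n, sH (x + i) y t := by
  induction n with
  | zero =>
    have : TE (Box a b y0 R) {(x, y)} {(x + ((0 : ℕ) : ℤ), y)} t ≤
        walkCost t (SimpleGraph.Walk.nil : squareLattice.Walk (x, y) (x, y)) :=
      TE_le_walk ht _ (by simp) rfl (by simp)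
    simpa [walkCost] using this
  | succ n ih =>
    rw [Finset.sum_range_succ]
    have h1 := ih (by push_cast at hx' ⊢; omega)
    push_cast at hx'
    have h2 := TE_trans (E := Box a b y0 R) (A := {(x, y)}) (C := {(x + ((n + 1 : ℕ) : ℤ), y)})
      (b := (x + n, y)) ht
      (conn_row hx (by omega) (by omega) (by omega) (by omega))
      (conn_row (by omega) (by push_cast; omega) (by push_cast; omega) (by omega) (by omega))
    have h3 : TE (Box a b y0 R) {(x + n, y)} {(x + ((n + 1 : ℕ) : ℤ), y)} t ≤ sH (x + n) y t := by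
      unfold sH
      have e : x + ((n + 1 : ℕ) : ℤ) = x + n + 1 := by push_cast; ring
      rw [e]
      exact TE_mono (Box_mono (by omega) (by omega) (by omega) (by omega)) subset_rfl subset_rfl
        (conn_sH (x + n) y) t
    linarith

/-! ### means of the local steps -/

variable {G : Measure ℝ} [IsProbabilityMeasure G]

lemma image_tr_single (z p : Pt) : tr z '' {p} = {p + z} := by simp

lemma TE_box_tr (a b y0 R : ℤ) (A B : Set Pt) (h : Conn (↑(Box a b y0 R)) A B) (z : Pt)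
    (t : Environment) :
    TE (Box (a + z.1) (b + z.1) (y0 + z.2) R) (tr z '' A) (tr z '' B) t =
      TE (Box a b y0 R) A B (act (tr z) t) := by
  rw [← image_tr_Box]
  exact TE_iso (tr z) _ A B h t



lemma sV_tr (x y : ℤ) : sV x y = fun t => sV 0 0 (act (tr (x, y)) t) := by
  funext t
  have := TE_box_tr 0 (0 + 3) 0 3 {((0 : ℤ), (0 : ℤ))} {((0 : ℤ), (0 : ℤ) + 1)} (conn_sV 0 0)
    (x, y) t
  rw [image_tr_single, image_tr_single] at this
  simp only [Prod.mk_add_mk, zero_add] at this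
  rw [add_comm (3 : ℤ) x, add_comm (1 : ℤ) y] at this
  unfold sV
  rw [this]
  simp only [zero_add]

lemma sH_tr (x y : ℤ) : sH x y = fun t => sH 0 0 (act (tr (x, y)) t) := by
  funext t
  have := TE_box_tr 0 (0 + 3) 0 3 {((0 : ℤ), (0 : ℤ))} {((0 : ℤ) + 1, (0 : ℤ))} (conn_sH 0 0)
    (x, y) t
  rw [image_tr_single, image_tr_single] at this
  simp only [Prod.mk_add_mk, zero_add] at this
  rw [add_comm (3 : ℤ) x, add_comm (1 : ℤ) x] at this
  unfold sH
  rw [this]
  simp only [zero_add]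

lemma sX_tr (x y : ℤ) : sX x y = fun t => sX 0 0 (act (tr (x, y)) t) := by
  funext t
  have := TE_box_tr 0 (0 + 3) 0 3 {((0 : ℤ), (0 : ℤ))} (seg (0 + 3) (0 - 1) 3) (conn_sX 0 0)
    (x, y) t
  rw [image_tr_single, image_tr_seg] at this
  simp only [Prod.mk_add_mk, zero_add, zero_sub] at this
  rw [add_comm (3 : ℤ) x, add_comm (-1 : ℤ) y, ← sub_eq_add_neg] at this
  unfold sX
  rw [this]
  simp only [zero_add, zero_sub]

section
variable {al be s a : ℝ}

lemma integrable_sV0 (H : Hyp G al be s a) : Integrable (sV 0 0) (iidLaw G) := by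
  have e : sV 0 0 = TE (Box 0 3 0 3) {(0, 0)} {(0, 1)} := by
    funext t
    unfold sV
    simp only [zero_add]
  rw [e]
  exact H.loc1

lemma integrable_sH0 (H : Hyp G al be s a) : Integrable (sH 0 0) (iidLaw G) := by
  have e : sH 0 0 = TE (Box 0 3 0 3) {(0, 0)} {(1, 0)} := by
    funext t
    unfold sH
    simp only [zero_add]
  rw [e]
  exact H.loc2

lemma integrable_sX0 (H : Hyp G al be s a) : Integrable (sX 0 0) (iidLaw G) := by
  have e : sX 0 0 = TE (Box 0 3 0 3) {(0, 0)} (seg 3 (-1) 3) := by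
    funext t
    unfold sX
    simp only [zero_add, zero_sub]
  rw [e]
  exact H.loc3

lemma integrable_sV (H : Hyp G al be s a) (x y : ℤ) : Integrable (sV x y) (iidLaw G) := by
  rw [sV_tr]
  refine (mp_act (G := G) (tr (x, y))).integrable_comp_of_integrable ?_
  exact integrable_sV0 H

lemma integrable_sH (H : Hyp G al be s a) (x y : ℤ) : Integrable (sH x y) (iidLaw G) := by
  rw [sH_tr]
  refine (mp_act (G := G) (tr (x, y))).integrable_comp_of_integrable ?_
  exact integrable_sH0 H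

lemma integrable_sX (H : Hyp G al be s a) (x y : ℤ) : Integrable (sX x y) (iidLaw G) := by
  rw [sX_tr]
  refine (mp_act (G := G) (tr (x, y))).integrable_comp_of_integrable ?_
  exact integrable_sX0 H

lemma integral_sV (x y : ℤ) : ∫ t, sV x y t ∂(iidLaw G) = ∫ t, sV 0 0 t ∂(iidLaw G) := by
  rw [sV_tr x y]
  exact integral_pt_iso (tr (x, y)) (sV 0 0) (measurable_sV 0 0).aestronglyMeasurable

lemma integral_sH (x y : ℤ) : ∫ t, sH x y t ∂(iidLaw G) = ∫ t, sH 0 0 t ∂(iidLaw G) := by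
  rw [sH_tr x y]
  exact integral_pt_iso (tr (x, y)) (sH 0 0) (measurable_sH 0 0).aestronglyMeasurable

lemma integral_sX (x y : ℤ) : ∫ t, sX x y t ∂(iidLaw G) = ∫ t, sX 0 0 t ∂(iidLaw G) := by
  rw [sX_tr x y]
  exact integral_pt_iso (tr (x, y)) (sX 0 0) (measurable_sX 0 0).aestronglyMeasurable

/-- a common bound for the means of the local steps -/
noncomputable def cS (G : Measure ℝ) : ℝ :=
  (∫ t, sV 0 0 t ∂(iidLaw G)) + (∫ t, sH 0 0 t ∂(iidLaw G)) + (∫ t, sX 0 0 t ∂(iidLaw G))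

lemma integral_s_nonneg (h0 : G (Set.Iio 0) = 0) :
    0 ≤ (∫ t, sV 0 0 t ∂(iidLaw G)) ∧ 0 ≤ (∫ t, sH 0 0 t ∂(iidLaw G)) ∧
      0 ≤ (∫ t, sX 0 0 t ∂(iidLaw G)) := by
  refine ⟨?_, ?_, ?_⟩
  · exact integral_nonneg_of_ae ((ae_Nn h0).mono fun t ht => sV_nonneg ht 0 0)
  · exact integral_nonneg_of_ae ((ae_Nn h0).mono fun t ht => sH_nonneg ht 0 0)
  · exact integral_nonneg_of_ae ((ae_Nn h0).mono fun t ht => sX_nonneg ht 0 0)

lemma cS_nonneg (h0 : G (Set.Iio 0) = 0) : 0 ≤ cS G := by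
  obtain ⟨h1, h2, h3⟩ := integral_s_nonneg (G := G) h0
  unfold cS
  linarith

lemma integral_sV_le (h0 : G (Set.Iio 0) = 0) (x y : ℤ) :
    ∫ t, sV x y t ∂(iidLaw G) ≤ cS G := by
  obtain ⟨h1, h2, h3⟩ := integral_s_nonneg (G := G) h0
  rw [integral_sV]
  unfold cS
  linarith

lemma integral_sH_le (h0 : G (Set.Iio 0) = 0) (x y : ℤ) :
    ∫ t, sH x y t ∂(iidLaw G) ≤ cS G := by
  obtain ⟨h1, h2, h3⟩ := integral_s_nonneg (G := G) h0
  rw [integral_sH]
  unfold cS
  linarith

lemma integral_sX_le (h0 : G (Set.Iio 0) = 0) (x y : ℤ) :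
    ∫ t, sX x y t ∂(iidLaw G) ≤ cS G := by
  obtain ⟨h1, h2, h3⟩ := integral_s_nonneg (G := G) h0
  rw [integral_sX]
  unfold cS
  linarith

/-- sum of vertical steps -/
noncomputable def colS (x y : ℤ) (n : ℕ) (t : Environment) : ℝ :=
  ∑ i ∈ Finset.range n, sV x (y + i) t

/-- sum of horizontal steps -/
noncomputable def rowS (x y : ℤ) (n : ℕ) (t : Environment) : ℝ :=
  ∑ i ∈ Finset.range n, sH (x + i) y t

lemma colS_nonneg (ht : Nn t) (x y : ℤ) (n : ℕ) : 0 ≤ colS x y n t :=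
  Finset.sum_nonneg fun _ _ => sV_nonneg ht _ _

lemma rowS_nonneg (ht : Nn t) (x y : ℤ) (n : ℕ) : 0 ≤ rowS x y n t :=
  Finset.sum_nonneg fun _ _ => sH_nonneg ht _ _

lemma integrable_colS (H : Hyp G al be s a) (x y : ℤ) (n : ℕ) :
    Integrable (colS x y n) (iidLaw G) := by
  unfold colS
  exact integrable_finsetSum _ fun i _ => integrable_sV H _ _

lemma integrable_rowS (H : Hyp G al be s a) (x y : ℤ) (n : ℕ) :
    Integrable (rowS x y n) (iidLaw G) := by
  unfold rowS
  exact integrable_finsetSum _ fun i _ => integrable_sH H _ _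

lemma integral_colS_le (H : Hyp G al be s a) (x y : ℤ) (n : ℕ) :
    ∫ t, colS x y n t ∂(iidLaw G) ≤ n * cS G := by
  unfold colS
  rw [integral_finsetSum _ fun i _ => integrable_sV H _ _]
  calc ∑ i ∈ Finset.range n, ∫ t, sV x (y + (i : ℤ)) t ∂(iidLaw G)
      ≤ ∑ _i ∈ Finset.range n, cS G :=
        Finset.sum_le_sum fun i _ => integral_sV_le H.h0 x (y + (i : ℤ))
    _ = n * cS G := by simp

lemma integral_rowS_le (H : Hyp G al be s a) (x y : ℤ) (n : ℕ) :
    ∫ t, rowS x y n t ∂(iidLaw G) ≤ n * cS G := by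
  unfold rowS
  rw [integral_finsetSum _ fun i _ => integrable_sH H _ _]
  calc ∑ i ∈ Finset.range n, ∫ t, sH (x + (i : ℤ)) y t ∂(iidLaw G)
      ≤ ∑ _i ∈ Finset.range n, cS G :=
        Finset.sum_le_sum fun i _ => integral_sH_le H.h0 (x + (i : ℤ)) y
    _ = n * cS G := by simp

/-- lower bound of the means of segment-to-segment times -/
lemma mean_lower (H : Hyp G al be s a) {E : Finset Edge} {x y x' y' : ℤ} {l l' : ℕ}
    (hc : Conn (↑E) (seg x y l) (seg x' y' l'))
    (hi : Integrable (TE E (seg x y l) (seg x' y' l')) (iidLaw G)) :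
    al * (x' - x) + be * (y' - y) + a * |(y' - y) - s * (x' - x)| - (l + l') * cS G ≤
      ∫ t, TE E (seg x y l) (seg x' y' l') t ∂(iidLaw G) := by
  have hpt : ∀ᵐ t ∂(iidLaw G), passageTime t (x, y) (x', y') ≤
      colS x y l t + TE E (seg x y l) (seg x' y' l') t + colS x' y' l' t := by
    filter_upwards [ae_Nn H.h0] with t ht
    obtain ⟨p, hp, q, hq, hpq⟩ := exists_TE_pt ht hc
    rw [mem_seg] at hp hq
    have e1 : passageTime t (x, y) p ≤ colS x y l t := by
      have hR : Conn (↑(Box x (x + 3) y (l + 3))) {(x, y)} {p} :=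
        conn_box (by simp) (by simp) (by omega) (by omega) (by omega) (by simp only; omega)
          (by simp only; omega) (by omega) (by omega)
      refine (pt_le_TE ht hR).trans ?_
      exact TE_col_le ht le_rfl le_rfl y l (by omega) (by omega) rfl hp.1 le_rfl
        (by simp) hp.2.1 hp.2.2.le
    have e2 : passageTime t q (x', y') ≤ colS x' y' l' t := by
      have hR : Conn (↑(Box x' (x' + 3) y' (l' + 3))) {q} {(x', y')} :=
        conn_box (by omega) (by omega) (by simp) (by simp) (by omega) (by omega)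
          (by omega) (by simp only; omega) (by simp only; omega)
      refine (pt_le_TE ht hR).trans ?_
      exact TE_col_le ht le_rfl le_rfl y' l' (by omega) (by omega) hq.1 rfl hq.2.1 hq.2.2.le
        le_rfl (by simp)
    have e3 := pt_triangle ht (x, y) p (x', y')
    have e4 := pt_triangle ht p q (x', y')
    linarith
  have h1 := integral_mono_ae (H.hI (x, y) (x', y'))
    (((integrable_colS H x y l).add hi).add (integrable_colS H x' y' l')) hpt
  have h2 : ∫ t, passageTime t (x, y) (x', y') ∂(iidLaw G) = ET G (x' - x, y' - y) := by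
    rw [integral_pt]
    rfl
  rw [h2] at h1
  have h3 : ∫ t, ((colS x y l + TE E (seg x y l) (seg x' y' l')) + colS x' y' l') t
      ∂(iidLaw G) = (∫ t, colS x y l t ∂(iidLaw G)) +
      (∫ t, TE E (seg x y l) (seg x' y' l') t ∂(iidLaw G)) +
      ∫ t, colS x' y' l' t ∂(iidLaw G) := by
    rw [integral_add' ((integrable_colS H x y l).add hi) (integrable_colS H x' y' l'),
      integral_add' (integrable_colS H x y l) hi]
  have h4 := H.hlow (x' - x, y' - y)
  push_cast at h4
  have h5 := integral_colS_le H x y l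
  have h6 := integral_colS_le H x' y' l'
  have h7 : ET G (x' - x, y' - y) ≤ _ := h1
  rw [h3] at h7
  nlinarith [h4, h5, h6, h7]

end

end Crest.Agent.R151.U
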