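import Crest.Agent.R151.X684d

-- ▼ part R151/X684e
section

/-!
# R151, block X (helper684), part e: good blocks, connections at the ends
-/

set_option autoImplicit false

open MeasureTheory ProbabilityTheory Filter Topology
open Crest.ProbabilityR.FirstPassage
open Crest.Agent.R151.A (shift eShift block sig eX)
open Crest.Agent.R151.K (Nn)

namespace Crest.Agent.R151.X

variable (G : Measure ℝ) [IsProbabilityMeasure G]

lemma real_not_Nn (h0 : G (Set.Iio 0) = 0) : (iidLaw G).real {t | ¬ Nn t} = 0 := by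
  have h := K.ae_Nn h0
  rw [ae_iff] at h
  simp [Measure.real, h]

lemma HWbad_shift (s α β a u w δ : ℝ) (p q : ℤ) (z : ℤ × ℤ) :
    shift z ⁻¹' (HWbad s α β a u w δ p q) =
      HWbad s α β a (u + ht s z) w δ (p + z.1) (q + z.1) := by
  ext t
  obtain ⟨z1, z2⟩ := z
  simp only [Set.mem_preimage, HWbad, Set.mem_ofPred_eq]
  constructor
  · rintro ⟨x, y, h3⟩
    refine ⟨x + z2, y + z2, ?_⟩
    have h4 : ht s (p + z1, x + z2) = ht s (p, x) + ht s (z1, z2) := ht_add s (p, x) (z1, z2)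
    have h5 : ht s (q + z1, y + z2) = ht s (q, y) + ht s (z1, z2) := ht_add s (q, y) (z1, z2)
    have h6 := (CrE_shift α β (z1, z2) (mem_sl_shift (z1, z2) s u w p q) (p, x) (q, y) _ t).1 h3
    rw [h4, h5, add_sub_add_right_eq_sub]
    exact h6
  · rintro ⟨x, y, h3⟩
    refine ⟨x - z2, y - z2, ?_⟩
    have h4 : ht s (p + z1, x) = ht s (p, x - z2) + ht s (z1, z2) := by
      rw [← ht_add]; congr 1; ext <;> simp
    have h5 : ht s (q + z1, y) = ht s (q, y - z2) + ht s (z1, z2) := by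
      rw [← ht_add]; congr 1; ext <;> simp
    refine (CrE_shift α β (z1, z2) (mem_sl_shift (z1, z2) s u w p q) (p, x - z2) (q, y - z2)
      _ t).2 ?_
    have e1 : ((p, x - z2) + (z1, z2) : ℤ × ℤ) = (p + z1, x) := by ext <;> simp
    have e2 : ((q, y - z2) + (z1, z2) : ℤ × ℤ) = (q + z1, y) := by ext <;> simp
    rw [e1, e2]
    rw [h4, h5, add_sub_add_right_eq_sub] at h3
    exact h3

lemma measurableSet_HWbad (s α β a u w δ : ℝ) (p q : ℤ) :
    MeasurableSet[sig (block p q)] (HWbad s α β a u w δ p q) := by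
  have : HWbad s α β a u w δ p q = ⋃ x : ℤ, ⋃ y : ℤ,
      {t | CrE α β (sl s u w p q) (p, x) (q, y) (a * |ht s (q, y) - ht s (p, x)| - δ) t} := by
    ext t; simp [HWbad]
  rw [this]
  refine MeasurableSet.iUnion fun x => MeasurableSet.iUnion fun y => ?_
  exact sig_mono Set.inter_subset_left _ (measurableSet_CrE α β _ _ _ _)

lemma prob_HWbad_shift (s α β a u w δ : ℝ) (p q : ℤ) (z : ℤ × ℤ) :
    (iidLaw G).real (HWbad s α β a (u + ht s z) w δ (p + z.1) (q + z.1)) =
      (iidLaw G).real (HWbad s α β a u w δ p q) := by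
  rw [← HWbad_shift]
  simp only [Measure.real]
  rw [(A.mp_shift G z).measure_preimage
    (sig_le _ _ (measurableSet_HWbad s α β a u w δ p q)).nullMeasurableSet]

/-- a hard wall bound at base `0` gives it at any base column -/
lemma prob_HWbad_le {s α β a w δ ε : ℝ} {n : ℕ}
    (h : ∀ u, (iidLaw G).real (HWbad s α β a u w δ 0 n) ≤ ε) (u : ℝ) (p q : ℤ)
    (hpq : q = p + n) : (iidLaw G).real (HWbad s α β a u w δ p q) ≤ ε := by
  have h1 := prob_HWbad_shift G s α β a (u - ht s (p, 0)) w δ 0 n (p, 0)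
  simp only [sub_add_cancel, zero_add] at h1
  rw [hpq, add_comm, h1]
  exact h _

/-- **from a long good path to a typical good block** -/
lemma exists_good_block (h0 : G (Set.Iio 0) = 0) {s α β a u W e δ Λ ν v c l : ℝ} {M m : ℕ}
    (ha : 0 < a) (hm : 1 ≤ m) (hM : 1 ≤ M) (he : 1 ≤ e) (hW : 1 ≤ W)
    (hδ : δ = e / 100) (hv : v ≤ M * e) (hΛW : Λ ≤ W) (hν : 0 < ν)
    (hΛ : (3 / ν * (2 + 3 / a)) * e ≤ Λ) (hc1 : c ≤ 1) (hl : 0 < l)
    (hnu : Real.exp (l * (ν * M)) * ((1 + Real.exp (-l)) / (1 - Real.exp (-l))) ^ M *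
        (Real.exp (ν * M) * (1 - (1 - Real.exp (-1)) * c) ^ M) ≤ 1 / 4)
    (hA : 9 / 10 ≤ (iidLaw G).real (Apt s α β u W v (M * m)))
    (hHW : ∀ u, (iidLaw G).real (HWbad s α β a u W δ 0 m) ≤ 1 / (20 * M))
    (hcol : (iidLaw G).real (ColOK s β (a / 2) u W δ (M * m))ᶜ ≤ 1 / 20) :
    ∃ u', 1 - c ≤ (iidLaw G).real (Blk s α β u' (3 * W) (2 * Λ) Λ 0 m) := by
  classical
  by_contra hcon
  push Not at hcon
  set F : ℕ → ℤ → Set Environment := fun k r =>
    (Blk s α β (u + r * Λ) (3 * W) (2 * Λ) Λ (k * m) ((k + 1 : ℕ) * m))ᶜ with hF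
  set S : ℕ → Set (Sym2 (ℤ × ℤ)) := fun k => block (k * m) ((k + 1 : ℕ) * m) with hS
  have hmeas : ∀ k r, MeasurableSet[sig (S k)] (F k r) := fun k r =>
    (measurableSet_Blk s α β _ _ _ _ _ _).compl
  have hdis : ∀ N : ℕ, Disjoint (⋃ j ∈ Finset.range N, S j) (S N) := by
    intro N
    rw [Set.disjoint_iUnion₂_left]
    intro j hj
    refine A.block_disjoint ?_
    have : j + 1 ≤ N := Finset.mem_range.1 hj
    have h1 : ((j + 1 : ℕ) : ℤ) ≤ N := by exact_mod_cast this
    exact mul_le_mul_of_nonneg_right h1 (by positivity)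
  have hc : ∀ k r, c ≤ (iidLaw G).real (F k r) := by
    intro k r
    have h1 : (iidLaw G).real (Blk s α β (u + r * Λ) (3 * W) (2 * Λ) Λ (k * m)
        ((k + 1 : ℕ) * m)) < 1 - c := by
      have h2 := prob_Blk_shift G s α β (u + r * Λ - ht s ((k : ℤ) * m, 0)) (3 * W) (2 * Λ) Λ 0 m
        ((k : ℤ) * m, 0)
      have h3 : (m : ℤ) + ((k : ℤ) * m, (0 : ℤ)).1 = ((k + 1 : ℕ) : ℤ) * m := by
        simp only; push_cast; ring
      rw [h3, sub_add_cancel, zero_add] at h2
      rw [h2]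
      exact hcon _
    rw [hF]
    simp only
    rw [probReal_compl_eq_one_sub (sig_le _ _ (measurableSet_Blk s α β _ _ _ _ _ _))]
    linarith
  have hsk := prob_skel_le G hmeas hdis hc1 hc M (V := ν * M) (K := ν * M) hl
  have hsk' := hsk.trans hnu
  -- the inclusion
  have hsub : Apt s α β u W v (M * m) ⊆ (SkelEv F M (ν * M) (ν * M) ∪
      ⋃ k ∈ Finset.range M, HWbad s α β a u W δ (k * m) ((k + 1 : ℕ) * m)) ∪
      ((ColOK s β (a / 2) u W δ (M * m))ᶜ ∪ {t | ¬ Nn t}) := by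
    intro t ht1
    by_cases hN : Nn t
    swap
    · exact Or.inr (Or.inr hN)
    by_cases hC : t ∈ ColOK s β (a / 2) u W δ (M * m)
    swap
    · exact Or.inr (Or.inl hC)
    by_cases hH : ∃ k ∈ Finset.range M, t ∈ HWbad s α β a u W δ (k * m) ((k + 1 : ℕ) * m)
    · refine Or.inl (Or.inr ?_)
      simp only [Set.mem_iUnion]
      obtain ⟨k, hk, hk'⟩ := hH
      exact ⟨k, hk, hk'⟩
    · push Not at hH
      refine Or.inl (Or.inl ?_)
      have hend : |ht s ((M * m : ℕ) , ⌊u + s * (M * m : ℕ)⌋) - u| ≤ W := by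
        have h1 : ht s (((M * m : ℕ) : ℤ), ⌊u + s * (M * m : ℕ)⌋) =
          (⌊u + s * (M * m : ℕ)⌋ : ℝ) - s * (M * m : ℕ) := by simp [ht]
        rw [h1, abs_le]
        constructor
        · linarith [Int.lt_floor_add_one (u + s * (M * m : ℕ))]
        · linarith [Int.floor_le (u + s * (M * m : ℕ))]
      refine skel_of_path (yend := (((M * m : ℕ) : ℤ), ⌊u + s * (M * m : ℕ)⌋)) (v := v) hN ha hm
        hM he hW hδ hv hΛW hν hΛ (by simp) hend ?_
        (fun k hk => hH k (Finset.mem_range.2 hk)) hC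
      have h1 := ht1
      unfold Apt at h1
      simp only [Set.mem_ofPred_eq] at h1
      have h2 : (((M * m : ℕ) : ℤ)) = (M : ℤ) * m := by push_cast; ring
      rw [← h2]
      exact h1
  have h1 : (iidLaw G).real (Apt s α β u W v (M * m)) ≤
      ((iidLaw G).real (SkelEv F M (ν * M) (ν * M)) +
        ∑ k ∈ Finset.range M, (iidLaw G).real (HWbad s α β a u W δ (k * m) ((k + 1 : ℕ) * m))) +
      ((iidLaw G).real (ColOK s β (a / 2) u W δ (M * m))ᶜ + (iidLaw G).real {t | ¬ Nn t}) := by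
    refine (measureReal_mono hsub (measure_ne_top _ _)).trans ?_
    refine (measureReal_union_le _ _).trans (add_le_add ?_ (measureReal_union_le _ _))
    refine (measureReal_union_le _ _).trans (add_le_add le_rfl ?_)
    exact measureReal_biUnion_finset_le _ _
  have h2 : ∑ k ∈ Finset.range M,
      (iidLaw G).real (HWbad s α β a u W δ (k * m) ((k + 1 : ℕ) * m)) ≤ 1 / 20 := by
    have h3 : ∀ k ∈ Finset.range M,
        (iidLaw G).real (HWbad s α β a u W δ (k * m) ((k + 1 : ℕ) * m)) ≤ 1 / (20 * M) := by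
      intro k _
      exact prob_HWbad_le G hHW u _ _ (by push_cast; ring)
    refine (Finset.sum_le_sum h3).trans ?_
    rw [Finset.sum_const, Finset.card_range, nsmul_eq_mul]
    have hM0 : (0 : ℝ) < M := by exact_mod_cast hM
    apply le_of_eq
    field_simp
  rw [real_not_Nn G h0] at h1
  linarith

/-- all base heights -/
lemma Blk_all {s α β w L v p : ℝ} {m : ℕ} {u' : ℝ}
    (h : p ≤ (iidLaw G).real (Blk s α β u' w L v 0 m)) (u : ℝ) :
    p ≤ (iidLaw G).real (Blk s α β u (w + 1) (L + 1) v 0 m) := by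
  have h1 := prob_Blk_shift G s α β u' w L v 0 m (0, ⌊u - u'⌋)
  have h2 : ht s (0, ⌊u - u'⌋) = (⌊u - u'⌋ : ℝ) := by simp [ht]
  rw [h2] at h1
  simp only [add_zero] at h1
  rw [← h1] at h
  refine h.trans (measureReal_mono ?_ (measure_ne_top _ _))
  have h3 : |u' + (⌊u - u'⌋ : ℝ) - u| ≤ 1 := by
    rw [abs_le]
    constructor
    · linarith [Int.lt_floor_add_one (u - u')]
    · linarith [Int.floor_le (u - u')]
  rintro t ⟨x, y, g1, g2, g3⟩
  refine ⟨x, y, ?_, ?_, g3.mono (sl_mono (by linarith) le_rfl le_rfl) le_rfl⟩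
  · have : ht s (0, x) - u = (ht s (0, x) - (u' + (⌊u - u'⌋ : ℝ))) + (u' + (⌊u - u'⌋ : ℝ) - u) := by
      ring
    rw [this]
    exact (abs_add_le _ _).trans (add_le_add g1 h3)
  · have : ht s (m, y) - u = (ht s (m, y) - (u' + (⌊u - u'⌋ : ℝ))) + (u' + (⌊u - u'⌋ : ℝ) - u) := by
      ring
    rw [this]
    exact (abs_add_le _ _).trans (add_le_add g2 h3)

/-! ## Connections at the ends -/

/-- connections inside column `0` -/
def ConnL (s u L C : ℝ) (n : ℕ) : Set Environment :=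
  {t | ∀ x : ℤ, |ht s (0, x) - u| ≤ L → Cr (sl s u (2 * L) 0 n) (0, ⌊u⌋) (0, x) (C * L) t}

/-- connections from the column `n - 1` to the end point -/
def ConnR (s u L C : ℝ) (n : ℕ) : Set Environment :=
  {t | ∀ y : ℤ, |ht s (n, y) - u| ≤ L →
    Cr (sl s u (2 * L) 0 n) ((n : ℤ) - 1, y) (n, ⌊u + s * n⌋) (C * L) t}

/-- dropping the last edge of a walk in the half-open slab -/
lemma Cr_drop_last {S : Set (Sym2 (ℤ × ℤ))} {p q : ℤ} (hS : S ⊆ block p q) {x : ℤ × ℤ} {y : ℤ}
    (hx : x.1 < q) {c : ℝ} {t : Environment} (hN : Nn t) (h : Cr S x (q, y) c t) :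
    Cr S x (q - 1, y) c t := by
  have h' := h.symm
  apply Cr.symm
  obtain ⟨w, h1, h2⟩ := h'
  cases w with
  | nil => simp at hx
  | @cons _ b _ hadj w' =>
    have he := hS (h1 s((q, y), b) (by simp))
    have hb : b = (q - 1, y) := by
      simp only [block, Set.mem_ofPred_eq, A.eX_mk] at he
      have h3 : b.1 < q := by
        rcases min_lt_iff.1 he.2 with h | h
        · simp at h
        · exact h
      rw [squareLattice, SimpleGraph.fromRel_adj] at hadj
      obtain ⟨b1, b2⟩ := b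
      simp only [ne_eq, Prod.mk.injEq] at hadj h3 ⊢
      omega
    subst hb
    refine ⟨w', fun e he' => h1 e (by simp [he']), ?_⟩
    have h4 : walkCost t (SimpleGraph.Walk.cons hadj w') =
        t s((q, y), (q - 1, y)) + walkCost t w' := by simp [walkCost]
    rw [h4] at h2
    linarith [hN s((q, y), (q - 1, y))]

/-- changing the end point of a crossing -/
lemma CrE_retarget {s α β u w L C v : ℝ} {n : ℕ} {x : ℤ × ℤ} {y : ℤ} {t : Environment}
    (hN : Nn t) (hx : x.1 < n) (h : CrE α β (sl s u w 0 n) x (n, y) v t)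
    (hy : |ht s (n, y) - u| ≤ L) (hR : t ∈ ConnR s u L C n) (hL : 2 * L ≤ w) :
    CrE α β (sl s u w 0 n) x (n, ⌊u + s * n⌋) (v + C * L + |β| * (L + 1)) t := by
  have h1 := Cr_drop_last (S := sl s u w 0 n) Set.inter_subset_left hx hN h
  have h2 := (hR y hy).mono (sl_mono (u' := u) (w' := w) (by simpa using hL) le_rfl le_rfl)
    le_rfl
  refine (h1.trans h2).mono le_rfl ?_
  have h3 : lin α β ((n : ℤ), y) - lin α β ((n : ℤ), ⌊u + s * n⌋) ≤ |β| * (L + 1) := by
    rw [lin_col]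
    have h4 : |(y : ℝ) - ⌊u + s * n⌋| ≤ L + 1 := by
      have h5 : ht s ((n : ℤ), y) = (y : ℝ) - s * n := by simp [ht]
      rw [h5] at hy
      have h6 := Int.lt_floor_add_one (u + s * n)
      have h7 := Int.floor_le (u + s * n)
      rw [abs_le] at hy ⊢
      constructor <;> linarith
    calc β * ((y : ℝ) - ⌊u + s * n⌋) ≤ |β * ((y : ℝ) - ⌊u + s * n⌋)| := le_abs_self _
      _ = |β| * |(y : ℝ) - ⌊u + s * n⌋| := abs_mul _ _
      _ ≤ |β| * (L + 1) := mul_le_mul_of_nonneg_left h4 (abs_nonneg _)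
  linarith

/-- changing the starting point of a crossing -/
lemma CrE_resource {s α β u w L C v : ℝ} {n : ℕ} {y : ℤ × ℤ} {x : ℤ} {t : Environment}
    (h : CrE α β (sl s u w 0 n) (0, x) y v t)
    (hy : |ht s (0, x) - u| ≤ L) (hR : t ∈ ConnL s u L C n) (hL : 2 * L ≤ w) :
    CrE α β (sl s u w 0 n) (0, ⌊u⌋) y (v + C * L + |β| * (L + 1)) t := by
  have h2 := (hR x hy).mono (sl_mono (u' := u) (w' := w) (by simpa using hL) le_rfl le_rfl)
    le_rfl
  refine (h2.trans h).mono le_rfl ?_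
  have h3 : lin α β ((0 : ℤ), ⌊u⌋) - lin α β ((0 : ℤ), x) ≤ |β| * (L + 1) := by
    rw [lin_col]
    have h4 : |(⌊u⌋ : ℝ) - x| ≤ L + 1 := by
      have h5 : ht s ((0 : ℤ), x) = (x : ℝ) := by simp [ht]
      rw [h5] at hy
      have h6 := Int.lt_floor_add_one u
      have h7 := Int.floor_le u
      rw [abs_le] at hy ⊢
      constructor <;> linarith
    calc β * ((⌊u⌋ : ℝ) - x) ≤ |β * ((⌊u⌋ : ℝ) - x)| := le_abs_self _
      _ = |β| * |(⌊u⌋ : ℝ) - x| := abs_mul _ _
      _ ≤ |β| * (L + 1) := mul_le_mul_of_nonneg_left h4 (abs_nonneg _)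
  linarith

/-- a good block with connections at both ends gives a good point-to-point crossing -/
lemma Apt_of_Blk {s α β u w L C v : ℝ} {n : ℕ} (hn : 1 ≤ n) {t : Environment} (hN : Nn t)
    (hL : 2 * L ≤ w) (h : t ∈ Blk s α β u w L v 0 n) (h1 : t ∈ ConnL s u L C n)
    (h2 : t ∈ ConnR s u L C n) :
    t ∈ Apt s α β u w (v + 2 * (C * L + |β| * (L + 1))) n := by
  obtain ⟨x, y, g1, g2, g3⟩ := h
  have h3 := CrE_resource (L := L) (C := C) g3 g1 h1 hL
  have h4 := CrE_retarget (L := L) (C := C) hN (by simp; omega) h3 g2 h2 hL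
  exact h4.mono le_rfl (by linarith)

end Crest.Agent.R151.X
end

-- ▼ part R151/X684f
section

/-!
# R151, block X (helper684), part f: sub-lengths, stopping arguments, confinement
-/

set_option autoImplicit false

open MeasureTheory ProbabilityTheory Filter Topology
open Crest.ProbabilityR.FirstPassage
open Crest.Agent.R151.A (shift eShift block sig eX)
open Crest.Agent.R151.K (Nn)

namespace Crest.Agent.R151.X

variable (G : Measure ℝ) [IsProbabilityMeasure G]

lemma ht_start (s u : ℝ) : |ht s (0, ⌊u⌋) - u| ≤ 1 := by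
  have h1 : ht s (0, ⌊u⌋) = (⌊u⌋ : ℝ) := by simp [ht]
  rw [h1, abs_le]
  constructor
  · linarith [Int.lt_floor_add_one u]
  · linarith [Int.floor_le u]

lemma ht_end (s u : ℝ) (n : ℕ) : |ht s ((n : ℤ), ⌊u + s * n⌋) - u| ≤ 1 := by
  have h1 : ht s ((n : ℤ), ⌊u + s * n⌋) = (⌊u + s * n⌋ : ℝ) - s * n := by simp [ht]
  rw [h1, abs_le]
  constructor
  · linarith [Int.lt_floor_add_one (u + s * n)]
  · linarith [Int.floor_le (u + s * n)]

lemma col_energy {s α β a u w δ : ℝ} {N : ℕ} {t : Environment}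
    (hcol : t ∈ ColOK s β (a / 2) u w δ N) (hN : Nn t) {p q : ℤ × ℤ} {k : ℤ} (hk0 : 0 ≤ k)
    (hkN : k ≤ N) (hp : p.1 = k) (hq : q.1 = k) (hpw : |ht s p - u| ≤ w)
    (hqw : |ht s q - u| ≤ w) (w' : squareLattice.Walk p q) :
    lin α β q - lin α β p + a / 2 * |ht s q - ht s p| - δ ≤ walkCost t w' := by
  obtain ⟨p1, p2⟩ := p
  obtain ⟨q1, q2⟩ := q
  simp only at hp hq
  subst hp hq
  have h1 := hcol _ hk0 hkN p2 q2 hpw hqw
  rw [ht_col, lin_col]
  exact h1.trans (K.pt_le hN w')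

/-- a good crossing gives good crossings of smaller length -/
lemma sub_det {s α β a u w δ v L C : ℝ} {k m N : ℕ} {t : Environment} (hN : Nn t) (ha : 0 < a)
    (hk : 1 ≤ k) (hkm : k < m) (hkN : k ≤ N) (hA : t ∈ Apt s α β u w v m)
    (hH1 : t ∉ HWbad s α β a u w δ 0 k) (hH2 : t ∉ HWbad s α β a u w δ k m)
    (hcol : t ∈ ColOK s β (a / 2) u w δ N) (hL : (v + 3 * δ + a) / a ≤ L)
    (hLw : 2 * L ≤ w) (hR : t ∈ ConnR s u L C k) :
    t ∈ Apt s α β u w (v + 2 * δ + C * L + |β| * (L + 1)) k := by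
  obtain ⟨p, hp1, hp2⟩ := hA
  obtain ⟨z1, p1, p', h1, h2, h3⟩ := first_hit (k : ℤ) p (by simp) (by simp; omega)
  obtain ⟨z2, p2, p3, h4, h5, h6⟩ := last_visit (k : ℤ) p' (by omega) (by simp; omega)
  have e1 : ∀ e ∈ p1.edges, e ∈ p.edges := fun e he => by
    rw [h1, SimpleGraph.Walk.edges_append]; simp [he]
  have e3 : ∀ e ∈ p3.edges, e ∈ p.edges := fun e he => by
    rw [h1, h4, SimpleGraph.Walk.edges_append, SimpleGraph.Walk.edges_append]; simp [he]
  have hcost : walkCost t p = walkCost t p1 + (walkCost t p2 + walkCost t p3) := by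
    rw [h1, h4, K.walkCost_append, K.walkCost_append]
  have c1 : Cr (sl s u w 0 k) (0, ⌊u⌋) z1 (walkCost t p1) t := by
    refine ⟨p1, fun e he => ?_, le_rfl⟩
    have h7 := hp1 e (e1 e he)
    exact ⟨⟨h7.1.1, h3 e he⟩, h7.2⟩
  have c3 : Cr (sl s u w k m) z2 (m, ⌊u + s * m⌋) (walkCost t p3) t := by
    refine ⟨p3, fun e he => ?_, le_rfl⟩
    have h7 := hp1 e (e3 e he)
    exact ⟨⟨h6 e he, h7.1.2⟩, h7.2⟩
  have hz1 : |ht s z1 - u| ≤ w := by
    obtain ⟨e, he, hxe⟩ := Cr_end_mem c1 (by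
      intro h; have := congrArg Prod.fst h; simp only at this; omega)
    exact he.2 _ hxe
  have hz2 : |ht s z2 - u| ≤ w := by
    obtain ⟨e, he, hxe⟩ := Cr_start_mem c3 (by
      intro h; have := congrArg Prod.fst h; simp only at this; omega)
    exact he.2 _ hxe
  have g2 := col_energy (α := α) hcol hN (by omega) (by exact_mod_cast hkN) h2 h5 hz1 hz2 p2
  obtain ⟨z11, z12⟩ := z1
  obtain ⟨z21, z22⟩ := z2
  simp only at h2 h5
  subst h2 h5
  have g1 : lin α β ((k : ℤ), z12) - lin α β ((0 : ℤ), ⌊u⌋) +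
      (a * |ht s ((k : ℤ), z12) - ht s (0, ⌊u⌋)| - δ) < walkCost t p1 := by
    by_contra hcon
    push Not at hcon
    exact hH1 ⟨⌊u⌋, z12, c1.mono le_rfl hcon⟩
  have g3 : lin α β ((m : ℤ), ⌊u + s * m⌋) - lin α β ((k : ℤ), z22) +
      (a * |ht s ((m : ℤ), ⌊u + s * m⌋) - ht s ((k : ℤ), z22)| - δ) < walkCost t p3 := by
    by_contra hcon
    push Not at hcon
    exact hH2 ⟨z22, _, c3.mono le_rfl hcon⟩
  have n1 : 0 ≤ a * |ht s ((m : ℤ), ⌊u + s * m⌋) - ht s ((k : ℤ), z22)| := by positivity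
  have n2 : 0 ≤ a / 2 * |ht s ((k : ℤ), z22) - ht s ((k : ℤ), z12)| := by positivity
  have hE1 : CrE α β (sl s u w 0 k) (0, ⌊u⌋) (k, z12) (v + 2 * δ) t :=
    c1.mono le_rfl (by linarith)
  have hht : |ht s ((k : ℤ), z12) - u| ≤ L := by
    have h8 : a * |ht s ((k : ℤ), z12) - ht s (0, ⌊u⌋)| ≤ v + 3 * δ := by linarith
    have h9 := ht_start s u
    have h10 : |ht s ((k : ℤ), z12) - u| ≤ |ht s ((k : ℤ), z12) - ht s (0, ⌊u⌋)| + 1 := by
      have : ht s ((k : ℤ), z12) - u =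
        (ht s ((k : ℤ), z12) - ht s (0, ⌊u⌋)) + (ht s (0, ⌊u⌋) - u) := by ring
      rw [this]
      exact (abs_add_le _ _).trans (add_le_add le_rfl h9)
    refine le_trans ?_ hL
    rw [le_div_iff₀ ha]
    nlinarith
  have h11 := CrE_retarget (L := L) (C := C) hN (by simp; omega) hE1 hht hR hLw
  exact h11.mono le_rfl (by linarith)

/-- the stopping lemma -/
lemma stop_le {n : ℕ} {E A : ℕ → Set Environment} {S T : ℕ → Set (Sym2 (ℤ × ℤ))}
    (hS : Monotone S) (hE : ∀ i, MeasurableSet[sig (S i)] (E i))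
    (hA : ∀ i, MeasurableSet[sig (T i)] (A i)) (hd : ∀ i < n, Disjoint (S i) (T i))
    (hp : ∀ i < n, 1 / 2 ≤ (iidLaw G).real (A i)) :
    (iidLaw G).real (⋃ i ∈ Finset.range n, E i) ≤
      2 * (iidLaw G).real (⋃ i ∈ Finset.range n, (E i ∩ A i)) := by
  classical
  have hmeas : ∀ i, MeasurableSet (E i) := fun i => sig_le _ _ (hE i)
  have hmeasA : ∀ i, MeasurableSet (A i) := fun i => sig_le _ _ (hA i)
  set D : ℕ → Set Environment := fun i => E i \ ⋃ j ∈ Finset.range i, E j with hD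
  have hDm : ∀ i, MeasurableSet[sig (S i)] (D i) := by
    intro i
    refine (hE i).diff ?_
    refine Finset.measurableSet_biUnion _ fun j hj => ?_
    exact sig_mono (hS (Finset.mem_range.1 hj).le) _ (hE j)
  have hDm' : ∀ i, MeasurableSet (D i) := fun i => sig_le _ _ (hDm i)
  have hdisj : ∀ (B : ℕ → Set Environment), (∀ i, B i ⊆ D i) →
      Set.PairwiseDisjoint (↑(Finset.range n)) B := by
    intro B hB
    intro i _ j _ hij
    rw [Function.onFun, Set.disjoint_left]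
    intro t h1 h2
    rcases lt_or_gt_of_ne hij with h | h
    · exact (hB j h2).2 (by
        simp only [Set.mem_iUnion]
        exact ⟨i, Finset.mem_range.2 h, (hB i h1).1⟩)
    · exact (hB i h1).2 (by
        simp only [Set.mem_iUnion]
        exact ⟨j, Finset.mem_range.2 h, (hB j h2).1⟩)
  have hU : ⋃ i ∈ Finset.range n, E i = ⋃ i ∈ Finset.range n, D i := by
    ext t
    simp only [Set.mem_iUnion, Finset.mem_range]
    constructor
    · rintro ⟨i, hi, hti⟩
      have hex : ∃ i, i < n ∧ t ∈ E i := ⟨i, hi, hti⟩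
      refine ⟨Nat.find hex, (Nat.find_spec hex).1, (Nat.find_spec hex).2, ?_⟩
      simp only [Set.mem_iUnion, Finset.mem_range, not_exists]
      intro j hj htj
      exact Nat.find_min hex hj ⟨hj.trans (Nat.find_spec hex).1, htj⟩
    · rintro ⟨i, hi, hti⟩
      exact ⟨i, hi, hti.1⟩
  have h1 : (iidLaw G).real (⋃ i ∈ Finset.range n, E i) =
      ∑ i ∈ Finset.range n, (iidLaw G).real (D i) := by
    rw [hU]
    exact measureReal_biUnion_finset (hdisj D fun i => le_rfl) (fun i _ => hDm' i)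
  have h2 : ∑ i ∈ Finset.range n, (iidLaw G).real (D i ∩ A i) ≤
      (iidLaw G).real (⋃ i ∈ Finset.range n, (E i ∩ A i)) := by
    rw [← measureReal_biUnion_finset (hdisj _ fun i => Set.inter_subset_left)
      (fun i _ => (hDm' i).inter (hmeasA i))]
    refine measureReal_mono ?_ (measure_ne_top _ _)
    exact Set.iUnion₂_mono fun i _ => Set.inter_subset_inter_left _ Set.diff_subset
  have h3 : ∑ i ∈ Finset.range n, (iidLaw G).real (D i) ≤
      2 * ∑ i ∈ Finset.range n, (iidLaw G).real (D i ∩ A i) := by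
    rw [Finset.mul_sum]
    refine Finset.sum_le_sum fun i hi => ?_
    have hi' := Finset.mem_range.1 hi
    rw [measure_inter_sig G (hd i hi') (hDm i) (hA i)]
    have h4 := hp i hi'
    have h5 : 0 ≤ (iidLaw G).real (D i) := measureReal_nonneg
    nlinarith
  rw [h1]
  linarith

lemma measurableSet_Apt (s α β u w v : ℝ) (n : ℕ) :
    MeasurableSet[sig (block 0 n)] (Apt s α β u w v n) :=
  sig_mono Set.inter_subset_left _ (measurableSet_CrE α β _ _ _ _)

lemma mem_Apt_shift {s α β w v : ℝ} {n : ℕ} (z : ℤ × ℤ) {t : Environment} :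
    shift z t ∈ Apt s α β 0 w v n ↔
      CrE α β (sl s (ht s z) w z.1 (z.1 + n)) z (z.1 + n, z.2 + ⌊s * n⌋) v t := by
  unfold Apt
  simp only [Set.mem_ofPred_eq]
  rw [CrE_shift α β z (mem_sl_shift z s 0 w 0 n)]
  simp only [zero_add, Int.floor_zero]
  have e1 : ((0 : ℤ), (0 : ℤ)) + z = z := by ext <;> simp
  have e2 : ((n : ℤ), ⌊s * n⌋) + z = (z.1 + n, z.2 + ⌊s * n⌋) := by
    ext <;> simp [add_comm]
  rw [e1, e2, add_comm (n : ℤ) z.1]

lemma measurableSet_Apt_shift {s α β w v : ℝ} {n : ℕ} (z : ℤ × ℤ) :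
    MeasurableSet[sig (block z.1 (z.1 + n))] (shift z ⁻¹' (Apt s α β 0 w v n)) := by
  have : shift z ⁻¹' (Apt s α β 0 w v n) =
      {t | CrE α β (sl s (ht s z) w z.1 (z.1 + n)) z (z.1 + n, z.2 + ⌊s * n⌋) v t} := by
    ext t
    exact mem_Apt_shift z
  rw [this]
  exact sig_mono Set.inter_subset_left _ (measurableSet_CrE α β _ _ _ _)

lemma prob_Apt_shift (s α β w v : ℝ) (n : ℕ) (z : ℤ × ℤ) :
    (iidLaw G).real (shift z ⁻¹' (Apt s α β 0 w v n)) = (iidLaw G).real (Apt s α β 0 w v n) := by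
  simp only [Measure.real]
  rw [(A.mp_shift G z).measure_preimage
    (sig_le _ _ (measurableSet_Apt s α β 0 w v n)).nullMeasurableSet]

/-- a crossing of the first `k` columns from the base point with too small energy -/
def BadLk (s α β a u w D : ℝ) (k : ℕ) (z : ℤ) : Set Environment :=
  {t | |ht s (k, z) - u| ≤ w ∧
    CrE α β (sl s u w 0 k) (0, ⌊u⌋) (k, z) (a * |ht s (k, z) - u| - D) t}

/-- a crossing of the last columns to the end point with too small energy -/
def BadRk (s α β a u w D : ℝ) (m k : ℕ) (z : ℤ) : Set Environment :=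
  {t | |ht s (k, z) - u| ≤ w ∧
    CrE α β (sl s u w k m) (k, z) (m, ⌊u + s * m⌋) (a * |ht s (k, z) - u| - D) t}

lemma abs_z_le {s u w : ℝ} {k m : ℕ} {z : ℤ} (hk : k ≤ m) (h : |ht s ((k : ℤ), z) - u| ≤ w) :
    |(z : ℝ)| ≤ |s| * m + |u| + w := by
  have h1 : ht s ((k : ℤ), z) = (z : ℝ) - s * k := by simp [ht]
  rw [h1] at h
  have h2 : (z : ℝ) = (z - s * k - u) + (s * k + u) := by ring
  rw [h2]
  refine (abs_add_le _ _).trans ?_
  have h3 : |s * k + u| ≤ |s| * m + |u| := by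
    refine (abs_add_le _ _).trans (add_le_add ?_ le_rfl)
    rw [abs_mul, Nat.abs_cast]
    exact mul_le_mul_of_nonneg_left (by exact_mod_cast hk) (abs_nonneg _)
  linarith

lemma measurableSet_const_and {m0 : MeasurableSpace Environment} (P : Prop)
    {R : Environment → Prop} (hR : MeasurableSet[m0] {t | R t}) :
    MeasurableSet[m0] {t | P ∧ R t} := by
  have := measurableSet_and_const P True hR
  simpa using this

/-- **stopping from the left** -/
lemma prob_badL_le {s α β a u w v δ D ε : ℝ} {m : ℕ} (ha : 0 < a)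
    (hw : 1 ≤ w) (hA : ∀ n ≤ m, 1 / 2 ≤ (iidLaw G).real (Apt s α β 0 w v n))
    (hHW : (iidLaw G).real (HWbad s α β a u (2 * w + 1) δ 0 m) ≤ ε)
    (hD : v + δ + 2 * a ≤ D) :
    (iidLaw G).real {t | ∃ k : ℕ, 1 ≤ k ∧ k ≤ m ∧ ∃ z : ℤ, t ∈ BadLk s α β a u w D k z} ≤
      2 * ε := by
  classical
  set Z : ℕ := ⌈|s| * m + |u| + w⌉₊ with hZ
  set N : ℕ := 2 * Z + 1 with hN
  -- the enumeration
  set kk : ℕ → ℕ := fun i => i / N with hkk
  set zz : ℕ → ℤ := fun i => ((i % N : ℕ) : ℤ) - Z with hzz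
  set E : ℕ → Set Environment := fun i =>
    if 1 ≤ kk i then BadLk s α β a u w D (kk i) (zz i) else ∅ with hE
  set B : ℕ → Set Environment := fun i =>
    shift ((kk i : ℤ), zz i) ⁻¹' (Apt s α β 0 w v (m - kk i)) with hB
  have hNpos : 0 < N := by omega
  have hkmono : Monotone kk := fun i j hij => Nat.div_le_div_right hij
  have hkm : ∀ i < (m + 1) * N, kk i ≤ m := by
    intro i hi
    have : i / N < m + 1 := (Nat.div_lt_iff_lt_mul hNpos).2 hi
    simp only [hkk]; omega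
  have hstop := stop_le G (n := (m + 1) * N) (E := E) (A := B)
    (S := fun i => block 0 (kk i)) (T := fun i => block (kk i) ((kk i : ℤ) + (m - kk i : ℕ)))
    (fun i j hij => A.block_mono le_rfl (by exact_mod_cast hkmono hij))
    (by
      intro i
      simp only [hE]
      split_ifs with h
      · refine measurableSet_const_and _ ?_
        exact sig_mono Set.inter_subset_left _ (measurableSet_CrE α β _ _ _ _)
      · exact @MeasurableSet.empty _ (sig (block 0 (kk i))))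
    (by
      intro i
      exact measurableSet_Apt_shift _)
    (fun i _ => A.block_disjoint le_rfl)
    (by
      intro i _
      simp only [hB]
      rw [prob_Apt_shift]
      exact hA _ (by omega))
  have hsub1 : {t | ∃ k : ℕ, 1 ≤ k ∧ k ≤ m ∧ ∃ z : ℤ, t ∈ BadLk s α β a u w D k z} ⊆
      ⋃ i ∈ Finset.range ((m + 1) * N), E i := by
    rintro t ⟨k, hk1, hkm', z, hz⟩
    have hzZ : |z| ≤ Z := by
      have h1 := abs_z_le hkm' hz.1
      have h2 : |(z : ℝ)| ≤ Z := h1.trans (Nat.le_ceil _)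
      have h3 : ((|z| : ℤ) : ℝ) ≤ ((Z : ℤ) : ℝ) := by push_cast; exact h2
      exact_mod_cast h3
    rw [abs_le] at hzZ
    obtain ⟨j, hj⟩ : ∃ j : ℕ, (j : ℤ) = z + Z := ⟨(z + Z).toNat, Int.toNat_of_nonneg (by omega)⟩
    have hjN : j < N := by omega
    simp only [Set.mem_iUnion, Finset.mem_range]
    refine ⟨k * N + j, ?_, ?_⟩
    · calc k * N + j < k * N + N := by omega
        _ = (k + 1) * N := by ring
        _ ≤ (m + 1) * N := Nat.mul_le_mul_right _ (by omega)
    · have h1 : kk (k * N + j) = k := by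
        simp only [hkk]
        rw [add_comm, Nat.add_mul_div_right _ _ hNpos, Nat.div_eq_of_lt hjN, zero_add]
      have h2 : zz (k * N + j) = z := by
        simp only [hzz]
        rw [add_comm (k * N), Nat.add_mul_mod_self_right, Nat.mod_eq_of_lt hjN, hj]
        ring
      simp only [hE, h1, h2, if_pos hk1]
      exact hz
  have hsub2 : ⋃ i ∈ Finset.range ((m + 1) * N), (E i ∩ B i) ⊆
      HWbad s α β a u (2 * w + 1) δ 0 m := by
    intro t ht1
    simp only [Set.mem_iUnion, Finset.mem_range] at ht1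
    obtain ⟨i, hi, hti, htB⟩ := ht1
    simp only [hE] at hti
    split_ifs at hti with hk1
    swap
    · simp at hti
    have hkm' := hkm i hi
    obtain ⟨g1, g2⟩ := hti
    have g3 := (mem_Apt_shift _).1 htB
    simp only at g3
    have hend : ((kk i : ℤ) + (m - kk i : ℕ)) = (m : ℤ) := by omega
    rw [hend] at g3
    -- combined path
    have g4 : CrE α β (sl s u (2 * w + 1) 0 m) (0, ⌊u⌋)
        ((m : ℤ), zz i + ⌊s * ((m - kk i : ℕ) : ℝ)⌋)
        (a * |ht s ((kk i : ℤ), zz i) - u| - D + v) t := by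
      refine CrE.trans (y := ((kk i : ℤ), zz i)) ?_ ?_
      · exact g2.mono (sl_mono (by simp; linarith) le_rfl (by exact_mod_cast hkm')) le_rfl
      · refine g3.mono (sl_mono (by linarith) (by positivity) le_rfl) le_rfl
    refine ⟨⌊u⌋, zz i + ⌊s * ((m - kk i : ℕ) : ℝ)⌋, g4.mono le_rfl ?_⟩
    have g5 : |ht s ((m : ℤ), zz i + ⌊s * ((m - kk i : ℕ) : ℝ)⌋) -
        ht s ((kk i : ℤ), zz i)| ≤ 1 := by
      have h1 : ht s ((m : ℤ), zz i + ⌊s * ((m - kk i : ℕ) : ℝ)⌋) -
          ht s ((kk i : ℤ), zz i) = ⌊s * ((m - kk i : ℕ) : ℝ)⌋ - s * ((m - kk i : ℕ) : ℝ) := by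
        simp only [ht]
        push_cast [Nat.cast_sub hkm']
        ring
      rw [h1, abs_le]
      constructor
      · linarith [Int.lt_floor_add_one (s * ((m - kk i : ℕ) : ℝ))]
      · linarith [Int.floor_le (s * ((m - kk i : ℕ) : ℝ))]
    have g6 := ht_start s u
    have g7 : |ht s ((kk i : ℤ), zz i) - u| - 2 ≤
        |ht s ((m : ℤ), zz i + ⌊s * ((m - kk i : ℕ) : ℝ)⌋) - ht s (0, ⌊u⌋)| := by
      have h1 : ht s ((kk i : ℤ), zz i) - u =
          (ht s ((m : ℤ), zz i + ⌊s * ((m - kk i : ℕ) : ℝ)⌋) - ht s (0, ⌊u⌋)) +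
          ((ht s ((kk i : ℤ), zz i) -
            ht s ((m : ℤ), zz i + ⌊s * ((m - kk i : ℕ) : ℝ)⌋)) + (ht s (0, ⌊u⌋) - u)) := by ring
      have h2 := abs_add_le (ht s ((m : ℤ), zz i + ⌊s * ((m - kk i : ℕ) : ℝ)⌋) - ht s (0, ⌊u⌋))
        ((ht s ((kk i : ℤ), zz i) -
            ht s ((m : ℤ), zz i + ⌊s * ((m - kk i : ℕ) : ℝ)⌋)) + (ht s (0, ⌊u⌋) - u))
      have h3 := abs_add_le (ht s ((kk i : ℤ), zz i) -
            ht s ((m : ℤ), zz i + ⌊s * ((m - kk i : ℕ) : ℝ)⌋)) (ht s (0, ⌊u⌋) - u)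
      rw [abs_sub_comm] at g5
      rw [← h1] at h2
      linarith
    have g8 := mul_le_mul_of_nonneg_left g7 ha.le
    linarith
  calc (iidLaw G).real {t | ∃ k : ℕ, 1 ≤ k ∧ k ≤ m ∧ ∃ z : ℤ, t ∈ BadLk s α β a u w D k z}
      ≤ (iidLaw G).real (⋃ i ∈ Finset.range ((m + 1) * N), E i) :=
        measureReal_mono hsub1 (measure_ne_top _ _)
    _ ≤ 2 * (iidLaw G).real (⋃ i ∈ Finset.range ((m + 1) * N), (E i ∩ B i)) := hstop
    _ ≤ 2 * (iidLaw G).real (HWbad s α β a u (2 * w + 1) δ 0 m) := by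
        have := measureReal_mono (μ := iidLaw G) hsub2 (measure_ne_top _ _)
        linarith
    _ ≤ 2 * ε := by linarith

end Crest.Agent.R151.X
end

-- ▼ part R151/X684g
section

/-!
# R151, block X (helper684), part g: stopping from the right, final confinement
-/

set_option autoImplicit false

open MeasureTheory ProbabilityTheory Filter Topology
open Crest.ProbabilityR.FirstPassage
open Crest.Agent.R151.A (shift eShift block sig eX)
open Crest.Agent.R151.K (Nn)

namespace Crest.Agent.R151.X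

variable (G : Measure ℝ) [IsProbabilityMeasure G]

/-- **stopping from the right** -/
lemma prob_badR_le {s α β a u w v δ D ε : ℝ} {m : ℕ} (ha : 0 < a)
    (hw : 1 ≤ w) (hA : ∀ n ≤ m, 1 / 2 ≤ (iidLaw G).real (Apt s α β 0 w v n))
    (hHW : (iidLaw G).real (HWbad s α β a u (2 * w + 1) δ 0 m) ≤ ε)
    (hD : v + δ + 2 * a ≤ D) :
    (iidLaw G).real {t | ∃ k : ℕ, k < m ∧ ∃ z : ℤ, t ∈ BadRk s α β a u w D m k z} ≤
      2 * ε := by
  classical
  set Z : ℕ := ⌈|s| * m + |u| + w⌉₊ with hZ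
  set N : ℕ := 2 * Z + 1 with hN
  -- the enumeration
  set kk : ℕ → ℕ := fun i => m - 1 - i / N with hkk
  set zz : ℕ → ℤ := fun i => ((i % N : ℕ) : ℤ) - Z with hzz
  set E : ℕ → Set Environment := fun i => BadRk s α β a u w D m (kk i) (zz i) with hE
  set B : ℕ → Set Environment := fun i =>
    shift ((0 : ℤ), zz i - ⌊s * (kk i : ℝ)⌋) ⁻¹' (Apt s α β 0 w v (kk i)) with hB
  have hNpos : 0 < N := by omega
  have hkmono : ∀ i j, i ≤ j → kk j ≤ kk i := fun i j hij => by
    exact Nat.sub_le_sub_left (Nat.div_le_div_right (c := N) hij) _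
  have hkm : ∀ i, kk i ≤ m := by
    intro i
    exact (Nat.sub_le _ _).trans (Nat.sub_le _ _)
  have hstop := stop_le G (n := m * N) (E := E) (A := B)
    (S := fun i => block (kk i) m) (T := fun i => block 0 (0 + kk i))
    (fun i j hij => A.block_mono (by exact_mod_cast hkmono i j hij) le_rfl)
    (by
      intro i
      refine measurableSet_const_and _ ?_
      exact sig_mono Set.inter_subset_left _ (measurableSet_CrE α β _ _ _ _))
    (by
      intro i
      exact measurableSet_Apt_shift _)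
    (fun i _ => (A.block_disjoint (by simp)).symm)
    (by
      intro i _
      simp only [hB]
      rw [prob_Apt_shift]
      exact hA _ (hkm i))
  have hsub1 : {t | ∃ k : ℕ, k < m ∧ ∃ z : ℤ, t ∈ BadRk s α β a u w D m k z} ⊆
      ⋃ i ∈ Finset.range (m * N), E i := by
    rintro t ⟨k, hkm', z, hz⟩
    have hzZ : |z| ≤ Z := by
      have h1 := abs_z_le hkm'.le hz.1
      have h2 : |(z : ℝ)| ≤ Z := h1.trans (Nat.le_ceil _)
      have h3 : ((|z| : ℤ) : ℝ) ≤ ((Z : ℤ) : ℝ) := by push_cast; exact h2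
      exact_mod_cast h3
    rw [abs_le] at hzZ
    obtain ⟨j, hj⟩ : ∃ j : ℕ, (j : ℤ) = z + Z := ⟨(z + Z).toNat, Int.toNat_of_nonneg (by omega)⟩
    have hjN : j < N := by omega
    obtain ⟨q, hq⟩ : ∃ q : ℕ, q + k + 1 = m := ⟨m - 1 - k, by omega⟩
    simp only [Set.mem_iUnion, Finset.mem_range]
    refine ⟨q * N + j, ?_, ?_⟩
    · calc q * N + j < q * N + N := by omega
        _ = (q + 1) * N := by ring
        _ ≤ m * N := Nat.mul_le_mul_right _ (by omega)
    · have h1 : kk (q * N + j) = k := by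
        simp only [hkk]
        rw [add_comm (q * N), Nat.add_mul_div_right _ _ hNpos, Nat.div_eq_of_lt hjN, zero_add]
        omega
      have h2 : zz (q * N + j) = z := by
        simp only [hzz]
        rw [add_comm (q * N), Nat.add_mul_mod_self_right, Nat.mod_eq_of_lt hjN, hj]
        ring
      simp only [hE, h1, h2]
      exact hz
  have hsub2 : ⋃ i ∈ Finset.range (m * N), (E i ∩ B i) ⊆
      HWbad s α β a u (2 * w + 1) δ 0 m := by
    intro t ht1
    simp only [Set.mem_iUnion, Finset.mem_range] at ht1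
    obtain ⟨i, hi, hti, htB⟩ := ht1
    have hkm' := hkm i
    obtain ⟨g1, g2⟩ := hti
    have g3 := (mem_Apt_shift _).1 htB
    simp only [sub_add_cancel, zero_add] at g3
    -- the starting height
    have g5 : |ht s ((0 : ℤ), zz i - ⌊s * (kk i : ℝ)⌋) - ht s ((kk i : ℤ), zz i)| ≤ 1 := by
      have h1 : ht s ((0 : ℤ), zz i - ⌊s * (kk i : ℝ)⌋) - ht s ((kk i : ℤ), zz i) =
          s * (kk i : ℝ) - ⌊s * (kk i : ℝ)⌋ := by
        simp only [ht]
        push_cast
        ring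
      rw [h1, abs_le]
      constructor
      · linarith [Int.floor_le (s * (kk i : ℝ))]
      · linarith [Int.lt_floor_add_one (s * (kk i : ℝ))]
    have g6 : |ht s ((0 : ℤ), zz i - ⌊s * (kk i : ℝ)⌋) - u| ≤ w + 1 := by
      have h1 : ht s ((0 : ℤ), zz i - ⌊s * (kk i : ℝ)⌋) - u =
        (ht s ((0 : ℤ), zz i - ⌊s * (kk i : ℝ)⌋) - ht s ((kk i : ℤ), zz i)) +
        (ht s ((kk i : ℤ), zz i) - u) := by ring
      rw [h1]
      refine (abs_add_le _ _).trans ?_
      linarith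
    have g4 : CrE α β (sl s u (2 * w + 1) 0 m) ((0 : ℤ), zz i - ⌊s * (kk i : ℝ)⌋)
        ((m : ℤ), ⌊u + s * m⌋) (v + (a * |ht s ((kk i : ℤ), zz i) - u| - D)) t := by
      refine CrE.trans (y := ((kk i : ℤ), zz i)) ?_ ?_
      · exact g3.mono (sl_mono (by linarith) le_rfl (by exact_mod_cast hkm')) le_rfl
      · exact g2.mono (sl_mono (by simp; linarith) (by positivity) le_rfl) le_rfl
    refine ⟨zz i - ⌊s * (kk i : ℝ)⌋, ⌊u + s * m⌋, g4.mono le_rfl ?_⟩
    have g7 := ht_end s u m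
    have g8 : |ht s ((kk i : ℤ), zz i) - u| - 2 ≤
        |ht s ((m : ℤ), ⌊u + s * m⌋) - ht s ((0 : ℤ), zz i - ⌊s * (kk i : ℝ)⌋)| := by
      have h1 : ht s ((kk i : ℤ), zz i) - u =
          -((ht s ((m : ℤ), ⌊u + s * m⌋) - ht s ((0 : ℤ), zz i - ⌊s * (kk i : ℝ)⌋)) +
          ((ht s ((0 : ℤ), zz i - ⌊s * (kk i : ℝ)⌋) - ht s ((kk i : ℤ), zz i)) +
            -(ht s ((m : ℤ), ⌊u + s * m⌋) - u))) := by ring
      have h2 := abs_add_le (ht s ((m : ℤ), ⌊u + s * m⌋) -
          ht s ((0 : ℤ), zz i - ⌊s * (kk i : ℝ)⌋))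
        ((ht s ((0 : ℤ), zz i - ⌊s * (kk i : ℝ)⌋) - ht s ((kk i : ℤ), zz i)) +
            -(ht s ((m : ℤ), ⌊u + s * m⌋) - u))
      have h3 := abs_add_le (ht s ((0 : ℤ), zz i - ⌊s * (kk i : ℝ)⌋) -
        ht s ((kk i : ℤ), zz i)) (-(ht s ((m : ℤ), ⌊u + s * m⌋) - u))
      rw [abs_neg] at h3
      rw [h1, abs_neg]
      linarith
    have g9 := mul_le_mul_of_nonneg_left g8 ha.le
    linarith
  calc (iidLaw G).real {t | ∃ k : ℕ, k < m ∧ ∃ z : ℤ, t ∈ BadRk s α β a u w D m k z}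
      ≤ (iidLaw G).real (⋃ i ∈ Finset.range (m * N), E i) :=
        measureReal_mono hsub1 (measure_ne_top _ _)
    _ ≤ 2 * (iidLaw G).real (⋃ i ∈ Finset.range (m * N), (E i ∩ B i)) := hstop
    _ ≤ 2 * (iidLaw G).real (HWbad s α β a u (2 * w + 1) δ 0 m) := by
        have := measureReal_mono (μ := iidLaw G) hsub2 (measure_ne_top _ _)
        linarith
    _ ≤ 2 * ε := by linarith

/-- splitting a walk at a vertex -/
lemma exists_split {x y z : ℤ × ℤ} (w : squareLattice.Walk x y) (hz : z ∈ w.support) :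
    ∃ (w1 : squareLattice.Walk x z) (w2 : squareLattice.Walk z y), w = w1.append w2 := by
  classical
  exact ⟨w.takeUntil z hz, w.dropUntil z hz, (w.take_spec hz).symm⟩

/-- every vertex of a walk with edges in the slab lies in the slab -/
lemma support_mem_slab {p q : ℤ} {x y z : ℤ × ℤ} (w : squareLattice.Walk x y)
    (hw : ∀ e ∈ w.edges, e ∈ block p q) (hx : p ≤ x.1 ∧ x.1 ≤ q) (hz : z ∈ w.support) :
    p ≤ z.1 ∧ z.1 ≤ q := by
  induction w with
  | nil =>
    simp only [SimpleGraph.Walk.support_nil, List.mem_singleton] at hz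
    subst hz; exact hx
  | @cons a b c h w' ih =>
    rw [SimpleGraph.Walk.support_cons, List.mem_cons] at hz
    rcases hz with rfl | hz
    · exact hx
    · refine ih (fun e he => hw e (by simp [he])) ?_ hz
      have h1 := hw s(a, b) (by simp)
      simp only [block, Set.mem_ofPred_eq, A.eX_mk] at h1
      have h2 := adj_fst_le h
      rw [abs_le] at h2
      have h3 := min_le_right a.1 b.1
      have h4 : b.1 ≤ min a.1 b.1 + 1 := by
        rcases min_choice a.1 b.1 with h | h <;> rw [h] <;> omega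
      omega

/-- **confinement**: outside the bad events a good crossing stays in a narrow tube -/
lemma confine_det {s α β a u w w' δ D v : ℝ} {m N : ℕ} {t : Environment} (hN : Nn t)
    (ha : 0 < a) (hm : 1 ≤ m) (hmN : m ≤ N) (hw : 1 ≤ w) (hδ : 0 ≤ δ) (haD : a ≤ D)
    (hA : t ∈ Apt s α β u w v m)
    (hL : ¬ ∃ k : ℕ, 1 ≤ k ∧ k ≤ m ∧ ∃ z : ℤ, t ∈ BadLk s α β a u w D k z)
    (hR : ¬ ∃ k : ℕ, k < m ∧ ∃ z : ℤ, t ∈ BadRk s α β a u w D m k z)
    (hcol : t ∈ ColOK s β (a / 2) u w δ N)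
    (hw' : 2 * (v + 2 * D + 2 * δ) / a ≤ w') :
    t ∈ Apt s α β u w' v m := by
  obtain ⟨p, hp1, hp2⟩ := hA
  -- all vertices are in the narrow tube
  have key : ∀ z ∈ p.support, |ht s z - u| ≤ w' := by
    intro z hz
    obtain ⟨k1, k2⟩ := support_mem_slab (p := 0) (q := m) p (fun e he => (hp1 e he).1)
      ⟨le_rfl, by positivity⟩ hz
    obtain ⟨k, hk⟩ : ∃ k : ℕ, z.1 = k := ⟨z.1.toNat, (Int.toNat_of_nonneg k1).symm⟩
    obtain ⟨pa, pb, hpab⟩ := exists_split p hz
    obtain ⟨z1, p1, q1, h1, h2, h3⟩ := first_hit (k : ℤ) pa (by simp) (by omega)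
    obtain ⟨z2, q2, p3, h4, h5, h6⟩ := last_visit (k : ℤ) pb (by omega) (by simp; omega)
    have e1 : ∀ e ∈ p1.edges, e ∈ p.edges := fun e he => by
      rw [hpab, h1, SimpleGraph.Walk.edges_append, SimpleGraph.Walk.edges_append]; simp [he]
    have e3 : ∀ e ∈ p3.edges, e ∈ p.edges := fun e he => by
      rw [hpab, h4, SimpleGraph.Walk.edges_append, SimpleGraph.Walk.edges_append]; simp [he]
    have hcost : walkCost t p = (walkCost t p1 + walkCost t q1) +
        (walkCost t q2 + walkCost t p3) := by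
      rw [hpab, h1, h4, K.walkCost_append, K.walkCost_append, K.walkCost_append]
    have c1 : Cr (sl s u w 0 k) (0, ⌊u⌋) z1 (walkCost t p1) t := by
      refine ⟨p1, fun e he => ?_, le_rfl⟩
      have h7 := hp1 e (e1 e he)
      exact ⟨⟨h7.1.1, h3 e he⟩, h7.2⟩
    have c3 : Cr (sl s u w k m) z2 (m, ⌊u + s * m⌋) (walkCost t p3) t := by
      refine ⟨p3, fun e he => ?_, le_rfl⟩
      have h7 := hp1 e (e3 e he)
      exact ⟨⟨h6 e he, h7.1.2⟩, h7.2⟩
    -- tube membership of z1, z2, z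
    have tube_of_mem : ∀ x : ℤ × ℤ, x ∈ p.support → |ht s x - u| ≤ w := by
      intro x hx
      by_cases hx0 : x = (0, ⌊u⌋)
      · rw [hx0]; exact (ht_start s u).trans hw
      · obtain ⟨r1, r2, hr⟩ := exists_split p hx
        have : Cr (tube s u w) (0, ⌊u⌋) x (walkCost t r1) t :=
          ⟨r1, fun e he => (hp1 e (by rw [hr, SimpleGraph.Walk.edges_append]; simp [he])).2,
            le_rfl⟩
        obtain ⟨e, he, hxe⟩ := Cr_end_mem this (Ne.symm hx0)
        exact he _ hxe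
    have hz1 : |ht s z1 - u| ≤ w := by
      refine tube_of_mem z1 ?_
      rw [hpab, h1, SimpleGraph.Walk.support_append, SimpleGraph.Walk.support_append]
      simp
    have hz2 : |ht s z2 - u| ≤ w := by
      refine tube_of_mem z2 ?_
      have : z2 ∈ pb.support := by
        rw [h4, SimpleGraph.Walk.mem_support_append_iff]
        exact Or.inl (SimpleGraph.Walk.end_mem_support _)
      rw [hpab, SimpleGraph.Walk.mem_support_append_iff]
      exact Or.inr this
    have hz0 : |ht s z - u| ≤ w := tube_of_mem z hz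
    have hkm : k ≤ m := by omega
    have f1 := col_energy (α := α) hcol hN (k := (k : ℤ)) (by positivity)
      (by exact_mod_cast hkm.trans hmN) h2 hk hz1 hz0 q1
    have f2 := col_energy (α := α) hcol hN (k := (k : ℤ)) (by positivity)
      (by exact_mod_cast hkm.trans hmN) hk h5 hz0 hz2 q2
    -- first piece
    have f3 : lin α β z1 - lin α β ((0 : ℤ), ⌊u⌋) + (a * |ht s z1 - u| - D) ≤ walkCost t p1 := by
      rcases Nat.eq_zero_or_pos k with hk0 | hk0
      · -- `p1` has no edges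
        have h7 : z1 = (0, ⌊u⌋) := by
          by_contra hne
          obtain ⟨e, he, -⟩ := Cr_end_mem c1 (Ne.symm hne)
          have h8 := he.1
          simp only [block, Set.mem_ofPred_eq] at h8
          omega
        have h8 : 0 ≤ walkCost t p1 := K.walkCost_nonneg hN p1
        have h10 : lin α β z1 = lin α β ((0 : ℤ), ⌊u⌋) := by rw [h7]
        have h11 : |ht s z1 - u| ≤ 1 := by rw [h7]; exact ht_start s u
        have h9 := mul_le_mul_of_nonneg_left h11 ha.le
        linarith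
      · by_contra hcon
        push Not at hcon
        refine hL ⟨k, hk0, hkm, z1.2, ?_⟩
        have h7 : ((k : ℤ), z1.2) = z1 := by
          ext
          · exact h2.symm
          · rfl
        refine ⟨by rw [h7]; exact hz1, ?_⟩
        rw [h7]
        exact c1.mono le_rfl (by linarith)
    have f4 : lin α β ((m : ℤ), ⌊u + s * m⌋) - lin α β z2 + (a * |ht s z2 - u| - D) ≤
        walkCost t p3 := by
      rcases hkm.eq_or_lt with hk0 | hk0
      · have h7 : z2 = ((m : ℤ), ⌊u + s * m⌋) := by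
          by_contra hne
          obtain ⟨e, he, -⟩ := Cr_end_mem c3 hne
          have h8 := he.1
          simp only [block, Set.mem_ofPred_eq] at h8
          omega
        have h8 : 0 ≤ walkCost t p3 := K.walkCost_nonneg hN p3
        have h10 : lin α β z2 = lin α β ((m : ℤ), ⌊u + s * m⌋) := by rw [h7]
        have h11 : |ht s z2 - u| ≤ 1 := by rw [h7]; exact ht_end s u m
        have h9 := mul_le_mul_of_nonneg_left h11 ha.le
        linarith
      · by_contra hcon
        push Not at hcon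
        refine hR ⟨k, hk0, z2.2, ?_⟩
        have h7 : ((k : ℤ), z2.2) = z2 := by
          ext
          · exact h5.symm
          · rfl
        refine ⟨by rw [h7]; exact hz2, ?_⟩
        rw [h7]
        exact c3.mono le_rfl (by linarith)
    have f5 : 0 ≤ a * |ht s z2 - u| := by positivity
    have f6 : 0 ≤ a / 2 * |ht s z2 - ht s z| := by positivity
    have f7 : a / 2 * |ht s z - u| ≤ a * |ht s z1 - u| + a / 2 * |ht s z - ht s z1| := by
      have h7 : ht s z - u = (ht s z1 - u) + (ht s z - ht s z1) := by ring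
      have h8 : |ht s z - u| ≤ |ht s z1 - u| + |ht s z - ht s z1| := by
        conv_lhs => rw [h7]
        exact abs_add_le _ _
      have h9 : 0 ≤ a / 2 * |ht s z1 - u| := by positivity
      nlinarith [mul_le_mul_of_nonneg_left h8 (show 0 ≤ a / 2 by positivity)]
    refine le_trans ?_ hw'
    rw [le_div_iff₀ ha]
    linarith
  refine ⟨p, fun e he => ⟨(hp1 e he).1, ?_⟩, hp2⟩
  intro x hx
  exact key x (by
    induction e with
    | _ e1 e2 =>
      rcases Sym2.mem_iff.1 hx with rfl | rfl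
      · exact SimpleGraph.Walk.fst_mem_support_of_mem_edges p he
      · exact SimpleGraph.Walk.snd_mem_support_of_mem_edges p he)

end Crest.Agent.R151.X
end

-- ▼ part R151/X684h

/-!
# R151, block X (helper684), part h: the inputs, base estimate, column estimate
-/

set_option autoImplicit false

open MeasureTheory ProbabilityTheory Filter Topology
open Crest.ProbabilityR.FirstPassage
open Crest.Agent.R151.A (shift eShift block sig eX)
open Crest.Agent.R151.K (Nn)

namespace Crest.Agent.R151.X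

/-- The inputs of the no-corner argument at the direction `(1, s)`, for the functional
`(x, y) ↦ α x + β y` and the corner slope `a`. -/
structure Inputs (G : Measure ℝ) (s α β a : ℝ) : Prop where
  nn : G (Set.Iio 0) = 0
  a_pos : 0 < a
  /-- the hard wall -/
  hw : ∀ η > 0, ∀ ε > 0, ∃ b0 : ℝ, ∀ b, b0 ≤ b → ∀ n : ℕ, 1 ≤ n → ∀ u : ℝ,
    (iidLaw G).real (HWbad s α β a u b (η * b) 0 n) ≤ ε
  /-- polynomial lower tail along columns -/
  col : ∃ C : ℝ, 0 ≤ C ∧ ∀ k : ℕ, 1 ≤ k →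
    (iidLaw G).real {t | passageTime t (0, 0) (0, (k : ℤ)) ≤ (|β| + a / 2) * k} ≤
      C / (k : ℝ) ^ 6
  /-- connections at the two ends of a block -/
  conn : ∀ ε > 0, ∃ (C : ℝ) (K0 : ℕ) (L0 : ℝ), 0 ≤ C ∧ ∀ L, L0 ≤ L → ∀ n : ℕ, K0 ≤ n → 1 ≤ n →
    ∀ u, (iidLaw G).real (ConnL s u L C n)ᶜ ≤ ε ∧ (iidLaw G).real (ConnR s u L C n)ᶜ ≤ ε
  /-- short crossings -/
  short : ∀ ε > 0, ∀ K0 : ℕ, ∃ K' : ℝ, ∀ n : ℕ, 1 ≤ n → n ≤ K0 → ∀ u,
    1 - ε ≤ (iidLaw G).real (Apt s α β u K' K' n)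
  /-- anticoncentration -/
  ac : ∃ c > 0, ∃ C : ℝ, ∀ n : ℕ, 1 ≤ n → ∀ w : ℝ, 1 ≤ w → ∀ u v h : ℝ, 0 < h → h ≤ 1 →
    (iidLaw G).real (Apt s α β u w v n) ≤
      (iidLaw G).real (Apt s α β u w (v - c * h * Real.sqrt (n / w)) n) + C * h +
        C * Real.sqrt (w / n) / h
  /-- upper bound -/
  ub : ∀ ε > 0, ∃ N0 : ℕ, ∀ N : ℕ, N0 ≤ N → ∀ u,
    1 - ε ≤ (iidLaw G).real
      (Apt s α β u ((N : ℝ) ^ (19 / 20 : ℝ)) ((N : ℝ) ^ (19 / 20 : ℝ)) N)

lemma Apt_mono {s α β u w w' v v' : ℝ} {n : ℕ} (hw : w ≤ w') (hv : v ≤ v') :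
    Apt s α β u w v n ⊆ Apt s α β u w' v' n :=
  fun _ h => h.mono (sl_mono (by simpa using hw) le_rfl le_rfl) hv

lemma HWbad_mono {s α β a u w w' δ δ' : ℝ} {p q : ℤ} (hw : w ≤ w') (hδ : δ' ≤ δ) :
    HWbad s α β a u w δ p q ⊆ HWbad s α β a u w' δ' p q := by
  rintro t ⟨x, y, h⟩
  exact ⟨x, y, h.mono (sl_mono (by simpa using hw) le_rfl le_rfl) (by linarith)⟩

lemma ColOK_anti {s β a' u w w' δ δ' : ℝ} {N N' : ℕ} (hw : w ≤ w') (hδ : δ' ≤ δ)
    (hN : N ≤ N') : ColOK s β a' u w' δ' N' ⊆ ColOK s β a' u w δ N := by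
  intro t h k hk0 hkN z z' hz hz'
  have := h k hk0 (hkN.trans (by exact_mod_cast hN)) z z' (hz.trans hw) (hz'.trans hw)
  linarith

lemma Blk_mono {s α β u w L v w' L' v' : ℝ} {p q : ℤ} (hw : w ≤ w') (hL : L ≤ L')
    (hv : v ≤ v') : Blk s α β u w L v p q ⊆ Blk s α β u w' L' v' p q := by
  rintro t ⟨x, y, h1, h2, h3⟩
  exact ⟨x, y, h1.trans hL, h2.trans hL,
    h3.mono (sl_mono (by simpa using hw) le_rfl le_rfl) hv⟩

section

variable {G : Measure ℝ} [IsProbabilityMeasure G] {s α β a : ℝ}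

/-- **base estimate**: a good crossing of length `n` has energy at least `c n^{1/3}` -/
lemma base (H : Inputs G s α β a) : ∃ (Cb b1 : ℝ), 0 ≤ Cb ∧ ∀ n : ℕ, 1 ≤ n → ∀ w v u : ℝ,
    b1 ≤ w → 0 ≤ v → 9 / 10 ≤ (iidLaw G).real (Apt s α β u w v n) →
    (n : ℝ) ≤ Cb * (v + w) ^ 3 := by
  obtain ⟨b0, hb0⟩ := H.hw 1 one_pos (1 / 10) (by norm_num)
  obtain ⟨c, hc, C, hC⟩ := H.ac
  set C' : ℝ := max C 1 with hC'
  have hC'1 : 1 ≤ C' := le_max_right _ _
  have hCC' : C ≤ C' := le_max_left _ _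
  set h : ℝ := 1 / (10 * C') with hh
  have hh0 : 0 < h := by positivity
  have hh1 : h ≤ 1 := by
    rw [hh, div_le_one (by positivity)]
    linarith
  have hCh : C' * h = 1 / 10 := by rw [hh]; field_simp
  refine ⟨(10 * C' / h) ^ 2 + 1 / (c * h) ^ 2, max b0 1, by positivity,
    fun n hn w v u hw hv hA => ?_⟩
  have hw1 : 1 ≤ w := (le_max_right _ _).trans hw
  have hwb : b0 ≤ w := (le_max_left _ _).trans hw
  have hvw : 1 ≤ v + w := by linarith
  have hn0 : (0 : ℝ) < n := by exact_mod_cast hn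
  have hcube : 1 ≤ (v + w) ^ 3 := one_le_pow₀ hvw
  have hwcube : w ≤ (v + w) ^ 3 := by
    have h1 : (v + w) ^ 3 = (v + w) * (v + w) ^ 2 := by ring
    have h2 : 1 ≤ (v + w) ^ 2 := one_le_pow₀ hvw
    rw [h1]; nlinarith
  by_cases hnC : (n : ℝ) ≤ (10 * C' / h) ^ 2 * w
  · have h1 : 0 ≤ 1 / (c * h) ^ 2 * (v + w) ^ 3 := by positivity
    have h2 : (10 * C' / h) ^ 2 * w ≤ (10 * C' / h) ^ 2 * (v + w) ^ 3 :=
      mul_le_mul_of_nonneg_left hwcube (by positivity)
    rw [add_mul]; linarith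
  · push Not at hnC
    have h1 := hC n hn w hw1 u v h hh0 hh1
    have h2 : C * h ≤ 1 / 10 := by rw [← hCh]; exact mul_le_mul_of_nonneg_right hCC' hh0.le
    have hw0' : 0 < w := by linarith
    have h3 : C * Real.sqrt (w / n) / h ≤ 1 / 10 := by
      have h31 : w / n ≤ (h / (10 * C')) ^ 2 := by
        rw [div_le_iff₀ hn0]
        have h32 : (h / (10 * C')) ^ 2 * ((10 * C' / h) ^ 2 * w) = w := by
          field_simp
        calc w = (h / (10 * C')) ^ 2 * ((10 * C' / h) ^ 2 * w) := h32.symm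
          _ ≤ (h / (10 * C')) ^ 2 * n := mul_le_mul_of_nonneg_left hnC.le (by positivity)
      have h33 : Real.sqrt (w / n) ≤ h / (10 * C') := by
        rw [← Real.sqrt_sq (show 0 ≤ h / (10 * C') by positivity)]
        exact Real.sqrt_le_sqrt h31
      have h34 : C * Real.sqrt (w / n) ≤ C' * (h / (10 * C')) :=
        mul_le_mul hCC' h33 (Real.sqrt_nonneg _) (by positivity)
      rw [div_le_iff₀ hh0]
      refine h34.trans (le_of_eq ?_)
      field_simp
    have h4 : 7 / 10 ≤ (iidLaw G).real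
        (Apt s α β u w (v - c * h * Real.sqrt (n / w)) n) := by linarith
    have h5 := hb0 w hwb n hn u
    have h6 : -w < v - c * h * Real.sqrt (n / w) := by
      by_contra hcon
      push Not at hcon
      have hsub : Apt s α β u w (v - c * h * Real.sqrt (n / w)) n ⊆
          HWbad s α β a u w (1 * w) 0 n := by
        intro t ht1
        refine ⟨⌊u⌋, ⌊u + s * n⌋, ht1.mono le_rfl ?_⟩
        have : 0 ≤ a * |ht s ((n : ℤ), ⌊u + s * n⌋) - ht s (0, ⌊u⌋)| :=
          mul_nonneg H.a_pos.le (abs_nonneg _)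
        linarith
      have := measureReal_mono (μ := iidLaw G) hsub (measure_ne_top _ _)
      linarith
    have h7 : c * h * Real.sqrt (n / w) < v + w := by linarith
    have h8 : (c * h) ^ 2 * (n / w) < (v + w) ^ 2 := by
      have h9 : (c * h * Real.sqrt (n / w)) ^ 2 < (v + w) ^ 2 :=
        pow_lt_pow_left₀ h7 (by positivity) (by norm_num)
      rwa [mul_pow, Real.sq_sqrt (by positivity)] at h9
    have hw0 : 0 < w := by linarith
    have h9 : (n : ℝ) ≤ 1 / (c * h) ^ 2 * (v + w) ^ 3 := by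
      rw [div_mul_eq_mul_div, one_mul, le_div_iff₀ (by positivity)]
      have h10 : (c * h) ^ 2 * n < (v + w) ^ 2 * w := by
        rw [mul_div_assoc', div_lt_iff₀ hw0] at h8
        exact h8
      have h11 : (v + w) ^ 2 * w ≤ (v + w) ^ 3 := by
        have : (v + w) ^ 3 = (v + w) ^ 2 * (v + w) := by ring
        rw [this]
        exact mul_le_mul_of_nonneg_left (by linarith) (by positivity)
      nlinarith
    have h10 : 0 ≤ (10 * C' / h) ^ 2 * (v + w) ^ 3 := by positivity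
    rw [add_mul]; linarith

lemma pt_shift (z : ℤ × ℤ) (t : Environment) (x y : ℤ × ℤ) :
    passageTime (shift z t) x y = passageTime t (x + z) (y + z) :=
  K.pt_act t (K.tr z) x y

/-- stationarity of the lower tail along columns -/
lemma prob_col_le (H : Inputs G s α β a) {C κ : ℝ}
    (hκ : κ = |β| + a / 2)
    (hC : ∀ k : ℕ, 1 ≤ k →
      (iidLaw G).real {t | passageTime t (0, 0) (0, (k : ℤ)) ≤ (|β| + a / 2) * k} ≤
      C / (k : ℝ) ^ 6) (k z z' : ℤ) (n : ℕ) (hn : 1 ≤ n) (hzn : |z' - z| = n) :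
    (iidLaw G).real {t | Nn t ∧ passageTime t (k, z) (k, z') ≤ κ * n} ≤ C / (n : ℝ) ^ 6 := by
  -- reduce to `z' = z + n` by symmetry
  have key : ∀ z : ℤ, (iidLaw G).real {t | passageTime t (k, z) (k, z + n) ≤ κ * n} ≤
      C / (n : ℝ) ^ 6 := by
    intro z
    have h1 : {t | passageTime t (k, z) (k, z + n) ≤ κ * n} =
        shift (k, z) ⁻¹' {t | passageTime t (0, 0) (0, (n : ℤ)) ≤ κ * n} := by
      ext t
      simp only [Set.mem_ofPred_eq, Set.mem_preimage, pt_shift]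
      have e1 : ((0 : ℤ), (0 : ℤ)) + (k, z) = (k, z) := by ext <;> simp
      have e2 : ((0 : ℤ), (n : ℤ)) + (k, z) = (k, z + n) := by ext <;> simp [add_comm]
      rw [e1, e2]
    rw [h1]
    have h2 : MeasurableSet {t : Environment | passageTime t (0, 0) (0, (n : ℤ)) ≤ κ * n} :=
      measurableSet_le (K.measurable_pt _ _) measurable_const
    have h3 : (iidLaw G).real (shift (k, z) ⁻¹'
        {t | passageTime t (0, 0) (0, (n : ℤ)) ≤ κ * n}) =
        (iidLaw G).real {t | passageTime t (0, 0) (0, (n : ℤ)) ≤ κ * n} := by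
      simp only [Measure.real]
      rw [(A.mp_shift G (k, z)).measure_preimage h2.nullMeasurableSet]
    rw [h3, hκ]
    exact hC n hn
  rcases abs_choice (z' - z) with h | h
  · have h1 : z' = z + n := by omega
    subst h1
    exact (measureReal_mono (fun t ht => ht.2) (measure_ne_top _ _)).trans (key z)
  · have h1 : z = z' + n := by omega
    subst h1
    refine (measureReal_mono ?_ (measure_ne_top _ _)).trans (key z')
    rintro t ⟨h2, h3⟩
    simp only [Set.mem_ofPred_eq]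
    rw [K.pt_symm h2]
    exact h3

/-- **the columns are regular** -/
lemma prob_colOK (H : Inputs G s α β a) : ∃ C : ℝ, 0 ≤ C ∧ ∀ (N : ℕ) (u w δ : ℝ), 0 ≤ w → 0 < δ →
    (iidLaw G).real (ColOK s β (a / 2) u w δ N)ᶜ ≤
      (N + 1) * (2 * w + 5) ^ 2 * (C * (1 / δ) ^ 6) := by
  classical
  obtain ⟨C, hC0, hC⟩ := H.col
  set κ : ℝ := |β| + a / 2 with hκ
  have hκ0 : 0 < κ := by have := H.a_pos; positivity
  refine ⟨C * κ ^ 6, by positivity, fun N u w δ hw hδ => ?_⟩
  set W' : ℕ := ⌈w⌉₊ + 1 with hW'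
  set I : Finset ℤ := Finset.Icc (-(W' : ℤ)) W' with hI
  set z0 : ℕ → ℤ := fun k => ⌊u + s * k⌋ with hz0
  set Ev : ℕ → ℤ × ℤ → Set Environment := fun k ij =>
    {t | Nn t ∧ (δ < κ * |(ij.2 : ℝ) - ij.1| ∧ passageTime t ((k : ℤ), z0 k + ij.1)
      ((k : ℤ), z0 k + ij.2) ≤ κ * |(ij.2 : ℝ) - ij.1|)} with hEv
  have hsub : (ColOK s β (a / 2) u w δ N)ᶜ ⊆
      (⋃ k ∈ Finset.range (N + 1), ⋃ ij ∈ I ×ˢ I, Ev k ij) ∪ {t | ¬ Nn t} := by
    intro t ht1
    by_cases hN : Nn t
    swap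
    · exact Or.inr hN
    left
    simp only [ColOK, Set.mem_compl_iff, Set.mem_ofPred_eq, not_forall, not_le] at ht1
    obtain ⟨k, hk0, hkN, z, z', hz, hz', hlt⟩ := ht1
    obtain ⟨k', rfl⟩ : ∃ k' : ℕ, k = k' := ⟨k.toNat, (Int.toNat_of_nonneg hk0).symm⟩
    have hmemI : ∀ z : ℤ, |ht s ((k' : ℤ), z) - u| ≤ w → z - z0 k' ∈ I := by
      intro z hz
      have h1 : ht s ((k' : ℤ), z) = (z : ℝ) - s * k' := by simp [ht]
      rw [h1, abs_le] at hz
      have h2 := Int.lt_floor_add_one (u + s * k')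
      have h3 := Int.floor_le (u + s * k')
      have h4 : w ≤ ⌈w⌉₊ := Nat.le_ceil w
      rw [hI, Finset.mem_Icc]
      constructor
      · have h5 : (-(W' : ℤ) : ℝ) ≤ ((z - z0 k' : ℤ) : ℝ) := by
          simp only [hW', hz0]; push_cast; linarith
        exact_mod_cast h5
      · have h5 : ((z - z0 k' : ℤ) : ℝ) ≤ ((W' : ℤ) : ℝ) := by
          simp only [hW', hz0]; push_cast; linarith
        exact_mod_cast h5
    simp only [Set.mem_iUnion, Finset.mem_range, Finset.mem_product]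
    refine ⟨k', by omega, (z - z0 k', z' - z0 k'), ⟨hmemI z hz, hmemI z' hz'⟩, hN, ?_⟩
    have e1 : (((z' - z0 k' : ℤ) : ℝ)) - ((z - z0 k' : ℤ) : ℝ) = (z' : ℝ) - z := by
      push_cast; ring
    have e2 : z0 k' + (z - z0 k') = z := by ring
    have e3 : z0 k' + (z' - z0 k') = z' := by ring
    simp only [e1, e2, e3]
    have h5 : β * ((z' : ℝ) - z) ≤ |β| * |(z' : ℝ) - z| := by
      rw [← abs_mul]; exact le_abs_self _
    have h6 : 0 ≤ passageTime t ((k' : ℤ), z) ((k' : ℤ), z') := K.pt_nonneg hN _ _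
    have h7 : κ * |(z' : ℝ) - z| = |β| * |(z' : ℝ) - z| + a / 2 * |(z' : ℝ) - z| := by
      rw [hκ]; ring
    constructor
    · rw [h7]; linarith
    · rw [h7]; linarith
  have hEvp : ∀ k ij, (iidLaw G).real (Ev k ij) ≤ C * κ ^ 6 * (1 / δ) ^ 6 := by
    intro k ij
    by_cases hcase : δ < κ * |(ij.2 : ℝ) - ij.1|
    · obtain ⟨n, hn⟩ : ∃ n : ℕ, |ij.2 - ij.1| = n :=
        ⟨(ij.2 - ij.1).natAbs, Int.abs_eq_natAbs _⟩
      have hnr : |(ij.2 : ℝ) - ij.1| = n := by
        have h1 : ((|ij.2 - ij.1| : ℤ) : ℝ) = ((n : ℤ) : ℝ) := by rw [hn]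
        push_cast at h1
        exact h1
      have hn1 : 1 ≤ n := by
        rcases Nat.eq_zero_or_pos n with h | h
        · rw [hnr, h] at hcase
          simp only [Nat.cast_zero, mul_zero] at hcase
          linarith
        · exact h
      have h1 := prob_col_le H hκ hC (k : ℤ) (z0 k + ij.1) (z0 k + ij.2) n hn1
        (by rw [add_sub_add_left_eq_sub]; exact hn)
      have h2 : (iidLaw G).real (Ev k ij) ≤ C / (n : ℝ) ^ 6 := by
        refine le_trans (measureReal_mono ?_ (measure_ne_top _ _)) h1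
        rintro t ⟨g1, g2, g3⟩
        rw [hnr] at g3
        exact ⟨g1, g3⟩
      refine h2.trans ?_
      rw [hnr] at hcase
      have hn0 : (0 : ℝ) < n := by exact_mod_cast hn1
      have h3 : δ / κ ≤ n := by
        rw [div_le_iff₀ hκ0]; linarith
      have h4 : (δ / κ) ^ 6 ≤ (n : ℝ) ^ 6 := pow_le_pow_left₀ (by positivity) h3 6
      have h5 : C / (n : ℝ) ^ 6 ≤ C / (δ / κ) ^ 6 :=
        div_le_div_of_nonneg_left hC0 (by positivity) h4
      refine h5.trans (le_of_eq ?_)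
      field_simp
    · have : Ev k ij = ∅ := by
        ext t
        simp only [hEv, Set.mem_ofPred_eq, Set.mem_empty_iff_false, iff_false]
        tauto
      rw [this]
      simp only [measureReal_empty]
      positivity
  have hcardI : (I.card : ℝ) ≤ 2 * w + 5 := by
    rw [hI, Int.card_Icc]
    have h1 : ((W' : ℤ) + 1 - -(W' : ℤ)).toNat = 2 * W' + 1 := by omega
    rw [h1]
    have h2 : (⌈w⌉₊ : ℝ) < w + 1 := Nat.ceil_lt_add_one hw
    push_cast [hW']
    linarith
  calc (iidLaw G).real (ColOK s β (a / 2) u w δ N)ᶜ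
      ≤ (iidLaw G).real (⋃ k ∈ Finset.range (N + 1), ⋃ ij ∈ I ×ˢ I, Ev k ij) +
        (iidLaw G).real {t | ¬ Nn t} :=
        (measureReal_mono hsub (measure_ne_top _ _)).trans (measureReal_union_le _ _)
    _ = (iidLaw G).real (⋃ k ∈ Finset.range (N + 1), ⋃ ij ∈ I ×ˢ I, Ev k ij) := by
        rw [real_not_Nn G H.nn, add_zero]
    _ ≤ ∑ k ∈ Finset.range (N + 1), ∑ ij ∈ I ×ˢ I, (iidLaw G).real (Ev k ij) :=
        (measureReal_biUnion_finset_le _ _).trans
          (Finset.sum_le_sum fun k _ => measureReal_biUnion_finset_le _ _)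
    _ ≤ ∑ _k ∈ Finset.range (N + 1), ∑ _ij ∈ I ×ˢ I, C * κ ^ 6 * (1 / δ) ^ 6 :=
        Finset.sum_le_sum fun k _ => Finset.sum_le_sum fun ij _ => hEvp k ij
    _ = (N + 1) * ((I.card : ℝ) ^ 2 * (C * κ ^ 6 * (1 / δ) ^ 6)) := by
        rw [Finset.sum_const, Finset.sum_const, Finset.card_range, Finset.card_product,
          nsmul_eq_mul, nsmul_eq_mul]
        push_cast; ring
    _ ≤ (N + 1) * ((2 * w + 5) ^ 2 * (C * κ ^ 6 * (1 / δ) ^ 6)) := by
        have h1 : (I.card : ℝ) ^ 2 ≤ (2 * w + 5) ^ 2 := pow_le_pow_left₀ (by positivity) hcardI 2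
        have h2 : 0 ≤ C * κ ^ 6 * (1 / δ) ^ 6 := by positivity
        exact mul_le_mul_of_nonneg_left (mul_le_mul_of_nonneg_right h1 h2) (by positivity)
    _ = (N + 1) * (2 * w + 5) ^ 2 * (C * κ ^ 6 * (1 / δ) ^ 6) := by ring

end

end Crest.Agent.R151.X
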