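import Crest.Agent.R151.A565g
import Crest.Agent.R151.X684h
import Mathlib
import Crest.Agent.R151.M51C
import Crest.Agent.R151.U750b
import Crest.Agent.R151.K5
import Crest.Agent.R151.U750c

-- ▼ part R151/A565h
section

/-!
# R151, block A (helper565): gap crossings and the free search, general law
-/

set_option autoImplicit false

open MeasureTheory ProbabilityTheory Filter Topology
open Crest.ProbabilityR.FirstPassage
open Crest.Agent.R151.K Crest.Agent.R151.M51
open scoped ENNReal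

namespace Crest.Agent.R151.A

variable {G : Measure ℝ} [IsProbabilityMeasure G]

/-- **the gap estimate** -/
theorem gapUp (hG : Law213 G) {φ : ℝ → ℝ} (hφ : ∀ s : ℝ,
      Tendsto (fun n : ℕ => (∫ t, passageTime t (0, 0) ((n : ℤ), ⌊n * s⌋) ∂(iidLaw G)) / n)
      atTop (𝓝 (φ s))) {s p q : ℝ} (hs : φ s = p + q * s)
    (hq : ∀ ε > 0, ∃ δ > 0, φ (s + δ) ≤ p + q * (s + δ) + ε * δ) :
    GapUp G p q (C1 G + |q|) := by
  intro ε hε
  obtain ⟨δ, hδ, hqδ⟩ := hq (ε / 4) (by positivity)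
  have hε2 : 0 < ε * δ / 8 := by positivity
  obtain ⟨A, hA0, hA⟩ := strip_dir hG (hφ s) hε2
  obtain ⟨B, hB0, hB⟩ := strip_dir hG (hφ (s + δ)) hε2
  set C := C1 G with hC
  have hC0 : 0 ≤ C := C1_nonneg
  -- the constant
  set D : ℝ := A + B + C * (4 * |s| + δ + 3) + |q| * (1 + 4 * |s| + δ) + 4 * |p| + 9 * (ε * δ / 8)
    with hD
  have hD0 : 0 ≤ D := by positivity
  refine ⟨max 0 (D / (ε / 2)), fun W hW => ?_⟩
  have hW0 : 0 ≤ W := (le_max_left _ _).trans hW
  have hWD : D ≤ W * (ε / 2) := by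
    have := (le_max_right _ _).trans hW
    rwa [div_le_iff₀ (by positivity)] at this
  set g' : ℕ := ⌈W / δ⌉₊ + 8 with hg'
  set g : ℤ := (g' : ℤ) with hg
  set b0 : ℤ := ⌊(g : ℝ) * s⌋ with hb0
  have hg8 : (8 : ℤ) ≤ g := by rw [hg, hg']; push_cast; linarith [Int.natCast_nonneg ⌈W / δ⌉₊]
  have hgW : (g : ℝ) ≤ W / δ + 9 := by
    have := (Nat.ceil_lt_add_one (show 0 ≤ W / δ by positivity)).le
    rw [hg, hg']; push_cast; linarith
  have hgW2 : W / δ + 8 ≤ (g : ℝ) := by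
    have := Nat.le_ceil (W / δ)
    rw [hg, hg']; push_cast; linarith
  have hsl0 : ((0 : ℤ), (0 : ℤ)) ∈ sl 0 (g - 1) := ⟨le_rfl, by simp; omega⟩
  have hend : ∀ h : ℕ, (g - 4, b0 + (h : ℤ)) ∈ sl 0 (g - 1) := fun h =>
    ⟨by simp; omega, by simp⟩
  have hab : (0 : ℤ) + 2 ≤ g - 1 := by omega
  -- the estimate for small heights
  have small : ∀ h : ℕ, (h : ℝ) ≤ W →
      eD G 0 (g - 1) (0, 0) (g - 4, b0 + (h : ℤ)) ≤ p * g + q * (b0 + h) + ε * W := by
    intro h hh
    set m2 : ℕ := ⌊(h : ℝ) / δ⌋₊ with hm2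
    have hm2a : (m2 : ℝ) * δ ≤ h := by
      have := Nat.floor_le (show 0 ≤ (h : ℝ) / δ by positivity)
      rwa [le_div_iff₀ hδ] at this
    have hm2b : (h : ℝ) ≤ m2 * δ + δ := by
      have := (Nat.lt_floor_add_one ((h : ℝ) / δ)).le
      rw [div_le_iff₀ hδ] at this
      linarith
    have hm2g : m2 + 8 ≤ g' := by
      have h1 : m2 ≤ ⌊W / δ⌋₊ := Nat.floor_le_floor (by gcongr)
      have h2 : ⌊W / δ⌋₊ ≤ ⌈W / δ⌉₊ := Nat.floor_le_ceil _
      omega
    set m1 : ℕ := g' - 4 - m2 with hm1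
    have hm12 : (m1 : ℤ) + m2 = g - 4 := by omega
    have hm12r : (m1 : ℝ) + m2 = g - 4 := by exact_mod_cast hm12
    set x1 : ℤ × ℤ := (0, 0) + ((m1 : ℤ), ⌊(m1 : ℝ) * s⌋) with hx1
    set x2 : ℤ × ℤ := x1 + ((m2 : ℤ), ⌊(m2 : ℝ) * (s + δ)⌋) with hx2
    have hx1s : x1 ∈ sl 0 (g - 1) := by
      constructor <;> simp only [hx1, Prod.fst_add] <;> omega
    have hx2s : x2 ∈ sl 0 (g - 1) := by
      constructor <;> simp only [hx2, hx1, Prod.fst_add] <;> omega
    have q1 := hA m1 0 (g - 1) hab (0, 0) le_rfl (by simp; omega)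
    have q2 := hB m2 0 (g - 1) hab x1 hx1s.1 (by simp only [hx1, Prod.fst_add]; omega)
    have q3 := eD_le_n1 hG hab hx2s (hend h)
    have e3 : (g - 4, b0 + (h : ℤ)) - x2 =
        (0, b0 + (h : ℤ) - ⌊(m1 : ℝ) * s⌋ - ⌊(m2 : ℝ) * (s + δ)⌋) := by
      ext
      · simp only [hx2, hx1, Prod.fst_sub, Prod.fst_add]; omega
      · simp only [hx2, hx1, Prod.snd_sub, Prod.snd_add]; ring
    have q4 : (n1 ((g - 4, b0 + (h : ℤ)) - x2) : ℝ) ≤ 4 * |s| + δ + 3 := by
      rw [e3]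
      have e4 : (n1 ((0 : ℤ), b0 + (h : ℤ) - ⌊(m1 : ℝ) * s⌋ - ⌊(m2 : ℝ) * (s + δ)⌋) : ℝ) =
          |(b0 : ℝ) + h - ⌊(m1 : ℝ) * s⌋ - ⌊(m2 : ℝ) * (s + δ)⌋| := by
        simp [n1, Nat.cast_natAbs]
      rw [e4]
      have f1 := Int.floor_le ((g : ℝ) * s)
      have f2 := Int.lt_floor_add_one ((g : ℝ) * s)
      have f3 := Int.floor_le ((m1 : ℝ) * s)
      have f4 := Int.lt_floor_add_one ((m1 : ℝ) * s)
      have f5 := Int.floor_le ((m2 : ℝ) * (s + δ))
      have f6 := Int.lt_floor_add_one ((m2 : ℝ) * (s + δ))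
      rw [← hb0] at f1 f2
      have f7 : (g : ℝ) * s = m1 * s + m2 * s + 4 * s := by
        have : (g : ℝ) = m1 + m2 + 4 := by linarith
        rw [this]; ring
      have f8 := neg_abs_le s
      have f9 := le_abs_self s
      rw [abs_le]
      constructor <;> linarith
    have t1 := eD_tri hG hab hsl0 hx1s hx2s
    have t2 := eD_tri hG hab hsl0 hx2s (hend h)
    have q5 : (n1 ((g - 4, b0 + (h : ℤ)) - x2) : ℝ) * C ≤ (4 * |s| + δ + 3) * C :=
      mul_le_mul_of_nonneg_right q4 hC0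
    have q6 : (m2 : ℝ) * φ (s + δ) ≤ m2 * (p + q * (s + δ) + ε / 4 * δ) := by gcongr
    have q7 : ε / 4 * (m2 * δ) ≤ ε / 4 * W := by
      have : (m2 : ℝ) * δ ≤ W := hm2a.trans hh
      gcongr
    have q8 : (g : ℝ) * (ε * δ / 8) ≤ ε * W / 8 + 9 * (ε * δ / 8) := by
      have : (g : ℝ) * (ε * δ / 8) ≤ (W / δ + 9) * (ε * δ / 8) := by gcongr
      refine this.trans (le_of_eq ?_)
      field_simp
    have q9 : q * (s * (g - 4) + δ * m2) - |q| * (1 + 4 * |s| + δ) ≤ q * (b0 + h) := by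
      have f1 := Int.floor_le ((g : ℝ) * s)
      have f2 := Int.lt_floor_add_one ((g : ℝ) * s)
      rw [← hb0] at f1 f2
      have r1 : |(b0 : ℝ) + h - (s * (g - 4) + δ * m2)| ≤ 1 + 4 * |s| + δ := by
        have f8 := neg_abs_le s
        have f9 := le_abs_self s
        rw [abs_le]
        constructor <;> linarith
      have r2 : |q * ((b0 : ℝ) + h - (s * (g - 4) + δ * m2))| ≤ |q| * (1 + 4 * |s| + δ) := by
        rw [abs_mul]; gcongr
      have r3 := neg_abs_le (q * ((b0 : ℝ) + h - (s * (g - 4) + δ * m2)))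
      linarith
    have q10 : -(4 * |p|) ≤ 4 * p := by linarith [neg_abs_le p]
    have hg4 : (g : ℝ) - 4 = m1 + m2 := by linarith
    have e5 : (m1 : ℝ) * (φ s + ε * δ / 8) + m2 * (φ (s + δ) + ε * δ / 8) =
        m1 * φ s + m2 * φ (s + δ) + (g - 4) * (ε * δ / 8) := by rw [hg4]; ring
    have e6 : (m1 : ℝ) * φ s + m2 * (p + q * (s + δ) + ε / 4 * δ) =
        p * (g - 4) + q * (s * (g - 4) + δ * m2) + ε / 4 * (m2 * δ) := by rw [hs, hg4]; ring
    have hεδ : 0 < ε * δ := by positivity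
    linarith
  refine ⟨g, b0, fun h t => pR t (sl 0 (g - 1)) (0, 0) (g - 4, b0 + (h : ℤ)), hg8,
    fun h => measurable_pR _ _ _, ?_, fun h => integrable_sl hG hab hsl0 (hend h), ?_, ?_⟩
  · intro h t t' htt
    refine pR_congr (fun x hx y hy => htt _ ?_) _ _
    rw [mem_sl] at hx hy
    simp only [block, Set.mem_ofPred_eq, eX_mk]
    omega
  · intro h
    filter_upwards [ae_Nn hG.h0] with t ht
    exact pt_le_pR ht (conn_sl hsl0 (hend h))
  · intro h
    by_cases hh : W < (h : ℝ)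
    · simp only [hh, if_true]
      set h' : ℕ := ⌊W⌋₊ with hh'
      have a1 : (h' : ℝ) ≤ W := Nat.floor_le hW0
      have a2 := small h' a1
      have a3 := eD_tri hG hab hsl0 (hend h') (hend h)
      have a4 := eD_le_n1 hG hab (hend h') (hend h)
      have a5 : (n1 ((g - 4, b0 + (h : ℤ)) - (g - 4, b0 + (h' : ℤ))) : ℝ) = |(h : ℝ) - h'| := by
        simp [n1, Nat.cast_natAbs]
      have a6 : (h' : ℝ) ≤ h := a1.trans hh.le
      have a7 : |(h : ℝ) - h'| ≤ h := by
        rw [abs_of_nonneg (by linarith)]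
        linarith [(Nat.cast_nonneg h' : (0 : ℝ) ≤ h')]
      rw [a5] at a4
      have a8 : |(h : ℝ) - h'| * C ≤ h * C := mul_le_mul_of_nonneg_right a7 hC0
      have a9 : q * ((b0 : ℝ) + h') ≤ q * (b0 + h) + |q| * h := by
        have r2 : |q * ((h' : ℝ) - h)| ≤ |q| * h := by
          rw [abs_mul, abs_sub_comm]; gcongr
        have := le_abs_self (q * ((h' : ℝ) - h))
        linarith
      have a10 : ∫ t, pR t (sl 0 (g - 1)) (0, 0) (g - 4, b0 + (h : ℤ)) ∂(iidLaw G) =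
        eD G 0 (g - 1) (0, 0) (g - 4, b0 + (h : ℤ)) := rfl
      rw [a10]
      linarith
    · simp only [hh, if_false, mul_zero, add_zero]
      exact small h (not_lt.1 hh)

end Crest.Agent.R151.A
end

-- ▼ part R151/A565i
section

/-!
# R151, block A (helper565): local costs; the free search for every law of S0213
-/

set_option autoImplicit false

open MeasureTheory ProbabilityTheory Filter Topology
open Crest.ProbabilityR.FirstPassage
open Crest.Agent.R151.K Crest.Agent.R151.M51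
open scoped ENNReal

namespace Crest.Agent.R151.A

variable {G : Measure ℝ} [IsProbabilityMeasure G]

lemma locK_step (hG : Law213 G) {x y : ℤ × ℤ} (h : squareLattice.Adj x y) :
    MemLp (fun t => pR t (sbox x 3) x y) 2 (iidLaw G) := by
  refine ⟨(measurable_pR _ x y).aestronglyMeasurable, ?_⟩
  have h1 := lintegral_le_of_detours G (p := 2) (by norm_num) (detours_full h)
    (f := fun t => pR t (sbox x 3) x y) (by
      filter_upwards [ae_Nn hG.h0] with t ht w hw
      exact pR_le ht w hw)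
  have h2 : (9:ℝ≥0∞) ^ (2:ℝ) * (9:ℝ≥0∞) ^ 4 * mom G 4 2 < ⊤ := by
    refine ENNReal.mul_lt_top (ENNReal.mul_lt_top ?_ ?_) (mom_four_two hG.h0 hG.mom)
    · exact ENNReal.rpow_lt_top_of_nonneg (by norm_num) (by norm_num)
    · exact ENNReal.pow_lt_top (by norm_num)
  rw [eLpNorm_eq_lintegral_rpow_enorm_toReal (by norm_num) (by norm_num)]
  refine ENNReal.rpow_lt_top_of_nonneg (by positivity) (ne_of_lt ?_)
  refine lt_of_le_of_lt ?_ h2
  refine le_trans (le_of_eq ?_) h1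
  refine lintegral_congr_ae ?_
  filter_upwards [ae_Nn hG.h0] with t ht
  rw [Real.enorm_eq_ofReal (pR_nonneg ht _ _ _)]
  simp

theorem locK (hG : Law213 G) : LocK G := by
  set f : ℕ → Environment → ℝ := fun k t =>
    pR t (sbox ((k : ℤ) - 4, 0) 3) ((k : ℤ) - 4, 0) ((k : ℤ) - 3, 0) with hf
  have hadj : ∀ k : ℕ, squareLattice.Adj ((k : ℤ) - 4, (0 : ℤ)) ((k : ℤ) - 3, 0) := by
    intro k
    have := adj_right ((k : ℤ) - 4) 0
    rwa [show (k : ℤ) - 4 + 1 = k - 3 by ring] at this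
  have hL : ∀ k, MemLp (f k) 2 (iidLaw G) := fun k => locK_step hG (hadj k)
  refine ⟨fun t => ∑ k ∈ Finset.range 4, f k t, ?_, ?_, ?_, ?_⟩
  · exact Finset.measurable_fun_sum _ fun k _ => measurable_pR _ _ _
  · intro t t' htt
    refine Finset.sum_congr rfl fun k hk => ?_
    refine pR_congr (fun x hx y hy => htt _ ?_) _ _
    simp only [sbox, Set.mem_ofPred_eq, abs_le] at hx hy
    simp only [Set.mem_ofPred_eq, eX_mk]
    omega
  · have h1 : MemLp (fun t => ∑ k ∈ Finset.range 4, f k t) 2 (iidLaw G) :=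
      memLp_finsetSum _ fun k _ => hL k
    exact h1.integrable_sq
  · filter_upwards [ae_Nn hG.h0] with t ht
    have hc : ∀ k : ℕ, passageTime t ((k : ℤ) - 4, 0) ((k : ℤ) - 3, 0) ≤ f k t := by
      intro k
      refine pt_le_pR ht (Conn.adj (hadj k) ?_ ?_)
      · simp [sbox]
      · simp only [sbox, Set.mem_ofPred_eq, abs_le]
        constructor <;> constructor <;> omega
    have h0 := hc 0
    have h1 := hc 1
    have h2 := hc 2
    have h3 := hc 3
    norm_num at h0 h1 h2 h3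
    have t1 := pt_triangle ht (-4, 0) (-3, 0) (0, 0)
    have t2 := pt_triangle ht (-3, 0) (-2, 0) (0, 0)
    have t3 := pt_triangle ht (-2, 0) (-1, 0) (0, 0)
    simp only [Finset.sum_range_succ, Finset.sum_range_zero, zero_add]
    linarith

/-- **free search, every law of S0213.** `φ s = μ(1, s)` -/
theorem aStar (hG : Law213 G) {φ : ℝ → ℝ} (hφ : ∀ s : ℝ,
      Tendsto (fun n : ℕ => (∫ t, passageTime t (0, 0) ((n : ℤ), ⌊n * s⌋) ∂(iidLaw G)) / n)
      atTop (𝓝 (φ s))) {s p q : ℝ} (hρ : ∀ x : ℤ × ℤ, 0 ≤ x.1 →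
      p * x.1 + q * x.2 ≤ ∫ t, passageTime t (0, 0) x ∂(iidLaw G))
    (hs : φ s = p + q * s) (hq : ∀ ε > 0, ∃ δ > 0, φ (s + δ) ≤ p + q * (s + δ) + ε * δ) :
    AStar G p q (C1 G + |q| + 1) :=
  aStar_of_gapUp hG.h0 (integrable_pt' hG _ _) (integrable_pt' hG _ _) hρ
    (gapUp hG hφ hs hq) (locK hG)

end Crest.Agent.R151.A
end

-- ▼ part R151/X684i
section

/-!
# R151, block X (helper684), part i: the renormalisation inequality
-/

set_option autoImplicit false

open MeasureTheory ProbabilityTheory Filter Topology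
open Crest.ProbabilityR.FirstPassage
open Crest.Agent.R151.A (shift eShift block sig eX)
open Crest.Agent.R151.K (Nn)

namespace Crest.Agent.R151.X

variable {G : Measure ℝ} [IsProbabilityMeasure G] {s α β a : ℝ}

/-- good crossings of length `n` at energy `v`, uniformly in the base height -/
def Sgd (G : Measure ℝ) (s α β B v : ℝ) (n : ℕ) : Prop :=
  ∀ u, 9 / 10 ≤ (iidLaw G).real (Apt s α β u (B * v) v n)


/-- if `E` has probability at least `p` and is covered by `F` and bad events -/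
lemma le_real_of_cover {E F1 : Set Environment} {p q : ℝ} (Bd : Set Environment)
    (hE : p ≤ (iidLaw G).real E) (hB : (iidLaw G).real Bd ≤ q) (hsub : E ⊆ F1 ∪ Bd) :
    p - q ≤ (iidLaw G).real F1 := by
  have h1 := (measureReal_mono (μ := iidLaw G) hsub (measure_ne_top _ _)).trans
    (measureReal_union_le _ _)
  linarith

/-- good blocks give good point-to-point crossings -/
lemma prob_Apt_of_Blk (H : Inputs G s α β a) {u w L C v : ℝ} {n : ℕ} (hn : 1 ≤ n)
    (hL : 2 * L ≤ w)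
    (hB : 1 - 1 / 100 ≤ (iidLaw G).real (Blk s α β u w L v 0 n))
    (h1 : (iidLaw G).real (ConnL s u L C n)ᶜ ≤ 1 / 100)
    (h2 : (iidLaw G).real (ConnR s u L C n)ᶜ ≤ 1 / 100) :
    97 / 100 ≤ (iidLaw G).real (Apt s α β u w (v + 2 * (C * L + |β| * (L + 1))) n) := by
  have h3 : (iidLaw G).real (((ConnL s u L C n)ᶜ ∪ (ConnR s u L C n)ᶜ) ∪ {t | ¬ Nn t}) ≤
      2 / 100 := by
    refine (measureReal_union_le _ _).trans ?_
    rw [real_not_Nn G H.nn]
    have := measureReal_union_le (μ := iidLaw G) (ConnL s u L C n)ᶜ (ConnR s u L C n)ᶜ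
    linarith
  have h4 := le_real_of_cover (F1 := Apt s α β u w (v + 2 * (C * L + |β| * (L + 1))) n) _ hB h3
    (by
      intro t ht
      by_cases hN : Nn t
      swap
      · exact Or.inr (Or.inr hN)
      by_cases hc1 : t ∈ ConnL s u L C n
      swap
      · exact Or.inr (Or.inl (Or.inl hc1))
      by_cases hc2 : t ∈ ConnR s u L C n
      swap
      · exact Or.inr (Or.inl (Or.inr hc2))
      exact Or.inl (Apt_of_Blk hn hN hL ht hc1 hc2))
  linarith

/-- good crossings of length `m` give good crossings of smaller lengths -/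
lemma prob_sub (H : Inputs G s α β a) {u w L C v δ : ℝ} {k m N : ℕ} (hk : 1 ≤ k) (hkm : k < m)
    (hkN : k ≤ N) (hA : 97 / 100 ≤ (iidLaw G).real (Apt s α β u w v m))
    (hHW : ∀ n : ℕ, 1 ≤ n → ∀ u, (iidLaw G).real (HWbad s α β a u w δ 0 n) ≤ 1 / 100)
    (hcol : (iidLaw G).real (ColOK s β (a / 2) u w δ N)ᶜ ≤ 1 / 100)
    (hL : (v + 3 * δ + a) / a ≤ L) (hLw : 2 * L ≤ w)
    (h2 : (iidLaw G).real (ConnR s u L C k)ᶜ ≤ 1 / 100) :
    1 / 2 ≤ (iidLaw G).real (Apt s α β u w (v + 2 * δ + C * L + |β| * (L + 1)) k) := by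
  have h3 : (iidLaw G).real ((((HWbad s α β a u w δ 0 k) ∪ (HWbad s α β a u w δ k m)) ∪
      ((ColOK s β (a / 2) u w δ N)ᶜ ∪ (ConnR s u L C k)ᶜ)) ∪ {t | ¬ Nn t}) ≤ 4 / 100 := by
    refine (measureReal_union_le _ _).trans ?_
    rw [real_not_Nn G H.nn]
    have i1 := measureReal_union_le (μ := iidLaw G)
      ((HWbad s α β a u w δ 0 k) ∪ (HWbad s α β a u w δ k m))
      ((ColOK s β (a / 2) u w δ N)ᶜ ∪ (ConnR s u L C k)ᶜ)
    have i2 := measureReal_union_le (μ := iidLaw G) (HWbad s α β a u w δ 0 k)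
      (HWbad s α β a u w δ k m)
    have i3 := measureReal_union_le (μ := iidLaw G) (ColOK s β (a / 2) u w δ N)ᶜ
      (ConnR s u L C k)ᶜ
    have i4 := hHW k hk u
    have i5 := prob_HWbad_le G (n := m - k) (hHW (m - k) (by omega)) u (k : ℤ) (m : ℤ)
      (by omega)
    linarith
  have h4 := le_real_of_cover
    (F1 := Apt s α β u w (v + 2 * δ + C * L + |β| * (L + 1)) k) _ hA h3
    (by
      intro t ht
      by_cases hN : Nn t
      swap
      · exact Or.inr (Or.inr hN)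
      by_cases hc1 : t ∈ HWbad s α β a u w δ 0 k
      · exact Or.inr (Or.inl (Or.inl (Or.inl hc1)))
      by_cases hc2 : t ∈ HWbad s α β a u w δ k m
      · exact Or.inr (Or.inl (Or.inl (Or.inr hc2)))
      by_cases hc3 : t ∈ ColOK s β (a / 2) u w δ N
      swap
      · exact Or.inr (Or.inl (Or.inr (Or.inl hc3)))
      by_cases hc4 : t ∈ ConnR s u L C k
      swap
      · exact Or.inr (Or.inl (Or.inr (Or.inr hc4)))
      exact Or.inl (sub_det hN H.a_pos hk hkm hkN ht hc1 hc2 hc3 hL hLw hc4))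
  linarith

/-- confinement, probabilistic form -/
lemma prob_confine (H : Inputs G s α β a) {u w w' v v6 δ D : ℝ} {m N : ℕ} (hm : 1 ≤ m)
    (hmN : m ≤ N) (hw : 1 ≤ w) (hδ : 0 ≤ δ) (hv6 : 0 ≤ v6)
    (hA : 97 / 100 ≤ (iidLaw G).real (Apt s α β u w v m))
    (hA6 : ∀ n ≤ m, 1 / 2 ≤ (iidLaw G).real (Apt s α β 0 w v6 n))
    (hHW : (iidLaw G).real (HWbad s α β a u (2 * w + 1) δ 0 m) ≤ 1 / 100)
    (hcol : (iidLaw G).real (ColOK s β (a / 2) u w δ N)ᶜ ≤ 1 / 100)
    (hD : v6 + δ + 2 * a ≤ D) (hw' : 2 * (v + 2 * D + 2 * δ) / a ≤ w') :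
    9 / 10 ≤ (iidLaw G).real (Apt s α β u w' v m) := by
  have ha := H.a_pos
  have j1 := prob_badL_le G ha hw hA6 hHW hD
  have j2 := prob_badR_le G ha hw hA6 hHW hD
  have h3 : (iidLaw G).real ((({t | ∃ k : ℕ, 1 ≤ k ∧ k ≤ m ∧ ∃ z : ℤ,
      t ∈ BadLk s α β a u w D k z} ∪
      {t | ∃ k : ℕ, k < m ∧ ∃ z : ℤ, t ∈ BadRk s α β a u w D m k z}) ∪
      (ColOK s β (a / 2) u w δ N)ᶜ) ∪ {t | ¬ Nn t}) ≤ 5 / 100 := by
    refine (measureReal_union_le _ _).trans ?_
    rw [real_not_Nn G H.nn]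
    have i1 := measureReal_union_le (μ := iidLaw G) ({t | ∃ k : ℕ, 1 ≤ k ∧ k ≤ m ∧ ∃ z : ℤ,
      t ∈ BadLk s α β a u w D k z} ∪
      {t | ∃ k : ℕ, k < m ∧ ∃ z : ℤ, t ∈ BadRk s α β a u w D m k z})
      (ColOK s β (a / 2) u w δ N)ᶜ
    have i2 := measureReal_union_le (μ := iidLaw G) {t | ∃ k : ℕ, 1 ≤ k ∧ k ≤ m ∧ ∃ z : ℤ,
      t ∈ BadLk s α β a u w D k z} {t | ∃ k : ℕ, k < m ∧ ∃ z : ℤ, t ∈ BadRk s α β a u w D m k z}
    linarith
  have h4 := le_real_of_cover (F1 := Apt s α β u w' v m) _ hA h3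
    (by
      intro t ht
      by_cases hN : Nn t
      swap
      · exact Or.inr (Or.inr hN)
      by_cases hc1 : ∃ k : ℕ, 1 ≤ k ∧ k ≤ m ∧ ∃ z : ℤ, t ∈ BadLk s α β a u w D k z
      · exact Or.inr (Or.inl (Or.inl (Or.inl hc1)))
      by_cases hc2 : ∃ k : ℕ, k < m ∧ ∃ z : ℤ, t ∈ BadRk s α β a u w D m k z
      · exact Or.inr (Or.inl (Or.inl (Or.inr hc2)))
      by_cases hc3 : t ∈ ColOK s β (a / 2) u w δ N
      swap
      · exact Or.inr (Or.inl (Or.inr hc3))
      exact Or.inl (confine_det hN ha hm hmN hw hδ (by linarith) ht hc1 hc2 hc3 hw'))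
  linarith

/-- one renormalisation step with all constants made explicit as hypotheses -/
lemma renorm_step (H : Inputs G s α β a) {ν c3 C l1 l2 v5 v6 D w' W w4 δ Λ e l : ℝ}
    {M m K0 N : ℕ} {B K' : ℝ}
    (hM : 1 ≤ M) (hm : 1 ≤ m) (he : 1 ≤ e) (hν : 0 < ν) (hB : 1 ≤ B)
    (hW : W = B * (M * e)) (hW1 : 1 ≤ W) (hw4 : w4 = 3 * W + 1) (hδ : δ = e / 100)
    (hΛ : Λ = c3 * e) (hc3 : 3 / ν * (2 + 3 / a) ≤ c3) (hΛW : Λ ≤ W)
    (hl1 : 2 * Λ + 1 ≤ l1) (hl1w : 2 * l1 ≤ w4)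
    (hv5 : Λ + 2 * (C * l1 + |β| * (l1 + 1)) ≤ v5)
    (hl2 : (v5 + 3 * δ + a) / a ≤ l2) (hl2w : 2 * l2 ≤ w4)
    (hv6 : v5 + 2 * δ + C * l2 + |β| * (l2 + 1) ≤ v6) (hv56 : v5 ≤ v6) (hv60 : 0 ≤ v6)
    (hD : v6 + δ + 2 * a ≤ D) (hw' : 2 * (v5 + 2 * D + 2 * δ) / a ≤ w')
    (hl : 0 < l)
    (hnu : Real.exp (l * (ν * M)) * ((1 + Real.exp (-l)) / (1 - Real.exp (-l))) ^ M *
        (Real.exp (ν * M) * (1 - (1 - Real.exp (-1)) * (1 / 100)) ^ M) ≤ 1 / 4)
    (hN : N = M * m)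
    (hHW : ∀ b, W ≤ b → b ≤ 9 * W → ∀ n : ℕ, 1 ≤ n → ∀ u,
      (iidLaw G).real (HWbad s α β a u b δ 0 n) ≤ min (1 / (20 * (M : ℝ))) (1 / 100))
    (hcol : ∀ u, (iidLaw G).real (ColOK s β (a / 2) u w4 δ N)ᶜ ≤ 1 / 100)
    (hconn1 : ∀ n : ℕ, K0 ≤ n → 1 ≤ n → ∀ u, (iidLaw G).real (ConnL s u l1 C n)ᶜ ≤ 1 / 100 ∧
      (iidLaw G).real (ConnR s u l1 C n)ᶜ ≤ 1 / 100)
    (hconn2 : ∀ n : ℕ, K0 ≤ n → 1 ≤ n → ∀ u, (iidLaw G).real (ConnR s u l2 C n)ᶜ ≤ 1 / 100)
    (hshort : ∀ n : ℕ, 1 ≤ n → n ≤ K0 → ∀ u, 1 - 1 / 10 ≤ (iidLaw G).real (Apt s α β u K' K' n))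
    (hK'1 : K' ≤ w4) (hK'2 : K' ≤ v6)
    (hmK0 : K0 ≤ m)
    (hlong : ∀ u, 9 / 10 ≤ (iidLaw G).real (Apt s α β u (B * (M * e)) (M * e) (M * m))) :
    ∀ u, 9 / 10 ≤ (iidLaw G).real (Apt s α β u w' v5 m) := by
  have ha := H.a_pos
  have hM0 : (1 : ℝ) ≤ M := by exact_mod_cast hM
  have hδ0 : 0 ≤ δ := by rw [hδ]; positivity
  have hmN : m ≤ N := by rw [hN]; exact Nat.le_mul_of_pos_left _ hM
  have hw41 : 1 ≤ w4 := by linarith
  have hWw4 : W ≤ w4 := by linarith
  have hw49 : w4 ≤ 9 * W := by linarith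
  have h2w49 : 2 * w4 + 1 ≤ 9 * W := by linarith
  have hHW100 : ∀ b, W ≤ b → b ≤ 9 * W → ∀ n : ℕ, 1 ≤ n → ∀ u,
      (iidLaw G).real (HWbad s α β a u b δ 0 n) ≤ 1 / 100 :=
    fun b h1 h2 n h3 u => (hHW b h1 h2 n h3 u).trans (min_le_right _ _)
  -- (1) a good block at some height
  have hblk : ∃ u', 1 - 1 / 100 ≤ (iidLaw G).real (Blk s α β u' (3 * W) (2 * Λ) Λ 0 m) := by
    refine exists_good_block G H.nn (u := 0) (W := W) (e := e) (δ := δ) (ν := ν) (v := M * e)
      (l := l) (M := M) ha hm hM he hW1 hδ le_rfl hΛW hν ?_ (by norm_num) hl hnu ?_ ?_ ?_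
    · rw [hΛ]; exact mul_le_mul_of_nonneg_right hc3 (by linarith)
    · rw [hW]; exact hlong 0
    · intro u
      exact (hHW W le_rfl (by linarith) m hm u).trans (min_le_left _ _)
    · rw [← hN]
      refine (measureReal_mono ?_ (measure_ne_top _ _)).trans ((hcol 0).trans (by norm_num))
      exact Set.compl_subset_compl.2 (ColOK_anti hWw4 le_rfl le_rfl)
  obtain ⟨u', hu'⟩ := hblk
  have hblk_all : ∀ u, 1 - 1 / 100 ≤ (iidLaw G).real (Blk s α β u w4 l1 Λ 0 m) := by
    intro u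
    refine (Blk_all G hu' u).trans (measureReal_mono ?_ (measure_ne_top _ _))
    exact Blk_mono (by rw [hw4]) hl1 le_rfl
  -- (2) point-to-point crossings
  have hA5 : ∀ u, 97 / 100 ≤ (iidLaw G).real (Apt s α β u w4 v5 m) := by
    intro u
    refine (prob_Apt_of_Blk H hm hl1w (hblk_all u) (hconn1 m hmK0 hm u).1
      (hconn1 m hmK0 hm u).2).trans (measureReal_mono ?_ (measure_ne_top _ _))
    exact Apt_mono le_rfl hv5
  -- (3) all smaller lengths
  have hA6 : ∀ n ≤ m, 1 / 2 ≤ (iidLaw G).real (Apt s α β 0 w4 v6 n) := by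
    intro n hn
    rcases Nat.eq_zero_or_pos n with hn0 | hn0
    · subst hn0
      have : Apt s α β 0 w4 v6 0 = Set.univ := by
        ext t
        simp only [Set.mem_univ, iff_true]
        show CrE _ _ _ _ _ _ _
        have h1 : (((0 : ℕ) : ℤ), ⌊(0 : ℝ) + s * ((0 : ℕ) : ℝ)⌋) = ((0 : ℤ), ⌊(0 : ℝ)⌋) := by
          simp
        rw [h1]
        exact Cr.refl _ (by simpa using hv60) t
      rw [this, probReal_univ]
      norm_num
    · rcases le_or_gt n K0 with h1 | h1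
      · have h2 := hshort n hn0 h1 0
        have h3 := h2.trans (measureReal_mono (Apt_mono (n := n) (s := s) (α := α) (β := β)
          (u := 0) hK'1 hK'2) (measure_ne_top _ _))
        linarith
      · rcases hn.eq_or_lt with h2 | h2
        · subst h2
          have h3 := (hA5 0).trans (measureReal_mono (Apt_mono (s := s) (α := α) (β := β)
            (u := 0) (n := n) le_rfl hv56) (measure_ne_top _ _))
          linarith
        · have h3 := prob_sub H (u := 0) (C := C) hn0 h2 (h2.le.trans hmN) (hA5 0)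
            (hHW100 w4 hWw4 hw49) (hcol 0) hl2 hl2w (hconn2 n h1.le hn0 0)
          refine h3.trans (measureReal_mono (Apt_mono le_rfl hv6) (measure_ne_top _ _))
  -- (4) confinement
  intro u
  exact prob_confine H hm hmN hw41 hδ0 hv60 (hA5 u) hA6
    (hHW100 (2 * w4 + 1) (by linarith) h2w49 m hm u) (hcol u) hD hw'

end Crest.Agent.R151.X
end

-- ▼ part R151/X684j
section

/-!
# R151, block X (helper684), part j: renormalisation with constants, and the contradiction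
-/

set_option autoImplicit false

open MeasureTheory ProbabilityTheory Filter Topology
open Crest.ProbabilityR.FirstPassage
open Crest.Agent.R151.A (shift eShift block sig eX)
open Crest.Agent.R151.K (Nn)

namespace Crest.Agent.R151.X

set_option maxHeartbeats 400000

variable {G : Measure ℝ} [IsProbabilityMeasure G] {s α β a : ℝ}

lemma exists_consts {a C b c3 : ℝ} (ha : 0 < a) (hC : 0 ≤ C) (hb : 0 ≤ b) (hc3 : 6 ≤ c3) :
    ∃ q1 q2 q5 q6 qD q8 B : ℝ, 1 ≤ q1 ∧ 1 ≤ q2 ∧ 6 ≤ q5 ∧ q5 ≤ q6 ∧ 0 ≤ q8 ∧ 1 ≤ B ∧ c3 ≤ B ∧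
      q1 ≤ B ∧ q2 ≤ B ∧ q8 ≤ B ∧
      (∀ e : ℝ, 1 ≤ e → 2 * (c3 * e) + 1 ≤ q1 * e) ∧
      (∀ e : ℝ, 1 ≤ e → c3 * e + 2 * (C * (q1 * e) + b * (q1 * e + 1)) ≤ q5 * e) ∧
      (∀ e : ℝ, 1 ≤ e → (q5 * e + 3 * (e / 100) + a) / a ≤ q2 * e) ∧
      (∀ e : ℝ, 1 ≤ e → q5 * e + 2 * (e / 100) + C * (q2 * e) + b * (q2 * e + 1) ≤ q6 * e) ∧
      (∀ e : ℝ, 1 ≤ e → q6 * e + e / 100 + 2 * a ≤ qD * e) ∧
      (∀ e : ℝ, 1 ≤ e → 2 * (q5 * e + 2 * (qD * e) + 2 * (e / 100)) / a ≤ q8 * e) := by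
  obtain ⟨q1, hq1⟩ : ∃ q1 : ℝ, q1 = 2 * c3 + 1 := ⟨_, rfl⟩
  have hq11 : 1 ≤ q1 := by linarith
  obtain ⟨q5, hq5⟩ : ∃ q5 : ℝ, q5 = c3 + 2 * (C * q1 + b * (q1 + 1)) := ⟨_, rfl⟩
  have hq56 : 6 ≤ q5 := by
    have : 0 ≤ 2 * (C * q1 + b * (q1 + 1)) := by positivity
    linarith
  obtain ⟨q2, hq2⟩ : ∃ q2 : ℝ, q2 = (q5 + 3 / 100 + a) / a := ⟨_, rfl⟩
  have hq21 : 1 ≤ q2 := by
    rw [hq2, le_div_iff₀ ha]; linarith
  obtain ⟨q6, hq6⟩ : ∃ q6 : ℝ, q6 = q5 + 2 / 100 + C * q2 + b * (q2 + 1) := ⟨_, rfl⟩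
  have hq65 : q5 ≤ q6 := by
    have : 0 ≤ C * q2 + b * (q2 + 1) := by positivity
    linarith
  obtain ⟨qD, hqD⟩ : ∃ qD : ℝ, qD = q6 + 1 / 100 + 2 * a := ⟨_, rfl⟩
  obtain ⟨q8, hq8⟩ : ∃ q8 : ℝ, q8 = 2 * (q5 + 2 * qD + 2 / 100) / a := ⟨_, rfl⟩
  have hq80 : 0 ≤ q8 := by
    have : 0 ≤ q5 + 2 * qD + 2 / 100 := by linarith
    rw [hq8]; positivity
  refine ⟨q1, q2, q5, q6, qD, q8, q8 + q1 + q2 + c3 + 1, hq11, hq21, hq56, hq65, hq80,
    by linarith, by linarith, by linarith, by linarith, by linarith, ?_, ?_, ?_, ?_, ?_, ?_⟩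
  · intro e he
    have : q1 * e = 2 * (c3 * e) + e := by rw [hq1]; ring
    linarith
  · intro e he
    have h1 : q5 * e = c3 * e + 2 * (C * (q1 * e) + b * (q1 * e + e)) := by rw [hq5]; ring
    have h2 : b * (q1 * e + 1) ≤ b * (q1 * e + e) := mul_le_mul_of_nonneg_left (by linarith) hb
    linarith
  · intro e he
    have h1 : q2 * e = (q5 * e + 3 / 100 * e + a * e) / a := by rw [hq2]; ring
    rw [h1]
    refine div_le_div_of_nonneg_right ?_ ha.le
    have : a ≤ a * e := le_mul_of_one_le_right ha.le he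
    linarith
  · intro e he
    have h1 : q6 * e = q5 * e + 2 / 100 * e + C * (q2 * e) + b * (q2 * e + e) := by
      rw [hq6]; ring
    have h2 : b * (q2 * e + 1) ≤ b * (q2 * e + e) := mul_le_mul_of_nonneg_left (by linarith) hb
    linarith
  · intro e he
    have h1 : qD * e = q6 * e + 1 / 100 * e + 2 * (a * e) := by rw [hqD]; ring
    have : a ≤ a * e := le_mul_of_one_le_right ha.le he
    linarith
  · intro e he
    have h1 : q8 * e = 2 * (q5 * e + 2 * (qD * e) + 2 / 100 * e) / a := by rw [hq8]; ring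
    rw [h1]
    refine div_le_div_of_nonneg_right ?_ ha.le
    linarith

/-- arithmetic of the column estimate -/
lemma col_arith {Cb Cc e M B W : ℝ} {n : ℝ} (hCb : 0 ≤ Cb) (hCc : 0 ≤ Cc) (he : 1 ≤ e)
    (hM : 1 ≤ M) (hB : 1 ≤ B) (hW : W = B * (M * e)) (hn : 0 ≤ n)
    (h2 : n ≤ Cb * (M * e + W) ^ 3)
    (hKK : 100 * ((Cb * (M * (1 + B)) ^ 3 + 1) * (6 * (B * M) + 7) ^ 2 * (Cc * 100 ^ 6)) ≤ e) :
    (n + 1) * (2 * (3 * W + 1) + 5) ^ 2 * (Cc * (1 / (e / 100)) ^ 6) ≤ 1 / 100 := by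
  have he0 : 0 < e := by linarith
  have hW0 : 0 ≤ W := by rw [hW]; positivity
  have h3 : n + 1 ≤ (Cb * (M * (1 + B)) ^ 3 + 1) * e ^ 3 := by
    have h4 : (M * e + W) ^ 3 = (M * (1 + B)) ^ 3 * e ^ 3 := by rw [hW]; ring
    rw [h4] at h2
    have h5 : 1 ≤ e ^ 3 := one_le_pow₀ he
    have h6 : (Cb * (M * (1 + B)) ^ 3 + 1) * e ^ 3 = Cb * ((M * (1 + B)) ^ 3 * e ^ 3) + e ^ 3 := by
      ring
    rw [h6]; linarith
  have h4 : (2 * (3 * W + 1) + 5) ^ 2 ≤ (6 * (B * M) + 7) ^ 2 * e ^ 2 := by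
    rw [← mul_pow]
    refine pow_le_pow_left₀ (by linarith) ?_ 2
    have h5 : (6 * (B * M) + 7) * e = 6 * W + 7 * e := by rw [hW]; ring
    rw [h5]; linarith
  have h5 : (1 / (e / 100)) ^ 6 = 100 ^ 6 / e ^ 6 := by field_simp
  rw [h5]
  obtain ⟨KK, hK⟩ : ∃ KK : ℝ, KK = (Cb * (M * (1 + B)) ^ 3 + 1) * (6 * (B * M) + 7) ^ 2 *
    (Cc * 100 ^ 6) := ⟨_, rfl⟩
  rw [← hK] at hKK
  have h6 : (n + 1) * (2 * (3 * W + 1) + 5) ^ 2 * (Cc * (100 ^ 6 / e ^ 6)) ≤ KK / e := by
    have h7 : (n + 1) * (2 * (3 * W + 1) + 5) ^ 2 ≤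
        (Cb * (M * (1 + B)) ^ 3 + 1) * e ^ 3 * ((6 * (B * M) + 7) ^ 2 * e ^ 2) :=
      mul_le_mul h3 h4 (by positivity) (by positivity)
    refine (mul_le_mul_of_nonneg_right h7 (by positivity)).trans (le_of_eq ?_)
    rw [hK]
    field_simp
  refine h6.trans ?_
  rw [div_le_iff₀ he0]
  linarith

/-- **the renormalisation inequality** -/
theorem renorm (H : Inputs G s α β a) : ∃ Cs B : ℝ, 1 ≤ Cs ∧ 1 ≤ B ∧ ∃ M0 : ℕ,
    ∀ M : ℕ, M0 ≤ M → ∃ e0 : ℝ, ∀ m : ℕ, 1 ≤ m → ∀ e : ℝ, e0 ≤ e →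
      Sgd G s α β B (M * e) (M * m) → Sgd G s α β B (Cs * e) m := by
  have ha := H.a_pos
  obtain ⟨ν, hν0, hν1, M0, hM0⟩ := exists_nu (c := 1 / 100) (by norm_num) (by norm_num)
  obtain ⟨C, K0, L0, hC0, hconn⟩ := H.conn (1 / 100) (by norm_num)
  obtain ⟨K', hK'⟩ := H.short (1 / 10) (by norm_num) K0
  obtain ⟨Cb, b1, hCb0, hbase⟩ := base H
  obtain ⟨Cc, hCc0, hcolOK⟩ := prob_colOK H
  obtain ⟨c3, hc3⟩ : ∃ c3 : ℝ, c3 = 3 / ν * (2 + 3 / a) := ⟨_, rfl⟩
  have hc36 : 6 ≤ c3 := by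
    have h1 : 3 ≤ 3 / ν := by rw [le_div_iff₀ hν0]; linarith
    have h2 : 2 ≤ 2 + 3 / a := by
      have : 0 < 3 / a := by positivity
      linarith
    rw [hc3]
    calc (6 : ℝ) = 3 * 2 := by norm_num
      _ ≤ 3 / ν * (2 + 3 / a) := mul_le_mul h1 h2 (by norm_num) (by positivity)
  obtain ⟨q1, q2, q5, q6, qD, q8, B, hq11, hq21, hq56, hq65, hq80, hB1, hBc3, hBq1, hBq2, hBq8,
    k1, k2, k3, k4, k5, k6⟩ := exists_consts ha hC0 (abs_nonneg β) hc36
  refine ⟨q5 + 1, B, by linarith, hB1, max M0 1, fun M hM => ?_⟩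
  have hMM0 : M0 ≤ M := (le_max_left _ _).trans hM
  have hM1 : 1 ≤ M := (le_max_right _ _).trans hM
  have hM1r : (1 : ℝ) ≤ M := by exact_mod_cast hM1
  have hBM : 1 ≤ B * M := one_le_mul_of_one_le_of_one_le hB1 hM1r
  obtain ⟨l, hl, hnu⟩ := hM0 M hMM0
  obtain ⟨b0, hb0⟩ := H.hw (1 / (1000 * (B * M))) (by positivity)
    (min (1 / (20 * (M : ℝ))) (1 / 100)) (lt_min (by positivity) (by norm_num))
  obtain ⟨e0, h01, h02, h03, h04, h05, h06⟩ : ∃ e0 : ℝ, 1 ≤ e0 ∧ b0 ≤ e0 ∧ b1 ≤ e0 ∧ L0 ≤ e0 ∧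
      K' ≤ e0 ∧ 100 * ((Cb * (M * (1 + B)) ^ 3 + 1) * (6 * (B * M) + 7) ^ 2 *
        (Cc * 100 ^ 6)) ≤ e0 := by
    obtain ⟨KK, hKK⟩ : ∃ KK : ℝ, KK = 100 * ((Cb * (M * (1 + B)) ^ 3 + 1) *
      (6 * (B * M) + 7) ^ 2 * (Cc * 100 ^ 6)) := ⟨_, rfl⟩
    rw [← hKK]
    refine ⟨max 1 (max b0 (max b1 (max L0 (max K' KK)))), le_max_left _ _, ?_, ?_, ?_, ?_, ?_⟩ <;>
    simp only [le_max_iff, le_refl, true_or, or_true]
  refine ⟨e0, fun m hm e he hlong => ?_⟩
  have he1 : 1 ≤ e := h01.trans he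
  have he0 : 0 < e := by linarith
  obtain ⟨W, hW⟩ : ∃ W : ℝ, W = B * (M * e) := ⟨_, rfl⟩
  have hW' : W = (B * M) * e := by rw [hW]; ring
  have hWe : e ≤ W := by
    rw [hW']; exact le_mul_of_one_le_left he0.le hBM
  have hBBM : B ≤ B * M := le_mul_of_one_le_right (by linarith) hM1r
  have hcoef : ∀ q : ℝ, q ≤ B → q * e ≤ W := by
    intro q hq
    rw [hW']
    exact mul_le_mul_of_nonneg_right (hq.trans hBBM) he0.le
  have heq : ∀ q : ℝ, 1 ≤ q → e ≤ q * e := fun q hq => le_mul_of_one_le_left he0.le hq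
  have hq5e : e ≤ (q5 + 1) * e := heq _ (by linarith)
  have hBe : ∀ x : ℝ, 0 ≤ x → x ≤ B * x := fun x hx => le_mul_of_one_le_left hx hB1
  -- the case of short blocks
  rcases lt_or_ge m K0 with hmK0 | hmK0
  · intro u
    have h1 := hK' m hm hmK0.le u
    have h3 : K' ≤ (q5 + 1) * e := (h05.trans he).trans hq5e
    have h4 : K' ≤ B * ((q5 + 1) * e) := h3.trans (hBe _ (by linarith))
    have h2 := measureReal_mono (μ := iidLaw G) (Apt_mono (n := m) (s := s) (α := α) (β := β)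
      (u := u) h4 h3) (measure_ne_top _ _)
    linarith
  -- columns
  have hcol : ∀ u, (iidLaw G).real (ColOK s β (a / 2) u (3 * W + 1) (e / 100) (M * m))ᶜ ≤
      1 / 100 := by
    intro u
    have h1 := hcolOK (M * m) u (3 * W + 1) (e / 100) (by linarith) (by positivity)
    have h2 := hbase (M * m) (Nat.mul_pos hM1 hm) W (M * e) 0
      ((h03.trans he).trans hWe) (by positivity)
      (by have h3 := hlong 0; rw [← hW] at h3; exact h3)
    exact h1.trans (col_arith hCb0 hCc0 he1 hM1r hB1 hW (by positivity) h2 (h06.trans he))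
  have hq60 : 1 ≤ q6 := by linarith
  have hres := renorm_step H (M := M) (m := m) (e := e) (B := B) (W := W) (w4 := 3 * W + 1)
    (δ := e / 100) (Λ := c3 * e) (c3 := c3) (l1 := q1 * e) (l2 := q2 * e) (v5 := q5 * e)
    (v6 := q6 * e) (D := qD * e) (w' := q8 * e) (C := C) (l := l) (ν := ν) (K0 := K0)
    (K' := K') (N := M * m) hM1 hm he1 hν0 hB1 hW (by linarith) rfl rfl rfl hc3.ge
    (hcoef c3 hBc3) (k1 e he1)
    (by have := hcoef q1 hBq1; linarith)
    (k2 e he1) (k3 e he1)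
    (by have := hcoef q2 hBq2; linarith)
    (k4 e he1)
    (mul_le_mul_of_nonneg_right hq65 he0.le) (by positivity)
    (k5 e he1) (k6 e he1)
    hl hnu rfl
    (by
      intro b hb1 hb2 n hn u
      refine (measureReal_mono (HWbad_mono le_rfl ?_) (measure_ne_top _ _)).trans
        (hb0 b ((h02.trans he).trans (hWe.trans hb1)) n hn u)
      have h1 : 1 / (1000 * (B * M)) * b ≤ 1 / (1000 * (B * M)) * (9 * W) :=
        mul_le_mul_of_nonneg_left hb2 (by positivity)
      have h2 : 1 / (1000 * (B * M)) * (9 * W) = 9 / 1000 * e := by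
        rw [hW']; field_simp
      linarith)
    hcol
    (by
      intro n hn1 hn2 u
      exact hconn (q1 * e) ((h04.trans he).trans (heq _ hq11)) n hn1 hn2 u)
    (by
      intro n hn1 hn2 u
      exact (hconn (q2 * e) ((h04.trans he).trans (heq _ hq21)) n hn1 hn2 u).2)
    hK' (by linarith [h05.trans he]) ((h05.trans he).trans (heq _ hq60)) hmK0
    (fun u => hlong u)
  intro u
  refine (hres u).trans (measureReal_mono (Apt_mono ?_ ?_) (measure_ne_top _ _))
  · calc q8 * e ≤ B * e := mul_le_mul_of_nonneg_right hBq8 he0.le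
      _ ≤ B * ((q5 + 1) * e) := mul_le_mul_of_nonneg_left hq5e (by linarith)
  · exact mul_le_mul_of_nonneg_right (by linarith) he0.le

lemma Sgd_mono {B v v' : ℝ} {n : ℕ} (hB : 0 ≤ B) (hv : v ≤ v') (h : Sgd G s α β B v n) :
    Sgd G s α β B v' n := fun u => (h u).trans
  (measureReal_mono (Apt_mono (mul_le_mul_of_nonneg_left hv hB) hv) (measure_ne_top _ _))

/-- **No corners**: the inputs are contradictory. -/
theorem no_corner (H : Inputs G s α β a) : False := by
  obtain ⟨Cs, B, hCs, hB, M0, hren⟩ := renorm H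
  obtain ⟨Cb, b1, hCb0, hbase⟩ := base H
  obtain ⟨N0, hub⟩ := H.ub (1 / 10) (by norm_num)
  -- the scale
  obtain ⟨P, hP1, hP2, hP3⟩ : ∃ P : ℕ, 2 ≤ P ∧ Cs ≤ P ∧ M0 ≤ P ^ 40 := by
    obtain ⟨P, hP⟩ := exists_nat_ge (max Cs (max M0 2 : ℝ))
    have h1 : Cs ≤ P := (le_max_left _ _).trans hP
    have h2 : (M0 : ℝ) ≤ P := ((le_max_left _ _).trans (le_max_right _ _)).trans hP
    have h3 : (2 : ℝ) ≤ P := ((le_max_right _ _).trans (le_max_right _ _)).trans hP
    have h2' : M0 ≤ P := by exact_mod_cast h2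
    have h3' : 2 ≤ P := by exact_mod_cast h3
    exact ⟨P, h3', h1, h2'.trans (Nat.le_self_pow (by norm_num) P)⟩
  have hP0 : (0 : ℝ) < P := by positivity
  have hP1r : (1 : ℝ) < P := by exact_mod_cast (show 1 < P by omega)
  obtain ⟨e0, he0⟩ := hren (P ^ 40) hP3
  obtain ⟨r, hr⟩ : ∃ r : ℕ, 1 ≤ r ∧ e0 ≤ (P : ℝ) ^ (39 * r - 1) ∧ b1 ≤ (P : ℝ) ^ (39 * r) := by
    have h1 : Tendsto (fun r : ℕ => (P : ℝ) ^ r) atTop atTop :=
      tendsto_pow_atTop_atTop_of_one_lt hP1r
    obtain ⟨r0, hr0⟩ := (h1.eventually (eventually_ge_atTop (max e0 b1))).exists_forall_of_atTop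
    refine ⟨r0 + 1, by omega, (le_max_left _ _).trans (hr0 _ (by omega)),
      (le_max_right _ _).trans (hr0 _ (by omega))⟩
  obtain ⟨hr1, hr2, hr3⟩ := hr
  -- downward induction
  have hdown : ∀ q : ℕ, N0 ≤ P ^ (40 * (39 * q)) → r ≤ 38 * q →
      Sgd G s α β B ((P : ℝ) ^ (39 * r)) (P ^ (40 * (q + r))) := by
    intro q hq hrq
    -- induction on `j = 38 q - i`
    have key : ∀ j : ℕ, j + r ≤ 38 * q →
        Sgd G s α β B ((P : ℝ) ^ (39 * (38 * q - j))) (P ^ (40 * (q + (38 * q - j)))) := by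
      intro j
      induction j with
      | zero =>
        intro _
        simp only [Nat.sub_zero]
        intro u
        have h1 := hub (P ^ (40 * (39 * q))) hq u
        have h2 : (((P ^ (40 * (39 * q)) : ℕ) : ℝ)) ^ (19 / 20 : ℝ) = (P : ℝ) ^ (39 * (38 * q)) := by
          push_cast
          rw [← Real.rpow_natCast, ← Real.rpow_mul hP0.le, ← Real.rpow_natCast]
          congr 1
          push_cast
          ring
        rw [h2] at h1
        have h3 : 40 * (q + 38 * q) = 40 * (39 * q) := by ring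
        rw [h3]
        have h4 : (1 : ℝ) - 1 / 10 = 9 / 10 := by norm_num
        rw [h4] at h1
        refine h1.trans (measureReal_mono (Apt_mono ?_ le_rfl) (measure_ne_top _ _))
        have h5 : 0 ≤ (P : ℝ) ^ (39 * (38 * q)) := by positivity
        exact le_mul_of_one_le_left h5 hB
      | succ j ih =>
        intro hj
        have h1 := ih (by omega)
        obtain ⟨i, hi⟩ : ∃ i : ℕ, 38 * q - (j + 1) = i := ⟨_, rfl⟩
        have hi' : 38 * q - j = i + 1 := by omega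
        have hir : r ≤ i := by omega
        rw [hi]
        rw [hi'] at h1
        have h2 := he0 (P ^ (40 * (q + i))) (Nat.one_le_iff_ne_zero.2 (by positivity))
          ((P : ℝ) ^ (39 * i - 1)) (by
            refine hr2.trans (pow_le_pow_right₀ hP1r.le ?_)
            omega) (by
            have e1 : ((P ^ 40 : ℕ) : ℝ) * (P : ℝ) ^ (39 * i - 1) = (P : ℝ) ^ (39 * (i + 1)) := by
              push_cast
              rw [← pow_add]
              congr 1
              omega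
            have e2 : P ^ 40 * P ^ (40 * (q + i)) = P ^ (40 * (q + (i + 1))) := by
              rw [← pow_add]
              congr 1
              ring
            rw [e1, e2]
            exact h1)
        refine Sgd_mono (by linarith) ?_ h2
        calc Cs * (P : ℝ) ^ (39 * i - 1) ≤ P * (P : ℝ) ^ (39 * i - 1) :=
              mul_le_mul_of_nonneg_right hP2 (by positivity)
          _ = (P : ℝ) ^ (39 * i) := by
              rw [← pow_succ']
              congr 1
              omega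
    have h1 := key (38 * q - r) (by omega)
    have h2 : 38 * q - (38 * q - r) = r := by omega
    rw [h2] at h1
    exact h1
  -- contradiction with the base estimate
  set V : ℝ := (P : ℝ) ^ (39 * r) with hV
  have hV0 : 0 ≤ V := by positivity
  have hbound : ∀ q : ℕ, N0 ≤ P ^ (40 * (39 * q)) → r ≤ 38 * q →
      (P : ℝ) ^ (40 * (q + r)) ≤ Cb * (V + B * V) ^ 3 := by
    intro q h1 h2
    have h3 := hbase (P ^ (40 * (q + r))) (Nat.one_le_iff_ne_zero.2 (by positivity)) (B * V) V 0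
      (hr3.trans (le_mul_of_one_le_left hV0 hB)) hV0 (hdown q h1 h2 0)
    push_cast at h3
    exact h3
  have h1 : Tendsto (fun n : ℕ => (P : ℝ) ^ n) atTop atTop :=
    tendsto_pow_atTop_atTop_of_one_lt hP1r
  obtain ⟨n1, hn1⟩ := (h1.eventually
    (eventually_gt_atTop (max (Cb * (V + B * V) ^ 3) (N0 : ℝ)))).exists_forall_of_atTop
  have h2 := hbound (n1 + r) (by
    have h3 := hn1 (40 * (39 * (n1 + r))) (by omega)
    have h4 : (N0 : ℝ) ≤ ((P ^ (40 * (39 * (n1 + r))) : ℕ) : ℝ) := by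
      push_cast
      exact ((le_max_right _ _).trans h3.le)
    exact_mod_cast h4) (by omega)
  have h3 := hn1 (40 * (n1 + r + r)) (by omega)
  have h4 := (le_max_left (Cb * (V + B * V) ^ 3) (N0 : ℝ)).trans_lt h3
  linarith

end Crest.Agent.R151.X
end

-- ▼ part R151/M51D
section

/-!
# R151, block MOM (helper51), part D: square rings of open edges

`ringEdges c j` = the edges of the boundary of the square of radius `j` around `c`.
-/

set_option autoImplicit false

open MeasureTheory ProbabilityTheory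
open scoped ENNReal
open Crest.ProbabilityR.FirstPassage
open Crest.Agent.R151.K

namespace Crest.Agent.R151.M51

/-- the `8 j` edges of the boundary of the square of radius `j` around `c` -/
noncomputable def ringEdges (c : ℤ × ℤ) (j : ℕ) : Finset (Sym2 (ℤ × ℤ)) :=
  ((Finset.Ico (-(j:ℤ)) j).image fun i => eV (c.1 - j) (c.2 + i)) ∪
  ((Finset.Ico (-(j:ℤ)) j).image fun i => eV (c.1 + j) (c.2 + i)) ∪
  (((Finset.Ico (-(j:ℤ)) j).image fun i => eH (c.1 + i) (c.2 - j)) ∪
  ((Finset.Ico (-(j:ℤ)) j).image fun i => eH (c.1 + i) (c.2 + j)))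

lemma card_ringEdges_le (c : ℤ × ℤ) (j : ℕ) : (ringEdges c j).card ≤ 8 * j := by
  have h : ∀ f : ℤ → Sym2 (ℤ × ℤ), ((Finset.Ico (-(j:ℤ)) j).image f).card ≤ 2 * j := by
    intro f
    refine Finset.card_image_le.trans ?_
    rw [Int.card_Ico]; omega
  unfold ringEdges
  refine (Finset.card_union_le _ _).trans ?_
  refine (Nat.add_le_add (Finset.card_union_le _ _) (Finset.card_union_le _ _)).trans ?_
  have h1 := h fun i => eV (c.1 - j) (c.2 + i)
  have h2 := h fun i => eV (c.1 + j) (c.2 + i)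
  have h3 := h fun i => eH (c.1 + i) (c.2 - j)
  have h4 := h fun i => eH (c.1 + i) (c.2 + j)
  omega

lemma mem_ringEdges {c : ℤ × ℤ} {j : ℕ} {e : Sym2 (ℤ × ℤ)} : e ∈ ringEdges c j ↔
    (∃ i : ℤ, -(j:ℤ) ≤ i ∧ i < j ∧ e = eV (c.1 - j) (c.2 + i)) ∨
    (∃ i : ℤ, -(j:ℤ) ≤ i ∧ i < j ∧ e = eV (c.1 + j) (c.2 + i)) ∨
    (∃ i : ℤ, -(j:ℤ) ≤ i ∧ i < j ∧ e = eH (c.1 + i) (c.2 - j)) ∨
    (∃ i : ℤ, -(j:ℤ) ≤ i ∧ i < j ∧ e = eH (c.1 + i) (c.2 + j)) := by
  unfold ringEdges
  simp only [Finset.mem_union, Finset.mem_image, Finset.mem_Ico]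
  constructor
  · rintro ((⟨i, hi, rfl⟩ | ⟨i, hi, rfl⟩) | (⟨i, hi, rfl⟩ | ⟨i, hi, rfl⟩))
    · exact Or.inl ⟨i, hi.1, hi.2, rfl⟩
    · exact Or.inr (Or.inl ⟨i, hi.1, hi.2, rfl⟩)
    · exact Or.inr (Or.inr (Or.inl ⟨i, hi.1, hi.2, rfl⟩))
    · exact Or.inr (Or.inr (Or.inr ⟨i, hi.1, hi.2, rfl⟩))
  · rintro (⟨i, h1, h2, rfl⟩ | ⟨i, h1, h2, rfl⟩ | ⟨i, h1, h2, rfl⟩ | ⟨i, h1, h2, rfl⟩)
    · exact Or.inl (Or.inl ⟨i, ⟨h1, h2⟩, rfl⟩)
    · exact Or.inl (Or.inr ⟨i, ⟨h1, h2⟩, rfl⟩)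
    · exact Or.inr (Or.inl ⟨i, ⟨h1, h2⟩, rfl⟩)
    · exact Or.inr (Or.inr ⟨i, ⟨h1, h2⟩, rfl⟩)

lemma eV_inj' {a b a' b' : ℤ} (h : eV a b = eV a' b') : a = a' ∧ b = b' := by
  unfold eV at h
  rw [Sym2.eq_iff] at h
  simp only [Prod.mk.injEq] at h
  omega

lemma eH_inj' {a b a' b' : ℤ} (h : eH a b = eH a' b') : a = a' ∧ b = b' := by
  unfold eH at h
  rw [Sym2.eq_iff] at h
  simp only [Prod.mk.injEq] at h
  omega

/-- rings of different radii around the same centre are disjoint -/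
lemma ringEdges_disjoint (c : ℤ × ℤ) {j j' : ℕ} (h : j ≠ j') :
    Disjoint (ringEdges c j) (ringEdges c j') := by
  rw [Finset.disjoint_left]
  intro e he he'
  rw [mem_ringEdges] at he he'
  rcases he with ⟨i, h1, h2, rfl⟩ | ⟨i, h1, h2, rfl⟩ | ⟨i, h1, h2, rfl⟩ | ⟨i, h1, h2, rfl⟩ <;>
  rcases he' with ⟨i', h1', h2', he⟩ | ⟨i', h1', h2', he⟩ | ⟨i', h1', h2', he⟩ |
    ⟨i', h1', h2', he⟩ <;>
  first
    | (have := eV_inj' he; omega)
    | (have := eH_inj' he; omega)
    | exact eH_ne_eV _ _ _ _ he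
    | exact eH_ne_eV _ _ _ _ he.symm

/-- the ring of radius `j` around `c` consists of edges of weight at most `lam` -/
def OpenRing (t : Environment) (lam : ℝ) (c : ℤ × ℤ) (j : ℕ) : Prop :=
  ∀ e ∈ ringEdges c j, t e ≤ lam

/-- there is an open ring of radius between `1` and `m` around `c` -/
def Enc (lam : ℝ) (m : ℕ) (c : ℤ × ℤ) : Set Environment :=
  {t | ∃ j : ℕ, 1 ≤ j ∧ j ≤ m ∧ OpenRing t lam c j}

/-- disjoint families: the probability that each contains an edge of weight `> s` -/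
theorem prob_all_fail (G : Measure ℝ) [IsProbabilityMeasure G] {m : ℕ}
    (F : Fin m → Finset (Sym2 (ℤ × ℤ))) (hF : ∀ i j, i ≠ j → Disjoint (F i) (F j)) (N : ℕ)
    (hN : ∀ j, (F j).card ≤ N) (s : ℝ) :
    iidLaw G {t | ∀ j, ∃ e ∈ F j, s < t e} ≤ ((N:ℝ≥0∞) * G (Set.Ioi s)) ^ m := by
  classical
  have hsub : {t : Environment | ∀ j, ∃ e ∈ F j, s < t e} ⊆
      ⋃ φ ∈ Fintype.piFinset F, {t : Environment | ∀ j, s < t (φ j)} := by
    intro t ht
    simp only [Set.mem_ofPred_eq] at ht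
    choose φ hφ hs using ht
    simp only [Set.mem_iUnion]
    exact ⟨φ, Fintype.mem_piFinset.2 hφ, hs⟩
  have hone : ∀ φ ∈ Fintype.piFinset F, iidLaw G {t : Environment | ∀ j, s < t (φ j)} ≤
      G (Set.Ioi s) ^ m := by
    intro φ hφ
    rw [Fintype.mem_piFinset] at hφ
    have hinj : Function.Injective φ := by
      intro i j hij
      by_contra hne
      exact Finset.disjoint_left.1 (hF i j hne) (hφ i) (hij ▸ hφ j)
    have h1 : {t : Environment | ∀ j, s < t (φ j)} =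
        (fun (t : Environment) j => t (φ j)) ⁻¹' (Set.pi Set.univ fun _ : Fin m => Set.Ioi s) := by
      ext t
      simp [Set.mem_pi]
    rw [h1, ← Measure.map_apply (measurable_pi_iff.2 fun j => measurable_pi_apply (φ j))
      (MeasurableSet.univ_pi fun _ => measurableSet_Ioi), map_coords G hinj, Measure.pi_pi]
    simp
  calc iidLaw G {t | ∀ j, ∃ e ∈ F j, s < t e}
      ≤ iidLaw G (⋃ φ ∈ Fintype.piFinset F, {t : Environment | ∀ j, s < t (φ j)}) :=
        measure_mono hsub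
    _ ≤ ∑ φ ∈ Fintype.piFinset F, iidLaw G {t : Environment | ∀ j, s < t (φ j)} :=
        measure_biUnion_finset_le _ _
    _ ≤ ∑ φ ∈ Fintype.piFinset F, G (Set.Ioi s) ^ m := Finset.sum_le_sum hone
    _ = (∏ j, ((F j).card : ℝ≥0∞)) * G (Set.Ioi s) ^ m := by
        rw [Finset.sum_const, Fintype.card_piFinset, nsmul_eq_mul, Nat.cast_prod]
    _ ≤ (∏ _j : Fin m, (N : ℝ≥0∞)) * G (Set.Ioi s) ^ m := by
        gcongr with j
        exact_mod_cast hN j
    _ = _ := by
        rw [Finset.prod_const, Finset.card_univ, Fintype.card_fin, mul_pow]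

/-- `P(no open ring of radius ≤ m around c) ≤ (8 m G(lam, ∞))^m` -/
theorem prob_not_Enc (G : Measure ℝ) [IsProbabilityMeasure G] (lam : ℝ) (m : ℕ) (c : ℤ × ℤ) :
    iidLaw G (Enc lam m c)ᶜ ≤ (((8 * m : ℕ) : ℝ≥0∞) * G (Set.Ioi lam)) ^ m := by
  refine le_trans (measure_mono ?_) (prob_all_fail G (fun j : Fin m => ringEdges c (j + 1)) ?_
    (8 * m) ?_ lam)
  · intro t ht
    simp only [Enc, Set.mem_compl_iff, Set.mem_ofPred_eq, OpenRing, not_exists, not_and] at ht
    intro j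
    have := ht (j + 1) (by omega) (by omega)
    push Not at this
    obtain ⟨e, he, h⟩ := this
    exact ⟨e, he, h⟩
  · intro i j hij
    apply ringEdges_disjoint
    intro h
    apply hij
    ext
    omega
  · intro j
    refine (card_ringEdges_le c (j + 1)).trans ?_
    have := j.2
    omega

lemma measurableSet_Enc (lam : ℝ) (m : ℕ) (c : ℤ × ℤ) : MeasurableSet (Enc lam m c) := by
  have : Enc lam m c = ⋃ j ∈ Finset.Icc 1 m, ⋂ e ∈ ringEdges c j, {t : Environment | t e ≤ lam} := by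
    ext t
    simp only [Enc, OpenRing, Set.mem_ofPred_eq, Set.mem_iUnion, Finset.mem_Icc, Set.mem_iInter]
    constructor
    · rintro ⟨j, h1, h2, h⟩
      exact ⟨j, ⟨h1, h2⟩, h⟩
    · rintro ⟨j, ⟨h1, h2⟩, h⟩
      exact ⟨j, h1, h2, h⟩
  rw [this]
  refine Finset.measurableSet_biUnion _ fun j _ => ?_
  refine Finset.measurableSet_biInter _ fun e _ => ?_
  exact measurableSet_le (measurable_pi_apply e) measurable_const

end Crest.Agent.R151.M51
end

-- ▼ part R151/M51E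
section

/-!
# R151, block MOM (helper51), part E: the ring lemma in a box

If every vertex of the box is enclosed by an open ring (weights `≤ lam`, radius `≤ m`,
`8 m lam ≤ K`), then `TE` does not change when the weights are truncated at `K`.
-/

set_option autoImplicit false

open MeasureTheory ProbabilityTheory
open Crest.ProbabilityR.FirstPassage
open Crest.Agent.R151.K
open Crest.Agent.R151.U (Box mem_Box_adj seg mem_seg TE exists_walk_TE TE_le_walk exists_TE TE_le)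

namespace Crest.Agent.R151.M51

/-- vertices of the box -/
def InB (a b y0 R : ℤ) (z : ℤ × ℤ) : Prop :=
  a ≤ z.1 ∧ z.1 ≤ b ∧ y0 - R ≤ z.2 ∧ z.2 ≤ y0 + R

/-- the part of the box enclosed by the ring of radius `j` around `c` -/
def Ins (b : ℤ) (c : ℤ × ℤ) (j : ℕ) (z : ℤ × ℤ) : Prop :=
  c.1 - j < z.1 ∧ (c.1 + j < b → z.1 < c.1 + j) ∧ c.2 - j < z.2 ∧ z.2 < c.2 + j

/-- the vertices of the ring, seen in the box -/
def Arc (a b y0 R : ℤ) (c : ℤ × ℤ) (j : ℕ) (z : ℤ × ℤ) : Prop :=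
  InB a b y0 R z ∧
  (((z.1 = c.1 - j ∨ (z.1 = c.1 + j ∧ c.1 + j < b)) ∧ c.2 - j ≤ z.2 ∧ z.2 ≤ c.2 + j) ∨
   ((z.2 = c.2 - j ∨ z.2 = c.2 + j) ∧ c.1 - j ≤ z.1 ∧ z.1 ≤ c.1 + j))

variable {a b y0 R : ℤ} {c : ℤ × ℤ} {j : ℕ}

lemma step_out {u v : ℤ × ℤ} (h : squareLattice.Adj u v)
    (hu : InB a b y0 R u) (hv : InB a b y0 R v) (hi : Ins b c j u) (ho : ¬ Ins b c j v) :
    Arc a b y0 R c j v := by
  obtain ⟨u1, u2⟩ := u
  obtain ⟨v1, v2⟩ := v
  obtain ⟨c1, c2⟩ := c
  rw [adj_iff] at h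
  simp only [InB, Ins, Arc] at *
  refine ⟨hv, ?_⟩
  by_cases hb : c1 + (j:ℤ) < b
  · simp only [hb, true_imp_iff] at hi ho
    omega
  · simp only [hb, false_imp_iff, true_and] at hi ho
    omega

lemma hit {u v : ℤ × ℤ} (w : squareLattice.Walk u v)
    (hw : ∀ e ∈ w.edges, e ∈ Box a b y0 R) (hu : InB a b y0 R u) (hi : Ins b c j u) :
    (∃ z ∈ w.support, Arc a b y0 R c j z) ∨ (Ins b c j v ∧ InB a b y0 R v) := by
  induction w with
  | nil => exact Or.inr ⟨hi, hu⟩
  | @cons u x v h w ih =>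
    have he : s(u, x) ∈ Box a b y0 R := hw _ (by simp)
    rw [mem_Box_adj h] at he
    have hx : InB a b y0 R x := by unfold InB; omega
    by_cases hix : Ins b c j x
    · rcases ih (fun e he => hw e (by simp [he])) hx hix with ⟨z, hz, hz'⟩ | h'
      · exact Or.inl ⟨z, by simp [hz], hz'⟩
      · exact Or.inr h'
    · exact Or.inl ⟨x, by simp, step_out h hu hx hi hix⟩

/-- a long vertical segment with an enclosed point meets the ring -/
lemma seg_hit {x y : ℤ} {l m : ℕ} (hjm : j ≤ m) (hl : 2 * m + 1 ≤ l)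
    (hS : ∀ z ∈ seg x y l, InB a b y0 R z) {p : ℤ × ℤ} (hp : p ∈ seg x y l)
    (hi : Ins b c j p) : ∃ z ∈ seg x y l, Arc a b y0 R c j z := by
  obtain ⟨p1, p2⟩ := p
  obtain ⟨c1, c2⟩ := c
  rw [mem_seg] at hp
  simp only at hp
  obtain ⟨rfl, hp1, hp2⟩ := hp
  have hpB := hS (p1, p2) (by rw [mem_seg]; exact ⟨rfl, hp1, hp2⟩)
  simp only [Ins] at hi
  obtain ⟨hi1, hi2, hi3, hi4⟩ := hi
  have hx : p1 ≤ c1 + j := by
    by_cases hb : c1 + (j:ℤ) < b
    · exact (hi2 hb).le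
    · unfold InB at hpB; simp only at hpB; omega
  by_cases ht : c2 + (j:ℤ) < y + l
  · have hmem : ((p1, c2 + (j:ℤ)) : ℤ × ℤ) ∈ seg p1 y l := by
      rw [mem_seg]; refine ⟨rfl, ?_, ?_⟩ <;> simp only <;> omega
    refine ⟨_, hmem, hS _ hmem, Or.inr ⟨Or.inr rfl, hi1.le, hx⟩⟩
  · have hmem : ((p1, c2 - (j:ℤ)) : ℤ × ℤ) ∈ seg p1 y l := by
      rw [mem_seg]; refine ⟨rfl, ?_, ?_⟩ <;> simp only <;> omega
    refine ⟨_, hmem, hS _ hmem, Or.inr ⟨Or.inl rfl, hi1.le, hx⟩⟩

/-! ### walks along the ring -/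

lemma colWalk {x y y' : ℤ} (hx : x = c.1 - j ∨ x = c.1 + j) (hxa : a ≤ x) (hxb : x < b)
    (h1 : c.2 - j ≤ y) (h2 : y ≤ c.2 + j) (h3 : y0 - R ≤ y) (h4 : y ≤ y0 + R)
    (h1' : c.2 - j ≤ y') (h2' : y' ≤ c.2 + j) (h3' : y0 - R ≤ y') (h4' : y' ≤ y0 + R) :
    ∃ w : squareLattice.Walk (x, y) (x, y'), w.length ≤ 2 * j ∧
      ∀ e ∈ w.edges, e ∈ Box a b y0 R ∧ e ∈ ringEdges c j := by
  have key : ∀ n : ℕ, ∀ y : ℤ, c.2 - j ≤ y → y + n ≤ c.2 + j → y0 - R ≤ y → y + n ≤ y0 + R →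
      ∃ w : squareLattice.Walk (x, y) (x, y + n), w.length = n ∧
      ∀ e ∈ w.edges, e ∈ Box a b y0 R ∧ e ∈ ringEdges c j := by
    intro n
    induction n with
    | zero =>
      intro y _ _ _ _
      refine ⟨(SimpleGraph.Walk.nil : squareLattice.Walk (x, y) (x, y)).copy rfl (by simp), ?_, ?_⟩
      · simp
      · intro e he; simp at he
    | succ n ih =>
      intro y hy1 hy2 hy3 hy4
      push_cast at hy2 hy4
      obtain ⟨w, hw, hs⟩ := ih (y + 1) (by omega) (by omega) (by omega) (by omega)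
      refine ⟨(SimpleGraph.Walk.cons (adj_up x y) w).copy rfl (by
        rw [Prod.mk.injEq]; push_cast; constructor <;> [rfl; ring]), by simp [hw], ?_⟩
      intro e he
      simp only [SimpleGraph.Walk.edges_copy, SimpleGraph.Walk.edges_cons, List.mem_cons] at he
      rcases he with rfl | he
      · refine ⟨?_, ?_⟩
        · rw [mem_Box_adj (adj_up x y)]
          simp only
          omega
        · rw [mem_ringEdges]
          rcases hx with rfl | rfl
          · refine Or.inl ⟨y - c.2, by omega, by omega, ?_⟩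
            rw [eV]; ring_nf
          · refine Or.inr (Or.inl ⟨y - c.2, by omega, by omega, ?_⟩)
            rw [eV]; ring_nf
      · exact hs e he
  rcases le_total y y' with h | h
  · obtain ⟨w, hw, hs⟩ := key (y' - y).toNat y h1 (by omega) h3 (by omega)
    have e : y + ((y' - y).toNat : ℤ) = y' := by omega
    refine ⟨w.copy rfl (by rw [e]), ?_, ?_⟩
    · simp only [SimpleGraph.Walk.length_copy, hw]; omega
    · intro e he
      rw [SimpleGraph.Walk.edges_copy] at he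
      exact hs e he
  · obtain ⟨w, hw, hs⟩ := key (y - y').toNat y' h1' (by omega) h3' (by omega)
    have e : y' + ((y - y').toNat : ℤ) = y := by omega
    refine ⟨(w.copy rfl (by rw [e])).reverse, ?_, ?_⟩
    · simp only [SimpleGraph.Walk.length_reverse, SimpleGraph.Walk.length_copy, hw]; omega
    · intro e he
      rw [SimpleGraph.Walk.edges_reverse, List.mem_reverse, SimpleGraph.Walk.edges_copy] at he
      exact hs e he

lemma rowWalk {x x' y : ℤ} (hy : y = c.2 - j ∨ y = c.2 + j) (h3 : y0 - R ≤ y) (h4 : y ≤ y0 + R)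
    (h1 : c.1 - j ≤ x) (h2 : x ≤ c.1 + j) (ha : a ≤ x) (hb : x ≤ b)
    (h1' : c.1 - j ≤ x') (h2' : x' ≤ c.1 + j) (ha' : a ≤ x') (hb' : x' ≤ b) :
    ∃ w : squareLattice.Walk (x, y) (x', y), w.length ≤ 2 * j ∧
      ∀ e ∈ w.edges, e ∈ Box a b y0 R ∧ e ∈ ringEdges c j := by
  have key : ∀ n : ℕ, ∀ x : ℤ, c.1 - j ≤ x → x + n ≤ c.1 + j → a ≤ x → x + n ≤ b →
      ∃ w : squareLattice.Walk (x, y) (x + n, y), w.length = n ∧
      ∀ e ∈ w.edges, e ∈ Box a b y0 R ∧ e ∈ ringEdges c j := by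
    intro n
    induction n with
    | zero =>
      intro x _ _ _ _
      refine ⟨(SimpleGraph.Walk.nil : squareLattice.Walk (x, y) (x, y)).copy rfl (by simp), ?_, ?_⟩
      · simp
      · intro e he; simp at he
    | succ n ih =>
      intro x hy1 hy2 hy3 hy4
      push_cast at hy2 hy4
      obtain ⟨w, hw, hs⟩ := ih (x + 1) (by omega) (by omega) (by omega) (by omega)
      refine ⟨(SimpleGraph.Walk.cons (adj_right x y) w).copy rfl (by
        rw [Prod.mk.injEq]; push_cast; constructor <;> [ring; rfl]), by simp [hw], ?_⟩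
      intro e he
      simp only [SimpleGraph.Walk.edges_copy, SimpleGraph.Walk.edges_cons, List.mem_cons] at he
      rcases he with rfl | he
      · refine ⟨?_, ?_⟩
        · rw [mem_Box_adj (adj_right x y)]
          simp only
          omega
        · rw [mem_ringEdges]
          rcases hy with rfl | rfl
          · refine Or.inr (Or.inr (Or.inl ⟨x - c.1, by omega, by omega, ?_⟩))
            rw [eH]; ring_nf
          · refine Or.inr (Or.inr (Or.inr ⟨x - c.1, by omega, by omega, ?_⟩))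
            rw [eH]; ring_nf
      · exact hs e he
  rcases le_total x x' with h | h
  · obtain ⟨w, hw, hs⟩ := key (x' - x).toNat x h1 (by omega) ha (by omega)
    have e : x + ((x' - x).toNat : ℤ) = x' := by omega
    refine ⟨w.copy rfl (by rw [e]), ?_, ?_⟩
    · simp only [SimpleGraph.Walk.length_copy, hw]; omega
    · intro e he
      rw [SimpleGraph.Walk.edges_copy] at he
      exact hs e he
  · obtain ⟨w, hw, hs⟩ := key (x - x').toNat x' h1' (by omega) ha' (by omega)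
    have e : x' + ((x - x').toNat : ℤ) = x := by omega
    refine ⟨(w.copy rfl (by rw [e])).reverse, ?_, ?_⟩
    · simp only [SimpleGraph.Walk.length_reverse, SimpleGraph.Walk.length_copy, hw]; omega
    · intro e he
      rw [SimpleGraph.Walk.edges_reverse, List.mem_reverse, SimpleGraph.Walk.edges_copy] at he
      exact hs e he

/-- the arc is connected (through a corner) inside the box -/
lemma arc_conn (hc : InB a b y0 R c) (hj1 : 1 ≤ j) (hj : 2 * (j:ℤ) ≤ b - a) (hj' : (j:ℤ) ≤ R) :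
    ∃ h : ℤ × ℤ, ∀ z, Arc a b y0 R c j z → ∃ w : squareLattice.Walk z h, w.length ≤ 4 * j ∧
      ∀ e ∈ w.edges, e ∈ Box a b y0 R ∧ e ∈ ringEdges c j := by
  unfold InB at hc
  obtain ⟨xv, hxv, hxa, hxb⟩ : ∃ xv : ℤ, (xv = c.1 - j ∨ xv = c.1 + j) ∧ a ≤ xv ∧ xv < b := by
    by_cases h : a ≤ c.1 - j
    · exact ⟨c.1 - j, Or.inl rfl, h, by omega⟩
    · exact ⟨c.1 + j, Or.inr rfl, by omega, by omega⟩
  obtain ⟨yh, hyh, hya, hyb⟩ : ∃ yh : ℤ, (yh = c.2 - j ∨ yh = c.2 + j) ∧ y0 - R ≤ yh ∧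
      yh ≤ y0 + R := by
    by_cases h : y0 - R ≤ c.2 - j
    · exact ⟨c.2 - j, Or.inl rfl, h, by omega⟩
    · exact ⟨c.2 + j, Or.inr rfl, by omega, by omega⟩
  refine ⟨(xv, yh), ?_⟩
  rintro ⟨z1, z2⟩ ⟨hzB, hz | hz⟩
  · unfold InB at hzB
    simp only at hzB hz
    obtain ⟨hz1, hz2, hz3⟩ := hz
    obtain ⟨w1, hw1, hs1⟩ := colWalk (a := a) (b := b) (y0 := y0) (R := R) (c := c) (j := j)
      (x := z1) (y := z2) (y' := yh) (by omega) (by omega) (by omega) (by omega) (by omega)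
      (by omega) (by omega) (by omega) (by omega) (by omega) (by omega)
    obtain ⟨w2, hw2, hs2⟩ := rowWalk (a := a) (b := b) (y0 := y0) (R := R) (c := c) (j := j)
      (x := z1) (x' := xv) (y := yh) hyh (by omega) (by omega) (by omega) (by omega)
      (by omega) (by omega) (by omega) (by omega) (by omega) (by omega)
    refine ⟨w1.append w2, ?_, ?_⟩
    · rw [SimpleGraph.Walk.length_append]; omega
    · intro e he
      rw [SimpleGraph.Walk.edges_append, List.mem_append] at he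
      rcases he with he | he
      · exact hs1 e he
      · exact hs2 e he
  · unfold InB at hzB
    simp only at hzB hz
    obtain ⟨hz1, hz2, hz3⟩ := hz
    obtain ⟨w1, hw1, hs1⟩ := rowWalk (a := a) (b := b) (y0 := y0) (R := R) (c := c) (j := j)
      (x := z1) (x' := xv) (y := z2) hz1 (by omega) (by omega) (by omega) (by omega)
      (by omega) (by omega) (by omega) (by omega) (by omega) (by omega)
    obtain ⟨w2, hw2, hs2⟩ := colWalk (a := a) (b := b) (y0 := y0) (R := R) (c := c) (j := j)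
      (x := xv) (y := z2) (y' := yh) hxv hxa hxb (by omega) (by omega)
      (by omega) (by omega) (by omega) (by omega) (by omega) (by omega)
    refine ⟨w1.append w2, ?_, ?_⟩
    · rw [SimpleGraph.Walk.length_append]; omega
    · intro e he
      rw [SimpleGraph.Walk.edges_append, List.mem_append] at he
      rcases he with he | he
      · exact hs1 e he
      · exact hs2 e he

/-- one half of the surgery: from an enclosed point `u`, a walk to the long segment `B` can be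
shortened to a walk from the ring to `B`. -/
lemma half {x y : ℤ} {l m : ℕ} (hjm : j ≤ m) (hl : 2 * m + 1 ≤ l)
    (hS : ∀ z ∈ seg x y l, InB a b y0 R z) {u v : ℤ × ℤ} (w : squareLattice.Walk u v)
    (hv : v ∈ seg x y l) (hw : ∀ e ∈ w.edges, e ∈ Box a b y0 R) (hu : InB a b y0 R u)
    (hi : Ins b c j u) :
    ∃ z, Arc a b y0 R c j z ∧ ∃ v' ∈ seg x y l, ∃ p : squareLattice.Walk z v',
      p.edges.Sublist w.edges := by
  classical
  rcases hit w hw hu hi with ⟨z, hz, hz'⟩ | ⟨h1, h2⟩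
  · refine ⟨z, hz', v, hv, w.dropUntil z hz, ?_⟩
    have := w.take_spec hz
    have h3 : w.edges = (w.takeUntil z hz).edges ++ (w.dropUntil z hz).edges := by
      rw [← SimpleGraph.Walk.edges_append, this]
    rw [h3]
    exact List.sublist_append_right _ _
  · obtain ⟨z, hz, hz'⟩ := seg_hit hjm hl hS hv h1
    exact ⟨z, hz', z, hz, SimpleGraph.Walk.nil, by simp⟩

lemma walkCost_sublist {s : Environment} (hs : Nn s) {u v u' v' : ℤ × ℤ}
    {w : squareLattice.Walk u v} {w' : squareLattice.Walk u' v'} (h : w.edges.Sublist w'.edges) :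
    walkCost s w ≤ walkCost s w' := by
  unfold walkCost
  refine List.Sublist.sum_le_sum (h.map s) ?_
  intro q hq
  obtain ⟨e, -, rfl⟩ := List.mem_map.1 hq
  exact hs e

lemma walkCost_le_of_le {s : Environment} {lam : ℝ} {u v : ℤ × ℤ}
    (w : squareLattice.Walk u v) (h : ∀ e ∈ w.edges, s e ≤ lam) :
    walkCost s w ≤ w.length * lam := by
  induction w with
  | nil => simp [walkCost]
  | @cons u0 v0 w0 h' w ih =>
    have h1 := ih (fun e he => h e (by simp [he]))
    have h2 := h s(u0, v0) (by simp)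
    have h3 : walkCost s (SimpleGraph.Walk.cons h' w) = s s(u0, v0) + walkCost s w := by
      simp [walkCost]
    rw [h3, SimpleGraph.Walk.length_cons]
    push_cast
    linarith

/-- the truncated environment -/
def trunc (K : ℝ) (t : Environment) : Environment := fun e => min (t e) K

lemma trunc_Nn {K : ℝ} (hK : 0 ≤ K) {t : Environment} (ht : Nn t) : Nn (trunc K t) :=
  fun e => le_min (ht e) hK

open Classical in
/-- number of heavy edges of a walk -/
noncomputable def heavy (K : ℝ) (t : Environment) {u v : ℤ × ℤ} (w : squareLattice.Walk u v) : ℕ :=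
  w.edges.countP fun e => K < t e

lemma exists_split {u v : ℤ × ℤ} (w : squareLattice.Walk u v) {e : Sym2 (ℤ × ℤ)}
    (he : e ∈ w.edges) : ∃ (p q : ℤ × ℤ) (h : squareLattice.Adj p q)
      (w1 : squareLattice.Walk u p) (w2 : squareLattice.Walk q v), s(p, q) = e ∧
      w = w1.append (SimpleGraph.Walk.cons h w2) := by
  induction w with
  | nil => simp at he
  | @cons u x v h w ih =>
    rw [SimpleGraph.Walk.edges_cons, List.mem_cons] at he
    rcases he with rfl | he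
    · exact ⟨u, x, h, SimpleGraph.Walk.nil, w, rfl, rfl⟩
    · obtain ⟨p, q, h', w1, w2, h1, h2⟩ := ih he
      exact ⟨p, q, h', SimpleGraph.Walk.cons h w1, w2, h1, by rw [h2]; rfl⟩

variable {x y x' y' : ℤ} {l l' m : ℕ} {K lam : ℝ} {t : Environment}

/-- all vertices of the box are enclosed by an open ring -/
def AllEnc (a b y0 R : ℤ) (lam : ℝ) (m : ℕ) (t : Environment) : Prop :=
  ∀ c, InB a b y0 R c → t ∈ Enc lam m c

/-- one step of the surgery -/
lemma surgery (ht : Nn t) (hlam : 0 ≤ lam) (hK : 8 * m * lam ≤ K)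
    (hm : 2 * (m:ℤ) ≤ b - a) (hm' : (m:ℤ) ≤ R) (hE : AllEnc a b y0 R lam m t)
    (hl : 2 * m + 1 ≤ l) (hl' : 2 * m + 1 ≤ l')
    (hS : ∀ z ∈ seg x y l, InB a b y0 R z) (hS' : ∀ z ∈ seg x' y' l', InB a b y0 R z)
    {u v : ℤ × ℤ} (w : squareLattice.Walk u v) (hu : u ∈ seg x y l) (hv : v ∈ seg x' y' l')
    (hw : ∀ e ∈ w.edges, e ∈ Box a b y0 R) (hh : heavy K t w ≠ 0) :
    ∃ u' ∈ seg x y l, ∃ v' ∈ seg x' y' l', ∃ w' : squareLattice.Walk u' v',
      (∀ e ∈ w'.edges, e ∈ Box a b y0 R) ∧ heavy K t w' < heavy K t w ∧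
      walkCost (trunc K t) w' ≤ walkCost (trunc K t) w := by
  classical
  have hm1 : 0 ≤ (m:ℝ) := Nat.cast_nonneg m
  have hK0 : 0 ≤ K := le_trans (by positivity) hK
  have hs := trunc_Nn hK0 ht
  obtain ⟨e, he, heK⟩ : ∃ e ∈ w.edges, K < t e := by
    have : 0 < heavy K t w := Nat.pos_of_ne_zero hh
    unfold heavy at this
    rw [List.countP_pos_iff] at this
    obtain ⟨e, he, h⟩ := this
    exact ⟨e, he, by simpa using h⟩
  obtain ⟨p, q, hpq, w1, w2, rfl, rfl⟩ := exists_split w he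
  have hw1 : ∀ e ∈ w1.edges, e ∈ Box a b y0 R := fun e he => hw e (by
    rw [SimpleGraph.Walk.edges_append, List.mem_append]; exact Or.inl he)
  have hw2 : ∀ e ∈ (SimpleGraph.Walk.cons hpq w2).edges, e ∈ Box a b y0 R := fun e he => hw e (by
    rw [SimpleGraph.Walk.edges_append, List.mem_append]; exact Or.inr he)
  have hpB : InB a b y0 R p := by
    have := hw2 s(p, q) (by simp)
    rw [mem_Box_adj hpq] at this
    unfold InB; omega
  obtain ⟨j, hj1, hjm, hopen⟩ := hE p hpB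
  have hi : Ins b p j p := by
    unfold Ins
    refine ⟨by omega, fun _ => by omega, by omega, by omega⟩
  obtain ⟨hub, hhub⟩ := arc_conn (a := a) (b := b) (y0 := y0) (R := R) (c := p) (j := j) hpB hj1
    (by omega) (by omega)
  have hqB : InB a b y0 R q := by
    have := hw2 s(p, q) (by simp)
    rw [mem_Box_adj hpq] at this
    unfold InB; omega
  have hw2' : ∀ e ∈ w2.edges, e ∈ Box a b y0 R := fun e he => hw2 e (by simp [he])
  obtain ⟨z2, hz2, v', hv', p2, hp2⟩ : ∃ z, Arc a b y0 R p j z ∧ ∃ v' ∈ seg x' y' l',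
      ∃ p2 : squareLattice.Walk z v', p2.edges.Sublist w2.edges := by
    by_cases hq : Ins b p j q
    · exact half (c := p) (j := j) hjm hl' hS' w2 hv hw2' hqB hq
    · exact ⟨q, step_out hpq hpB hqB hi hq, v, hv, w2, List.Sublist.refl _⟩
  obtain ⟨z1, hz1, u', hu', p1, hp1⟩ := half (c := p) (j := j) hjm hl hS w1.reverse hu
    (fun e he => hw1 e (by simpa using he)) hpB hi
  obtain ⟨r1, hr1, hs1⟩ := hhub z1 hz1
  obtain ⟨r2, hr2, hs2⟩ := hhub z2 hz2
  rw [SimpleGraph.Walk.edges_reverse] at hp1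
  have hp1' : p1.reverse.edges.Sublist w1.edges := by
    rw [SimpleGraph.Walk.edges_reverse]
    simpa using hp1.reverse
  have hmR : (1:ℝ) ≤ m := by exact_mod_cast hj1.trans hjm
  have hlamK : lam ≤ K := by nlinarith
  have hopen1 : ∀ e ∈ r1.edges, t e ≤ lam := fun e he => hopen e (hs1 e he).2
  have hopen2 : ∀ e ∈ r2.reverse.edges, t e ≤ lam := fun e he => hopen e
    (hs2 e (by simpa using he)).2
  refine ⟨u', hu', v', hv',
    p1.reverse.append (r1.append (r2.reverse.append p2)), ?_, ?_, ?_⟩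
  · intro e he
    simp only [SimpleGraph.Walk.edges_append, List.mem_append] at he
    rcases he with he | he | he | he
    · exact hw1 e (hp1'.subset he)
    · exact (hs1 e he).1
    · exact (hs2 e (by simpa using he)).1
    · exact hw2' e (hp2.subset he)
  · unfold heavy
    simp only [SimpleGraph.Walk.edges_append, List.countP_append, SimpleGraph.Walk.edges_cons,
      List.countP_cons]
    have e1 : r1.edges.countP (fun e => decide (K < t e)) = 0 := by
      rw [List.countP_eq_zero]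
      intro e he
      have := hopen1 e he
      simp only [decide_eq_true_eq, not_lt]; linarith
    have e2 : r2.reverse.edges.countP (fun e => decide (K < t e)) = 0 := by
      rw [List.countP_eq_zero]
      intro e he
      have := hopen2 e he
      simp only [decide_eq_true_eq, not_lt]; linarith
    have e3 := hp1'.countP_le (p := fun e => decide (K < t e))
    have e4 := hp2.countP_le (p := fun e => decide (K < t e))
    rw [e1, e2]
    simp only [heK, decide_true, if_true]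
    omega
  · have c1 := walkCost_sublist hs hp1'
    have c2 := walkCost_sublist hs hp2
    have c3 := walkCost_le_of_le (s := trunc K t) (lam := lam) r1
      (fun e he => (min_le_left _ _).trans (hopen1 e he))
    have c4 := walkCost_le_of_le (s := trunc K t) (lam := lam) r2.reverse
      (fun e he => (min_le_left _ _).trans (hopen2 e he))
    simp only [walkCost_append]
    have c5 : walkCost (trunc K t) (SimpleGraph.Walk.cons hpq w2) =
        K + walkCost (trunc K t) w2 := by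
      have : trunc K t s(p, q) = K := min_eq_right heK.le
      simp [walkCost, this]
    rw [c5]
    have l1 : (r1.length : ℝ) ≤ 4 * m := by
      have : r1.length ≤ 4 * m := by omega
      exact_mod_cast this
    have l2 : (r2.reverse.length : ℝ) ≤ 4 * m := by
      rw [SimpleGraph.Walk.length_reverse]
      have : r2.length ≤ 4 * m := by omega
      exact_mod_cast this
    have d1 := mul_le_mul_of_nonneg_right l1 hlam
    have d2 := mul_le_mul_of_nonneg_right l2 hlam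
    nlinarith

/-- a walk without heavy edges -/
lemma exists_light (ht : Nn t) (hlam : 0 ≤ lam) (hK : 8 * m * lam ≤ K)
    (hm : 2 * (m:ℤ) ≤ b - a) (hm' : (m:ℤ) ≤ R) (hE : AllEnc a b y0 R lam m t)
    (hl : 2 * m + 1 ≤ l) (hl' : 2 * m + 1 ≤ l')
    (hS : ∀ z ∈ seg x y l, InB a b y0 R z) (hS' : ∀ z ∈ seg x' y' l', InB a b y0 R z) :
    ∀ (N : ℕ) {u v : ℤ × ℤ} (w : squareLattice.Walk u v), u ∈ seg x y l → v ∈ seg x' y' l' →
    (∀ e ∈ w.edges, e ∈ Box a b y0 R) → heavy K t w ≤ N →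
    ∃ u' ∈ seg x y l, ∃ v' ∈ seg x' y' l', ∃ w' : squareLattice.Walk u' v',
      (∀ e ∈ w'.edges, e ∈ Box a b y0 R) ∧ heavy K t w' = 0 ∧
      walkCost (trunc K t) w' ≤ walkCost (trunc K t) w := by
  intro N
  induction N with
  | zero =>
    intro u v w hu hv hw hN
    exact ⟨u, hu, v, hv, w, hw, Nat.le_zero.1 hN, le_rfl⟩
  | succ N ih =>
    intro u v w hu hv hw hN
    by_cases hh : heavy K t w = 0
    · exact ⟨u, hu, v, hv, w, hw, hh, le_rfl⟩
    · obtain ⟨u', hu', v', hv', w', hw', h1, h2⟩ :=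
        surgery ht hlam hK hm hm' hE hl hl' hS hS' w hu hv hw hh
      obtain ⟨u2, hu2, v2, hv2, w2, hw2, h3, h4⟩ := ih w' hu' hv' hw' (by omega)
      exact ⟨u2, hu2, v2, hv2, w2, hw2, h3, h4.trans h2⟩

lemma trunc_cost_eq {u v : ℤ × ℤ} (w : squareLattice.Walk u v) (h : heavy K t w = 0) :
    walkCost (trunc K t) w = walkCost t w := by
  unfold walkCost
  congr 1
  apply List.map_congr_left
  intro e he
  unfold heavy at h
  rw [List.countP_eq_zero] at h
  have := h e he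
  simp only [decide_eq_true_eq, not_lt] at this
  exact min_eq_left this

/-- **ring lemma**: truncation at `K` does not change the segment-to-segment time -/
theorem TE_trunc (ht : Nn t) (hlam : 0 ≤ lam) (hK : 8 * m * lam ≤ K) (hK0 : 0 ≤ K)
    (hm : 2 * (m:ℤ) ≤ b - a) (hm' : (m:ℤ) ≤ R) (hE : AllEnc a b y0 R lam m t)
    (hl : 2 * m + 1 ≤ l) (hl' : 2 * m + 1 ≤ l')
    (hS : ∀ z ∈ seg x y l, InB a b y0 R z) (hS' : ∀ z ∈ seg x' y' l', InB a b y0 R z)
    (hc : Crest.Agent.R151.U.Conn (↑(Box a b y0 R)) (seg x y l) (seg x' y' l')) :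
    TE (Box a b y0 R) (seg x y l) (seg x' y' l') t =
      TE (Box a b y0 R) (seg x y l) (seg x' y' l') (trunc K t) := by
  apply le_antisymm
  · obtain ⟨u, hu, v, hv, w, -, hw, hcw⟩ := exists_walk_TE (trunc_Nn hK0 ht) hc
    obtain ⟨u', hu', v', hv', w', hw', h1, h2⟩ :=
      exists_light ht hlam hK hm hm' hE hl hl' hS hS' (heavy K t w) w hu hv hw le_rfl
    calc TE (Box a b y0 R) (seg x y l) (seg x' y' l') t
        ≤ walkCost t w' := TE_le_walk ht w' hw' hu' hv'
      _ = walkCost (trunc K t) w' := (trunc_cost_eq w' h1).symm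
      _ ≤ walkCost (trunc K t) w := h2
      _ ≤ _ := hcw
  · obtain ⟨S, hSE, hSc, hSt⟩ := exists_TE hc t
    rw [hSt]
    refine (TE_le hSE hSc _).trans ?_
    exact Finset.sum_le_sum fun e _ => min_le_left _ _

end Crest.Agent.R151.M51
end

-- ▼ part R151/M51F
section

/-!
# R151, block MOM (helper51), part F: five edge-disjoint routes, second moment of `TE`
-/

set_option autoImplicit false

open MeasureTheory ProbabilityTheory
open scoped ENNReal
open Crest.ProbabilityR.FirstPassage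
open Crest.Agent.R151.K
open Crest.Agent.R151.U (Box mem_Box_adj seg mem_seg TE TE_le_walk measurable_TE TE_nonneg
  edge_mem_support)

namespace Crest.Agent.R151.M51

/-- all end points in row `r` -/
def RowE (r : ℤ) (e : Sym2 (ℤ × ℤ)) : Prop := ∀ p ∈ e, p.2 = r

/-- all end points in column `r` -/
def ColE (r : ℤ) (e : Sym2 (ℤ × ℤ)) : Prop := ∀ p ∈ e, p.1 = r

lemma RowE.ne {r r' : ℤ} {e : Sym2 (ℤ × ℤ)} (h : RowE r e) (h' : RowE r' e) : r = r' := by
  induction e using Sym2.inductionOn with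
  | _ p q => rw [← h p (Sym2.mem_mk_left _ _), ← h' p (Sym2.mem_mk_left _ _)]

lemma ColE.ne {r r' : ℤ} {e : Sym2 (ℤ × ℤ)} (h : ColE r e) (h' : ColE r' e) : r = r' := by
  induction e using Sym2.inductionOn with
  | _ p q => rw [← h p (Sym2.mem_mk_left _ _), ← h' p (Sym2.mem_mk_left _ _)]

lemma RowE.not_col {r c : ℤ} {e : Sym2 (ℤ × ℤ)} (h : RowE r e) (h' : ColE c e)
    {u v : ℤ × ℤ} {w : squareLattice.Walk u v} (he : e ∈ w.edges) : False := by
  induction e using Sym2.inductionOn with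
  | _ p q =>
    have hadj := w.adj_of_mem_edges he
    apply hadj.ne
    ext
    · rw [h' p (Sym2.mem_mk_left _ _), h' q (Sym2.mem_mk_right _ _)]
    · rw [h p (Sym2.mem_mk_left _ _), h q (Sym2.mem_mk_right _ _)]

/-- one route: row `r`, column `c`, row `s` -/
lemma exists_route {a b y0 R : ℤ} {x x' r s c : ℤ} (hx : a ≤ x) (hx' : x ≤ b) (hy : a ≤ x')
    (hy' : x' ≤ b) (hc : a ≤ c) (hc' : c < b) (hr : y0 - R ≤ r) (hr' : r ≤ y0 + R)
    (hs : y0 - R ≤ s) (hs' : s ≤ y0 + R) :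
    ∃ w : squareLattice.Walk (x, r) (x', s), (w.length : ℤ) ≤ 2 * (b - a) + 2 * R ∧
      (∀ e ∈ w.edges, e ∈ Box a b y0 R) ∧ ∀ e ∈ w.edges, RowE r e ∨ ColE c e ∨ RowE s e := by
  obtain ⟨w1, h1, s1⟩ := exists_walk_row x r c
  obtain ⟨w2, h2, s2⟩ := exists_walk_col c r s
  obtain ⟨w3, h3, s3⟩ := exists_walk_row c s x'
  refine ⟨w1.append (w2.append w3), ?_, ?_, ?_⟩
  · rw [SimpleGraph.Walk.length_append, SimpleGraph.Walk.length_append, h1, h2, h3]
    omega
  · intro e he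
    rw [SimpleGraph.Walk.edges_append, SimpleGraph.Walk.edges_append, List.mem_append,
      List.mem_append] at he
    rcases he with he | he | he
    · induction e using Sym2.inductionOn with
      | _ p q =>
        have hadj := w1.adj_of_mem_edges he
        rw [mem_Box_adj hadj]
        have hp := s1 p (edge_mem_support w1 he (Sym2.mem_mk_left _ _))
        have hq := s1 q (edge_mem_support w1 he (Sym2.mem_mk_right _ _))
        have hne : p.1 ≠ q.1 := by
          intro h; exact hadj.ne (Prod.ext h (by rw [hp.1, hq.1]))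
        omega
    · induction e using Sym2.inductionOn with
      | _ p q =>
        have hadj := w2.adj_of_mem_edges he
        rw [mem_Box_adj hadj]
        have hp := s2 p (edge_mem_support w2 he (Sym2.mem_mk_left _ _))
        have hq := s2 q (edge_mem_support w2 he (Sym2.mem_mk_right _ _))
        omega
    · induction e using Sym2.inductionOn with
      | _ p q =>
        have hadj := w3.adj_of_mem_edges he
        rw [mem_Box_adj hadj]
        have hp := s3 p (edge_mem_support w3 he (Sym2.mem_mk_left _ _))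
        have hq := s3 q (edge_mem_support w3 he (Sym2.mem_mk_right _ _))
        have hne : p.1 ≠ q.1 := by
          intro h; exact hadj.ne (Prod.ext h (by rw [hp.1, hq.1]))
        omega
  · intro e he
    rw [SimpleGraph.Walk.edges_append, SimpleGraph.Walk.edges_append, List.mem_append,
      List.mem_append] at he
    rcases he with he | he | he
    · exact Or.inl fun p hp => (s1 p (edge_mem_support w1 he hp)).1
    · exact Or.inr (Or.inl fun p hp => (s2 p (edge_mem_support w2 he hp)).1)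
    · exact Or.inr (Or.inr fun p hp => (s3 p (edge_mem_support w3 he hp)).1)

/-- `E TE^2 ≤ L^7 mom G 5 2` from five edge-disjoint routes -/
theorem lintegral_TE_sq_le (G : Measure ℝ) [IsProbabilityMeasure G] (h0 : G (Set.Iio 0) = 0)
    {a b y0 R x x' y y' : ℤ} {l l' : ℕ} (hab : a + 5 ≤ b) (hx : a ≤ x) (hx' : x ≤ b)
    (hy : a ≤ x') (hy' : x' ≤ b) (h1 : y0 - R ≤ y) (h2 : y + l ≤ y0 + R + 1)
    (h3 : y0 - R ≤ y') (h4 : y' + l' ≤ y0 + R + 1) (hl : 15 ≤ l) (hl' : 15 ≤ l')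
    {L : ℕ} (hL : 2 * (b - a) + 2 * R ≤ L) :
    ∫⁻ t, ENNReal.ofReal (TE (Box a b y0 R) (seg x y l) (seg x' y' l') t) ^ (2:ℝ) ∂(iidLaw G) ≤
      (L:ℝ≥0∞) ^ (2:ℝ) * (L:ℝ≥0∞) ^ 5 * mom G 5 2 := by
  -- the offset
  obtain ⟨o, ho, ho', hoff⟩ : ∃ o : ℤ, 0 ≤ o ∧ o ≤ 10 ∧ ∀ i j : ℤ, 0 ≤ i → i ≤ 4 → 0 ≤ j → j ≤ 4 →
      y + i ≠ y' + o + j := by
    by_cases h : y ≤ y' + 4 ∧ y' ≤ y + 4
    · exact ⟨10, by norm_num, le_rfl, fun i j _ _ _ _ => by omega⟩
    · exact ⟨0, le_rfl, by norm_num, fun i j _ _ _ _ => by omega⟩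
  have hroute : ∀ i : Fin 5, ∃ w : squareLattice.Walk (x, y + (i:ℕ)) (x', y' + o + (i:ℕ)),
      (w.length : ℤ) ≤ 2 * (b - a) + 2 * R ∧ (∀ e ∈ w.edges, e ∈ Box a b y0 R) ∧
      ∀ e ∈ w.edges, RowE (y + (i:ℕ)) e ∨ ColE (a + (i:ℕ)) e ∨ RowE (y' + o + (i:ℕ)) e := by
    intro i
    have := i.2
    exact exists_route hx hx' hy hy' (by omega) (by omega) (by omega) (by omega) (by omega)
      (by omega)
  choose W hW1 hW2 hW3 using hroute
  have hdisj : ∀ i j : Fin 5, i ≠ j → (W i).edges.Disjoint (W j).edges := by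
    intro i j hij e he he'
    have hi := i.2
    have hj := j.2
    have hij' : (i:ℕ) ≠ (j:ℕ) := fun h => hij (Fin.ext h)
    have h0 : ((i:ℕ):ℤ) ≠ (j:ℕ) := by exact_mod_cast hij'
    rcases hW3 i e he with h | h | h <;> rcases hW3 j e he' with h' | h' | h'
    · have := h.ne h'; omega
    · exact h.not_col h' he
    · exact hoff i j (by omega) (by omega) (by omega) (by omega) (h.ne h')
    · exact h'.not_col h he'
    · have := h.ne h'; omega
    · exact h'.not_col h he'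
    · exact hoff j i (by omega) (by omega) (by omega) (by omega) (h'.ne h)
    · exact h.not_col h' he
    · have := h.ne h'; omega
  have h5 := lintegral_min_lists_le G (k := 5) (p := 2) (by norm_num) L (fun i => (W i).edges)
    hdisj (fun i => by
      rw [SimpleGraph.Walk.length_edges]
      have := hW1 i
      omega)
  refine le_trans ?_ h5
  apply lintegral_mono_ae
  filter_upwards [ae_Nn h0] with t ht
  apply ENNReal.rpow_le_rpow _ (by norm_num)
  apply le_iInf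
  intro i
  apply ENNReal.ofReal_le_ofReal
  have hi := i.2
  exact TE_le_walk ht (W i) (hW2 i) (by rw [mem_seg]; refine ⟨rfl, ?_, ?_⟩ <;> simp only <;> omega)
    (by rw [mem_seg]; refine ⟨rfl, ?_, ?_⟩ <;> simp only <;> omega)

lemma memLp_TE (G : Measure ℝ) [IsProbabilityMeasure G] (h0 : G (Set.Iio 0) = 0)
    (hm : mom G 5 2 < ⊤)
    {a b y0 R x x' y y' : ℤ} {l l' : ℕ} (hab : a + 5 ≤ b) (hx : a ≤ x) (hx' : x ≤ b)
    (hy : a ≤ x') (hy' : x' ≤ b) (h1 : y0 - R ≤ y) (h2 : y + l ≤ y0 + R + 1)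
    (h3 : y0 - R ≤ y') (h4 : y' + l' ≤ y0 + R + 1) (hl : 15 ≤ l) (hl' : 15 ≤ l') :
    MemLp (TE (Box a b y0 R) (seg x y l) (seg x' y' l')) 2 (iidLaw G) := by
  refine ⟨(measurable_TE _ _ _).aestronglyMeasurable, ?_⟩
  rw [eLpNorm_lt_top_iff_lintegral_rpow_enorm_lt_top (by norm_num) (by norm_num)]
  have h5 := lintegral_TE_sq_le G h0 hab hx hx' hy hy' h1 h2 h3 h4 hl hl'
    (L := (2 * (b - a) + 2 * R).toNat) (by omega)
  refine lt_of_le_of_lt (le_trans (le_of_eq ?_) h5) ?_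
  · apply lintegral_congr_ae
    filter_upwards [ae_Nn h0] with t ht
    rw [Real.enorm_eq_ofReal (TE_nonneg ht)]
    simp
  · refine ENNReal.mul_lt_top (ENNReal.mul_lt_top ?_ ?_) hm
    · exact ENNReal.rpow_lt_top_of_nonneg (by norm_num) (ENNReal.natCast_ne_top _)
    · exact ENNReal.pow_lt_top (ENNReal.natCast_lt_top _)

end Crest.Agent.R151.M51
end

-- ▼ part R151/M51G
section

/-!
# R151, block MOM (helper51), part G: variance of the truncated segment-to-segment time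
-/

set_option autoImplicit false

open MeasureTheory ProbabilityTheory
open scoped ENNReal
open Crest.ProbabilityR.FirstPassage
open Crest.Agent.R151.K
open Crest.Agent.R151.V (dvar dvar_map dvar_eq pmin pmin_le exists_pmin measurable_pmin Ess
  dvar_pmin_le card_Ess_le)
open Crest.Agent.R151.U (Box mem_Box_adj seg mem_seg TE TE_le_walk measurable_TE TE_nonneg
  edge_mem_support PP mem_PP PP_nonempty TE_eq TE_eq_fun exists_walk_TE sum_edges_path)

namespace Crest.Agent.R151.M51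

/-- the law of a truncated weight -/
noncomputable def truncLaw (G : Measure ℝ) (K : ℝ) : Measure ℝ := G.map fun x => min x K

instance truncLaw_prob (G : Measure ℝ) [IsProbabilityMeasure G] (K : ℝ) :
    IsProbabilityMeasure (truncLaw G K) :=
  Measure.isProbabilityMeasure_map (measurable_id.min measurable_const).aemeasurable

lemma measurable_trunc (K : ℝ) : Measurable (trunc K) :=
  measurable_pi_iff.2 fun e => (measurable_pi_apply e).min measurable_const

lemma mp_trunc (G : Measure ℝ) [IsProbabilityMeasure G] (K : ℝ) :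
    MeasurePreserving (trunc K) (iidLaw G) (iidLaw (truncLaw G K)) := by
  refine ⟨measurable_trunc K, ?_⟩
  unfold iidLaw truncLaw
  have := Measure.infinitePi_map_pi (μ := fun _ : Sym2 (ℤ × ℤ) => G)
    (f := fun _ x => min x K) (fun _ => measurable_id.min measurable_const)
  exact this

lemma truncLaw_Iio {G : Measure ℝ} [IsProbabilityMeasure G] (h0 : G (Set.Iio 0) = 0) {K : ℝ}
    (hK : 0 ≤ K) : truncLaw G K (Set.Iio 0) = 0 := by
  unfold truncLaw
  rw [Measure.map_apply (by fun_prop) measurableSet_Iio]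
  have : (fun x : ℝ => min x K) ⁻¹' Set.Iio 0 = Set.Iio 0 := by
    ext x
    simp only [Set.mem_preimage, Set.mem_Iio, min_lt_iff]
    constructor
    · rintro (h | h)
      · exact h
      · exact absurd h (not_lt.2 hK)
    · exact Or.inl
  rw [this, h0]

lemma truncLaw_zero {G : Measure ℝ} [IsProbabilityMeasure G] (hz : G {0} = 0) {K : ℝ}
    (hK : 0 < K) : truncLaw G K {0} = 0 := by
  unfold truncLaw
  rw [Measure.map_apply (by fun_prop) (measurableSet_singleton 0)]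
  have : (fun x : ℝ => min x K) ⁻¹' {0} = {0} := by
    ext x
    simp only [Set.mem_preimage, Set.mem_singleton_iff]
    constructor
    · intro h
      rcases min_choice x K with h' | h'
      · rw [← h', h]
      · exfalso; rw [h] at h'; linarith
    · rintro rfl
      exact min_eq_left hK.le
  rw [this, hz]

lemma Bad_mono {c : ℝ} {n : ℕ} {x : ℤ × ℤ} {s t : Environment} (hst : ∀ e, s e ≤ t e)
    (h : t ∈ Bad c n x) : s ∈ Bad c n x := by
  obtain ⟨f, hf, hc⟩ := h
  refine ⟨f, hf, lt_of_le_of_lt ?_ hc⟩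
  unfold cst
  exact List.sum_le_sum fun e _ => hst e

/-- the constant of the linear lower bound, uniform in the truncation level `K ≥ 1` -/
theorem exists_prob_Bad_trunc {G : Measure ℝ} [IsProbabilityMeasure G] (h0 : G (Set.Iio 0) = 0)
    (hz : G {0} = 0) : ∃ c : ℝ, 0 < c ∧ ∀ K : ℝ, 1 ≤ K → ∀ (n : ℕ) (x : ℤ × ℤ),
      iidLaw G {t | trunc K t ∈ Bad c n x} ≤ ENNReal.ofReal ((1 / 2) ^ n) := by
  obtain ⟨c, hc, hb⟩ := prob_Bad_le (G := truncLaw G 1) (truncLaw_Iio h0 zero_le_one)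
    (truncLaw_zero hz one_pos)
  refine ⟨c, hc, fun K hK n x => ?_⟩
  calc iidLaw G {t | trunc K t ∈ Bad c n x}
      ≤ iidLaw G ((trunc 1) ⁻¹' (Bad c n x)) := by
        apply measure_mono
        intro t ht
        exact Bad_mono (fun e => min_le_min le_rfl hK) ht
    _ = iidLaw (truncLaw G 1) (Bad c n x) :=
        (mp_trunc G 1).measure_preimage (measurableSet_Bad c n x).nullMeasurableSet
    _ ≤ _ := by
        have : IsProbabilityMeasure (iidLaw (truncLaw G 1)) := by unfold iidLaw; infer_instance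
        rw [← ENNReal.ofReal_toReal (measure_ne_top (iidLaw (truncLaw G 1)) (Bad c n x))]
        exact ENNReal.ofReal_le_ofReal (hb n x)

lemma card_Box_le {a b y0 R : ℤ} {L : ℕ} (hab : a ≤ b) (hR : 0 ≤ R)
    (hL : 2 * (b - a) + 2 * R ≤ L) : (Box a b y0 R).card ≤ 2 * (L + 1) ^ 2 := by
  unfold Box
  refine (Finset.card_union_le _ _).trans ?_
  have h1 := (Finset.card_image_le (s := Finset.Ico a b ×ˢ Finset.Icc (y0 - R) (y0 + R))
    (f := fun p : ℤ × ℤ => eH p.1 p.2))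
  have h2 := (Finset.card_image_le (s := Finset.Ico a b ×ˢ Finset.Ico (y0 - R) (y0 + R))
    (f := fun p : ℤ × ℤ => eV p.1 p.2))
  rw [Finset.card_product, Int.card_Ico, Int.card_Icc] at h1
  rw [Finset.card_product, Int.card_Ico, Int.card_Ico] at h2
  have e1 : (b - a).toNat ≤ L + 1 := by omega
  have e2 : (y0 + R + 1 - (y0 - R)).toNat ≤ L + 1 := by omega
  have e3 : (y0 + R - (y0 - R)).toNat ≤ L + 1 := by omega
  have m1 := Nat.mul_le_mul e1 e2
  have m2 := Nat.mul_le_mul e1 e3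
  nlinarith

/-- geometric data: the box, the two segments, the length bound -/
structure Geo (a b y0 R x x' y y' : ℤ) (l l' L : ℕ) : Prop where
  hab : a + 5 ≤ b
  hx : a ≤ x
  hx' : x ≤ b
  hy : a ≤ x'
  hy' : x' ≤ b
  h1 : y0 - R ≤ y
  h2 : y + l ≤ y0 + R + 1
  h3 : y0 - R ≤ y'
  h4 : y' + l' ≤ y0 + R + 1
  hl : 15 ≤ l
  hl' : 15 ≤ l'
  hL : 2 * (b - a) + 2 * R ≤ L

variable {a b y0 R x x' y y' : ℤ} {l l' L : ℕ}

lemma Geo.conn (g : Geo a b y0 R x x' y y' l l' L) :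
    Crest.Agent.R151.U.Conn (↑(Box a b y0 R)) (seg x y l) (seg x' y' l') := by
  obtain ⟨hab, hx, hx', hy, hy', h1, h2, h3, h4, hl, hl', hL⟩ := g
  obtain ⟨w, -, hw, -⟩ := exists_route (a := a) (b := b) (y0 := y0) (R := R) (x := x) (x' := x')
    (r := y) (s := y') (c := a) hx hx' hy hy' le_rfl (by omega) (by omega) (by omega) (by omega)
    (by omega)
  exact Crest.Agent.R151.U.conn_walk w (fun e he => by exact_mod_cast hw e he)
    (by rw [mem_seg]; refine ⟨rfl, ?_, ?_⟩ <;> simp only <;> omega)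
    (by rw [mem_seg]; refine ⟨rfl, ?_, ?_⟩ <;> simp only <;> omega)

lemma Geo.TE_trunc_le (g : Geo a b y0 R x x' y y' l l' L) {K : ℝ} (hK : 0 ≤ K) {t : Environment}
    (ht : Nn t) : TE (Box a b y0 R) (seg x y l) (seg x' y' l') (trunc K t) ≤ L * K := by
  obtain ⟨hab, hx, hx', hy, hy', h1, h2, h3, h4, hl, hl', hL⟩ := g
  obtain ⟨w, hw1, hw, -⟩ := exists_route (a := a) (b := b) (y0 := y0) (R := R) (x := x) (x' := x')
    (r := y) (s := y') (c := a) hx hx' hy hy' le_rfl (by omega) (by omega) (by omega) (by omega)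
    (by omega)
  have e1 := TE_le_walk (A := seg x y l) (B := seg x' y' l') (trunc_Nn hK ht) w hw
    (by rw [mem_seg]; refine ⟨rfl, ?_, ?_⟩ <;> simp only <;> omega)
    (by rw [mem_seg]; refine ⟨rfl, ?_, ?_⟩ <;> simp only <;> omega)
  have e2 := walkCost_le_of_le (s := trunc K t) (lam := K) w (fun e _ => min_le_right _ _)
  have e3 : (w.length : ℝ) ≤ L := by
    have : w.length ≤ L := by omega
    exact_mod_cast this
  have e4 := mul_le_mul_of_nonneg_right e3 hK
  linarith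

open Classical in
/-- deterministic bound of the number of essential edges -/
lemma Geo.card_Ess (g : Geo a b y0 R x x' y y' l l' L) {s : Environment} (hs : Nn s) {c : ℝ}
    {n1 : ℕ} (hn1 : TE (Box a b y0 R) (seg x y l) (seg x' y' l') s < c * n1)
    (hb : ∀ u ∈ seg x y l, s ∉ Bad c n1 u) :
    (((PP (Box a b y0 R) (seg x y l) (seg x' y' l')).biUnion id).filter
      (fun e => Ess (PP (Box a b y0 R) (seg x y l) (seg x' y' l')) (PP_nonempty g.conn) s e)).card
      ≤ n1 := by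
  obtain ⟨u, hu, v, hv, w, hwp, hw, hcw⟩ := exists_walk_TE hs g.conn
  have hmem : w.edges.toFinset ∈ PP (Box a b y0 R) (seg x y l) (seg x' y' l') := by
    rw [mem_PP]
    refine ⟨fun e he => hw e (by simpa using he), ?_⟩
    exact Crest.Agent.R151.U.conn_walk w (fun e he => by simpa using he) hu hv
  have hsum : ∑ i ∈ w.edges.toFinset, s i =
      pmin (PP (Box a b y0 R) (seg x y l) (seg x' y' l')) (PP_nonempty g.conn) s := by
    apply le_antisymm
    · rw [← sum_edges_path w hwp, ← TE_eq g.conn]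
      exact hcw
    · exact pmin_le hmem s
  refine (card_Ess_le _ _ s hmem hsum).trans ?_
  refine (List.toFinset_card_le _).trans ?_
  rw [SimpleGraph.Walk.length_edges]
  by_contra hlt
  push Not at hlt
  have := cost_ge_of_not_Bad hs (hb u hu) w hwp.isTrail.edges_nodup hlt.le
  linarith

lemma biUnion_PP_subset (E : Finset (Sym2 (ℤ × ℤ))) (A B : Set (ℤ × ℤ)) [DecidableEq (Sym2 (ℤ × ℤ))] :
    (PP E A B).biUnion id ⊆ E := by
  intro e he
  rw [Finset.mem_biUnion] at he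
  obtain ⟨S, hS, he⟩ := he
  exact (mem_PP.1 hS).1 he

/-- `dvar` of the truncated time is at most `C K^3 L` -/
theorem exists_dvar_trunc_le {G : Measure ℝ} [IsProbabilityMeasure G] (h0 : G (Set.Iio 0) = 0)
    (hz : G {0} = 0) : ∃ C : ℝ, 0 ≤ C ∧ ∀ (a b y0 R x x' y y' : ℤ) (l l' L : ℕ),
      Geo a b y0 R x x' y y' l l' L → ∀ K : ℝ, 1 ≤ K →
      dvar (iidLaw G) (fun t => TE (Box a b y0 R) (seg x y l) (seg x' y' l') (trunc K t)) ≤
        ENNReal.ofReal (C * K ^ 3 * L) := by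
  classical
  obtain ⟨c, hc, hB⟩ := exists_prob_Bad_trunc h0 hz
  refine ⟨2 * (1 / c + 10), by positivity, ?_⟩
  intro a b y0 R x x' y y' l l' L g K hK
  have hK0 : 0 ≤ K := by linarith
  have hL1 : 10 ≤ L := by
    have := g.hab
    have := g.hL
    have := g.h1
    have := g.h2
    have := g.hl
    omega
  set E := Box a b y0 R with hE
  set A := seg x y l with hA
  set B := seg x' y' l' with hB'
  have hconn := g.conn
  set GK := truncLaw G K with hGK
  have hae : ∀ᵐ u ∂GK, 0 ≤ u := ae_nonneg (truncLaw_Iio h0 hK0)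
  -- reduction to the truncated law
  have e1 : dvar (iidLaw G) (fun t => TE E A B (trunc K t)) = dvar (iidLaw GK) (TE E A B) := by
    have : SFinite (iidLaw GK) := by unfold iidLaw; infer_instance
    exact (dvar_map (mp_trunc G K) (measurable_TE E A B)).symm
  rw [e1, TE_eq_fun hconn]
  refine (dvar_pmin_le GK hae (PP E A B) (PP_nonempty hconn)).trans ?_
  -- second moment of the truncated weight
  have e2 : ∫⁻ u, ENNReal.ofReal (u ^ 2) ∂GK ≤ ENNReal.ofReal (K ^ 2) := by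
    rw [hGK, truncLaw, lintegral_map (by fun_prop) (by fun_prop)]
    calc ∫⁻ u, ENNReal.ofReal ((min u K) ^ 2) ∂G ≤ ∫⁻ _u, ENNReal.ofReal (K ^ 2) ∂G := by
          apply lintegral_mono_ae
          filter_upwards [ae_nonneg h0] with u hu
          apply ENNReal.ofReal_le_ofReal
          exact pow_le_pow_left₀ (le_min hu hK0) (min_le_right _ _) 2
      _ = _ := by simp
  -- number of essential edges
  set n1 : ℕ := ⌊L * K / c⌋₊ + 1 + 3 * (L + 1) with hn1
  have hn1c : (L:ℝ) * K < c * n1 := by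
    have h1 := Nat.lt_floor_add_one ((L:ℝ) * K / c)
    rw [div_lt_iff₀ hc] at h1
    rw [hn1]; push_cast
    nlinarith
  set F : Environment → ℕ := fun s => (((PP E A B).biUnion id).filter
      (fun e => Ess (PP E A B) (PP_nonempty hconn) s e)).card with hF
  have hFE : ∀ s, F s ≤ 2 * (L + 1) ^ 2 := by
    intro s
    refine (Finset.card_le_card ((Finset.filter_subset _ _).trans (biUnion_PP_subset E A B))).trans ?_
    have := g.hab
    have := g.h1
    have := g.h2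
    exact card_Box_le (by omega) (by omega) g.hL
  set rows : Finset (ℤ × ℤ) := (Finset.Ico y (y + l)).image fun r => (x, r) with hrows
  have hrows_mem : ∀ u ∈ A, u ∈ rows := by
    rintro ⟨u1, u2⟩ hu
    rw [hA, mem_seg] at hu
    rw [hrows, Finset.mem_image]
    exact ⟨u2, Finset.mem_Ico.2 ⟨hu.2.1, hu.2.2⟩, by rw [← hu.1]⟩
  have hrows_card : rows.card ≤ L + 1 := by
    refine Finset.card_image_le.trans ?_
    rw [Int.card_Ico]
    have := g.hab
    have := g.h1
    have := g.h2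
    have := g.hL
    omega
  have e3 : ∫⁻ s, (F s : ℝ≥0∞) ∂(iidLaw GK) ≤
      ENNReal.ofReal ((1 / c + 10) * K * L) := by
    have e4 : ∫⁻ s, (F s : ℝ≥0∞) ∂(iidLaw GK) ≤ ∫⁻ t, ((n1 : ℝ≥0∞) +
        ∑ u ∈ rows, Set.indicator {t : Environment | trunc K t ∈ Bad c n1 u}
          (fun _ => ((2 * (L + 1) ^ 2 : ℕ) : ℝ≥0∞)) t) ∂(iidLaw G) := by
      rw [← (mp_trunc G K).map_eq]
      refine (lintegral_map_le _ _).trans ?_
      apply lintegral_mono_ae
      filter_upwards [ae_Nn h0] with t ht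
      by_cases hbad : ∃ u ∈ rows, trunc K t ∈ Bad c n1 u
      · obtain ⟨u, hu, hub⟩ := hbad
        refine le_trans ?_ le_add_self
        refine le_trans ?_ (Finset.single_le_sum (fun _ _ => zero_le) hu)
        rw [Set.indicator_of_mem (by exact hub)]
        exact_mod_cast hFE _
      · push Not at hbad
        refine le_trans ?_ le_self_add
        have h1 : TE E A B (trunc K t) < c * n1 :=
          lt_of_le_of_lt (g.TE_trunc_le hK0 ht) hn1c
        have h2 := g.card_Ess (trunc_Nn hK0 ht) h1 (fun u hu => hbad u (hrows_mem u hu))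
        exact_mod_cast h2
    refine e4.trans ?_
    have hP : IsProbabilityMeasure (iidLaw G) := by unfold iidLaw; infer_instance
    have hmeas : ∀ u, MeasurableSet {t : Environment | trunc K t ∈ Bad c n1 u} := fun u =>
      measurable_trunc K (measurableSet_Bad c n1 u)
    rw [lintegral_add_left measurable_const, lintegral_const, measure_univ, mul_one,
      lintegral_finsetSum _ (fun u _ => measurable_const.indicator (hmeas u))]
    have e5 : ∀ u ∈ rows, ∫⁻ t, Set.indicator {t : Environment | trunc K t ∈ Bad c n1 u}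
          (fun _ => ((2 * (L + 1) ^ 2 : ℕ) : ℝ≥0∞)) t ∂(iidLaw G) ≤
          ENNReal.ofReal (2 * ((L:ℝ) + 1) ^ 2 * (1 / 2) ^ n1) := by
      intro u _
      rw [lintegral_indicator_const (hmeas u)]
      refine (mul_le_mul' le_rfl (hB K hK n1 u)).trans (le_of_eq ?_)
      rw [ENNReal.ofReal_mul (by positivity)]
      congr 1
      rw [← ENNReal.ofReal_natCast]
      congr 1
      push_cast; ring
    refine (add_le_add le_rfl (Finset.sum_le_sum e5)).trans ?_
    rw [Finset.sum_const, nsmul_eq_mul]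
    have e6 : (rows.card : ℝ≥0∞) * ENNReal.ofReal (2 * ((L:ℝ) + 1) ^ 2 * (1 / 2) ^ n1) ≤
        ENNReal.ofReal 2 := by
      rw [← ENNReal.ofReal_natCast, ← ENNReal.ofReal_mul (by positivity)]
      apply ENNReal.ofReal_le_ofReal
      have f1 : (rows.card : ℝ) ≤ L + 1 := by exact_mod_cast hrows_card
      have f2 : ((1:ℝ) / 2) ^ n1 ≤ ((1 / 2) ^ (L + 1)) ^ 3 := by
        rw [← pow_mul]
        apply pow_le_pow_of_le_one (by norm_num) (by norm_num)
        rw [hn1]; omega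
      have f3 : ((1:ℝ) / 2) ^ (L + 1) ≤ 1 / (L + 1) := by
        rw [one_div_pow]
        apply one_div_le_one_div_of_le (by positivity)
        have := (Nat.lt_two_pow_self (n := L + 1)).le
        exact_mod_cast this
      have f4 : ((1:ℝ) / 2) ^ n1 ≤ (1 / (L + 1)) ^ 3 :=
        f2.trans (pow_le_pow_left₀ (by positivity) f3 3)
      calc (rows.card : ℝ) * (2 * ((L:ℝ) + 1) ^ 2 * (1 / 2) ^ n1)
          ≤ ((L:ℝ) + 1) * (2 * ((L:ℝ) + 1) ^ 2 * (1 / (L + 1)) ^ 3) := by gcongr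
        _ = 2 := by field_simp
    refine (add_le_add le_rfl e6).trans ?_
    rw [← ENNReal.ofReal_natCast, ← ENNReal.ofReal_add (by positivity) (by norm_num)]
    apply ENNReal.ofReal_le_ofReal
    have g1 : (⌊(L:ℝ) * K / c⌋₊ : ℝ) ≤ L * K / c := Nat.floor_le (by positivity)
    have hLr : (10:ℝ) ≤ L := by exact_mod_cast hL1
    have g2 : (L:ℝ) ≤ K * L := by nlinarith
    rw [hn1]; push_cast
    have g3 : (1 / c + 10) * K * L = L * K / c + 10 * (K * L) := by
      field_simp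
    rw [g3]
    nlinarith
  calc (2 * ∫⁻ u, ENNReal.ofReal (u ^ 2) ∂GK) * ∫⁻ s, (F s : ℝ≥0∞) ∂(iidLaw GK)
      ≤ (2 * ENNReal.ofReal (K ^ 2)) * ENNReal.ofReal ((1 / c + 10) * K * L) := by gcongr
    _ = ENNReal.ofReal (2 * (1 / c + 10) * K ^ 3 * L) := by
        have : (2:ℝ≥0∞) = ENNReal.ofReal 2 := by simp
        rw [this, ← ENNReal.ofReal_mul (by norm_num), ← ENNReal.ofReal_mul (by positivity)]
        congr 1; ring

end Crest.Agent.R151.M51
end

-- ▼ part R151/M51H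
section

/-!
# R151, block MOM (helper51), part H: the deviation bound (DEV) for the general law
-/

set_option autoImplicit false

open MeasureTheory ProbabilityTheory
open scoped ENNReal
open Crest.ProbabilityR.FirstPassage
open Crest.Agent.R151.K
open Crest.Agent.R151.V (dvar dvar_eq)
open Crest.Agent.R151.U (Box seg mem_seg TE measurable_TE TE_nonneg TE_le exists_TE)

namespace Crest.Agent.R151.M51

lemma iidLaw_prob (G : Measure ℝ) [IsProbabilityMeasure G] : IsProbabilityMeasure (iidLaw G) := by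
  unfold iidLaw; infer_instance

lemma abs_dev_le_sqrt {Ω : Type*} [MeasurableSpace Ω] {P : Measure Ω} [IsProbabilityMeasure P]
    {f : Ω → ℝ} (hf : MemLp f 2 P) :
    ∫ t, |f t - ∫ s, f s ∂P| ∂P ≤ Real.sqrt (variance f P) := by
  have h1 : MemLp (fun t => |f t - ∫ s, f s ∂P|) 2 P :=
    (hf.sub (memLp_const _)).norm
  have h2 := variance_nonneg (fun t => |f t - ∫ s, f s ∂P|) P
  rw [variance_eq_sub h1] at h2
  apply Real.le_sqrt_of_sq_le
  have h3 : (∫ t, ((fun t => |f t - ∫ s, f s ∂P|) ^ 2) t ∂P) = variance f P := by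
    rw [variance_eq_integral hf.aestronglyMeasurable.aemeasurable]
    apply integral_congr_ae
    filter_upwards with t
    simp [sq_abs]
  rw [h3] at h2
  linarith

/-- Hölder: `∫ |D| ≤ sqrt(∫ X²) sqrt(P bad)` when `0 ≤ D ≤ X` and `D = 0` off `bad` -/
lemma lintegral_bad_le {Ω : Type*} [MeasurableSpace Ω] {P : Measure Ω} [IsProbabilityMeasure P]
    {D X : Ω → ℝ} (hX : Measurable X) {bad : Set Ω} (hbad : MeasurableSet bad)
    (hDX : ∀ᵐ t ∂P, D t ≤ X t) (hD0 : ∀ᵐ t ∂P, t ∉ bad → D t ≤ 0) {A B : ℝ≥0∞}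
    (hA : ∫⁻ t, ENNReal.ofReal (X t) ^ (2:ℝ) ∂P ≤ A) (hB : P bad ≤ B) :
    ∫⁻ t, ENNReal.ofReal (D t) ∂P ≤ (A * B) ^ (1 / 2 : ℝ) := by
  have h1 : ∫⁻ t, ENNReal.ofReal (D t) ∂P ≤
      ∫⁻ t, ((fun t => ENNReal.ofReal (X t)) * (bad.indicator fun _ => (1:ℝ≥0∞))) t ∂P := by
    apply lintegral_mono_ae
    filter_upwards [hDX, hD0] with t h1 h2
    rw [Pi.mul_apply]
    by_cases ht : t ∈ bad
    · rw [Set.indicator_of_mem ht, mul_one]
      exact ENNReal.ofReal_le_ofReal h1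
    · rw [ENNReal.ofReal_of_nonpos (h2 ht)]
      exact zero_le
  refine h1.trans ?_
  have h2 := ENNReal.lintegral_mul_le_Lp_mul_Lq P (p := 2) (q := 2)
    (by constructor <;> norm_num) hX.ennreal_ofReal.aemeasurable
    (measurable_const.indicator hbad : Measurable (bad.indicator fun _ => (1:ℝ≥0∞))).aemeasurable
  refine h2.trans ?_
  rw [ENNReal.mul_rpow_of_nonneg _ _ (by norm_num : (0:ℝ) ≤ 1 / 2)]
  gcongr
  have h3 : ∀ t, (bad.indicator fun _ => (1:ℝ≥0∞)) t ^ (2:ℝ) = bad.indicator (fun _ => 1) t := by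
    intro t
    by_cases ht : t ∈ bad <;> simp [ht]
  simp only [h3]
  rw [lintegral_indicator_const hbad, one_mul]
  exact hB

variable {a b y0 R x x' y y' : ℤ} {l l' L : ℕ}

/-- `P(some vertex of the box has no open ring) ≤ (L+1)² (8 m G(lam,∞))^m` -/
lemma prob_not_allEnc (G : Measure ℝ) [IsProbabilityMeasure G] (hab : a ≤ b) (hR : 0 ≤ R)
    (hL : 2 * (b - a) + 2 * R ≤ L) (lam : ℝ) (m : ℕ) :
    ∃ bad : Set Environment, MeasurableSet bad ∧ (∀ t, t ∉ bad → AllEnc a b y0 R lam m t) ∧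
      iidLaw G bad ≤ ((L + 1) ^ 2 : ℕ) * (((8 * m : ℕ) : ℝ≥0∞) * G (Set.Ioi lam)) ^ m := by
  classical
  set V : Finset (ℤ × ℤ) := Finset.Icc a b ×ˢ Finset.Icc (y0 - R) (y0 + R) with hV
  refine ⟨⋃ c ∈ V, (Enc lam m c)ᶜ, ?_, ?_, ?_⟩
  · exact Finset.measurableSet_biUnion _ fun c _ => (measurableSet_Enc lam m c).compl
  · intro t ht c hc
    simp only [Set.mem_iUnion, Set.mem_compl_iff, not_exists, not_not] at ht
    apply ht c
    unfold InB at hc
    rw [hV, Finset.mem_product, Finset.mem_Icc, Finset.mem_Icc]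
    omega
  · refine (measure_biUnion_finset_le _ _).trans ?_
    refine (Finset.sum_le_sum fun c _ => prob_not_Enc G lam m c).trans ?_
    rw [Finset.sum_const, nsmul_eq_mul]
    gcongr
    rw [hV, Finset.card_product, Int.card_Icc, Int.card_Icc]
    have e1 : (b + 1 - a).toNat ≤ L + 1 := by omega
    have e2 : (y0 + R + 1 - (y0 - R)).toNat ≤ L + 1 := by omega
    have := Nat.mul_le_mul e1 e2
    rw [sq]; exact this

/-- the deviation bound with free parameters `K`, `m` -/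
theorem exists_dev_bound {G : Measure ℝ} [IsProbabilityMeasure G] (hG : Law213 G)
    (hz : G {0} = 0) : ∃ C : ℝ, 0 ≤ C ∧ ∀ (a b y0 R x x' y y' : ℤ) (l l' L : ℕ),
      Geo a b y0 R x x' y y' l l' L → ∀ (K : ℝ) (m : ℕ), 1 ≤ K → 1 ≤ m → 2 * (m:ℤ) ≤ b - a →
      2 * m + 1 ≤ l → 2 * m + 1 ≤ l' →
      Integrable (TE (Box a b y0 R) (seg x y l) (seg x' y' l')) (iidLaw G) ∧
      ∫ t, |TE (Box a b y0 R) (seg x y l) (seg x' y' l') t -
        ∫ s, TE (Box a b y0 R) (seg x y l) (seg x' y' l') s ∂(iidLaw G)| ∂(iidLaw G) ≤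
        C * (Real.sqrt (K ^ 3 * L) +
          Real.sqrt (((L:ℝ) + 1) ^ 9 * (8 * m * (G (Set.Ioi (K / (8 * m)))).toReal) ^ m)) := by
  obtain ⟨C1, hC1, hdv⟩ := exists_dvar_trunc_le hG.h0 hz
  have hM4 := mom_four_two hG.h0 hG.mom
  have hM5 : mom G 5 2 < ⊤ := mom_lt_top hM4 (by norm_num) (by norm_num)
  set M := (mom G 5 2).toReal with hM
  have hPP := iidLaw_prob G
  refine ⟨Real.sqrt C1 + 2 * Real.sqrt M, by positivity, ?_⟩
  intro a b y0 R x x' y y' l l' L g K m hK hm hm2 hml hml'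
  have hK0 : 0 ≤ K := by linarith
  have gab := g.hab
  have gh1 := g.h1
  have gh2 := g.h2
  have ghl := g.hl
  set X := TE (Box a b y0 R) (seg x y l) (seg x' y' l') with hX
  set XK : Environment → ℝ := fun t => X (trunc K t) with hXK
  have hXm : Measurable X := measurable_TE _ _ _
  have hXKm : Measurable XK := hXm.comp (measurable_trunc K)
  have hX2 : MemLp X 2 (iidLaw G) :=
    memLp_TE G hG.h0 hM5 g.hab g.hx g.hx' g.hy g.hy' g.h1 g.h2 g.h3 g.h4 g.hl g.hl'
  have hXi : Integrable X (iidLaw G) := hX2.integrable (by norm_num)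
  have hXKb : ∀ᵐ t ∂(iidLaw G), 0 ≤ XK t ∧ XK t ≤ L * K := by
    filter_upwards [ae_Nn hG.h0] with t ht
    exact ⟨TE_nonneg (trunc_Nn hK0 ht), g.TE_trunc_le hK0 ht⟩
  have hXK2 : MemLp XK 2 (iidLaw G) := by
    refine MemLp.of_bound hXKm.aestronglyMeasurable (L * K) ?_
    filter_upwards [hXKb] with t ht
    rw [Real.norm_of_nonneg ht.1]; exact ht.2
  have hXKi : Integrable XK (iidLaw G) := hXK2.integrable (by norm_num)
  -- variance of the truncated time
  have hvar : ∫ t, |XK t - ∫ s, XK s ∂(iidLaw G)| ∂(iidLaw G) ≤ Real.sqrt C1 * Real.sqrt (K ^ 3 * L) := by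
    refine (abs_dev_le_sqrt hXK2).trans ?_
    rw [← Real.sqrt_mul hC1]
    apply Real.sqrt_le_sqrt
    have h1 := hdv a b y0 R x x' y y' l l' L g K hK
    change dvar (iidLaw G) XK ≤ _ at h1
    rw [dvar_eq hXK2] at h1
    have h2 := (ENNReal.ofReal_le_ofReal_iff (by positivity)).1 h1
    have h3 := variance_nonneg XK (iidLaw G)
    nlinarith
  -- the difference
  have hmR : (0:ℝ) < m := by exact_mod_cast hm
  set lam := K / (8 * m) with hlam
  have hlam0 : 0 ≤ lam := by positivity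
  have hKlam : 8 * m * lam ≤ K := by
    rw [hlam]
    field_simp
    exact le_rfl
  obtain ⟨bad, hbadm, hbad, hbadP⟩ := prob_not_allEnc (a := a) (b := b) (y0 := y0) (R := R)
    (L := L) G (by omega) (by omega) g.hL lam m
  have hSA : ∀ z ∈ seg x y l, InB a b y0 R z := by
    intro z hz
    rw [mem_seg] at hz
    have := g.hx
    have := g.hx'
    unfold InB; omega
  have hSB : ∀ z ∈ seg x' y' l', InB a b y0 R z := by
    intro z hz
    rw [mem_seg] at hz
    have := g.hy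
    have := g.hy'
    have := g.h3
    have := g.h4
    unfold InB; omega
  have hle : ∀ t, XK t ≤ X t := by
    intro t
    obtain ⟨S, hSE, hSc, hSt⟩ := exists_TE g.conn t
    have : X t = ∑ e ∈ S, t e := hSt
    rw [this]
    refine (TE_le hSE hSc _).trans ?_
    exact Finset.sum_le_sum fun e _ => min_le_left _ _
  have hdiff0 : ∀ᵐ t ∂(iidLaw G), t ∉ bad → X t - XK t ≤ 0 := by
    filter_upwards [ae_Nn hG.h0] with t ht hb
    have := TE_trunc (K := K) ht hlam0 hKlam hK0 hm2 (by omega) (hbad t hb) hml hml' hSA hSB g.conn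
    have h2 : X t = XK t := this
    linarith
  have hdiff1 : ∀ᵐ t ∂(iidLaw G), X t - XK t ≤ X t := by
    filter_upwards [hXKb] with t ht
    linarith [ht.1]
  have hsq := lintegral_TE_sq_le G hG.h0 g.hab g.hx g.hx' g.hy g.hy' g.h1 g.h2 g.h3 g.h4 g.hl g.hl'
    g.hL
  have hD := lintegral_bad_le (P := iidLaw G) (D := fun t => X t - XK t) hXm hbadm hdiff1 hdiff0
    hsq hbadP
  set q := (G (Set.Ioi lam)).toReal with hq
  have hDr : ∫ t, (X t - XK t) ∂(iidLaw G) ≤
      Real.sqrt M * Real.sqrt (((L:ℝ) + 1) ^ 9 * (8 * m * q) ^ m) := by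
    have hnn : 0 ≤ᵐ[iidLaw G] fun t => X t - XK t :=
      Filter.Eventually.of_forall fun t => sub_nonneg.2 (hle t)
    have hi1 : Integrable (fun t => X t - XK t) (iidLaw G) := hXi.sub hXKi
    rw [← ofReal_integral_eq_lintegral_ofReal hi1 hnn] at hD
    have hq' : G (Set.Ioi lam) = ENNReal.ofReal q :=
      (ENNReal.ofReal_toReal (measure_ne_top _ _)).symm
    have hM' : mom G 5 2 = ENNReal.ofReal M := (ENNReal.ofReal_toReal hM5.ne).symm
    have hq0 : 0 ≤ q := ENNReal.toReal_nonneg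
    have hM0 : 0 ≤ M := ENNReal.toReal_nonneg
    have e1 : ((L:ℝ≥0∞) ^ (2:ℝ) * (L:ℝ≥0∞) ^ 5 * mom G 5 2) *
        (((L + 1) ^ 2 : ℕ) * (((8 * m : ℕ) : ℝ≥0∞) * G (Set.Ioi lam)) ^ m) ≤
        ENNReal.ofReal (M * (((L:ℝ) + 1) ^ 9 * (8 * m * q) ^ m)) := by
      rw [hq', hM', ENNReal.rpow_two, ← ENNReal.ofReal_natCast, ← ENNReal.ofReal_natCast,
        ← ENNReal.ofReal_natCast, ← ENNReal.ofReal_pow (by positivity),
        ← ENNReal.ofReal_pow (by positivity), ← ENNReal.ofReal_mul (by positivity),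
        ← ENNReal.ofReal_mul (by positivity), ← ENNReal.ofReal_mul (by positivity),
        ← ENNReal.ofReal_pow (by positivity), ← ENNReal.ofReal_mul (by positivity),
        ← ENNReal.ofReal_mul (by positivity)]
      apply ENNReal.ofReal_le_ofReal
      push_cast
      have f1 : (L:ℝ) ^ 2 * (L:ℝ) ^ 5 ≤ ((L:ℝ) + 1) ^ 7 := by
        rw [← pow_add]
        exact pow_le_pow_left₀ (by positivity) (by linarith) 7
      calc (L:ℝ) ^ 2 * (L:ℝ) ^ 5 * M * (((L:ℝ) + 1) ^ 2 * (8 * m * q) ^ m)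
          ≤ ((L:ℝ) + 1) ^ 7 * M * (((L:ℝ) + 1) ^ 2 * (8 * m * q) ^ m) := by gcongr
        _ = _ := by ring
    have e2 := hD.trans (ENNReal.rpow_le_rpow e1 (by norm_num : (0:ℝ) ≤ 1 / 2))
    rw [ENNReal.ofReal_rpow_of_nonneg (by positivity) (by norm_num)] at e2
    have e3 := (ENNReal.ofReal_le_ofReal_iff (by positivity)).1 e2
    rw [← Real.sqrt_eq_rpow, Real.sqrt_mul hM0] at e3
    exact e3
  refine ⟨hXi, ?_⟩
  have hi1 : Integrable (fun t => X t - XK t) (iidLaw G) := hXi.sub hXKi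
  have hi2 : Integrable (fun t => |XK t - ∫ s, XK s ∂(iidLaw G)|) (iidLaw G) :=
    (hXKi.sub (integrable_const _)).abs
  have hS : ∫ t, |X t - ∫ s, X s ∂(iidLaw G)| ∂(iidLaw G) ≤
      ∫ t, ((X t - XK t) + |XK t - ∫ s, XK s ∂(iidLaw G)| +
        ∫ s, (X s - XK s) ∂(iidLaw G)) ∂(iidLaw G) := by
    apply integral_mono_ae
    · exact (hXi.sub (integrable_const _)).abs
    · exact (hi1.add hi2).add (integrable_const _)
    · filter_upwards with t
      have h1 : ∫ s, (X s - XK s) ∂(iidLaw G) = ∫ s, X s ∂(iidLaw G) - ∫ s, XK s ∂(iidLaw G) :=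
        integral_sub hXi hXKi
      have h2 : 0 ≤ ∫ s, (X s - XK s) ∂(iidLaw G) :=
        integral_nonneg fun s => sub_nonneg.2 (hle s)
      have h3 := hle t
      rw [abs_le]
      have h4 := abs_le.1 (le_refl |XK t - ∫ s, XK s ∂(iidLaw G)|)
      constructor
      · linarith [h4.1]
      · linarith [h4.2]
  have hI : ∫ t, ((X t - XK t) + |XK t - ∫ s, XK s ∂(iidLaw G)| +
        ∫ s, (X s - XK s) ∂(iidLaw G)) ∂(iidLaw G) =
      2 * ∫ s, (X s - XK s) ∂(iidLaw G) + ∫ t, |XK t - ∫ s, XK s ∂(iidLaw G)| ∂(iidLaw G) := by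
    have hi12 : Integrable (fun t => X t - XK t + |XK t - ∫ s, XK s ∂(iidLaw G)|) (iidLaw G) :=
      hi1.add hi2
    rw [integral_add hi12 (integrable_const _), integral_add hi1 hi2, integral_const,
      probReal_univ, smul_eq_mul]
    ring
  rw [hI] at hS
  refine hS.trans ?_
  have s1 : 0 ≤ Real.sqrt (K ^ 3 * L) := Real.sqrt_nonneg _
  have s2 : 0 ≤ Real.sqrt (((L:ℝ) + 1) ^ 9 * (8 * m * q) ^ m) := Real.sqrt_nonneg _
  have s3 : 0 ≤ Real.sqrt C1 := Real.sqrt_nonneg _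
  have s4 : 0 ≤ Real.sqrt M := Real.sqrt_nonneg _
  nlinarith [mul_nonneg s3 s2, mul_nonneg s4 s1]

end Crest.Agent.R151.M51
end

-- ▼ part R151/M51I

/-!
# R151, block MOM (helper51), part I: (DEV) and the local hypotheses of block (4) for the
general law of S0213
-/

set_option autoImplicit false

open MeasureTheory ProbabilityTheory
open scoped ENNReal
open Crest.ProbabilityR.FirstPassage
open Crest.Agent.R151.K
open Crest.Agent.R151.U (Box seg mem_seg mem_Box_adj TE measurable_TE TE_nonneg TE_le TE_le_walk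
  exists_TE len DEV Cheap edge_mem_support)

namespace Crest.Agent.R151.M51

/-- **(DEV) for the general law.** -/
theorem dev213 {G : Measure ℝ} [IsProbabilityMeasure G] (hG : Law213 G) (hz : G {0} = 0) :
    DEV G := by
  intro C0
  obtain ⟨C1, hC1, hdev⟩ := exists_dev_bound hG hz
  obtain ⟨Ct, hCt, htail⟩ := tail_le (mom_four_two hG.h0 hG.mom)
  set D : ℝ := 2048 * (Ct * Real.sqrt 2048) with hD
  have hD0 : 0 ≤ D := by positivity
  refine ⟨C1 * (Real.sqrt (4 * C0) + Real.sqrt ((4 * C0 + 1) ^ 9 * D ^ 256)), 11, ?_⟩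
  intro k hk a b y0 R x x' y y' l l' hab hba hR hx hx' hy hy' h1 h2 h3 h4 hl hl'
  -- the sizes
  have hlen : 1024 ≤ len k := by
    unfold len
    calc 1024 = 2 ^ 10 := by norm_num
      _ ≤ 2 ^ (15 * k / 16) := Nat.pow_le_pow_right (by norm_num) (by omega)
  set L : ℕ := 4 * C0 * 2 ^ k with hL
  have hLz : (L : ℤ) = 4 * (C0 * 2 ^ k) := by rw [hL]; push_cast; ring
  set K : ℝ := (2:ℝ) ^ ((k:ℝ) / 16) with hK
  have hK1 : 1 ≤ K := Real.one_le_rpow (by norm_num) (by positivity)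
  have hK0 : 0 < K := by linarith
  have g : Geo a b y0 R x x' y y' l l' L := by
    refine ⟨by omega, hx, hx', hy, hy', h1, h2, h3, h4, by omega, by omega, ?_⟩
    rw [hLz]; linarith
  obtain ⟨r1, r2⟩ := hdev a b y0 R x x' y y' l l' L g K 256 hK1 (by norm_num) (by omega)
    (by omega) (by omega)
  refine ⟨r1, r2.trans ?_⟩
  set P : ℝ := (2:ℝ) ^ ((5 / 8 : ℝ) * k) with hP
  have hP0 : 0 < P := by positivity
  have hk0 : (0:ℝ) ≤ k := Nat.cast_nonneg k
  have hP2 : P ^ 2 = (2:ℝ) ^ ((5 / 4 : ℝ) * k) := by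
    rw [hP, ← Real.rpow_natCast, ← Real.rpow_mul (by norm_num)]
    congr 1; push_cast; ring
  have h2k : ((2:ℝ) ^ k) = (2:ℝ) ^ (k:ℝ) := (Real.rpow_natCast _ _).symm
  have hLr : (L:ℝ) = 4 * C0 * (2:ℝ) ^ (k:ℝ) := by rw [hL, ← h2k]; push_cast; ring
  -- first term
  have t1 : Real.sqrt (K ^ 3 * L) ≤ Real.sqrt (4 * C0) * P := by
    rw [← Real.sqrt_sq hP0.le, ← Real.sqrt_mul (by positivity)]
    apply Real.sqrt_le_sqrt
    rw [hP2, hLr]
    have e1 : K ^ 3 * (2:ℝ) ^ (k:ℝ) ≤ (2:ℝ) ^ ((5 / 4 : ℝ) * k) := by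
      rw [hK, ← Real.rpow_natCast, ← Real.rpow_mul (by norm_num), ← Real.rpow_add (by norm_num)]
      apply Real.rpow_le_rpow_of_exponent_le (by norm_num)
      push_cast; nlinarith
    calc K ^ 3 * (4 * C0 * (2:ℝ) ^ (k:ℝ)) = 4 * C0 * (K ^ 3 * (2:ℝ) ^ (k:ℝ)) := by ring
      _ ≤ 4 * C0 * (2:ℝ) ^ ((5 / 4 : ℝ) * k) := by gcongr
  -- second term
  have t2 : Real.sqrt (((L:ℝ) + 1) ^ 9 *
      (8 * (256:ℕ) * (G (Set.Ioi (K / (8 * (256:ℕ))))).toReal) ^ 256) ≤
      Real.sqrt ((4 * C0 + 1) ^ 9 * D ^ 256) * P := by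
    rw [← Real.sqrt_sq hP0.le, ← Real.sqrt_mul (by positivity)]
    apply Real.sqrt_le_sqrt
    rw [hP2]
    have e1 : ((L:ℝ) + 1) ^ 9 ≤ (4 * C0 + 1) ^ 9 * (2:ℝ) ^ (9 * (k:ℝ)) := by
      have f1 : (1:ℝ) ≤ (2:ℝ) ^ (k:ℝ) := Real.one_le_rpow (by norm_num) hk0
      have f2 : (L:ℝ) + 1 ≤ (4 * C0 + 1) * (2:ℝ) ^ (k:ℝ) := by rw [hLr]; linarith
      have f3 : (2:ℝ) ^ (9 * (k:ℝ)) = ((2:ℝ) ^ (k:ℝ)) ^ 9 := by
        rw [← Real.rpow_natCast ((2:ℝ) ^ (k:ℝ)), ← Real.rpow_mul (by norm_num)]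
        congr 1; push_cast; ring
      rw [f3, ← mul_pow]
      exact pow_le_pow_left₀ (by positivity) f2 9
    have e2 : (G (Set.Ioi (K / (8 * (256:ℕ))))).toReal ≤
        Ct * Real.sqrt 2048 * (2:ℝ) ^ (-(k:ℝ) / 32) := by
      have f1 := htail (K / (8 * (256:ℕ))) (by positivity)
      have f2 := ENNReal.toReal_le_of_le_ofReal (by positivity) f1
      refine f2.trans (le_of_eq ?_)
      rw [mul_assoc]
      congr 1
      have f3 : K / (8 * (256:ℕ)) = K / 2048 := by norm_num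
      rw [f3, Real.div_rpow hK0.le (by norm_num), hK, ← Real.rpow_mul (by norm_num),
        Real.sqrt_eq_rpow, div_eq_mul_inv, ← Real.rpow_neg (by norm_num : (0:ℝ) ≤ 2048), mul_comm]
      congr 2
      · norm_num
      · ring
    have e3 : 8 * (256:ℕ) * (G (Set.Ioi (K / (8 * (256:ℕ))))).toReal ≤
        D * (2:ℝ) ^ (-(k:ℝ) / 32) := by
      rw [hD]
      have : (8 * ((256:ℕ):ℝ)) = 2048 := by norm_num
      rw [this]
      nlinarith [e2]
    have e4 : (8 * (256:ℕ) * (G (Set.Ioi (K / (8 * (256:ℕ))))).toReal) ^ 256 ≤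
        D ^ 256 * (2:ℝ) ^ (-8 * (k:ℝ)) := by
      refine (pow_le_pow_left₀ (by positivity) e3 256).trans (le_of_eq ?_)
      rw [mul_pow]
      congr 1
      rw [← Real.rpow_natCast ((2:ℝ) ^ (-(k:ℝ) / 32)), ← Real.rpow_mul (by norm_num)]
      congr 1; push_cast; ring
    calc ((L:ℝ) + 1) ^ 9 * (8 * (256:ℕ) * (G (Set.Ioi (K / (8 * (256:ℕ))))).toReal) ^ 256
        ≤ ((4 * C0 + 1) ^ 9 * (2:ℝ) ^ (9 * (k:ℝ))) * (D ^ 256 * (2:ℝ) ^ (-8 * (k:ℝ))) :=
          mul_le_mul e1 e4 (pow_nonneg (by positivity) _) (by positivity)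
      _ = (4 * C0 + 1) ^ 9 * D ^ 256 * ((2:ℝ) ^ (9 * (k:ℝ)) * (2:ℝ) ^ (-8 * (k:ℝ))) := by ring
      _ ≤ (4 * C0 + 1) ^ 9 * D ^ 256 * (2:ℝ) ^ ((5 / 4 : ℝ) * k) := by
          refine mul_le_mul_of_nonneg_left ?_
            (mul_nonneg (by positivity) (pow_nonneg hD0 _))
          rw [← Real.rpow_add (by norm_num)]
          apply Real.rpow_le_rpow_of_exponent_le (by norm_num)
          nlinarith
  calc C1 * (Real.sqrt (K ^ 3 * L) + Real.sqrt (((L:ℝ) + 1) ^ 9 *
      (8 * (256:ℕ) * (G (Set.Ioi (K / (8 * (256:ℕ))))).toReal) ^ 256))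
      ≤ C1 * (Real.sqrt (4 * C0) * P + Real.sqrt ((4 * C0 + 1) ^ 9 * D ^ 256) * P) := by
        gcongr
    _ = _ := by ring

/-! ### the exponential bound for long cheap paths -/

theorem pei213 {G : Measure ℝ} [IsProbabilityMeasure G] (h0 : G (Set.Iio 0) = 0)
    (hz : G {0} = 0) : ∃ c : ℝ, 0 < c ∧ ∀ (L : ℕ) (x : ℤ × ℤ), 1 ≤ L →
    (iidLaw G) (Cheap c L x) ≤ ENNReal.ofReal ((1 / 2 : ℝ) ^ L) := by
  obtain ⟨c, hc, hb⟩ := prob_Bad_le' (G := G) h0 hz (δ := 1 / 4) (by norm_num)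
  have hP := iidLaw_prob G
  refine ⟨c, hc, fun L x hL => ?_⟩
  have hsub : Cheap c L x ≤ᵐ[iidLaw G] ⋃ n : ℕ, Bad c (L + n) x := by
    filter_upwards [ae_Nn h0] with t ht
    rintro ⟨y, w, hw, hL, hc⟩
    change t ∈ ⋃ n : ℕ, Bad c (L + n) x
    rw [Set.mem_iUnion]
    refine ⟨w.length - L, ?_⟩
    have e : L + (w.length - L) = w.length := by omega
    rw [e]
    by_contra hnb
    exact absurd (cost_ge_of_not_Bad ht hnb w hw.isTrail.edges_nodup le_rfl) (not_le.2 hc)
  refine (measure_mono_ae hsub).trans ((measure_iUnion_le _).trans ?_)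
  have h1 : ∀ n : ℕ, iidLaw G (Bad c (L + n) x) ≤ ENNReal.ofReal ((1 / 4) ^ (L + n)) := by
    intro n
    have := hb (L + n) x
    rw [Measure.real] at this
    exact (ENNReal.le_ofReal_iff_toReal_le (measure_ne_top _ _) (by positivity)).2 this
  refine (ENNReal.tsum_le_tsum h1).trans ?_
  have hsum : Summable fun n : ℕ => ((1:ℝ) / 4) ^ (L + n) := by
    simp only [pow_add]
    exact (summable_geometric_of_lt_one (by norm_num) (by norm_num)).mul_left _
  rw [← ENNReal.ofReal_tsum_of_nonneg (fun n => by positivity) hsum]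
  apply ENNReal.ofReal_le_ofReal
  simp only [pow_add]
  rw [tsum_mul_left, tsum_geometric_of_lt_one (by norm_num) (by norm_num)]
  have e1 : ((1:ℝ) / 4) ^ L = (1 / 2) ^ L * (1 / 2) ^ L := by
    rw [← mul_pow]; norm_num
  have e2 : ((1:ℝ) / 2) ^ L ≤ 1 / 2 := by
    calc ((1:ℝ) / 2) ^ L ≤ (1 / 2) ^ 1 :=
          pow_le_pow_of_le_one (by norm_num) (by norm_num) hL
      _ = 1 / 2 := by norm_num
  have e3 : (0:ℝ) < (1 / 2) ^ L := by positivity
  rw [e1]
  nlinarith

/-! ### local crossings: three edge-disjoint routes give an integrable time -/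

theorem integrable_TE_of_three {G : Measure ℝ} [IsProbabilityMeasure G] (hG : Law213 G)
    (E : Finset (Sym2 (ℤ × ℤ))) (A B : Set (ℤ × ℤ)) (S : Fin 3 → List (Sym2 (ℤ × ℤ)))
    (hS : ∀ i j, i ≠ j → (S i).Disjoint (S j)) (m : ℕ) (hm : ∀ j, (S j).length ≤ m)
    (hle : ∀ t, Nn t → ∀ j, TE E A B t ≤ ((S j).map t).sum) :
    Integrable (TE E A B) (iidLaw G) := by
  have hP := iidLaw_prob G
  refine ⟨(measurable_TE _ _ _).aestronglyMeasurable, ?_⟩
  have h3 : mom G 3 1 < ⊤ := mom_lt_top (mom_four_two hG.h0 hG.mom) (by norm_num) (by norm_num)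
  have h1 := lintegral_min_lists_le G (k := 3) (p := 1) (by norm_num) m S hS hm
  rw [hasFiniteIntegral_iff_norm]
  refine lt_of_le_of_lt ?_ (lt_of_le_of_lt h1 ?_)
  · apply lintegral_mono_ae
    filter_upwards [ae_Nn hG.h0] with t ht
    rw [Real.norm_of_nonneg (TE_nonneg ht), ENNReal.rpow_one]
    exact le_iInf fun i => ENNReal.ofReal_le_ofReal (hle t ht i)
  · refine ENNReal.mul_lt_top (ENNReal.mul_lt_top ?_ ?_) h3
    · exact ENNReal.rpow_lt_top_of_nonneg (by norm_num) (by simp)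
    · exact ENNReal.pow_lt_top (by simp)

/-- version with walks -/
theorem integrable_TE_of_walks {G : Measure ℝ} [IsProbabilityMeasure G] (hG : Law213 G)
    (E : Finset (Sym2 (ℤ × ℤ))) (A B : Set (ℤ × ℤ)) {u v : Fin 3 → ℤ × ℤ}
    (W : ∀ i, squareLattice.Walk (u i) (v i))
    (hS : ∀ i j, i ≠ j → (W i).edges.Disjoint (W j).edges)
    (hu : ∀ i, u i ∈ A) (hv : ∀ i, v i ∈ B) (hE : ∀ i, ∀ e ∈ (W i).edges, e ∈ E) :
    Integrable (TE E A B) (iidLaw G) := by
  refine integrable_TE_of_three hG E A B (fun i => (W i).edges) hS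
    (∑ i, (W i).length) (fun j => ?_) (fun t ht j => ?_)
  · rw [SimpleGraph.Walk.length_edges]
    exact Finset.single_le_sum (f := fun i => (W i).length) (fun _ _ => Nat.zero_le _)
      (Finset.mem_univ j)
  · exact TE_le_walk ht (W j) (hE j) (hu j) (hv j)

lemma mem_Box_of_support {a b y0 R : ℤ} {u v : ℤ × ℤ} (w : squareLattice.Walk u v)
    (h : ∀ z ∈ w.support, a ≤ z.1 ∧ z.1 < b ∧ y0 - R ≤ z.2 ∧ z.2 ≤ y0 + R) :
    ∀ e ∈ w.edges, e ∈ Box a b y0 R := by
  intro e he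
  induction e using Sym2.inductionOn with
  | _ p q =>
    rw [mem_Box_adj (w.adj_of_mem_edges he)]
    have hp := h p (edge_mem_support w he (Sym2.mem_mk_left _ _))
    have hq := h q (edge_mem_support w he (Sym2.mem_mk_right _ _))
    omega

lemma mem_edges_wsw {x y : ℤ × ℤ} {w : squareLattice.Walk x y} {e : Sym2 (ℤ × ℤ)}
    (h : e ∈ (wsw w).edges) : ∃ f ∈ w.edges, Sym2.map sw f = e := by
  have h' : e ∈ (SimpleGraph.Walk.map sw.toHom w :
      squareLattice.Walk (sw.toHom x) (sw.toHom y)).edges := h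
  rw [SimpleGraph.Walk.edges_map, List.mem_map] at h'
  exact h'

lemma mem_support_wsw {x y : ℤ × ℤ} {w : squareLattice.Walk x y} {z : ℤ × ℤ}
    (h : z ∈ (wsw w).support) : ∃ f ∈ w.support, sw f = z := by
  have h' : z ∈ (SimpleGraph.Walk.map sw.toHom w :
      squareLattice.Walk (sw.toHom x) (sw.toHom y)).support := h
  rw [SimpleGraph.Walk.support_map, List.mem_map] at h'
  exact h'

theorem loc1_213 {G : Measure ℝ} [IsProbabilityMeasure G] (hG : Law213 G) :
    Integrable (TE (Box 0 3 0 3) {(0, 0)} {(0, 1)}) (iidLaw G) := by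
  refine integrable_TE_of_walks hG _ _ _ (u := fun _ => (0, 0)) (v := fun _ => (0, 1))
    (fun i => wsw (w3U 0 0 i)) ?_ (fun _ => rfl) (fun _ => rfl) ?_
  · intro i j hij e he he'
    obtain ⟨f, hf, hfe⟩ := mem_edges_wsw he
    obtain ⟨f', hf', hfe'⟩ := mem_edges_wsw he'
    have : f = f' := Sym2.map.injective sw.injective (hfe.trans hfe'.symm)
    subst this
    exact w3U_disj 0 0 i j hij hf hf'
  · intro i
    apply mem_Box_of_support
    intro z hz
    obtain ⟨z', hz', rfl⟩ := mem_support_wsw hz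
    have := w3U_supp 0 0 i z' hz'
    change _ ≤ z'.2 ∧ z'.2 < _ ∧ _ ≤ z'.1 ∧ z'.1 ≤ _
    omega

theorem loc2_213 {G : Measure ℝ} [IsProbabilityMeasure G] (hG : Law213 G) :
    Integrable (TE (Box 0 3 0 3) {(0, 0)} {(1, 0)}) (iidLaw G) := by
  refine integrable_TE_of_walks hG _ _ _ (u := fun _ => (0, 0)) (v := fun _ => (1, 0))
    (fun i => w3M 0 0 i) (w3M_disj 0 0) (fun _ => rfl) (fun _ => rfl) ?_
  intro i
  apply mem_Box_of_support
  intro z hz
  have := w3M_supp 0 0 i z hz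
  omega

/-- three routes from the origin to the column `3` -/
def wX : (i : Fin 3) → squareLattice.Walk (0, 0) ((3, (i:ℤ) - 1) : ℤ × ℤ)
  | 0 => .cons (v := (0, -1)) (adj_iff.2 (by omega)) <|
    .cons (v := (1, -1)) (adj_iff.2 (by omega)) <|
    .cons (v := (2, -1)) (adj_iff.2 (by omega)) <|
    .cons (adj_iff.2 (by simp)) .nil
  | 1 => .cons (v := (1, 0)) (adj_iff.2 (by omega)) <|
    .cons (v := (2, 0)) (adj_iff.2 (by omega)) <|
    .cons (adj_iff.2 (by simp)) .nil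
  | 2 => .cons (v := (0, 1)) (adj_iff.2 (by omega)) <|
    .cons (v := (1, 1)) (adj_iff.2 (by omega)) <|
    .cons (v := (2, 1)) (adj_iff.2 (by omega)) <|
    .cons (adj_iff.2 (by simp)) .nil

theorem loc3_213 {G : Measure ℝ} [IsProbabilityMeasure G] (hG : Law213 G) :
    Integrable (TE (Box 0 3 0 3) {(0, 0)} (seg 3 (-1) 3)) (iidLaw G) := by
  refine integrable_TE_of_walks hG _ _ _ (u := fun _ => (0, 0)) (v := fun i => (3, (i:ℤ) - 1))
    (fun i => wX i) ?_ (fun _ => rfl) ?_ ?_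
  · intro i j hij
    fin_cases i <;> fin_cases j <;>
      first
        | exact absurd rfl hij
        | (simp [wX, List.Disjoint])
  · intro i
    rw [mem_seg]
    have := i.2
    refine ⟨rfl, ?_, ?_⟩ <;> simp only <;> push_cast <;> omega
  · intro i e he
    fin_cases i <;>
    · simp only [wX, SimpleGraph.Walk.edges_cons, SimpleGraph.Walk.edges_nil, List.mem_cons,
        List.not_mem_nil, or_false] at he
      rcases he with rfl | rfl | rfl | rfl <;>
      · rw [mem_Box_adj (adj_iff.2 (by simp))]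
        simp

end Crest.Agent.R151.M51
private theorem rz_0dc9cc146d : type_of% @_root_.Crest.Agent.R151.M51.wX.eq_1 := @_root_.Crest.Agent.R151.M51.wX.eq_1 -- L254
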