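import Crest.Agent.R151.NF6
import Crest.Agent.R151.U750m4
import Crest.Agent.R151.G338o

/-!
# R151 / S0214 part 2, NF7 — means of the gap fences and of the window, deviations (helper710)
-/

set_option autoImplicit false

open MeasureTheory Filter ProbabilityTheory Topology Set
open Crest.ProbabilityR.FirstPassage
open Crest.Agent.R151.K Crest.Agent.R151.Q

namespace Crest.Agent.R151.NF

open B710 (FlatData)
open M56 (mg one_le_mg)

variable {μ : ℝ × ℝ → ℝ} {G : Measure ℝ} {F : FlatData μ} {w0 c0 K : ℝ}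

/-- gap times rate of a lane of width `≥ z W` is `o (l)` -/
theorem gap_rate (z A : ℕ → ℝ → ℝ → ℝ → ℝ → ℝ → ℝ → ℝ) :
    Ev fun p => 0 < z p.n p.δ p.v p.e p.v' p.δ' p.δ0 → ∀ c : Cf G F w0 c0 K p, ∀ w : ℝ,
      z p.n p.δ p.v p.e p.v' p.δ' p.δ0 * p.W ≤ w →
      |A p.n p.δ p.v p.e p.v' p.δ' p.δ0| * (c.g * rate G F w) ≤ c.l := by
  have a1 := ev_std (G := G) (F := F) (w0 := w0) (c0 := c0) (K := K)
  have a2 := le_J fun n δ v e v' δ' δ0 =>
    |A n δ v e v' δ' δ0| * (8 / z n δ v e v' δ' δ0 ^ 3 + 2) * (2 * δ')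
  have a3 := le_W fun n δ v e v' δ' δ0 _ => |w0| / z n δ v e v' δ' δ0
  refine ((a1.and a2).and a3).mono ?_
  rintro p ⟨⟨hs, hJ⟩, hW⟩ hz c w hw
  have hc := hs c
  have hp := hc.toStd
  have hW0 : 0 < p.W := zero_lt_one.trans_le hp.W
  have hJ0 : 0 < p.J := zero_lt_one.trans_le hp.J
  set a := A p.n p.δ p.v p.e p.v' p.δ' p.δ0
  set zz := z p.n p.δ p.v p.e p.v' p.δ' p.δ0 with hzz
  have hzW : 0 < zz * p.W := mul_pos hz hW0
  have hw0 : w0 ≤ w := by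
    rw [div_le_iff₀ hz] at hW
    linarith [le_abs_self w0]
  have hrt := c.rt_pos
  have hr : rate G F w ≤ (8 / zz ^ 3 + 2) * c.rt := by
    by_cases h : w ≤ p.W
    · refine (rate_near c hw0 h).trans (mul_le_mul_of_nonneg_right ?_ hrt.le)
      have hw' : 0 < w := hzW.trans_le hw
      have e1 : p.W / w ≤ 1 / zz := by
        rw [div_le_div_iff₀ hw' hz]; linarith
      have e2 : (p.W / w) ^ 3 ≤ (1 / zz) ^ 3 := pow_le_pow_left₀ (by positivity) e1 3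
      have e3 : (1 / zz) ^ 3 = 1 / zz ^ 3 := by rw [div_pow, one_pow]
      rw [e3] at e2
      have : 8 / zz ^ 3 = 8 * (1 / zz ^ 3) := by ring
      rw [this]
      linarith
    · push Not at h
      have h1 : 1 ≤ w / p.W := by rw [le_div_iff₀ hW0]; linarith
      have h2 := rate_far c hp h1
      rw [div_mul_cancel₀ _ hW0.ne'] at h2
      refine h2.trans (mul_le_mul_of_nonneg_right ?_ hrt.le)
      have h3 : (w / p.W) ^ (-0.03 : ℝ) ≤ 1 :=
        Real.rpow_le_one_of_one_le_of_nonpos h1 (by norm_num)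
      have : 0 ≤ 8 / zz ^ 3 := by positivity
      linarith
  have hrn : 0 ≤ (8 / zz ^ 3 + 2) * c.rt := by
    have : 0 ≤ 8 / zz ^ 3 := by positivity
    positivity
  have hg0 := hc.g_pos
  have hl : p.J * p.W / 2 * c.rt ≤ c.l := hc.l_ge
  have hD : 0 ≤ 8 / zz ^ 3 + 2 := by
    have : 0 ≤ 8 / zz ^ 3 := by positivity
    linarith
  calc |a| * (c.g * rate G F w) ≤ |a| * (c.g * ((8 / zz ^ 3 + 2) * c.rt)) :=
        mul_le_mul_of_nonneg_left (mul_le_mul_of_nonneg_left hr hg0.le) (abs_nonneg _)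
    _ = (|a| * (8 / zz ^ 3 + 2) * (2 * p.δ')) * (p.W / 2 * c.rt) := by rw [c.g_eq]; ring
    _ ≤ p.J * (p.W / 2 * c.rt) := mul_le_mul_of_nonneg_right hJ (by positivity)
    _ = p.J * p.W / 2 * c.rt := by ring
    _ ≤ c.l := hl

/-- the common bound of the gap fences is `o (l)` -/
theorem gap_fence (hc0 : 0 < c0) (z A : ℕ → ℝ → ℝ → ℝ → ℝ → ℝ → ℝ → ℝ) :
    Ev fun p => 0 < z p.n p.δ p.v p.e p.v' p.δ' p.δ0 → ∀ c : Cf G F w0 c0 K p,
      ∀ y g w x : ℝ, c.Ht y g →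
      z p.n p.δ p.v p.e p.v' p.δ' p.δ0 * p.W ≤ w → w ≤ 3 * c.L → |x| ≤ c.L →
      |A p.n p.δ p.v p.e p.v' p.δ' p.δ0| *
        (2 * g * rate G F w + (2 * c.L + w + c.h.κ + 1 + |x| + cF F) * c.ε) ≤ c.l := by
  have a1 := ev_lens (G := G) (F := F) (w0 := w0) (c0 := c0) (K := K)
  have a2 := gap_rate (G := G) (F := F) (w0 := w0) (c0 := c0) (K := K) z
    fun n δ v e v' δ' δ0 => 12 * A n δ v e v' δ' δ0
  have a3 := highway_small (G := G) (F := F) (w0 := w0) (K := K) hc0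
    fun n δ v e v' δ' δ0 => 2 * |A n δ v e v' δ' δ0| * (14 * v')
  refine (((a1.and a2).and a3).and Ev.std).mono ?_
  rintro p ⟨⟨⟨hl, h2⟩, h3⟩, hp⟩ hz c y g w x hyg hw hw3 hx
  have hl := hl c
  have h2 := h2 hz c w hw
  have h3 := h3 c
  have hε := c.mean.nonneg
  have hW : 0 < p.W := zero_lt_one.trans_le hl.W
  set a := A p.n p.δ p.v p.e p.v' p.δ' p.δ0
  have e1 : |12 * a| = 12 * |a| := by rw [abs_mul]; norm_num
  rw [e1] at h2
  have hlam : c.lam = p.v' * p.W := rfl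
  have hL := hl.lam_eq
  have hg0 := hl.g_pos
  have hgy0 : 0 < g := hg0.trans_le hyg.g_ge
  have b1 : |a| * (2 * g * rate G F w) ≤ c.l / 2 := by
    rcases le_or_gt 0 (rate G F w) with h | h
    · have : 2 * g * rate G F w ≤ 6 * (c.g * rate G F w) := by
        have := mul_le_mul_of_nonneg_right hyg.g_le h
        linarith
      have := mul_le_mul_of_nonneg_left this (abs_nonneg a)
      linarith
    · have : 2 * g * rate G F w ≤ 0 := by nlinarith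
      have := mul_nonpos_of_nonneg_of_nonpos (abs_nonneg a) this
      linarith [hl.l_pos]
  have b2 : (2 * c.L + w + c.h.κ + 1 + |x| + cF F) * c.ε ≤ 14 * p.v' * (p.W * c.ε) := by
    have h5 := hl.κ_le'
    have h6 := hl.sl_le
    have h6' := hl.sl_nonneg
    have h7 := hl.gW
    have h8 := hl.mg_le
    have h9 := one_le_mg F
    have h10 := cF_nonneg F
    have h11 := hl.WL
    have h12 := hl.one_le_w
    have h13 : 14 * p.v' * p.W = 14 * c.lam := by rw [hlam]; ring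
    have : 2 * c.L + w + c.h.κ + 1 + |x| + cF F ≤ 14 * p.v' * p.W := by
      rw [h13]
      linarith
    calc (2 * c.L + w + c.h.κ + 1 + |x| + cF F) * c.ε ≤ (14 * p.v' * p.W) * c.ε :=
          mul_le_mul_of_nonneg_right this hε
      _ = _ := by ring
  have b3 : |a| * ((2 * c.L + w + c.h.κ + 1 + |x| + cF F) * c.ε) ≤ c.l / 2 := by
    have := mul_le_mul_of_nonneg_left b2 (abs_nonneg a)
    linarith
  rw [mul_add]
  linarith

section means

variable [IsProbabilityMeasure G]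

/-- **(M2) lower gap fences** -/
theorem obLo_le (h0 : G (Iio 0) = 0) (h2 : Integrable (fun x : ℝ => x ^ 2) G) (hμ : IsTC G μ)
    (hc0 : 0 < c0) (z A : ℕ → ℝ → ℝ → ℝ → ℝ → ℝ → ℝ → ℝ) :
    Ev fun p => 0 < z p.n p.δ p.v p.e p.v' p.δ' p.δ0 → ∀ c : Cf G F w0 c0 K p,
      ∀ y g : ℝ, c.Ht y g → ∀ x α β s s₁ : ℝ, |x| ≤ c.L → s ≤ α →
      β + c.h.κ + cF F < s₁ + x → z p.n p.δ p.v p.e p.v' p.δ' p.δ0 * p.W ≤ β - α → -c.L ≤ s →
      s₁ ≤ c.L →
      Integrable (fun q : M192.RowS × ((ℝ × ℝ) × (ℝ × ℝ)) =>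
        obLo c.h g x α β c.L s s₁ q.1.1.1 q.1.1.2 q.1.2 q.2) ((nuR G).prod PF) ∧
      |A p.n p.δ p.v p.e p.v' p.δ' p.δ0| *
        ∫ q, |obLo c.h g x α β c.L s s₁ q.1.1.1 q.1.1.2 q.1.2 q.2| ∂((nuR G).prod PF) ≤ c.l := by
  have a1 := ev_lens (G := G) (F := F) (w0 := w0) (c0 := c0) (K := K)
  have a2 := gap_fence (G := G) (F := F) (w0 := w0) (K := K) hc0 z A
  have a3 := le_W fun n δ v e v' δ' δ0 _ => 2 * mg F / z n δ v e v' δ' δ0
  refine ((a1.and a2).and a3).mono ?_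
  rintro p ⟨⟨hl, hg⟩, hw⟩ hz c y g hyg x α β s s₁ hx hs hs₁ hzw hsL hs₁L
  have hl := hl c
  have h3 := hl.wH_eq
  have h4 := hl.sl_le
  have h4' := hl.sl_nonneg
  have h5 := hl.mg_le
  have h6 := cF_nonneg F
  have h7 := one_le_mg F
  have h8 := hyg.g_ge
  have h9 := hl.one_le_w
  have hκ := c.h.κ_nonneg
  have hx' := abs_le.1 hx
  rw [div_le_iff₀ hz] at hw
  obtain ⟨k1, k2⟩ := MN750.obLo_mean' (h := c.h) h0 h2 c.mean hμ (g := g) (c := x) (α := α) (β := β)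
    (L := c.L) (s := s) (s₁ := s₁) (by linarith) hs hs₁ (by linarith) hsL hs₁L
  refine ⟨k1, (mul_le_mul_of_nonneg_left k2 (abs_nonneg _)).trans ?_⟩
  exact hg hz c y g (β - α) x hyg hzw (by linarith) hx

/-- **(M2) upper gap fences** -/
theorem obUp_le (h0 : G (Iio 0) = 0) (h2 : Integrable (fun x : ℝ => x ^ 2) G) (hμ : IsTC G μ)
    (hc0 : 0 < c0) (z A : ℕ → ℝ → ℝ → ℝ → ℝ → ℝ → ℝ → ℝ) :
    Ev fun p => 0 < z p.n p.δ p.v p.e p.v' p.δ' p.δ0 → ∀ c : Cf G F w0 c0 K p,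
      ∀ y g : ℝ, c.Ht y g → ∀ x α β s₂ s' : ℝ, |x| ≤ c.L → s₂ + x + cF F ≤ α →
      β + c.h.κ < s' → z p.n p.δ p.v p.e p.v' p.δ' p.δ0 * p.W ≤ β - α → -c.L ≤ s₂ →
      s' ≤ c.L →
      Integrable (fun q : M192.RowS × ((ℝ × ℝ) × (ℝ × ℝ)) =>
        obUp c.h y g x α β c.L s₂ s' q.1.1.1 q.1.1.2 q.1.2 q.2) ((nuR G).prod PF) ∧
      |A p.n p.δ p.v p.e p.v' p.δ' p.δ0| *
        ∫ q, |obUp c.h y g x α β c.L s₂ s' q.1.1.1 q.1.1.2 q.1.2 q.2| ∂((nuR G).prod PF) ≤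
          c.l := by
  have a1 := ev_lens (G := G) (F := F) (w0 := w0) (c0 := c0) (K := K)
  have a2 := gap_fence (G := G) (F := F) (w0 := w0) (K := K) hc0 z A
  have a3 := le_W fun n δ v e v' δ' δ0 _ => 2 * mg F / z n δ v e v' δ' δ0
  refine ((a1.and a2).and a3).mono ?_
  rintro p ⟨⟨hl, hg⟩, hw⟩ hz c y g hyg x α β s₂ s' hx hs hs' hzw hsL hs'L
  have hl := hl c
  have h3 := hl.wH_eq
  have h4 := hl.sl_le
  have h4' := hl.sl_nonneg
  have h5 := hl.mg_le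
  have h6 := cF_nonneg F
  have h7 := one_le_mg F
  have h8 := hyg.g_ge
  have h9 := hl.one_le_w
  have hκ := c.h.κ_nonneg
  have hx' := abs_le.1 hx
  rw [div_le_iff₀ hz] at hw
  obtain ⟨k1, k2⟩ := MN750.obUp_mean' (h := c.h) h0 h2 c.mean hμ (y := y) (g := g) (c := x)
    (α := α) (β := β) (L := c.L) (s₂ := s₂) (s' := s') (by linarith) hs hs' (by linarith) hsL hs'L
  refine ⟨k1, (mul_le_mul_of_nonneg_left k2 (abs_nonneg _)).trans ?_⟩
  exact hg hz c y g (β - α) x hyg hzw (by linarith) hx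

/-- **(M3) window gauge minus gauge**, `≤ Bf` -/
theorem obJ_le (h0 : G (Iio 0) = 0) (h2 : Integrable (fun x : ℝ => x ^ 2) G) (hμ : IsTC G μ) :
    Ev fun p => ∀ c : Cf G F w0 c0 K p, ∀ y g : ℝ, c.Ht y g →
      Integrable (fun q : M192.RowS × ((ℝ × ℝ) × (ℝ × ℝ)) =>
        obJ c.h y g c.lam c.L q.1.1.1 q.1.1.2 q.1.2 q.2) ((nuR G).prod PF) ∧
      ∫ q, |obJ c.h y g c.lam c.L q.1.1.1 q.1.1.2 q.1.2 q.2| ∂((nuR G).prod PF) ≤ c.Bf := by
  refine (ev_lens (G := G) (F := F) (w0 := w0) (c0 := c0) (K := K)).mono ?_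
  rintro p hl c y g hyg
  have hl := hl c
  have hW : 0 < p.W := zero_lt_one.trans_le hl.W
  have h3 := hl.wH_eq
  have h4 := hl.sl_le
  have h4' := hl.sl_nonneg
  have h5 := hl.mg_le
  have h6 := cF_nonneg F
  have h7 := one_le_mg F
  have h8 := hyg.g_ge
  have h9 := hl.one_le_w
  have hκ := hl.κ_le'
  have hgW := hl.gW
  have hWL := hl.WL
  have hL := hl.lam_eq
  have hlam : c.lam = p.v' * p.W := rfl
  have hv' := hl.v'
  obtain ⟨k1, k2⟩ := MN750.obJ_mean' (h := c.h) h0 h2 c.mean hμ (y := y) (g := g) (L := c.L)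
    (Λ := c.lam) (by linarith) (by linarith [hyg.y_ge, hl.y_pos]) (by linarith [hl.g_pos])
    (by linarith) (by linarith)
  refine ⟨k1, k2.trans ?_⟩
  unfold Cf.Bf
  have hrt := c.rt_pos
  have e1 : rate G F (2 * c.lam) ≤ 2 * p.v' ^ (-0.03 : ℝ) * c.rt := by
    have := rate_far c hl.toStd (t := 2 * p.v') (by linarith)
    rw [hlam, ← mul_assoc]
    refine this.trans (mul_le_mul_of_nonneg_right (mul_le_mul_of_nonneg_left ?_ (by norm_num))
      hrt.le)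
    exact Real.rpow_le_rpow_of_nonpos (by linarith) (by linarith) (by norm_num)
  have e2 : (y + 4 * g) ≤ 3 * c.P := by
    have := hyg.y_le
    have := hyg.g_le
    have := c.P_eq
    linarith [hl.y_pos]
  have e3 : 0 ≤ y + 4 * g := by linarith [hyg.y_ge, hl.y_pos, hl.g_pos]
  have hvn : 0 ≤ p.v' ^ (-0.03 : ℝ) := Real.rpow_nonneg (by linarith) _
  have e4 : (y + 4 * g) * rate G F (2 * c.lam) ≤ 6 * p.v' ^ (-0.03 : ℝ) * c.l := by
    calc (y + 4 * g) * rate G F (2 * c.lam) ≤ (y + 4 * g) * (2 * p.v' ^ (-0.03 : ℝ) * c.rt) :=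
          mul_le_mul_of_nonneg_left e1 e3
      _ ≤ 3 * c.P * (2 * p.v' ^ (-0.03 : ℝ) * c.rt) :=
          mul_le_mul_of_nonneg_right e2 (by positivity)
      _ = _ := by rw [c.l_eq]; ring
  have e5 : 6 * p.v' ^ (-0.03 : ℝ) * c.l ≤ 6 * (2 ^ (0.03 : ℝ) * p.v' ^ (-0.03 : ℝ)) * c.l := by
    refine mul_le_mul_of_nonneg_right ?_ hl.l_pos.le
    have : (1 : ℝ) ≤ 2 ^ (0.03 : ℝ) := Real.one_le_rpow (by norm_num) (by norm_num)
    nlinarith
  have e6 : (2 * c.L + 2 * c.lam + c.h.κ + 1) * c.ε ≤ 12 * p.v' * (p.W * c.ε) := by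
    have h13 : 12 * p.v' * p.W = 12 * c.lam := by rw [hlam]; ring
    calc (2 * c.L + 2 * c.lam + c.h.κ + 1) * c.ε ≤ (12 * p.v' * p.W) * c.ε :=
          mul_le_mul_of_nonneg_right (by rw [h13]; linarith) c.mean.nonneg
      _ = _ := by ring
  linarith

/-! ### Deviations from the shape -/

/-- size of the box of the shape theorem -/
noncomputable def _root_.Crest.Agent.R151.NF.Num.Nb (p : Num) (F : FlatData μ) : ℕ :=
  ⌈((4 * p.v' + 1) * ‖F.a‖ + ‖F.b‖ + 1) * p.W + 1⌉₊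


omit [IsProbabilityMeasure G] in
lemma measurableSet_devB (N : ℕ) (v : ℝ × ℝ) (a : ℝ) :
    MeasurableSet {q : (ℝ × ℝ) × Environment | a ≤ devB μ N (q.1 + v) q.2} := by
  have h0 : Measurable fun q : (ℝ × ℝ) × Environment => q.1 + v := measurable_fst.add_const v
  have h1 : Measurable fun q : (ℝ × ℝ) × Environment => (q.1 + v, q.2) := h0.prodMk measurable_snd
  have h2 := (R6.measurable_devB (μ := μ) N).comp h1
  exact measurableSet_le measurable_const h2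

omit [IsProbabilityMeasure G] in
lemma prob_devB_comp {Ω : Type*} [MeasurableSpace Ω] {P : Measure Ω}
    [IsFiniteMeasure P] {f : Ω → (ℝ × ℝ) × Environment} (hf : MeasurePreserving f P (P0 G))
    {N : ℕ} {v : ℝ × ℝ} {a b ε : ℝ} (hab : a ≤ b)
    (h : (P0 G).real {q | a ≤ devB μ N (q.1 + v) q.2} ≤ ε) :
    P.real {w | b < devB μ N ((f w).1 + v) (f w).2} ≤ ε := by
  rw [← hf.measureReal_preimage (measurableSet_devB N v a).nullMeasurableSet] at h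
  refine le_trans (measureReal_mono ?_) h
  intro w hw
  exact hab.trans (le_of_lt hw)

/-- **deviations**: `P (|obD| > β W) ≤ a` -/
theorem obD_small (h0 : G (Iio 0) = 0) (h2 : Integrable (fun x : ℝ => x ^ 2) G) (hμ : IsTC G μ)
    {m : ℝ} (hM : Mom G m) (hL : LocCtl G) (β a : ℕ → ℝ → ℝ → ℝ → ℝ → ℝ → ℝ → ℝ → ℝ) :
    Ev fun p => 0 < β p.n p.δ p.v p.e p.v' p.δ' p.δ0 p.J → 0 < a p.n p.δ p.v p.e p.v' p.δ' p.δ0 p.J →
      ∀ y g : ℝ, ((nuR G).prod PF).real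
        (NS (obD F y g (p.Nb F)) (β p.n p.δ p.v p.e p.v' p.δ' p.δ0 p.J * p.W)) ≤
          a p.n p.δ p.v p.e p.v' p.δ' p.δ0 p.J := by
  have hD : ∀ ε : ℝ, ∃ n0 : ℕ, 0 < ε → ∀ n ≥ n0, ∀ v : ℝ × ℝ,
      (P0 G).real {p | ε * n ≤ devB μ n (p.1 + v) p.2} ≤ ε := by
    intro ε
    by_cases hε : 0 < ε
    · obtain ⟨n0, hn0⟩ := R6.devB_prob hM (isTC1_of_isTC h0 h2 hμ) hL hε
      exact ⟨n0, fun _ => hn0⟩
    · exact ⟨0, fun h => absurd h hε⟩
  choose n0 hn0 using hD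
  obtain ⟨Q, hQ⟩ : ∃ Q : ℝ, Q = ‖F.a‖ := ⟨_, rfl⟩
  obtain ⟨R, hR⟩ : ∃ R : ℝ, R = ‖F.b‖ := ⟨_, rfl⟩
  have hQ0 : 0 ≤ Q := by rw [hQ]; positivity
  have hR0 : 0 ≤ R := by rw [hR]; positivity
  refine ((le_W fun n δ v e v' δ' δ0 J => (n0 (min (a n δ v e v' δ' δ0 J / 2)
    (β n δ v e v' δ' δ0 J / (2 * ((4 * v' + 1) * Q + R + 3)))) : ℝ)).and Ev.std).mono ?_
  rintro p ⟨hn, hp⟩ hβ ha y g
  have : IsProbabilityMeasure (nuR G) := by unfold nuR; infer_instance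
  set b := β p.n p.δ p.v p.e p.v' p.δ' p.δ0 p.J
  set a' := a p.n p.δ p.v p.e p.v' p.δ' p.δ0 p.J
  have hv := hp.v'
  have hQ1 : 0 ≤ (4 * p.v' + 1) * Q + R := by positivity
  obtain ⟨ε, hε⟩ : ∃ ε, ε = min (a' / 2) (b / (2 * ((4 * p.v' + 1) * Q + R + 3))) := ⟨_, rfl⟩
  rw [← hε] at hn
  have hε0 : 0 < ε := by
    rw [hε]; exact lt_min (by linarith) (by positivity)
  have hW := hp.W
  have hW0 : 0 < p.W := by linarith
  have n1 : ((4 * p.v' + 1) * Q + R + 1) * p.W + 1 ≤ (p.Nb F : ℝ) := by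
    rw [hQ, hR]; exact Nat.le_ceil _
  have n2 : (p.Nb F : ℝ) ≤ ((4 * p.v' + 1) * Q + R + 3) * p.W := by
    have h := Nat.ceil_lt_add_one (a := ((4 * p.v' + 1) * Q + R + 1) * p.W + 1) (by positivity)
    unfold Num.Nb
    rw [← hQ, ← hR]
    linarith
  have n3 : n0 ε ≤ p.Nb F := by
    have : 0 ≤ ((4 * p.v' + 1) * Q + R) * p.W := by positivity
    have : (n0 ε : ℝ) ≤ p.Nb F := by linarith
    exact_mod_cast this
  have n4 : ε * (p.Nb F : ℝ) ≤ b * p.W := by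
    calc ε * (p.Nb F : ℝ) ≤ b / (2 * ((4 * p.v' + 1) * Q + R + 3)) *
          (((4 * p.v' + 1) * Q + R + 3) * p.W) :=
          mul_le_mul (by rw [hε]; exact min_le_right _ _) n2 (Nat.cast_nonneg _) (by positivity)
      _ = b * p.W / 2 := by field_simp
      _ ≤ b * p.W := by
          have := mul_pos hβ hW0
          linarith
  have mp1 : MeasurePreserving (fun w : M192.RowS × ((ℝ × ℝ) × (ℝ × ℝ)) => w.1.1)
      ((nuR G).prod PF) (P0 G) := by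
    have e1 : MeasurePreserving (Prod.fst : M192.RowS × ((ℝ × ℝ) × (ℝ × ℝ)) → _)
        ((nuR G).prod PF) (nuR G) := measurePreserving_fst
    have e2 : MeasurePreserving (Prod.fst : M192.RowS → _) (nuR G) (P0 G) := by
      unfold nuR; exact measurePreserving_fst
    exact e2.comp e1
  have key : ∀ v : ℝ × ℝ, ((nuR G).prod PF).real
      {w : M192.RowS × ((ℝ × ℝ) × (ℝ × ℝ)) | b * p.W < devB μ (p.Nb F) (w.1.1.1 + v) w.1.1.2} ≤
        ε := fun v => prob_devB_comp mp1 n4 (hn0 ε hε0 (p.Nb F) n3 v)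
  have h5 : NS (obD F y g (p.Nb F)) (b * p.W) ⊆
      {w : M192.RowS × ((ℝ × ℝ) × (ℝ × ℝ)) | b * p.W < devB μ (p.Nb F) (w.1.1.1 + 0) w.1.1.2} ∪
      {w : M192.RowS × ((ℝ × ℝ) × (ℝ × ℝ)) |
        b * p.W < devB μ (p.Nb F) (w.1.1.1 + -dOv F y g) w.1.1.2} := by
    intro w hw
    have hw' : b * p.W < |max (devB μ (p.Nb F) w.1.1.1 w.1.1.2)
      (devB μ (p.Nb F) (w.1.1.1 - dOv F y g) w.1.1.2)| := hw
    rw [abs_of_nonneg (le_max_of_le_left (R6.devB_nonneg _ _ _)), lt_max_iff] at hw'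
    rcases hw' with h | h
    · left; simpa using h
    · right
      simpa [sub_eq_add_neg] using h
  calc ((nuR G).prod PF).real (NS (obD F y g (p.Nb F)) (b * p.W)) ≤ _ :=
        measureReal_mono h5
    _ ≤ _ := measureReal_union_le _ _
    _ ≤ ε + ε := add_le_add (key 0) (key _)
    _ ≤ a' := by
        have : ε ≤ a' / 2 := by rw [hε]; exact min_le_left _ _
        linarith

end means

end Crest.Agent.R151.NF
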