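import Crest.Prelude.Def_PlanarFPP

-- ▼ part R151/Pl1
section

/-!
# R151, planarity toolkit, part 1: the key identity for vertex-disjoint walks of the square lattice

For a walk `β` of the square lattice and a point `p`, `W β p` is the net number of upward
traversals by `β` of the slab between the heights `p.2 - 1` and `p.2` at abscissae `≥ p.1`; for a
walk `α` and a point `u`, `L α u` is the net number of upward traversals by `α` of the slab between
`u.2` and `u.2 + 1` at abscissae `≤ u.1`.

`key` : if `α : a → d` and `β : b → c` are vertex-disjoint then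
`W β d - W β a = L α b - L α c`.
-/

set_option autoImplicit false

open Crest.ProbabilityR.FirstPassage

namespace Crest.Agent.R151.Pl

abbrev Pt : Type := ℤ × ℤ

theorem adj_iff {x y : Pt} : squareLattice.Adj x y ↔
    y = (x.1 + 1, x.2) ∨ y = (x.1 - 1, x.2) ∨ y = (x.1, x.2 + 1) ∨ y = (x.1, x.2 - 1) := by
  obtain ⟨x1, x2⟩ := x
  obtain ⟨y1, y2⟩ := y
  simp only [squareLattice, SimpleGraph.fromRel_adj, ne_eq, Prod.mk.injEq]
  omega

/-- signed crossing of the slab `[p.2 - 1, p.2]` at abscissae `≥ p.1` by the step `x → y` -/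
def wS (p x y : Pt) : ℤ :=
  if p.1 ≤ x.1 then
    (if x.2 + 1 = p.2 ∧ y.2 = p.2 then 1 else if x.2 = p.2 ∧ y.2 + 1 = p.2 then -1 else 0)
  else 0

/-- signed crossing of the slab `[u.2, u.2 + 1]` at abscissae `≤ u.1` by the step `x → y` -/
def lS (u x y : Pt) : ℤ :=
  if x.1 ≤ u.1 then
    (if x.2 = u.2 ∧ y.2 = u.2 + 1 then 1 else if x.2 = u.2 + 1 ∧ y.2 = u.2 then -1 else 0)
  else 0

/-- net crossings of the slab `[p.2 - 1, p.2]` at abscissae `≥ p.1` -/
def W {b c : Pt} (β : squareLattice.Walk b c) (p : Pt) : ℤ :=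
  (β.darts.map fun d => wS p d.fst d.snd).sum

/-- net crossings of the slab `[u.2, u.2 + 1]` at abscissae `≤ u.1` -/
def L {b c : Pt} (β : squareLattice.Walk b c) (u : Pt) : ℤ :=
  (β.darts.map fun d => lS u d.fst d.snd).sum

@[simp] theorem W_nil (b p : Pt) : W (SimpleGraph.Walk.nil : squareLattice.Walk b b) p = 0 := rfl
@[simp] theorem L_nil (b p : Pt) : L (SimpleGraph.Walk.nil : squareLattice.Walk b b) p = 0 := rfl

@[simp] theorem W_cons {a b c : Pt} (h : squareLattice.Adj a b) (w : squareLattice.Walk b c)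
    (p : Pt) : W (SimpleGraph.Walk.cons h w) p = wS p a b + W w p := by
  simp [W]

@[simp] theorem L_cons {a b c : Pt} (h : squareLattice.Adj a b) (w : squareLattice.Walk b c)
    (p : Pt) : L (SimpleGraph.Walk.cons h w) p = lS p a b + L w p := by
  simp [L]


theorem L_append {a b c : Pt} (v : squareLattice.Walk a b) (w : squareLattice.Walk b c) (p : Pt) :
    L (v.append w) p = L v p + L w p := by
  simp [L, SimpleGraph.Walk.darts_append]

theorem wS_h {p x y : Pt} (h : x.2 = y.2) : wS p x y = 0 := by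
  unfold wS; split_ifs <;> omega

theorem lS_h {u x y : Pt} (h : x.2 = y.2) : lS u x y = 0 := by
  unfold lS; split_ifs <;> omega

theorem wS_r (p x : Pt) : wS p x (x.1 + 1, x.2) = 0 := wS_h rfl
theorem wS_l (p x : Pt) : wS p x (x.1 - 1, x.2) = 0 := wS_h rfl
theorem lS_r (p x : Pt) : lS p x (x.1 + 1, x.2) = 0 := lS_h rfl
theorem lS_l (p x : Pt) : lS p x (x.1 - 1, x.2) = 0 := lS_h rfl

theorem wS_up (p x : Pt) : wS p x (x.1, x.2 + 1) = if p.1 ≤ x.1 ∧ x.2 + 1 = p.2 then 1 else 0 := by
  unfold wS; simp only; split_ifs <;> omega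

theorem wS_dn (p x : Pt) : wS p x (x.1, x.2 - 1) = if p.1 ≤ x.1 ∧ x.2 = p.2 then -1 else 0 := by
  unfold wS; simp only; split_ifs <;> omega

theorem lS_up (u x : Pt) : lS u x (x.1, x.2 + 1) = if x.1 ≤ u.1 ∧ x.2 = u.2 then 1 else 0 := by
  unfold lS; simp only; split_ifs <;> omega

theorem lS_dn (u x : Pt) : lS u x (x.1, x.2 - 1) = if x.1 ≤ u.1 ∧ x.2 = u.2 + 1 then -1 else 0 := by
  unfold lS; simp only; split_ifs <;> omega

/-- the elementary identity -/
theorem step_step {a a' b b' : Pt} (ha : squareLattice.Adj a a') (hb : squareLattice.Adj b b')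
    (h1 : a ≠ b) (h2 : a ≠ b') (h3 : a' ≠ b) (h4 : a' ≠ b') :
    wS a' b b' - wS a b b' = lS b a a' - lS b' a a' := by
  have e : ∀ x y : Pt, x ≠ y ↔ ¬ (x.1 = y.1 ∧ x.2 = y.2) := fun x y => by
    rw [ne_eq, Prod.ext_iff]
  rw [e] at h1 h2 h3 h4
  rw [adj_iff] at ha hb
  rcases ha with rfl | rfl | rfl | rfl <;> rcases hb with rfl | rfl | rfl | rfl
  · rw [wS_r, wS_r, lS_r, lS_r]
  · rw [wS_l, wS_l, lS_r, lS_r]
  · rw [wS_up, wS_up, lS_r, lS_r]; simp only at *; split_ifs <;> omega
  · rw [wS_dn, wS_dn, lS_r, lS_r]; simp only at *; split_ifs <;> omega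
  · rw [wS_r, wS_r, lS_l, lS_l]
  · rw [wS_l, wS_l, lS_l, lS_l]
  · rw [wS_up, wS_up, lS_l, lS_l]; simp only at *; split_ifs <;> omega
  · rw [wS_dn, wS_dn, lS_l, lS_l]; simp only at *; split_ifs <;> omega
  · rw [wS_r, wS_r, lS_up, lS_up]; simp only at *; split_ifs <;> omega
  · rw [wS_l, wS_l, lS_up, lS_up]; simp only at *; split_ifs <;> omega
  · rw [wS_up, wS_up, lS_up, lS_up]; simp only at *; split_ifs <;> omega
  · rw [wS_dn, wS_dn, lS_up, lS_up]; simp only at *; split_ifs <;> omega
  · rw [wS_r, wS_r, lS_dn, lS_dn]; simp only at *; split_ifs <;> omega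
  · rw [wS_l, wS_l, lS_dn, lS_dn]; simp only at *; split_ifs <;> omega
  · rw [wS_up, wS_up, lS_dn, lS_dn]; simp only at *; split_ifs <;> omega
  · rw [wS_dn, wS_dn, lS_dn, lS_dn]; simp only at *; split_ifs <;> omega

theorem step_walk {a a' b c : Pt} (ha : squareLattice.Adj a a') (β : squareLattice.Walk b c)
    (h1 : a ∉ β.support) (h2 : a' ∉ β.support) :
    W β a' - W β a = lS b a a' - lS c a a' := by
  induction β with
  | nil => simp
  | @cons b b' c hb w ih =>
    simp only [SimpleGraph.Walk.support_cons, List.mem_cons, not_or] at h1 h2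
    have h3 : a ≠ b' := fun h => h1.2 (h ▸ w.start_mem_support)
    have h4 : a' ≠ b' := fun h => h2.2 (h ▸ w.start_mem_support)
    have e1 := ih h1.2 h2.2
    have e2 := step_step ha hb h1.1 h3 h2.1 h4
    simp only [W_cons]
    linarith

/-- THE KEY IDENTITY for vertex-disjoint walks -/
theorem key {a d b c : Pt} (α : squareLattice.Walk a d) (β : squareLattice.Walk b c)
    (hd : ∀ x ∈ α.support, x ∉ β.support) : W β d - W β a = L α b - L α c := by
  induction α with
  | nil => simp
  | @cons a a' d ha w ih =>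
    have h1 : a ∉ β.support := hd a (by simp)
    have h2 : a' ∉ β.support := hd a' (by simp)
    have e1 := step_walk ha β h1 h2
    have e2 := ih (fun x hx => hd x (by simp [hx]))
    simp only [L_cons]
    linarith

/-! ### evaluation of `W` and `L` -/

open Classical in
/-- indicator -/
noncomputable def ind (P : Prop) : ℤ := if P then 1 else 0

theorem ind_pos {P : Prop} (h : P) : ind P = 1 := by unfold ind; exact if_pos h
theorem ind_neg {P : Prop} (h : ¬ P) : ind P = 0 := by unfold ind; exact if_neg h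

theorem W_left {b c : Pt} (β : squareLattice.Walk b c) (p : Pt) (h : ∀ x ∈ β.support, p.1 ≤ x.1) :
    W β p = ind (p.2 ≤ c.2) - ind (p.2 ≤ b.2) := by
  induction β with
  | nil => simp
  | @cons b b' c hb w ih =>
    have h1 : p.1 ≤ b.1 := h b (by simp)
    have e := ih (fun x hx => h x (by simp [hx]))
    simp only [W_cons, e, wS, h1, if_true]
    rw [adj_iff] at hb
    obtain ⟨b1, b2⟩ := b
    rcases hb with rfl | rfl | rfl | rfl <;> simp only [ind] <;> split_ifs <;> omega

theorem W_right {b c : Pt} (β : squareLattice.Walk b c) (p : Pt) (h : ∀ x ∈ β.support, x.1 < p.1) :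
    W β p = 0 := by
  induction β with
  | nil => simp
  | @cons b b' c hb w ih =>
    have h1 : b.1 < p.1 := h b (by simp)
    have e := ih (fun x hx => h x (by simp [hx]))
    simp only [W_cons, e, wS]
    rw [if_neg (by omega)]
    rfl

theorem W_above {b c : Pt} (β : squareLattice.Walk b c) (p : Pt) (h : ∀ x ∈ β.support, x.2 < p.2) :
    W β p = 0 := by
  induction β with
  | nil => simp
  | @cons b b' c hb w ih =>
    have h1 : b.2 < p.2 := h b (by simp)
    have h2 : b'.2 < p.2 := h b' (by simp)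
    have e := ih (fun x hx => h x (by simp [hx]))
    simp only [W_cons, e, wS]
    split_ifs <;> omega

theorem W_below {b c : Pt} (β : squareLattice.Walk b c) (p : Pt) (h : ∀ x ∈ β.support, p.2 ≤ x.2) :
    W β p = 0 := by
  induction β with
  | nil => simp
  | @cons b b' c hb w ih =>
    have h1 : p.2 ≤ b.2 := h b (by simp)
    have h2 : p.2 ≤ b'.2 := h b' (by simp)
    have e := ih (fun x hx => h x (by simp [hx]))
    simp only [W_cons, e, wS]
    split_ifs <;> omega

theorem L_right {b c : Pt} (β : squareLattice.Walk b c) (u : Pt) (h : ∀ x ∈ β.support, x.1 ≤ u.1) :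
    L β u = ind (u.2 < c.2) - ind (u.2 < b.2) := by
  induction β with
  | nil => simp
  | @cons b b' c hb w ih =>
    have h1 : b.1 ≤ u.1 := h b (by simp)
    have e := ih (fun x hx => h x (by simp [hx]))
    simp only [L_cons, e, lS, h1, if_true]
    rw [adj_iff] at hb
    obtain ⟨b1, b2⟩ := b
    rcases hb with rfl | rfl | rfl | rfl <;> simp only [ind] <;> split_ifs <;> omega

theorem L_left {b c : Pt} (β : squareLattice.Walk b c) (u : Pt) (h : ∀ x ∈ β.support, u.1 < x.1) :
    L β u = 0 := by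
  induction β with
  | nil => simp
  | @cons b b' c hb w ih =>
    have h1 : u.1 < b.1 := h b (by simp)
    have e := ih (fun x hx => h x (by simp [hx]))
    simp only [L_cons, e, lS]
    rw [if_neg (by omega)]
    rfl

theorem L_above {b c : Pt} (β : squareLattice.Walk b c) (u : Pt) (h : ∀ x ∈ β.support, x.2 ≤ u.2) :
    L β u = 0 := by
  induction β with
  | nil => simp
  | @cons b b' c hb w ih =>
    have h1 : b.2 ≤ u.2 := h b (by simp)
    have h2 : b'.2 ≤ u.2 := h b' (by simp)
    have e := ih (fun x hx => h x (by simp [hx]))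
    simp only [L_cons, e, lS]
    split_ifs <;> omega

theorem L_below {b c : Pt} (β : squareLattice.Walk b c) (u : Pt) (h : ∀ x ∈ β.support, u.2 < x.2) :
    L β u = 0 := by
  induction β with
  | nil => simp
  | @cons b b' c hb w ih =>
    have h1 : u.2 < b.2 := h b (by simp)
    have h2 : u.2 < b'.2 := h b' (by simp)
    have e := ih (fun x hx => h x (by simp [hx]))
    simp only [L_cons, e, lS]
    split_ifs <;> omega

/-! ### straight walks -/

/-- the horizontal walk to the right -/
def hR (x y : ℤ) : (n : ℕ) → squareLattice.Walk (x, y) (x + n, y)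
  | 0 => (SimpleGraph.Walk.nil : squareLattice.Walk (x, y) (x, y)).copy rfl (by simp)
  | n + 1 => ((hR x y n).concat (w := (x + n + 1, y)) (adj_iff.2 (Or.inl rfl))).copy rfl
      (by push_cast; rw [add_assoc])

/-- the vertical walk upwards -/
def vU (x y : ℤ) : (n : ℕ) → squareLattice.Walk (x, y) (x, y + n)
  | 0 => (SimpleGraph.Walk.nil : squareLattice.Walk (x, y) (x, y)).copy rfl (by simp)
  | n + 1 => ((vU x y n).concat (w := (x, y + n + 1)) (adj_iff.2 (Or.inr (Or.inr (Or.inl rfl))))).copy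
      rfl (by push_cast; rw [add_assoc])

theorem mem_hR {x y : ℤ} {n : ℕ} {z : Pt} (h : z ∈ (hR x y n).support) :
    z.2 = y ∧ x ≤ z.1 ∧ z.1 ≤ x + n := by
  induction n with
  | zero =>
    simp only [hR, SimpleGraph.Walk.support_copy, SimpleGraph.Walk.support_nil,
      List.mem_singleton] at h
    subst h; simp
  | succ n ih =>
    simp only [hR, SimpleGraph.Walk.support_copy, SimpleGraph.Walk.support_concat,
      List.mem_append, List.mem_singleton] at h
    rcases h with h | h
    · have := ih h; push_cast; omega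
    · subst h; push_cast; refine ⟨rfl, ?_, ?_⟩ <;> omega

theorem mem_vU {x y : ℤ} {n : ℕ} {z : Pt} (h : z ∈ (vU x y n).support) :
    z.1 = x ∧ y ≤ z.2 ∧ z.2 ≤ y + n := by
  induction n with
  | zero =>
    simp only [vU, SimpleGraph.Walk.support_copy, SimpleGraph.Walk.support_nil,
      List.mem_singleton] at h
    subst h; simp
  | succ n ih =>
    simp only [vU, SimpleGraph.Walk.support_copy, SimpleGraph.Walk.support_concat,
      List.mem_append, List.mem_singleton] at h
    rcases h with h | h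
    · have := ih h; push_cast; omega
    · subst h; push_cast; refine ⟨rfl, ?_, ?_⟩ <;> omega

/-- every walk stays in a box -/
theorem exists_box {a d : Pt} (α : squareLattice.Walk a d) :
    ∃ N : ℕ, ∀ x ∈ α.support, |x.1| ≤ N ∧ |x.2| ≤ N := by
  induction α with
  | @nil a =>
    refine ⟨(|a.1| + |a.2|).toNat, fun x hx => ?_⟩
    simp only [SimpleGraph.Walk.support_nil, List.mem_singleton] at hx
    subst hx
    have h1 := abs_nonneg x.1
    have h2 := abs_nonneg x.2
    rw [Int.toNat_of_nonneg (by omega)]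
    omega
  | @cons a a' d ha w ih =>
    obtain ⟨N, hN⟩ := ih
    refine ⟨N + (|a.1| + |a.2|).toNat, fun x hx => ?_⟩
    have h1 := abs_nonneg a.1
    have h2 := abs_nonneg a.2
    push_cast
    rw [Int.toNat_of_nonneg (by omega)]
    simp only [SimpleGraph.Walk.support_cons, List.mem_cons] at hx
    rcases hx with rfl | hx
    · omega
    · have := hN x hx; omega

end Crest.Agent.R151.Pl
private theorem rz_51426acb7d : type_of% @_root_.Crest.Agent.R151.Pl.hR.eq_def := @_root_.Crest.Agent.R151.Pl.hR.eq_def -- L247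
private theorem rz_81b74b82ed : type_of% @_root_.Crest.Agent.R151.Pl.hR.eq_1 := @_root_.Crest.Agent.R151.Pl.hR.eq_1 -- L247
private theorem rz_8e4fbe8188 : type_of% @_root_.Crest.Agent.R151.Pl.vU.eq_def := @_root_.Crest.Agent.R151.Pl.vU.eq_def -- L253
private theorem rz_2b51d29084 : type_of% @_root_.Crest.Agent.R151.Pl.vU.eq_1 := @_root_.Crest.Agent.R151.Pl.vU.eq_1 -- L253
end

-- ▼ part R151/Pl2

/-!
# R151, planarity toolkit, part 2: the ray theorem

Two walks of the square lattice whose four end points are joined to infinity by axis-parallel rays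
(each ray of one walk avoids the other walk and its rays) and whose four "points at infinity" are
interleaved must share a vertex.
-/

set_option autoImplicit false

open Crest.ProbabilityR.FirstPassage

namespace Crest.Agent.R151.Pl

/-- the four axis directions, in clockwise order starting from the bottom -/
inductive Dir
  | dn | lf | up | rt
  deriving DecidableEq

/-- the axis-parallel ray from `p` in direction `δ` -/
def onRay : Dir → Pt → Pt → Prop
  | .dn, p, x => x.1 = p.1 ∧ x.2 ≤ p.2
  | .lf, p, x => x.2 = p.2 ∧ x.1 ≤ p.1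
  | .up, p, x => x.1 = p.1 ∧ p.2 ≤ x.2
  | .rt, p, x => x.2 = p.2 ∧ p.1 ≤ x.1

/-- the point of the ray on the boundary of the box of size `M` -/
def tip : Dir → ℤ → Pt → Pt
  | .dn, M, p => (p.1, -M)
  | .lf, M, p => (-M, p.2)
  | .up, M, p => (p.1, M)
  | .rt, M, p => (M, p.2)



theorem lS_symm {p x y : Pt} (h : squareLattice.Adj x y) : lS p y x = - lS p x y := by
  rw [adj_iff] at h
  rcases h with rfl | rfl | rfl | rfl <;> unfold lS <;> simp only <;> split_ifs <;> omega


theorem L_reverse {b c : Pt} (β : squareLattice.Walk b c) (p : Pt) :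
    L β.reverse p = - L β p := by
  induction β with
  | nil => simp
  | cons h w ih =>
    rw [SimpleGraph.Walk.reverse_cons, L_append, ih, L_cons, L_cons, L_nil, lS_symm h]
    ring

theorem L_hor {b c : Pt} (r : squareLattice.Walk b c) (y : ℤ) (h : ∀ x ∈ r.support, x.2 = y)
    (q : Pt) : L r q = 0 := by
  by_cases hy : y ≤ q.2
  · exact L_above _ _ (fun x hx => by rw [h x hx]; exact hy)
  · exact L_below _ _ (fun x hx => by rw [h x hx]; omega)

theorem L_ver {b c : Pt} (r : squareLattice.Walk b c) (h : ∀ x ∈ r.support, x.1 = b.1)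
    (q : Pt) : L r q = ind (b.1 ≤ q.1) * (ind (q.2 < c.2) - ind (q.2 < b.2)) := by
  by_cases hq : b.1 ≤ q.1
  · rw [ind_pos hq, one_mul]
    exact L_right _ q (fun x hx => by rw [h x hx]; exact hq)
  · rw [ind_neg hq, zero_mul]
    exact L_left _ q (fun x hx => by rw [h x hx]; omega)

theorem exists_up (p : Pt) (M : ℤ) (h : p.2 ≤ M) :
    ∃ r : squareLattice.Walk p (p.1, M), ∀ x ∈ r.support, x.1 = p.1 ∧ p.2 ≤ x.2 ∧ x.2 ≤ M := by
  have e : ((p.1, p.2 + ((M - p.2).toNat : ℤ)) : Pt) = (p.1, M) := by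
    rw [Int.toNat_of_nonneg (by omega)]; congr 1; ring
  refine ⟨(vU p.1 p.2 (M - p.2).toNat).copy rfl e, fun x hx => ?_⟩
  rw [SimpleGraph.Walk.support_copy] at hx
  have := mem_vU hx
  rw [Int.toNat_of_nonneg (by omega)] at this
  omega

theorem exists_dn (p : Pt) (M : ℤ) (h : M ≤ p.2) :
    ∃ r : squareLattice.Walk p (p.1, M), ∀ x ∈ r.support, x.1 = p.1 ∧ M ≤ x.2 ∧ x.2 ≤ p.2 := by
  obtain ⟨r, hr⟩ := exists_up (p.1, M) p.2 h
  refine ⟨r.reverse, fun x hx => ?_⟩
  rw [SimpleGraph.Walk.support_reverse, List.mem_reverse] at hx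
  exact hr x hx

theorem exists_rt (p : Pt) (M : ℤ) (h : p.1 ≤ M) :
    ∃ r : squareLattice.Walk p (M, p.2), ∀ x ∈ r.support, x.2 = p.2 ∧ p.1 ≤ x.1 ∧ x.1 ≤ M := by
  have e : ((p.1 + ((M - p.1).toNat : ℤ), p.2) : Pt) = (M, p.2) := by
    rw [Int.toNat_of_nonneg (by omega)]; congr 1; ring
  refine ⟨(hR p.1 p.2 (M - p.1).toNat).copy rfl e, fun x hx => ?_⟩
  rw [SimpleGraph.Walk.support_copy] at hx
  have := mem_hR hx
  rw [Int.toNat_of_nonneg (by omega)] at this
  omega

theorem exists_lf (p : Pt) (M : ℤ) (h : M ≤ p.1) :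
    ∃ r : squareLattice.Walk p (M, p.2), ∀ x ∈ r.support, x.2 = p.2 ∧ M ≤ x.1 ∧ x.1 ≤ p.1 := by
  obtain ⟨r, hr⟩ := exists_rt (M, p.2) p.1 h
  refine ⟨r.reverse, fun x hx => ?_⟩
  rw [SimpleGraph.Walk.support_reverse, List.mem_reverse] at hx
  exact hr x hx

/-- the walk along a ray -/
theorem exists_rayWalk (δ : Dir) (M : ℤ) (p : Pt) (h1 : |p.1| ≤ M) (h2 : |p.2| ≤ M) :
    ∃ r : squareLattice.Walk p (tip δ M p),
      (∀ x ∈ r.support, onRay δ p x ∧ |x.1| ≤ M ∧ |x.2| ≤ M) ∧
      (∀ q, L r q = ind (p.1 ≤ q.1) * (ind (q.2 < (tip δ M p).2) - ind (q.2 < p.2))) := by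
  rw [abs_le] at h1 h2
  cases δ with
  | dn =>
    obtain ⟨r, hr⟩ := exists_dn p (-M) h2.1
    exact ⟨r, fun x hx => by have := hr x hx; simp only [onRay, abs_le]; omega,
      fun q => L_ver r (fun x hx => (hr x hx).1) q⟩
  | lf =>
    obtain ⟨r, hr⟩ := exists_lf p (-M) h1.1
    refine ⟨r, fun x hx => by have := hr x hx; simp only [onRay, abs_le]; omega, fun q => ?_⟩
    refine (L_hor r p.2 (fun x hx => (hr x hx).1) q).trans ?_
    simp only [tip, sub_self, mul_zero]
  | up =>
    obtain ⟨r, hr⟩ := exists_up p M h2.2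
    exact ⟨r, fun x hx => by have := hr x hx; simp only [onRay, abs_le]; omega,
      fun q => L_ver r (fun x hx => (hr x hx).1) q⟩
  | rt =>
    obtain ⟨r, hr⟩ := exists_rt p M h1.2
    refine ⟨r, fun x hx => by have := hr x hx; simp only [onRay, abs_le]; omega, fun q => ?_⟩
    refine (L_hor r p.2 (fun x hx => (hr x hx).1) q).trans ?_
    simp only [tip, sub_self, mul_zero]

/-- the clockwise order of the points at infinity of rays, starting at the bottom right -/
def rk : Dir → ℕ
  | .dn => 0 | .lf => 1 | .up => 2 | .rt => 3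

/-- the coordinate of the point at infinity -/
def co : Dir → Pt → ℤ
  | .dn, p => -p.1 | .lf, p => p.2 | .up, p => p.1 | .rt, p => -p.2

/-- the clockwise order of points at infinity -/
def prec (δ : Dir) (p : Pt) (δ' : Dir) (q : Pt) : Prop :=
  rk δ < rk δ' ∨ (rk δ = rk δ' ∧ co δ p < co δ' q)

/-- value of `W` at the end point of an `α`-ray, contribution of the end point of a `β`-ray -/
noncomputable def Kf (δ : Dir) (p : Pt) (δ' : Dir) (q : Pt) (M : ℤ) : ℤ :=
  match δ with
  | .lf => ind (p.2 ≤ (tip δ' M q).2)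
  | _ => 0

/-- value of `L` at the end point `q` of a `β`-ray, contribution of the end point of an `α`-ray -/
noncomputable def Ef (δ' : Dir) (q p : Pt) : ℤ :=
  match δ' with
  | .rt => ind (q.2 < p.2)
  | _ => 0

theorem pair_formula (δ : Dir) (p : Pt) (δ' : Dir) (q : Pt) (N : ℤ)
    (hp1 : |p.1| ≤ N) (hp2 : |p.2| ≤ N) (hq1 : |q.1| ≤ N) (hq2 : |q.2| ≤ N)
    (hdis : ∀ x, onRay δ p x → onRay δ' q x → False) :
    Kf δ p δ' q (N + 1) + (Ef δ' q p +
      ind (p.1 ≤ (tip δ' (N + 1) q).1) *
        (ind ((tip δ' (N + 1) q).2 < (tip δ (N + 2) p).2) - ind ((tip δ' (N + 1) q).2 < p.2)))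
      = ind (prec δ p δ' q) - ind (δ = .dn) := by
  rw [abs_le] at hp1 hp2 hq1 hq2
  cases δ <;> cases δ' <;> simp only [Kf, Ef, tip, prec, rk, co, reduceCtorEq, true_and,
    false_and, or_false, false_or, lt_irrefl, Nat.reduceLT, Nat.reduceEqDiff, true_or, or_self,
    zero_ne_one, OfNat.ofNat_ne_zero, OfNat.zero_ne_ofNat, OfNat.one_ne_ofNat,
    OfNat.ofNat_ne_one, one_ne_zero]
  case lf.lf =>
    have : p.2 ≠ q.2 := by
      intro h
      refine hdis (min p.1 q.1, p.2) ⟨rfl, min_le_left _ _⟩ ⟨h, min_le_right _ _⟩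
    simp only [ind]; split_ifs <;> first | contradiction | omega
  case up.up =>
    have : p.1 ≠ q.1 := by
      intro h
      refine hdis (p.1, max p.2 q.2) ⟨rfl, le_max_left _ _⟩ ⟨h, le_max_right _ _⟩
    simp only [ind]; split_ifs <;> first | contradiction | omega
  all_goals (simp only [ind]; split_ifs <;> first | contradiction | omega)

/-- THE RAY THEOREM -/
theorem ray_theorem {a d b c : Pt} (α : squareLattice.Walk a d) (β : squareLattice.Walk b c)
    (δa δd δb δc : Dir)
    (ha : ∀ x ∈ β.support, ¬ onRay δa a x) (hd : ∀ x ∈ β.support, ¬ onRay δd d x)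
    (hb : ∀ x ∈ α.support, ¬ onRay δb b x) (hc : ∀ x ∈ α.support, ¬ onRay δc c x)
    (hab : ∀ x, onRay δa a x → onRay δb b x → False)
    (hac : ∀ x, onRay δa a x → onRay δc c x → False)
    (hdb : ∀ x, onRay δd d x → onRay δb b x → False)
    (hdc : ∀ x, onRay δd d x → onRay δc c x → False)
    (hint : ind (prec δa a δb b) + ind (prec δd d δc c)
      - ind (prec δa a δc c) - ind (prec δd d δb b) ≠ 0) :
    ∃ x, x ∈ α.support ∧ x ∈ β.support := by
  by_contra hno
  push Not at hno
  obtain ⟨N1, hN1⟩ := exists_box α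
  obtain ⟨N2, hN2⟩ := exists_box β
  obtain ⟨N, hN⟩ : ∃ N : ℤ, N = N1 + N2 := ⟨_, rfl⟩
  have hα : ∀ x ∈ α.support, |x.1| ≤ N ∧ |x.2| ≤ N := fun x hx => by
    have := hN1 x hx; omega
  have hβ : ∀ x ∈ β.support, |x.1| ≤ N ∧ |x.2| ≤ N := fun x hx => by
    have := hN2 x hx; omega
  have ba := hα a α.start_mem_support
  have bd := hα d α.end_mem_support
  have bb := hβ b β.start_mem_support
  have bc := hβ c β.end_mem_support
  obtain ⟨ra, ra1, ra2⟩ := exists_rayWalk δa (N + 2) a (by omega) (by omega)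
  obtain ⟨rd, rd1, rd2⟩ := exists_rayWalk δd (N + 2) d (by omega) (by omega)
  obtain ⟨rb, rb1, rb2⟩ := exists_rayWalk δb (N + 1) b (by omega) (by omega)
  obtain ⟨rc, rc1, rc2⟩ := exists_rayWalk δc (N + 1) c (by omega) (by omega)
  set A := (ra.reverse.append α).append rd with hA
  set Bw := (rb.reverse.append β).append rc with hB
  have memA : ∀ x ∈ A.support, x ∈ ra.support ∨ x ∈ α.support ∨ x ∈ rd.support := by
    intro x hx
    rw [hA, SimpleGraph.Walk.mem_support_append_iff, SimpleGraph.Walk.mem_support_append_iff,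
      SimpleGraph.Walk.support_reverse, List.mem_reverse] at hx
    tauto
  have memB : ∀ x ∈ Bw.support, x ∈ rb.support ∨ x ∈ β.support ∨ x ∈ rc.support := by
    intro x hx
    rw [hB, SimpleGraph.Walk.mem_support_append_iff, SimpleGraph.Walk.mem_support_append_iff,
      SimpleGraph.Walk.support_reverse, List.mem_reverse] at hx
    tauto
  have boxB : ∀ x ∈ Bw.support, |x.1| ≤ N + 1 ∧ |x.2| ≤ N + 1 := by
    intro x hx
    rcases memB x hx with h | h | h
    · exact (rb1 x h).2
    · have := hβ x h; omega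
    · exact (rc1 x h).2
  have dis : ∀ x ∈ A.support, x ∉ Bw.support := by
    intro x hx hx'
    rcases memA x hx with h | h | h <;> rcases memB x hx' with h' | h' | h'
    · exact hab x (ra1 x h).1 (rb1 x h').1
    · exact ha x h' (ra1 x h).1
    · exact hac x (ra1 x h).1 (rc1 x h').1
    · exact hb x h (rb1 x h').1
    · exact hno x h h'
    · exact hc x h (rc1 x h').1
    · exact hdb x (rd1 x h).1 (rb1 x h').1
    · exact hd x h' (rd1 x h).1
    · exact hdc x (rd1 x h).1 (rc1 x h').1
  have K := key A Bw dis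
  -- values of `W`
  have WB : ∀ (δ : Dir) (p : Pt), |p.1| ≤ N → |p.2| ≤ N →
      W Bw (tip δ (N + 2) p) = Kf δ p δc c (N + 1) - Kf δ p δb b (N + 1) := by
    intro δ p h1 h2
    rw [abs_le] at h1 h2
    cases δ with
    | dn =>
      rw [W_below _ _ (fun x hx => by
        have := boxB x hx; rw [abs_le, abs_le] at this; simp only [tip]; omega)]; rfl
    | lf =>
      rw [W_left _ _ (fun x hx => by
        have := boxB x hx; rw [abs_le, abs_le] at this; simp only [tip]; omega)]; rfl
    | up =>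
      rw [W_above _ _ (fun x hx => by
        have := boxB x hx; rw [abs_le, abs_le] at this; simp only [tip]; omega)]; rfl
    | rt =>
      rw [W_right _ _ (fun x hx => by
        have := boxB x hx; rw [abs_le, abs_le] at this; simp only [tip]; omega)]; rfl
  have LA : ∀ (δ : Dir) (q : Pt), |q.1| ≤ N → |q.2| ≤ N →
      L α (tip δ (N + 1) q) = Ef δ q d - Ef δ q a := by
    intro δ q h1 h2
    rw [abs_le] at h1 h2
    cases δ with
    | dn =>
      rw [L_below _ _ (fun x hx => by
        have := hα x hx; rw [abs_le, abs_le] at this; simp only [tip]; omega)]; rfl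
    | lf =>
      rw [L_left _ _ (fun x hx => by
        have := hα x hx; rw [abs_le, abs_le] at this; simp only [tip]; omega)]; rfl
    | up =>
      rw [L_above _ _ (fun x hx => by
        have := hα x hx; rw [abs_le, abs_le] at this; simp only [tip]; omega)]; rfl
    | rt =>
      rw [L_right _ _ (fun x hx => by
        have := hα x hx; rw [abs_le, abs_le] at this; simp only [tip]; omega)]; rfl
  have LAA : ∀ q, L A q = - L ra q + L α q + L rd q := by
    intro q
    rw [hA, L_append, L_append, L_reverse]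
  rw [WB δd d bd.1 bd.2, WB δa a ba.1 ba.2, LAA, LAA, LA δb b bb.1 bb.2, LA δc c bc.1 bc.2,
    ra2, rd2, ra2, rd2] at K
  have Fab := pair_formula δa a δb b N ba.1 ba.2 bb.1 bb.2 hab
  have Fac := pair_formula δa a δc c N ba.1 ba.2 bc.1 bc.2 hac
  have Fdb := pair_formula δd d δb b N bd.1 bd.2 bb.1 bb.2 hdb
  have Fdc := pair_formula δd d δc c N bd.1 bd.2 bc.1 bc.2 hdc
  apply hint
  linarith

end Crest.Agent.R151.Pl
private theorem rz_2fdc6f9baf : type_of% @_root_.Crest.Agent.R151.Pl.Ef.eq_1 := @_root_.Crest.Agent.R151.Pl.Ef.eq_1 -- L156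
private theorem rz_25eb900b72 : type_of% @_root_.Crest.Agent.R151.Pl.Kf.eq_1 := @_root_.Crest.Agent.R151.Pl.Kf.eq_1 -- L150
private theorem rz_7220af5a47 : type_of% @_root_.Crest.Agent.R151.Pl.co.eq_1 := @_root_.Crest.Agent.R151.Pl.co.eq_1 -- L142
private theorem rz_22c6a07342 : type_of% @_root_.Crest.Agent.R151.Pl.onRay.eq_1 := @_root_.Crest.Agent.R151.Pl.onRay.eq_1 -- L23
private theorem rz_8d488aa9ff : type_of% @_root_.Crest.Agent.R151.Pl.rk.eq_1 := @_root_.Crest.Agent.R151.Pl.rk.eq_1 -- L138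
private theorem rz_ce417480e6 : type_of% @_root_.Crest.Agent.R151.Pl.tip.eq_1 := @_root_.Crest.Agent.R151.Pl.tip.eq_1 -- L30
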