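import Crest.Agent.R151.K4a
import Crest.Agent.R151.B710
import Crest.Agent.R151.R78A

-- ▼ part R151/Q1
section

/-!
# R151 / S0214 part 2, Q1 — random shift and covariance (owner helper777)

`ξ` uniform on `[0,1)²` (law `UU2`), environment `t ∼ iidLaw G`; `P0 G = UU2.prod (iidLaw G)` on
`(ℝ × ℝ) × Environment`.  `S v` is the shift of the plane by the real vector `v`, it preserves
`P0 G`.  A function `F θ t` of the offset and of the environment is invariant (`Inv F`) if
`F (θ + m) (act (tr m) t) = F θ t` for lattice vectors `m`; then `F (ξ + v) t = F (S v (ξ, t))`.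
A random vertex `X θ t` is covariant (`Cov X`) if `X (θ + m) (act (tr m) t) = X θ t - m`.
With offset `θ` the vertex `z` sits at the point `toR z + θ` of the plane.
-/

set_option autoImplicit false

open MeasureTheory Filter ProbabilityTheory
open Crest.ProbabilityR.FirstPassage
open Crest.Agent.R151.K

namespace Crest.Agent.R151.Q

/-- uniform law on `[0,1)` -/
noncomputable def UU : Measure ℝ := volume.restrict (Set.Ico 0 1)

instance : IsProbabilityMeasure UU := ⟨by simp [UU]⟩

lemma ae_UU : ∀ᵐ x ∂UU, x ∈ Set.Ico (0 : ℝ) 1 := ae_restrict_mem measurableSet_Ico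

/-- `x ↦ fract (x + v)` preserves the uniform law. -/
lemma mp_fract (v : ℝ) : MeasurePreserving (fun x : ℝ => Int.fract (x + v)) UU UU := by
  refine ⟨measurable_fract.comp (measurable_id.add_const v), ?_⟩
  have hm : Measurable (fun x : ℝ => Int.fract (x + v)) :=
    measurable_fract.comp (measurable_id.add_const v)
  set w : ℝ := Int.fract v with hw
  have hw0 : 0 ≤ w := Int.fract_nonneg v
  have hw1 : w < 1 := Int.fract_lt_one v
  have hfr : ∀ x : ℝ, Int.fract (x + v) = Int.fract (x + w) := by
    intro x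
    have : x + v = x + w + (⌊v⌋ : ℤ) := by
      rw [hw]; have := Int.floor_add_fract v; linarith
    rw [this, Int.fract_add_intCast]
  have hsplit : UU = volume.restrict (Set.Ico 0 (1 - w)) + volume.restrict (Set.Ico (1 - w) 1) := by
    unfold UU
    rw [← Measure.restrict_union (by
      rw [Set.disjoint_left]; rintro x ⟨_, h1⟩ ⟨h2, _⟩; linarith) measurableSet_Ico,
      Set.Ico_union_Ico_eq_Ico (by linarith) (by linarith)]
  have hsplit2 : UU = volume.restrict (Set.Ico w 1) + volume.restrict (Set.Ico 0 w) := by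
    unfold UU
    rw [add_comm, ← Measure.restrict_union (by
      rw [Set.disjoint_left]; rintro x ⟨_, h1⟩ ⟨h2, _⟩; linarith) measurableSet_Ico,
      Set.Ico_union_Ico_eq_Ico (by linarith) (by linarith)]
  conv_lhs => rw [hsplit]
  rw [Measure.map_add _ _ hm, hsplit2]
  congr 1
  · have h1 : Measure.map (fun x : ℝ => Int.fract (x + v)) (volume.restrict (Set.Ico 0 (1 - w)))
        = Measure.map (fun x : ℝ => x + w) (volume.restrict (Set.Ico 0 (1 - w))) := by
      apply Measure.map_congr
      filter_upwards [ae_restrict_mem measurableSet_Ico] with x hx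
      rw [hfr, Int.fract_eq_self]
      exact ⟨by linarith [hx.1], by linarith [hx.2]⟩
    rw [h1]
    have h2 : (fun x : ℝ => x + w) ⁻¹' (Set.Ico w 1) = Set.Ico 0 (1 - w) := by
      ext x; simp only [Set.mem_preimage, Set.mem_Ico]
      constructor <;> intro h <;> constructor <;> linarith [h.1, h.2]
    have h3 := Measure.restrict_map (μ := (volume : Measure ℝ))
      (show Measurable fun x : ℝ => x + w from measurable_id.add_const w)
      (measurableSet_Ico (a := w) (b := 1))
    rw [← h2, ← h3, (measurePreserving_add_right volume w).map_eq]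
  · have h1 : Measure.map (fun x : ℝ => Int.fract (x + v)) (volume.restrict (Set.Ico (1 - w) 1))
        = Measure.map (fun x : ℝ => x + (w - 1)) (volume.restrict (Set.Ico (1 - w) 1)) := by
      apply Measure.map_congr
      filter_upwards [ae_restrict_mem measurableSet_Ico] with x hx
      have : x + v = (x + (w - 1)) + ((⌊v⌋ + 1 : ℤ) : ℝ) := by
        rw [hw]; have := Int.floor_add_fract v; push_cast; linarith
      rw [this, Int.fract_add_intCast, Int.fract_eq_self]
      exact ⟨by linarith [hx.1], by linarith [hx.2]⟩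
    rw [h1]
    have h2 : (fun x : ℝ => x + (w - 1)) ⁻¹' (Set.Ico 0 w) = Set.Ico (1 - w) 1 := by
      ext x; simp only [Set.mem_preimage, Set.mem_Ico]
      constructor <;> intro h <;> constructor <;> linarith [h.1, h.2]
    have h3 := Measure.restrict_map (μ := (volume : Measure ℝ))
      (show Measurable fun x : ℝ => x + (w - 1) from measurable_id.add_const (w - 1))
      (measurableSet_Ico (a := 0) (b := w))
    rw [← h2, ← h3, (measurePreserving_add_right volume (w - 1)).map_eq]

/-- uniform law on `[0,1)²` -/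
noncomputable def UU2 : Measure (ℝ × ℝ) := UU.prod UU

instance : IsProbabilityMeasure UU2 := by unfold UU2; infer_instance

lemma ae_UU2 : ∀ᵐ x ∂UU2, x ∈ Set.Ico (0 : ℝ) 1 ×ˢ Set.Ico (0 : ℝ) 1 := by
  have h : UU2 = (volume : Measure (ℝ × ℝ)).restrict (Set.Ico (0 : ℝ) 1 ×ˢ Set.Ico (0 : ℝ) 1) := by
    unfold UU2 UU
    rw [Measure.prod_restrict]; rfl
  rw [h]
  exact ae_restrict_mem (measurableSet_Ico.prod measurableSet_Ico)

/-- coordinatewise fractional part and floor -/
noncomputable def frac2 (v : ℝ × ℝ) : ℝ × ℝ := (Int.fract v.1, Int.fract v.2)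

/-- coordinatewise floor -/
noncomputable def flo2 (v : ℝ × ℝ) : ℤ × ℤ := (⌊v.1⌋, ⌊v.2⌋)

lemma frac2_eq (v : ℝ × ℝ) : frac2 v = v + toR (-flo2 v) := by
  refine Prod.ext ?_ ?_
  · show Int.fract v.1 = v.1 + ((-flo2 v).1 : ℝ)
    have h := Int.floor_add_fract v.1
    have : (-flo2 v).1 = -⌊v.1⌋ := rfl
    rw [this]; push_cast; linarith
  · show Int.fract v.2 = v.2 + ((-flo2 v).2 : ℝ)
    have h := Int.floor_add_fract v.2
    have : (-flo2 v).2 = -⌊v.2⌋ := rfl
    rw [this]; push_cast; linarith

lemma mp_frac2 (v : ℝ × ℝ) : MeasurePreserving (fun x : ℝ × ℝ => frac2 (x + v)) UU2 UU2 := by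
  unfold UU2
  exact (mp_fract v.1).prod (mp_fract v.2)

/-- the basic probability space: random shift and environment -/
noncomputable def P0 (G : Measure ℝ) : Measure ((ℝ × ℝ) × Environment) := UU2.prod (iidLaw G)

variable {G : Measure ℝ} [IsProbabilityMeasure G]

instance : IsProbabilityMeasure (P0 G) := by unfold P0; infer_instance

/-- shift of the plane by a real vector -/
noncomputable def S (v : ℝ × ℝ) (p : (ℝ × ℝ) × Environment) : (ℝ × ℝ) × Environment :=
  (frac2 (p.1 + v), act (tr (-flo2 (p.1 + v))) p.2)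

lemma measurable_flo2 : Measurable flo2 := by
  unfold flo2
  exact (Int.measurable_floor.comp measurable_fst).prodMk (Int.measurable_floor.comp measurable_snd)

lemma measurable_act_tr : Measurable (fun p : (ℤ × ℤ) × Environment => act (tr p.1) p.2) := by
  refine measurable_from_prod_countable_right fun m => ?_
  exact (mp_act (G := Measure.dirac 0) (tr m)).measurable


lemma mp_S (v : ℝ × ℝ) : MeasurePreserving (S v) (P0 G) (P0 G) := by
  unfold S P0
  refine MeasurePreserving.skew_product (g := fun (x : ℝ × ℝ) (t : Environment) =>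
    act (tr (-flo2 (x + v))) t) (mp_frac2 v) ?_ ?_
  · have : (Function.uncurry fun (x : ℝ × ℝ) (t : Environment) => act (tr (-flo2 (x + v))) t)
        = (fun p : (ℤ × ℤ) × Environment => act (tr p.1) p.2) ∘
          (fun q : (ℝ × ℝ) × Environment => (-flo2 (q.1 + v), q.2)) := rfl
    rw [this]
    refine measurable_act_tr.comp (Measurable.prodMk ?_ measurable_snd)
    exact (measurable_flo2.comp (measurable_fst.add_const v)).neg
  · exact ae_of_all _ fun x => (mp_act (G := G) _).map_eq

/-- invariance of a function of (offset, environment) under lattice translations -/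
def Inv {α : Type*} (F : ℝ × ℝ → Environment → α) : Prop :=
  ∀ (m : ℤ × ℤ) (θ : ℝ × ℝ) (t : Environment), F (θ + toR m) (act (tr m) t) = F θ t


lemma Inv.shift {α : Type*} {F : ℝ × ℝ → Environment → α} (hF : Inv F) (v : ℝ × ℝ)
    (p : (ℝ × ℝ) × Environment) : F (p.1 + v) p.2 = F (S v p).1 (S v p).2 := by
  unfold S
  simp only
  rw [frac2_eq, hF]


/-- change of variables for a measure preserving map -/
lemma mp_integral {Ω Ω' : Type*} [MeasurableSpace Ω] [MeasurableSpace Ω'] {P : Measure Ω}
    {P' : Measure Ω'} {f : Ω → Ω'} (hf : MeasurePreserving f P P') {g : Ω' → ℝ}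
    (hg : AEStronglyMeasurable g P') : ∫ x, g (f x) ∂P = ∫ y, g y ∂P' := by
  have h := hf.map_eq
  conv_rhs => rw [← h]
  rw [integral_map hf.measurable.aemeasurable (by rw [h]; exact hg)]

lemma Inv.integral_shift {F : ℝ × ℝ → Environment → ℝ} (hF : Inv F)
    (hm : Measurable (Function.uncurry F)) (v : ℝ × ℝ) :
    ∫ p, F (p.1 + v) p.2 ∂(P0 G) = ∫ p, F p.1 p.2 ∂(P0 G) := by
  have h : (fun p : (ℝ × ℝ) × Environment => F (p.1 + v) p.2) = (fun p => F p.1 p.2) ∘ S v := by
    funext p; exact hF.shift v p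
  have hm' : Measurable (fun p : (ℝ × ℝ) × Environment => F p.1 p.2) := hm
  rw [h]
  exact mp_integral (mp_S (G := G) v) hm'.aestronglyMeasurable

lemma Inv.integrable_shift {F : ℝ × ℝ → Environment → ℝ} (hF : Inv F) (v : ℝ × ℝ)
    (hi : Integrable (fun p : (ℝ × ℝ) × Environment => F p.1 p.2) (P0 G)) :
    Integrable (fun p : (ℝ × ℝ) × Environment => F (p.1 + v) p.2) (P0 G) := by
  have h : (fun p : (ℝ × ℝ) × Environment => F (p.1 + v) p.2) = (fun p => F p.1 p.2) ∘ S v := by
    funext p; exact hF.shift v p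
  rw [h]
  exact (mp_S (G := G) v).integrable_comp_of_integrable hi

end Crest.Agent.R151.Q
end

-- ▼ part R151/Q2

/-!
# R151 / S0214 part 2, Q2 — definitions: positions, lanes, rates, highways (owner helper777)

Conventions. With offset `θ : ℝ × ℝ` the vertex `z` has position `pos θ z = toR z + θ`; the base
point of an object built with offset `θ` is the origin.  The object with base point `B` of the
shifted plane `ξ` is the one with offset `ξ - B`.
`laneB F w θ` = the `b`-lane of width `w` (`|al| ≤ w/2`); the `a`-lane is `laneB F.swap w θ`.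
`eL`, `rate` = mean excess and excess rate of the `b`-lane (`rate G F.swap w` for the `a`-lane).
`Hwy F` = a covariant system of highways in direction `a`, `x s` = first vertex with `al ≥ s`.
-/

set_option autoImplicit false

open MeasureTheory Filter ProbabilityTheory Topology
open Crest.ProbabilityR.FirstPassage
open Crest.Agent.R151.K

namespace Crest.Agent.R151.Q

open B710 (FlatData)
open R78 (IsHwy hc hp)

/-- position of the vertex `z` when the offset is `θ` -/
def pos (θ : ℝ × ℝ) (z : ℤ × ℤ) : ℝ × ℝ := toR z + θ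

/-- the vertex nearest to the base point -/
noncomputable def nr (θ : ℝ × ℝ) : ℤ × ℤ := (-round θ.1, -round θ.2)

variable {μ : ℝ × ℝ → ℝ}

/-- the lane of width `w` in direction `b` -/
def laneB (F : FlatData μ) (w : ℝ) (θ : ℝ × ℝ) : Set (ℤ × ℤ) :=
  {z | |F.al (pos θ z)| ≤ w / 2}

/-- the potential `φ = ρ ∘ toR`: excess of a walk `x → y` = cost `- (φ y - φ x)` (`R78.exc`) -/
noncomputable def phi (F : FlatData μ) (z : ℤ × ℤ) : ℝ := F.ρ (toR z)

/-- mean excess in the `b`-lane of width `w` over the height `y` -/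
noncomputable def eL (G : Measure ℝ) (F : FlatData μ) (w y : ℝ) : ℝ :=
  ∫ p, pR p.2 (laneB F w p.1) (nr p.1) (nr (p.1 - y • F.b)) ∂(P0 G) - y

/-- excess rate of the `b`-lane of width `w` -/
noncomputable def rate (G : Measure ℝ) (F : FlatData μ) (w : ℝ) : ℝ :=
  ⨅ n : ℕ, eL G F w ((n : ℝ) + 1) / ((n : ℝ) + 1)

/-- first index at which `h` is `≥ s` -/
noncomputable def firstGe (h : ℤ → ℝ) (s : ℝ) : ℤ := sInf {k | s ≤ h k}

/-- A covariant system of highways in direction `a`: for a phase `u : ℝ` (uniform on `[0,1)`), an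
offset `θ` and an environment `t`, `H u θ t : ℤ → ℤ × ℤ` is a bi-infinite simple path in the strip
`|be| ≤ wH / 2` going from `al = -∞` to `al = +∞` with backtracking at most `κ`. -/
structure Hwy (F : FlatData μ) where
  wH : ℝ
  n0 : ℝ
  κ : ℝ
  n0_pos : 0 < n0
  κ_nonneg : 0 ≤ κ
  H : ℝ → ℝ × ℝ → Environment → ℤ → ℤ × ℤ
  meas : ∀ k, Measurable fun q : ℝ × (ℝ × ℝ) × Environment => H q.1 q.2.1 q.2.2 k
  isHwy : ∀ u θ t, IsHwy (H u θ t)
  strip : ∀ u θ t k, |F.be (pos θ (H u θ t k))| ≤ wH / 2
  back : ∀ u θ t j k, j ≤ k → F.al (pos θ (H u θ t j)) ≤ F.al (pos θ (H u θ t k)) + κ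
  top : ∀ u θ t, Tendsto (fun k => F.al (pos θ (H u θ t k))) atTop atTop
  bot : ∀ u θ t, Tendsto (fun k => F.al (pos θ (H u θ t k))) atBot atBot
  /-- lattice covariance -/
  cov : ∀ u θ t m k, H u (θ + toR m) (act (tr m) t) k = H u θ t k - m
  /-- the highway with base point `B + s a` and phase `u` is the highway with base point `B` and
  phase `fract (u + s / n0)`, up to a shift of the index -/
  ash : ∀ s u θ t, ∃ c : ℤ, ∀ k, H (Int.fract (u + s / n0)) θ t k = H u (θ - s • F.a) t (k + c)
  /-- locality: only the edges of the strip are read -/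
  loc : ∀ u θ t t', (∀ e ∈ edgesIn {z | |F.be (pos θ z)| ≤ wH / 2}, t e = t' e) →
    H u θ t = H u θ t'

namespace Hwy

variable {F : FlatData μ} (h : Hwy F)

/-- index of the first vertex with `al ≥ s` -/
noncomputable def ix (s u : ℝ) (θ : ℝ × ℝ) (t : Environment) : ℤ :=
  firstGe (fun k => F.al (pos θ (h.H u θ t k))) s

/-- the first vertex with `al ≥ s` -/
noncomputable def x (s u : ℝ) (θ : ℝ × ℝ) (t : Environment) : ℤ × ℤ := h.H u θ t (h.ix s u θ t)

/-- cost potential difference: cost of the highway from `x s` to `x s'` -/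
noncomputable def cst (s s' u : ℝ) (θ : ℝ × ℝ) (t : Environment) : ℝ :=
  hc t (h.H u θ t) (h.ix s' u θ t) - hc t (h.H u θ t) (h.ix s u θ t)

/-- signed excess of the highway from `x s` to `x s'` -/
noncomputable def Y (s s' u : ℝ) (θ : ℝ × ℝ) (t : Environment) : ℝ :=
  hp t (phi F) (h.H u θ t) (h.ix s' u θ t) - hp t (phi F) (h.H u θ t) (h.ix s u θ t)

end Hwy

/-- the mean properties of a system of highways with rate `ε` -/
structure HwyMean (G : Measure ℝ) {F : FlatData μ} (h : Hwy F) (ε : ℝ) : Prop where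
  nonneg : 0 ≤ ε
  int : ∀ s s' : ℝ, Integrable (fun q : ℝ × (ℝ × ℝ) × Environment => h.Y s s' q.1 q.2.1 q.2.2)
    (UU.prod (P0 G))
  int_cst : ∀ s s' : ℝ, Integrable (fun q : ℝ × (ℝ × ℝ) × Environment =>
    h.cst s s' q.1 q.2.1 q.2.2) (UU.prod (P0 G))
  mean : ∀ s s' : ℝ, ∫ q, h.Y s s' q.1 q.2.1 q.2.2 ∂(UU.prod (P0 G)) = (s' - s) * ε

/-- TARGET (helper777): highways exist, with rate at most the rate of the `a`-lane plus `1 / w ^ 3`,
backtracking at most `K * wH`. -/
def HighwaysExist (G : Measure ℝ) (F : FlatData μ) : Prop :=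
  ∃ K w0 : ℝ, 0 < K ∧ 0 < w0 ∧ ∀ w ≥ w0, ∃ h : Hwy F, h.wH = w ∧ h.κ ≤ K * w ∧
    ∃ ε, HwyMean G h ε ∧ ε ≤ rate G F.swap w + 1 / w ^ 3

end Crest.Agent.R151.Q
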