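import Crest.Agent.R151.Y635D
import Crest.Agent.R151.N3
import Crest.Agent.R151.S113E

-- ▼ part R151/RFL890A
section

/-!
# R151/RFL890A — transport of structure along bijections of the vertices (owner helper890)

`σ : V ≃ V'` with `Trans σ H H'` (`σ` maps the graph `H` onto `H'`), `pull σ t = t ∘ Sym2.map σ`.
Everything deterministic of F1 and Y635A-D for `(pull σ t, H)` is the same thing for `(t, H')`:
passage times, geodesics, rays, two-sided rays, Busemann functions, gradients, coalescence, ties.
-/

set_option autoImplicit false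

open Filter Topology

namespace Crest.Agent.R151.RFL

open Crest.Agent.R151 Crest.Agent.R151.Y

variable {V V' : Type*} {σ : V ≃ V'} {H H₂ : SimpleGraph V} {H' H₂' : SimpleGraph V'}
  {t : Sym2 V' → ℝ}

/-- pull back of an environment -/
def pull (σ : V ≃ V') (t : Sym2 V' → ℝ) : Sym2 V → ℝ := fun e => t (Sym2.map σ e)

@[simp] theorem pull_mk (σ : V ≃ V') (t : Sym2 V' → ℝ) (x y : V) :
    pull σ t s(x, y) = t s(σ x, σ y) := rfl

theorem pull_symm_pull (σ : V ≃ V') (t : Sym2 V' → ℝ) : pull σ.symm (pull σ t) = t := by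
  funext e
  induction e with
  | _ a b => simp



/-- quantification over all edges -/
theorem forall_pull {p : ℝ → Prop} : (∀ e, p (pull σ t e)) ↔ ∀ e, p (t e) := by
  constructor
  · intro h e
    have := h (Sym2.map σ.symm e)
    have e1 : pull σ t (Sym2.map σ.symm e) = t e := by
      change pull σ.symm (pull σ t) e = t e
      rw [pull_symm_pull]
    rwa [e1] at this
  · exact fun h e => h _

theorem nonneg_pull : (∀ e, 0 ≤ pull σ t e) ↔ ∀ e, 0 ≤ t e := forall_pull (p := fun r => 0 ≤ r)


/-- `σ` maps the graph `H` onto the graph `H'`. -/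
def Trans (σ : V ≃ V') (H : SimpleGraph V) (H' : SimpleGraph V') : Prop :=
  ∀ x y, H.Adj x y ↔ H'.Adj (σ x) (σ y)

namespace Trans

theorem symm (h : Trans σ H H') : Trans σ.symm H' H := by
  intro x y
  rw [h, σ.apply_symm_apply, σ.apply_symm_apply]

theorem refl (H : SimpleGraph V) : Trans (Equiv.refl V) H H := fun _ _ => Iff.rfl

/-- the graph isomorphism -/
def iso (h : Trans σ H H') : H ≃g H' := ⟨σ, fun {a b} => (h a b).symm⟩

@[simp] theorem iso_apply (h : Trans σ H H') (x : V) : h.iso x = σ x := rfl

/-- the graph homomorphism -/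
def hom (h : Trans σ H H') : H →g H' := h.iso.toHom

@[simp] theorem hom_apply (h : Trans σ H H') (x : V) : h.hom x = σ x := rfl

theorem wcost (h : Trans σ H H') {x y : V} (w : H.Walk x y) :
    wcost (pull σ t) w = R151.wcost t (w.map h.hom) := by
  unfold R151.wcost
  rw [SimpleGraph.Walk.edges_map, List.map_map]
  rfl

/-- every walk of `H'` comes from a walk of `H` -/
theorem exists_map (h : Trans σ H H') {x y : V} (w : H'.Walk (σ x) (σ y)) :
    ∃ w' : H.Walk x y, w'.map h.hom = w := by
  have hx : h.symm.hom (σ x) = x := σ.symm_apply_apply x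
  have hy : h.symm.hom (σ y) = y := σ.symm_apply_apply y
  refine ⟨(w.map h.symm.hom).copy hx hy, ?_⟩
  apply SimpleGraph.Walk.ext_support
  rw [SimpleGraph.Walk.support_map, SimpleGraph.Walk.support_copy,
    SimpleGraph.Walk.support_map, List.map_map]
  refine (List.map_congr_left fun a _ => ?_).trans (List.map_id _)
  change σ (σ.symm a) = a
  simp


theorem pt (h : Trans σ H H') (t : Sym2 V' → ℝ) (x y : V) :
    pt H (pull σ t) x y = R151.pt H' t (σ x) (σ y) := by
  unfold R151.pt
  refine Function.Surjective.iInf_congr (fun w : H.Walk x y => w.map h.hom) ?_ ?_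
  · intro w
    exact h.exists_map w
  · intro w
    exact (h.wcost w).symm




theorem isRay (h : Trans σ H H') {v : ℕ → V} :
    IsRay (pull σ t) H v ↔ IsRay t H' fun k => σ (v k) := by
  constructor
  · intro hv
    refine ⟨fun k => (h _ _).1 (hv.adj k), fun i j hij => ?_⟩
    rw [← h.pt, ← hv.geo i j hij]
    rfl
  · intro hv
    refine ⟨fun k => (h _ _).2 (hv.adj k), fun i j hij => ?_⟩
    rw [h.pt, ← hv.geo i j hij]
    rfl


theorem bus (h : Trans σ H H') (t : Sym2 V' → ℝ) (v : ℕ → V) (x : V) :
    bus (pull σ t) H v x = Y.bus t H' (fun k => σ (v k)) (σ x) := by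
  unfold Y.bus
  refine iInf_congr fun n => ?_
  rw [h.pt, h.pt]








theorem mem_edgeSet (h : Trans σ H H') {e : Sym2 V} :
    Sym2.map σ e ∈ H'.edgeSet ↔ e ∈ H.edgeSet := by
  induction e with
  | _ a b => exact (h a b).symm


end Trans

/-! ### coalescence, ties -/


theorem sum_pull (σ : V ≃ V') (t : Sym2 V' → ℝ) (A : Finset (Sym2 V)) :
    ∑ e ∈ A, pull σ t e = ∑ e ∈ A.map ⟨Sym2.map σ, Sym2.map.injective σ.injective⟩, t e := by
  rw [Finset.sum_map]
  rfl

theorem NoTies.pull (h : NoTies t) (σ : V ≃ V') : NoTies (pull σ t) := by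
  intro A B hAB
  rw [sum_pull, sum_pull] at hAB
  exact Finset.map_injective _ (h _ _ hAB)

theorem noTies_pull : NoTies (pull σ t) ↔ NoTies t := by
  refine ⟨fun h => ?_, fun h => NoTies.pull h σ⟩
  have := NoTies.pull h σ.symm
  rwa [pull_symm_pull] at this

end Crest.Agent.R151.RFL
end

-- ▼ part R151/RFL890B

/-!
# R151/RFL890B — lattice automorphisms and the reflection `y ↦ -y` (owner helper890)

* `ry : squareLattice ≃g squareLattice` is `z ↦ (z.1, -z.2)`, `act ry = N.refl` (`refl_eq_act`);
  `K.ng` is `z ↦ (-z.1, z.2)`, `K.sw` the swap, `K.tr a` the translation.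
* `Mir φ R R'` : `φ` maps the region `R` onto the region `R'`.  Then `Mir.pt, Mir.pR, Mir.isRay,
  Mir.bus, Mir.isLip, Mir.grad, Mir.isGrad, Mir.hasGrad, Mir.distTo, Mir.dependsOn ...` transport
  statements about `(act φ t, R)` to statements about `(t, R')`.
* measure: `mp_act`, `ae_act`, `integral_act`, `lintegral_act`, `measure_act`, no measurability.
-/

set_option autoImplicit false

open Filter Topology MeasureTheory
open Crest.ProbabilityR.FirstPassage

namespace Crest.Agent.R151.RFL

open Crest.Agent.R151 Crest.Agent.R151.Y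
open Crest.Agent.R151.K (act sw ng tr mp_act pR Conn edgesIn Nn)

/-! ### automorphisms -/

section automorphism

variable (φ : squareLattice ≃g squareLattice)

/-- the underlying bijection -/
abbrev eq (φ : squareLattice ≃g squareLattice) : (ℤ × ℤ) ≃ (ℤ × ℤ) := φ.toEquiv




theorem act_symm_act (t : Environment) : act φ.symm (act φ t) = t := by
  funext e
  induction e with
  | _ a b =>
    change t s(φ (φ.symm a), φ (φ.symm b)) = _
    simp

theorem act_act_symm (t : Environment) : act φ (act φ.symm t) = t := by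
  funext e
  induction e with
  | _ a b =>
    change t s(φ.symm (φ a), φ.symm (φ b)) = _
    simp

theorem nonneg_act {t : Environment} : (∀ e, 0 ≤ act φ t e) ↔ ∀ e, 0 ≤ t e :=
  nonneg_pull (σ := eq φ)


theorem nn_act {t : Environment} : Nn (act φ t) ↔ Nn t := nonneg_act φ

theorem noTies_act {t : Environment} : NoTies (act φ t) ↔ NoTies t := noTies_pull (σ := eq φ)


theorem trans_lattice : Trans (eq φ) squareLattice squareLattice := fun _ _ =>
  φ.map_rel_iff'.symm

theorem passageTime_act (t : Environment) (x y : ℤ × ℤ) :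
    passageTime (act φ t) x y = passageTime t (φ x) (φ y) := K.pt_act t φ x y

theorem isBigeodesic_act (t : Environment) (v : ℤ → ℤ × ℤ) :
    IsBigeodesic (act φ t) v ↔ IsBigeodesic t fun k => φ (v k) := by
  unfold IsBigeodesic
  refine and_congr ?_ (and_congr ?_ ?_)
  · exact ⟨fun h => φ.injective.comp h, fun h a b hab => h (by simp only [hab])⟩
  · exact forall_congr' fun i => φ.map_rel_iff'.symm
  · refine forall_congr' fun i => forall_congr' fun j => forall_congr' fun _ => ?_
    rw [passageTime_act]
    rfl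

/-- translations and automorphisms -/
theorem shift_act {a b : ℤ × ℤ} (h : ∀ x, φ (x + a) = φ x + b) (t : Environment) :
    A.shift a (act φ t) = act φ (A.shift b t) := by
  funext e
  induction e with
  | _ x y =>
    change t s(φ (x + a), φ (y + a)) = t s(φ x + b, φ y + b)
    rw [h, h]


end automorphism

/-! ### measure -/

section measure

variable (φ : squareLattice ≃g squareLattice)

/-- the action as a measurable equivalence -/
def actEquiv : Environment ≃ᵐ Environment where
  toFun := act φ
  invFun := act φ.symm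
  left_inv := act_symm_act φ
  right_inv := act_act_symm φ
  measurable_toFun := by
    change Measurable (act φ)
    unfold act
    exact measurable_pi_lambda _ fun e => measurable_pi_apply _
  measurable_invFun := by
    change Measurable (act φ.symm)
    unfold act
    exact measurable_pi_lambda _ fun e => measurable_pi_apply _


variable {G : Measure ℝ} [IsProbabilityMeasure G]

theorem mp_actEquiv : MeasurePreserving (actEquiv φ) (iidLaw G) (iidLaw G) := mp_act φ

theorem ae_act {P : Environment → Prop} :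
    (∀ᵐ t ∂(iidLaw G), P (act φ t)) ↔ ∀ᵐ t ∂(iidLaw G), P t := by
  constructor
  · intro h
    have := (mp_act (G := G) φ.symm).quasiMeasurePreserving.ae h
    simpa only [act_act_symm] using this
  · exact fun h => (mp_act (G := G) φ).quasiMeasurePreserving.ae h

theorem integral_act {E : Type*} [NormedAddCommGroup E] [NormedSpace ℝ E] (F : Environment → E) :
    ∫ t, F (act φ t) ∂(iidLaw G) = ∫ t, F t ∂(iidLaw G) :=
  (mp_actEquiv (G := G) φ).integral_comp (actEquiv φ).measurableEmbedding F



theorem integrable_act {E : Type*} [NormedAddCommGroup E] {F : Environment → E} :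
    Integrable (fun t => F (act φ t)) (iidLaw G) ↔ Integrable F (iidLaw G) :=
  (mp_actEquiv (G := G) φ).integrable_comp_emb (actEquiv φ).measurableEmbedding



end measure

/-! ### regions -/

/-- `φ` maps the region `R` onto the region `R'`. -/
def Mir (φ : squareLattice ≃g squareLattice) (R R' : Set (ℤ × ℤ)) : Prop :=
  ∀ z, z ∈ R ↔ φ z ∈ R'

namespace Mir

variable {φ : squareLattice ≃g squareLattice} {R R' S S' : Set (ℤ × ℤ)}


theorem eq_preimage (h : Mir φ R R') : R = φ ⁻¹' R' := Set.ext h

theorem symm (h : Mir φ R R') : Mir φ.symm R' R := by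
  intro z
  rw [h, φ.apply_symm_apply]








theorem trans (h : Mir φ R R') : Trans (eq φ) (reg R) (reg R') := by
  intro x y
  rw [reg_adj, reg_adj, h x, h y, trans_lattice φ x y]
  rfl

theorem pt (h : Mir φ R R') (t : Environment) (x y : ℤ × ℤ) :
    pt (reg R) (act φ t) x y = R151.pt (reg R') t (φ x) (φ y) := h.trans.pt t x y

theorem pR (h : Mir φ R R') (t : Environment) (x y : ℤ × ℤ) :
    pR (act φ t) R x y = K.pR t R' (φ x) (φ y) := by
  rw [h.eq_preimage]
  exact K.pR_act t φ R' x y



theorem isRay (h : Mir φ R R') {t : Environment} {v : ℕ → ℤ × ℤ} :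
    IsRay (act φ t) (reg R) v ↔ IsRay t (reg R') fun k => φ (v k) := h.trans.isRay


theorem bus (h : Mir φ R R') (t : Environment) (v : ℕ → ℤ × ℤ) (x : ℤ × ℤ) :
    bus (act φ t) (reg R) v x = Y.bus t (reg R') (fun k => φ (v k)) (φ x) := h.trans.bus t v x








theorem mem_edgesIn (h : Mir φ R R') {e : Sym2 (ℤ × ℤ)} :
    Sym2.map φ e ∈ edgesIn R' ↔ e ∈ edgesIn R := by
  induction e with
  | _ a b =>
    rw [Sym2.map_mk, K.mem_edgesIn, K.mem_edgesIn, h a, h b]


end Mir

/-! ### the reflection `y ↦ -y` -/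

/-- the reflection `y ↦ -y` -/
def ry : squareLattice ≃g squareLattice where
  toEquiv := Equiv.prodCongr (Equiv.refl ℤ) (Equiv.neg ℤ)
  map_rel_iff' := by
    intro a b
    obtain ⟨a1, a2⟩ := a
    obtain ⟨b1, b2⟩ := b
    simp only [squareLattice, SimpleGraph.fromRel_adj, Equiv.prodCongr_apply, Prod.map_apply,
      Equiv.neg_apply, Equiv.refl_apply, ne_eq, Prod.mk.injEq, neg_inj]
    constructor
    · rintro ⟨h1, h2⟩
      exact ⟨h1, by omega⟩
    · rintro ⟨h1, h2⟩
      exact ⟨h1, by omega⟩

@[simp] theorem ry_apply (x : ℤ × ℤ) : ry x = (x.1, -x.2) := rfl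







theorem shift_refl (a : ℤ × ℤ) (t : Environment) :
    A.shift a (N.refl t) = N.refl (A.shift (a.1, -a.2) t) := by
  refine shift_act ry (fun x => ?_) t
  ext <;> simp <;> ring


section refl_measure

variable {G : Measure ℝ} [IsProbabilityMeasure G]

theorem ae_refl {P : Environment → Prop} :
    (∀ᵐ t ∂(iidLaw G), P (N.refl t)) ↔ ∀ᵐ t ∂(iidLaw G), P t := ae_act ry

theorem ae_refl_of {P : Environment → Prop} (h : ∀ᵐ t ∂(iidLaw G), P t) :
    ∀ᵐ t ∂(iidLaw G), P (N.refl t) := ae_refl.2 h

theorem integral_refl {E : Type*} [NormedAddCommGroup E] [NormedSpace ℝ E]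
    (F : Environment → E) :
    ∫ t, F (N.refl t) ∂(iidLaw G) = ∫ t, F t ∂(iidLaw G) := integral_act ry F



theorem integrable_refl {E : Type*} [NormedAddCommGroup E] {F : Environment → E} :
    Integrable (fun t => F (N.refl t)) (iidLaw G) ↔ Integrable F (iidLaw G) := integrable_act ry

end refl_measure

theorem nn_refl {t : Environment} : Nn (N.refl t) ↔ Nn t := nn_act ry

theorem nonneg_refl {t : Environment} : (∀ e, 0 ≤ N.refl t e) ↔ ∀ e, 0 ≤ t e := nonneg_act ry


theorem noTies_refl {t : Environment} : NoTies (N.refl t) ↔ NoTies t := noTies_act ry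

theorem isBigeodesic_refl (t : Environment) (v : ℤ → ℤ × ℤ) :
    IsBigeodesic (N.refl t) v ↔ IsBigeodesic t fun k => ((v k).1, -(v k).2) :=
  isBigeodesic_act ry t v

/-! ### half planes and strips -/



theorem mir_up' (k : ℤ) : Mir ry {z | -k ≤ z.2} {z | z.2 ≤ k} := fun z => by
  simp only [Set.mem_ofPred_eq, ry_apply]
  omega









theorem mir_SEL_up' (k : ℤ) : Mir ry (SEL.Up (-k)) (SEL.Dn k) := mir_up' k


/-- passage times of lower half planes -/
theorem pt_dn (t : Environment) (k : ℤ) (x y : ℤ × ℤ) :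
    pt (reg (SEL.Dn k)) t x y = pt (reg (SEL.Up (-k))) (N.refl t) (x.1, -x.2) (y.1, -y.2) := by
  have h := (mir_SEL_up' k).pt t (x.1, -x.2) (y.1, -y.2)
  simp only [ry_apply, neg_neg, Prod.mk.eta] at h
  exact h.symm




theorem isRay_refl {R R' : Set (ℤ × ℤ)} (h : Mir ry R R') {t : Environment} {v : ℕ → ℤ × ℤ} :
    IsRay t (reg R') v ↔ IsRay (N.refl t) (reg R) fun k => ((v k).1, -(v k).2) := by
  have h1 := h.isRay (t := t) (v := fun k => ((v k).1, -(v k).2))
  simp only [ry_apply, neg_neg, Prod.mk.eta] at h1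
  exact h1.symm

theorem bus_refl {R R' : Set (ℤ × ℤ)} (h : Mir ry R R') (t : Environment) (v : ℕ → ℤ × ℤ)
    (x : ℤ × ℤ) : bus t (reg R') v x =
      bus (N.refl t) (reg R) (fun k => ((v k).1, -(v k).2)) (x.1, -x.2) := by
  have h1 := h.bus t (fun k => ((v k).1, -(v k).2)) (x.1, -x.2)
  simp only [ry_apply, neg_neg, Prod.mk.eta] at h1
  exact h1.symm



/-! ### tails of two-sided paths (S113E) -/

section tails

open Crest.Agent.R151.SEL

variable {t : Environment} {v : ℤ → ℤ × ℤ}


theorem isBigeodesic_rv (h : IsBigeodesic t v) : IsBigeodesic (N.refl t) (rv v) := by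
  rw [isBigeodesic_refl]
  simp only [rv, neg_neg, Prod.mk.eta]
  exact isBigeodesic_neg h





/-- the lower function of `v` is the upper function of the reflected path -/
theorem fD_eq (h : UpDown v) (t : Environment) (k : ℤ) (w : ℤ × ℤ) :
    fD t k v w = fU (N.refl t) (-k) (rv v) (w.1, -w.2) := by
  unfold fD fU
  rw [bus_refl (mir_SEL_up' k)]
  congr 1
  funext n
  rw [h.tailU_rv]

theorem fU_eq (h : UpDown v) (t : Environment) (k : ℤ) (w : ℤ × ℤ) :
    fU t k v w = fD (N.refl t) (-k) (rv v) (w.1, -w.2) := by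
  rw [fD_eq h.rv, N.refl_refl, rv_rv, neg_neg]
  simp


end tails

end Crest.Agent.R151.RFL
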