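import Crest.Agent.R151.Y96C
import Crest.Agent.R151.Y635F
import Crest.Agent.R151.S113F
import Crest.Agent.R151.D411d
import Crest.Agent.R151.H617b
import Crest.Agent.R151.F592d

/-!
# R151, block (Z) (helper96): interface of the final assembly of S0213

* `incU`, `incD` : horizontal increments of 113's label functions `fU`, `fD` of a bigeodesic;
* `HasSl t v s` : `s` is the slope of the bigeodesic `v` (all levels, both half planes);
* `Big C t` : bigeodesics in the upward cone of width `C`;
* `Facts m C t` : the deterministic facts about all `v ∈ Big C t`;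
* `LE t v w` : the order of the labels on all levels;
* `BFam` : a measurable covariant family of paths, `AX`, `ltX` the label field on `ℤ`.
-/

set_option autoImplicit false

open MeasureTheory Filter Topology
open scoped ENNReal

namespace Crest.Agent.R151.Y96

open Crest.ProbabilityR.FirstPassage
open Crest.Agent.R151 Crest.Agent.R151.SEL Crest.Agent.R151.Y

/-- increment of the upper label function over the edge `e` of the row `k` -/
noncomputable def incU (t : Environment) (k : ℤ) (v : ℤ → ℤ × ℤ) (e : ℤ) : ℝ :=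
  fU t k v (e + 1, k) - fU t k v (e, k)

/-- increment of the lower label function over the edge `e` of the row `k` -/
noncomputable def incD (t : Environment) (k : ℤ) (v : ℤ → ℤ × ℤ) (e : ℤ) : ℝ :=
  fD t k v (e + 1, k) - fD t k v (e, k)

/-- `s` is the slope of the path `v`: the upper functions have slope `-s`, the lower ones `s`, on
every row -/
structure HasSl (t : Environment) (v : ℤ → ℤ × ℤ) (s : ℝ) : Prop where
  up : ∀ k, H.HasSlope (fun x => fU t k v (x, k)) (-s)
  dn : ∀ k, H.HasSlope (fun x => fD t k v (x, k)) s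

/-- bigeodesics that go upwards in the cone of width `C` -/
def Big (C : ℝ) (t : Environment) : Set (ℤ → ℤ × ℤ) := {v | IsBigeodesic t v ∧ D411.ProperUp C v}

/-- the upper ends coincide -/
def HighCoal (v w : ℤ → ℤ × ℤ) : Prop := ∃ a b : ℤ, ∀ n : ℕ, v (a + n) = w (b + n)

/-- the deterministic facts on all bigeodesics of the class (`m = μ (1,0)`) -/
structure Facts (m C : ℝ) (t : Environment) : Prop where
  nn : ∀ e, 0 ≤ t e
  nt : NoTies t
  /-- linear growth of the passage times between two rows -/
  grow : ∀ k j : ℤ, ∀ ε > 0, ∃ C' : ℝ, ∀ x z : ℤ,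
    m * |(x : ℝ) - z| - ε * (|(x : ℝ)| + |(z : ℝ)|) - C' ≤ passageTime t (x, k) (z, j)
  slope : ∀ v ∈ Big C t, ∃ s, |s| < m ∧ HasSl t v s
  /-- CHAIN: the upper functions or the lower functions of two bigeodesics of the same slope agree -/
  chain : ∀ v ∈ Big C t, ∀ w ∈ Big C t, ∀ s, HasSl t v s → HasSl t w s → ∀ k l : ℤ, l < k →
    (∀ e, incU t k v e = incU t k w e) ∨ (∀ e, incD t l v e = incD t l w e)
  /-- UC, upper functions not determined by the slope: the lower ends coalesce -/
  ucU : ∀ v₀ ∈ Big C t, ∀ w₀ ∈ Big C t, ∀ s, HasSl t v₀ s → HasSl t w₀ s →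
    (∃ k e, incU t k v₀ e ≠ incU t k w₀ e) →
    ∀ v ∈ Big C t, ∀ w ∈ Big C t, HasSl t v s → HasSl t w s → LowCoal v w
  /-- UC, lower functions not determined by the slope: the upper ends coalesce -/
  ucD : ∀ v₀ ∈ Big C t, ∀ w₀ ∈ Big C t, ∀ s, HasSl t v₀ s → HasSl t w₀ s →
    (∃ k e, incD t k v₀ e ≠ incD t k w₀ e) →
    ∀ v ∈ Big C t, ∀ w ∈ Big C t, HasSl t v s → HasSl t w s → HighCoal v w

/-- order of the labels, on all rows at once -/
def LE (t : Environment) (v w : ℤ → ℤ × ℤ) : Prop :=
  (∀ k e, incU t k w e ≤ incU t k v e) ∧ ∀ k e, incD t k v e ≤ incD t k w e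

theorem LE.refl (t : Environment) (v : ℤ → ℤ × ℤ) : LE t v v :=
  ⟨fun _ _ => le_rfl, fun _ _ => le_rfl⟩

theorem LE.trans {t : Environment} {u v w : ℤ → ℤ × ℤ} (h : LE t u v) (h' : LE t v w) :
    LE t u w :=
  ⟨fun k e => (h'.1 k e).trans (h.1 k e), fun k e => (h.2 k e).trans (h'.2 k e)⟩

/-! ## covariance and measurability of the increments -/

theorem incU_shift (a : ℤ × ℤ) (t : Environment) (k : ℤ) (v : ℤ → ℤ × ℤ) (e : ℤ) :
    incU (A.shift a t) k v e = incU t (k + a.2) (fun n => v n + a) (e + a.1) := by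
  have h1 := fU_shift a t k v (e + 1, k)
  have h2 := fU_shift a t k v (e, k)
  unfold incU
  rw [← h1, ← h2]
  congr 1
  congr 1
  ext <;> simp
  ring


/-- a measurable covariant family of paths; `sl i t` is meant to be the slope of `g i t` -/
structure BFam where
  g : ℤ × ℤ → Environment → ℤ → ℤ × ℤ
  pres : ℤ × ℤ → Environment → Prop
  sl : ℤ × ℤ → Environment → ℝ
  g_meas : ∀ i n, Measurable fun t => g i t n
  pres_meas : ∀ i, MeasurableSet {t | pres i t}
  sl_meas : ∀ i, Measurable (sl i)
  g_add : ∀ i a t n, g (i + a) t n = g i (A.shift a t) n + a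
  pres_add : ∀ i a t, pres (i + a) t ↔ pres i (A.shift a t)
  sl_add : ∀ i a t, sl (i + a) t = sl i (A.shift a t)

namespace BFam

variable (F : BFam)

theorem g_add' (i a : ℤ × ℤ) (t : Environment) :
    F.g (i + a) t = fun n => F.g i (A.shift a t) n + a := funext fun n => F.g_add i a t n

theorem incU_add (a : ℤ × ℤ) (t : Environment) (k : ℤ) (i : ℤ × ℤ) (e : ℤ) :
    incU (A.shift a t) k (F.g i (A.shift a t)) e =
      incU t (k + a.2) (F.g (i + a) t) (e + a.1) := by
  rw [incU_shift, F.g_add']


theorem measurable_incU (k : ℤ) (i : ℤ × ℤ) (e : ℤ) :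
    Measurable fun t => incU t k (F.g i t) e :=
  (measurable_fU (τ := fun t => t) measurable_id (F.g_meas i) k _).sub
    (measurable_fU (τ := fun t => t) measurable_id (F.g_meas i) k _)




/-- the active labels of the row `0` -/
def AX (t : Environment) : Set ℤ := {x | F.pres (x, 0) t}


theorem measurableSet_AX (x : ℤ) : MeasurableSet {t | x ∈ F.AX t} := F.pres_meas _


theorem AX_shift (z : ℤ) (t : Environment) (x : ℤ) : x ∈ F.AX (A.shift (z, 0) t) ↔ x + z ∈ F.AX t := by
  have := F.pres_add (x, 0) (z, 0) t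
  simp only [Prod.mk_add_mk, add_zero] at this
  exact this.symm


end BFam

end Crest.Agent.R151.Y96
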