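import Mathlib
import Crest.Prelude.Def_PlanarFPP
import Crest.Agent.R151.Y635F
import Crest.Agent.R151.S113F
import Crest.Agent.R151.D411d
import Crest.Agent.R151.Y96D
import Crest.Agent.R151.RFL890B

-- ▼ part R151/Y635G
section

/-!
# R151, Y635G (helper635): the geometric fields of the mass argument from growth and coalescence

For a fixed environment `t` and a family `v i` (`i` with `S i`) of bigeodesics going from `-∞` to
`+∞` in height, with slopes `sl i`: linear growth of the label functions on every level, a lower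
bound for the passage times and coalescence of the lower ends (as soon as two labels of the slope
differ on one level) give all the geometric hypotheses (o1), (o2), (o3), (o5), (o6), (o7) of
helper96's `Y96.Sys`.
-/

set_option autoImplicit false

open MeasureTheory Filter Topology
open scoped ENNReal
open Crest.ProbabilityR.FirstPassage

namespace Crest.Agent.R151.Y

open Crest.Agent.R151 Crest.Agent.R151.SEL

/-- the increments of the label function of `v` on the line of height `k` -/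
noncomputable def incU (t : Environment) (k : ℤ) (v : ℤ → ℤ × ℤ) (e : ℤ) : ℝ :=
  fU t k v (e + 1, k) - fU t k v (e, k)

/-- linear growth with slope `-s` on the line of height `k` -/
def GrowU (t : Environment) (k : ℤ) (v : ℤ → ℤ × ℤ) (s : ℝ) : Prop :=
  ∀ ε > 0, ∃ C : ℝ, ∀ x : ℤ, |fU t k v (x, k) + s * x| ≤ ε * |(x : ℝ)| + C

/-- the lower bound for passage times from level `k` to level `j` -/
def TimeLB (t : Environment) (m : ℝ) (k j : ℤ) : Prop :=
  ∀ ε > 0, ∃ C : ℝ, ∀ x z : ℤ, m * |(x : ℝ) - z| - ε * (|(x : ℝ)| + |(z : ℝ)|) - C ≤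
    pt (reg (Up k)) t (x, k) (z, j)

theorem sub_eq_sum_inc (f : ℤ → ℝ) (n : ℕ) : f n - f 0 = ∑ i ∈ Finset.range n, (f (i + 1) - f i) := by
  induction n with
  | zero => simp
  | succ n ih =>
    rw [Finset.sum_range_succ, ← ih]
    push_cast
    ring

/-- a larger slope is incompatible with larger increments -/
theorem GrowU.slope_le {t : Environment} {k : ℤ} {v w : ℤ → ℤ × ℤ} {s s' : ℝ}
    (hv : GrowU t k v s) (hw : GrowU t k w s')
    (h : ∀ e, incU t k v e ≤ incU t k w e) : s' ≤ s := by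
  by_contra hcon
  push Not at hcon
  obtain ⟨C1, h1⟩ := hv ((s' - s) / 4) (by linarith)
  obtain ⟨C2, h2⟩ := hw ((s' - s) / 4) (by linarith)
  -- `f_v n - f_v 0 ≤ f_w n - f_w 0`
  have h3 : ∀ n : ℕ, fU t k v (n, k) - fU t k v (0, k) ≤ fU t k w (n, k) - fU t k w (0, k) := by
    intro n
    have a1 := sub_eq_sum_inc (fun x => fU t k v (x, k)) n
    have a2 := sub_eq_sum_inc (fun x => fU t k w (x, k)) n
    rw [a1, a2]
    exact Finset.sum_le_sum fun i _ => h i
  obtain ⟨n, hn⟩ := exists_nat_gt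
    ((C1 + C2 + |fU t k v (0, k)| + |fU t k w (0, k)|) / ((s' - s) / 2))
  rw [div_lt_iff₀ (by linarith)] at hn
  have e1 := h1 n
  have e2 := h2 n
  have e3 := h3 n
  push_cast at e1 e2
  rw [abs_of_nonneg (by positivity : (0 : ℝ) ≤ (n : ℝ)), abs_le] at e1 e2
  have e4 := neg_abs_le (fU t k v (0, k))
  have e5 := le_abs_self (fU t k v (0, k))
  have e6 := neg_abs_le (fU t k w (0, k))
  have e7 := le_abs_self (fU t k w (0, k))
  nlinarith [e1.1, e1.2, e2.1, e2.2]

/-- (o2) for two bigeodesics -/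
theorem incU_le_of_slope_lt {t : Environment} {k : ℤ} {v w : ℤ → ℤ × ℤ} {s s' : ℝ}
    (hnt : NoTies t) (ht : ∀ e, 0 ≤ t e) (hv : IsBigeodesic t v) (hvU : UpDown v)
    (hw : IsBigeodesic t w) (hwU : UpDown w) (gv : GrowU t k v s) (gw : GrowU t k w s')
    (hs : s < s') (e : ℤ) : incU t k w e ≤ incU t k v e := by
  rcases fU_total hnt ht hv hvU hw hwU k with h | h
  · exact h e
  · exact absurd (gv.slope_le gw h) (not_le.2 hs)

/-- the fixed-environment bundle -/
structure GeoFam {ι : Type*} (t : Environment) (m : ℝ) (S : ι → Prop) (v : ι → ℤ → ℤ × ℤ)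
    (sl : ι → ℝ) : Prop where
  noTies : NoTies t
  nonneg : ∀ e, 0 ≤ t e
  big : ∀ i, S i → IsBigeodesic t (v i)
  upDown : ∀ i, S i → UpDown (v i)
  slope : ∀ i, S i → |sl i| < m
  time : ∀ k j : ℤ, k ≤ j → TimeLB t m k j
  growth : ∀ i, S i → ∀ k, GrowU t k (v i) (sl i)
  lowCoal : ∀ k i₀ j₀ e₀, S i₀ → S j₀ → sl i₀ = sl j₀ → incU t k (v i₀) e₀ ≠ incU t k (v j₀) e₀ →
    ∀ i j, S i → S j → sl i = sl i₀ → sl j = sl i₀ → LowCoal (v i) (v j)

namespace GeoFam

variable {ι : Type*} {t : Environment} {m : ℝ} {S : ι → Prop} {v : ι → ℤ → ℤ × ℤ} {sl : ι → ℝ}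

/-- (o1) -/
theorem inc_le (h : GeoFam t m S v sl) (k : ℤ) (i : ι) (e : ℤ) (hi : S i) :
    |incU t k (v i) e| ≤ pt (reg (Up k)) t (e, k) (e + 1, k) :=
  abs_inc_fU_le h.nonneg (h.big i hi) (h.upDown i hi) le_rfl le_rfl

/-- (o2) -/
theorem slope_lt (h : GeoFam t m S v sl) (k : ℤ) (i j : ι) (hi : S i) (hj : S j)
    (hs : sl i < sl j) (e : ℤ) : incU t k (v j) e ≤ incU t k (v i) e :=
  incU_le_of_slope_lt h.noTies h.nonneg (h.big i hi) (h.upDown i hi) (h.big j hj) (h.upDown j hj)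
    (h.growth i hi k) (h.growth j hj k) hs e

/-- (o4) -/
theorem total (h : GeoFam t m S v sl) (k : ℤ) (i j : ι) (hi : S i) (hj : S j) :
    (∀ e, incU t k (v j) e ≤ incU t k (v i) e) ∨ ∀ e, incU t k (v i) e ≤ incU t k (v j) e :=
  fU_total h.noTies h.nonneg (h.big i hi) (h.upDown i hi) (h.big j hj) (h.upDown j hj) k

/-- (o3) -/
theorem loc_lt (h : GeoFam t m S v sl) (k : ℤ) (i₀ j₀ : ι) (e₀ : ℤ) (hi₀ : S i₀) (hj₀ : S j₀)
    (hs : sl i₀ = sl j₀) (hne : incU t k (v i₀) e₀ ≠ incU t k (v j₀) e₀) (i j : ι) (hi : S i)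
    (hj : S j) (hsi : sl i = sl i₀) (hsj : sl j = sl i₀)
    (hl : (tailU k (v i) 0).1 < (tailU k (v j) 0).1) (e : ℤ) :
    incU t k (v j) e ≤ incU t k (v i) e :=
  inc_fU_mono_of_loc h.noTies h.nonneg (h.big i hi) (h.upDown i hi) (h.big j hj) (h.upDown j hj)
    (h.lowCoal k i₀ j₀ e₀ hi₀ hj₀ hs hne i j hi hj hsi hsj) hl e

/-- (o5) between two levels -/
theorem osc' (h : GeoFam t m S v sl) {k j : ℤ} (hkj : k ≤ j) (i i' : ι) (hi : S i) (hi' : S i')
    (hle : ∀ e, incU t j (v i') e ≤ incU t j (v i) e) :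
    ∑' e, ENNReal.ofReal (incU t j (v i) e - incU t j (v i') e) ≤
      ∑' e, ENNReal.ofReal (incU t k (v i) e - incU t k (v i') e) :=
  tsum_inc_fU_le_of_growth h.noTies h.nonneg (h.big i hi) (h.upDown i hi) (h.big i' hi')
    (h.upDown i' hi') hkj (h.slope i hi) (h.slope i' hi') (h.time k j hkj) (h.growth i hi k)
    (h.growth i hi j) (h.growth i' hi' k) (h.growth i' hi' j) hle

/-- (o5) -/
theorem osc (h : GeoFam t m S v sl) (i j : ι) (hi : S i) (hj : S j)
    (hle : ∀ e, incU t 0 (v j) e ≤ incU t 0 (v i) e) (n : ℕ) :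
    ∑' e, ENNReal.ofReal (incU t 0 (v i) e - incU t 0 (v j) e) ≤
      ∑' e, ENNReal.ofReal (incU t (-n) (v i) e - incU t (-n) (v j) e) :=
  h.osc' (by omega) i j hi hj hle

/-- (o7) between two levels -/
theorem order' (h : GeoFam t m S v sl) {k j : ℤ} (hkj : k ≤ j) (i i' : ι) (hi : S i) (hi' : S i')
    (hle : ∀ e, incU t j (v i') e ≤ incU t j (v i) e) (e : ℤ) :
    incU t k (v i') e ≤ incU t k (v i) e :=
  inc_fU_le_of_le h.noTies h.nonneg (h.big i hi) (h.upDown i hi) (h.big i' hi') (h.upDown i' hi')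
    hkj hle e

/-- (o7) -/
theorem order (h : GeoFam t m S v sl) (i j : ι) (hi : S i) (hj : S j)
    (hle : ∀ e, incU t 0 (v j) e ≤ incU t 0 (v i) e) (n : ℕ) (e : ℤ) :
    incU t (-n) (v j) e ≤ incU t (-n) (v i) e :=
  h.order' (by omega) i j hi hj hle e


/-- (o6) -/
theorem coal (h : GeoFam t m S v sl) {k : ℤ} (i₀ j₀ : ι) (e₀ : ℤ) (hi₀ : S i₀) (hj₀ : S j₀)
    (hs : sl i₀ = sl j₀) (hne : incU t k (v i₀) e₀ ≠ incU t k (v j₀) e₀) (i j : ι) (hi : S i)
    (hj : S j) (hsi : sl i = sl i₀) (hsj : sl j = sl i₀) :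
    ∀ᶠ n : ℕ in atTop, (tailU (-(n : ℤ)) (v i) 0).1 = (tailU (-(n : ℤ)) (v j) 0).1 := by
  filter_upwards [eventually_loc_eq (h.upDown i hi) (h.upDown j hj)
    (h.lowCoal k i₀ j₀ e₀ hi₀ hj₀ hs hne i j hi hj hsi hsj)] with n hn
  rw [hn]

/-- restriction to a smaller class -/
theorem mono (h : GeoFam t m S v sl) {S' : ι → Prop} (hS : ∀ i, S' i → S i) :
    GeoFam t m S' v sl where
  noTies := h.noTies
  nonneg := h.nonneg
  big i hi := h.big i (hS i hi)
  upDown i hi := h.upDown i (hS i hi)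
  slope i hi := h.slope i (hS i hi)
  time := h.time
  growth i hi := h.growth i (hS i hi)
  lowCoal k i₀ j₀ e₀ hi₀ hj₀ hs hne i j hi hj :=
    h.lowCoal k i₀ j₀ e₀ (hS i₀ hi₀) (hS j₀ hj₀) hs hne i j (hS i hi) (hS j hj)

/-- re-indexing -/
theorem comp {κ : Type*} (h : GeoFam t m S v sl) (g : κ → ι) :
    GeoFam t m (fun a => S (g a)) (fun a => v (g a)) (fun a => sl (g a)) where
  noTies := h.noTies
  nonneg := h.nonneg
  big _ hi := h.big _ hi
  upDown _ hi := h.upDown _ hi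
  slope _ hi := h.slope _ hi
  time := h.time
  growth _ hi := h.growth _ hi
  lowCoal k i₀ j₀ e₀ hi₀ hj₀ hs hne i j hi hj :=
    h.lowCoal k (g i₀) (g j₀) e₀ hi₀ hj₀ hs hne (g i) (g j) hi hj

end GeoFam

/-- two growth rates on the same level agree -/
theorem GrowU.unique {t : Environment} {k : ℤ} {v : ℤ → ℤ × ℤ} {s s' : ℝ}
    (hv : GrowU t k v s) (hw : GrowU t k v s') : s = s' :=
  le_antisymm (hw.slope_le hv fun _ => le_rfl) (hv.slope_le hw fun _ => le_rfl)


end Crest.Agent.R151.Y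
end

-- ▼ part R151/Y635H
section

/-!
# R151, Y635H (helper635): the lower bound for the passage times between two levels from the shape
theorem

`uShape_lb`: `μ (y - x) - ε (‖x‖₁ + ‖y‖₁) - C ≤ T(x, y)` for all `x, y` (fixed environment);
`SmoothNorm.fst_le`: `μ (1,0) |a| ≤ μ (a, b)`; `timeLB`: `TimeLB t (μ (1,0)) k j` for all levels.
-/

set_option autoImplicit false

open MeasureTheory Filter Topology
open scoped ENNReal
open Crest.ProbabilityR.FirstPassage

namespace Crest.Agent.R151.Y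

open Crest.Agent.R151 Crest.Agent.R151.SEL Crest.Agent.R151.D411

/-- the uniform shape theorem in the form with an additive constant -/
theorem abs_sub_le_of_uShape {μ : ℝ × ℝ → ℝ} {t : Environment} (h : UShape μ t) :
    ∀ ε > 0, ∃ C : ℝ, 0 ≤ C ∧ ∀ x y : ℤ × ℤ, |passageTime t x y - μ (K.toR (y - x))| ≤
      ε * (|(x.1 : ℝ)| + |(x.2 : ℝ)| + |(y.1 : ℝ)| + |(y.2 : ℝ)|) + C := by
  intro ε hε
  obtain ⟨N, hN⟩ := eventually_atTop.1 (h ε hε)
  refine ⟨ε * N, by positivity, fun x y => ?_⟩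
  obtain ⟨n, hn⟩ : ∃ n : ℕ, n = N + x.1.natAbs + x.2.natAbs + y.1.natAbs + y.2.natAbs := ⟨_, rfl⟩
  have h1 := hN n (by omega)
  have hx : x ∈ K.box n := by
    rw [K.mem_box]
    omega
  have hy : y ∈ K.box n := by
    rw [K.mem_box]
    omega
  have h2 := K.le_dev μ t hx hy
  have e : ∀ a : ℤ, ((a.natAbs : ℕ) : ℝ) = |(a : ℝ)| := fun a => by
    rw [← Int.cast_abs, Int.abs_eq_natAbs]
    simp
  have h3 : (n : ℝ) = N + |(x.1 : ℝ)| + |(x.2 : ℝ)| + |(y.1 : ℝ)| + |(y.2 : ℝ)| := by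
    rw [hn]
    push_cast [e]
    ring
  rw [h3] at h1
  linarith

theorem smoothNorm_fst_le {μ : ℝ × ℝ → ℝ} (h : SmoothNorm μ) (a b : ℝ) :
    μ (1, 0) * |a| ≤ μ (a, b) := by
  have h1 : μ (a, -b) = μ (a, b) := by
    have := h.norm.neg (a, -b)
    rw [Prod.neg_mk, neg_neg] at this
    rw [← this, h.refl]
  have h2 := h.norm.add (a, b) (a, -b)
  rw [h1, Prod.mk_add_mk, add_neg_cancel] at h2
  have h3 : μ (a + a, 0) = 2 * |a| * μ (1, 0) := by
    rcases le_total 0 a with ha | ha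
    · have := h.norm.smul (a + a) (1, 0) (by linarith)
      rw [Prod.smul_mk, smul_eq_mul, smul_eq_mul, mul_one, mul_zero] at this
      rw [this, abs_of_nonneg ha]
      ring
    · have := h.norm.smul (-(a + a)) (-1, 0) (by linarith)
      rw [Prod.smul_mk, smul_eq_mul, smul_eq_mul, mul_zero, mul_neg_one, neg_neg] at this
      rw [this, abs_of_nonpos ha, h.refl]
      ring
  rw [h3] at h2
  linarith


theorem timeLB {μ : ℝ × ℝ → ℝ} (hμ : SmoothNorm μ) {t : Environment} (ht : ∀ e, 0 ≤ t e)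
    (h : UShape μ t) {k j : ℤ} (hkj : k ≤ j) : TimeLB t (μ (1, 0)) k j := by
  intro ε hε
  obtain ⟨C, hC0, hC⟩ := abs_sub_le_of_uShape h ε hε
  refine ⟨C + ε * (|(k : ℝ)| + |(j : ℝ)|), fun x z => ?_⟩
  have h1 := hC (x, k) (z, j)
  have h2 : passageTime t (x, k) (z, j) ≤ pt (reg (Up k)) t (x, k) (z, j) := by
    rw [passageTime_eq_pt]
    exact pt_anti (fun a b hab => hab.1) ht (reachable_Up le_rfl hkj)
  have h3 := smoothNorm_fst_le hμ (((z - x : ℤ)) : ℝ) (((j - k : ℤ)) : ℝ)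
  have h4 : K.toR ((z, j) - (x, k)) = ((((z - x : ℤ)) : ℝ), (((j - k : ℤ)) : ℝ)) := by
    simp [K.toR]
  rw [h4] at h1
  have h5 := neg_abs_le (passageTime t (x, k) (z, j) - μ ((((z - x : ℤ)) : ℝ), (((j - k : ℤ)) : ℝ)))
  have h6 : |(x : ℝ) - z| = |(((z - x : ℤ)) : ℝ)| := by
    rw [abs_sub_comm]
    push_cast
    rfl
  rw [h6]
  simp only at h1
  nlinarith

end Crest.Agent.R151.Y
end

-- ▼ part R151/Y635I

/-!
# R151, Y635I (helper635): consequences of helper96's `Facts` for one environment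

* reflection: `incU_refl`, `incD_refl`, `big_rv`, `HasSl.rv`, `LE_rv`, `lowCoal_rv`, `highCoal_rv`,
  `locU_rv`, `Facts.refl : Facts m C t → Facts m C (N.refl t)`;
* `Facts.le_total`, `Facts.le_of_lt`, equality of increments on one row and on all rows,
  the fields (o1) .. (o7) of `Y96.Sys` for the members of `Big C t`.
-/

set_option autoImplicit false

open MeasureTheory Filter Topology
open scoped ENNReal

namespace Crest.Agent.R151.Y96

open Crest.ProbabilityR.FirstPassage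
open Crest.Agent.R151 Crest.Agent.R151.SEL Crest.Agent.R151.Y

/-! ## paths going up -/

section basic

variable {C m s s' : ℝ} {t : Environment} {v w : ℤ → ℤ × ℤ}

theorem updown_of_big (h : v ∈ Big C t) : UpDown v := ⟨h.2.2.2.1, h.2.2.2.2⟩


/-- linear growth with an additive constant from the slope -/
theorem growth_of_hasSlope {f : ℤ → ℝ} {c : ℝ} (h : H.HasSlope f c) :
    ∀ ε > 0, ∃ C : ℝ, ∀ x : ℤ, |f x - c * x| ≤ ε * |(x : ℝ)| + C := by
  intro ε hε
  have h1 := (Metric.tendsto_nhds.1 h.top ε hε).and (eventually_gt_atTop 0)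
  have h2 := (Metric.tendsto_nhds.1 h.bot ε hε).and (eventually_lt_atBot 0)
  obtain ⟨N1, hN1⟩ := eventually_atTop.1 h1
  obtain ⟨N2, hN2⟩ := eventually_atBot.1 h2
  obtain ⟨B, hB⟩ := ((Set.finite_Icc N2 N1).image fun x : ℤ => |f x - c * x|).bddAbove
  have key : ∀ x : ℤ, (x : ℝ) ≠ 0 → dist (f x / x) c < ε → |f x - c * x| ≤ ε * |(x : ℝ)| := by
    intro x hx hd
    rw [Real.dist_eq] at hd
    have : f x - c * x = (f x / x - c) * x := by
      field_simp
    rw [this, abs_mul]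
    exact mul_le_mul_of_nonneg_right hd.le (abs_nonneg _)
  refine ⟨|B|, fun x => ?_⟩
  have hx0 : 0 ≤ ε * |(x : ℝ)| := by positivity
  by_cases hx1 : N1 ≤ x
  · obtain ⟨h3, h4⟩ := hN1 x hx1
    have h5 : (x : ℝ) ≠ 0 := by exact_mod_cast h4.ne'
    have := key x h5 h3
    have := abs_nonneg B
    linarith
  · by_cases hx2 : x ≤ N2
    · obtain ⟨h3, h4⟩ := hN2 x hx2
      have h5 : (x : ℝ) ≠ 0 := by exact_mod_cast h4.ne
      have := key x h5 h3
      have := abs_nonneg B
      linarith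
    · have h6 : |f x - c * x| ≤ B := hB ⟨x, ⟨by omega, by omega⟩, rfl⟩
      have := le_abs_self B
      linarith

theorem HasSl.unique (h : HasSl t v s) (h' : HasSl t v s') : s = s' :=
  (h.dn 0).unique (h'.dn 0)

theorem HasSl.growU (h : HasSl t v s) (k : ℤ) : GrowU t k v s := by
  intro ε hε
  obtain ⟨B, hB⟩ := growth_of_hasSlope (h.up k) ε hε
  refine ⟨B, fun x => ?_⟩
  have := hB x
  rwa [neg_mul, sub_neg_eq_add] at this

theorem grow_timeLB (ht : ∀ e, 0 ≤ t e)
    (h : ∀ k j : ℤ, ∀ ε > 0, ∃ C' : ℝ, ∀ x z : ℤ,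
      m * |(x : ℝ) - z| - ε * (|(x : ℝ)| + |(z : ℝ)|) - C' ≤ passageTime t (x, k) (z, j))
    {k j : ℤ} (hkj : k ≤ j) : TimeLB t m k j := by
  intro ε hε
  obtain ⟨C', hC⟩ := h k j ε hε
  refine ⟨C', fun x z => (hC x z).trans ?_⟩
  rw [passageTime_eq_pt]
  exact pt_anti (fun a b hab => hab.1) ht (reachable_Up le_rfl hkj)

end basic

/-! ## reflection -/

section reflection

variable {C m s s' : ℝ} {t : Environment} {v w : ℤ → ℤ × ℤ}

theorem incU_refl (hv : UpDown v) (t : Environment) (k e : ℤ) :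
    incU (N.refl t) (-k) (rv v) e = incD t k v e := by
  unfold incU incD
  rw [RFL.fD_eq hv t k, RFL.fD_eq hv t k]

theorem incU_refl' (hv : UpDown v) (t : Environment) (k e : ℤ) :
    incU (N.refl t) k (rv v) e = incD t (-k) v e := by
  have := incU_refl hv t (-k) e
  rwa [neg_neg] at this

theorem incD_refl (hv : UpDown v) (t : Environment) (k e : ℤ) :
    incD (N.refl t) (-k) (rv v) e = incU t k v e := by
  unfold incU incD
  rw [RFL.fU_eq hv t k, RFL.fU_eq hv t k]

theorem incD_refl' (hv : UpDown v) (t : Environment) (k e : ℤ) :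
    incD (N.refl t) k (rv v) e = incU t (-k) v e := by
  have := incD_refl hv t (-k) e
  rwa [neg_neg] at this

theorem properUp_rv (h : D411.ProperUp C v) : D411.ProperUp C (rv v) := by
  obtain ⟨h1, h2, h3, h4⟩ := h
  refine ⟨?_, ?_, ?_, ?_⟩
  · have := tendsto_neg_atTop_atBot.eventually h2
    filter_upwards [this] with n hn
    simp only [rv, Int.cast_neg, mul_neg]
    exact hn
  · have := tendsto_neg_atBot_atTop.eventually h1
    filter_upwards [this] with n hn
    simp only [rv, Int.cast_neg, mul_neg, neg_neg]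
    exact hn
  · exact (tendsto_neg_atBot_atTop.comp h4).comp tendsto_neg_atTop_atBot
  · exact (tendsto_neg_atTop_atBot.comp h3).comp tendsto_neg_atBot_atTop

theorem big_rv (h : v ∈ Big C t) : rv v ∈ Big C (N.refl t) :=
  ⟨RFL.isBigeodesic_rv h.1, properUp_rv h.2⟩

theorem big_rv_iff : rv v ∈ Big C (N.refl t) ↔ v ∈ Big C t := by
  refine ⟨fun h => ?_, big_rv⟩
  have := big_rv h
  rwa [N.refl_refl, rv_rv] at this

theorem big_refl_iff : v ∈ Big C (N.refl t) ↔ rv v ∈ Big C t := by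
  rw [← big_rv_iff (v := rv v), rv_rv]

theorem HasSl.rv (h : HasSl t v s) (hv : UpDown v) : HasSl (N.refl t) (rv v) (-s) := by
  refine ⟨fun k => ?_, fun k => ?_⟩
  · have h1 := h.dn (-k)
    rw [neg_neg]
    have h2 : (fun x : ℤ => fU (N.refl t) k (SEL.rv v) (x, k)) = fun x => fD t (-k) v (x, -k) := by
      funext x
      have := RFL.fD_eq hv t (-k) (x, -k)
      simp only [neg_neg] at this
      exact this.symm
    rw [h2]
    exact h1
  · have h1 := h.up (-k)
    have h2 : (fun x : ℤ => fD (N.refl t) k (SEL.rv v) (x, k)) = fun x => fU t (-k) v (x, -k) := by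
      funext x
      have := RFL.fU_eq hv t (-k) (x, -k)
      simp only [neg_neg] at this
      exact this.symm
    rw [h2]
    exact h1

theorem hasSl_rv_iff (hv : UpDown v) : HasSl (N.refl t) (rv v) (-s) ↔ HasSl t v s := by
  refine ⟨fun h => ?_, fun h => h.rv hv⟩
  have := h.rv hv.rv
  rwa [N.refl_refl, rv_rv, neg_neg] at this

theorem hasSl_refl_iff (hv : UpDown v) : HasSl (N.refl t) v s ↔ HasSl t (rv v) (-s) := by
  rw [← hasSl_rv_iff (t := N.refl t) (v := v) hv, N.refl_refl]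

theorem lowCoal_rv : LowCoal (rv v) (rv w) ↔ HighCoal v w := by
  constructor
  · rintro ⟨a, b, h⟩
    refine ⟨-a, -b, fun n => ?_⟩
    have := h n
    simp only [rv, Prod.mk.injEq, neg_inj] at this
    rw [show -(a - (n : ℤ)) = -a + n by ring, show -(b - (n : ℤ)) = -b + n by ring] at this
    exact Prod.ext this.1 this.2
  · rintro ⟨a, b, h⟩
    refine ⟨-a, -b, fun n => ?_⟩
    have := h n
    simp only [rv]
    rw [show -(-a - (n : ℤ)) = a + n by ring, show -(-b - (n : ℤ)) = b + n by ring, this]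

theorem highCoal_rv : HighCoal (rv v) (rv w) ↔ LowCoal v w := by
  rw [← lowCoal_rv, rv_rv, rv_rv]


end reflection

/-! ## one side -/

/-- the part of `Facts` which is used for one half plane -/
structure Base (m : ℝ) (t : Environment) : Prop where
  nn : ∀ e, 0 ≤ t e
  nt : NoTies t
  grow : ∀ k j : ℤ, ∀ ε > 0, ∃ C' : ℝ, ∀ x z : ℤ,
    m * |(x : ℝ) - z| - ε * (|(x : ℝ)| + |(z : ℝ)|) - C' ≤ passageTime t (x, k) (z, j)

theorem passageTime_refl (t : Environment) (x y : ℤ × ℤ) :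
    passageTime (N.refl t) x y = passageTime t (x.1, -x.2) (y.1, -y.2) :=
  RFL.passageTime_act RFL.ry t x y

theorem grow_refl {m : ℝ} {t : Environment} (h : ∀ k j : ℤ, ∀ ε > 0, ∃ C' : ℝ, ∀ x z : ℤ,
    m * |(x : ℝ) - z| - ε * (|(x : ℝ)| + |(z : ℝ)|) - C' ≤ passageTime t (x, k) (z, j)) :
    ∀ k j : ℤ, ∀ ε > 0, ∃ C' : ℝ, ∀ x z : ℤ,
      m * |(x : ℝ) - z| - ε * (|(x : ℝ)| + |(z : ℝ)|) - C' ≤
        passageTime (N.refl t) (x, k) (z, j) := by
  intro k j ε hε
  obtain ⟨C', hC⟩ := h (-k) (-j) ε hε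
  refine ⟨C', fun x z => ?_⟩
  rw [passageTime_refl]
  exact hC x z

namespace Base

variable {m s s' : ℝ} {t : Environment} {v w : ℤ → ℤ × ℤ}

theorem refl (B : Base m t) : Base m (N.refl t) :=
  ⟨RFL.nonneg_refl.2 B.nn, RFL.noTies_refl.2 B.nt, grow_refl B.grow⟩

theorem timeLB (B : Base m t) {k j : ℤ} (hkj : k ≤ j) : TimeLB t m k j :=
  grow_timeLB B.nn B.grow hkj

theorem total (B : Base m t) (hv : IsBigeodesic t v) (hvU : UpDown v) (hw : IsBigeodesic t w)
    (hwU : UpDown w) (k : ℤ) :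
    (∀ e, incU t k w e ≤ incU t k v e) ∨ ∀ e, incU t k v e ≤ incU t k w e :=
  fU_total B.nt B.nn hv hvU hw hwU k

theorem le_of_lt (B : Base m t) (hv : IsBigeodesic t v) (hvU : UpDown v) (hw : IsBigeodesic t w)
    (hwU : UpDown w) {k : ℤ} (gv : GrowU t k v s) (gw : GrowU t k w s') (hs : s < s') (e : ℤ) :
    incU t k w e ≤ incU t k v e :=
  incU_le_of_slope_lt B.nt B.nn hv hvU hw hwU gv gw hs e

theorem down (B : Base m t) (hv : IsBigeodesic t v) (hvU : UpDown v) (hw : IsBigeodesic t w)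
    (hwU : UpDown w) {k j : ℤ} (hkj : k ≤ j) (h : ∀ e, incU t j w e ≤ incU t j v e) (e : ℤ) :
    incU t k w e ≤ incU t k v e :=
  inc_fU_le_of_le B.nt B.nn hv hvU hw hwU hkj h e

theorem eq_down (B : Base m t) (hv : IsBigeodesic t v) (hvU : UpDown v) (hw : IsBigeodesic t w)
    (hwU : UpDown w) {k j : ℤ} (hkj : k ≤ j) (h : ∀ e, incU t j w e = incU t j v e) (e : ℤ) :
    incU t k w e = incU t k v e :=
  inc_fU_eq_of_eq B.nn hv hvU hw hwU hkj h e

theorem osc (B : Base m t) (hv : IsBigeodesic t v) (hvU : UpDown v) (hw : IsBigeodesic t w)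
    (hwU : UpDown w) {k j : ℤ} (hkj : k ≤ j) (hs : |s| < m) (hs' : |s'| < m)
    (gv : ∀ k, GrowU t k v s) (gw : ∀ k, GrowU t k w s')
    (h : ∀ e, incU t j w e ≤ incU t j v e) :
    ∑' e, ENNReal.ofReal (incU t j v e - incU t j w e) ≤
      ∑' e, ENNReal.ofReal (incU t k v e - incU t k w e) :=
  tsum_inc_fU_le_of_growth B.nt B.nn hv hvU hw hwU hkj hs hs' (B.timeLB hkj) (gv k) (gv j)
    (gw k) (gw j) h

/-- order and equality on the lower row give equality on the upper row -/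
theorem eq_up_aux (B : Base m t) (hv : IsBigeodesic t v) (hvU : UpDown v) (hw : IsBigeodesic t w)
    (hwU : UpDown w) {k j : ℤ} (hkj : k ≤ j) (hs : |s| < m) (hs' : |s'| < m)
    (gv : ∀ k, GrowU t k v s) (gw : ∀ k, GrowU t k w s')
    (h : ∀ e, incU t j w e ≤ incU t j v e) (he : ∀ e, incU t k w e = incU t k v e) (e : ℤ) :
    incU t j w e = incU t j v e := by
  have h1 := B.osc hv hvU hw hwU hkj hs hs' gv gw h
  have h2 : ∑' e, ENNReal.ofReal (incU t k v e - incU t k w e) = 0 := by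
    rw [ENNReal.tsum_eq_zero]
    intro i
    rw [he, sub_self, ENNReal.ofReal_zero]
  rw [h2, nonpos_iff_eq_zero, ENNReal.tsum_eq_zero] at h1
  have h3 := h1 e
  rw [ENNReal.ofReal_eq_zero] at h3
  exact le_antisymm (h e) (by linarith)

theorem eq_up (B : Base m t) (hv : IsBigeodesic t v) (hvU : UpDown v) (hw : IsBigeodesic t w)
    (hwU : UpDown w) {k j : ℤ} (hkj : k ≤ j) (hs : |s| < m) (hs' : |s'| < m)
    (gv : ∀ k, GrowU t k v s) (gw : ∀ k, GrowU t k w s')
    (he : ∀ e, incU t k w e = incU t k v e) (e : ℤ) : incU t j w e = incU t j v e := by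
  rcases B.total hv hvU hw hwU j with h | h
  · exact B.eq_up_aux hv hvU hw hwU hkj hs hs' gv gw h he e
  · exact (B.eq_up_aux hw hwU hv hvU hkj hs' hs gw gv h (fun e => (he e).symm) e).symm

/-- equality of the increments on one row gives equality on every row -/
theorem eq_all (B : Base m t) (hv : IsBigeodesic t v) (hvU : UpDown v) (hw : IsBigeodesic t w)
    (hwU : UpDown w) (hs : |s| < m) (hs' : |s'| < m)
    (gv : ∀ k, GrowU t k v s) (gw : ∀ k, GrowU t k w s') {k : ℤ}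
    (he : ∀ e, incU t k w e = incU t k v e) (j e : ℤ) : incU t j w e = incU t j v e := by
  rcases le_total k j with h | h
  · exact B.eq_up hv hvU hw hwU h hs hs' gv gw he e
  · exact B.eq_down hv hvU hw hwU h he e

/-- the order of the increments on one row gives the order on every row -/
theorem le_all (B : Base m t) (hv : IsBigeodesic t v) (hvU : UpDown v) (hw : IsBigeodesic t w)
    (hwU : UpDown w) (hs : |s| < m) (hs' : |s'| < m)
    (gv : ∀ k, GrowU t k v s) (gw : ∀ k, GrowU t k w s') {k : ℤ}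
    (he : ∀ e, incU t k w e ≤ incU t k v e) (j e : ℤ) : incU t j w e ≤ incU t j v e := by
  rcases le_total j k with h | h
  · exact B.down hv hvU hw hwU h he e
  · rcases B.total hv hvU hw hwU j with h1 | h1
    · exact h1 e
    · have h2 : ∀ e, incU t k v e ≤ incU t k w e := B.down hw hwU hv hvU h h1
      have h3 : ∀ e, incU t k w e = incU t k v e := fun e => le_antisymm (he e) (h2 e)
      exact (B.eq_all hv hvU hw hwU hs hs' gv gw h3 j e).le


end Base

/-! ## consequences of `Facts` -/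

namespace Facts

variable {m C s s' : ℝ} {t : Environment} {v w : ℤ → ℤ × ℤ}

theorem base (F : Facts m C t) : Base m t := ⟨F.nn, F.nt, F.grow⟩

theorem abs_lt (F : Facts m C t) (hv : v ∈ Big C t) (h : HasSl t v s) : |s| < m := by
  obtain ⟨s', h1, h2⟩ := F.slope v hv
  rwa [h.unique h2]

/-- **reflection** -/
theorem refl (F : Facts m C t) : Facts m C (N.refl t) where
  nn := RFL.nonneg_refl.2 F.nn
  nt := RFL.noTies_refl.2 F.nt
  grow := grow_refl F.grow
  slope v hv := by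
    obtain ⟨s, h1, h2⟩ := F.slope _ (big_refl_iff.1 hv)
    refine ⟨-s, by rwa [abs_neg], ?_⟩
    rw [hasSl_refl_iff (updown_of_big hv), neg_neg]
    exact h2
  chain v hv w hw s hvs hws k l hlk := by
    have hvU := updown_of_big hv
    have hwU := updown_of_big hw
    have h := F.chain _ (big_refl_iff.1 hv) _ (big_refl_iff.1 hw) (-s)
      ((hasSl_refl_iff hvU).1 hvs) ((hasSl_refl_iff hwU).1 hws) (-l) (-k) (by omega)
    have e1 : ∀ e, incU t (-l) (SEL.rv v) e = incD (N.refl t) l v e := fun e => by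
      have := incD_refl' hvU.rv t l e
      rw [rv_rv] at this
      exact this.symm
    have e2 : ∀ e, incU t (-l) (SEL.rv w) e = incD (N.refl t) l w e := fun e => by
      have := incD_refl' hwU.rv t l e
      rw [rv_rv] at this
      exact this.symm
    have e3 : ∀ e, incD t (-k) (SEL.rv v) e = incU (N.refl t) k v e := fun e => by
      have := incU_refl' hvU.rv t k e
      rw [rv_rv] at this
      exact this.symm
    have e4 : ∀ e, incD t (-k) (SEL.rv w) e = incU (N.refl t) k w e := fun e => by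
      have := incU_refl' hwU.rv t k e
      rw [rv_rv] at this
      exact this.symm
    simp only [e1, e2, e3, e4] at h
    exact h.symm
  ucU v₀ hv₀ w₀ hw₀ s hvs₀ hws₀ hne v hv w hw hvs hws := by
    rw [← highCoal_rv]
    refine F.ucD _ (big_refl_iff.1 hv₀) _ (big_refl_iff.1 hw₀) (-s)
      ((hasSl_refl_iff (updown_of_big hv₀)).1 hvs₀) ((hasSl_refl_iff (updown_of_big hw₀)).1 hws₀)
      ?_ _ (big_refl_iff.1 hv) _ (big_refl_iff.1 hw)
      ((hasSl_refl_iff (updown_of_big hv)).1 hvs) ((hasSl_refl_iff (updown_of_big hw)).1 hws)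
    obtain ⟨k, e, hk⟩ := hne
    refine ⟨-k, e, ?_⟩
    have e3 := incU_refl' (updown_of_big hv₀).rv t k e
    have e4 := incU_refl' (updown_of_big hw₀).rv t k e
    rw [rv_rv] at e3 e4
    rw [← e3, ← e4]
    exact hk
  ucD v₀ hv₀ w₀ hw₀ s hvs₀ hws₀ hne v hv w hw hvs hws := by
    rw [← lowCoal_rv]
    refine F.ucU _ (big_refl_iff.1 hv₀) _ (big_refl_iff.1 hw₀) (-s)
      ((hasSl_refl_iff (updown_of_big hv₀)).1 hvs₀) ((hasSl_refl_iff (updown_of_big hw₀)).1 hws₀)
      ?_ _ (big_refl_iff.1 hv) _ (big_refl_iff.1 hw)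
      ((hasSl_refl_iff (updown_of_big hv)).1 hvs) ((hasSl_refl_iff (updown_of_big hw)).1 hws)
    obtain ⟨k, e, hk⟩ := hne
    refine ⟨-k, e, ?_⟩
    have e3 := incD_refl' (updown_of_big hv₀).rv t k e
    have e4 := incD_refl' (updown_of_big hw₀).rv t k e
    rw [rv_rv] at e3 e4
    rw [← e3, ← e4]
    exact hk

/-- a statement on lower functions from the statement on upper functions, reflected environment -/
theorem incD_eq (hv : v ∈ Big C t) (k e : ℤ) : incD t k v e = incU (N.refl t) (-k) (rv v) e :=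
  (incU_refl (updown_of_big hv) t k e).symm

theorem hasSl_rv (hv : v ∈ Big C t) (h : HasSl t v s) : HasSl (N.refl t) (rv v) (-s) :=
  h.rv (updown_of_big hv)

/-- (o1) -/
theorem o1 (F : Facts m C t) (hv : v ∈ Big C t) (k e : ℤ) :
    |incU t k v e| ≤ pt (reg (Up k)) t (e, k) (e + 1, k) :=
  abs_inc_fU_le F.nn hv.1 (updown_of_big hv) le_rfl le_rfl

/-- (o2) -/
theorem o2 (F : Facts m C t) (hv : v ∈ Big C t) (hw : w ∈ Big C t) (hvs : HasSl t v s)
    (hws : HasSl t w s') (hs : s < s') (k e : ℤ) : incU t k w e ≤ incU t k v e :=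
  F.base.le_of_lt hv.1 (updown_of_big hv) hw.1 (updown_of_big hw) (hvs.growU k) (hws.growU k) hs e

theorem o2D (F : Facts m C t) (hv : v ∈ Big C t) (hw : w ∈ Big C t) (hvs : HasSl t v s)
    (hws : HasSl t w s') (hs : s < s') (k e : ℤ) : incD t k v e ≤ incD t k w e := by
  rw [incD_eq hv, incD_eq hw]
  exact F.refl.o2 (big_rv hw) (big_rv hv) (hasSl_rv hw hws) (hasSl_rv hv hvs) (by linarith) _ _

/-- (a) different slopes -/
theorem le_of_lt (F : Facts m C t) (hv : v ∈ Big C t) (hw : w ∈ Big C t) (hvs : HasSl t v s)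
    (hws : HasSl t w s') (hs : s < s') : LE t v w :=
  ⟨F.o2 hv hw hvs hws hs, F.o2D hv hw hvs hws hs⟩

/-- upper functions: the order on one row is the order on every row -/
theorem incU_le_all (F : Facts m C t) (hv : v ∈ Big C t) (hw : w ∈ Big C t) {k : ℤ}
    (h : ∀ e, incU t k w e ≤ incU t k v e) (j e : ℤ) : incU t j w e ≤ incU t j v e := by
  obtain ⟨s, h1, h2⟩ := F.slope v hv
  obtain ⟨s', h3, h4⟩ := F.slope w hw
  exact F.base.le_all hv.1 (updown_of_big hv) hw.1 (updown_of_big hw) h1 h3 h2.growU h4.growU h j e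

theorem incU_eq_all (F : Facts m C t) (hv : v ∈ Big C t) (hw : w ∈ Big C t) {k : ℤ}
    (h : ∀ e, incU t k v e = incU t k w e) (j e : ℤ) : incU t j v e = incU t j w e :=
  le_antisymm (F.incU_le_all hw hv (fun e => (h e).le) j e)
    (F.incU_le_all hv hw (fun e => (h e).ge) j e)

theorem incD_le_all (F : Facts m C t) (hv : v ∈ Big C t) (hw : w ∈ Big C t) {k : ℤ}
    (h : ∀ e, incD t k w e ≤ incD t k v e) (j e : ℤ) : incD t j w e ≤ incD t j v e := by
  rw [incD_eq hv, incD_eq hw]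
  refine F.refl.incU_le_all (big_rv hv) (big_rv hw) (k := -k) (fun e => ?_) _ e
  rw [← incD_eq hv, ← incD_eq hw]
  exact h e

theorem incD_eq_all (F : Facts m C t) (hv : v ∈ Big C t) (hw : w ∈ Big C t) {k : ℤ}
    (h : ∀ e, incD t k v e = incD t k w e) (j e : ℤ) : incD t j v e = incD t j w e :=
  le_antisymm (F.incD_le_all hw hv (fun e => (h e).le) j e)
    (F.incD_le_all hv hw (fun e => (h e).ge) j e)

/-- upper functions are comparable on all rows at once -/
theorem incU_total (F : Facts m C t) (hv : v ∈ Big C t) (hw : w ∈ Big C t) :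
    (∀ k e, incU t k w e ≤ incU t k v e) ∨ ∀ k e, incU t k v e ≤ incU t k w e := by
  rcases F.base.total hv.1 (updown_of_big hv) hw.1 (updown_of_big hw) 0 with h | h
  · exact Or.inl (F.incU_le_all hv hw h)
  · exact Or.inr (F.incU_le_all hw hv h)

theorem incD_total (F : Facts m C t) (hv : v ∈ Big C t) (hw : w ∈ Big C t) :
    (∀ k e, incD t k w e ≤ incD t k v e) ∨ ∀ k e, incD t k v e ≤ incD t k w e := by
  rcases F.refl.incU_total (big_rv hv) (big_rv hw) with h | h
  · refine Or.inl fun k e => ?_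
    rw [incD_eq hv, incD_eq hw]
    exact h _ _
  · refine Or.inr fun k e => ?_
    rw [incD_eq hv, incD_eq hw]
    exact h _ _

/-- CHAIN, all rows at once -/
theorem chain_all (F : Facts m C t) (hv : v ∈ Big C t) (hw : w ∈ Big C t) (hvs : HasSl t v s)
    (hws : HasSl t w s) :
    (∀ k e, incU t k v e = incU t k w e) ∨ ∀ k e, incD t k v e = incD t k w e := by
  rcases F.chain v hv w hw s hvs hws 0 (-1) (by omega) with h | h
  · exact Or.inl (F.incU_eq_all hv hw h)
  · exact Or.inr (F.incD_eq_all hv hw h)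

/-- (c) **the labels are totally ordered** -/
theorem le_total (F : Facts m C t) (hv : v ∈ Big C t) (hw : w ∈ Big C t) :
    LE t v w ∨ LE t w v := by
  obtain ⟨s, -, hvs⟩ := F.slope v hv
  obtain ⟨s', -, hws⟩ := F.slope w hw
  rcases lt_trichotomy s s' with hs | hs | hs
  · exact Or.inl (F.le_of_lt hv hw hvs hws hs)
  · subst hs
    rcases F.chain_all hv hw hvs hws with h | h
    · rcases F.incD_total hv hw with h1 | h1
      · exact Or.inr ⟨fun k e => (h k e).le, h1⟩
      · exact Or.inl ⟨fun k e => (h k e).ge, h1⟩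
    · rcases F.incU_total hv hw with h1 | h1
      · exact Or.inl ⟨h1, fun k e => (h k e).le⟩
      · exact Or.inr ⟨h1, fun k e => (h k e).ge⟩
  · exact Or.inr (F.le_of_lt hw hv hws hvs hs)

/-- the slope is monotone in the order -/
theorem slope_le (_F : Facts m C t) (hvs : HasSl t v s) (hws : HasSl t w s') (h : LE t v w) :
    s ≤ s' :=
  GrowU.slope_le (hws.growU 0) (hvs.growU 0) (h.1 0)


/-- (o3) -/
theorem o3 (F : Facts m C t) {v₀ w₀ : ℤ → ℤ × ℤ} (hv₀ : v₀ ∈ Big C t) (hw₀ : w₀ ∈ Big C t)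
    (hvs₀ : HasSl t v₀ s) (hws₀ : HasSl t w₀ s) (hne : ∃ k e, incU t k v₀ e ≠ incU t k w₀ e)
    (hv : v ∈ Big C t) (hw : w ∈ Big C t) (hvs : HasSl t v s) (hws : HasSl t w s) {k : ℤ}
    (hl : (tailU k v 0).1 < (tailU k w 0).1) (e : ℤ) : incU t k w e ≤ incU t k v e :=
  inc_fU_mono_of_loc F.nt F.nn hv.1 (updown_of_big hv) hw.1 (updown_of_big hw)
    (F.ucU v₀ hv₀ w₀ hw₀ s hvs₀ hws₀ hne v hv w hw hvs hws) hl e


/-- (o5), the oscillation does not decrease downwards -/
theorem o5 (F : Facts m C t) (hv : v ∈ Big C t) (hw : w ∈ Big C t) {k j : ℤ} (hkj : k ≤ j)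
    (h : ∀ e, incU t j w e ≤ incU t j v e) :
    ∑' e, ENNReal.ofReal (incU t j v e - incU t j w e) ≤
      ∑' e, ENNReal.ofReal (incU t k v e - incU t k w e) := by
  obtain ⟨s, h1, h2⟩ := F.slope v hv
  obtain ⟨s', h3, h4⟩ := F.slope w hw
  exact F.base.osc hv.1 (updown_of_big hv) hw.1 (updown_of_big hw) hkj h1 h3 h2.growU h4.growU h

/-- (o5) in the form of `Sys.osc` -/
theorem o5' (F : Facts m C t) (hv : v ∈ Big C t) (hw : w ∈ Big C t)
    (h : ∀ e, incU t 0 w e ≤ incU t 0 v e) (n : ℕ) :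
    ∑' e, ENNReal.ofReal (incU t 0 v e - incU t 0 w e) ≤
      ∑' e, ENNReal.ofReal (incU t (-n) v e - incU t (-n) w e) :=
  F.o5 hv hw (by omega) h

/-- (o6) -/
theorem o6 (F : Facts m C t) {v₀ w₀ : ℤ → ℤ × ℤ} (hv₀ : v₀ ∈ Big C t) (hw₀ : w₀ ∈ Big C t)
    (hvs₀ : HasSl t v₀ s) (hws₀ : HasSl t w₀ s) (hne : ∃ k e, incU t k v₀ e ≠ incU t k w₀ e)
    (hv : v ∈ Big C t) (hw : w ∈ Big C t) (hvs : HasSl t v s) (hws : HasSl t w s) :
    ∀ᶠ n : ℕ in atTop, (tailU (-(n : ℤ)) v 0).1 = (tailU (-(n : ℤ)) w 0).1 := by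
  filter_upwards [eventually_loc_eq (updown_of_big hv) (updown_of_big hw)
    (F.ucU v₀ hv₀ w₀ hw₀ s hvs₀ hws₀ hne v hv w hw hvs hws)] with n hn
  rw [hn]

/-- (o7) -/
theorem o7 (F : Facts m C t) (hv : v ∈ Big C t) (hw : w ∈ Big C t)
    (h : ∀ e, incU t 0 w e ≤ incU t 0 v e) (n : ℕ) (e : ℤ) :
    incU t (-n) w e ≤ incU t (-n) v e :=
  F.incU_le_all hv hw h _ e

end Facts

end Crest.Agent.R151.Y96
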