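import Mathlib
import Crest.Agent.R151.S113E
import Crest.Agent.R151.K2b
import Crest.Agent.R151.H617b
import Crest.Agent.R151.B710
import Crest.Agent.R151.Y635D
import Crest.Agent.R151.D411d
import Crest.Agent.R151.H617f
import Crest.Agent.R151.K9h
import Crest.Agent.R151.K9e
import Crest.Agent.R151.RFL890B
import Crest.Agent.R151.Y635I

-- ▼ part R151/SL856a
section

/-!
# R151/SL856a — slopes of rays and their limit directions (owner helper856), deterministic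

`v` is a ray of `reg R`, `R` a region containing the row `k`; `ζ` is a limit of `v (m n) / n` along a
filter of scales.  If the passage times of `reg R` from `(⌊α n⌋, k)` to `v (m n)` are at most
`μ + o(n)`, then a function `F` on the row with two-sided slope `p` whose increments dominate
(are dominated by) those of the Busemann function of `v` satisfies `-∂₁μ(ζ) ≤ p`
(resp. `p ≤ -∂₁μ(ζ)`).
-/

set_option autoImplicit false

open Crest.ProbabilityR.FirstPassage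
open Filter Set
open scoped Topology

namespace Crest.Agent.R151.SL

open Y H K SEL

/-- half planes are connected -/
theorem reach_up {k : ℤ} {x y : ℤ × ℤ} (hx : k ≤ x.2) (hy : k ≤ y.2) :
    (reg (Up k)).Reachable x y := by
  have h : LIn (Up k) x y := by
    constructor
    · intro i _
      exact hx
    · intro i hi
      rw [mem_Up]
      rcases hi with h | h <;> linarith [h.1]
  exact (conn_iff_reachable (R := Up k) hx).1 (exists_path_edgesR h).1

theorem reach_dn {k : ℤ} {x y : ℤ × ℤ} (hx : x.2 ≤ k) (hy : y.2 ≤ k) :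
    (reg (Dn k)).Reachable x y := by
  have h : LIn (Dn k) x y := by
    constructor
    · intro i _
      exact hx
    · intro i hi
      rw [mem_Dn]
      rcases hi with h | h <;> linarith [h.2]
  exact (conn_iff_reachable (R := Dn k) hx).1 (exists_path_edgesR h).1

/-- the scaled position -/
noncomputable def sc (n : ℕ) (x : ℤ × ℤ) : ℝ × ℝ := (1 / (n : ℝ)) • toR x

theorem sc_sub (n : ℕ) (x y : ℤ × ℤ) : sc n (x - y) = sc n x - sc n y := by
  unfold sc
  rw [toR_sub, smul_sub]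

theorem mu_sc {μ : ℝ × ℝ → ℝ} (hμ : B710.NormLike μ) (n : ℕ) (x : ℤ × ℤ) :
    μ (sc n x) = μ (toR x) / n := by
  unfold sc
  rw [hμ.smul _ _ (by positivity : (0 : ℝ) ≤ 1 / (n : ℝ))]
  ring

theorem tendsto_sc_const (x : ℤ × ℤ) : Tendsto (fun n : ℕ => sc n x) atTop (𝓝 0) := by
  have : Tendsto (fun n : ℕ => (1 / (n : ℝ)) • toR x) atTop (𝓝 ((0 : ℝ) • toR x)) :=
    tendsto_one_div_atTop_nhds_zero_nat.smul_const _
  simpa [sc] using this

/-- lower half of the uniform shape theorem -/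
def LShape (μ : ℝ × ℝ → ℝ) (t : Environment) : Prop :=
  ∀ ε : ℝ, 0 < ε → ∀ᶠ n : ℕ in atTop, ∀ x ∈ box n, ∀ y ∈ box n,
    μ (toR (y - x)) - ε * n ≤ passageTime t x y

theorem lShape_of_dev {μ : ℝ × ℝ → ℝ} {t : Environment}
    (h : ∀ ε : ℝ, 0 < ε → ∀ᶠ n : ℕ in atTop, K.dev μ n t ≤ ε * n) : LShape μ t := by
  intro ε hε
  filter_upwards [h ε hε] with n hn x hx y hy
  have := (K.le_dev μ t hx hy).trans hn
  rw [abs_le] at this
  linarith [this.1]

/-- one sided estimate of the Busemann function at the scales of `l` -/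
theorem bus_limit_le {μ : ℝ × ℝ → ℝ} (hμ : B710.NormLike μ) {t : Environment} (ht : ∀ e, 0 ≤ t e)
    (hlow : LShape μ t) {l : Filter ℕ} (hl : l ≤ atTop) [l.NeBot] {R : Set (ℤ × ℤ)} {k : ℤ}
    {v : ℕ → ℤ × ℤ} (hv : IsRay t (reg R) v) (hreach : ∀ a : ℤ, (reg R).Reachable (a, k) (v 0))
    {m : ℕ → ℕ} (hm : ∀ᶠ n in l, v (m n) ∈ box n) {ζ : ℝ × ℝ}
    (hζ : Tendsto (fun n => sc n (v (m n))) l (𝓝 ζ)) {a : ℕ → ℤ} {α L : ℝ}
    (haα : Tendsto (fun n : ℕ => (a n : ℝ) / n) l (𝓝 α))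
    (hup : ∀ ε : ℝ, 0 < ε → ∀ᶠ n in l, pt (reg R) t (a n, k) (v (m n)) ≤
      μ (toR (v (m n) - (a n, k))) + ε * n)
    (hL : ∀ L' < L, ∀ᶠ n : ℕ in l, L' ≤ bus t (reg R) v (a n, k) / n) :
    L ≤ μ (ζ - (α, 0)) - μ ζ := by
  refine le_of_forall_pos_le_add fun ε hε => ?_
  have c1 : Tendsto (fun n : ℕ => sc n (v (m n) - (a n, k))) l (𝓝 (ζ - (α, 0))) := by
    have e1 : Tendsto (fun n : ℕ => sc n (a n, k)) l (𝓝 (α, 0)) := by
      have e2 : Tendsto (fun n : ℕ => (((a n : ℝ) / n, (k : ℝ) / n) : ℝ × ℝ)) l (𝓝 (α, 0)) := by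
        refine haα.prodMk_nhds ?_
        exact (tendsto_const_div_atTop_nhds_zero_nat (k : ℝ)).mono_left hl
      refine e2.congr fun n => ?_
      unfold sc toR
      simp only [Prod.smul_mk, smul_eq_mul]
      refine Prod.ext ?_ ?_ <;> simp only <;> ring
    have e3 := hζ.sub e1
    refine e3.congr fun n => ?_
    rw [sc_sub]
  have c2 : Tendsto (fun n : ℕ => sc n (v (m n) - v 0)) l (𝓝 ζ) := by
    have e3 := hζ.sub ((tendsto_sc_const (v 0)).mono_left hl)
    rw [sub_zero] at e3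
    refine e3.congr fun n => ?_
    rw [sc_sub]
  have c3 := (hμ.continuous.tendsto _).comp c1
  have c4 := (hμ.continuous.tendsto _).comp c2
  have c5 := (c3.sub c4).add_const (ε / 2)
  have hbox0 : ∀ᶠ n in l, v 0 ∈ box n := by
    refine hl ?_
    filter_upwards [eventually_ge_atTop ((v 0).1.natAbs + (v 0).2.natAbs)] with n hn
    rw [mem_box]
    omega
  have hpos : ∀ᶠ n : ℕ in l, 0 < n := hl (eventually_gt_atTop _)
  have main : L - ε / 2 ≤ μ (ζ - (α, 0)) - μ ζ + ε / 2 := by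
    refine ge_of_tendsto c5 ?_
    filter_upwards [hl (hlow (ε / 4) (by positivity)), hup (ε / 4) (by positivity), hm, hbox0, hpos,
      hL (L - ε / 2) (by linarith)] with n h1 h2 h3 h4 h5 h6
    have hn : (0 : ℝ) < n := by exact_mod_cast h5
    have hb : bus t (reg R) v (a n, k) ≤
        pt (reg R) t (a n, k) (v (m n)) - pt (reg R) t (v 0) (v (m n)) :=
      bus_le ht hv (hreach _) (m n)
    have i1 : passageTime t (v 0) (v (m n)) ≤ pt (reg R) t (v 0) (v (m n)) := by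
      rw [passageTime_eq_pt]
      exact pt_anti (reg_le R) ht hv.reachable
    have i2 := h1 _ h4 _ h3
    simp only [Function.comp_apply]
    rw [mu_sc hμ, mu_sc hμ]
    have : bus t (reg R) v (a n, k) ≤
        μ (toR (v (m n) - (a n, k))) - μ (toR (v (m n) - v 0)) + ε / 2 * n := by
      linarith
    calc L - ε / 2 ≤ bus t (reg R) v (a n, k) / n := h6
      _ ≤ (μ (toR (v (m n) - (a n, k))) - μ (toR (v (m n) - v 0)) + ε / 2 * n) / n := by gcongr
      _ = μ (toR (v (m n) - (a n, k))) / n - μ (toR (v (m n) - v 0)) / n + ε / 2 := by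
          field_simp
  linarith

/-- integer approximations of `α n` -/
theorem tendsto_floor_div (α : ℝ) {l : Filter ℕ} (hl : l ≤ atTop) :
    Tendsto (fun n : ℕ => (⌊α * n⌋ : ℝ) / n) l (𝓝 α) := by
  have h1 : Tendsto (fun n : ℕ => α - 1 / (n : ℝ)) atTop (𝓝 (α - 0)) :=
    tendsto_const_nhds.sub tendsto_one_div_atTop_nhds_zero_nat
  rw [sub_zero] at h1
  refine Tendsto.mono_left ?_ hl
  refine tendsto_of_tendsto_of_tendsto_of_le_of_le' h1 tendsto_const_nhds ?_ ?_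
  · filter_upwards [eventually_gt_atTop 0] with n hn
    have hn' : (0 : ℝ) < n := by exact_mod_cast hn
    rw [le_div_iff₀ hn', sub_mul, one_div, inv_mul_cancel₀ hn'.ne']
    linarith [Int.lt_floor_add_one (α * n)]
  · filter_upwards [eventually_gt_atTop 0] with n hn
    have hn' : (0 : ℝ) < n := by exact_mod_cast hn
    rw [div_le_iff₀ hn']
    exact Int.floor_le _

/-- values of a function with a two-sided slope along `⌊α n⌋` -/
theorem tendsto_floor_of_slope {F : ℤ → ℝ} {p : ℝ} (h : HasSlope F p) {α : ℝ} (hα : α ≠ 0)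
    {l : Filter ℕ} (hl : l ≤ atTop) :
    Tendsto (fun n : ℕ => F ⌊α * n⌋ / n) l (𝓝 (p * α)) := by
  have hfl := tendsto_floor_div α hl
  have hb : Tendsto (fun n : ℕ => F ⌊α * n⌋ / (⌊α * n⌋ : ℤ)) l (𝓝 p) := by
    rcases lt_or_gt_of_ne hα with hneg | hpos
    · have : Tendsto (fun n : ℕ => ⌊α * n⌋) l atBot := by
        refine (tendsto_floor_atBot.comp ?_)
        exact ((tendsto_natCast_atTop_atTop (R := ℝ)).const_mul_atTop_of_neg hneg).mono_left hl
      exact h.bot.comp this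
    · have : Tendsto (fun n : ℕ => ⌊α * n⌋) l atTop := by
        refine (tendsto_floor_atTop.comp ?_)
        exact ((tendsto_natCast_atTop_atTop (R := ℝ)).const_mul_atTop hpos).mono_left hl
      exact h.top.comp this
  refine (hb.mul hfl).congr' ?_
  have hne : ∀ᶠ n : ℕ in l, ((⌊α * n⌋ : ℤ) : ℝ) ≠ 0 := by
    have := hfl.eventually_ne hα
    filter_upwards [this] with n hn h0
    rw [h0, zero_div] at hn
    exact hn rfl
  filter_upwards [hne] with n hn
  field_simp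

/-- passage times of `reg R` from the row `k` to the ray are at most `μ + o(n)` -/
def RowUp (μ : ℝ × ℝ → ℝ) (t : Environment) (R : Set (ℤ × ℤ)) (k : ℤ) (l : Filter ℕ)
    (z : ℕ → ℤ × ℤ) : Prop :=
  ∀ α : ℝ, ∀ ε : ℝ, 0 < ε → ∀ᶠ n : ℕ in l,
    pt (reg R) t (⌊α * n⌋, k) (z n) ≤ μ (toR (z n - (⌊α * n⌋, k))) + ε * n

section

variable {μ : ℝ × ℝ → ℝ} (hμ : B710.NormLike μ) {t : Environment} (ht : ∀ e, 0 ≤ t e)
  (hlow : LShape μ t) {l : Filter ℕ} (hl : l ≤ atTop) [l.NeBot] {R : Set (ℤ × ℤ)} {k : ℤ}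
  {v : ℕ → ℤ × ℤ} (hv : IsRay t (reg R) v) (hreach : ∀ a : ℤ, (reg R).Reachable (a, k) (v 0))
  {m : ℕ → ℕ} (hm : ∀ᶠ n in l, v (m n) ∈ box n) {ζ : ℝ × ℝ}
  (hζ : Tendsto (fun n => sc n (v (m n))) l (𝓝 ζ)) (hd : DifferentiableAt ℝ μ ζ)
  (hup : RowUp μ t R k l fun n => v (m n)) {F : ℤ → ℝ} {p : ℝ} (hF : HasSlope F p)

include hd

/-- if `p α ≤ μ(ζ - α e₁) - μ ζ` for small `α > 0` then `p ≤ -∂₁μ(ζ)` -/
theorem le_neg_of_pos (h : ∀ α : ℝ, 0 < α → p * α ≤ μ (ζ - (α, 0)) - μ ζ) :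
    p ≤ -(fderiv ℝ μ ζ (1, 0)) := by
  have hder : HasDerivAt (fun α : ℝ => μ (ζ - (α, 0))) (-(fderiv ℝ μ ζ (1, 0))) 0 := by
    have h1 : HasDerivAt (fun α : ℝ => ζ - ((α, 0) : ℝ × ℝ)) (-(1, 0)) 0 := by
      have h2 : HasDerivAt (fun α : ℝ => ((α, 0) : ℝ × ℝ)) (1, 0) 0 :=
        (hasDerivAt_id (0 : ℝ)).prodMk (hasDerivAt_const (0 : ℝ) (0 : ℝ))
      exact h2.const_sub ζ
    have h3 : HasFDerivAt μ (fderiv ℝ μ ζ) (ζ - ((0, 0) : ℝ × ℝ)) := by
      rw [Prod.mk_zero_zero, sub_zero]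
      exact hd.hasFDerivAt
    have h4 := h3.comp_hasDerivAt (0 : ℝ) h1
    rwa [map_neg] at h4
  have hs := (hasDerivAt_iff_tendsto_slope.1 hder).mono_left
    (nhdsWithin_mono (0 : ℝ) (s := Set.Ioi 0) (t := {0}ᶜ) fun x hx => ne_of_gt hx)
  refine ge_of_tendsto hs ?_
  filter_upwards [self_mem_nhdsWithin] with α hα
  have hα0 : 0 < α := hα
  rw [slope_def_field, le_div_iff₀ (by linarith)]
  have := h α hα0
  simp only [Prod.mk_zero_zero, sub_zero]
  linarith

/-- if `-q α ≤ μ(ζ + α e₁) - μ ζ` for small `α > 0` then `-∂₁μ(ζ) ≤ q` -/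
theorem neg_le_of_pos {q : ℝ} (h : ∀ α : ℝ, 0 < α → q * (-α) ≤ μ (ζ - (-α, 0)) - μ ζ) :
    -(fderiv ℝ μ ζ (1, 0)) ≤ q := by
  have hder : HasDerivAt (fun α : ℝ => μ (ζ - (-α, 0))) (fderiv ℝ μ ζ (1, 0)) 0 := by
    have h1 : HasDerivAt (fun α : ℝ => ζ - ((-α, 0) : ℝ × ℝ)) (-(-1, 0)) 0 := by
      have h2 : HasDerivAt (fun α : ℝ => ((-α, 0) : ℝ × ℝ)) (-1, 0) 0 :=
        (hasDerivAt_id (0 : ℝ)).neg.prodMk (hasDerivAt_const (0 : ℝ) (0 : ℝ))
      exact h2.const_sub ζ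
    have h3 : HasFDerivAt μ (fderiv ℝ μ ζ) (ζ - ((-0, 0) : ℝ × ℝ)) := by
      rw [neg_zero, Prod.mk_zero_zero, sub_zero]
      exact hd.hasFDerivAt
    have h4 := h3.comp_hasDerivAt (0 : ℝ) h1
    have e : -((-1, 0) : ℝ × ℝ) = (1, 0) := by simp
    rwa [e] at h4
  have hs := (hasDerivAt_iff_tendsto_slope.1 hder).mono_left
    (nhdsWithin_mono (0 : ℝ) (s := Set.Ioi 0) (t := {0}ᶜ) fun x hx => ne_of_gt hx)
  have : -q ≤ fderiv ℝ μ ζ (1, 0) := by
    refine ge_of_tendsto hs ?_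
    filter_upwards [self_mem_nhdsWithin] with α hα
    have hα0 : 0 < α := hα
    rw [slope_def_field, le_div_iff₀ (by linarith)]
    have := h α hα0
    simp only [neg_zero, Prod.mk_zero_zero, sub_zero]
    linarith
  linarith

include hμ ht hlow hl hv hreach hm hζ hup hF

/-- **(C1)** increments of the Busemann function at most those of `F` -/
theorem neg_deriv_le_of_inc_le (hle : ∀ x, inc (fun a => bus t (reg R) v (a, k)) x ≤ inc F x) :
    -(fderiv ℝ μ ζ (1, 0)) ≤ p := by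
  refine neg_le_of_pos hd fun α hα => ?_
  have h1 := tendsto_floor_of_slope hF (α := -α) (by linarith) hl
  refine bus_limit_le hμ ht hlow hl hv hreach hm hζ (a := fun n => ⌊-α * n⌋)
    (tendsto_floor_div _ hl) (hup (-α)) ?_
  intro L' hL'
  -- `bus (a) ≥ F a - F 0 + bus 0` for `a ≤ 0`
  have h2 : Tendsto (fun n : ℕ => F ⌊-α * n⌋ / n + (bus t (reg R) v (0, k) - F 0) / n) l
      (𝓝 (p * (-α) + 0)) :=
    h1.add ((tendsto_const_div_atTop_nhds_zero_nat _).mono_left hl)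
  rw [add_zero] at h2
  filter_upwards [h2.eventually_const_lt hL', hl (eventually_gt_atTop 0)] with n hn hn0
  have hn' : (0 : ℝ) < n := by exact_mod_cast hn0
  refine hn.le.trans ?_
  rw [← add_div]
  gcongr
  have hneg : ⌊-α * n⌋ ≤ 0 := by
    have h3 : (⌊-α * (n : ℝ)⌋ : ℝ) ≤ -α * n := Int.floor_le _
    have h4 : -α * (n : ℝ) ≤ 0 := by nlinarith
    exact_mod_cast h3.trans h4
  have := sub_le_sub_of_inc_le hle hneg
  linarith

/-- **(C2)** increments of the Busemann function at least those of `F` -/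
theorem le_neg_deriv_of_inc_ge (hle : ∀ x, inc F x ≤ inc (fun a => bus t (reg R) v (a, k)) x) :
    p ≤ -(fderiv ℝ μ ζ (1, 0)) := by
  refine le_neg_of_pos hd fun α hα => ?_
  have h1 := tendsto_floor_of_slope hF (α := α) hα.ne' hl
  refine bus_limit_le hμ ht hlow hl hv hreach hm hζ (a := fun n => ⌊α * n⌋)
    (tendsto_floor_div _ hl) (hup α) ?_
  intro L' hL'
  have h2 : Tendsto (fun n : ℕ => F ⌊α * n⌋ / n + (bus t (reg R) v (0, k) - F 0) / n) l
      (𝓝 (p * α + 0)) :=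
    h1.add ((tendsto_const_div_atTop_nhds_zero_nat _).mono_left hl)
  rw [add_zero] at h2
  filter_upwards [h2.eventually_const_lt hL', hl (eventually_gt_atTop 0)] with n hn hn0
  have hn' : (0 : ℝ) < n := by exact_mod_cast hn0
  refine hn.le.trans ?_
  rw [← add_div]
  gcongr
  have hpos : (0 : ℤ) ≤ ⌊α * n⌋ := Int.floor_nonneg.2 (by positivity)
  have := sub_le_sub_of_inc_le hle hpos
  linarith

end

end Crest.Agent.R151.SL
end

-- ▼ part R151/SL856b
section

/-!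
# R151/SL856b — rays in a cone have non extreme slopes (owner helper856), deterministic

* `slopeAt μ C = ∂₁μ(C,1)`; `slopeAt_lt` : if `μ(1,0) C < μ(C,1)` it is `< μ(1,0)`;
  `abs_fderiv_le` : `|∂₁μ(ζ)| ≤ slopeAt μ C` in the double cone `|x| ≤ C |y|`.
* `exitIdx`, `exists_limit_dir` : limit directions of a ray in a cone.
* `BUp` : passage times of a half plane from its boundary row to interior points.
* `neg_le_slope_of_inc_le`, `slope_le_of_inc_ge` : comparison of Busemann functions.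
-/

set_option autoImplicit false

open Crest.ProbabilityR.FirstPassage
open Filter Set
open scoped Topology

namespace Crest.Agent.R151.SL

open Y H K SEL

section norm

variable {μ : ℝ × ℝ → ℝ} (hμ : B710.NormLike μ) (hrefl : ∀ x y, μ (-x, y) = μ (x, y))
  (hd : ∀ v : ℝ × ℝ, v ≠ 0 → DifferentiableAt ℝ μ v)

/-- the derivative of `x ↦ μ (x, 1)` -/
noncomputable def slopeAt (μ : ℝ × ℝ → ℝ) (C : ℝ) : ℝ := fderiv ℝ μ (C, 1) (1, 0)

include hd in
theorem hasDerivAt_fst {ζ : ℝ × ℝ} (hζ : ζ ≠ 0) :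
    HasDerivAt (fun x : ℝ => μ (x, ζ.2)) (fderiv ℝ μ ζ (1, 0)) ζ.1 := by
  have h1 : HasDerivAt (fun x : ℝ => ((x, ζ.2) : ℝ × ℝ)) (1, 0) ζ.1 :=
    (hasDerivAt_id ζ.1).prodMk (hasDerivAt_const ζ.1 ζ.2)
  have h2 : HasFDerivAt μ (fderiv ℝ μ ζ) ((ζ.1, ζ.2) : ℝ × ℝ) := (hd ζ hζ).hasFDerivAt
  exact h2.comp_hasDerivAt ζ.1 h1

include hd in
theorem hasDerivAt_slice (x : ℝ) : HasDerivAt (fun x : ℝ => μ (x, 1)) (slopeAt μ x) x :=
  hasDerivAt_fst hd (ζ := (x, 1)) (by simp)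

include hμ in
theorem convexOn_slice : ConvexOn ℝ univ fun x : ℝ => μ (x, 1) := by
  refine ⟨convex_univ, fun x _ y _ a b ha hb hab => ?_⟩
  have h1 : ((a • x + b • y, 1) : ℝ × ℝ) = a • (x, 1) + b • (y, 1) := by
    refine Prod.ext ?_ ?_
    · simp
    · simp [hab]
  simp only
  rw [h1]
  refine (hμ.add _ _).trans ?_
  rw [hμ.smul _ _ ha, hμ.smul _ _ hb]
  simp

include hμ hd in
theorem slopeAt_mono : Monotone (slopeAt μ) := by
  have h := (convexOn_slice hμ).monotoneOn_deriv (fun x _ => (hasDerivAt_slice hd x).differentiableAt)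
  intro x y hxy
  have := h (mem_univ x) (mem_univ y) hxy
  rwa [(hasDerivAt_slice hd x).deriv, (hasDerivAt_slice hd y).deriv] at this

include hrefl hd in
theorem slopeAt_neg (x : ℝ) : slopeAt μ (-x) = -slopeAt μ x := by
  have h1 : HasDerivAt (fun y : ℝ => μ (-y, 1)) (-(slopeAt μ (-x))) x := by
    have := (hasDerivAt_slice hd (-x)).comp x (hasDerivAt_neg x)
    rw [mul_neg_one] at this
    exact this
  have h2 : (fun y : ℝ => μ (-y, 1)) = fun y => μ (y, 1) := by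
    funext y
    exact hrefl y 1
  rw [h2] at h1
  have := h1.unique (hasDerivAt_slice hd x)
  linarith

include hμ hd in
/-- homogeneity of degree `0` -/
theorem fderiv_eq_slopeAt {ζ : ℝ × ℝ} (hζ : 0 < ζ.2) :
    fderiv ℝ μ ζ (1, 0) = slopeAt μ (ζ.1 / ζ.2) := by
  have hne : ζ ≠ 0 := by
    rintro rfl
    simp at hζ
  have h1 := hasDerivAt_fst hd hne
  have h2 : HasDerivAt (fun x : ℝ => ζ.2 * μ (x / ζ.2, 1))
      (ζ.2 * (slopeAt μ (ζ.1 / ζ.2) * (1 / ζ.2))) ζ.1 := by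
    have h3 : HasDerivAt (fun x : ℝ => x / ζ.2) (1 / ζ.2) ζ.1 := (hasDerivAt_id ζ.1).div_const ζ.2
    exact ((hasDerivAt_slice hd (ζ.1 / ζ.2)).comp ζ.1 h3).const_mul ζ.2
  have h4 : (fun x : ℝ => ζ.2 * μ (x / ζ.2, 1)) = fun x => μ (x, ζ.2) := by
    funext x
    rw [← hμ.smul _ _ hζ.le]
    congr 1
    refine Prod.ext ?_ ?_
    · simp only [Prod.smul_fst, smul_eq_mul]
      field_simp
    · simp
  rw [h4] at h2
  rw [h1.unique h2]
  field_simp

include hμ hrefl hd in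
theorem slopeAt_lt {C : ℝ} (hC : μ (1, 0) * C < μ (C, 1)) : slopeAt μ C < μ (1, 0) := by
  by_contra hcon
  push Not at hcon
  -- `μ (y, 1) - μ(1,0) y → 0`
  have hlim : Tendsto (fun y : ℝ => μ (y, 1) - μ (1, 0) * y) atTop (𝓝 0) := by
    have hne : ((1, 0) : ℝ × ℝ) ≠ 0 := by simp
    have h1 : HasDerivAt (fun s : ℝ => μ (1, s)) (fderiv ℝ μ (1, 0) (0, 1)) 0 := by
      have h2 : HasDerivAt (fun s : ℝ => ((1, s) : ℝ × ℝ)) (0, 1) 0 :=
        (hasDerivAt_const (0 : ℝ) (1 : ℝ)).prodMk (hasDerivAt_id (0 : ℝ))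
      exact (hd _ hne).hasFDerivAt.comp_hasDerivAt (0 : ℝ) h2
    have hev : (fun s : ℝ => μ (1, -s)) = fun s => μ (1, s) := by
      funext s
      have e1 := hμ.neg (1, -s)
      have e2 := hrefl 1 s
      simp only [Prod.neg_mk, neg_neg] at e1
      rw [← e1, e2]
    have h0 : fderiv ℝ μ (1, 0) (0, 1) = 0 := by
      have h3 : HasDerivAt (fun s : ℝ => μ (1, -s)) (-(fderiv ℝ μ (1, 0) (0, 1))) 0 := by
        have h1' : HasDerivAt (fun s : ℝ => μ (1, s)) (fderiv ℝ μ (1, 0) (0, 1)) (-0) := by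
          rwa [neg_zero]
        have := h1'.comp (0 : ℝ) (hasDerivAt_neg (0 : ℝ))
        rw [mul_neg_one] at this
        exact this
      rw [hev] at h3
      have := h3.unique h1
      linarith
    rw [h0] at h1
    have hs := (hasDerivAt_iff_tendsto_slope.1 h1).comp
      (tendsto_inv_atTop_nhdsGT_zero.mono_right (nhdsWithin_mono (0 : ℝ) (s := Set.Ioi 0)
        (t := {0}ᶜ) fun x hx => ne_of_gt hx))
    refine hs.congr' ?_
    filter_upwards [eventually_gt_atTop 0] with y hy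
    simp only [Function.comp_apply, slope_def_field, sub_zero, div_inv_eq_mul]
    have e1 : μ (y, 1) = y * μ (1, y⁻¹) := by
      rw [← hμ.smul _ _ hy.le]
      congr 1
      refine Prod.ext ?_ ?_
      · simp
      · simp only [Prod.smul_snd, smul_eq_mul]
        field_simp
    rw [e1]
    ring
  -- tangent line at `C`
  have htan : ∀ y, C ≤ y → μ (C, 1) - μ (1, 0) * C ≤ μ (y, 1) - μ (1, 0) * y := by
    intro y hy
    rcases eq_or_lt_of_le hy with rfl | hy
    · exact le_rfl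
    have h1 := (convexOn_slice hμ).le_slope_of_hasDerivAt (mem_univ C) (mem_univ y) hy
      (hasDerivAt_slice hd C)
    rw [slope_def_field, le_div_iff₀ (by linarith)] at h1
    have := mul_le_mul_of_nonneg_right hcon (by linarith : (0 : ℝ) ≤ y - C)
    linarith
  have := ge_of_tendsto hlim (eventually_ge_atTop C |>.mono fun y hy => htan y hy)
  linarith

include hμ hrefl hd in
theorem abs_fderiv_le {C : ℝ} {ζ : ℝ × ℝ} (hζ : ζ ≠ 0) (h : |ζ.1| ≤ C * |ζ.2|) :
    |fderiv ℝ μ ζ (1, 0)| ≤ slopeAt μ C := by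
  have hζ2 : ζ.2 ≠ 0 := by
    intro h0
    rw [h0, abs_zero, mul_zero] at h
    have : ζ.1 = 0 := abs_eq_zero.1 (le_antisymm h (abs_nonneg _))
    exact hζ (Prod.ext this h0)
  have key : ∀ ξ : ℝ × ℝ, 0 < ξ.2 → |ξ.1| ≤ C * ξ.2 → |fderiv ℝ μ ξ (1, 0)| ≤ slopeAt μ C := by
    intro ξ hξ h1
    rw [fderiv_eq_slopeAt hμ hd hξ, abs_le]
    have h2 : |ξ.1 / ξ.2| ≤ C := by
      rw [abs_div, abs_of_pos hξ, div_le_iff₀ hξ]
      exact h1
    rw [abs_le] at h2
    constructor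
    · rw [← slopeAt_neg hrefl hd]
      exact slopeAt_mono hμ hd h2.1
    · exact slopeAt_mono hμ hd h2.2
  rcases lt_or_gt_of_ne hζ2 with hneg | hpos
  · -- `μ (ζ) = μ (-ζ)`
    have h1 := key (-ζ) (by simpa using hneg) (by
      rw [abs_of_neg hneg] at h
      simpa using h)
    have h3 : HasFDerivAt μ (fderiv ℝ μ (-ζ)) (-ζ) := (hd _ (neg_ne_zero.2 hζ)).hasFDerivAt
    have h4 := h3.comp ζ ((hasFDerivAt_id ζ).neg)
    have h6 : (μ ∘ (Neg.neg : ℝ × ℝ → ℝ × ℝ)) = μ := by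
      funext x
      exact hμ.neg x
    rw [h6] at h4
    have h7 := h4.fderiv
    rw [h7]
    have h8 : (fderiv ℝ μ (-ζ)) (-(1, 0)) = -(fderiv ℝ μ (-ζ) (1, 0)) := map_neg _ _
    change |(fderiv ℝ μ (-ζ)) (-(1, 0))| ≤ _
    rw [h8, abs_neg]
    exact h1
  · exact key ζ hpos (by rwa [abs_of_pos hpos] at h)

end norm

/-! ### exit indices -/

/-- sup norm of a lattice point -/
def mx (x : ℤ × ℤ) : ℕ := max x.1.natAbs x.2.natAbs

theorem mem_box_iff_mx {n : ℕ} {x : ℤ × ℤ} : x ∈ box n ↔ mx x ≤ n := by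
  rw [mem_box, mx]
  omega

theorem mx_adj {x y : ℤ × ℤ} (h : squareLattice.Adj x y) : mx y ≤ mx x + 1 := by
  have h1 := adj_snd_le h
  have h2 := adj_fst_le h
  have h3 := adj_neg_snd_le h
  have h4 := adj_neg_fst_le h
  unfold mx
  omega

/-- first index at which the path has sup norm `≥ n` -/
noncomputable def exitIdx (v : ℕ → ℤ × ℤ) (n : ℕ) : ℕ := sInf {i | n ≤ mx (v i)}

theorem exists_mx_ge {v : ℕ → ℤ × ℤ} (hinj : Function.Injective v) (n : ℕ) : ∃ i, n ≤ mx (v i) := by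
  by_contra hcon
  push Not at hcon
  have : Set.range v ⊆ (box n : Set (ℤ × ℤ)) := by
    rintro _ ⟨i, rfl⟩
    rw [Finset.mem_coe, mem_box_iff_mx]
    exact (hcon i).le
  exact (Set.infinite_range_of_injective hinj) ((Finset.finite_toSet _).subset this)

theorem mx_exitIdx {v : ℕ → ℤ × ℤ} (hinj : Function.Injective v)
    (hadj : ∀ i, squareLattice.Adj (v i) (v (i + 1))) {n : ℕ} (hn : mx (v 0) ≤ n) :
    mx (v (exitIdx v n)) = n := by
  have h1 : n ≤ mx (v (exitIdx v n)) := Nat.sInf_mem (exists_mx_ge hinj n)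
  refine le_antisymm ?_ h1
  rcases Nat.eq_zero_or_pos (exitIdx v n) with h0 | h0
  · rw [h0]
    exact hn
  · have h2 : ¬ n ≤ mx (v (exitIdx v n - 1)) := by
      intro h
      have : exitIdx v n ≤ exitIdx v n - 1 := Nat.sInf_le h
      omega
    have h3 := mx_adj (hadj (exitIdx v n - 1))
    rw [show exitIdx v n - 1 + 1 = exitIdx v n by omega] at h3
    omega

theorem tendsto_exitIdx {v : ℕ → ℤ × ℤ} (hinj : Function.Injective v) :
    Tendsto (exitIdx v) atTop atTop := by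
  rw [tendsto_atTop]
  intro b
  -- the first `b` points have bounded norm
  filter_upwards [eventually_gt_atTop ((Finset.range b).sup fun i => mx (v i))] with n hn
  by_contra hcon
  push Not at hcon
  have h1 : n ≤ mx (v (exitIdx v n)) := Nat.sInf_mem (exists_mx_ge hinj n)
  have h2 : mx (v (exitIdx v n)) ≤ (Finset.range b).sup fun i => mx (v i) :=
    Finset.le_sup (f := fun i => mx (v i)) (Finset.mem_range.2 hcon)
  omega

theorem norm_sc {n : ℕ} (hn : 0 < n) {x : ℤ × ℤ} (hx : mx x = n) : ‖sc n x‖ = 1 := by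
  have hn' : (0 : ℝ) < n := by exact_mod_cast hn
  unfold sc
  rw [norm_smul, Real.norm_eq_abs, abs_of_pos (by positivity)]
  have : ‖toR x‖ = n := by
    rw [← hx]
    unfold toR mx
    rw [Prod.norm_mk, Real.norm_eq_abs, Real.norm_eq_abs, Nat.cast_max, Nat.cast_natAbs,
      Nat.cast_natAbs]
    push_cast
    rfl
  rw [this]
  field_simp

/-- limit directions along an ultrafilter of scales -/
theorem exists_limit_dir {v : ℕ → ℤ × ℤ} (hinj : Function.Injective v)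
    (hadj : ∀ i, squareLattice.Adj (v i) (v (i + 1))) :
    ∃ (U : Ultrafilter ℕ) (ζ : ℝ × ℝ), (U : Filter ℕ) ≤ atTop ∧ ‖ζ‖ = 1 ∧
      Tendsto (fun n => sc n (v (exitIdx v n))) U (𝓝 ζ) := by
  set U : Ultrafilter ℕ := Ultrafilter.of atTop with hU
  have hle : (U : Filter ℕ) ≤ atTop := Ultrafilter.of_le _
  have hsph : IsCompact (Metric.sphere (0 : ℝ × ℝ) 1) := isCompact_sphere 0 1
  have hmem : ∀ᶠ n in (U : Filter ℕ), sc n (v (exitIdx v n)) ∈ Metric.sphere (0 : ℝ × ℝ) 1 := by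
    refine hle ?_
    filter_upwards [eventually_ge_atTop (mx (v 0) + 1)] with n hn
    rw [mem_sphere_zero_iff_norm]
    exact norm_sc (by omega) (mx_exitIdx hinj hadj (by omega))
  obtain ⟨ζ, hζ, hlim⟩ := hsph.ultrafilter_le_nhds (U.map fun n => sc n (v (exitIdx v n)))
    (le_principal_iff.2 hmem)
  exact ⟨U, ζ, hle, by simpa using hζ, hlim⟩

/-- boundary to interior passage times of a half plane; `h` is the height function -/
def BUp (μ : ℝ × ℝ → ℝ) (t : Environment) (R : Set (ℤ × ℤ)) (k : ℤ) (h : ℤ × ℤ → ℤ) : Prop :=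
  ∀ α : ℝ, ∀ ε : ℝ, 0 < ε → ∀ δ : ℝ, 0 < δ → ∀ᶠ n : ℕ in atTop, ∀ y ∈ box n, δ * n ≤ h y →
    pt (reg R) t (⌊α * n⌋, k) y ≤ μ (toR (y - (⌊α * n⌋, k))) + ε * n

section ray

variable {μ : ℝ × ℝ → ℝ} (hμ : B710.NormLike μ) (hrefl : ∀ x y, μ (-x, y) = μ (x, y))
  (hd : ∀ v : ℝ × ℝ, v ≠ 0 → DifferentiableAt ℝ μ v) {t : Environment} (ht : ∀ e, 0 < t e)
  (hlow : LShape μ t) {R : Set (ℤ × ℤ)} {k : ℤ} {h : ℤ × ℤ → ℤ} (hh : ∀ x, |h x| = |x.2|)
  (hup : BUp μ t R k h) {v : ℕ → ℤ × ℤ} (hv : IsRay t (reg R) v)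
  (hreach : ∀ a : ℤ, (reg R).Reachable (a, k) (v 0)) {C : ℝ} (hC : 0 < C)
  (hcone : ∀ᶠ n in atTop, |((v n).1 : ℝ)| ≤ C * h (v n))

include ht hh hup hv hC hcone

theorem exists_dir : ∃ (U : Ultrafilter ℕ) (ζ : ℝ × ℝ), (U : Filter ℕ) ≤ atTop ∧ ζ ≠ 0 ∧
    |ζ.1| ≤ C * |ζ.2| ∧ Tendsto (fun n => sc n (v (exitIdx v n))) U (𝓝 ζ) ∧
    (∀ᶠ n in (U : Filter ℕ), v (exitIdx v n) ∈ box n) ∧
    RowUp μ t R k U fun n => v (exitIdx v n) := by
  have hadj : ∀ i, squareLattice.Adj (v i) (v (i + 1)) := fun i => (reg_le R) (hv.adj i)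
  have hinj := hv.injective ht
  obtain ⟨U, ζ, hU, hζ, hlim⟩ := exists_limit_dir hinj hadj
  have hbox : ∀ᶠ n in (U : Filter ℕ), v (exitIdx v n) ∈ box n ∧ mx (v (exitIdx v n)) = n := by
    refine hU ?_
    filter_upwards [eventually_ge_atTop (mx (v 0))] with n hn
    have := mx_exitIdx hinj hadj hn
    exact ⟨by rw [mem_box_iff_mx, this], this⟩
  have hcone' : ∀ᶠ n in (U : Filter ℕ),
      |((v (exitIdx v n)).1 : ℝ)| ≤ C * h (v (exitIdx v n)) :=
    hU ((tendsto_exitIdx hinj).eventually hcone)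
  refine ⟨U, ζ, hU, ?_, ?_, hlim, hbox.mono fun n hn => hn.1, ?_⟩
  · intro h0
    rw [h0] at hζ
    simp at hζ
  · have h1 : Tendsto (fun n => |(sc n (v (exitIdx v n))).1|) U (𝓝 |ζ.1|) :=
      ((continuous_fst.tendsto ζ).comp hlim).abs
    have h2 : Tendsto (fun n => C * |(sc n (v (exitIdx v n))).2|) U (𝓝 (C * |ζ.2|)) :=
      (((continuous_snd.tendsto ζ).comp hlim).abs).const_mul C
    refine le_of_tendsto_of_tendsto h1 h2 ?_
    filter_upwards [hcone', hU (eventually_gt_atTop 0)] with n hn hn0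
    have hn' : (0 : ℝ) < n := by exact_mod_cast hn0
    have e1 : (sc n (v (exitIdx v n))).1 = (v (exitIdx v n)).1 / n := by
      simp [sc, toR]; ring
    have e2 : (sc n (v (exitIdx v n))).2 = (v (exitIdx v n)).2 / n := by
      simp [sc, toR]; ring
    rw [e1, e2, abs_div, abs_div, abs_of_pos hn', ← mul_div_assoc]
    gcongr
    refine hn.trans (mul_le_mul_of_nonneg_left ?_ hC.le)
    refine (le_abs_self _).trans ?_
    have := hh (v (exitIdx v n))
    have h3 : |((h (v (exitIdx v n)) : ℤ) : ℝ)| = |((v (exitIdx v n)).2 : ℝ)| := by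
      exact_mod_cast congrArg (Int.cast (R := ℝ)) this
    rw [h3]
  · intro α ε hε
    have h1 := hU (hup α ε hε (1 / (C + 1)) (by positivity))
    filter_upwards [h1, hbox, hcone', hU (eventually_gt_atTop 0)] with n hn hb hc hn0
    refine hn _ hb.1 ?_
    have hn' : (0 : ℝ) < n := by exact_mod_cast hn0
    have hC1 : 0 < C + 1 := by linarith
    rw [one_div, inv_mul_le_iff₀ hC1]
    have hnonneg : (0 : ℝ) ≤ h (v (exitIdx v n)) := by
      by_contra hneg
      push Not at hneg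
      have h4 : C * (h (v (exitIdx v n)) : ℝ) < 0 := mul_neg_of_pos_of_neg hC hneg
      exact absurd ((abs_nonneg _).trans hc) (not_le.2 h4)
    have h2 : |((v (exitIdx v n)).2 : ℝ)| = h (v (exitIdx v n)) := by
      rw [← abs_of_nonneg hnonneg]
      exact_mod_cast (congrArg (Int.cast (R := ℝ)) (hh (v (exitIdx v n)))).symm
    have h3 : (n : ℝ) = max |((v (exitIdx v n)).1 : ℝ)| |((v (exitIdx v n)).2 : ℝ)| := by
      conv_lhs => rw [← hb.2]
      unfold mx
      rw [Nat.cast_max, Nat.cast_natAbs, Nat.cast_natAbs]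
      push_cast
      rfl
    rw [h3, max_le_iff]
    constructor
    · linarith
    · rw [h2]
      nlinarith

include hμ hrefl hd hlow hreach

/-- increments of the Busemann function at most those of `F` ⟹ slope of `F` at least `-∂₁μ(C,1)` -/
theorem neg_slopeAt_le {F : ℤ → ℝ} {p : ℝ} (hF : HasSlope F p)
    (hle : ∀ x, inc (fun a => bus t (reg R) v (a, k)) x ≤ inc F x) : -(slopeAt μ C) ≤ p := by
  obtain ⟨U, ζ, hU, hζ, hc, hlim, hbox, hrow⟩ :=
    exists_dir ht hh hup hv hC hcone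
  have h1 := neg_deriv_le_of_inc_le hμ (fun e => (ht e).le) hlow hU hv hreach hbox hlim (hd ζ hζ)
    hrow hF hle
  have h2 := abs_le.1 (abs_fderiv_le hμ hrefl hd hζ hc)
  linarith [h2.2]

/-- increments of the Busemann function at least those of `F` ⟹ slope of `F` at most `∂₁μ(C,1)` -/
theorem le_slopeAt {F : ℤ → ℝ} {p : ℝ} (hF : HasSlope F p)
    (hle : ∀ x, inc F x ≤ inc (fun a => bus t (reg R) v (a, k)) x) : p ≤ slopeAt μ C := by
  obtain ⟨U, ζ, hU, hζ, hc, hlim, hbox, hrow⟩ :=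
    exists_dir ht hh hup hv hC hcone
  have h1 := le_neg_deriv_of_inc_ge hμ (fun e => (ht e).le) hlow hU hv hreach hbox hlim (hd ζ hζ)
    hrow hF hle
  have h2 := abs_le.1 (abs_fderiv_le hμ hrefl hd hζ hc)
  linarith [h2.1]


end ray

end Crest.Agent.R151.SL
end

-- ▼ part R151/SL856c
section

/-!
# R151/SL856c — slopes of bigeodesics (owner helper856), deterministic (fixed environment)

`EnvOK μ t` : positive weights, uniform shape theorem, boundary-to-interior upper bounds in all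
half planes, columns bounded infinitely often.  For a bigeodesic `v` with `ProperUp C0 v`,
`μ(1,0) C0 < μ(C0,1)`, whose upper / lower Busemann functions are sandwiched in monotone families
with slopes `∓p`: ONE number `s`, `|s| ≤ slopeAt μ C0 < μ(1,0)`, is the label of the upper and of the
lower function on every level, the functions have the two-sided slopes `-s` and `s`.
-/

set_option autoImplicit false

open Crest.ProbabilityR.FirstPassage
open Filter Set
open scoped Topology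

namespace Crest.Agent.R151.SL

open Y H K SEL

/-- what is needed of the environment -/
structure EnvOK (μ : ℝ × ℝ → ℝ) (t : Environment) : Prop where
  pos : ∀ e, 0 < t e
  ush : D411.UShape μ t
  bup : ∀ k, BUp μ t (Up k) k fun z => z.2
  bdn : ∀ k, BUp μ t (Dn k) k fun z => -z.2
  col : ∀ j k : ℤ, ∃ M : ℝ, (∃ᶠ a : ℤ in atTop, passageTime t (a, j) (a, k) ≤ M) ∧
    ∃ᶠ a : ℤ in atBot, passageTime t (a, j) (a, k) ≤ M

theorem EnvOK.nonneg {μ : ℝ × ℝ → ℝ} {t : Environment} (h : EnvOK μ t) : ∀ e, 0 ≤ t e :=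
  fun e => (h.pos e).le

theorem EnvOK.low {μ : ℝ × ℝ → ℝ} {t : Environment} (h : EnvOK μ t) : LShape μ t :=
  lShape_of_dev h.ush

theorem updown_of_properUp {C : ℝ} {v : ℤ → ℤ × ℤ} (h : D411.ProperUp C v) : UpDown v :=
  ⟨h.2.2.1, h.2.2.2⟩

theorem tailU_cone {C : ℝ} {v : ℤ → ℤ × ℤ} (h : D411.ProperUp C v) (k : ℤ) :
    ∀ᶠ n in atTop, |((tailU k v n).1 : ℝ)| ≤ C * ((tailU k v n).2 : ℤ) := by
  have h1 : Tendsto (fun n : ℕ => entU k v + (n : ℤ)) atTop atTop :=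
    tendsto_atTop_add_const_left _ _ tendsto_natCast_atTop_atTop
  exact h1.eventually h.1

theorem tailD_cone {C : ℝ} {v : ℤ → ℤ × ℤ} (h : D411.ProperUp C v) (k : ℤ) :
    ∀ᶠ n in atTop, |((tailD k v n).1 : ℝ)| ≤ C * ((-(tailD k v n).2 : ℤ) : ℝ) := by
  have h1 : Tendsto (fun n : ℕ => entD k v - (n : ℤ)) atTop atBot := by
    have h2 : Tendsto (fun n : ℕ => (n : ℤ) - entD k v) atTop atTop :=
      tendsto_atTop_add_const_right _ _ tendsto_natCast_atTop_atTop
    refine (tendsto_neg_atTop_atBot.comp h2).congr fun n => ?_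
    simp
  filter_upwards [h1.eventually h.2.1] with n hn
  refine hn.trans_eq ?_
  unfold tailD
  push_cast
  ring

theorem tailU_mem {v : ℤ → ℤ × ℤ} (h : UpDown v) (k : ℤ) (n : ℕ) : k ≤ (tailU k v n).2 :=
  h.entU_spec (by omega)

theorem tailD_mem {v : ℤ → ℤ × ℤ} (h : UpDown v) (k : ℤ) (n : ℕ) : (tailD k v n).2 ≤ k :=
  h.entD_spec (by omega)

section

variable {μ : ℝ × ℝ → ℝ} (hμ : D411.SmoothNorm μ) {C : ℝ} (hC : 0 < C) {t : Environment}
  (ht : EnvOK μ t) {v : ℤ → ℤ × ℤ} (hv : IsBigeodesic t v) (hup : D411.ProperUp C v)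

include hμ hC ht hv hup

theorem fU_neg_le {k : ℤ} {F : ℤ → ℝ} {p : ℝ} (hF : HasSlope F p)
    (hle : ∀ x, inc (fun a => fU t k v (a, k)) x ≤ inc F x) : -(slopeAt μ C) ≤ p :=
  neg_slopeAt_le hμ.norm hμ.refl hμ.diff ht.pos ht.low (h := fun z => z.2) (fun _ => rfl) (ht.bup k)
    (isRay_tailU hv ht.nonneg (updown_of_properUp hup) k)
    (fun _ => reach_up le_rfl (tailU_mem (updown_of_properUp hup) k 0)) hC (tailU_cone hup k) hF hle

theorem fU_le {k : ℤ} {F : ℤ → ℝ} {p : ℝ} (hF : HasSlope F p)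
    (hle : ∀ x, inc F x ≤ inc (fun a => fU t k v (a, k)) x) : p ≤ slopeAt μ C :=
  le_slopeAt hμ.norm hμ.refl hμ.diff ht.pos ht.low (h := fun z => z.2) (fun _ => rfl) (ht.bup k)
    (isRay_tailU hv ht.nonneg (updown_of_properUp hup) k)
    (fun _ => reach_up le_rfl (tailU_mem (updown_of_properUp hup) k 0)) hC (tailU_cone hup k) hF hle

theorem fD_neg_le {k : ℤ} {F : ℤ → ℝ} {p : ℝ} (hF : HasSlope F p)
    (hle : ∀ x, inc (fun a => fD t k v (a, k)) x ≤ inc F x) : -(slopeAt μ C) ≤ p :=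
  neg_slopeAt_le hμ.norm hμ.refl hμ.diff ht.pos ht.low (h := fun z => -z.2) (fun x => abs_neg _)
    (ht.bdn k) (isRay_tailD hv ht.nonneg (updown_of_properUp hup) k)
    (fun _ => reach_dn le_rfl (tailD_mem (updown_of_properUp hup) k 0)) hC (tailD_cone hup k) hF hle

theorem fD_le {k : ℤ} {F : ℤ → ℝ} {p : ℝ} (hF : HasSlope F p)
    (hle : ∀ x, inc F x ≤ inc (fun a => fD t k v (a, k)) x) : p ≤ slopeAt μ C :=
  le_slopeAt hμ.norm hμ.refl hμ.diff ht.pos ht.low (h := fun z => -z.2) (fun x => abs_neg _)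
    (ht.bdn k) (isRay_tailD hv ht.nonneg (updown_of_properUp hup) k)
    (fun _ => reach_dn le_rfl (tailD_mem (updown_of_properUp hup) k 0)) hC (tailD_cone hup k) hF hle

/-- the label of the upper function is in the compact interval -/
theorem abs_label_le_U {D : Set ℝ} {f : ℝ → ℤ → ℝ} {k : ℤ} {s : ℝ} (hs : |s| ≤ μ (1, 0))
    (hD : ∀ x y, -μ (1, 0) < x → x < y → y < μ (1, 0) → ∃ p ∈ D, x < p ∧ p < y)
    (hf : ∀ p ∈ D, HasSlope (f p) (-p)) (hS : Sand D f s fun x => fU t k v (x, k)) :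
    |s| ≤ slopeAt μ C := by
  have hs' := abs_le.1 hs
  have hneg : -μ (1, 0) ≤ μ (1, 0) := by linarith
  -- `slopeAt μ C ≥ 0`
  have h0 : 0 ≤ slopeAt μ C := by
    have := abs_fderiv_le hμ.norm hμ.refl hμ.diff (C := C) (ζ := (C, 1)) (by simp)
      (by rw [abs_of_pos hC]; simp)
    exact (abs_nonneg _).trans this
  rw [abs_le]
  constructor
  · by_contra hcon
    push Not at hcon
    -- `s < -slopeAt`
    obtain ⟨p, hp, hp1, hp2⟩ : ∃ p ∈ D, s < p ∧ p < -slopeAt μ C := by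
      rcases eq_or_lt_of_le hs'.1 with h1 | h1
      · obtain ⟨p, hp, h2, h3⟩ := hD ((s + -slopeAt μ C) / 2) (-slopeAt μ C) (by linarith)
          (by linarith) (by linarith [hs'.2])
        exact ⟨p, hp, by linarith, h3⟩
      · obtain ⟨p, hp, h2, h3⟩ := hD s (-slopeAt μ C) (by linarith) hcon (by linarith)
        exact ⟨p, hp, h2, h3⟩
    have := fU_le hμ hC ht hv hup (hf p hp) (hS.ge p hp hp1)
    linarith
  · by_contra hcon
    push Not at hcon
    obtain ⟨p, hp, hp1, hp2⟩ : ∃ p ∈ D, slopeAt μ C < p ∧ p < s := by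
      rcases eq_or_lt_of_le hs'.2 with h1 | h1
      · obtain ⟨p, hp, h2, h3⟩ := hD (slopeAt μ C) ((s + slopeAt μ C) / 2) (by linarith)
          (by linarith) (by linarith)
        exact ⟨p, hp, h2, by linarith⟩
      · obtain ⟨p, hp, h2, h3⟩ := hD (slopeAt μ C) s (by linarith) hcon (by linarith)
        exact ⟨p, hp, h2, h3⟩
    have := fU_neg_le hμ hC ht hv hup (hf p hp) (hS.le p hp hp2)
    linarith

/-- the label of the lower function is in the compact interval -/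
theorem abs_label_le_D {D : Set ℝ} {g : ℝ → ℤ → ℝ} {k : ℤ} {s : ℝ} (hs : |s| ≤ μ (1, 0))
    (hD : ∀ x y, -μ (1, 0) < x → x < y → y < μ (1, 0) → ∃ p ∈ D, x < p ∧ p < y)
    (hg : ∀ p ∈ D, HasSlope (g p) p) (hS : SandUp D g s fun x => fD t k v (x, k)) :
    |s| ≤ slopeAt μ C := by
  have hs' := abs_le.1 hs
  have h0 : 0 ≤ slopeAt μ C := by
    have := abs_fderiv_le hμ.norm hμ.refl hμ.diff (C := C) (ζ := (C, 1)) (by simp)
      (by rw [abs_of_pos hC]; simp)
    exact (abs_nonneg _).trans this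
  rw [abs_le]
  constructor
  · by_contra hcon
    push Not at hcon
    obtain ⟨p, hp, hp1, hp2⟩ : ∃ p ∈ D, s < p ∧ p < -slopeAt μ C := by
      rcases eq_or_lt_of_le hs'.1 with h1 | h1
      · obtain ⟨p, hp, h2, h3⟩ := hD ((s + -slopeAt μ C) / 2) (-slopeAt μ C) (by linarith)
          (by linarith) (by linarith [hs'.2])
        exact ⟨p, hp, by linarith, h3⟩
      · obtain ⟨p, hp, h2, h3⟩ := hD s (-slopeAt μ C) (by linarith) hcon (by linarith)
        exact ⟨p, hp, h2, h3⟩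
    have := fD_neg_le hμ hC ht hv hup (hg p hp) (hS.le p hp hp1)
    linarith
  · by_contra hcon
    push Not at hcon
    obtain ⟨p, hp, hp1, hp2⟩ : ∃ p ∈ D, slopeAt μ C < p ∧ p < s := by
      rcases eq_or_lt_of_le hs'.2 with h1 | h1
      · obtain ⟨p, hp, h2, h3⟩ := hD (slopeAt μ C) ((s + slopeAt μ C) / 2) (by linarith)
          (by linarith) (by linarith)
        exact ⟨p, hp, h2, by linarith⟩
      · obtain ⟨p, hp, h2, h3⟩ := hD (slopeAt μ C) s (by linarith) hcon (by linarith)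
        exact ⟨p, hp, h2, h3⟩
    have := fD_le hμ hC ht hv hup (hg p hp) (hS.ge p hp hp2)
    linarith

end

/-- the pair functional of a bigeodesic on two rows `j < k` is bounded below -/
theorem pair_bdd {t : Environment} (ht : ∀ e, 0 < t e) {v : ℤ → ℤ × ℤ} (hv : IsBigeodesic t v)
    (hup : UpDown v) {j k : ℤ} (hjk : j < k) (a : ℤ) :
    0 ≤ fD t j v (a, j) + passageTime t (a, j) (a, k) + fU t k v (a, k) := by
  have ht0 : ∀ e, 0 ≤ t e := fun e => (ht e).le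
  have hb : IsBiRay t squareLattice v := (isBigeodesic_iff ht).1 hv
  have h := hb.pair_min ht0 (Hp := reg (Up k)) (Hm := reg (Dn j)) (reg_le _) (reg_le _)
    (i := entD j v) (j := entU k v) (p := (a, j)) (q := (a, k))
    (hup.entD_lt_entU hjk).le
    (fun i hi => ⟨hv.2.1 i, hup.entU_spec hi, hup.entU_spec (by omega)⟩)
    (fun i hi => ⟨hv.2.1 i, hup.entD_spec hi.le, hup.entD_spec (by omega)⟩)
    (reach_dn le_rfl (hup.entD_spec le_rfl)) (reach_up le_rfl (hup.entU_spec le_rfl))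
  have h0 := pt_nonneg (H := squareLattice) (x := v (entD j v)) (y := v (entU k v)) ht0
  rw [passageTime_eq_pt]
  unfold fU fD
  exact h0.trans h

/-- **(SL2)** the slopes of the two functions of a bigeodesic are opposite -/
theorem slopes_opposite {μ : ℝ × ℝ → ℝ} {t : Environment} (ht : EnvOK μ t) {v : ℤ → ℤ × ℤ}
    (hv : IsBigeodesic t v) (hup : UpDown v) {j k : ℤ} (hjk : j < k) {σ σ' : ℝ}
    (hU : HasSlope (fun x => fU t k v (x, k)) σ) (hD : HasSlope (fun x => fD t j v (x, j)) σ') :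
    σ' + σ = 0 := by
  obtain ⟨M, h1, h2⟩ := ht.col j k
  exact hD.add_eq_zero hU (V := fun a => passageTime t (a, j) (a, k)) (m := 0)
    (fun x => pair_bdd ht.pos hv hup hjk x) h1 h2

/-- **Slopes of bigeodesics**, main statement of the block. -/
theorem slopes {μ : ℝ × ℝ → ℝ} (hμ : D411.SmoothNorm μ) {C : ℝ} (hC : 0 < C)
    (hC' : μ (1, 0) * C < μ (C, 1)) {t : Environment} (ht : EnvOK μ t) {D : Set ℝ}
    (hD : ∀ x y, -μ (1, 0) < x → x < y → y < μ (1, 0) → ∃ p ∈ D, x < p ∧ p < y)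
    {f g : ℤ → ℝ → ℤ → ℝ} (hf : ∀ k, ∀ p ∈ D, HasSlope (f k p) (-p))
    (hg : ∀ k, ∀ p ∈ D, HasSlope (g k p) p) {v : ℤ → ℤ × ℤ} (hv : IsBigeodesic t v)
    (hup : D411.ProperUp C v)
    (hSU : ∀ k, ∃ s, |s| ≤ μ (1, 0) ∧ Sand D (f k) s fun x => fU t k v (x, k))
    (hSD : ∀ k, ∃ s, |s| ≤ μ (1, 0) ∧ SandUp D (g k) s fun x => fD t k v (x, k)) :
    ∃ s, |s| ≤ slopeAt μ C ∧ slopeAt μ C < μ (1, 0) ∧ ∀ k,
      Sand D (f k) s (fun x => fU t k v (x, k)) ∧ SandUp D (g k) s (fun x => fD t k v (x, k)) ∧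
      HasSlope (fun x => fU t k v (x, k)) (-s) ∧ HasSlope (fun x => fD t k v (x, k)) s := by
  have hlt : slopeAt μ C < μ (1, 0) := slopeAt_lt hμ.norm hμ.refl hμ.diff hC'
  have hud := updown_of_properUp hup
  have key : ∀ s, |s| ≤ slopeAt μ C → TwoSided D s := by
    intro s hs
    have := abs_le.1 hs
    exact twoSided_of_dense hD (by linarith) (by linarith)
  have hU : ∀ k, ∃ s, |s| ≤ slopeAt μ C ∧ Sand D (f k) s (fun x => fU t k v (x, k)) ∧
      HasSlope (fun x => fU t k v (x, k)) (-s) := by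
    intro k
    obtain ⟨s, hs, hS⟩ := hSU k
    have h1 := abs_label_le_U hμ hC ht hv hup hs hD (hf k) hS
    exact ⟨s, h1, hS, hS.hasSlope (θ := fun p => -p) (key s h1) continuousAt_neg (hf k)⟩
  have hDn : ∀ k, ∃ s, |s| ≤ slopeAt μ C ∧ SandUp D (g k) s (fun x => fD t k v (x, k)) ∧
      HasSlope (fun x => fD t k v (x, k)) s := by
    intro k
    obtain ⟨s, hs, hS⟩ := hSD k
    have h1 := abs_label_le_D hμ hC ht hv hup hs hD (hg k) hS
    refine ⟨s, h1, hS, ?_⟩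
    -- via the mirrored family
    have h2 : Sand D (fun p x => -(g k p) x) s (fun x => -(fD t k v (x, k))) := by
      constructor
      · intro p hp hps x
        rw [inc_neg, inc_neg]
        linarith [hS.ge p hp hps x]
      · intro q hq hsq x
        rw [inc_neg, inc_neg]
        linarith [hS.le q hq hsq x]
    have h3 := h2.hasSlope (θ := fun p => -p) (key s h1) continuousAt_neg
      fun p hp => (hg k p hp).neg
    have h4 := h3.neg
    simpa using h4
  choose sU hU1 hU2 hU3 using hU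
  choose sD hD1 hD2 hD3 using hDn
  have hopp : ∀ j k, j < k → sD j = sU k := by
    intro j k hjk
    have := slopes_opposite ht hv hud hjk (hU3 k) (hD3 j)
    linarith
  have hcU : ∀ k, sU k = sU 0 := by
    intro k
    have h1 := hopp (min k 0 - 1) k (by omega)
    have h2 := hopp (min k 0 - 1) 0 (by omega)
    rw [← h1, h2]
  have hcD : ∀ k, sD k = sU 0 := by
    intro k
    rw [hopp k (k + 1) (by omega), hcU]
  refine ⟨sU 0, hU1 0, hlt, fun k => ⟨?_, ?_, ?_, ?_⟩⟩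
  · rw [← hcU k]
    exact hU2 k
  · rw [← hcD k]
    exact hD2 k
  · rw [← hcU k]
    exact hU3 k
  · rw [← hcD k]
    exact hD3 k


end Crest.Agent.R151.SL
end

-- ▼ part R151/K9i
section

/-!
# R151/K9i — almost sure shape theorem in regions and half-planes, law of S0213 (owner helper507)

`Mom.as_interior` : two-point shape in every region containing a linear neighbourhood of the segment.
`as_ctlR` : almost sure local control in regions.
`as_half_ctl`, `Mom.as_half_shape` : half-planes `{z | k ≤ z.2}`, boundary included.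
-/

set_option autoImplicit false
set_option linter.unusedSectionVars false

open MeasureTheory Filter ProbabilityTheory
open Crest.ProbabilityR.FirstPassage

namespace Crest.Agent.R151.K

variable {G : Measure ℝ} [IsProbabilityMeasure G] {m : ℝ} {μ : ℝ × ℝ → ℝ}

/-- the `i`-th point of the chain is close to the corresponding point of the segment -/
lemma ch_close (x y : ℤ × ℤ) {K : ℕ} (hK : 0 < K) (i : ℕ) :
    l1 (toR (ch x y K i) - ((1 - (i / K : ℝ)) • toR x + (i / K : ℝ) • toR y)) ≤ 2 := by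
  have hKR : (0 : ℝ) < K := by exact_mod_cast hK
  have hK' : (0 : ℤ) < K := by exact_mod_cast hK
  have key : ∀ a b : ℤ, |((a + (b - a) * i / K : ℤ) : ℝ) - ((1 - (i / K : ℝ)) * a + (i / K : ℝ) * b)|
      ≤ 1 := by
    intro a b
    obtain ⟨q, hq⟩ : ∃ q, q = (b - a) * (i : ℤ) / K := ⟨_, rfl⟩
    have h1 : q * K ≤ (b - a) * i := by rw [hq]; exact Int.ediv_mul_le _ hK'.ne'
    have h2 : (b - a) * i < (q + 1) * K := by rw [hq]; exact Int.lt_ediv_add_one_mul_self _ hK'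
    rw [← hq]
    have h1' : (q : ℝ) * K ≤ (b - a) * i := by exact_mod_cast h1
    have h2' : ((b : ℝ) - a) * i < (q + 1) * K := by exact_mod_cast h2
    have e : ((a + q : ℤ) : ℝ) - ((1 - (i / K : ℝ)) * a + (i / K : ℝ) * b)
        = (q * K - (b - a) * i) / K := by push_cast; field_simp; ring
    rw [e, abs_le, le_div_iff₀ hKR, div_le_iff₀ hKR]
    constructor <;> nlinarith
  have h1 := key x.1 y.1
  have h2 := key x.2 y.2
  simp only [l1, toR, ch, Prod.fst_sub, Prod.snd_sub, Prod.smul_fst, Prod.smul_snd, smul_eq_mul,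
    Prod.fst_add, Prod.snd_add]
  push_cast at h1 h2 ⊢
  linarith

/-- **Interior shape theorem, deterministic form.** -/
theorem interior_det {t : Environment} (ht : Nn t) {c : ℝ} (hc : 0 < c) (hm : 0 ≤ m)
    (hlow : ∀ v, c * l1 v ≤ μ v) (hup : ∀ v, μ v ≤ m * l1 v)
    (hlip : ∀ v w, |μ v - μ w| ≤ m * l1 (v - w)) (hhom : ∀ s : ℝ, 0 ≤ s → ∀ v, μ (s • v) = s * μ v)
    (hU : ∀ ε : ℝ, 0 < ε → ∀ᶠ n : ℕ in atTop, dev μ n t ≤ ε * n)
    {ρ ε : ℝ} (hρ : 0 < ρ) (hε : 0 < ε) :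
    ∀ᶠ n : ℕ in atTop, ∀ x ∈ box n, ∀ y ∈ box n, ∀ R : Set (ℤ × ℤ),
      (∀ z : ℤ × ℤ, (∃ s : ℝ, 0 ≤ s ∧ s ≤ 1 ∧
        l1 (toR z - ((1 - s) • toR x + s • toR y)) ≤ ρ * n) → z ∈ R) →
      Conn R x y ∧ pR t R x y ≤ μ (toR (y - x)) + ε * n := by
  -- reduction to `ρ ≤ 1`
  wlog hρ1 : ρ ≤ 1 generalizing ρ
  · have h1 := this (ρ := 1) one_pos le_rfl
    filter_upwards [h1] with n hn x hx y hy R hR
    refine hn x hx y hy R fun z hz => hR z ?_
    obtain ⟨s, h1, h2, h3⟩ := hz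
    refine ⟨s, h1, h2, h3.trans ?_⟩
    have : (0 : ℝ) ≤ n := Nat.cast_nonneg _
    nlinarith
  obtain ⟨K, hK0, hK⟩ : ∃ K : ℕ, 0 < K ∧ 4 * m ≤ c * ρ / 4 * K := by
    obtain ⟨K, hK⟩ := exists_nat_gt (4 * m / (c * ρ / 4))
    rw [div_lt_iff₀ (by positivity)] at hK
    refine ⟨K + 1, Nat.succ_pos _, ?_⟩
    push_cast
    have : 0 < c * ρ / 4 := by positivity
    nlinarith
  have hKR : (0 : ℝ) < K := by exact_mod_cast hK0
  obtain ⟨δ, hδ0, hδ1, hδ2⟩ : ∃ δ : ℝ, 0 < δ ∧ δ ≤ c * ρ / 16 ∧ δ * K ≤ ε / 4 := by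
    refine ⟨min (c * ρ / 16) (ε / 4 / K), by positivity, min_le_left _ _, ?_⟩
    calc _ ≤ ε / 4 / K * K := by gcongr; exact min_le_right _ _
      _ = ε / 4 := by field_simp
  have hU' : ∀ᶠ n : ℕ in atTop, dev μ (2 * n) t ≤ δ * (2 * n : ℕ) :=
    (tendsto_id.const_mul_atTop' (by norm_num : 0 < 2)).eventually (hU δ hδ0)
  have hbig : ∀ a b : ℝ, 0 < b → ∀ᶠ n : ℕ in atTop, a ≤ b * n := by
    intro a b hb
    have := (tendsto_natCast_atTop_atTop (R := ℝ)).eventually_ge_atTop (a / b)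
    filter_upwards [this] with n hn
    rw [div_le_iff₀ hb] at hn
    linarith
  filter_upwards [hU', hbig (2 * m + 3 * c) (c * ρ / 4) (by positivity),
    hbig 3 ρ hρ, hbig (2 * m * K) (ε / 4) (by positivity)] with n hn1 hn2 hn3 hn4
  intro x hx y hy R hR
  obtain ⟨r, hr⟩ : ∃ r : ℕ, r = ⌊ρ * n⌋₊ - 2 := ⟨_, rfl⟩
  have hn0 : (0 : ℝ) ≤ n := Nat.cast_nonneg _
  have hρn : ρ * n ≤ n := by nlinarith
  have hfl1 : (⌊ρ * n⌋₊ : ℝ) ≤ ρ * n := Nat.floor_le (by positivity)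
  have hfl2 : ρ * n < ⌊ρ * n⌋₊ + 1 := Nat.lt_floor_add_one _
  have hfl3 : 3 ≤ ⌊ρ * n⌋₊ := Nat.le_floor (by exact_mod_cast hn3)
  have hr1 : (r : ℝ) = (⌊ρ * n⌋₊ : ℝ) - 2 := by
    rw [hr, Nat.cast_sub (by omega)]; norm_num
  have hr3 : r + 1 ≤ n := by
    have : (⌊ρ * n⌋₊ : ℝ) ≤ n := hfl1.trans hρn
    have : ⌊ρ * n⌋₊ ≤ n := by exact_mod_cast this
    omega
  have hD0 := dev_nonneg μ (2 * n) t
  push_cast at hn1
  have hballR : ∀ i ≤ K, ∀ z, n1 (z - ch x y K i) ≤ r → z ∈ R := by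
    intro i hi z hz
    apply hR
    refine ⟨(i / K : ℝ), by positivity, ?_, ?_⟩
    · rw [div_le_one hKR]; exact_mod_cast hi
    · have h1 := ch_close x y hK0 i
      have h2 := l1_add_le (toR z - toR (ch x y K i))
        (toR (ch x y K i) - ((1 - (i / K : ℝ)) • toR x + (i / K : ℝ) • toR y))
      rw [sub_add_sub_cancel] at h2
      have h3 : l1 (toR z - toR (ch x y K i)) ≤ r := by
        rw [← toR_sub, l1_toR]; exact_mod_cast hz
      linarith
  have hmem : ∀ i ≤ K, ch x y K i ∈ box n := fun i hi => ch_mem_box hK0 hi hx hy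
  have hmem2 : ∀ i ≤ K, ch x y K i ∈ box (2 * n) := fun i hi =>
    mem_box_of_near (k := 0) (hmem i hi) (z := ch x y K i) (by simp [n1]) (by omega)
  have hstep : ∀ i < K, Conn R (ch x y K i) (ch x y K (i + 1)) ∧
      pR t R (ch x y K i) (ch x y K (i + 1)) ≤
        (1 / K : ℝ) * μ (toR (y - x)) + 2 * m + dev μ (2 * n) t := by
    intro i hi
    have hs := ch_step_n1 x y hK0 i
    have hnn : (n1 (y - x) : ℝ) ≤ 4 * n := by
      exact_mod_cast n1_le_of_box hx hy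
    have hloc := local_eq (R := R) (μ := μ) ht hc hlow hup (N := 2 * n)
      (ρ := r) (x := ch x y K i) (y := ch x y K (i + 1)) (hmem2 (i + 1) hi)
      (fun z hz => mem_box_of_near (hmem i hi.le) hz (by omega))
      (fun z hz => hballR i hi.le z hz) (by
        have h1 : (n1 (ch x y K (i + 1) - ch x y K i) : ℝ) ≤ 4 * n / K + 2 := by
          refine hs.trans ?_
          gcongr
        have h2 := mul_le_mul_of_nonneg_left h1 hm
        have h3 : m * (4 * n / K + 2) ≤ c * ρ / 4 * n + 2 * m := by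
          have : m * (4 * n / K) ≤ c * ρ / 4 * n := by
            rw [mul_div_assoc', div_le_iff₀ hKR]
            calc m * (4 * n) = 4 * m * n := by ring
              _ ≤ c * ρ / 4 * K * n := by gcongr
              _ = _ := by ring
          linarith
        have h4 : dev μ (2 * n) t ≤ c * ρ / 16 * (2 * n) := by
          refine hn1.trans ?_
          gcongr
        have h5 : c * (ρ * n - 3) ≤ c * r := by
          gcongr
          rw [hr1]; linarith
        linarith)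
    refine ⟨hloc.1, ?_⟩
    rw [hloc.2]
    have h1 := le_dev μ t (n := 2 * n) (hmem2 i hi.le) (hmem2 (i + 1) hi)
    rw [abs_le] at h1
    have h2 := hlip (toR (ch x y K (i + 1) - ch x y K i)) ((1 / K : ℝ) • toR (y - x))
    have h3 := ch_step x y hK0 i
    have h4 := mul_le_mul_of_nonneg_left h3 hm
    rw [hhom _ (by positivity), abs_le] at h2
    linarith
  obtain ⟨hc1, hc2⟩ := pR_chain (R := R) ht (fun i => ch x y K i) K
    (hballR 0 (by omega) _ (by simp [n1])) (fun i hi => (hstep i hi).1)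
  simp only [ch_zero, ch_self x y hK0] at hc1 hc2
  refine ⟨hc1, hc2.trans ?_⟩
  calc ∑ i ∈ Finset.range K, pR t R (ch x y K i) (ch x y K (i + 1))
      ≤ ∑ _i ∈ Finset.range K, ((1 / K : ℝ) * μ (toR (y - x)) + 2 * m + dev μ (2 * n) t) :=
        Finset.sum_le_sum fun i hi => (hstep i (Finset.mem_range.1 hi)).2
    _ = μ (toR (y - x)) + 2 * m * K + K * dev μ (2 * n) t := by
        rw [Finset.sum_const, Finset.card_range, nsmul_eq_mul]
        field_simp
    _ ≤ μ (toR (y - x)) + ε / 4 * n + K * (δ * (2 * n)) := by gcongr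
    _ = μ (toR (y - x)) + ε / 4 * n + δ * K * (2 * n) := by ring
    _ ≤ μ (toR (y - x)) + ε / 4 * n + ε / 4 * (2 * n) := by gcongr
    _ ≤ _ := by
        have : 0 ≤ ε * n := by positivity
        linarith

/-! ### Local control in regions -/

lemma pR_row_cH {t : Environment} (ht : Nn t) {R : Set (ℤ × ℤ)} (a b : ℤ) (n : ℕ)
    (h : ∀ i : ℤ, a ≤ i → i ≤ a + n → M51.sbox (i, b) 3 ⊆ R) :
    Conn R (a, b) (a + n, b) ∧
      pR t R (a, b) (a + n, b) ≤ ∑ i ∈ Finset.Ico a (a + n), cH (i, b) t := by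
  induction n with
  | zero =>
    have h0 : (a, b) ∈ R := h a le_rfl (by simp) (mem_sbox_self _)
    simp [pR_self ht h0, Conn.refl h0]
  | succ n ih =>
    have h1 : Finset.Ico a (a + (n + 1 : ℕ)) = insert (a + n) (Finset.Ico a (a + n)) := by
      ext i; simp only [Finset.mem_Ico, Finset.mem_insert]; push_cast; omega
    obtain ⟨i1, i2⟩ := ih fun i hi1 hi2 => h i hi1 (by push_cast; omega)
    have hs := h (a + n) (by omega) (by push_cast; omega)
    have h4 : ((a + n, b) : ℤ × ℤ) + (1, 0) = (a + (n + 1 : ℕ), b) := by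
      simp [add_assoc]
    have hc := Conn.adj (adj_add_right (a + (n : ℤ), b)) (mem_sbox_self _) (mem_sbox_right _)
    have h3 := pR_anti ht hs hc
    have hc' := hc.mono hs
    rw [h4] at h3 hc'
    have h2 := pR_triangle ht i1 hc'
    refine ⟨i1.trans hc', ?_⟩
    rw [h1, Finset.sum_insert (by simp)]
    have h5 : cH (a + (n : ℤ), b) t = pR t (M51.sbox (a + n, b) 3) (a + n, b)
      (a + (n + 1 : ℕ), b) := by
      unfold cH; rw [h4]
    linarith

lemma pR_col_cV {t : Environment} (ht : Nn t) {R : Set (ℤ × ℤ)} (a b : ℤ) (n : ℕ)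
    (h : ∀ i : ℤ, b ≤ i → i ≤ b + n → M51.sbox (a, i) 3 ⊆ R) :
    Conn R (a, b) (a, b + n) ∧
      pR t R (a, b) (a, b + n) ≤ ∑ i ∈ Finset.Ico b (b + n), cV (a, i) t := by
  induction n with
  | zero =>
    have h0 : (a, b) ∈ R := h b le_rfl (by simp) (mem_sbox_self _)
    simp [pR_self ht h0, Conn.refl h0]
  | succ n ih =>
    have h1 : Finset.Ico b (b + (n + 1 : ℕ)) = insert (b + n) (Finset.Ico b (b + n)) := by
      ext i; simp only [Finset.mem_Ico, Finset.mem_insert]; push_cast; omega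
    obtain ⟨i1, i2⟩ := ih fun i hi1 hi2 => h i hi1 (by push_cast; omega)
    have hs := h (b + n) (by omega) (by push_cast; omega)
    have h4 : ((a, b + n) : ℤ × ℤ) + (0, 1) = (a, b + (n + 1 : ℕ)) := by
      simp [add_assoc]
    have hc := Conn.adj (adj_add_up (a, b + (n : ℤ))) (mem_sbox_self _) (mem_sbox_up _)
    have h3 := pR_anti ht hs hc
    have hc' := hc.mono hs
    rw [h4] at h3 hc'
    have h2 := pR_triangle ht i1 hc'
    refine ⟨i1.trans hc', ?_⟩
    rw [h1, Finset.sum_insert (by simp)]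
    have h5 : cV (a, b + (n : ℤ)) t = pR t (M51.sbox (a, b + n) 3) (a, b + n)
      (a, b + (n + 1 : ℕ)) := by
      unfold cV; rw [h4]
    linarith

/-- points whose box of radius 3 is contained in `R` -/
def Ri (R : Set (ℤ × ℤ)) : Set (ℤ × ℤ) := {z | M51.sbox z 3 ⊆ R}

/-- **Almost sure local control in regions** (L-shaped path at distance 3 from the boundary). -/
theorem as_ctlR (hG : M51.Law213 G) : ∃ A : ℝ, 0 ≤ A ∧ ∀ η : ℝ, 0 < η →
    ∀ᵐ t ∂(iidLaw G), ∀ᶠ n : ℕ in atTop, ∀ x ∈ box n, ∀ y ∈ box n, ∀ R : Set (ℤ × ℤ),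
      LIn (Ri R) x y → Conn R x y ∧ pR t R x y ≤ A * n1 (y - x) + η * n := by
  have hfH := field_cH hG
  have hfV := field_cV hG
  have hA1 := hfH.cA_nonneg hG.h0
  have hA2 := hfV.cA_nonneg hG.h0
  refine ⟨Field.cA G cH + Field.cA G cV, by positivity, fun η hη => ?_⟩
  filter_upwards [hfH.as_line hG.h0 (fun b i => (i, b)) (fun b i j h => Or.inl h)
    (half_pos hη), hfV.as_line hG.h0 (fun a i => (a, i)) (fun a i j h => Or.inr h)
    (half_pos hη), ae_Nn (G := G) hG.h0] with t h1 h2 ht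
  filter_upwards [h1, h2] with n hn1 hn2
  intro x hx y hy R hR
  obtain ⟨a, b⟩ := x
  obtain ⟨u, v⟩ := y
  rw [mem_box] at hx hy
  simp only at hx hy
  obtain ⟨hR1, hR2⟩ := hR
  simp only at hR1 hR2
  have hrow : Conn R (a, b) (u, b) ∧
      pR t R (a, b) (u, b) ≤ Field.cA G cH * (u - a).natAbs + η / 2 * n := by
    have key : ∀ a c : ℤ, a ≤ c → -(n : ℤ) ≤ a → c ≤ n →
        (∀ i : ℤ, a ≤ i → i ≤ c → (i, b) ∈ Ri R) →
        Conn R (a, b) (c, b) ∧
        pR t R (a, b) (c, b) ≤ Field.cA G cH * (c - a).natAbs + η / 2 * n := by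
      intro a c hac ha hc' hi
      obtain ⟨h0, h1⟩ := pR_row_cH (R := R) ht a b (c - a).toNat (by
        intro i hi1 hi2
        exact hi i hi1 (by omega))
      have h3 := hn1 b (by rw [abs_le]; omega) a (c - a).toNat ha (by omega)
      rw [Int.toNat_of_nonneg (by omega), add_sub_cancel] at h0 h1 h3
      have h4 : (((c - a).toNat : ℕ) : ℝ) = (((c - a).natAbs : ℕ) : ℝ) := by
        congr 1; omega
      rw [h4] at h3
      exact ⟨h0, by linarith⟩
    rcases le_total a u with hac | hac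
    · exact key a u hac hx.1.1 hy.1.2 fun i h1 h2 => hR1 i (Or.inl ⟨h1, h2⟩)
    · have := key u a hac hy.1.1 hx.1.2 fun i h1 h2 => hR1 i (Or.inr ⟨h1, h2⟩)
      rw [pR_symm ht, show (u - a).natAbs = (a - u).natAbs by omega]
      exact ⟨this.1.symm, this.2⟩
  have hcol : Conn R (u, b) (u, v) ∧
      pR t R (u, b) (u, v) ≤ Field.cA G cV * (v - b).natAbs + η / 2 * n := by
    have key : ∀ b d : ℤ, b ≤ d → -(n : ℤ) ≤ b → d ≤ n →
        (∀ i : ℤ, b ≤ i → i ≤ d → (u, i) ∈ Ri R) →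
        Conn R (u, b) (u, d) ∧
        pR t R (u, b) (u, d) ≤ Field.cA G cV * (d - b).natAbs + η / 2 * n := by
      intro b d hbd hb hd' hi
      obtain ⟨h0, h1⟩ := pR_col_cV (R := R) ht u b (d - b).toNat (by
        intro i hi1 hi2
        exact hi i hi1 (by omega))
      have h3 := hn2 u (by rw [abs_le]; omega) b (d - b).toNat hb (by omega)
      rw [Int.toNat_of_nonneg (by omega), add_sub_cancel] at h0 h1 h3
      have h4 : (((d - b).toNat : ℕ) : ℝ) = (((d - b).natAbs : ℕ) : ℝ) := by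
        congr 1; omega
      rw [h4] at h3
      exact ⟨h0, by linarith⟩
    rcases le_total b v with hbd | hbd
    · exact key b v hbd hx.2.1 hy.2.2 fun i h1 h2 => hR2 i (Or.inl ⟨h1, h2⟩)
    · have := key v b hbd hy.2.1 hx.2.2 fun i h1 h2 => hR2 i (Or.inr ⟨h1, h2⟩)
      rw [pR_symm ht, show (v - b).natAbs = (b - v).natAbs by omega]
      exact ⟨this.1.symm, this.2⟩
  refine ⟨hrow.1.trans hcol.1, ?_⟩
  have htri := pR_triangle ht hrow.1 hcol.1
  have hn1' : (n1 ((u, v) - (a, b)) : ℝ) = ((u - a).natAbs : ℝ) + ((v - b).natAbs : ℝ) := by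
    simp only [n1, Prod.mk_sub_mk]
    push_cast
    rfl
  rw [hn1']
  have q1 : (0 : ℝ) ≤ ((u - a).natAbs : ℝ) := Nat.cast_nonneg _
  have q2 : (0 : ℝ) ≤ ((v - b).natAbs : ℝ) := Nat.cast_nonneg _
  have r1 := hrow.2
  have r2 := hcol.2
  nlinarith [mul_nonneg hA1 q2, mul_nonneg hA2 q1]

theorem as_ctlR' (hG : M51.Law213 G) : ∃ A : ℝ, 0 ≤ A ∧ ∀ᵐ t ∂(iidLaw G), ∀ η : ℝ, 0 < η →
    ∀ᶠ n : ℕ in atTop, ∀ x ∈ box n, ∀ y ∈ box n, ∀ R : Set (ℤ × ℤ),
      LIn (Ri R) x y → Conn R x y ∧ pR t R x y ≤ A * n1 (y - x) + η * n := by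
  obtain ⟨A, hA, h⟩ := as_ctlR hG
  refine ⟨A, hA, ?_⟩
  have h' := ae_all_iff.2 fun i : ℕ => h (1 / ((i : ℝ) + 1)) (by positivity)
  filter_upwards [h'] with t ht η hη
  obtain ⟨i, hi⟩ := exists_nat_one_div_lt hη
  filter_upwards [ht i] with n hn x hx y hy R hR
  refine ⟨(hn x hx y hy R hR).1, (hn x hx y hy R hR).2.trans ?_⟩
  gcongr


/-! ### Boundary cells -/

lemma sup_small {u : ℕ → ℝ} (hu : Tendsto (fun n => u n / n) atTop (nhds 0)) {η : ℝ}
    (hη : 0 < η) : ∀ᶠ n : ℕ in atTop, ∀ k ≤ n, |u k| ≤ η * n := by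
  have h1 := (hu.abs.eventually_lt_const (show |(0 : ℝ)| < η by rwa [abs_zero]))
  rw [eventually_atTop] at h1
  obtain ⟨N, hN⟩ := h1
  have h2 := (tendsto_natCast_atTop_atTop (R := ℝ)).eventually_ge_atTop
    ((∑ k ∈ Finset.range (N + 1), |u k|) / η)
  filter_upwards [h2] with n hn k hk
  rw [div_le_iff₀ hη] at hn
  rcases le_or_gt k N with hkN | hkN
  · have := Finset.single_le_sum (f := fun k => |u k|) (fun i _ => abs_nonneg _)
      (Finset.mem_range.2 (Nat.lt_succ_of_le hkN))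
    linarith
  · have h3 := hN k hkN.le
    have hk0 : (0 : ℝ) < k := by
      have : 0 < k := by omega
      exact_mod_cast this
    rw [abs_div, abs_of_pos hk0, div_lt_iff₀ hk0] at h3
    have : (k : ℝ) ≤ n := by exact_mod_cast hk
    nlinarith

lemma incr_small {Ω : Type*} [MeasurableSpace Ω] {P : Measure Ω} [IsProbabilityMeasure P]
    {τ : Ω → Ω} (hτ : Ergodic τ P) {f : Ω → ℝ} (hf : Measurable f) (hfi : Integrable f P) :
    ∀ᵐ ω ∂P, Tendsto (fun N : ℕ => f (τ^[N] ω) / N) atTop (nhds 0) := by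
  filter_upwards [R88.birkhoff_real hτ hf hfi] with ω hω'
  have hω : Tendsto (fun N : ℕ => (∑ i ∈ Finset.range N, f (τ^[i] ω)) / N) atTop
      (nhds (∫ ω, f ω ∂P)) := by
    refine hω'.congr fun N => ?_
    rw [birkhoffSum, inv_mul_eq_div]
  have h1 := hω.comp (tendsto_add_atTop_nat 1)
  have h2 : Tendsto (fun N : ℕ => ((N + 1 : ℕ) : ℝ) / N) atTop (nhds 1) := by
    have : Tendsto (fun N : ℕ => 1 + 1 / (N : ℝ)) atTop (nhds (1 + 0)) :=
      tendsto_const_nhds.add tendsto_one_div_atTop_nhds_zero_nat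
    rw [add_zero] at this
    refine this.congr' ?_
    filter_upwards [eventually_gt_atTop 0] with N hN
    have : (0 : ℝ) < N := by exact_mod_cast hN
    push_cast
    field_simp
  have h3 := (h1.mul h2).sub hω
  rw [mul_one, sub_self] at h3
  refine h3.congr' ?_
  filter_upwards [eventually_gt_atTop 0] with N hN
  have hN' : (0 : ℝ) < N := by exact_mod_cast hN
  have hN1 : (0 : ℝ) < ((N + 1 : ℕ) : ℝ) := by positivity
  simp only [Function.comp_apply, Finset.sum_range_succ]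
  field_simp
  ring

/-- A stationary integrable sequence along a line is almost surely `o(n)` on `[-n, n]`. -/
lemma as_small {z : ℤ × ℤ} (hz : z ≠ 0) {U : ℤ → Environment → ℝ}
    (hU : ∀ a t, U a t = U 0 (A.shift (a • z) t)) (hm : Measurable (U 0))
    (hi : Integrable (U 0) (iidLaw G)) :
    ∀ᵐ t ∂(iidLaw G), ∀ η : ℝ, 0 < η → ∀ᶠ n : ℕ in atTop, ∀ a : ℤ, |a| ≤ n → |U a t| ≤ η * n := by
  filter_upwards [incr_small (ergodic_shift (G := G) hz) hm hi,
    incr_small (ergodic_shift (G := G) (neg_ne_zero.2 hz)) hm hi] with t h1 h2 η hη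
  have h3 : Tendsto (fun n : ℕ => U (n : ℤ) t / n) atTop (nhds 0) := by
    refine h1.congr fun n => ?_
    rw [shift_iterate, hU n t, natCast_zsmul]
  have h4 : Tendsto (fun n : ℕ => U (-(n : ℤ)) t / n) atTop (nhds 0) := by
    refine h2.congr fun n => ?_
    rw [shift_iterate, hU (-n) t, neg_smul, natCast_zsmul, smul_neg]
  filter_upwards [sup_small h3 hη, sup_small h4 hη] with n hn1 hn2 a ha
  rw [abs_le] at ha
  rcases le_total 0 a with h | h
  · have := hn1 a.toNat (by omega)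
    rwa [Int.toNat_of_nonneg h] at this
  · have := hn2 (-a).toNat (by omega)
    rwa [Int.toNat_of_nonneg (by omega), neg_neg] at this

/-! ### Half-planes -/

lemma half_preimage (k a : ℤ) :
    (fun u : ℤ × ℤ => u + (a, 0)) ⁻¹' {z : ℤ × ℤ | k ≤ z.2} = {z : ℤ × ℤ | k ≤ z.2} := by
  ext u; simp

lemma pR_half_shift (k a : ℤ) (t : Environment) (x y : ℤ × ℤ) :
    pR (A.shift (a, 0) t) {z : ℤ × ℤ | k ≤ z.2} x y
      = pR t {z : ℤ × ℤ | k ≤ z.2} (x + (a, 0)) (y + (a, 0)) := by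
  have := pR_tr t (a, 0) {z : ℤ × ℤ | k ≤ z.2} x y
  rw [half_preimage] at this
  exact this

lemma conn_half {k : ℤ} {x y : ℤ × ℤ} (hx : k ≤ x.2) (hy : k ≤ y.2) :
    Conn {z : ℤ × ℤ | k ≤ z.2} x y :=
  (conn_prod (A := Set.univ) (B := Set.Ici k) Set.ordConnected_univ Set.ordConnected_Ici
    ⟨trivial, hx⟩ ⟨trivial, hy⟩).mono fun _ hz => hz.2

lemma regMom_half (hG : M51.Law213 G) (k : ℤ) :
    RegMom G {z : ℤ × ℤ | k ≤ z.2} (cM G) :=
  regMom_row hG (M51.thick_Ici k) Set.ordConnected_Ici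

/-- the lifts of the boundary rows -/
lemma as_lift (hG : M51.Law213 G) (k : ℤ) :
    ∀ᵐ t ∂(iidLaw G), ∀ η : ℝ, 0 < η → ∀ᶠ n : ℕ in atTop, ∀ x ∈ box n, k ≤ x.2 → x.2 ≤ k + 3 →
      pR t {z : ℤ × ℤ | k ≤ z.2} x (x.1, k + 3) ≤ η * n := by
  have h : ∀ b ∈ Finset.Icc k (k + 3), ∀ᵐ t ∂(iidLaw G), ∀ η : ℝ, 0 < η → ∀ᶠ n : ℕ in atTop,
      ∀ a : ℤ, |a| ≤ n → |pR t {z : ℤ × ℤ | k ≤ z.2} (a, b) (a, k + 3)| ≤ η * n := by
    intro b hb
    rw [Finset.mem_Icc] at hb
    refine as_small (z := (1, 0)) (by simp)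
      (U := fun a t => pR t {z : ℤ × ℤ | k ≤ z.2} (a, b) (a, k + 3)) ?_ (measurable_pR _ _ _) ?_
    · intro a t
      have : (a • ((1 : ℤ), (0 : ℤ))) = (a, 0) := by ext <;> simp
      rw [this, pR_half_shift]
      simp
    · exact (regMom_half hG k).int _ hb.1 _ (by simp)
  have h' := (ae_ball_iff (Finset.countable_toSet _)).2 h
  filter_upwards [h'] with t ht η hη
  have h2 : ∀ᶠ n : ℕ in atTop, ∀ b ∈ Finset.Icc k (k + 3), ∀ a : ℤ, |a| ≤ n →
      |pR t {z : ℤ × ℤ | k ≤ z.2} (a, b) (a, k + 3)| ≤ η * n := by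
    rw [eventually_all_finset]
    intro b hb
    exact ht b hb η hη
  filter_upwards [h2] with n hn x hx hx1 hx2
  rw [mem_box] at hx
  have := hn x.2 (Finset.mem_Icc.2 ⟨hx1, hx2⟩) x.1 (by rw [abs_le]; exact hx.1)
  exact (le_abs_self _).trans this

/-- **Almost sure local control in half-planes**, boundary included. -/
theorem as_half_ctl (hG : M51.Law213 G) : ∃ A : ℝ, 0 ≤ A ∧ ∀ᵐ t ∂(iidLaw G), ∀ k : ℤ,
    ∀ η : ℝ, 0 < η → ∀ᶠ n : ℕ in atTop, ∀ x ∈ box n, ∀ y ∈ box n, k ≤ x.2 → k ≤ y.2 →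
      pR t {z : ℤ × ℤ | k ≤ z.2} x y ≤ A * n1 (y - x) + η * n := by
  obtain ⟨A, hA, h⟩ := as_ctlR' hG
  refine ⟨A, hA, ?_⟩
  filter_upwards [h, ae_all_iff.2 fun k => as_lift hG k, ae_Nn (G := G) hG.h0] with t h1 h2 ht
  intro k η hη
  filter_upwards [h1 (η / 3) (by positivity), h2 k (η / 3) (by positivity),
    eventually_ge_atTop (k + 3).natAbs] with n hn1 hn2 hnk
  intro x hx y hy hkx hky
  obtain ⟨x', hx'⟩ : ∃ x' : ℤ × ℤ, x' = (x.1, max x.2 (k + 3)) := ⟨_, rfl⟩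
  obtain ⟨y', hy'⟩ : ∃ y' : ℤ × ℤ, y' = (y.1, max y.2 (k + 3)) := ⟨_, rfl⟩
  have hlift : ∀ u ∈ box n, k ≤ u.2 → ∀ u' : ℤ × ℤ, u' = (u.1, max u.2 (k + 3)) →
      pR t {z : ℤ × ℤ | k ≤ z.2} u u' ≤ η / 3 * n ∧ u' ∈ box n ∧ k + 3 ≤ u'.2 := by
    intro u hu hku u' hu'
    have hub := mem_box.1 hu
    refine ⟨?_, ?_, by rw [hu']; exact le_max_right _ _⟩
    · rcases le_total u.2 (k + 3) with h | h
      · have := hn2 u hu hku h
        rwa [hu', max_eq_right h]
      · have : u' = u := by rw [hu', max_eq_left h]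
        rw [this, pR_self ht (by exact hku)]
        positivity
    · rw [mem_box, hu']
      simp only
      have : (((k + 3).natAbs : ℕ) : ℤ) ≤ n := by exact_mod_cast hnk
      omega
  obtain ⟨a1, a2, a3⟩ := hlift x hx hkx x' hx'
  obtain ⟨b1, b2, b3⟩ := hlift y hy hky y' hy'
  have hRi : ∀ z : ℤ × ℤ, k + 3 ≤ z.2 → z ∈ Ri {z : ℤ × ℤ | k ≤ z.2} := by
    intro z hz u hu
    simp only [M51.sbox, Set.mem_ofPred_eq, abs_le] at hu
    simp only [Set.mem_ofPred_eq]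
    omega
  have hmid := (hn1 x' a2 y' b2 {z : ℤ × ℤ | k ≤ z.2} ⟨fun i _ => hRi _ a3, fun i hi => hRi _ (by
    simp only
    rcases hi with hi | hi <;> omega)⟩).2
  have hn1' : (n1 (y' - x') : ℝ) ≤ n1 (y - x) := by
    have : n1 (y' - x') ≤ n1 (y - x) := by
      simp only [n1, hx', hy', Prod.fst_sub, Prod.snd_sub]
      omega
    exact_mod_cast this
  have t1 := pR_triangle ht (conn_half hkx (show k ≤ x'.2 by omega))
    (conn_half (show k ≤ x'.2 by omega) (show k ≤ y'.2 by omega))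
  have t2 := pR_triangle ht (conn_half hkx (show k ≤ y'.2 by omega))
    (conn_half (show k ≤ y'.2 by omega) hky)
  rw [pR_symm ht _ y' y] at t2
  have : A * n1 (y' - x') ≤ A * n1 (y - x) := by gcongr
  linarith

namespace Mom

variable (hM : Mom G m) (hμ : IsTC1 G μ)
include hM hμ

/-- **Interior shape theorem in regions.** -/
theorem as_interior (hz : G {0} = 0) (hG : M51.Law213 G) :
    ∀ᵐ t ∂(iidLaw G), ∀ ρ ε : ℝ, 0 < ρ → 0 < ε →
    ∀ᶠ n : ℕ in atTop, ∀ x ∈ box n, ∀ y ∈ box n, ∀ R : Set (ℤ × ℤ),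
      (∀ z : ℤ × ℤ, (∃ s : ℝ, 0 ≤ s ∧ s ≤ 1 ∧
        l1 (toR z - ((1 - s) • toR x + s • toR y)) ≤ ρ * n) → z ∈ R) →
      Conn R x y ∧ pR t R x y ≤ μ (toR (y - x)) + ε * n := by
  obtain ⟨c, hc, hlow⟩ := hM.exists_mu_ge hμ hz
  filter_upwards [hM.as_ushape hμ hG, ae_Nn (G := G) hG.h0] with t h1 ht ρ ε hρ hε
  exact interior_det ht hc hM.nonneg hlow (fun v => hM.mu_le hμ v)
    (fun v w => hM.abs_mu_sub_le hμ v w) (fun s hs v => hM.mu_smul hμ hs v) h1 hρ hε

/-- **The almost sure two-point shape theorem in half-planes**, boundary included. -/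
theorem as_half_shape (hz : G {0} = 0) (hG : M51.Law213 G) :
    ∀ᵐ t ∂(iidLaw G), ∀ k : ℤ, ∀ ε : ℝ, 0 < ε → ∀ᶠ n : ℕ in atTop, ∀ x ∈ box n, ∀ y ∈ box n,
      k ≤ x.2 → k ≤ y.2 →
      |pR t {z : ℤ × ℤ | k ≤ z.2} x y - μ (toR (y - x))| ≤ ε * n := by
  have hm := hM.nonneg
  obtain ⟨A, hA, hctl⟩ := as_half_ctl hG
  filter_upwards [hctl, hM.as_interior hμ hz hG, hM.as_ushape hμ hG,
    ae_Nn (G := G) hG.h0] with t h1 h2 h3 ht
  intro k ε hε
  obtain ⟨ρ, hρ0, hρ1, hρ2⟩ : ∃ ρ : ℝ, 0 < ρ ∧ ρ ≤ 1 ∧ 2 * A * ρ ≤ ε / 8 := by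
    refine ⟨min 1 (ε / 8 / (2 * A + 1)), by positivity, min_le_left _ _, ?_⟩
    calc 2 * A * min 1 (ε / 8 / (2 * A + 1)) ≤ (2 * A + 1) * (ε / 8 / (2 * A + 1)) := by
          gcongr
          · linarith
          · exact min_le_right _ _
      _ = ε / 8 := by field_simp
  have hctl' : ∀ᶠ n : ℕ in atTop, ∀ x ∈ box (2 * n), ∀ y ∈ box (2 * n), k ≤ x.2 → k ≤ y.2 →
      pR t {z : ℤ × ℤ | k ≤ z.2} x y ≤ A * n1 (y - x) + ε / 32 * (2 * n : ℕ) :=
    (tendsto_id.const_mul_atTop' (by norm_num : 0 < 2)).eventually (h1 k (ε / 32) (by positivity))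
  have hint' : ∀ᶠ n : ℕ in atTop, ∀ x ∈ box (2 * n), ∀ y ∈ box (2 * n), ∀ R : Set (ℤ × ℤ),
      (∀ z : ℤ × ℤ, (∃ s : ℝ, 0 ≤ s ∧ s ≤ 1 ∧
        l1 (toR z - ((1 - s) • toR x + s • toR y)) ≤ ρ / 4 * (2 * n : ℕ)) → z ∈ R) →
      Conn R x y ∧ pR t R x y ≤ μ (toR (y - x)) + ε / 8 * (2 * n : ℕ) :=
    (tendsto_id.const_mul_atTop' (by norm_num : 0 < 2)).eventually
      (h2 (ρ / 4) (ε / 8) (by positivity) (by positivity))
  have hbig := (tendsto_natCast_atTop_atTop (R := ℝ)).eventually_ge_atTop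
    ((|(k : ℝ)| + 2) / (ρ / 2))
  filter_upwards [hctl', hint', h3 ε hε, hbig] with n hn1 hn2 hn3 hn4
  rw [div_le_iff₀ (by positivity)] at hn4
  intro x hx y hy hkx hky
  have hn0 : (0 : ℝ) ≤ n := Nat.cast_nonneg _
  have hxR : (k : ℝ) ≤ x.2 := by exact_mod_cast hkx
  have hyR : (k : ℝ) ≤ y.2 := by exact_mod_cast hky
  have hxb := mem_box.1 hx
  have hyb := mem_box.1 hy
  obtain ⟨h, hh⟩ : ∃ h : ℕ, h = ⌊ρ * n⌋₊ := ⟨_, rfl⟩
  have hh1 : (h : ℝ) ≤ ρ * n := by rw [hh]; exact Nat.floor_le (by positivity)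
  have hh2 : ρ * n < h + 1 := by rw [hh]; exact Nat.lt_floor_add_one _
  have hh3 : h ≤ n := by
    have : (h : ℝ) ≤ n := by nlinarith
    exact_mod_cast this
  obtain ⟨x', hx'⟩ : ∃ x' : ℤ × ℤ, x' = x + (0, (h : ℤ)) := ⟨_, rfl⟩
  obtain ⟨y', hy'⟩ : ∃ y' : ℤ × ℤ, y' = y + (0, (h : ℤ)) := ⟨_, rfl⟩
  have mx : x ∈ box (2 * n) := by rw [mem_box]; push_cast; omega
  have my : y ∈ box (2 * n) := by rw [mem_box]; push_cast; omega
  have mx' : x' ∈ box (2 * n) := by
    rw [mem_box, hx']; simp only [Prod.fst_add, Prod.snd_add]; push_cast; omega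
  have my' : y' ∈ box (2 * n) := by
    rw [mem_box, hy']; simp only [Prod.fst_add, Prod.snd_add]; push_cast; omega
  have kx' : k ≤ x'.2 := by rw [hx']; simp only [Prod.snd_add]; omega
  have ky' : k ≤ y'.2 := by rw [hy']; simp only [Prod.snd_add]; omega
  have a1 := hn1 x mx x' mx' hkx kx'
  have a2 := hn1 y my y' my' hky ky'
  have n1x : (n1 (x' - x) : ℝ) = h := by
    rw [hx', add_sub_cancel_left]; simp [n1]
  have n1y : (n1 (y' - y) : ℝ) = h := by
    rw [hy', add_sub_cancel_left]; simp [n1]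
  have a3 := (hn2 x' mx' y' my' {z : ℤ × ℤ | k ≤ z.2} (by
    rintro z ⟨s, hs0, hs1, hs2⟩
    simp only [Set.mem_ofPred_eq]
    have e1 : |(z.2 : ℝ) - ((1 - s) * x'.2 + s * y'.2)| ≤ ρ / 4 * (2 * n : ℕ) := by
      refine le_trans ?_ hs2
      simp only [l1, toR, Prod.snd_sub, Prod.snd_add, Prod.smul_snd, smul_eq_mul, Prod.fst_sub,
        Prod.fst_add, Prod.smul_fst]
      have := abs_nonneg ((z.1 : ℝ) - ((1 - s) * x'.1 + s * y'.1))
      linarith
    have e2 : (x'.2 : ℝ) = x.2 + h := by rw [hx']; simp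
    have e3 : (y'.2 : ℝ) = y.2 + h := by rw [hy']; simp
    have e4 : (k : ℝ) + h ≤ (1 - s) * x'.2 + s * y'.2 := by
      rw [e2, e3]
      have q1 : 0 ≤ (1 - s) * (x.2 - k) := mul_nonneg (by linarith) (by linarith)
      have q2 : 0 ≤ s * ((y.2 : ℝ) - k) := mul_nonneg hs0 (by linarith)
      nlinarith
    rw [abs_le] at e1
    push_cast at e1
    have e5 : (k : ℝ) ≤ z.2 := by
      have := neg_abs_le (k : ℝ)
      have := le_abs_self (k : ℝ)
      linarith [e1.1]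
    exact_mod_cast e5)).2
  have hyx : y' - x' = y - x := by rw [hx', hy']; abel
  rw [hyx] at a3
  have t1 := pR_triangle ht (conn_half hkx kx') (conn_half kx' ky')
  have t2 := pR_triangle ht (conn_half hkx ky') (conn_half ky' hky)
  rw [pR_symm ht _ y' y] at t2
  have low := pt_le_pR ht (conn_half hkx hky)
  have l2 := (le_dev μ t hx hy).trans hn3
  rw [abs_le] at l2 ⊢
  rw [n1x] at a1
  rw [n1y] at a2
  push_cast at a1 a2 a3
  have hAh : 2 * A * h ≤ ε / 8 * n := by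
    calc 2 * A * h ≤ 2 * A * (ρ * n) := by gcongr
      _ = 2 * A * ρ * n := by ring
      _ ≤ ε / 8 * n := by gcongr
  have hεn : 0 ≤ ε * n := by positivity
  constructor
  · linarith [l2.1]
  · linarith

end Mom

end Crest.Agent.R151.K
end

-- ▼ part R151/SL856d
section

/-!
# R151/SL856d — almost every environment satisfies `EnvOK` (owner helper856)

Input: `HalfUp μ t` a.e. (upper half of the two point shape theorem in the upper half plane, 507's
K9i).
-/

set_option autoImplicit false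

open Crest.ProbabilityR.FirstPassage
open Filter Set MeasureTheory
open scoped Topology

namespace Crest.Agent.R151.SL

open Y H K SEL

/-- upper half of the two point shape theorem in the upper half plane -/
def HalfUp (μ : ℝ × ℝ → ℝ) (t : Environment) : Prop :=
  ∀ ε : ℝ, 0 < ε → ∀ᶠ n : ℕ in atTop, ∀ x ∈ box n, ∀ y ∈ box n, 0 ≤ x.2 → 0 ≤ y.2 →
    pR t {z : ℤ × ℤ | 0 ≤ z.2} x y ≤ μ (toR (y - x)) + ε * n

theorem pt_up_shift (t : Environment) (k : ℤ) (x y : ℤ × ℤ) :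
    pt (reg (Up k)) t x y = pt (reg (Up 0)) (A.shift (0, k) t) (x - (0, k)) (y - (0, k)) := by
  have h := pt_shift (0, k) t (H := reg (Up 0)) (H' := reg (Up k)) (fun a b => by
    have := adj_Up_add 0 (0, k) a b
    simpa using this) (x - (0, k)) (y - (0, k))
  rw [h, sub_add_cancel, sub_add_cancel]

theorem bup_of_halfUp {μ : ℝ × ℝ → ℝ} {t : Environment} {k : ℤ}
    (h : HalfUp μ (A.shift (0, k) t)) : BUp μ t (Up k) k fun z => z.2 := by
  intro α ε hε δ hδ
  obtain ⟨N, hN⟩ := exists_nat_ge (|α| + 2)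
  have hN0 : (0 : ℝ) < N := by linarith [abs_nonneg α]
  have hN1 : 0 < N := by exact_mod_cast hN0
  have hN2 : 2 ≤ N := by
    have : (2 : ℝ) ≤ N := by linarith [abs_nonneg α]
    exact_mod_cast this
  have h1 := h (ε / N) (by positivity)
  have h2 : Tendsto (fun n : ℕ => N * n) atTop atTop := by
    exact tendsto_id.const_mul_atTop' hN1
  have h3 : ∀ᶠ n : ℕ in atTop, (k : ℝ) ≤ δ * n := by
    have : Tendsto (fun n : ℕ => δ * (n : ℝ)) atTop atTop :=
      tendsto_natCast_atTop_atTop.const_mul_atTop hδ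
    exact this.eventually_ge_atTop _
  filter_upwards [h2.eventually h1, h3, eventually_ge_atTop (k.natAbs + 1)] with n hn hk hkn y hy hδy
  have hyk : k ≤ y.2 := by
    have : (k : ℝ) ≤ y.2 := hk.trans hδy
    exact_mod_cast this
  rw [mem_box] at hy
  have hα : |(⌊α * n⌋ : ℤ)| ≤ (N * n : ℕ) := by
    have h4 : |(⌊α * (n : ℝ)⌋ : ℝ)| ≤ |α| * n + 1 := by
      have e1 := Int.floor_le (α * (n : ℝ))
      have e2 := Int.lt_floor_add_one (α * (n : ℝ))
      have e3 : |α * (n : ℝ)| = |α| * n := by rw [abs_mul, Nat.abs_cast]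
      have e4 := abs_le.1 e3.le
      rw [abs_le]
      constructor <;> linarith
    have h5 : (1 : ℝ) ≤ n := by
      have : 1 ≤ n := by omega
      exact_mod_cast this
    have h6 : |(⌊α * (n : ℝ)⌋ : ℝ)| ≤ (N : ℝ) * n := by
      refine h4.trans ?_
      nlinarith
    have h7 : ((|⌊α * (n : ℝ)⌋| : ℤ) : ℝ) ≤ ((N * n : ℕ) : ℝ) := by
      push_cast
      exact h6
    exact_mod_cast h7
  have hNn : n + n ≤ N * n := by nlinarith
  have hNn' : (n : ℤ) + n ≤ ((N * n : ℕ) : ℤ) := by exact_mod_cast hNn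
  have m1 : ((⌊α * n⌋, k) : ℤ × ℤ) - (0, k) ∈ box (N * n) := by
    rw [mem_box]
    rw [abs_le] at hα
    simp only [Prod.mk_sub_mk, sub_zero, sub_self]
    omega
  have m2 : y - (0, k) ∈ box (N * n) := by
    rw [mem_box]
    simp only [Prod.fst_sub, Prod.snd_sub, sub_zero]
    omega
  have h8 := hn _ m1 _ m2 (by simp) (by simp only [Prod.snd_sub]; omega)
  rw [pt_up_shift]
  have e : pR (A.shift (0, k) t) {z : ℤ × ℤ | 0 ≤ z.2} ((⌊α * n⌋, k) - (0, k)) (y - (0, k)) =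
      pt (reg (Up 0)) (A.shift (0, k) t) ((⌊α * n⌋, k) - (0, k)) (y - (0, k)) :=
    pR_eq_pt (R := Up 0) (x := (⌊α * n⌋, k) - (0, k)) (by simp) _
  rw [← e]
  refine h8.trans (le_of_eq ?_)
  rw [sub_sub_sub_cancel_right]
  congr 1
  push_cast
  field_simp

theorem mu_ry {μ : ℝ × ℝ → ℝ} (hμ : B710.NormLike μ) (hrefl : ∀ x y, μ (-x, y) = μ (x, y))
    (x y : ℝ) : μ (x, -y) = μ (x, y) := by
  have h1 := hμ.neg (x, -y)
  simp only [Prod.neg_mk, neg_neg] at h1
  rw [← h1, hrefl]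

theorem bdn_of_halfUp {μ : ℝ × ℝ → ℝ} (hμ : B710.NormLike μ)
    (hrefl : ∀ x y, μ (-x, y) = μ (x, y)) {t : Environment} {k : ℤ}
    (h : BUp μ (N.refl t) (Up (-k)) (-k) fun z => z.2) : BUp μ t (Dn k) k fun z => -z.2 := by
  intro α ε hε δ hδ
  filter_upwards [h α ε hε δ hδ] with n hn y hy hδy
  have hy' : ((y.1, -y.2) : ℤ × ℤ) ∈ box n := by
    rw [mem_box] at hy ⊢
    simp only
    omega
  have h1 := hn (y.1, -y.2) hy' hδy
  rw [RFL.pt_dn]
  refine h1.trans (le_of_eq ?_)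
  congr 1
  have : toR ((y.1, -y.2) - (⌊α * (n : ℝ)⌋, -k)) =
      (((y.1 : ℝ) - ⌊α * (n : ℝ)⌋), -((y.2 : ℝ) - k)) := by
    unfold toR
    simp only [Prod.mk_sub_mk]
    push_cast
    refine Prod.ext rfl ?_
    simp only
    ring
  rw [this, mu_ry hμ hrefl]
  unfold toR
  simp

section prob

variable {G : Measure ℝ} [IsProbabilityMeasure G]

/-- columns are bounded infinitely often, one direction -/
theorem ae_frequently_col (j k : ℤ) :
    ∀ᵐ t ∂(iidLaw G), ∃ M : ℕ, ∃ᶠ a : ℤ in atTop, passageTime t (a, j) (a, k) ≤ M := by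
  set f : ℤ → Environment → ℝ := fun a t => passageTime t (a, j) (a, k) with hf
  have hfm : ∀ a, Measurable (f a) := fun a => K.measurable_pt _ _
  have hlaw : ∀ a (S : Set ℝ), MeasurableSet S →
      iidLaw G (f a ⁻¹' S) = iidLaw G (f 0 ⁻¹' S) := by
    intro a S hS
    have h1 : f a ⁻¹' S = A.shift (a, 0) ⁻¹' (f 0 ⁻¹' S) := by
      ext t
      simp only [mem_preimage, hf]
      rw [passageTime_shift]
      simp
    rw [h1, (A.mp_shift G (a, 0)).measure_preimage ((hfm 0) hS).nullMeasurableSet]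
  -- probability of the complement
  have hbound : ∀ M : ℕ, iidLaw G {t | ¬ ∃ᶠ a : ℤ in atTop, f a t ≤ M} ≤
      iidLaw G (f 0 ⁻¹' Ioi (M : ℝ)) := by
    intro M
    have h1 : {t | ¬ ∃ᶠ a : ℤ in atTop, f a t ≤ M} = ⋃ n : ℕ, {t | ∀ a : ℤ, (n : ℤ) ≤ a → M < f a t} := by
      ext t
      simp only [mem_ofPred_eq, not_frequently, not_le, eventually_atTop, mem_iUnion]
      constructor
      · rintro ⟨b, hb⟩
        exact ⟨b.toNat, fun a ha => hb a (by omega)⟩
      · rintro ⟨n, hn⟩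
        exact ⟨n, hn⟩
    have hmono : Monotone fun n : ℕ => {t | ∀ a : ℤ, (n : ℤ) ≤ a → (M : ℝ) < f a t} := by
      intro n n' hnn t ht a ha
      exact ht a (by omega)
    rw [h1, hmono.measure_iUnion]
    refine iSup_le fun n => ?_
    rw [← hlaw n (Ioi (M : ℝ)) measurableSet_Ioi]
    exact measure_mono fun t ht => ht n le_rfl
  have hlim : Tendsto (fun M : ℕ => iidLaw G (f 0 ⁻¹' Ioi (M : ℝ))) atTop (𝓝 0) := by
    have h1 : (⋂ M : ℕ, f 0 ⁻¹' Ioi (M : ℝ)) = ∅ := by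
      ext t
      simp only [mem_iInter, mem_preimage, mem_Ioi, mem_empty_iff_false, iff_false, not_forall,
        not_lt]
      exact exists_nat_ge _
    rw [← measure_empty (μ := iidLaw G), ← h1]
    refine tendsto_measure_iInter_atTop (fun M => ((hfm 0) measurableSet_Ioi).nullMeasurableSet) ?_
      ⟨0, measure_ne_top _ _⟩
    intro M M' h t ht
    simp only [mem_preimage, mem_Ioi] at ht ⊢
    exact lt_of_le_of_lt (by exact_mod_cast h) ht
  rw [ae_iff]
  refine le_antisymm ?_ bot_le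
  refine ge_of_tendsto' hlim fun M => ?_
  refine le_trans (measure_mono ?_) (hbound M)
  intro t ht
  simp only [mem_ofPred_eq, not_exists] at ht
  exact ht M

theorem ae_col (j k : ℤ) : ∀ᵐ t ∂(iidLaw G),
    ∃ M : ℝ, (∃ᶠ a : ℤ in atTop, passageTime t (a, j) (a, k) ≤ M) ∧
      ∃ᶠ a : ℤ in atBot, passageTime t (a, j) (a, k) ≤ M := by
  have h1 := ae_frequently_col (G := G) j k
  -- the other direction by reflection
  have h2 : ∀ᵐ t ∂(iidLaw G), ∃ M : ℕ, ∃ᶠ a : ℤ in atTop,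
      passageTime (act ng t) (a, j) (a, k) ≤ M := (RFL.ae_act ng).2 h1
  filter_upwards [h1, h2] with t ⟨M, hM⟩ ⟨M', hM'⟩
  refine ⟨max M M', hM.mono fun a ha => ha.trans (le_max_left _ _), ?_⟩
  have h3 : ∃ᶠ a : ℤ in atTop, passageTime t (-a, j) (-a, k) ≤ M' := by
    refine hM'.mono fun a ha => ?_
    rw [RFL.passageTime_act] at ha
    simpa using ha
  have h4 : ∃ᶠ a : ℤ in atBot, passageTime t (a, j) (a, k) ≤ M' := by
    have := tendsto_neg_atTop_atBot (G := ℤ)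
    exact this.frequently h3
  exact h4.mono fun a ha => ha.trans (le_max_right _ _)

/-- **almost every environment is `EnvOK`** -/
theorem ae_envOK [NullSingletonClass G] {m : ℝ} {μ : ℝ × ℝ → ℝ} (hG : M51.Law213 G)
    (hM : Mom G m) (hμ : IsTC1 G μ) (hN : D411.SmoothNorm μ)
    (hhalf : ∀ᵐ t ∂(iidLaw G), HalfUp μ t) : ∀ᵐ t ∂(iidLaw G), EnvOK μ t := by
  have hat : ∀ x, G {x} = 0 := fun x => measure_singleton x
  have h1 := ae_noTies (G := G) hat
  have h2 := ae_Nn (G := G) hG.h0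
  have h3 := hM.as_ushape hμ hG
  have hup : ∀ᵐ t ∂(iidLaw G), ∀ k, BUp μ t (Up k) k fun z => z.2 := by
    rw [ae_all_iff]
    intro k
    have := (A.mp_shift G (0, k)).quasiMeasurePreserving.ae hhalf
    filter_upwards [this] with t ht
    exact bup_of_halfUp ht
  have hdn := RFL.ae_refl_of hup
  have hcol : ∀ᵐ t ∂(iidLaw G), ∀ j k : ℤ, ∃ M : ℝ,
      (∃ᶠ a : ℤ in atTop, passageTime t (a, j) (a, k) ≤ M) ∧
        ∃ᶠ a : ℤ in atBot, passageTime t (a, j) (a, k) ≤ M := by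
    rw [ae_all_iff]
    intro j
    rw [ae_all_iff]
    exact ae_col j
  filter_upwards [h1, h2, h3, hup, hdn, hcol] with t t1 t2 t3 t4 t5 t6
  exact ⟨fun e => t1.pos t2 e, t3, t4,
    fun k => bdn_of_halfUp hN.norm hN.refl (t5 (-k)), t6⟩

theorem ae_halfUp [NullSingletonClass G] {m : ℝ} {μ : ℝ × ℝ → ℝ} (hG : M51.Law213 G)
    (hM : Mom G m) (hμ : IsTC1 G μ) : ∀ᵐ t ∂(iidLaw G), HalfUp μ t := by
  filter_upwards [hM.as_half_shape hμ (measure_singleton 0) hG] with t ht ε hε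
  filter_upwards [ht 0 ε hε] with n hn x hx y hy h0x h0y
  have := (abs_le.1 (hn x hx y hy h0x h0y)).2
  linarith

/-- **almost every environment is `EnvOK`**, for the law of S0213 and a smooth norm -/
theorem ae_envOK_213 [NullSingletonClass G] {m : ℝ} {μ : ℝ × ℝ → ℝ} (hG : M51.Law213 G)
    (hM : Mom G m) (hμ : IsTC1 G μ) (hN : D411.SmoothNorm μ) : ∀ᵐ t ∂(iidLaw G), EnvOK μ t :=
  ae_envOK hG hM hμ hN (ae_halfUp hG hM hμ)

end prob

end Crest.Agent.R151.SL
end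

-- ▼ part R151/SLF856

/-!
# R151/SLF856 — `Facts.slope` and `Facts.chain` from comparable row families (owner helper856)

* `RowsOK t m D f g` (fixed environment): families `f k p`, `g k p` (`k : ℤ`, `p ∈ D`, `D` dense in
  `(-m, m)`) of functions on the row `k`, monotone in `p`, of slope `-p` resp. `p`, comparable with the
  Busemann functions of all rays of `Up k` resp. `Dn k` of unbounded height.
* `RowsOK.slope` : the field `slope` of `Y96.Facts`; `RowsOK.chain` : the field `chain`.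
* `RowHyp G D R j σ f` : the hypotheses on one row (= 39's `RowFam` without the covariance);
  `ae_slope_chain` : both fields for almost every environment.
-/

set_option autoImplicit false

open Crest.ProbabilityR.FirstPassage
open Filter Set MeasureTheory
open scoped Topology

namespace Crest.Agent.R151.SLF

open Y H K SEL Y96 SL

/-- unbounded height -/
def UH (u : ℕ → ℤ × ℤ) : Prop := ∀ N : ℤ, ∃ n, N ≤ |(u n).2|

/-- comparable families on all rows, fixed environment -/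
structure RowsOK (t : Environment) (m : ℝ) (D : Set ℝ) (f g : ℤ → ℝ → ℤ → ℝ) : Prop where
  dense : ∀ x y, -m < x → x < y → y < m → ∃ p ∈ D, x < p ∧ p < y
  sub : D ⊆ Icc (-m) m
  fmono : ∀ k, ∀ p ∈ D, ∀ q ∈ D, p < q → ∀ x, inc (f k q) x ≤ inc (f k p) x
  gmono : ∀ k, ∀ p ∈ D, ∀ q ∈ D, p < q → ∀ x, inc (g k p) x ≤ inc (g k q) x
  fsl : ∀ k, ∀ p ∈ D, HasSlope (f k p) (-p)
  gsl : ∀ k, ∀ p ∈ D, HasSlope (g k p) p
  fcmp : ∀ k, ∀ p ∈ D, ∀ u, IsRay t (reg (Up k)) u → UH u →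
    Cmp (f k p) fun x => bus t (reg (Up k)) u (x, k)
  gcmp : ∀ k, ∀ p ∈ D, ∀ u, IsRay t (reg (Dn k)) u → UH u →
    Cmp (g k p) fun x => bus t (reg (Dn k)) u (x, k)

theorem Cmp.or {h k : ℤ → ℝ} (H : Cmp h k) :
    (∀ x, inc k x ≤ inc h x) ∨ ∀ x, inc h x ≤ inc k x := Or.symm H

theorem uh_tailU {v : ℤ → ℤ × ℤ} (hv : UpDown v) (k : ℤ) : UH (tailU k v) := by
  intro N
  have h1 : Tendsto (fun n : ℕ => entU k v + (n : ℤ)) atTop atTop :=
    tendsto_atTop_add_const_left _ _ tendsto_natCast_atTop_atTop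
  have h2 : Tendsto (fun n : ℕ => (tailU k v n).2) atTop atTop := hv.1.comp h1
  obtain ⟨n, hn⟩ := (h2.eventually_ge_atTop N).exists
  exact ⟨n, hn.trans (le_abs_self _)⟩

theorem uh_tailD {v : ℤ → ℤ × ℤ} (hv : UpDown v) (k : ℤ) : UH (tailD k v) := by
  intro N
  have h1 : Tendsto (fun n : ℕ => entD k v - (n : ℤ)) atTop atBot := by
    have h2 : Tendsto (fun n : ℕ => (n : ℤ) - entD k v) atTop atTop :=
      tendsto_atTop_add_const_right _ _ tendsto_natCast_atTop_atTop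
    refine (tendsto_neg_atTop_atBot.comp h2).congr fun n => ?_
    simp
  have h2 : Tendsto (fun n : ℕ => (tailD k v n).2) atTop atBot := hv.2.comp h1
  obtain ⟨n, hn⟩ := (h2.eventually_le_atBot (-N)).exists
  refine ⟨n, ?_⟩
  have := neg_le_abs (tailD k v n).2
  omega

namespace RowsOK

variable {μ : ℝ × ℝ → ℝ} {C : ℝ} {t : Environment} {D : Set ℝ} {f g : ℤ → ℝ → ℤ → ℝ}

/-- the labels of a bigeodesic -/
theorem labels {m : ℝ} (hm : 0 ≤ m) (H : RowsOK t m D f g) (ht : ∀ e, 0 ≤ t e)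
    {v : ℤ → ℤ × ℤ} (hv : v ∈ Big C t) :
    (∀ k, ∃ s, |s| ≤ m ∧ Sand D (f k) s fun x => fU t k v (x, k)) ∧
      ∀ k, ∃ s, |s| ≤ m ∧ SandUp D (g k) s fun x => fD t k v (x, k) := by
  have hud : UpDown v := updown_of_properUp hv.2
  constructor
  · intro k
    obtain ⟨s, hs, hS⟩ := exists_slope (D := D) (f := f k) (A := -m) (B := m) (by linarith) H.sub
      (H.fmono k) (h := fun x => fU t k v (x, k))
      fun p hp => Cmp.or (H.fcmp k p hp _ (isRay_tailU hv.1 ht hud k) (uh_tailU hud k))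
    exact ⟨s, abs_le.2 hs, hS⟩
  · intro k
    obtain ⟨s, hs, hS⟩ := exists_slope_up (D := D) (f := g k) (A := -m) (B := m) (by linarith) H.sub
      (H.gmono k) (h := fun x => fD t k v (x, k))
      fun p hp => Cmp.or (H.gcmp k p hp _ (isRay_tailD hv.1 ht hud k) (uh_tailD hud k))
    exact ⟨s, abs_le.2 hs, hS⟩

/-- **slopes of the bigeodesics of the class**: a common slope, which is also the label -/
theorem slopes (hμ : D411.SmoothNorm μ) (hC : 0 < C) (hC' : μ (1, 0) * C < μ (C, 1))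
    (ht : EnvOK μ t) (H : RowsOK t (μ (1, 0)) D f g) {v : ℤ → ℤ × ℤ} (hv : v ∈ Big C t) :
    ∃ s, |s| ≤ slopeAt μ C ∧ HasSl t v s ∧ ∀ k, Sand D (f k) s (fun x => fU t k v (x, k)) ∧
      SandUp D (g k) s fun x => fD t k v (x, k) := by
  have hm : 0 ≤ μ (1, 0) := (hμ.norm.pos (by simp)).le
  obtain ⟨hU, hD⟩ := H.labels hm ht.nonneg hv
  obtain ⟨s, h1, -, h3⟩ := SL.slopes hμ hC hC' ht H.dense H.fsl H.gsl hv.1 hv.2 hU hD
  exact ⟨s, h1, ⟨fun k => (h3 k).2.2.1, fun k => (h3 k).2.2.2⟩,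
    fun k => ⟨(h3 k).1, (h3 k).2.1⟩⟩

/-- the slope is the label -/
theorem sand (hμ : D411.SmoothNorm μ) (hC : 0 < C) (hC' : μ (1, 0) * C < μ (C, 1))
    (ht : EnvOK μ t) (H : RowsOK t (μ (1, 0)) D f g) {v : ℤ → ℤ × ℤ} (hv : v ∈ Big C t) {s : ℝ}
    (hs : HasSl t v s) :
    |s| ≤ slopeAt μ C ∧ ∀ k, Sand D (f k) s (fun x => fU t k v (x, k)) ∧
      SandUp D (g k) s fun x => fD t k v (x, k) := by
  obtain ⟨s', h1, h2, h3⟩ := H.slopes hμ hC hC' ht hv
  obtain rfl := hs.unique h2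
  exact ⟨h1, h3⟩

/-- the field `slope` of `Y96.Facts` -/
theorem slope (hμ : D411.SmoothNorm μ) (hC : 0 < C) (hC' : μ (1, 0) * C < μ (C, 1))
    (ht : EnvOK μ t) (H : RowsOK t (μ (1, 0)) D f g) :
    ∀ v ∈ Big C t, ∃ s, |s| < μ (1, 0) ∧ HasSl t v s := by
  intro v hv
  obtain ⟨s, h1, h2, -⟩ := H.slopes hμ hC hC' ht hv
  exact ⟨s, h1.trans_lt (slopeAt_lt hμ.norm hμ.refl hμ.diff hC'), h2⟩

/-- the field `chain` of `Y96.Facts` -/
theorem chain (hμ : D411.SmoothNorm μ) (hC : 0 < C) (hC' : μ (1, 0) * C < μ (C, 1))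
    (ht : EnvOK μ t) (H : RowsOK t (μ (1, 0)) D f g)
    (hcont : ∀ k l : ℤ, l < k → ∀ s, -μ (1, 0) < s → s < μ (1, 0) →
      ContAt D (f k) s ∨ ContAt D (g l) s) :
    ∀ v ∈ Big C t, ∀ w ∈ Big C t, ∀ s, HasSl t v s → HasSl t w s → ∀ k l : ℤ, l < k →
      (∀ e, Y96.incU t k v e = Y96.incU t k w e) ∨
        (∀ e, Y96.incD t l v e = Y96.incD t l w e) := by
  intro v hv w hw s hvs hws k l hlk
  obtain ⟨h1, h2⟩ := H.sand hμ hC hC' ht hv hvs
  obtain ⟨-, h3⟩ := H.sand hμ hC hC' ht hw hws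
  have hlt := abs_lt.1 (h1.trans_lt (slopeAt_lt hμ.norm hμ.refl hμ.diff hC'))
  rcases hcont k l hlk s hlt.1 hlt.2 with hc | hc
  · left
    intro e
    have := (h2 k).1.sandU.inc_eq hc (h3 k).1.sandU e
    simpa only [inc, Y96.incU] using this
  · right
    intro e
    have := (h2 l).2.sandU.inc_eq hc (h3 l).2.sandU e
    simpa only [inc, Y96.incD] using this

end RowsOK

/-! ## almost every environment -/

/-- the hypotheses on the family of one row (39's `RowFam` without the covariance) -/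
structure RowHyp (G : Measure ℝ) [IsProbabilityMeasure G] (D : Set ℝ) (R : Set (ℤ × ℤ)) (j : ℤ)
    (σ : ℝ) (f : ℝ → Environment → ℤ → ℝ) : Prop where
  mean : MeanFam (iidLaw G) D f 0 σ
  dep : ∀ p ∈ D, ∀ t t' : Environment, (∀ e ∈ edgesIn R, t e = t' e) →
    ∀ x, inc (f p t) x = inc (f p t') x
  slope : ∀ p ∈ D, ∀ᵐ t ∂(iidLaw G), HasSlope (f p t) (σ * p)
  cmp : ∀ p ∈ D, ∀ᵐ t ∂(iidLaw G), ∀ u, IsRay t (reg R) u → UH u →
    Cmp (f p t) fun x => bus t (reg R) u (x, j)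

theorem disjoint_edges {k l : ℤ} (h : l < k) : Disjoint (edgesIn (Up k)) (edgesIn (Dn l)) := by
  rw [Set.disjoint_left]
  intro e h1 h2
  induction e using Sym2.ind with
  | _ x y =>
    have e1 := (mem_edgesIn.1 h1).1
    have e2 := (mem_edgesIn.1 h2).1
    simp only [Up, Dn, mem_ofPred_eq] at e1 e2
    omega

variable {G : Measure ℝ} [IsProbabilityMeasure G]

/-- **all rows at once** -/
theorem ae_rowsOK {D : Set ℝ} {m : ℝ} (hDc : D.Countable)
    (hD : ∀ x y, -m < x → x < y → y < m → ∃ p ∈ D, x < p ∧ p < y) (hsub : D ⊆ Icc (-m) m)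
    {f g : ℤ → ℝ → Environment → ℤ → ℝ} (hf : ∀ k, RowHyp G D (Up k) k (-1) (f k))
    (hg : ∀ k, RowHyp G D (Dn k) k 1 (g k)) :
    ∀ᵐ t ∂(iidLaw G), RowsOK t m D (fun k p => f k p t) (fun k p => g k p t) ∧
      ∀ k l : ℤ, l < k → ∀ s, -m < s → s < m →
        ContAt D (fun p => f k p t) s ∨ ContAt D (fun p => g l p t) s := by
  have h1 : ∀ᵐ t ∂(iidLaw G), ∀ k, ∀ p ∈ D, ∀ q ∈ D, p < q → ∀ x,
      inc (f k q t) x ≤ inc (f k p t) x := by
    rw [ae_all_iff]
    intro k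
    rw [ae_ball_iff hDc]
    intro p hp
    rw [ae_ball_iff hDc]
    intro q hq
    by_cases hpq : p < q
    · filter_upwards [(hf k).mean.mono p hp q hq hpq] with t ht _ x
      linarith [ht x]
    · exact Eventually.of_forall fun t h => absurd h hpq
  have h2 : ∀ᵐ t ∂(iidLaw G), ∀ k, ∀ p ∈ D, ∀ q ∈ D, p < q → ∀ x,
      inc (g k p t) x ≤ inc (g k q t) x := by
    rw [ae_all_iff]
    intro k
    rw [ae_ball_iff hDc]
    intro p hp
    rw [ae_ball_iff hDc]
    intro q hq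
    by_cases hpq : p < q
    · filter_upwards [(hg k).mean.mono p hp q hq hpq] with t ht _ x
      linarith [ht x]
    · exact Eventually.of_forall fun t h => absurd h hpq
  have h3 : ∀ᵐ t ∂(iidLaw G), ∀ k, ∀ p ∈ D, HasSlope (f k p t) (-p) := by
    rw [ae_all_iff]
    intro k
    rw [ae_ball_iff hDc]
    intro p hp
    filter_upwards [(hf k).slope p hp] with t ht
    simpa using ht
  have h4 : ∀ᵐ t ∂(iidLaw G), ∀ k, ∀ p ∈ D, HasSlope (g k p t) p := by
    rw [ae_all_iff]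
    intro k
    rw [ae_ball_iff hDc]
    intro p hp
    filter_upwards [(hg k).slope p hp] with t ht
    simpa using ht
  have h5 : ∀ᵐ t ∂(iidLaw G), ∀ k, ∀ p ∈ D, ∀ u, IsRay t (reg (Up k)) u → UH u →
      Cmp (f k p t) fun x => bus t (reg (Up k)) u (x, k) := by
    rw [ae_all_iff]
    intro k
    rw [ae_ball_iff hDc]
    exact (hf k).cmp
  have h6 : ∀ᵐ t ∂(iidLaw G), ∀ k, ∀ p ∈ D, ∀ u, IsRay t (reg (Dn k)) u → UH u →
      Cmp (g k p t) fun x => bus t (reg (Dn k)) u (x, k) := by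
    rw [ae_all_iff]
    intro k
    rw [ae_ball_iff hDc]
    exact (hg k).cmp
  have h7 : ∀ᵐ t ∂(iidLaw G), ∀ k l : ℤ, l < k → ∀ s, -m < s → s < m →
      ContAt D (fun p => f k p t) s ∨ ContAt D (fun p => g l p t) s := by
    rw [ae_all_iff]
    intro k
    rw [ae_all_iff]
    intro l
    by_cases hlk : l < k
    · have := chain_env G (A := -m) (B := m) hD (disjoint_edges hlk) (hf k).mean (hg l).mean
        (fun p hp x t t' h => (hf k).dep p hp t t' h x)
        (fun p hp x t t' h => (hg l).dep p hp t t' h x)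
      filter_upwards [this] with t ht _
      exact ht
    · exact Eventually.of_forall fun t h => absurd h hlk
  filter_upwards [h1, h2, h3, h4, h5, h6, h7] with t t1 t2 t3 t4 t5 t6 t7
  exact ⟨⟨hD, hsub, t1, t2, t3, t4, t5, t6⟩, t7⟩

/-- **the fields `slope` and `chain` of `Y96.Facts`**, almost every environment -/
theorem ae_slope_chain [NullSingletonClass G] {m : ℝ} {μ : ℝ × ℝ → ℝ} (hG : M51.Law213 G)
    (hM : Mom G m) (hμ : IsTC1 G μ) (hN : D411.SmoothNorm μ) {D : Set ℝ} (hDc : D.Countable)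
    (hD : ∀ x y, -μ (1, 0) < x → x < y → y < μ (1, 0) → ∃ p ∈ D, x < p ∧ p < y)
    (hsub : D ⊆ Icc (-μ (1, 0)) (μ (1, 0)))
    {f g : ℤ → ℝ → Environment → ℤ → ℝ} (hf : ∀ k, RowHyp G D (Up k) k (-1) (f k))
    (hg : ∀ k, RowHyp G D (Dn k) k 1 (g k)) {C : ℝ} (hC : 0 < C)
    (hC' : μ (1, 0) * C < μ (C, 1)) :
    ∀ᵐ t ∂(iidLaw G),
      (∀ v ∈ Big C t, ∃ s, |s| ≤ slopeAt μ C ∧ HasSl t v s ∧ ∀ k,
        Sand D (fun p => f k p t) s (fun x => fU t k v (x, k)) ∧
        SandUp D (fun p => g k p t) s fun x => fD t k v (x, k)) ∧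
      (∀ v ∈ Big C t, ∃ s, |s| < μ (1, 0) ∧ HasSl t v s) ∧
      ∀ v ∈ Big C t, ∀ w ∈ Big C t, ∀ s, HasSl t v s → HasSl t w s → ∀ k l : ℤ, l < k →
        (∀ e, Y96.incU t k v e = Y96.incU t k w e) ∨
          (∀ e, Y96.incD t l v e = Y96.incD t l w e) := by
  filter_upwards [ae_rowsOK hDc hD hsub hf hg, ae_envOK_213 hG hM hμ hN] with t ⟨t1, t2⟩ t3
  exact ⟨fun v hv => t1.slopes hN hC hC' t3 hv, t1.slope hN hC hC' t3,
    t1.chain hN hC hC' t3 t2⟩

end Crest.Agent.R151.SLF
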