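import Crest.Agent.R151.U750c

-- ▼ part R151/U750d
section

/-!
# R151/U750d — superadditivity of the means of the block times (owner helper750)
-/

set_option autoImplicit false
set_option linter.unusedSectionVars false

open MeasureTheory Filter
open scoped Topology
open Crest.ProbabilityR.FirstPassage
open Crest.Agent.R151.K

namespace Crest.Agent.R151.U

attribute [local irreducible] Box TE

/-- ratio of the side `2^k` and the cell length -/
def rat (k : ℕ) : ℕ := 2 ^ (k - 15 * k / 16)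

lemma len_pos (k : ℕ) : 1 ≤ len k := Nat.one_le_two_pow

lemma len_mul_rat (k : ℕ) : len k * rat k = 2 ^ k := by
  unfold len rat
  rw [← pow_add]
  congr 1
  omega

lemma len_le (k : ℕ) : len k ≤ 2 ^ k := Nat.pow_le_pow_right (by norm_num) (by omega)

lemma len_succ_le (k : ℕ) : len (k + 1) ≤ 2 * len k := by
  unfold len
  rw [← pow_succ']
  exact Nat.pow_le_pow_right (by norm_num) (by omega)

lemma rat_ge {k : ℕ} (hk : 64 ≤ k) : 8 ≤ rat k := by
  unfold rat
  calc 8 = 2 ^ 3 := by norm_num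
    _ ≤ _ := Nat.pow_le_pow_right (by norm_num) (by omega)

/-- `2^(1/16)` -/
noncomputable def th : ℝ := (2 : ℝ) ^ (1 / 16 : ℝ)

lemma th_pos : 0 < th := Real.rpow_pos_of_pos (by norm_num) _

lemma one_lt_th : 1 < th := Real.one_lt_rpow (by norm_num) (by norm_num)

lemma th_pow (m : ℕ) : th ^ m = (2 : ℝ) ^ ((m : ℝ) / 16) := by
  unfold th
  rw [← Real.rpow_natCast, ← Real.rpow_mul (by norm_num)]
  congr 1
  ring

lemma th_pow16 (k : ℕ) : th ^ (16 * k) = 2 ^ k := by
  rw [th_pow, ← Real.rpow_natCast]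
  congr 1
  push_cast
  ring

lemma rpow58 (k : ℕ) : (2 : ℝ) ^ ((5 / 8 : ℝ) * k) = th ^ (10 * k) := by
  rw [th_pow]
  congr 1
  push_cast
  ring

lemma len_le_th (k : ℕ) : (len k : ℝ) ≤ th ^ (15 * k) := by
  rw [th_pow]
  unfold len
  push_cast
  rw [← Real.rpow_natCast]
  apply Real.rpow_le_rpow_of_exponent_le (by norm_num)
  have : (((15 * k / 16 : ℕ)) : ℝ) ≤ ((15 * k : ℕ) : ℝ) / 16 := by
    have := @Nat.cast_div_le ℝ _ _ _ (15 * k) 16
    exact_mod_cast this
  push_cast at this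
  exact this

lemma rat_le_th (k : ℕ) : (rat k : ℝ) ≤ 2 * th ^ k := by
  rw [th_pow]
  unfold rat
  push_cast
  rw [← Real.rpow_natCast]
  have e : (2 : ℝ) * (2 : ℝ) ^ ((k : ℝ) / 16) = (2 : ℝ) ^ (1 + (k : ℝ) / 16) := by
    rw [Real.rpow_add (by norm_num), Real.rpow_one]
  rw [e]
  apply Real.rpow_le_rpow_of_exponent_le (by norm_num)
  have h1 : 16 * (k - 15 * k / 16) ≤ 16 + k := by omega
  have h2 : (16 : ℝ) * ((k - 15 * k / 16 : ℕ) : ℝ) ≤ 16 + k := by exact_mod_cast h1
  linarith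

lemma two_pow_int (k : ℕ) : (2 : ℤ) ^ k = (len k : ℤ) * (rat k : ℤ) := by
  have := len_mul_rat k
  exact_mod_cast this.symm

/-- block time -/
noncomputable def blk (CR k : ℕ) (x0 y0 d : ℤ) (t : Environment) : ℝ :=
  TE (Box x0 (x0 + 2 ^ k) y0 (CR * 2 ^ k)) (seg x0 y0 (len k)) (seg (x0 + 2 ^ k) (y0 + d) (len k)) t

lemma measurable_blk (CR k : ℕ) (x0 y0 d : ℤ) : Measurable (blk CR k x0 y0 d) :=
  measurable_TE _ _ _

lemma conn_blk {CR k : ℕ} {x0 y0 d : ℤ} (hd : |d| ≤ CR * 2 ^ k) :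
    Conn (↑(Box x0 (x0 + 2 ^ k) y0 (CR * 2 ^ k))) (seg x0 y0 (len k))
      (seg (x0 + 2 ^ k) (y0 + d) (len k)) := by
  have h1 := len_pos k
  have h2 : (0 : ℤ) < 2 ^ k := by positivity
  have h3 : (0 : ℤ) ≤ CR * 2 ^ k := by positivity
  rw [abs_le] at hd
  exact conn_box_sets (p := (x0, y0)) (q := (x0 + 2 ^ k, y0 + d))
    ⟨rfl, le_rfl, by simp only; omega⟩ ⟨rfl, le_rfl, by simp only; omega⟩
    (by simp) (by simp only; omega) (by simp only; omega) (by simp) (by omega)
    (by simp only; omega) (by simp only; omega) (by simp only; omega) (by simp only; omega)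

variable {G : Measure ℝ} [IsProbabilityMeasure G]

/-- mean of the block time -/
noncomputable def tau (G : Measure ℝ) (CR k : ℕ) (d : ℤ) : ℝ := ∫ t, blk CR k 0 0 d t ∂(iidLaw G)

lemma blk_tr {CR k : ℕ} {x0 y0 d : ℤ} (hd : |d| ≤ CR * 2 ^ k) :
    blk CR k x0 y0 d = fun t => blk CR k 0 0 d (act (tr (x0, y0)) t) := by
  funext t
  have := TE_box_tr 0 (0 + 2 ^ k) 0 (CR * 2 ^ k) (seg 0 0 (len k)) (seg (0 + 2 ^ k) (0 + d) (len k))
    (conn_blk hd) (x0, y0) t
  rw [image_tr_seg, image_tr_seg] at this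
  simp only [zero_add] at this
  rw [add_comm ((2 : ℤ) ^ k) x0, add_comm d y0] at this
  unfold blk
  rw [this]
  simp only [zero_add]

lemma integral_blk_comp {CR k : ℕ} {x0 y0 d : ℤ} (hd : |d| ≤ CR * 2 ^ k) (f : ℝ → ℝ)
    (hf : Measurable f) :
    ∫ t, f (blk CR k x0 y0 d t) ∂(iidLaw G) = ∫ t, f (blk CR k 0 0 d t) ∂(iidLaw G) := by
  rw [blk_tr hd]
  exact integral_pt_iso (tr (x0, y0)) (fun t => f (blk CR k 0 0 d t))
    (hf.comp (measurable_blk _ _ _ _ _)).aestronglyMeasurable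

lemma integral_blk {CR k : ℕ} {x0 y0 d : ℤ} (hd : |d| ≤ CR * 2 ^ k) :
    ∫ t, blk CR k x0 y0 d t ∂(iidLaw G) = tau G CR k d :=
  integral_blk_comp hd (fun x => x) measurable_id

/-- consequences of `DEV` for block times -/
lemma dev_blk (hG : DEV G) {CR : ℕ} (hCR : 1 ≤ CR) :
    ∃ (C : ℝ) (k0 : ℕ), ∀ k : ℕ, k0 ≤ k → ∀ x0 y0 d : ℤ, |d| + 2 ^ k ≤ CR * 2 ^ k →
      Integrable (blk CR k x0 y0 d) (iidLaw G) ∧
      ∫ t, |blk CR k x0 y0 d t - tau G CR k d| ∂(iidLaw G) ≤ C * th ^ (10 * k) := by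
  obtain ⟨C, k0, h⟩ := hG CR
  refine ⟨C, k0, fun k hk x0 y0 d hd => ?_⟩
  have h1 : (len k : ℤ) ≤ 2 ^ k := by exact_mod_cast len_le k
  have h2 : (0 : ℤ) < 2 ^ k := by positivity
  have h3 : (2 : ℤ) ^ k ≤ CR * 2 ^ k := le_mul_of_one_le_left h2.le (by exact_mod_cast hCR)
  have hd1 := abs_le.1 (show |d| ≤ CR * 2 ^ k - 2 ^ k by linarith)
  have hd0 : |d| ≤ CR * 2 ^ k := by linarith
  have := h k hk x0 (x0 + 2 ^ k) y0 (CR * 2 ^ k) x0 (x0 + 2 ^ k) y0 (y0 + d) (len k) (len k)
    (by omega) (by omega) le_rfl le_rfl (by omega) (by omega) le_rfl (by omega) (by omega)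
    (by omega) (by omega) le_rfl le_rfl
  rw [rpow58] at this
  refine ⟨this.1, ?_⟩
  have e := integral_blk (G := G) (x0 := x0) (y0 := y0) hd0
  unfold blk at e
  unfold blk
  rw [e] at this
  exact this.2

/-- lower bound of all block means at level `k` -/
def LB (G : Measure ℝ) (al be : ℝ) (CR k : ℕ) (h : ℝ) : Prop :=
  ∀ d : ℤ, |d| + 2 ^ k ≤ CR * 2 ^ k → al * 2 ^ k + be * d + h ≤ tau G CR k d

lemma box_edge {A B y0 R : ℤ} {a b : Pt} {w : squareLattice.Walk a b} {e : Edge}
    (he : e ∈ w.edges) (hb : e ∈ Box A B y0 R) :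
    (∀ p ∈ e, A ≤ p.1 ∧ p.1 ≤ B) ∧ ∃ p ∈ e, p.1 < B := by
  induction e using Sym2.inductionOn with
  | _ x y =>
    have hadj := adj_of_mem_edges w he
    rw [mem_Box_adj hadj] at hb
    refine ⟨?_, ?_⟩
    · intro p hp
      rcases Sym2.mem_iff.1 hp with rfl | rfl
      · exact ⟨hb.1, hb.2.1⟩
      · exact ⟨hb.2.2.1, hb.2.2.2.1⟩
    · rcases hb.2.2.2.2.1 with h | h
      · exact ⟨x, Sym2.mem_mk_left _ _, h⟩
      · exact ⟨y, Sym2.mem_mk_right _ _, h⟩

lemma cell (y : ℤ) {l : ℕ} (hl : 1 ≤ l) : (y / l) * l ≤ y ∧ y < (y / l) * l + l := by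
  have hl' : (0 : ℤ) < l := by exact_mod_cast hl
  refine ⟨Int.ediv_mul_le _ hl'.ne', ?_⟩
  have := Int.lt_ediv_add_one_mul_self y hl'
  linarith

/-- Decomposition of a short path of the doubled box. -/
lemma path_lower {CR k : ℕ} (hk : 64 ≤ k) {D : ℤ} {t : Environment} (ht : Nn t) {a b : Pt}
    (ha : a ∈ seg 0 0 (len (k + 1))) (hb : b ∈ seg (2 ^ (k + 1)) D (len (k + 1)))
    (w : squareLattice.Walk a b)
    (hw : ∀ e ∈ w.edges, e ∈ Box 0 (2 ^ (k + 1)) 0 (CR * 2 ^ (k + 1)))
    (hlen : (w.length : ℤ) + 2 * 2 ^ k ≤ CR * 2 ^ k) :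
    ∃ i0 i1 i2 j : ℤ, (0 ≤ i0 ∧ i0 ≤ 1) ∧ (-(CR * rat k : ℤ) ≤ i1 ∧ i1 ≤ CR * rat k) ∧
      (-(CR * rat k : ℤ) ≤ i2 ∧ i2 ≤ CR * rat k) ∧ (0 ≤ j ∧ j ≤ 1) ∧
      |(i1 - i0) * len k| + 2 ^ k ≤ CR * 2 ^ k ∧
      |D + (j - i2) * len k| + 2 ^ k ≤ CR * 2 ^ k ∧
      blk CR k 0 (i0 * len k) ((i1 - i0) * len k) t +
        TE (Box 0 (2 ^ (k + 1)) 0 (CR * 2 ^ (k + 1))) (seg (2 ^ k) (i1 * len k) (len k))
          (seg (2 ^ k) (i2 * len k) (len k)) t +
        blk CR k (2 ^ k) (i2 * len k) (D + (j - i2) * len k) t ≤ walkCost t w := by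
  have hl1 := len_pos k
  have hl2 : (len (k + 1) : ℤ) ≤ 2 * len k := by exact_mod_cast len_succ_le k
  have hr : 8 ≤ rat k := rat_ge hk
  have hlr := two_pow_int k
  have h8 : 8 * (len k : ℤ) ≤ 2 ^ k := by
    rw [hlr, mul_comm]
    exact mul_le_mul_of_nonneg_left (by exact_mod_cast hr) (by positivity)
  have hCR : (CR : ℤ) * 2 ^ k = (CR * rat k) * len k := by rw [hlr]; ring
  have hlp : (0 : ℤ) < len k := by exact_mod_cast hl1
  rw [mem_seg] at ha hb
  obtain ⟨ha1, ha2, ha3⟩ := ha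
  obtain ⟨hb1, hb2, hb3⟩ := hb
  have hpow : (2 : ℤ) ^ (k + 1) = 2 * 2 ^ k := by rw [pow_succ]; ring
  rw [hpow] at hb1
  have hn : (0 : ℤ) < 2 ^ k := by positivity
  obtain ⟨c, d, hc, hd, w1, w2, w3, hww, hL, hR⟩ := decomp3 (2 ^ k) w (by omega) (by omega)
  have hlw : w.length = w1.length + (w2.length + w3.length) := by
    rw [hww, SimpleGraph.Walk.length_append, SimpleGraph.Walk.length_append]
  have hed : ∀ e, (e ∈ w1.edges ∨ e ∈ w2.edges ∨ e ∈ w3.edges) → e ∈ w.edges := by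
    intro e he
    rw [hww, SimpleGraph.Walk.edges_append, List.mem_append, SimpleGraph.Walk.edges_append,
      List.mem_append]
    exact he
  have hcost : walkCost t w = walkCost t w1 + (walkCost t w2 + walkCost t w3) := by
    rw [hww, walkCost_append, walkCost_append]
  have d1 := (walk_dist w1 c w1.end_mem_support).2
  have d2 := (walk_dist w2 d w2.end_mem_support).2
  have d3 := (walk_dist w3 b w3.end_mem_support).2
  rw [abs_le] at d1 d2 d3
  obtain ⟨p0, q0⟩ := cell a.2 hl1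
  obtain ⟨p1, q1⟩ := cell c.2 hl1
  obtain ⟨p2, q2⟩ := cell d.2 hl1
  obtain ⟨p3, q3⟩ := cell (b.2 - D) hl1
  set i0 := a.2 / (len k : ℤ) with hi0
  set i1 := c.2 / (len k : ℤ) with hi1
  set i2 := d.2 / (len k : ℤ) with hi2
  set j := (b.2 - D) / (len k : ℤ) with hj
  have hlw' : (w.length : ℤ) = w1.length + (w2.length + w3.length) := by exact_mod_cast hlw
  have hi0' : 0 ≤ i0 ∧ i0 ≤ 1 := by
    constructor
    · exact Int.ediv_nonneg ha2 hlp.le
    · by_contra hcon
      have : 2 * (len k : ℤ) ≤ i0 * len k := mul_le_mul_of_nonneg_right (by omega) hlp.le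
      omega
  have hj' : 0 ≤ j ∧ j ≤ 1 := by
    constructor
    · exact Int.ediv_nonneg (by omega) hlp.le
    · by_contra hcon
      have : 2 * (len k : ℤ) ≤ j * len k := mul_le_mul_of_nonneg_right (by omega) hlp.le
      omega
  have hbd : ∀ i : ℤ, i * len k ≤ CR * 2 ^ k → -(CR * 2 ^ k) ≤ i * len k →
      -(CR * rat k : ℤ) ≤ i ∧ i ≤ CR * rat k := by
    intro i h1 h2
    rw [hCR] at h1 h2
    constructor
    · have : (-(CR * rat k : ℤ)) * len k ≤ i * len k := by linarith
      exact le_of_mul_le_mul_right this hlp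
    · exact le_of_mul_le_mul_right h1 hlp
  have ei : (i1 - i0) * (len k : ℤ) = i1 * len k - i0 * len k := by ring
  have ej : (j - i2) * (len k : ℤ) = j * len k - i2 * len k := by ring
  refine ⟨i0, i1, i2, j, hi0', hbd i1 (by omega) (by omega), hbd i2 (by omega) (by omega), hj',
    ?_, ?_, ?_⟩
  · rw [ei]
    have : |i1 * (len k : ℤ) - i0 * len k| ≤ CR * 2 ^ k - 2 ^ k := by
      rw [abs_le]
      constructor <;> omega
    linarith
  · rw [ej]
    have : |D + (j * (len k : ℤ) - i2 * len k)| ≤ CR * 2 ^ k - 2 ^ k := by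
      rw [abs_le]
      constructor <;> omega
    linarith
  · have k1 : blk CR k 0 (i0 * len k) ((i1 - i0) * len k) t ≤ walkCost t w1 := by
      unfold blk
      refine TE_le_walk ht w1 ?_ ⟨ha1, p0, q0⟩ ⟨by rw [hc]; ring, ?_, ?_⟩
      · refine walk_sub_Box w1 ?_ ?_
        · intro e he
          have h1 := box_edge (hed e (Or.inl he)) (hw e (hed e (Or.inl he)))
          have h2 := hL e he
          refine ⟨fun p hp => ⟨(h1.1 p hp).1, ?_⟩, ?_⟩
          · have := h2.1 p hp
            omega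
          · obtain ⟨p, hp, hpn⟩ := h2.2
            exact ⟨p, hp, by omega⟩
        · have : |a.2 - i0 * (len k : ℤ)| ≤ len k := by
            rw [abs_le]
            constructor <;> omega
          omega
      · rw [ei]; omega
      · rw [ei]; omega
    have k2 : TE (Box 0 (2 ^ (k + 1)) 0 (CR * 2 ^ (k + 1))) (seg (2 ^ k) (i1 * len k) (len k))
          (seg (2 ^ k) (i2 * len k) (len k)) t ≤ walkCost t w2 :=
      TE_le_walk ht w2 (fun e he => hw e (hed e (Or.inr (Or.inl he)))) ⟨hc, p1, q1⟩ ⟨hd, p2, q2⟩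
    have k3 : blk CR k (2 ^ k) (i2 * len k) (D + (j - i2) * len k) t ≤ walkCost t w3 := by
      unfold blk
      refine TE_le_walk ht w3 ?_ ⟨hd, p2, q2⟩ ⟨by rw [hb1]; ring, ?_, ?_⟩
      · refine walk_sub_Box w3 ?_ ?_
        · intro e he
          have h1 := box_edge (hed e (Or.inr (Or.inr he))) (hw e (hed e (Or.inr (Or.inr he))))
          have h2 := hR e he
          refine ⟨fun p hp => ⟨h2.1 p hp, ?_⟩, ?_⟩
          · have := (h1.1 p hp).2
            omega
          · obtain ⟨p, hp, hpn⟩ := h1.2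
            exact ⟨p, hp, by omega⟩
        · have : |d.2 - i2 * (len k : ℤ)| ≤ len k := by
            rw [abs_le]
            constructor <;> omega
          omega
      · rw [ej]; omega
      · rw [ej]; omega
    rw [hcost]
    linarith


/-- the bad event of level `k` -/
def Bd (c1 : ℝ) (k : ℕ) : Set Environment :=
  ⋃ i ∈ Finset.range (2 ^ (k + 1)), Cheap c1 (2 ^ k) ((0 : ℤ), (i : ℤ))

lemma two_k_le (k : ℕ) : 2 * k ≤ 2 ^ k + 1 := by
  induction k with
  | zero => norm_num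
  | succ n ih =>
    have : 1 ≤ 2 ^ n := Nat.one_le_two_pow
    rw [pow_succ]
    rcases n with _ | n
    · norm_num
    · have : 2 ≤ 2 ^ (n + 1) := by
        rw [pow_succ]
        have : 1 ≤ 2 ^ n := Nat.one_le_two_pow
        omega
      omega

lemma prob_Bd {c1 : ℝ} (h : ∀ (L : ℕ) (x : Pt), 1 ≤ L →
    (iidLaw G) (Cheap c1 L x) ≤ ENNReal.ofReal ((1 / 2 : ℝ) ^ L)) (k : ℕ) :
    (iidLaw G) (Bd c1 k) ≤ ENNReal.ofReal (4 / 2 ^ k) := by
  unfold Bd
  refine (measure_biUnion_finset_le _ _).trans ?_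
  calc ∑ i ∈ Finset.range (2 ^ (k + 1)), (iidLaw G) (Cheap c1 (2 ^ k) ((0 : ℤ), (i : ℤ)))
      ≤ ∑ _i ∈ Finset.range (2 ^ (k + 1)), ENNReal.ofReal ((1 / 2 : ℝ) ^ (2 ^ k)) :=
        Finset.sum_le_sum fun i _ => h (2 ^ k) _ Nat.one_le_two_pow
    _ = ENNReal.ofReal (2 ^ (k + 1) * (1 / 2 : ℝ) ^ (2 ^ k)) := by
        rw [Finset.sum_const, Finset.card_range, nsmul_eq_mul, ENNReal.ofReal_mul (by positivity)]
        congr 1
        rw [ENNReal.ofReal_pow (by norm_num)]
        push_cast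
        norm_num
    _ ≤ _ := by
        apply ENNReal.ofReal_le_ofReal
        rw [le_div_iff₀ (by positivity)]
        have h1 : (2 : ℝ) ^ (k + 1) * (1 / 2) ^ (2 ^ k) * 2 ^ k =
            2 ^ (2 * k) * 2 * (1 / 2) ^ (2 ^ k) := by ring
        rw [h1]
        have h2 : (2 : ℝ) ^ (2 * k) ≤ 2 ^ (2 ^ k + 1) :=
          pow_le_pow_right₀ (by norm_num) (two_k_le k)
        calc (2 : ℝ) ^ (2 * k) * 2 * (1 / 2) ^ (2 ^ k)
            ≤ 2 ^ (2 ^ k + 1) * 2 * (1 / 2) ^ (2 ^ k) := by gcongr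
          _ = 4 * (2 * (1 / 2)) ^ (2 ^ k) := by rw [mul_pow]; ring
          _ = 4 := by norm_num

/-- the middle times -/
noncomputable def mid (CR k : ℕ) (i1 i2 : ℤ) (t : Environment) : ℝ :=
  TE (Box 0 (2 ^ (k + 1)) 0 (CR * 2 ^ (k + 1))) (seg (2 ^ k) (i1 * len k) (len k))
          (seg (2 ^ k) (i2 * len k) (len k)) t

/-- index set -/
noncomputable def Ix (CR k : ℕ) : Finset ℤ := Finset.Icc (-(CR * rat k : ℤ)) (CR * rat k)

/-- admissible displacement -/
def Ad (CR k : ℕ) (d : ℤ) : Prop := |d| + 2 ^ k ≤ (CR : ℤ) * 2 ^ k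

open Classical in
/-- first sum of the deviations -/
noncomputable def Z1 (G : Measure ℝ) (CR k : ℕ) (t : Environment) : ℝ :=
  ∑ p ∈ (Finset.Icc (0 : ℤ) 1 ×ˢ Ix CR k).filter (fun p : ℤ × ℤ => Ad CR k ((p.2 - p.1) * len k)),
    |blk CR k 0 (p.1 * len k) ((p.2 - p.1) * len k) t - tau G CR k ((p.2 - p.1) * len k)|

/-- second sum of the deviations -/
noncomputable def Z2 (G : Measure ℝ) (CR k : ℕ) (t : Environment) : ℝ :=
  ∑ p ∈ Ix CR k ×ˢ Ix CR k, |mid CR k p.1 p.2 t - ∫ t', mid CR k p.1 p.2 t' ∂(iidLaw G)|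

open Classical in
/-- third sum of the deviations -/
noncomputable def Z3 (G : Measure ℝ) (CR k : ℕ) (D : ℤ) (t : Environment) : ℝ :=
  ∑ p ∈ (Ix CR k ×ˢ Finset.Icc (0 : ℤ) 1).filter
      (fun p : ℤ × ℤ => Ad CR k (D + (p.2 - p.1) * len k)),
    |blk CR k (2 ^ k) (p.1 * len k) (D + (p.2 - p.1) * len k) t -
      tau G CR k (D + (p.2 - p.1) * len k)|

lemma card_Ix {CR k : ℕ} (hCR : 1 ≤ CR) : ((Ix CR k).card : ℝ) ≤ 6 * CR * th ^ k := by
  unfold Ix
  rw [Int.card_Icc]
  have h1 : ((CR * rat k : ℤ) + 1 - -(CR * rat k : ℤ)).toNat = 2 * (CR * rat k) + 1 := by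
    have : (0 : ℤ) ≤ CR * rat k := by positivity
    zify
    rw [Int.toNat_of_nonneg (by linarith)]
    ring
  rw [h1]
  push_cast
  have h2 : (1 : ℝ) ≤ CR * rat k := by
    have : 1 ≤ CR * rat k := Nat.one_le_iff_ne_zero.2 (by
      have : 1 ≤ rat k := Nat.one_le_two_pow
      positivity)
    exact_mod_cast this
  have h3 := rat_le_th k
  have h4 : (CR : ℝ) * rat k ≤ CR * (2 * th ^ k) := by gcongr
  nlinarith

section
variable {al be s a : ℝ}

lemma integrable_mid (hG : DEV G) {CR : ℕ} (hCR : 1 ≤ CR) :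
    ∃ (C : ℝ) (k0 : ℕ), ∀ k : ℕ, k0 ≤ k → ∀ i1 i2 : ℤ, i1 ∈ Ix CR k → i2 ∈ Ix CR k →
      Integrable (mid CR k i1 i2) (iidLaw G) ∧
      ∫ t, |mid CR k i1 i2 t - ∫ t', mid CR k i1 i2 t' ∂(iidLaw G)| ∂(iidLaw G) ≤
        C * th ^ (10 * k) := by
  obtain ⟨C, k0, h⟩ := hG (2 * CR)
  refine ⟨C, k0, fun k hk i1 i2 hi1 hi2 => ?_⟩
  have h1 : (len k : ℤ) ≤ 2 ^ k := by exact_mod_cast len_le k
  have h2 : (0 : ℤ) < 2 ^ k := by positivity
  have h3 : (2 : ℤ) ^ k ≤ CR * 2 ^ k := le_mul_of_one_le_left h2.le (by exact_mod_cast hCR)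
  have hpow : (2 : ℤ) ^ (k + 1) = 2 * 2 ^ k := by rw [pow_succ]; ring
  have hlp : (0 : ℤ) < len k := by exact_mod_cast len_pos k
  have hb : ∀ i : ℤ, i ∈ Ix CR k → -((CR : ℤ) * 2 ^ k) ≤ i * len k ∧ i * len k ≤ CR * 2 ^ k := by
    intro i hi
    unfold Ix at hi
    rw [Finset.mem_Icc] at hi
    rw [two_pow_int k]
    constructor
    · calc -((CR : ℤ) * (len k * rat k)) = (-(CR * rat k : ℤ)) * len k := by ring
        _ ≤ i * len k := mul_le_mul_of_nonneg_right hi.1 hlp.le
    · calc i * len k ≤ (CR * rat k : ℤ) * len k := mul_le_mul_of_nonneg_right hi.2 hlp.le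
        _ = _ := by ring
  obtain ⟨b1, b2⟩ := hb i1 hi1
  obtain ⟨b3, b4⟩ := hb i2 hi2
  have hx : (CR : ℤ) * 2 ^ (k + 1) = 2 * (CR * 2 ^ k) := by rw [hpow]; ring
  have := h k hk 0 (2 ^ (k + 1)) 0 (CR * 2 ^ (k + 1)) (2 ^ k) (2 ^ k) (i1 * len k) (i2 * len k)
    (len k) (len k) (by omega) (by push_cast; nlinarith) (by push_cast; nlinarith)
    (by omega) (by omega) (by omega) (by omega)
    (by omega) (by omega) (by omega) (by omega) le_rfl le_rfl
  rw [rpow58] at this
  unfold mid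
  exact this

lemma Z_bounds (hG : DEV G) {CR : ℕ} (hCR : 1 ≤ CR) :
    ∃ (C : ℝ) (k0 : ℕ), 0 ≤ C ∧ ∀ k : ℕ, k0 ≤ k → ∀ D : ℤ,
      Integrable (fun t => Z1 G CR k t + Z2 G CR k t + Z3 G CR k D t) (iidLaw G) ∧
      ∫ t, (Z1 G CR k t + Z2 G CR k t + Z3 G CR k D t) ∂(iidLaw G) ≤ C * th ^ (15 * k) := by
  classical
  obtain ⟨C1, k1, h1⟩ := dev_blk hG hCR
  obtain ⟨C2, k2, h2⟩ := integrable_mid hG hCR
  set C := |C1| + |C2| with hC
  have hC1 : C1 ≤ C := by have := le_abs_self C1; have := abs_nonneg C2; linarith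
  have hC2 : C2 ≤ C := by have := le_abs_self C2; have := abs_nonneg C1; linarith
  have hC0 : 0 ≤ C := by positivity
  have hth := one_lt_th
  have hthp := th_pos
  refine ⟨108 * CR ^ 2 * C, max k1 k2, by positivity, fun k hk D => ?_⟩
  have hk1 : k1 ≤ k := (le_max_left _ _).trans hk
  have hk2 : k2 ≤ k := (le_max_right _ _).trans hk
  have hq : 0 ≤ C * th ^ (10 * k) := by positivity
  have hcard := card_Ix (k := k) hCR
  have hCRr : (1 : ℝ) ≤ CR := by exact_mod_cast hCR
  have hth1 : (1 : ℝ) ≤ th ^ k := one_le_pow₀ hth.le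
  have hc2 : (Finset.Icc (0 : ℤ) 1).card = 2 := by decide
  have A1 : Integrable (Z1 G CR k) (iidLaw G) ∧
      ∫ t, Z1 G CR k t ∂(iidLaw G) ≤ (2 * (6 * CR * th ^ k)) * (C * th ^ (10 * k)) := by
    unfold Z1
    have hint : ∀ p ∈ (Finset.Icc (0 : ℤ) 1 ×ˢ Ix CR k).filter
        (fun p : ℤ × ℤ => Ad CR k ((p.2 - p.1) * len k)),
        Integrable (fun t => |blk CR k 0 (p.1 * len k) ((p.2 - p.1) * len k) t -
          tau G CR k ((p.2 - p.1) * len k)|) (iidLaw G) := by
      intro p hp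
      rw [Finset.mem_filter] at hp
      exact ((h1 k hk1 0 (p.1 * len k) _ hp.2).1.sub (integrable_const _)).abs
    refine ⟨integrable_finsetSum _ hint, ?_⟩
    rw [integral_finsetSum _ hint]
    calc _ ≤ ∑ _p ∈ (Finset.Icc (0 : ℤ) 1 ×ˢ Ix CR k).filter
          (fun p : ℤ × ℤ => Ad CR k ((p.2 - p.1) * len k)), C * th ^ (10 * k) := by
          refine Finset.sum_le_sum fun p hp => ?_
          rw [Finset.mem_filter] at hp
          exact (h1 k hk1 0 (p.1 * len k) _ hp.2).2.trans (by gcongr)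
      _ ≤ ∑ _p ∈ Finset.Icc (0 : ℤ) 1 ×ˢ Ix CR k, C * th ^ (10 * k) :=
          Finset.sum_le_sum_of_subset_of_nonneg (Finset.filter_subset _ _) fun _ _ _ => hq
      _ = (2 * ((Ix CR k).card : ℝ)) * (C * th ^ (10 * k)) := by
          rw [Finset.sum_const, Finset.card_product, nsmul_eq_mul, hc2]
          push_cast
          ring
      _ ≤ _ := by gcongr
  have A2 : Integrable (Z2 G CR k) (iidLaw G) ∧
      ∫ t, Z2 G CR k t ∂(iidLaw G) ≤ ((6 * CR * th ^ k) * (6 * CR * th ^ k)) *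
        (C * th ^ (10 * k)) := by
    unfold Z2
    have hint : ∀ p ∈ Ix CR k ×ˢ Ix CR k,
        Integrable (fun t => |mid CR k p.1 p.2 t - ∫ t', mid CR k p.1 p.2 t' ∂(iidLaw G)|)
          (iidLaw G) := by
      intro p hp
      rw [Finset.mem_product] at hp
      exact ((h2 k hk2 p.1 p.2 hp.1 hp.2).1.sub (integrable_const _)).abs
    refine ⟨integrable_finsetSum _ hint, ?_⟩
    rw [integral_finsetSum _ hint]
    calc _ ≤ ∑ _p ∈ Ix CR k ×ˢ Ix CR k, C * th ^ (10 * k) := by
          refine Finset.sum_le_sum fun p hp => ?_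
          rw [Finset.mem_product] at hp
          exact (h2 k hk2 p.1 p.2 hp.1 hp.2).2.trans (by gcongr)
      _ = (((Ix CR k).card : ℝ) * ((Ix CR k).card : ℝ)) * (C * th ^ (10 * k)) := by
          rw [Finset.sum_const, Finset.card_product, nsmul_eq_mul]
          push_cast
          ring
      _ ≤ _ := by gcongr
  have A3 : Integrable (Z3 G CR k D) (iidLaw G) ∧
      ∫ t, Z3 G CR k D t ∂(iidLaw G) ≤ (2 * (6 * CR * th ^ k)) * (C * th ^ (10 * k)) := by
    unfold Z3
    have hint : ∀ p ∈ (Ix CR k ×ˢ Finset.Icc (0 : ℤ) 1).filter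
      (fun p : ℤ × ℤ => Ad CR k (D + (p.2 - p.1) * len k)),
        Integrable (fun t => |blk CR k (2 ^ k) (p.1 * len k) (D + (p.2 - p.1) * len k) t -
          tau G CR k (D + (p.2 - p.1) * len k)|) (iidLaw G) := by
      intro p hp
      rw [Finset.mem_filter] at hp
      exact ((h1 k hk1 (2 ^ k) (p.1 * len k) _ hp.2).1.sub (integrable_const _)).abs
    refine ⟨integrable_finsetSum _ hint, ?_⟩
    rw [integral_finsetSum _ hint]
    calc _ ≤ ∑ _p ∈ (Ix CR k ×ˢ Finset.Icc (0 : ℤ) 1).filter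
            (fun p : ℤ × ℤ => Ad CR k (D + (p.2 - p.1) * len k)), C * th ^ (10 * k) := by
          refine Finset.sum_le_sum fun p hp => ?_
          rw [Finset.mem_filter] at hp
          exact (h1 k hk1 (2 ^ k) (p.1 * len k) _ hp.2).2.trans (by gcongr)
      _ ≤ ∑ _p ∈ Ix CR k ×ˢ Finset.Icc (0 : ℤ) 1, C * th ^ (10 * k) :=
          Finset.sum_le_sum_of_subset_of_nonneg (Finset.filter_subset _ _) fun _ _ _ => hq
      _ = (2 * ((Ix CR k).card : ℝ)) * (C * th ^ (10 * k)) := by
          rw [Finset.sum_const, Finset.card_product, nsmul_eq_mul, hc2]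
          push_cast
          ring
      _ ≤ _ := by gcongr
  refine ⟨(A1.1.add A2.1).add A3.1, ?_⟩
  have e : ∫ t, (Z1 G CR k t + Z2 G CR k t + Z3 G CR k D t) ∂(iidLaw G) =
      ∫ t, Z1 G CR k t ∂(iidLaw G) + ∫ t, Z2 G CR k t ∂(iidLaw G) +
      ∫ t, Z3 G CR k D t ∂(iidLaw G) := by
    rw [integral_add (f := fun t => Z1 G CR k t + Z2 G CR k t) (A1.1.add A2.1) A3.1,
      integral_add A1.1 A2.1]
  rw [e]
  have hx : (6 * (CR : ℝ) * th ^ k) ≥ 6 := by nlinarith
  have step : (2 * (6 * CR * th ^ k)) * (C * th ^ (10 * k)) ≤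
      ((6 * CR * th ^ k) * (6 * CR * th ^ k)) * (C * th ^ (10 * k)) := by
    apply mul_le_mul_of_nonneg_right _ hq
    nlinarith
  have fin : 3 * (((6 * CR * th ^ k) * (6 * CR * th ^ k)) * (C * th ^ (10 * k))) ≤
      108 * CR ^ 2 * C * th ^ (15 * k) := by
    have : 3 * (((6 * CR * th ^ k) * (6 * CR * th ^ k)) * (C * th ^ (10 * k))) =
        108 * CR ^ 2 * C * th ^ (12 * k) := by ring
    rw [this]
    have : th ^ (12 * k) ≤ th ^ (15 * k) := pow_le_pow_right₀ hth.le (by omega)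
    gcongr
  linarith [A1.2, A2.2, A3.2]

/-- from a point to the last column -/
lemma TE_exit {t : Environment} (ht : Nn t) {a b y0 R x y : ℤ} {n : ℕ} (hx : a ≤ x)
    (hn : x + n + 3 = b) (hy : y0 - R + 3 ≤ y) (hy' : y + 3 ≤ y0 + R) :
    TE (Box a b y0 R) {(x, y)} (seg b (y - 1) 3) t ≤ rowS x y n t + sX (x + n) y t := by
  subst hn
  have h1 := TE_row_le (t := t) ht hy hy' x n hx (b := x + n + 3) (by omega)
  have h2 : TE (Box a (x + n + 3) y0 R) {(x + n, y)} (seg (x + n + 3) (y - 1) 3) t ≤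
      sX (x + n) y t := by
    unfold sX
    exact TE_mono (Box_mono (by omega) le_rfl (by omega) (by omega)) subset_rfl subset_rfl
        (conn_sX (x + n) y) t
  have h3 := TE_trans (E := Box a (x + n + 3) y0 R) (A := {(x, y)})
    (C := seg (x + n + 3) (y - 1) 3) (b := (x + n, y)) ht
    (conn_row hx (by omega) (by omega) (by omega) (by omega))
    ((conn_sX (x + n) y).mono (by
      exact_mod_cast Box_mono (by omega) le_rfl (by omega) (by omega)) subset_rfl subset_rfl)
  unfold rowS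
  linarith

lemma tau_zero_le (H : Hyp G al be s a) {CR k : ℕ} (hCR : 1 ≤ CR) (hk : 64 ≤ k) :
    tau G CR k 0 ≤ cS G * 2 ^ k := by
  have hr := rat_ge hk
  have hlp : 1 ≤ len k := len_pos k
  have h8 : 8 * (len k : ℤ) ≤ 2 ^ k := by
    rw [two_pow_int k, mul_comm]
    exact mul_le_mul_of_nonneg_left (by exact_mod_cast hr) (by positivity)
  have hl3 : 4 ≤ len k := by
    unfold len
    calc 4 = 2 ^ 2 := by norm_num
      _ ≤ _ := Nat.pow_le_pow_right (by norm_num) (by omega)
  have h2 : (0 : ℤ) < 2 ^ k := by positivity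
  have h3 : (2 : ℤ) ^ k ≤ CR * 2 ^ k := le_mul_of_one_le_left h2.le (by exact_mod_cast hCR)
  obtain ⟨n, hn⟩ : ∃ n : ℕ, (0 : ℤ) + n + 3 = 2 ^ k := ⟨(2 ^ k - 3 : ℤ).toNat, by omega⟩
  have hle : ∀ᵐ t ∂(iidLaw G), blk CR k 0 0 0 t ≤ rowS 0 1 n t + sX (0 + n) 1 t := by
    filter_upwards [ae_Nn H.h0] with t ht
    have h4 := TE_exit (a := 0) (b := 2 ^ k) (y0 := 0) (R := CR * 2 ^ k) (x := 0) (y := 1)
      (n := n) ht le_rfl hn (by omega) (by omega)
    refine le_trans ?_ h4
    unfold blk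
    simp only [zero_add]
    refine TE_mono (Finset.Subset.refl _) ?_ ?_ ?_ t
    · intro p hp
      rw [Set.mem_singleton_iff] at hp
      subst hp
      exact ⟨rfl, by simp only; omega, by simp only; omega⟩
    · intro p hp
      rw [mem_seg] at hp ⊢
      push_cast at hp
      omega
    · refine conn_box_sets (p := (0, 1)) (q := (2 ^ k, 1)) rfl ?_ (by simp) (by simp only; omega)
        (by simp only; omega) (by simp) (by omega) (by simp only; omega) (by simp only; omega)
        (by simp only; omega) (by simp only; omega)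
      exact ⟨rfl, by simp only; omega, by simp only; omega⟩
  have hnn : 0 ≤ᵐ[iidLaw G] blk CR k 0 0 0 := by
    filter_upwards [ae_Nn H.h0] with t ht
    exact TE_nonneg ht
  have h5 := integral_mono_of_nonneg hnn
    ((integrable_rowS H 0 1 n).add (integrable_sX H (0 + n) 1)) hle
  have h6 : ∫ t, (rowS 0 1 n + sX (0 + n) 1) t ∂(iidLaw G) =
      ∫ t, rowS 0 1 n t ∂(iidLaw G) + ∫ t, sX (0 + n) 1 t ∂(iidLaw G) :=
    integral_add (integrable_rowS H 0 1 n) (integrable_sX H (0 + n) 1)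
  have h7 := integral_rowS_le H 0 1 n
  have h8 := integral_sX_le (G := G) H.h0 (0 + n) 1
  have h9 : ((n : ℕ) : ℝ) + 3 = 2 ^ k := by
    have : ((n : ℤ) + 3) = 2 ^ k := by omega
    exact_mod_cast this
  have h10 := cS_nonneg (G := G) H.h0
  have h11 : tau G CR k 0 ≤ _ := h5
  rw [h6] at h11
  rw [← h9]
  nlinarith

set_option maxHeartbeats 4000000 in
lemma super_core (H : Hyp G al be s a) :
    ∃ CR0 : ℕ, ∀ CR : ℕ, CR0 ≤ CR → ∃ (C : ℝ) (k0 : ℕ), 0 ≤ C ∧ ∀ k : ℕ, k0 ≤ k → ∀ h : ℝ,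
      LB G al be CR k h → LB G al be CR (k + 1) (2 * h - C * th ^ (15 * k)) := by
  classical
  obtain ⟨c1, hc1, hpei⟩ := H.pei
  have hcS := cS_nonneg (G := G) H.h0
  have ha := H.ha
  set Cup : ℝ := cS G + |al| with hCup
  have hCup0 : 0 ≤ Cup := by positivity
  set D' : ℝ := 2 * |s| + (2 * Cup + 4 * cS G) / a with hD'
  have hD'0 : 0 ≤ D' := by positivity
  set K : ℝ := 2 * |al| + |be| * D' + 2 * Cup with hK
  have hK0 : 0 ≤ K := by positivity
  obtain ⟨CR0, hCR0⟩ := exists_nat_ge (3 + K / c1)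
  refine ⟨CR0, fun CR hCRge => ?_⟩
  have hCRr : 3 + K / c1 ≤ CR := hCR0.trans (by exact_mod_cast hCRge)
  have hCR3 : 3 ≤ CR := by
    have : (3 : ℝ) ≤ CR := by
      have : 0 ≤ K / c1 := by positivity
      linarith
    exact_mod_cast this
  have hCRK : K ≤ c1 * (CR - 2) := by
    have : K / c1 ≤ CR - 2 := by linarith
    rw [div_le_iff₀ hc1] at this
    linarith
  have hCR1 : 1 ≤ CR := by omega
  obtain ⟨C1, k1, h1⟩ := dev_blk (G := G) H.dev hCR1
  obtain ⟨C2, k2, h2⟩ := integrable_mid (G := G) H.dev hCR1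
  obtain ⟨C3, k3, hC3, h3⟩ := Z_bounds (G := G) H.dev hCR1
  have hth := one_lt_th
  have hthp := th_pos
  refine ⟨C3 + (|be| + 2 * cS G) + 4 * K, max (max k1 k2) (max k3 64), by positivity,
    fun k hk h hLB D hD => ?_⟩
  have hk1 : k1 ≤ k := ((le_max_left _ _).trans (le_max_left _ _)).trans hk
  have hk2 : k2 ≤ k := ((le_max_right _ _).trans (le_max_left _ _)).trans hk
  have hk3 : k3 ≤ k := ((le_max_left _ _).trans (le_max_right _ _)).trans hk
  have hk64 : 64 ≤ k := ((le_max_right _ _).trans (le_max_right _ _)).trans hk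
  obtain ⟨hZi, hZ⟩ := h3 k hk3 D
  -- bound of `h`
  have hpow2 : (0 : ℝ) < 2 ^ k := by positivity
  have h2z : (0 : ℤ) < 2 ^ k := by positivity
  have hhub : h ≤ Cup * 2 ^ k := by
    have e0 := hLB 0 (by
      rw [abs_zero, zero_add]
      exact le_mul_of_one_le_left h2z.le (by exact_mod_cast hCR1))
    have e1 := tau_zero_le H hCR1 hk64
    have e2 : -(|al| * 2 ^ k) ≤ al * 2 ^ k := by
      have := neg_abs_le al
      nlinarith
    rw [hCup]
    push_cast at e0
    nlinarith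
  have hl15 : (len k : ℝ) ≤ th ^ (15 * k) := len_le_th k
  have hth15 : (1 : ℝ) ≤ th ^ (15 * k) := one_le_pow₀ hth.le
  have hD1 := h1 (k + 1) (by omega) 0 0 D hD
  have hD0 : |D| ≤ CR * 2 ^ (k + 1) := by
    have : (0 : ℤ) < 2 ^ (k + 1) := by positivity
    linarith
  have hll : (len (k + 1) : ℝ) ≤ 2 * len k := by exact_mod_cast len_succ_le k
  have hl2k : (len k : ℝ) ≤ 2 ^ k := by exact_mod_cast len_le k
  have hl0 : (0 : ℝ) ≤ len k := by positivity
  rcases le_or_gt |(D : ℝ)| (D' * 2 ^ k) with hDD | hDD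
  · -- main case
    set R0 : ℝ := 2 * al * 2 ^ k + be * D + 2 * h - len k * (|be| + 2 * cS G) with hR0
    have hR0K : R0 ≤ K * 2 ^ k := by
      have e1 : 2 * al * 2 ^ k ≤ 2 * |al| * 2 ^ k := by
        have := le_abs_self al
        nlinarith
      have e2 : be * D ≤ |be| * (D' * 2 ^ k) := by
        calc be * D ≤ |be * D| := le_abs_self _
          _ = |be| * |(D : ℝ)| := abs_mul _ _
          _ ≤ _ := by gcongr
      have e3 : 0 ≤ (len k : ℝ) * (|be| + 2 * cS G) := by positivity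
      rw [hR0, hK]
      nlinarith
    set B' := toMeasurable (iidLaw G) (Bd c1 k) with hB'
    have hB'm : MeasurableSet B' := measurableSet_toMeasurable _ _
    have hB'p : (iidLaw G).real B' ≤ 4 / 2 ^ k := by
      rw [measureReal_def, hB', measure_toMeasurable]
      exact ENNReal.toReal_le_of_le_ofReal (by positivity) (prob_Bd hpei k)
    have hpath : ∀ᵐ t ∂(iidLaw G), R0 - (Z1 G CR k t + Z2 G CR k t + Z3 G CR k D t) -
        K * 2 ^ k * B'.indicator (fun _ => (1 : ℝ)) t ≤ blk CR (k + 1) 0 0 D t := by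
      filter_upwards [ae_Nn H.h0] with t ht
      have hZ1 : 0 ≤ Z1 G CR k t := Finset.sum_nonneg fun _ _ => abs_nonneg _
      have hZ2 : 0 ≤ Z2 G CR k t := Finset.sum_nonneg fun _ _ => abs_nonneg _
      have hZ3 : 0 ≤ Z3 G CR k D t := Finset.sum_nonneg fun _ _ => abs_nonneg _
      have hind : 0 ≤ B'.indicator (fun _ => (1 : ℝ)) t :=
        Set.indicator_nonneg (fun _ _ => zero_le_one) t
      have hcn := conn_blk (CR := CR) (k := k + 1) (x0 := 0) (y0 := 0) hD0
      obtain ⟨p, hp, q, hq, w, hwp, hwe, hwc⟩ := exists_walk_TE ht hcn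
      simp only [zero_add] at hp hq hwe
      have hwc' : walkCost t w ≤ blk CR (k + 1) 0 0 D t := hwc
      refine le_trans ?_ hwc'
      by_cases hlen : (w.length : ℤ) + 2 * 2 ^ k ≤ CR * 2 ^ k
      · obtain ⟨i0, i1, i2, j, hi0, hi1, hi2, hj, had1, had2, hsum⟩ :=
          path_lower hk64 ht hp hq w hwe hlen
        have hm1 : i1 ∈ Ix CR k := by unfold Ix; rw [Finset.mem_Icc]; exact hi1
        have hm2 : i2 ∈ Ix CR k := by unfold Ix; rw [Finset.mem_Icc]; exact hi2
        have f1 : |blk CR k 0 (i0 * len k) ((i1 - i0) * len k) t -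
            tau G CR k ((i1 - i0) * len k)| ≤ Z1 G CR k t := by
          unfold Z1
          refine Finset.single_le_sum (f := fun p : ℤ × ℤ =>
            |blk CR k 0 (p.1 * len k) ((p.2 - p.1) * len k) t - tau G CR k ((p.2 - p.1) * len k)|)
            (fun _ _ => abs_nonneg _) (a := (i0, i1)) ?_
          rw [Finset.mem_filter, Finset.mem_product]
          exact ⟨⟨Finset.mem_Icc.2 hi0, hm1⟩, had1⟩
        have f2 : |mid CR k i1 i2 t - ∫ t', mid CR k i1 i2 t' ∂(iidLaw G)| ≤ Z2 G CR k t := by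
          unfold Z2
          refine Finset.single_le_sum (f := fun p : ℤ × ℤ =>
            |mid CR k p.1 p.2 t - ∫ t', mid CR k p.1 p.2 t' ∂(iidLaw G)|)
            (fun _ _ => abs_nonneg _) (a := (i1, i2)) ?_
          rw [Finset.mem_product]
          exact ⟨hm1, hm2⟩
        have f3 : |blk CR k (2 ^ k) (i2 * len k) (D + (j - i2) * len k) t -
            tau G CR k (D + (j - i2) * len k)| ≤ Z3 G CR k D t := by
          unfold Z3
          refine Finset.single_le_sum (f := fun p : ℤ × ℤ =>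
            |blk CR k (2 ^ k) (p.1 * len k) (D + (p.2 - p.1) * len k) t -
              tau G CR k (D + (p.2 - p.1) * len k)|)
            (fun _ _ => abs_nonneg _) (a := (i2, j)) ?_
          rw [Finset.mem_filter, Finset.mem_product]
          exact ⟨⟨hm2, Finset.mem_Icc.2 hj⟩, had2⟩
        have g1 := hLB _ had1
        have g3 := hLB _ had2
        have hmid := h2 k hk2 i1 i2 hm1 hm2
        have g2 := mean_lower H (E := Box 0 (2 ^ (k + 1)) 0 (CR * 2 ^ (k + 1))) (x := 2 ^ k)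
          (y := i1 * len k) (x' := 2 ^ k) (y' := i2 * len k) (l := len k) (l' := len k) (by
            have hb : ∀ i : ℤ, i ∈ Ix CR k → -((CR : ℤ) * 2 ^ k) ≤ i * len k ∧
                i * len k ≤ CR * 2 ^ k := by
              intro i hi
              unfold Ix at hi
              rw [Finset.mem_Icc] at hi
              rw [two_pow_int k]
              constructor
              · calc -((CR : ℤ) * (len k * rat k)) = (-(CR * rat k : ℤ)) * len k := by ring
                  _ ≤ i * len k := mul_le_mul_of_nonneg_right hi.1 (by positivity)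
              · calc i * len k ≤ (CR * rat k : ℤ) * len k :=
                      mul_le_mul_of_nonneg_right hi.2 (by positivity)
                  _ = _ := by ring
            obtain ⟨b1, b2⟩ := hb i1 hm1
            obtain ⟨b3, b4⟩ := hb i2 hm2
            have hpow : (2 : ℤ) ^ (k + 1) = 2 * 2 ^ k := by rw [pow_succ]; ring
            have hx : (CR : ℤ) * 2 ^ (k + 1) = 2 * (CR * 2 ^ k) := by rw [hpow]; ring
            have hy : (0 : ℤ) ≤ CR * 2 ^ k := by positivity
            have hlp : 1 ≤ len k := len_pos k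
            exact conn_box_sets (p := (2 ^ k, i1 * len k)) (q := (2 ^ k, i2 * len k))
              ⟨rfl, le_rfl, by simp only; omega⟩ ⟨rfl, le_rfl, by simp only; omega⟩
              (by simp only; omega) (by simp only; omega) (by simp only; omega)
              (by simp only; omega) (by omega) (by simp only; omega) (by simp only; omega)
              (by simp only; omega) (by simp only; omega)) hmid.1
        have g2' : be * ((i2 - i1) * len k) - 2 * len k * cS G ≤
            ∫ t', mid CR k i1 i2 t' ∂(iidLaw G) := by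
          refine le_trans ?_ g2
          push_cast
          have : 0 ≤ a * |((i2 : ℝ) * len k - i1 * len k) - s * (2 ^ k - 2 ^ k)| := by positivity
          nlinarith
        have hsum' : blk CR k 0 (i0 * len k) ((i1 - i0) * len k) t + mid CR k i1 i2 t +
          blk CR k (2 ^ k) (i2 * len k) (D + (j - i2) * len k) t ≤ walkCost t w := hsum
        rw [abs_le] at f1 f2 f3
        have hij : -(|be| * len k) ≤ be * ((j - i0) * len k) := by
          have e1 : |(j : ℝ) - i0| ≤ 1 := by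
            have : |j - i0| ≤ 1 := by rw [abs_le]; omega
            exact_mod_cast this
          have e2 : |be * (((j : ℝ) - i0) * len k)| ≤ |be| * len k := by
            rw [abs_mul, abs_mul, abs_of_nonneg hl0]
            have : |(j : ℝ) - i0| * len k ≤ 1 * len k := by gcongr
            calc |be| * (|(j : ℝ) - i0| * len k) ≤ |be| * (1 * len k) := by gcongr
              _ = _ := by ring
          exact (abs_le.1 e2).1
        push_cast at g1 g3
        have hK2 : 0 ≤ K * 2 ^ k * B'.indicator (fun _ => (1 : ℝ)) t := by positivity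
        rw [hR0]
        linarith
      · have hlen' : (CR : ℝ) * 2 ^ k < w.length + 2 * 2 ^ k := by
          have : (CR : ℤ) * 2 ^ k < w.length + 2 * 2 ^ k := not_le.1 hlen
          exact_mod_cast this
        by_cases hbad : t ∈ Bd c1 k
        · have : t ∈ B' := subset_toMeasurable _ _ hbad
          rw [Set.indicator_of_mem this]
          have := walkCost_nonneg ht w
          linarith
        · have hlong : c1 * w.length ≤ walkCost t w := by
            by_contra hcon
            apply hbad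
            unfold Bd
            obtain ⟨hp1, hp2, hp3⟩ := hp
            have hl2 : (len (k + 1) : ℤ) ≤ 2 ^ (k + 1) := by exact_mod_cast len_le (k + 1)
            rw [Set.mem_iUnion₂]
            refine ⟨p.2.toNat, ?_, ?_⟩
            · rw [Finset.mem_range]
              zify
              omega
            · have hpe : ((0 : ℤ), ((p.2.toNat : ℕ) : ℤ)) = p :=
                Prod.ext hp1.symm (Int.toNat_of_nonneg hp2)
              rw [hpe]
              refine ⟨q, w, hwp, ?_, not_le.1 hcon⟩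
              have e3 : (3 : ℝ) * 2 ^ k ≤ CR * 2 ^ k := by
                have : (3 : ℝ) ≤ CR := by exact_mod_cast hCR3
                gcongr
              have : (2 : ℝ) ^ k ≤ w.length := by linarith
              exact_mod_cast this
          have e4 : K * 2 ^ k ≤ c1 * w.length := by
            calc K * 2 ^ k ≤ c1 * (CR - 2) * 2 ^ k := by gcongr
              _ = c1 * ((CR - 2) * 2 ^ k) := by ring
              _ ≤ c1 * w.length := by
                apply mul_le_mul_of_nonneg_left _ hc1.le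
                linarith
          have hK2 : 0 ≤ K * 2 ^ k * B'.indicator (fun _ => (1 : ℝ)) t := by positivity
          linarith
    have hind : Integrable (B'.indicator (fun _ => (1 : ℝ))) (iidLaw G) :=
      (integrable_const 1).indicator hB'm
    have hI1 : Integrable (fun t => R0 - (Z1 G CR k t + Z2 G CR k t + Z3 G CR k D t))
        (iidLaw G) := (integrable_const R0).sub hZi
    have hI2 : Integrable (fun t => R0 - (Z1 G CR k t + Z2 G CR k t + Z3 G CR k D t) -
        K * 2 ^ k * B'.indicator (fun _ => (1 : ℝ)) t) (iidLaw G) :=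
      hI1.sub (hind.const_mul (K * 2 ^ k))
    have hint := integral_mono_ae hI2 hD1.1 hpath
    have e1 : ∫ t, (R0 - (Z1 G CR k t + Z2 G CR k t + Z3 G CR k D t) -
        K * 2 ^ k * B'.indicator (fun _ => (1 : ℝ)) t) ∂(iidLaw G) =
        R0 - (∫ t, (Z1 G CR k t + Z2 G CR k t + Z3 G CR k D t) ∂(iidLaw G)) -
          K * 2 ^ k * (iidLaw G).real B' := by
      rw [integral_sub hI1 (hind.const_mul (K * 2 ^ k)),
        integral_sub (integrable_const R0) hZi, integral_const_mul]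
      have : ∫ t, B'.indicator (fun _ => (1 : ℝ)) t ∂(iidLaw G) = (iidLaw G).real B' := by
        rw [integral_indicator hB'm]
        simp
      rw [this]
      simp
    rw [e1] at hint
    have e2 : ∫ t, blk CR (k + 1) 0 0 D t ∂(iidLaw G) = tau G CR (k + 1) D := rfl
    rw [e2] at hint
    have e3 : K * 2 ^ k * (iidLaw G).real B' ≤ 4 * K := by
      calc K * 2 ^ k * (iidLaw G).real B' ≤ K * 2 ^ k * (4 / 2 ^ k) := by gcongr
        _ = 4 * K := by field_simp
    have e4 : (len k : ℝ) * (|be| + 2 * cS G) ≤ (|be| + 2 * cS G) * th ^ (15 * k) := by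
      rw [mul_comm]
      gcongr
    have e5 : 4 * K ≤ 4 * K * th ^ (15 * k) := le_mul_of_one_le_right (by positivity) hth15
    have e6 : (2 : ℝ) ^ (k + 1) = 2 * 2 ^ k := by rw [pow_succ]; ring
    rw [e6]
    rw [hR0] at hint
    linarith
  · -- far targets
    have g := mean_lower H (conn_blk (CR := CR) (k := k + 1) (x0 := 0) (y0 := 0) hD0) hD1.1
    have e2 : ∫ t, TE (Box 0 (0 + 2 ^ (k + 1)) 0 (CR * 2 ^ (k + 1))) (seg 0 0 (len (k + 1)))
      (seg (0 + 2 ^ (k + 1)) (0 + D) (len (k + 1))) t ∂(iidLaw G) = tau G CR (k + 1) D := rfl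
    rw [e2] at g
    refine le_trans ?_ g
    push_cast
    have e6 : (2 : ℝ) ^ (k + 1) = 2 * 2 ^ k := by rw [pow_succ]; ring
    rw [e6]
    have e7 : |(D : ℝ)| - 2 * |s| * 2 ^ k ≤ |(0 + D - 0) - s * (0 + 2 * 2 ^ k - 0)| := by
      have : |(D : ℝ)| ≤ |(0 + D - 0) - s * (0 + 2 * 2 ^ k - 0)| + |s * (2 * 2 ^ k)| := by
        calc |(D : ℝ)| = |((0 + D - 0) - s * (0 + 2 * 2 ^ k - 0)) + s * (2 * 2 ^ k)| := by
              congr 1; ring
          _ ≤ _ := abs_add_le _ _
      rw [abs_mul, abs_of_pos (by positivity : (0 : ℝ) < 2 * 2 ^ k)] at this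
      linarith
    have e8 : (2 * Cup + 4 * cS G) * 2 ^ k ≤ a * |(0 + D - 0) - s * (0 + 2 * 2 ^ k - 0)| := by
      have : (2 * Cup + 4 * cS G) / a * 2 ^ k ≤ |(0 + D - 0) - s * (0 + 2 * 2 ^ k - 0)| := by
        refine le_trans ?_ e7
        rw [hD'] at hDD
        nlinarith
      calc (2 * Cup + 4 * cS G) * 2 ^ k = a * ((2 * Cup + 4 * cS G) / a * 2 ^ k) := by
            field_simp
        _ ≤ _ := by gcongr
    have e9 : ((len (k + 1) : ℝ) + len (k + 1)) * cS G ≤ 4 * cS G * 2 ^ k := by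
      have : (len (k + 1) : ℝ) + len (k + 1) ≤ 4 * 2 ^ k := by linarith
      calc ((len (k + 1) : ℝ) + len (k + 1)) * cS G ≤ (4 * 2 ^ k) * cS G := by gcongr
        _ = _ := by ring
    have e10 : 0 ≤ (C3 + (|be| + 2 * cS G) + 4 * K) * th ^ (15 * k) := by positivity
    nlinarith

end

end Crest.Agent.R151.U
end

-- ▼ part R151/U750e

/-!
# R151/U750e — the limit of the block means and the rate (owner helper750)
-/

set_option autoImplicit false
set_option linter.unusedSectionVars false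

open MeasureTheory Filter
open scoped Topology
open Crest.ProbabilityR.FirstPassage
open Crest.Agent.R151.K

namespace Crest.Agent.R151.U

attribute [local irreducible] Box TE

variable {G : Measure ℝ} [IsProbabilityMeasure G] {al be s a : ℝ}

/-- time to a point in a large box -/
noncomputable def big (m : ℕ) (M : ℤ) (r : ℕ) (x y : ℤ) (t : Environment) : ℝ :=
  TE (Box (x - r) (x + r) y r) {(x, y)} {(x + m, y + M)} t

lemma conn_big {m r : ℕ} {M : ℤ} (h : (m : ℤ) + |M| + 4 ≤ r) (x y : ℤ) :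
    Conn (↑(Box (x - r) (x + r) y r)) {(x, y)} {(x + (m : ℤ), y + M)} := by
  have h1 := neg_abs_le M
  have h2 := le_abs_self M
  exact conn_box (by simp only; omega) (by simp only; omega) (by simp only; omega)
    (by simp only; omega) (by omega) (by simp only; omega) (by simp only; omega)
    (by simp only; omega) (by simp only; omega)

lemma big_tr {m r : ℕ} {M : ℤ} (h : (m : ℤ) + |M| + 4 ≤ r) (x y : ℤ) :
    big m M r x y = fun t => big m M r 0 0 (act (tr (x, y)) t) := by
  funext t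
  have := TE_box_tr (0 - (r : ℤ)) (0 + r) 0 r {((0 : ℤ), (0 : ℤ))} {((0 : ℤ) + m, (0 : ℤ) + M)}
    (conn_big h 0 0) (x, y) t
  rw [image_tr_single, image_tr_single] at this
  simp only [Prod.mk_add_mk, zero_add, zero_sub] at this
  unfold big
  simp only [zero_add, zero_sub]
  rw [← this]
  rw [add_comm (-(r : ℤ)) x, ← sub_eq_add_neg, add_comm (r : ℤ) x, add_comm (m : ℤ) x,
    add_comm M y]

lemma measurable_big (m : ℕ) (M : ℤ) (r : ℕ) (x y : ℤ) : Measurable (big m M r x y) :=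
  measurable_TE _ _ _

lemma big_le {m r : ℕ} {M : ℤ} (h : (m : ℤ) + |M| + 4 ≤ r) {t : Environment} (ht : Nn t) :
    big m M r 0 0 t ≤ rowS 0 0 m t + colS m (-|M|) (2 * M.natAbs) t := by
  have h1 := neg_abs_le M
  have h2 := le_abs_self M
  have h3 : (M.natAbs : ℤ) = |M| := Int.natCast_natAbs M
  unfold big
  simp only [zero_add, zero_sub]
  have e1 := TE_row_le (t := t) (a := -(r : ℤ)) (b := r) (y0 := 0) (R := r) (y := 0) ht
    (by omega) (by omega) 0 m (by omega) (by omega)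
  have e2 := TE_col_le (t := t) (a := -(r : ℤ)) (b := r) (y0 := 0) (R := r) (x := m) ht
    (by omega) (by omega) (-|M|) (2 * M.natAbs) (by omega) (by push_cast; omega)
    (p := ((m : ℤ), 0)) (q := ((m : ℤ), M)) rfl rfl (by simp only; omega)
    (by simp only; push_cast; omega) (by simp only; omega) (by simp only; push_cast; omega)
  simp only [zero_add] at e1
  have e3 := TE_trans (t := t) (E := Box (-(r : ℤ)) r 0 r) (A := {((0 : ℤ), (0 : ℤ))})
    (C := {((m : ℤ), M)}) (b := ((m : ℤ), (0 : ℤ))) ht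
    (conn_row (by omega) (by omega) (by omega) (by omega) (by omega))
    (conn_box (by simp only; omega) (by simp only; omega) (by simp only; omega)
      (by simp only; omega) (by omega) (by simp only; omega) (by simp only; omega)
      (by simp only; omega) (by simp only; omega))
  unfold rowS colS
  simp only [zero_add]
  linarith

lemma integrable_big (H : Hyp G al be s a) {m r : ℕ} {M : ℤ} (h : (m : ℤ) + |M| + 4 ≤ r)
    (x y : ℤ) : Integrable (big m M r x y) (iidLaw G) := by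
  rw [big_tr h]
  refine (mp_act (G := G) (tr (x, y))).integrable_comp_of_integrable ?_
  refine Integrable.mono' ((integrable_rowS H 0 0 m).add
    (integrable_colS H m (-|M|) (2 * M.natAbs))) (measurable_big _ _ _ _ _).aestronglyMeasurable ?_
  filter_upwards [ae_Nn H.h0] with t ht
  rw [Real.norm_of_nonneg (TE_nonneg ht)]
  exact big_le h ht

lemma integral_big {m r : ℕ} {M : ℤ} (h : (m : ℤ) + |M| + 4 ≤ r) (x y : ℤ) :
    ∫ t, big m M r x y t ∂(iidLaw G) = ∫ t, big m M r 0 0 t ∂(iidLaw G) := by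
  rw [big_tr h x y]
  exact integral_pt_iso (tr (x, y)) (big m M r 0 0) (measurable_big _ _ _ _ _).aestronglyMeasurable

/-- the means of the large-box times converge -/
lemma tendsto_big (H : Hyp G al be s a) (m : ℕ) (M : ℤ) :
    Tendsto (fun r : ℕ => ∫ t, big m M (r + (m + M.natAbs + 4)) 0 0 t ∂(iidLaw G)) atTop
      (𝓝 (ET G ((m : ℤ), M))) := by
  have h3 : (M.natAbs : ℤ) = |M| := Int.natCast_natAbs M
  have hr : ∀ r : ℕ, (m : ℤ) + |M| + 4 ≤ ((r + (m + M.natAbs + 4) : ℕ) : ℤ) := by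
    intro r
    push_cast
    omega
  have hmono : ∀ r r' : ℕ, r ≤ r' → ∀ t, big m M (r' + (m + M.natAbs + 4)) 0 0 t ≤
      big m M (r + (m + M.natAbs + 4)) 0 0 t := by
    intro r r' hrr t
    unfold big
    refine TE_mono (Box_mono ?_ ?_ ?_ ?_) subset_rfl subset_rfl (conn_big (hr r) 0 0) t
    all_goals push_cast; omega
  unfold ET
  refine tendsto_integral_of_dominated_convergence
    (fun t => |big m M (0 + (m + M.natAbs + 4)) 0 0 t|)
    (fun r => (measurable_big _ _ _ _ _).aestronglyMeasurable)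
    (integrable_big H (hr 0) 0 0).abs ?_ ?_
  · intro r
    filter_upwards [ae_Nn H.h0] with t ht
    rw [Real.norm_of_nonneg (show 0 ≤ big m M (r + (m + M.natAbs + 4)) 0 0 t from TE_nonneg ht)]
    exact (hmono 0 r (Nat.zero_le _) t).trans (le_abs_self _)
  · filter_upwards [ae_Nn H.h0] with t ht
    rw [Metric.tendsto_atTop]
    intro ε hε
    obtain ⟨w, hw⟩ := exists_walk_lt t (0, 0) ((m : ℤ), M)
      (c := passageTime t (0, 0) ((m : ℤ), M) + ε) (by linarith)
    refine ⟨w.length, fun r hr' => ?_⟩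
    have hlow : passageTime t (0, 0) ((m : ℤ), M) ≤ big m M (r + (m + M.natAbs + 4)) 0 0 t := by
      have hc := conn_big (hr r) 0 0
      unfold big
      simp only [zero_add] at hc ⊢
      exact pt_le_TE ht hc
    have hup : big m M (r + (m + M.natAbs + 4)) 0 0 t ≤ walkCost t w := by
      unfold big
      simp only [zero_add]
      refine TE_le_walk ht w ?_ rfl rfl
      intro e he
      have hs : ∀ p ∈ e, p ∈ w.support := fun p hp => edge_mem_support w he hp
      induction e using Sym2.inductionOn with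
      | _ x y =>
        have hadj := adj_of_mem_edges w he
        rw [mem_Box_adj hadj]
        have dx := walk_dist w x (hs x (Sym2.mem_mk_left _ _))
        have dy := walk_dist w y (hs y (Sym2.mem_mk_right _ _))
        simp only [sub_zero, abs_le] at dx dy
        push_cast
        omega
    rw [Real.dist_eq]
    change |big m M (r + (m + M.natAbs + 4)) 0 0 t - passageTime t (0, 0) ((m : ℤ), M)| < ε
    rw [abs_lt]
    constructor <;> linarith

/-- concatenation of `J` blocks -/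
lemma TE_chain {t : Environment} (ht : Nn t) {a b y0 R x y : ℤ} {m r : ℕ} {M : ℤ}
    (hmr : (m : ℤ) + |M| + 4 ≤ r) (J : ℕ) (hx : a ≤ x - r) (hx' : x + J * m + r ≤ b)
    (hy : y0 - R ≤ y - J * |M| - r) (hy' : y + J * |M| + r ≤ y0 + R) :
    TE (Box a b y0 R) {(x, y)} {(x + J * m, y + J * M)} t ≤
      ∑ i ∈ Finset.range J, big m M r (x + i * m) (y + i * M) t := by
  have h1 := neg_abs_le M
  have h2 := le_abs_self M
  induction J with
  | zero =>
    have : TE (Box a b y0 R) {(x, y)} {(x + ((0 : ℕ) : ℤ) * m, y + ((0 : ℕ) : ℤ) * M)} t ≤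
        walkCost t (SimpleGraph.Walk.nil : squareLattice.Walk (x, y) (x, y)) :=
      TE_le_walk ht _ (by simp) rfl (by simp)
    simpa [walkCost] using this
  | succ J ih =>
    rw [Finset.sum_range_succ]
    have e0 : (((J + 1 : ℕ)) : ℤ) * m = J * m + m := by push_cast; ring
    have e1 : (((J + 1 : ℕ)) : ℤ) * M = J * M + M := by push_cast; ring
    have e2 : (((J + 1 : ℕ)) : ℤ) * |M| = J * |M| + |M| := by push_cast; ring
    rw [e0] at hx'
    rw [e2] at hy hy'
    have p1 : 0 ≤ (J : ℤ) * m := by positivity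
    have p2 : (J : ℤ) * M ≤ J * |M| := mul_le_mul_of_nonneg_left h2 (by positivity)
    have p3 : -((J : ℤ) * |M|) ≤ J * M := by
      have := mul_le_mul_of_nonneg_left h1 (show (0 : ℤ) ≤ J by positivity)
      linarith
    have i1 := ih (by omega) (by omega) (by omega)
    rw [e0, e1]
    have c1 : Conn (↑(Box a b y0 R)) {(x, y)} {(x + J * m, y + J * M)} :=
      conn_box (by simp only; omega) (by simp only; omega) (by simp only; omega)
        (by simp only; omega) (by omega) (by simp only; omega) (by simp only; omega)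
        (by simp only; omega) (by simp only; omega)
    have c2 : Conn (↑(Box a b y0 R)) {(x + J * m, y + J * M)}
        {(x + (J * m + m), y + (J * M + M))} :=
      conn_box (by simp only; omega) (by simp only; omega) (by simp only; omega)
        (by simp only; omega) (by omega) (by simp only; omega) (by simp only; omega)
        (by simp only; omega) (by simp only; omega)
    have e3 := TE_trans (t := t) ht c1 c2
    have e4 : TE (Box a b y0 R) {(x + J * m, y + J * M)} {(x + (J * m + m), y + (J * M + M))} t ≤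
        big m M r (x + J * m) (y + J * M) t := by
      unfold big
      rw [← add_assoc, ← add_assoc]
      exact TE_mono (Box_mono (by omega) (by omega) (by omega) (by omega)) subset_rfl subset_rfl
        (conn_big hmr _ _) t
    linarith

lemma TE_A6 {t : Environment} (ht : Nn t) {CR K : ℕ} {m r : ℕ} {M : ℤ}
    (hmr : (m : ℤ) + |M| + 4 ≤ r) (J n' : ℕ) (hJ : (J : ℤ) * m + 2 * r ≤ 2 ^ K)
    (hn : (r : ℤ) + J * m + n' + 3 = 2 ^ K) (hK : 4 ≤ len K)
    (hh : (J : ℤ) * |M| + r + 4 ≤ CR * 2 ^ K) :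
    blk CR K 0 0 (J * M) t ≤ rowS 0 1 r t +
      ∑ i ∈ Finset.range J, big m M r (r + i * m) (1 + i * M) t +
      rowS (r + J * m) (1 + J * M) n' t + sX (r + J * m + n') (1 + J * M) t := by
  have h1 := neg_abs_le M
  have h2 := le_abs_self M
  have p1 : 0 ≤ (J : ℤ) * m := by positivity
  have p2 : (J : ℤ) * M ≤ J * |M| := mul_le_mul_of_nonneg_left h2 (by positivity)
  have p3 : -((J : ℤ) * |M|) ≤ J * M := by
    have := mul_le_mul_of_nonneg_left h1 (show (0 : ℤ) ≤ J by positivity)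
    linarith
  have p4 : 0 ≤ (J : ℤ) * |M| := by positivity
  have e1 := TE_row_le (t := t) (a := 0) (b := 2 ^ K) (y0 := 0) (R := CR * 2 ^ K) (y := 1) ht
    (by omega) (by omega) 0 r (by omega) (by omega)
  have e2 := TE_chain (t := t) (a := 0) (b := 2 ^ K) (y0 := 0) (R := CR * 2 ^ K) (x := r) (y := 1)
    ht hmr J (by omega) (by omega) (by omega) (by omega)
  have e3 := TE_exit (t := t) (a := 0) (b := 2 ^ K) (y0 := 0) (R := CR * 2 ^ K)
    (x := r + J * m) (y := 1 + J * M) (n := n') ht (by omega) hn (by omega) (by omega)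
  simp only [zero_add] at e1
  have c1 : Conn (↑(Box 0 (2 ^ K) 0 (CR * 2 ^ K))) {((0 : ℤ), (1 : ℤ))} {((r : ℤ), (1 : ℤ))} :=
    conn_row (by omega) (by omega) (by omega) (by omega) (by omega)
  have c2 : Conn (↑(Box 0 (2 ^ K) 0 (CR * 2 ^ K))) {((r : ℤ), (1 : ℤ))}
      {((r : ℤ) + J * m, (1 : ℤ) + J * M)} :=
    conn_box (by simp only; omega) (by simp only; omega) (by simp only; omega)
        (by simp only; omega) (by omega) (by simp only; omega) (by simp only; omega)
        (by simp only; omega) (by simp only; omega)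
  have c3 : Conn (↑(Box 0 (2 ^ K) 0 (CR * 2 ^ K))) {((r : ℤ) + J * m, (1 : ℤ) + J * M)}
      (seg (2 ^ K) ((1 : ℤ) + J * M - 1) 3) :=
    conn_box_sets (p := ((r : ℤ) + J * m, (1 : ℤ) + J * M)) (q := (2 ^ K, (1 : ℤ) + J * M)) rfl
        ⟨rfl, by simp only; omega, by simp only; push_cast; omega⟩
        (by simp only; omega) (by simp only; omega) (by simp only; omega)
        (by simp only; omega) (by omega) (by simp only; omega) (by simp only; omega)
        (by simp only; omega) (by simp only; omega)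
  have c12 : Conn (↑(Box 0 (2 ^ K) 0 (CR * 2 ^ K))) {((0 : ℤ), (1 : ℤ))}
      {((r : ℤ) + J * m, (1 : ℤ) + J * M)} := by
    have := c1.trans c2
    rwa [Set.union_self] at this
  have f1 := TE_trans (t := t) ht c1 c2
  have f2 := TE_trans (t := t) ht c12 c3
  have c13 := c12.trans c3
  rw [Set.union_self] at c13
  have f3 : blk CR K 0 0 (J * M) t ≤ TE (Box 0 (2 ^ K) 0 (CR * 2 ^ K)) {((0 : ℤ), (1 : ℤ))}
      (seg (2 ^ K) ((1 : ℤ) + J * M - 1) 3) t := by
    unfold blk
    simp only [zero_add]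
    refine TE_mono (Finset.Subset.refl _) ?_ ?_ c13 t
    · intro p hp
      rw [Set.mem_singleton_iff] at hp
      subst hp
      exact ⟨rfl, by simp only; omega, by simp only; omega⟩
    · intro p hp
      rw [mem_seg] at hp ⊢
      push_cast at hp
      omega
  unfold rowS at e3 ⊢
  simp only [zero_add]
  linarith

set_option maxHeartbeats 2000000 in
/-- (A6): block minima are `o(2^K)` from above -/
lemma A6 (H : Hyp G al be s a) {CR : ℕ} (hCR : |s| + 3 ≤ CR) {ε : ℝ} (hε : 0 < ε) :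
    ∃ K0 : ℕ, ∀ K : ℕ, K0 ≤ K → ∀ h : ℝ, LB G al be CR K h → h ≤ ε * 2 ^ K := by
  have hcS := cS_nonneg (G := G) H.h0
  -- choice of `m`
  have ht1 := H.hup
  have ev1 : ∀ᶠ m : ℕ in atTop, ET G ((m : ℤ), ⌊s * m⌋) / m < al + be * s + ε / 8 :=
    ht1.eventually (gt_mem_nhds (by linarith))
  have ev2 : ∀ᶠ m : ℕ in atTop, 8 * |be| / ε + 1 ≤ (m : ℝ) :=
    tendsto_natCast_atTop_atTop.eventually_ge_atTop _
  obtain ⟨m, hm1, hm2⟩ := (ev1.and ev2).exists
  have hmpos : (1 : ℝ) ≤ m := by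
    have : 0 ≤ 8 * |be| / ε := by positivity
    linarith
  have hm1n : 1 ≤ m := by exact_mod_cast hmpos
  set M : ℤ := ⌊s * m⌋ with hM
  have hm1' : ET G ((m : ℤ), M) < (al + be * s + ε / 8) * m := by
    rwa [div_lt_iff₀ (by linarith)] at hm1
  -- choice of `r`
  have ht2 := tendsto_big H m M
  have ev3 : ∀ᶠ r : ℕ in atTop, ∫ t, big m M (r + (m + M.natAbs + 4)) 0 0 t ∂(iidLaw G) <
      (al + be * s + ε / 8) * m := ht2.eventually (gt_mem_nhds hm1')
  obtain ⟨r0, hr0⟩ := ev3.exists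
  set r := r0 + (m + M.natAbs + 4) with hr
  have h3 : (M.natAbs : ℤ) = |M| := Int.natCast_natAbs M
  have hmr : (m : ℤ) + |M| + 4 ≤ r := by
    rw [hr]
    push_cast
    omega
  -- constants
  set C : ℝ := (2 * r + m + 1) * cS G + |al| * (2 * r + m + 3) with hC
  obtain ⟨K1, hK1⟩ := pow_unbounded_of_one_lt (max (8 * C / ε) (2 * r + m + 10))
    (show (1 : ℝ) < 2 by norm_num)
  refine ⟨max K1 64, fun K hK h hLB => ?_⟩
  have hKK1 : K1 ≤ K := (le_max_left _ _).trans hK
  have hK64 : 64 ≤ K := (le_max_right _ _).trans hK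
  have hbig : max (8 * C / ε) (2 * r + m + 10) < (2 : ℝ) ^ K :=
    hK1.trans_le (pow_le_pow_right₀ (by norm_num) hKK1)
  have hb1 : 8 * C / ε < 2 ^ K := (le_max_left _ _).trans_lt hbig
  have hb2 : (2 * r + m + 10 : ℝ) < 2 ^ K := (le_max_right _ _).trans_lt hbig
  have hb2' : 2 * r + m + 10 < 2 ^ K := by exact_mod_cast hb2
  have hl4 : 4 ≤ len K := by
    unfold len
    calc 4 = 2 ^ 2 := by norm_num
      _ ≤ _ := Nat.pow_le_pow_right (by norm_num) (by omega)
  -- number of blocks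
  set J : ℕ := (2 ^ K - 2 * r - 3) / m with hJ
  have hJ1 : J * m ≤ 2 ^ K - 2 * r - 3 := Nat.div_mul_le_self _ _
  have hJ2 : 2 ^ K - 2 * r - 3 < J * m + m := by
    have := Nat.lt_div_mul_add (a := 2 ^ K - 2 * r - 3) (b := m) (by omega)
    exact this
  obtain ⟨n', hn'⟩ : ∃ n' : ℕ, r + J * m + n' + 3 = 2 ^ K := ⟨2 ^ K - 3 - r - J * m, by omega⟩
  have hn'1 : n' ≤ r + m := by omega
  have hJmR : (J : ℝ) * m + 2 * r + 3 ≤ 2 ^ K := by
    have : J * m + 2 * r + 3 ≤ 2 ^ K := by omega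
    exact_mod_cast this
  have hJmR2 : (2 : ℝ) ^ K ≤ J * m + m + 2 * r + 3 := by
    have : 2 ^ K ≤ J * m + m + 2 * r + 3 := by omega
    exact_mod_cast this
  have hMs : |s * m - M| ≤ 1 := by
    rw [abs_le]
    have h1 := Int.floor_le (s * m)
    have h2 := Int.lt_floor_add_one (s * m)
    rw [hM]
    constructor <;> linarith
  have hMabs : |(M : ℝ)| ≤ (|s| + 1) * m := by
    calc |(M : ℝ)| = |s * m - (s * m - M)| := by congr 1; ring
      _ ≤ |s * m| + |s * m - M| := abs_sub _ _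
      _ ≤ |s| * m + 1 := by
        rw [abs_mul, abs_of_nonneg (by linarith : (0 : ℝ) ≤ m)]
        linarith
      _ ≤ _ := by linarith
  have hJM : (J : ℝ) * |(M : ℝ)| ≤ (|s| + 1) * 2 ^ K := by
    calc (J : ℝ) * |(M : ℝ)| ≤ J * ((|s| + 1) * m) := by gcongr
      _ = (|s| + 1) * (J * m) := by ring
      _ ≤ _ := by
        apply mul_le_mul_of_nonneg_left _ (by positivity)
        have : (0 : ℝ) ≤ r := by positivity
        linarith
  have hpow : (0 : ℝ) < 2 ^ K := by positivity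
  have hh : (J : ℤ) * |M| + r + 4 + 2 ^ K ≤ CR * 2 ^ K := by
    have : (J : ℝ) * |(M : ℝ)| + r + 4 + 2 ^ K ≤ CR * 2 ^ K := by
      have e1 : (|s| + 3) * 2 ^ K ≤ CR * 2 ^ K := by gcongr
      have : (0 : ℝ) ≤ m := by positivity
      have : (0 : ℝ) ≤ r := by positivity
      nlinarith
    exact_mod_cast this
  have hJMz : |(J : ℤ) * M| ≤ J * |M| := by
    rw [abs_mul, abs_of_nonneg (by positivity : (0 : ℤ) ≤ J)]
  have hz : (0 : ℤ) < 2 ^ K := by positivity
  have e1 := hLB (J * M) (by linarith [show (0 : ℤ) ≤ r by positivity])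
  -- upper bound of the mean
  have hle : ∀ᵐ t ∂(iidLaw G), blk CR K 0 0 (J * M) t ≤ rowS 0 1 r t +
      ∑ i ∈ Finset.range J, big m M r (r + i * m) (1 + i * M) t +
      rowS (r + J * m) (1 + J * M) n' t + sX (r + J * m + n') (1 + J * M) t := by
    filter_upwards [ae_Nn H.h0] with t ht
    refine TE_A6 ht hmr J n' ?_ ?_ hl4 ?_
    · have : J * m + 2 * r ≤ 2 ^ K := by omega
      exact_mod_cast this
    · exact_mod_cast hn'
    · linarith
  have hnn : 0 ≤ᵐ[iidLaw G] blk CR K 0 0 (J * M) := by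
    filter_upwards [ae_Nn H.h0] with t ht
    exact TE_nonneg ht
  have i1 := integrable_rowS H 0 1 r
  have i2 : Integrable (fun t => ∑ i ∈ Finset.range J,
      big m M r (r + (i : ℤ) * m) (1 + (i : ℤ) * M) t) (iidLaw G) :=
    integrable_finsetSum _ fun i _ => integrable_big H hmr _ _
  have i3 := integrable_rowS H (r + J * m) (1 + J * M) n'
  have i4 := integrable_sX H (r + J * m + n') (1 + J * M)
  have i12 : Integrable (fun t => rowS 0 1 r t + ∑ i ∈ Finset.range J,
      big m M r (r + (i : ℤ) * m) (1 + (i : ℤ) * M) t) (iidLaw G) := i1.add i2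
  have i123 : Integrable (fun t => rowS 0 1 r t + ∑ i ∈ Finset.range J,
      big m M r (r + (i : ℤ) * m) (1 + (i : ℤ) * M) t + rowS (r + J * m) (1 + J * M) n' t)
      (iidLaw G) := i12.add i3
  have i1234 : Integrable (fun t => rowS 0 1 r t + ∑ i ∈ Finset.range J,
      big m M r (r + (i : ℤ) * m) (1 + (i : ℤ) * M) t + rowS (r + J * m) (1 + J * M) n' t +
      sX (r + J * m + n') (1 + J * M) t) (iidLaw G) := i123.add i4
  have e2 := integral_mono_of_nonneg hnn i1234 hle
  have e3 : ∫ t, (rowS 0 1 r t + ∑ i ∈ Finset.range J,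
      big m M r (r + (i : ℤ) * m) (1 + (i : ℤ) * M) t + rowS (r + J * m) (1 + J * M) n' t +
      sX (r + J * m + n') (1 + J * M) t) ∂(iidLaw G) =
      ∫ t, rowS 0 1 r t ∂(iidLaw G) + J * ∫ t, big m M r 0 0 t ∂(iidLaw G) +
      ∫ t, rowS (r + J * m) (1 + J * M) n' t ∂(iidLaw G) +
      ∫ t, sX (r + J * m + n') (1 + J * M) t ∂(iidLaw G) := by
    rw [integral_add i123 i4, integral_add i12 i3, integral_add i1 i2,
      integral_finsetSum _ fun i _ => integrable_big H hmr _ _]
    simp_rw [integral_big hmr]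
    rw [Finset.sum_const, Finset.card_range, nsmul_eq_mul]
  have e2' : tau G CR K (J * M) ≤ _ := e2
  rw [e3] at e2'
  have g1 := integral_rowS_le H 0 1 r
  have g3 := integral_rowS_le H (r + J * m) (1 + J * M) n'
  have g4 := integral_sX_le (G := G) H.h0 (r + J * m + n') (1 + J * M)
  have g2 : (J : ℝ) * ∫ t, big m M r 0 0 t ∂(iidLaw G) ≤ J * ((al + be * s + ε / 8) * m) := by
    gcongr
  have hn'R : (n' : ℝ) ≤ r + m := by exact_mod_cast hn'1
  have g3' : (n' : ℝ) * cS G ≤ (r + m) * cS G := by gcongr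
  -- assembling
  push_cast at e1
  have f1 : al * (J * m - 2 ^ K) ≤ |al| * (2 * r + m + 3) := by
    calc al * (J * m - 2 ^ K) ≤ |al * (J * m - 2 ^ K)| := le_abs_self _
      _ = |al| * |(J : ℝ) * m - 2 ^ K| := abs_mul _ _
      _ ≤ _ := by
        apply mul_le_mul_of_nonneg_left _ (abs_nonneg _)
        rw [abs_le]
        constructor <;> linarith
  have f2 : be * (J * (s * m - M)) ≤ ε / 8 * 2 ^ K := by
    calc be * (J * (s * m - M)) ≤ |be * (J * (s * m - M))| := le_abs_self _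
      _ = |be| * (J * |s * m - M|) := by
        rw [abs_mul, abs_mul, abs_of_nonneg (by positivity : (0 : ℝ) ≤ J)]
      _ ≤ |be| * (J * 1) := by gcongr
      _ ≤ (ε / 8 * m) * J := by
        have : |be| ≤ ε / 8 * m := by
          have : 8 * |be| / ε ≤ m := by linarith
          rw [div_le_iff₀ hε] at this
          linarith
        rw [mul_one]
        gcongr
      _ = ε / 8 * (J * m) := by ring
      _ ≤ _ := by
        apply mul_le_mul_of_nonneg_left _ (by positivity)
        have : (0 : ℝ) ≤ r := by positivity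
        linarith
  have f3 : ε / 8 * (J * m) ≤ ε / 8 * 2 ^ K := by
    apply mul_le_mul_of_nonneg_left _ (by positivity)
    have : (0 : ℝ) ≤ r := by positivity
    linarith
  have f4 : 8 * C < ε * 2 ^ K := by
    rw [div_lt_iff₀ hε] at hb1
    linarith
  rw [hC] at f4
  nlinarith

lemma th15_lt : th ^ 15 < 2 := by
  have h1 : th ^ 15 < th ^ 16 := pow_lt_pow_right₀ one_lt_th (by norm_num)
  have h2 : th ^ 16 = 2 := by
    have := th_pow16 1
    simpa using this
  linarith

/-- the rate of the block minima -/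
lemma rate_h (H : Hyp G al be s a) :
    ∃ CR0 : ℕ, ∀ CR : ℕ, CR0 ≤ CR → ∃ (C : ℝ) (k0 : ℕ), 0 ≤ C ∧ ∀ k : ℕ, k0 ≤ k → ∀ h : ℝ,
      LB G al be CR k h → h ≤ C * th ^ (15 * k) := by
  obtain ⟨CR0, hcore⟩ := super_core H
  obtain ⟨CR1, hCR1⟩ := exists_nat_ge (|s| + 3)
  refine ⟨max CR0 CR1, fun CR hCR => ?_⟩
  obtain ⟨C, k0, hC, hs⟩ := hcore CR ((le_max_left _ _).trans hCR)
  have hCR' : |s| + 3 ≤ CR := hCR1.trans (by exact_mod_cast (le_max_right _ _).trans hCR)
  have hth := th15_lt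
  have hth0 : 0 < 2 - th ^ 15 := by linarith
  set C' := C / (2 - th ^ 15) with hC'
  have hC'0 : 0 ≤ C' := by positivity
  have hC'e : 2 * C' - C = C' * th ^ 15 := by
    rw [hC']
    field_simp
    ring
  refine ⟨C', k0, hC'0, fun k hk h hLB => ?_⟩
  set Hj : ℕ → ℝ := fun j => 2 ^ j * (h - C' * th ^ (15 * k)) + C' * th ^ (15 * (k + j)) with hHj
  have hLBj : ∀ j : ℕ, LB G al be CR (k + j) (Hj j) := by
    intro j
    induction j with
    | zero =>
      have : Hj 0 = h := by
        rw [hHj]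
        simp
      rw [this]
      exact hLB
    | succ j ih =>
      have := hs (k + j) (by omega) _ ih
      have e : 2 * Hj j - C * th ^ (15 * (k + j)) = Hj (j + 1) := by
        have e1 : Hj (j + 1) = 2 ^ (j + 1) * (h - C' * th ^ (15 * k)) +
            (C' * th ^ 15) * th ^ (15 * (k + j)) := by
          rw [hHj]
          simp only
          have : 15 * (k + (j + 1)) = 15 * (k + j) + 15 := by ring
          rw [this, pow_add th]
          ring
        rw [e1, ← hC'e]
        rw [hHj]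
        simp only
        ring
      rw [e] at this
      exact this
  by_contra hcon
  have hpos : 0 < h - C' * th ^ (15 * k) := by linarith
  set δ := (h - C' * th ^ (15 * k)) / 2 ^ k with hδ
  have hδpos : 0 < δ := by positivity
  obtain ⟨K0, hK0⟩ := A6 H hCR' (ε := δ / 2) (by positivity)
  have := hK0 (k + K0) (by omega) _ (hLBj K0)
  have e1 : 2 ^ K0 * (h - C' * th ^ (15 * k)) ≤ Hj K0 := by
    rw [hHj]
    simp only
    have : 0 ≤ C' * th ^ (15 * (k + K0)) := by
      have := th_pos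
      positivity
    linarith
  have e2 : δ / 2 * 2 ^ (k + K0) = 2 ^ K0 * (h - C' * th ^ (15 * k)) / 2 := by
    rw [hδ, pow_add]
    field_simp
  have e3 : 0 < 2 ^ K0 * (h - C' * th ^ (15 * k)) := by positivity
  linarith

/-- good displacements -/
lemma good_d (H : Hyp G al be s a) :
    ∃ (CR : ℕ) (C : ℝ) (k0 : ℕ), 1 ≤ CR ∧ 0 ≤ C ∧ ∀ k : ℕ, k0 ≤ k → ∃ d : ℤ,
      |d| + 2 ^ k ≤ CR * 2 ^ k ∧ tau G CR k d ≤ al * 2 ^ k + be * d + C * th ^ (15 * k) ∧
      |(d : ℝ) - s * 2 ^ k| ≤ C * th ^ (15 * k) := by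
  obtain ⟨CR0, hr⟩ := rate_h H
  set CR := max CR0 1 with hCRdef
  have hCR1 : 1 ≤ CR := le_max_right _ _
  obtain ⟨C, k0, hC, hrate⟩ := hr CR (le_max_left _ _)
  obtain ⟨C1, k1, hdev⟩ := dev_blk (G := G) H.dev hCR1
  have ha := H.ha
  have hcS := cS_nonneg (G := G) H.h0
  refine ⟨CR, C + (C + 2 * cS G) / a, max k0 k1, hCR1, by positivity, fun k hk => ?_⟩
  have hk0 : k0 ≤ k := (le_max_left _ _).trans hk
  have hk1 : k1 ≤ k := (le_max_right _ _).trans hk
  have hz : (0 : ℤ) < 2 ^ k := by positivity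
  have hCRz : (2 : ℤ) ^ k ≤ CR * 2 ^ k := le_mul_of_one_le_left hz.le (by exact_mod_cast hCR1)
  set S : Finset ℤ := Finset.Icc (-((CR : ℤ) * 2 ^ k - 2 ^ k)) ((CR : ℤ) * 2 ^ k - 2 ^ k) with hS
  have hmem : ∀ d : ℤ, d ∈ S ↔ |d| + 2 ^ k ≤ CR * 2 ^ k := by
    intro d
    rw [hS, Finset.mem_Icc, ← abs_le]
    constructor <;> intro h <;> linarith
  have hne : S.Nonempty := ⟨0, by rw [hmem, abs_zero, zero_add]; exact hCRz⟩
  obtain ⟨d, hdS, hd⟩ := S.exists_min_image (fun d => tau G CR k d - (al * 2 ^ k + be * d)) hne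
  have hLB : LB G al be CR k (tau G CR k d - (al * 2 ^ k + be * d)) := by
    intro d' hd'
    have := hd d' ((hmem d').2 hd')
    linarith
  have h1 := hrate k hk0 _ hLB
  have hdA := (hmem d).1 hdS
  have hd0 : |d| ≤ CR * 2 ^ k := by linarith
  have h2 := mean_lower H (conn_blk (CR := CR) (k := k) (x0 := 0) (y0 := 0) hd0)
    (hdev k hk1 0 0 d hdA).1
  have e2 : ∫ t, TE (Box 0 (0 + 2 ^ k) 0 (CR * 2 ^ k)) (seg 0 0 (len k))
      (seg (0 + 2 ^ k) (0 + d) (len k)) t ∂(iidLaw G) = tau G CR k d := rfl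
  rw [e2] at h2
  push_cast at h2
  have hl := len_le_th k
  have hthp : 0 < th ^ (15 * k) := pow_pos th_pos _
  have h3 : a * |((0 : ℝ) + d - 0) - s * (0 + 2 ^ k - 0)| ≤ (C + 2 * cS G) * th ^ (15 * k) := by
    have : ((len k : ℝ) + len k) * cS G ≤ 2 * cS G * th ^ (15 * k) := by
      calc ((len k : ℝ) + len k) * cS G = 2 * cS G * len k := by ring
        _ ≤ _ := by gcongr
    linarith
  have h4 : |(d : ℝ) - s * 2 ^ k| ≤ (C + 2 * cS G) / a * th ^ (15 * k) := by
    have e : (0 : ℝ) + d - 0 - s * (0 + 2 ^ k - 0) = d - s * 2 ^ k := by ring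
    rw [e] at h3
    have : |(d : ℝ) - s * 2 ^ k| ≤ ((C + 2 * cS G) * th ^ (15 * k)) / a := by
      rw [le_div_iff₀ ha]
      linarith
    calc _ ≤ _ := this
      _ = _ := by ring
  refine ⟨d, hdA, ?_, ?_⟩
  · have : 0 ≤ (C + 2 * cS G) / a * th ^ (15 * k) := by positivity
    linarith
  · have : 0 ≤ C * th ^ (15 * k) := by positivity
    linarith

end Crest.Agent.R151.U
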