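import Mathlib
import Crest.Agent.R151.H617a
import Crest.Agent.R151.D624b
import Crest.Agent.R151.Y635D
import Crest.Agent.R151.H617b
import Crest.Agent.R151.D624g
import Crest.Agent.R151.H617e

-- ▼ part R151/UC290a
section

/-!
# R151/UC290a — block UC (owner helper290), abstract part

`uc_ae`: a family of label functions `f p` with mean total variation `≤ C (q - p)` and a family
of "non-coalescence" events `N p q`, monotone in the slope interval, small for short intervals,
independent of `f`: almost surely at every slope `s` either `f` is continuous or some `N p q`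
with `p < s < q` fails.  This is how a countable random set of exceptional slopes is replaced by
deterministic slopes without any measurability of the set.
-/

set_option autoImplicit false

open MeasureTheory ProbabilityTheory Filter Set
open scoped ENNReal Topology

namespace Crest.Agent.R151.UC

open Crest.Agent.R151.H

variable {Ω : Type*} [MeasurableSpace Ω] {P : Measure Ω}

/-- Markov inequality for the total variation -/
lemma tv_gt_le {F F' : Ω → ℤ → ℝ} (hF : ∀ x, Measurable fun ω => F ω x)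
    (hF' : ∀ x, Measurable fun ω => F' ω x) (w : ℕ) {c κ : ℝ} (hκ : 0 < κ)
    (h : ∀ x, ∫⁻ ω, ENNReal.ofReal |inc (F ω) x - inc (F' ω) x| ∂P ≤ ENNReal.ofReal c) :
    P {ω | κ < tv w (F ω) (F' ω)} ≤ ENNReal.ofReal (2 * w * c / κ) := by
  have hm := lintegral_tv_le (P := P) hF hF' w h
  have hmk := mul_meas_ge_le_lintegral₀ (μ := P)
    (f := fun ω => ENNReal.ofReal (tv w (F ω) (F' ω)))
    (measurable_tv hF hF' w).ennreal_ofReal.aemeasurable (ENNReal.ofReal κ)
  have hk0 : ENNReal.ofReal κ ≠ 0 := by simpa using hκ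
  rw [ENNReal.ofReal_div_of_pos hκ, ENNReal.le_div_iff_mul_le (Or.inl hk0)
    (Or.inl ENNReal.ofReal_ne_top), mul_comm]
  refine le_trans ?_ (hmk.trans hm)
  refine mul_le_mul_right (measure_mono fun ω hω => ?_) _
  exact ENNReal.ofReal_le_ofReal (le_of_lt hω)

/-- the bad set -/
def Bad (D : Set ℝ) (f : ℝ → Ω → ℤ → ℝ) (N : ℝ → ℝ → Set Ω) (a b : ℝ) (w : ℕ) (κ : ℝ) :
    Set Ω :=
  {ω | ∃ s, a < s ∧ s < b ∧ ∀ p ∈ D, ∀ q ∈ D, p < s → s < q →
    κ < tv w (f p ω) (f q ω) ∧ ω ∈ N p q}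

theorem measure_bad {D : Set ℝ} {A B C : ℝ}
    (hD : ∀ x y, A < x → x < y → y < B → ∃ p ∈ D, x < p ∧ p < y)
    {f : ℝ → Ω → ℤ → ℝ} {N : ℝ → ℝ → Set Ω}
    (hf : ∀ p ∈ D, ∀ x, Measurable fun ω => f p ω x) (hC : 0 ≤ C)
    (h1 : ∀ p ∈ D, ∀ q ∈ D, p ≤ q → ∀ x,
      ∫⁻ ω, ENNReal.ofReal |inc (f p ω) x - inc (f q ω) x| ∂P ≤ ENNReal.ofReal (C * (q - p)))
    (hmono : ∀ p ∈ D, ∀ p' ∈ D, ∀ q' ∈ D, ∀ q ∈ D, p ≤ p' → p' ≤ q' → q' ≤ q →
      P (N p' q') ≤ P (N p q))
    (hsmall : ∀ s, A < s → s < B → ∀ δ : ℝ, 0 < δ →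
      ∃ p ∈ D, ∃ q ∈ D, p < s ∧ s < q ∧ P (N p q) ≤ ENNReal.ofReal δ)
    (hi : ∀ p ∈ D, ∀ q ∈ D, ∀ (w : ℕ) (κ : ℝ),
      P ({ω | κ < tv w (f p ω) (f q ω)} ∩ N p q) ≤
        P {ω | κ < tv w (f p ω) (f q ω)} * P (N p q))
    {a b : ℝ} (ha : A < a) (hb : b < B) (w : ℕ) {κ : ℝ} (hκ : 0 < κ) :
    P (Bad D f N a b w κ) = 0 := by
  rcases le_or_gt b a with hba | hab
  · have : Bad D f N a b w κ = ∅ := by
      ext ω
      simp only [Bad, mem_ofPred_eq, mem_empty_iff_false, iff_false, not_exists, not_and]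
      intro s h1 h2
      linarith
    rw [this, measure_empty]
  obtain ⟨a', ha1, ha2⟩ := exists_between ha
  obtain ⟨b', hb1, hb2⟩ := exists_between hb
  set L : ℝ := b' - a' with hL
  have hL0 : 0 < L := by linarith
  set K : ℝ := 2 * w * (C * (3 * L)) / κ with hK
  have hK0 : 0 ≤ K := by positivity
  -- it suffices to bound by `K δ`
  suffices hmain : ∀ δ : ℝ, 0 < δ → P (Bad D f N a b w κ) ≤ ENNReal.ofReal (K * δ) by
    have hlim : Tendsto (fun n : ℕ => ENNReal.ofReal (K * (1 / ((n : ℝ) + 1)))) atTop (𝓝 0) := by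
      have h0 : Tendsto (fun n : ℕ => K * (1 / ((n : ℝ) + 1))) atTop (𝓝 (K * 0)) :=
        tendsto_one_div_add_atTop_nhds_zero_nat.const_mul K
      rw [mul_zero] at h0
      simpa using ENNReal.tendsto_ofReal h0
    exact le_antisymm (ge_of_tendsto' hlim fun n => hmain _ (by positivity)) zero_le
  intro δ hδ
  -- Lebesgue number of the cover of `[a', b']`
  have hcov : ∀ s : Icc a' b', ∃ p ∈ D, ∃ q ∈ D, p < (s : ℝ) ∧ (s : ℝ) < q ∧
      P (N p q) ≤ ENNReal.ofReal δ := fun s =>
    hsmall s (ha1.trans_le s.2.1) (s.2.2.trans_lt hb2) δ hδ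
  choose cp hcp cq hcq hps hsq hPN using hcov
  obtain ⟨lam, hlam, hleb⟩ := lebesgue_number_lemma_of_metric (s := Icc a' b')
    (c := fun s : Icc a' b' => Ioo (cp s) (cq s)) isCompact_Icc (fun s => isOpen_Ioo)
    (fun s hs => mem_iUnion.2 ⟨⟨s, hs⟩, hps ⟨s, hs⟩, hsq ⟨s, hs⟩⟩)
  -- choose the mesh
  obtain ⟨n, hn, hna, hnb, hnl⟩ : ∃ n : ℕ, 0 < n ∧ L / n ≤ a - a' ∧ 2 * (L / n) ≤ b' - b ∧
      3 * (L / n) < lam := by
    have hlim1 : Tendsto (fun n : ℕ => L / n) atTop (𝓝 0) :=
      tendsto_const_div_atTop_nhds_zero_nat L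
    have e1 : ∀ᶠ n : ℕ in atTop, L / n < a - a' := hlim1.eventually_lt_const (by linarith)
    have e2 : ∀ᶠ n : ℕ in atTop, L / n < (b' - b) / 2 := hlim1.eventually_lt_const (by linarith)
    have e3 : ∀ᶠ n : ℕ in atTop, L / n < lam / 3 := hlim1.eventually_lt_const (by linarith)
    obtain ⟨n, hn⟩ := (e1.and (e2.and (e3.and (eventually_gt_atTop 0)))).exists
    exact ⟨n, hn.2.2.2, hn.1.le, by linarith [hn.2.1], by linarith [hn.2.2.1]⟩
  have hn' : (0 : ℝ) < n := by exact_mod_cast hn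
  set η : ℝ := L / n with hη
  have hη0 : 0 < η := by positivity
  have hnη : n * η = L := by rw [hη]; field_simp
  have hex : ∀ i : ℕ, i < n → ∃ p ∈ D, a' + i * η < p ∧ p < a' + (i + 1) * η := by
    intro i hi'
    have hi1 : (0 : ℝ) ≤ i := Nat.cast_nonneg i
    have hi2 : (i : ℝ) + 1 ≤ n := by exact_mod_cast hi'
    refine hD _ _ ?_ ?_ ?_
    · have : 0 ≤ (i : ℝ) * η := by positivity
      linarith
    · linarith
    · have : ((i : ℝ) + 1) * η ≤ n * η := by gcongr
      rw [hnη] at this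
      linarith
  choose! pk hpD hpl hpu using hex
  have hsub : Bad D f N a b w κ ⊆ ⋃ i ∈ Finset.range (n - 2),
      ({ω | κ < tv w (f (pk i) ω) (f (pk (i + 2)) ω)} ∩ N (pk i) (pk (i + 2))) := by
    rintro ω ⟨s, hs1, hs2, hs⟩
    have hs0 : 0 ≤ (s - a') / η := by
      apply div_nonneg _ hη0.le
      linarith
    set m : ℕ := ⌊(s - a') / η⌋₊ with hm
    have hm1 : (m : ℝ) * η ≤ s - a' := by
      have := Nat.floor_le hs0
      rwa [← hm, le_div_iff₀ hη0] at this
    have hm2 : s - a' < (m + 1) * η := by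
      have := Nat.lt_floor_add_one ((s - a') / η)
      rwa [← hm, div_lt_iff₀ hη0] at this
    have hm3 : 1 ≤ m := by
      by_contra h
      have h0 : m = 0 := by omega
      rw [h0] at hm2
      simp only [Nat.cast_zero, zero_add, one_mul] at hm2
      linarith
    have hm4 : m + 2 ≤ n := by
      have : ((m : ℝ) + 2) * η < n * η + η := by
        rw [hnη]
        nlinarith
      have h3 : (m : ℝ) + 2 < n + 1 := by
        have h4 : ((m : ℝ) + 2) * η < (n + 1) * η := by linarith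
        exact lt_of_mul_lt_mul_right h4 hη0.le
      have h5 : m + 2 < n + 1 := by exact_mod_cast h3
      omega
    obtain ⟨i, hmi⟩ : ∃ i, m = i + 1 := ⟨m - 1, by omega⟩
    rw [hmi] at hm1 hm2 hm3 hm4
    rw [mem_iUnion₂]
    refine ⟨i, Finset.mem_range.2 (by omega), ?_⟩
    have u1 := hpu i (by omega)
    have u2 := hpl (i + 2) (by omega)
    push_cast at hm1 hm2 u1 u2
    refine hs _ (hpD i (by omega)) _ (hpD (i + 2) (by omega)) ?_ ?_
    · linarith
    · have : ((i : ℝ) + 1 + 1) * η = (i + 2) * η := by ring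
      linarith
  refine (measure_mono hsub).trans ((measure_biUnion_finset_le _ _).trans ?_)
  have hcell : ∀ i ∈ Finset.range (n - 2),
      P ({ω | κ < tv w (f (pk i) ω) (f (pk (i + 2)) ω)} ∩ N (pk i) (pk (i + 2))) ≤
        ENNReal.ofReal (K / n * δ) := by
    intro i hi'
    rw [Finset.mem_range] at hi'
    have u1 := hpl i (by omega)
    have u1' := hpu i (by omega)
    have u2 := hpl (i + 2) (by omega)
    have u2' := hpu (i + 2) (by omega)
    push_cast at u1 u1' u2 u2'
    have hle : pk i ≤ pk (i + 2) := by nlinarith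
    have hlen : pk (i + 2) - pk i ≤ 3 * η := by nlinarith
    have hcc : ENNReal.ofReal (C * (pk (i + 2) - pk i)) ≤ ENNReal.ofReal (C * (3 * η)) :=
      ENNReal.ofReal_le_ofReal (mul_le_mul_of_nonneg_left hlen hC)
    have e1 := tv_gt_le (P := P) (hf _ (hpD i (by omega))) (hf _ (hpD (i + 2) (by omega))) w
      (c := C * (3 * η)) hκ
      (fun x => (h1 _ (hpD i (by omega)) _ (hpD (i + 2) (by omega)) hle x).trans hcc)
    -- the cell is inside one interval of the cover
    have hmem : pk i ∈ Icc a' b' := by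
      refine ⟨?_, ?_⟩
      · have : 0 ≤ (i : ℝ) * η := by positivity
        linarith
      · have h3 : (i : ℝ) + 1 ≤ n := by exact_mod_cast (by omega : i + 1 ≤ n)
        have h4 : ((i : ℝ) + 1) * η ≤ n * η := by gcongr
        rw [hnη] at h4
        linarith
    obtain ⟨c, hc⟩ := hleb (pk i) hmem
    have m1 : pk i ∈ Ioo (cp c) (cq c) := hc (Metric.mem_ball_self hlam)
    have m2 : pk (i + 2) ∈ Ioo (cp c) (cq c) := by
      apply hc
      rw [Metric.mem_ball, Real.dist_eq, abs_of_nonneg (by linarith)]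
      linarith
    have e2 : P (N (pk i) (pk (i + 2))) ≤ ENNReal.ofReal δ :=
      (hmono _ (hcp c) _ (hpD i (by omega)) _ (hpD (i + 2) (by omega)) _ (hcq c)
        m1.1.le hle m2.2.le).trans (hPN c)
    refine (hi _ (hpD i (by omega)) _ (hpD (i + 2) (by omega)) w κ).trans ?_
    refine (mul_le_mul' e1 e2).trans_eq ?_
    rw [← ENNReal.ofReal_mul (by positivity)]
    congr 1
    rw [hK, hη]
    field_simp
  refine (Finset.sum_le_sum hcell).trans ?_
  rw [Finset.sum_const, Finset.card_range, nsmul_eq_mul, ← ENNReal.ofReal_natCast,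
    ← ENNReal.ofReal_mul (Nat.cast_nonneg _)]
  refine ENNReal.ofReal_le_ofReal ?_
  have h5 : (((n - 2 : ℕ) : ℝ)) ≤ n := by exact_mod_cast Nat.sub_le n 2
  calc ((n - 2 : ℕ) : ℝ) * (K / n * δ) ≤ n * (K / n * δ) := by gcongr
    _ = K * δ := by field_simp

/-- **UC, abstract**: at every slope either `f` is continuous or some `N p q` with `p < s < q`
fails. -/
theorem uc_ae {D : Set ℝ} {A B C : ℝ}
    (hD : ∀ x y, A < x → x < y → y < B → ∃ p ∈ D, x < p ∧ p < y)
    {f : ℝ → Ω → ℤ → ℝ} {N : ℝ → ℝ → Set Ω}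
    (hf : ∀ p ∈ D, ∀ x, Measurable fun ω => f p ω x) (hC : 0 ≤ C)
    (h1 : ∀ p ∈ D, ∀ q ∈ D, p ≤ q → ∀ x,
      ∫⁻ ω, ENNReal.ofReal |inc (f p ω) x - inc (f q ω) x| ∂P ≤ ENNReal.ofReal (C * (q - p)))
    (hmono : ∀ p ∈ D, ∀ p' ∈ D, ∀ q' ∈ D, ∀ q ∈ D, p ≤ p' → p' ≤ q' → q' ≤ q →
      P (N p' q') ≤ P (N p q))
    (hsmall : ∀ s, A < s → s < B → ∀ δ : ℝ, 0 < δ →
      ∃ p ∈ D, ∃ q ∈ D, p < s ∧ s < q ∧ P (N p q) ≤ ENNReal.ofReal δ)
    (hi : ∀ p ∈ D, ∀ q ∈ D, ∀ (w : ℕ) (κ : ℝ),
      P ({ω | κ < tv w (f p ω) (f q ω)} ∩ N p q) ≤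
        P {ω | κ < tv w (f p ω) (f q ω)} * P (N p q)) :
    ∀ᵐ ω ∂P, ∀ s, A < s → s < B → ContAt D (fun p => f p ω) s ∨
      ∃ p ∈ D, ∃ q ∈ D, p < s ∧ s < q ∧ ω ∉ N p q := by
  have hall : ∀ᵐ ω ∂P, ∀ (a b : ℚ) (w k : ℕ), A < a → (b : ℝ) < B →
      ω ∉ Bad D f N a b w (1 / ((k : ℝ) + 1)) := by
    rw [ae_all_iff]; intro a
    rw [ae_all_iff]; intro b
    rw [ae_all_iff]; intro w
    rw [ae_all_iff]; intro k
    by_cases ha : A < a
    · by_cases hb : (b : ℝ) < B
      · have := measure_bad (P := P) hD hf hC h1 hmono hsmall hi ha hb w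
          (κ := 1 / ((k : ℝ) + 1)) (by positivity)
        filter_upwards [measure_eq_zero_iff_ae_notMem.1 this] with ω hω _ _
        exact hω
      · exact Eventually.of_forall fun ω _ h => absurd h hb
    · exact Eventually.of_forall fun ω h => absurd h ha
  filter_upwards [hall] with ω hω s hs1 hs2
  by_contra hcon
  rw [not_or] at hcon
  obtain ⟨hc1, hc2⟩ := hcon
  unfold ContAt at hc1
  push Not at hc1 hc2
  obtain ⟨w1, ε1, hε1, H1⟩ := hc1
  obtain ⟨a, ha1, ha2⟩ := exists_rat_btwn hs1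
  obtain ⟨b, hb1, hb2⟩ := exists_rat_btwn hs2
  obtain ⟨k, hk⟩ := exists_nat_one_div_lt hε1
  refine hω a b w1 k ha1 hb2 ⟨s, ha2, hb1, fun p hp q hq hps hsq => ⟨?_, ?_⟩⟩
  · exact hk.trans (H1 p hp q hq hps hsq)
  · exact hc2 p hp q hq hps hsq


end Crest.Agent.R151.UC
end

-- ▼ part R151/UC290b
section

/-!
# R151/UC290b — block UC (owner helper290), deterministic part

* `opt_le`, `opt_le'`: the optimal last entrance into `Hp N` moves to the right when the
  increments of the boundary function decrease.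
* `opt_of_ray`: a ray of `gH k` enters `Hp N` for the last time at an optimal point of its own
  Busemann function on `y = N`.
* `Com`: common last entrance of all gradient rays of two label functions from a window;
  `Com.mono` (monotone in the label interval), `Com.pass` (every ray whose label lies in the
  interval passes through the common vertex), `coal_of_com` (⇒ `Coal`).
-/

set_option autoImplicit false

open Filter Topology
open Crest.ProbabilityR.FirstPassage

namespace Crest.Agent.R151.UC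

open Crest.Agent.R151.D624 Crest.Agent.R151.Y Crest.Agent.R151.H

section argmin

variable {t : Environment} {k N : ℤ} {z : ℤ × ℤ} {φ φ' : ℤ → ℝ}

theorem sub_le_of_inc_le (h : ∀ x, inc φ' x ≤ inc φ x) {x y : ℤ} (hxy : x ≤ y) :
    φ' y - φ' x ≤ φ y - φ x := by
  induction y, hxy using Int.leInduction with
  | base => simp
  | succ y hy ih =>
    have := h y
    unfold inc at this
    linarith

/-- the optimal last entrance moves to the right when the increments decrease (uniqueness for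
the larger increments) -/
theorem opt_le (h : ∀ x, inc φ' x ≤ inc φ x) {w w' : ℤ} (hw : Opt t k N φ z w)
    (huniq : ∀ w'', Opt t k N φ z w'' → w'' = w) (hw' : Opt t k N φ' z w') : w ≤ w' := by
  by_contra hlt
  rw [not_le] at hlt
  have h1 := hw' w
  have h2 := sub_le_of_inc_le h hlt.le
  have h3 : Opt t k N φ z w' := by
    intro w''
    refine le_trans ?_ (hw w'')
    unfold Phi at h1 ⊢
    linarith
  have := huniq w' h3
  omega

/-- the same with uniqueness for the smaller increments -/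
theorem opt_le' (h : ∀ x, inc φ' x ≤ inc φ x) {w w' : ℤ} (hw : Opt t k N φ z w)
    (hw' : Opt t k N φ' z w') (huniq : ∀ w'', Opt t k N φ' z w'' → w'' = w') : w ≤ w' := by
  by_contra hlt
  rw [not_le] at hlt
  have h1 := hw w'
  have h2 := sub_le_of_inc_le h hlt.le
  have h3 : Opt t k N φ' z w := by
    intro w''
    refine le_trans ?_ (hw' w'')
    unfold Phi at h1 ⊢
    linarith
  have := huniq w h3
  omega

/-- `Opt` depends only on the increments of the boundary function -/
theorem opt_congr (h : ∀ x, inc φ' x = inc φ x) {w : ℤ} (hw : Opt t k N φ z w) :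
    Opt t k N φ' z w := by
  have hc : ∀ x y, φ' y - φ' x = φ y - φ x := by
    intro x y
    rcases le_total x y with hxy | hxy
    · exact le_antisymm (sub_le_of_inc_le (fun x => (h x).le) hxy)
        (sub_le_of_inc_le (fun x => (h x).ge) hxy)
    · have h1 := sub_le_of_inc_le (fun x => (h x).le) hxy
      have h2 := sub_le_of_inc_le (fun x => (h x).ge) hxy
      linarith
  intro w'
  have h1 := hw w'
  have h2 := hc w' w
  unfold Phi at h1 ⊢
  linarith

end argmin

section rays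

variable {t : Environment} {k N : ℤ} {u : ℕ → ℤ × ℤ}

theorem ray_ge (hu : IsRay t (gH k) u) (n : ℕ) : k ≤ (u n).2 := (reg_adj.1 (hu.adj n)).2.1

/-- the last entrance into `Hp N` -/
theorem exists_last_entrance (hadj : ∀ n, squareLattice.Adj (u n) (u (n + 1)))
    (hup : Tendsto (fun n => (u n).2) atTop atTop) {i : ℕ} (h0 : (u i).2 < N) :
    ∃ n w, i ≤ n ∧ u n = (w, N - 1) ∧ u (n + 1) = (w, N) ∧ ∀ m, N ≤ (u (n + 1 + m)).2 := by
  have h1 : ∃ n, i ≤ n ∧ ∀ m, n ≤ m → N ≤ (u m).2 := by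
    obtain ⟨n, hn⟩ := eventually_atTop.1 (hup.eventually (eventually_ge_atTop N))
    exact ⟨max i n, le_max_left _ _, fun m hm => hn m ((le_max_right _ _).trans hm)⟩
  classical
  obtain ⟨hin, hn1⟩ := Nat.find_spec h1
  have hni : Nat.find h1 ≠ i := fun h => absurd (hn1 i h.le) (by omega)
  obtain ⟨n', hn'⟩ : ∃ n', Nat.find h1 = n' + 1 := ⟨Nat.find h1 - 1, by omega⟩
  have hmin := Nat.find_min h1 (m := n') (by omega)
  rw [hn'] at hin hn1 hni
  have hlt : (u n').2 < N := by
    by_contra hcon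
    rw [not_lt] at hcon
    refine hmin ⟨by omega, fun m hm => ?_⟩
    rcases hm.eq_or_lt with rfl | hm
    · exact hcon
    · exact hn1 m hm
  have hge := hn1 (n' + 1) le_rfl
  have ha := lat_adj.1 (hadj n')
  have e1 : (u n').1 = (u (n' + 1)).1 := by rcases ha with h | h <;> omega
  have e2 : (u (n' + 1)).2 = N := by rcases ha with h | h <;> omega
  have e3 : (u n').2 = N - 1 := by rcases ha with h | h <;> omega
  exact ⟨n', (u n').1, by omega, Prod.ext rfl e3, Prod.ext e1.symm e2,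
    fun m => hn1 _ (by omega)⟩

/-- a ray whose tail stays in `Hp N` has there a ray of `gH N` -/
theorem isRay_tail (ht : ∀ e, 0 ≤ t e) (hkN : k ≤ N) (hu : IsRay t (gH k) u) {m : ℕ}
    (hm : ∀ n, N ≤ (u (m + n)).2) : IsRay t (gH N) fun n => u (m + n) := by
  refine (hu.tail m).of_le ht (gH_anti hkN) fun n => ?_
  rw [reg_adj]
  exact ⟨(reg_adj.1 (hu.adj (m + n))).1, hm n, hm (n + 1)⟩

/-- **A ray enters `Hp N` for the last time at an optimal point of its own label.** -/
theorem opt_of_ray (ht : ∀ e, 0 ≤ t e) (hkN : k < N) (hu : IsRay t (gH k) u) {i n : ℕ} {w : ℤ}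
    (hin : i ≤ n) (h1 : u n = (w, N - 1)) (h2 : u (n + 1) = (w, N))
    (h3 : ∀ m, N ≤ (u (n + 1 + m)).2) {b : ℤ → ℝ}
    (hb : ∀ x, inc b x = inc (fun x => bus t (gH N) (fun m => u (n + 1 + m)) (x, N)) x) :
    Opt t k N b (u i) w := by
  set r : ℕ → ℤ × ℤ := fun m => u (n + 1 + m) with hr
  have hrr : IsRay t (gH N) r := isRay_tail ht hkN.le hu h3
  have hr0 : r 0 = (w, N) := h2
  refine opt_congr (φ := fun x => bus t (gH N) r (x, N)) (fun x => hb x) ?_
  intro w'
  have hk0 : k ≤ (u i).2 := ray_ge hu i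
  -- the inequality before taking the limit
  have key : ∀ m, pt (gH k) t (u i) (w, N - 1) + Vt t w N - pt (gH k) t (u i) (w', N - 1) -
      Vt t w' N ≤ pt (gH N) t (w', N) (r m) - pt (gH N) t (r 0) (r m) := by
    intro m
    have e1 : pt (gH k) t (u i) (u n) + pt (gH k) t (u n) (u (n + 1 + m)) =
        pt (gH k) t (u i) (u (n + 1 + m)) := hu.pt_add hin (by omega)
    have e2 : pt (gH k) t (u n) (u (n + 1)) + pt (gH k) t (u (n + 1)) (u (n + 1 + m)) =
        pt (gH k) t (u n) (u (n + 1 + m)) := hu.pt_add (by omega) (by omega)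
    have e3 : pt (gH k) t (u n) (u (n + 1)) = Vt t w N := by
      rw [hu.pt_succ, h1, h2]
      rfl
    have e4 : pt (gH N) t (r 0) (r m) = pt (gH k) t (r 0) (r m) := by
      refine (hu.tail (n + 1)).pt_eq_of_le ht (gH_anti hkN.le) (fun j => ?_) (Nat.zero_le m)
      exact hrr.adj j
    have hrm : N ≤ (r m).2 := h3 m
    have e5 : pt (gH k) t (u i) (r m) ≤
        pt (gH k) t (u i) (w', N - 1) + pt (gH k) t (w', N - 1) (r m) :=
      pt_triangle ht (gH_reachable hk0 (by simp only; omega))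
        (gH_reachable (by simp only; omega) (by omega))
    have e6 : pt (gH k) t (w', N - 1) (r m) ≤
        pt (gH k) t (w', N - 1) (w', N) + pt (gH k) t (w', N) (r m) :=
      pt_triangle ht (gH_reachable (by simp only; omega) (by simp only; omega))
        (gH_reachable (by simp only; omega) (by omega))
    have e7 := pt_vert_le ht hkN w'
    have e8 : pt (gH k) t (w', N) (r m) ≤ pt (gH N) t (w', N) (r m) :=
      pt_anti (gH_anti hkN.le) ht (gH_reachable (by simp only; omega) hrm)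
    rw [h1] at e1
    have e9 : pt (gH k) t (u (n + 1)) (u (n + 1 + m)) = pt (gH k) t (r 0) (r m) := rfl
    have e10 : pt (gH k) t (u i) (u (n + 1 + m)) = pt (gH k) t (u i) (r m) := rfl
    rw [h1] at e2 e3
    linarith
  have h4 : pt (gH k) t (u i) (w, N - 1) + Vt t w N - pt (gH k) t (u i) (w', N - 1) - Vt t w' N ≤
      bus t (gH N) r (w', N) := le_ciInf key
  have h5 : bus t (gH N) r (w, N) = 0 := by
    rw [← hr0]
    exact bus_zero ht hrr
  unfold Phi
  linarith

/-- the increments of the Busemann function on the line do not depend on the tail -/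
theorem inc_bus_tail (ht : ∀ e, 0 ≤ t e) (hkN : k ≤ N) (hu : IsRay t (gH k) u) {m m' : ℕ}
    (hm : ∀ n, N ≤ (u (m + n)).2) (hm' : ∀ n, N ≤ (u (m' + n)).2) (x : ℤ) :
    inc (fun x => bus t (gH N) (fun n => u (m + n)) (x, N)) x =
      inc (fun x => bus t (gH N) (fun n => u (m' + n)) (x, N)) x := by
  -- compare both with the tail at `m + m'`
  have key : ∀ {a b : ℕ}, (∀ n, N ≤ (u (a + n)).2) → 
      inc (fun x => bus t (gH N) (fun n => u (a + n)) (x, N)) x =
      inc (fun x => bus t (gH N) (fun n => u (a + (b + n))) (x, N)) x := by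
    intro a b ha
    have hr := isRay_tail ht hkN hu ha
    have h0 : N ≤ (u (a + 0)).2 := ha 0
    exact (bus_tail_sub ht hr (gH_reachable (by simp) h0) (gH_reachable (by simp) h0) b).symm
  rw [key (b := m') hm, key (b := m) hm']
  have : ∀ n, m + (m' + n) = m' + (m + n) := fun n => by omega
  simp only [this]

end rays

section com

/-- the gradient rays of the two label functions from the window `[-w,w]` on `y = k` have a
common last entrance into some `Hp N` -/
def Com (t : Environment) (f g : ℤ → ℤ → ℝ) (k : ℤ) (w : ℕ) : Prop :=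
  ∃ N, k < N ∧ ∃ c, ∀ x : ℤ, -(w : ℤ) ≤ x → x ≤ w →
    Opt t k N (f N) (x, k) c ∧ Opt t k N (g N) (x, k) c

variable {t : Environment} {k N : ℤ} {f f' g g' : ℤ → ℤ → ℝ} {w : ℕ}

/-- `Com` is monotone in the interval of labels (`f` has the largest increments) -/
theorem Com.mono (hf : Fam t f) (hf' : Fam t f') (hg' : Fam t g') (hg : Fam t g)
    (h1 : ∀ N x, inc (g N) x ≤ inc (g' N) x) (h2 : ∀ N x, inc (g' N) x ≤ inc (f' N) x)
    (h3 : ∀ N x, inc (f' N) x ≤ inc (f N) x) (h : Com t f g k w) : Com t f' g' k w := by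
  obtain ⟨N, hN, c, hc⟩ := h
  refine ⟨N, hN, c, fun x hx1 hx2 => ?_⟩
  obtain ⟨hc1, hc2⟩ := hc x hx1 hx2
  constructor
  · have hw := hf'.W_spec hN x
    have e1 : c ≤ W t f' k N x := opt_le (h3 N) hc1 (fun w'' hw'' => hf.uniq k N hN x _ _ hw'' hc1) hw
    have e2 : W t f' k N x ≤ c := opt_le' (fun y => (h1 N y).trans (h2 N y)) hw hc2
      fun w'' hw'' => hg.uniq k N hN x _ _ hw'' hc2
    rwa [le_antisymm e2 e1] at hw
  · have hw := hg'.W_spec hN x
    have e1 : c ≤ W t g' k N x := opt_le (fun y => (h2 N y).trans (h3 N y)) hc1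
      (fun w'' hw'' => hf.uniq k N hN x _ _ hw'' hc1) hw
    have e2 : W t g' k N x ≤ c := opt_le' (h1 N) hw hc2
      fun w'' hw'' => hg.uniq k N hN x _ _ hw'' hc2
    rwa [le_antisymm e2 e1] at hw

/-- every ray from the window with label between `g` and `f` passes through the common vertex -/
theorem Com.pass (ht : ∀ e, 0 ≤ t e) (hf : Fam t f) (hg : Fam t g) {j : ℤ} (hjk : j ≤ k)
    (h : Com t f g k w) : ∃ v : ℤ × ℤ, k < v.2 ∧ ∀ (u : ℕ → ℤ × ℤ), IsRay t (gH j) u →
      Tendsto (fun n => (u n).2) atTop atTop → ∀ i x, u i = (x, k) → (∀ m, k ≤ (u (i + m)).2) →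
      -(w : ℤ) ≤ x → x ≤ w → (∀ N, k ≤ N → ∃ m, (∀ n, N ≤ (u (m + n)).2) ∧ ∀ y,
        inc (g N) y ≤ inc (fun x => bus t (gH N) (fun n => u (m + n)) (x, N)) y ∧
        inc (fun x => bus t (gH N) (fun n => u (m + n)) (x, N)) y ≤ inc (f N) y) →
      ∃ n, i < n ∧ u n = v := by
  obtain ⟨N, hN, c, hc⟩ := h
  refine ⟨(c, N), hN, fun u hu hup i x hi hik hx1 hx2 hlab => ?_⟩
  obtain ⟨hc1, hc2⟩ := hc x hx1 hx2
  -- the tail of `u` from `i` on is a ray of `gH k`
  have hu' : IsRay t (gH k) fun n => u (i + n) := isRay_tail ht hjk hu hik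
  have hup' : Tendsto (fun n => (u (i + n)).2) atTop atTop := by
    have := hup.comp (tendsto_add_atTop_nat i)
    refine this.congr fun n => ?_
    simp only [Function.comp_apply, add_comm n i]
  obtain ⟨n, e, -, h1, h2, h3⟩ := exists_last_entrance (u := fun n => u (i + n)) (N := N) (i := 0)
    (fun n => (reg_adj.1 (hu'.adj n)).1) hup' (by simp only [Nat.add_zero, hi]; exact hN)
  obtain ⟨m, hm1, hm2⟩ := hlab N hN.le
  -- the label of `u` on `y = N`
  set b : ℤ → ℝ := fun x => bus t (gH N) (fun m => u (i + (n + 1 + m))) (x, N) with hb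
  have hb' : ∀ y, inc b y = inc (fun x => bus t (gH N) (fun n => u (m + n)) (x, N)) y := by
    intro y
    have := inc_bus_tail ht (hjk.trans hN.le) hu (m := i + (n + 1)) (m' := m)
      (fun l => by rw [add_assoc]; exact h3 l) hm1 y
    rw [← this, hb]
    simp only [add_assoc]
  have hopt := opt_of_ray ht hN hu' (i := 0) (Nat.zero_le n) h1 h2 h3 (b := b) (fun y => rfl)
  rw [show u (i + 0) = (x, k) from hi] at hopt
  have e1 : c ≤ e := opt_le (fun y => by rw [hb']; exact (hm2 y).2) hc1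
    (fun w'' hw'' => hf.uniq k N hN x _ _ hw'' hc1) hopt
  have e2 : e ≤ c := opt_le' (fun y => by rw [hb']; exact (hm2 y).1) hopt hc2
    fun w'' hw'' => hg.uniq k N hN x _ _ hw'' hc2
  refine ⟨i + (n + 1), by omega, ?_⟩
  rw [h2, le_antisymm e2 e1]

end com

end Crest.Agent.R151.UC
end

-- ▼ part R151/UC290c
section

/-!
# R151/UC290c — block UC (owner helper290): `Com` for short label intervals around a
deterministic label, deterministic conclusion

* `eventually_W_eq`: optimal last entrances converge when the increments of the boundary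
  functions converge (all in a bounded interval).
* `eventually_com`: if all the last entrances of `φ` merge then the same holds for approximating
  functions from both sides.
* `SlopeU`, `coal_of_com`: rays of the same slope `s` coalesce as soon as `Com` holds around `s`
  for all windows of all high lines.
-/

set_option autoImplicit false

open Filter Topology
open Crest.ProbabilityR.FirstPassage

namespace Crest.Agent.R151.UC

open Crest.Agent.R151.D624 Crest.Agent.R151.Y Crest.Agent.R151.H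

section conv

theorem tendsto_sub_of_inc {ι : Type*} {l : Filter ι} {F : ι → ℤ → ℝ} {φ : ℤ → ℝ}
    (h : ∀ x, Tendsto (fun n => inc (F n) x) l (𝓝 (inc φ x))) (x y : ℤ) :
    Tendsto (fun n => F n y - F n x) l (𝓝 (φ y - φ x)) := by
  have key : ∀ x y : ℤ, x ≤ y → Tendsto (fun n => F n y - F n x) l (𝓝 (φ y - φ x)) := by
    intro x y hxy
    induction y, hxy using Int.leInduction with
    | base => simp only [sub_self]; exact tendsto_const_nhds
    | succ y hy ih =>
      have := ih.add (h y)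
      unfold inc at this
      refine (this.congr fun n => ?_).trans (by rw [show φ y - φ x + (φ (y + 1) - φ y) =
        φ (y + 1) - φ x by ring])
      ring
  rcases le_total x y with hxy | hxy
  · exact key x y hxy
  · have := (key y x hxy).neg
    simpa using this

variable {t : Environment} {k N : ℤ} {φ : ℤ → ℤ → ℝ} {F : ℕ → ℤ → ℤ → ℝ}

theorem eventually_W_eq (hφ : Fam t φ) (hF : ∀ n, Fam t (F n)) (hkN : k < N)
    (hconv : ∀ x, Tendsto (fun n => inc (F n N) x) atTop (𝓝 (inc (φ N) x))) {x a b : ℤ}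
    (hb : ∀ n, a ≤ W t (F n) k N x ∧ W t (F n) k N x ≤ b) :
    ∀ᶠ n in atTop, W t (F n) k N x = W t φ k N x := by
  have h1 : ∀ e ∈ Finset.Icc a b, ∀ᶠ n in atTop,
      W t (F n) k N x = e → e = W t φ k N x := by
    intro e _
    by_cases he : e = W t φ k N x
    · exact Eventually.of_forall fun n _ => he
    · have hopt := hφ.W_spec hkN x
      -- strict inequality for `φ`
      have hlt : Phi t k N (φ N) (x, k) (W t φ k N x) < Phi t k N (φ N) (x, k) e := by
        rcases (hopt e).lt_or_eq with h | h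
        · exact h
        · exfalso
          exact he (hφ.W_eq hkN fun w' => h ▸ hopt w')
      have hlim := tendsto_sub_of_inc hconv (W t φ k N x) e
      have hpos : 0 < (pt (gH k) t (x, k) (e, N - 1) + Vt t e N) -
          (pt (gH k) t (x, k) (W t φ k N x, N - 1) + Vt t (W t φ k N x) N) +
          (φ N e - φ N (W t φ k N x)) := by
        unfold Phi at hlt
        linarith
      have hev := (hlim.const_add ((pt (gH k) t (x, k) (e, N - 1) + Vt t e N) -
          (pt (gH k) t (x, k) (W t φ k N x, N - 1) + Vt t (W t φ k N x) N))).eventually_const_lt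
          hpos
      filter_upwards [hev] with n hn hWe
      exfalso
      have h2 := (hF n).W_spec hkN x
      rw [hWe] at h2
      have h3 := h2 (W t φ k N x)
      unfold Phi at h3
      linarith
  rw [← Filter.eventually_all_finset] at h1
  filter_upwards [h1] with n hn
  exact hn _ (Finset.mem_Icc.2 (hb n)) rfl

/-- all the last entrances from a window merge -/
theorem exists_merge (hφ : Fam t φ) (hsim : ∀ x y, Sim t φ k x y) (w : ℕ) :
    ∃ N, k < N ∧ ∀ x : ℤ, -(w : ℤ) ≤ x → x ≤ w → W t φ k N x = W t φ k N 0 := by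
  have key : ∀ s : Finset ℤ, ∃ N, k < N ∧ ∀ x ∈ s, W t φ k N x = W t φ k N 0 := by
    intro s
    induction s using Finset.induction_on with
    | empty => exact ⟨k + 1, by omega, by simp⟩
    | insert a s ha ih =>
      obtain ⟨N, hN, h⟩ := ih
      obtain ⟨N', hN', h'⟩ := hsim a 0
      refine ⟨max N N', lt_of_lt_of_le hN (le_max_left _ _), fun x hx => ?_⟩
      rw [Finset.mem_insert] at hx
      rcases hx with rfl | hx
      · exact hφ.persist hN' (le_max_right _ _) h'
      · exact hφ.persist hN (le_max_left _ _) (h x hx)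
  obtain ⟨N, hN, h⟩ := key (Finset.Icc (-(w : ℤ)) w)
  exact ⟨N, hN, fun x h1 h2 => h x (Finset.mem_Icc.2 ⟨h1, h2⟩)⟩

/-- `Com` for functions approximating `φ` from both sides -/
theorem eventually_com (hφ : Fam t φ) (hsim : ∀ x y, Sim t φ k x y) {F E : ℕ → ℤ → ℤ → ℝ}
    {F₀ E₀ : ℤ → ℤ → ℝ} (hF : ∀ n, Fam t (F n)) (hE : ∀ n, Fam t (E n)) (hF₀ : Fam t F₀)
    (hE₀ : Fam t E₀) (h1 : ∀ n N x, inc (φ N) x ≤ inc (F n N) x)
    (h2 : ∀ n N x, inc (F n N) x ≤ inc (F₀ N) x) (h3 : ∀ n N x, inc (E n N) x ≤ inc (φ N) x)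
    (h4 : ∀ n N x, inc (E₀ N) x ≤ inc (E n N) x)
    (hFl : ∀ N x, Tendsto (fun n => inc (F n N) x) atTop (𝓝 (inc (φ N) x)))
    (hEl : ∀ N x, Tendsto (fun n => inc (E n N) x) atTop (𝓝 (inc (φ N) x))) (w : ℕ) :
    ∀ᶠ n in atTop, Com t (F n) (E n) k w := by
  obtain ⟨N, hN, hm⟩ := exists_merge hφ hsim w
  have hA : ∀ x : ℤ, ∀ᶠ n in atTop, W t (F n) k N x = W t φ k N x := by
    intro x
    refine eventually_W_eq hφ hF hN (hFl N) (a := W t F₀ k N x) (b := W t φ k N x) fun n => ?_
    constructor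
    · exact opt_le (h2 n N) (hF₀.W_spec hN x) (fun w' hw' => hF₀.W_eq hN hw') ((hF n).W_spec hN x)
    · exact opt_le (h1 n N) ((hF n).W_spec hN x) (fun w' hw' => (hF n).W_eq hN hw')
        (hφ.W_spec hN x)
  have hB : ∀ x : ℤ, ∀ᶠ n in atTop, W t (E n) k N x = W t φ k N x := by
    intro x
    refine eventually_W_eq hφ hE hN (hEl N) (a := W t φ k N x) (b := W t E₀ k N x) fun n => ?_
    constructor
    · exact opt_le (h3 n N) (hφ.W_spec hN x) (fun w' hw' => hφ.W_eq hN hw') ((hE n).W_spec hN x)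
    · exact opt_le (h4 n N) ((hE n).W_spec hN x) (fun w' hw' => (hE n).W_eq hN hw')
        (hE₀.W_spec hN x)
  have hAB : ∀ᶠ n in atTop, ∀ x ∈ Finset.Icc (-(w : ℤ)) w,
      W t (F n) k N x = W t φ k N x ∧ W t (E n) k N x = W t φ k N x := by
    rw [Filter.eventually_all_finset]
    exact fun x _ => (hA x).and (hB x)
  filter_upwards [hAB] with n hn
  refine ⟨N, hN, W t φ k N 0, fun x hx1 hx2 => ?_⟩
  obtain ⟨e1, e2⟩ := hn x (Finset.mem_Icc.2 ⟨hx1, hx2⟩)
  rw [hm x hx1 hx2] at e1 e2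
  constructor
  · have := (hF n).W_spec hN x
    rwa [e1] at this
  · have := (hE n).W_spec hN x
    rwa [e2] at this

end conv

section slope

/-- the path `u` has slope `s` on all the lines `y = h`, `h ≥ h₀` -/
def SlopeU (D : Set ℝ) (f : ℝ → ℤ → ℤ → ℝ) (t : Environment) (h₀ : ℤ) (s : ℝ)
    (u : ℕ → ℤ × ℤ) : Prop :=
  ∀ h, h₀ ≤ h → ∃ m, (∀ n, h ≤ (u (m + n)).2) ∧
    Sand D (fun p => f p h) s (fun x => bus t (gH h) (fun n => u (m + n)) (x, h))

theorem exists_height_bound (u : ℕ → ℤ × ℤ) (n : ℕ) : ∃ M : ℤ, ∀ a, a ≤ n → (u a).2 ≤ M := by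
  induction n with
  | zero => exact ⟨(u 0).2, fun a ha => by rw [Nat.le_zero.1 ha]⟩
  | succ n ih =>
    obtain ⟨M, hM⟩ := ih
    refine ⟨max M (u (n + 1)).2, fun a ha => ?_⟩
    rcases Nat.le_succ_iff.1 ha with h | rfl
    · exact (hM a h).trans (le_max_left _ _)
    · exact le_max_right _ _

/-- **coalescence of the rays of slope `s`** from `Com` around `s` on all high lines -/
theorem coal_of_com {t : Environment} {D : Set ℝ} {f : ℝ → ℤ → ℤ → ℝ} {s : ℝ} {h₀ i : ℤ}
    (hnt : NoTies t) (ht : ∀ e, 0 ≤ t e) (hf : ∀ p ∈ D, Fam t (f p))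
    (hcom : ∀ k, h₀ ≤ k → ∀ w : ℕ, ∃ p ∈ D, ∃ q ∈ D, p < s ∧ s < q ∧ Com t (f p) (f q) k w)
    {u u' : ℕ → ℤ × ℤ} (hu : IsRay t (gH i) u) (hu' : IsRay t (gH i) u')
    (hup : Tendsto (fun n => (u n).2) atTop atTop)
    (hup' : Tendsto (fun n => (u' n).2) atTop atTop) (hs : SlopeU D f t h₀ s u)
    (hs' : SlopeU D f t h₀ s u') : Coal u u' := by
  refine hu.coal_of_frequently hnt ht hu' fun n => ?_
  obtain ⟨M, hM⟩ := exists_height_bound u n
  -- a high line
  set k : ℤ := max (max h₀ i) (max (M + 1) ((u' 0).2 + 1)) with hk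
  have hk1 : h₀ ≤ k := (le_max_left _ _).trans (le_max_left _ _)
  have hk2 : i ≤ k := (le_max_right _ _).trans (le_max_left _ _)
  have hk3 : M + 1 ≤ k := (le_max_left _ _).trans (le_max_right _ _)
  have hk4 : (u' 0).2 + 1 ≤ k := (le_max_right _ _).trans (le_max_right _ _)
  have h0 := hM 0 (Nat.zero_le n)
  obtain ⟨a, x, -, ha1, ha2, ha3⟩ := exists_last_entrance (N := k) (i := 0)
    (fun n => (reg_adj.1 (hu.adj n)).1) hup (by omega)
  obtain ⟨a', x', -, ha1', ha2', ha3'⟩ := exists_last_entrance (N := k) (i := 0)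
    (fun n => (reg_adj.1 (hu'.adj n)).1) hup' (by omega)
  have hna : n < a + 1 := by
    by_contra hcon
    rw [not_lt] at hcon
    have := hM (a + 1) hcon
    rw [ha2] at this
    simp only at this
    omega
  obtain ⟨p, hp, q, hq, hps, hsq, hc⟩ := hcom k hk1 (max x.natAbs x'.natAbs)
  obtain ⟨v, -, hv⟩ := hc.pass ht (hf p hp) (hf q hq) hk2
  have lab : ∀ {u : ℕ → ℤ × ℤ}, SlopeU D f t h₀ s u → ∀ N, k ≤ N →
      ∃ m, (∀ n, N ≤ (u (m + n)).2) ∧ ∀ y,
        inc (f q N) y ≤ inc (fun x => bus t (gH N) (fun n => u (m + n)) (x, N)) y ∧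
        inc (fun x => bus t (gH N) (fun n => u (m + n)) (x, N)) y ≤ inc (f p N) y := by
    intro u hs N hN
    obtain ⟨m, hm1, hm2⟩ := hs N (hk1.trans hN)
    exact ⟨m, hm1, fun y => ⟨hm2.ge q hq hsq y, hm2.le p hp hps y⟩⟩
  obtain ⟨b, hb1, hb2⟩ := hv u hu hup (a + 1) x ha2 ha3 (by
    have := le_max_left x.natAbs x'.natAbs
    omega) (by
    have := le_max_left x.natAbs x'.natAbs
    omega) (lab hs)
  obtain ⟨b', -, hb2'⟩ := hv u' hu' hup' (a' + 1) x' ha2' ha3' (by
    have := le_max_right x.natAbs x'.natAbs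
    omega) (by
    have := le_max_right x.natAbs x'.natAbs
    omega) (lab hs')
  exact ⟨b, b', by omega, by rw [hb2, hb2']⟩

end slope

end Crest.Agent.R151.UC
end

-- ▼ part R151/UC290d

/-!
# R151/UC290d — block UC (owner helper290): the almost sure statement

`UpSys G D A B f`: slope-indexed label functions `f p k t` (`p ∈ D`, line `y = k`) of the upper
half planes `{k ≤ y}`.

`UpSys.ae_com`, `UpSys.coal_up`: for label functions `g p` that do not read the edges of
`{h₀ ≤ y}` (lower half plane) almost surely at every slope `s`: either `g` is continuous at `s`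
or all upper rays of slope `s` coalesce.
-/

set_option autoImplicit false

open MeasureTheory ProbabilityTheory Filter Topology
open Crest.ProbabilityR.FirstPassage
open scoped ENNReal

namespace Crest.Agent.R151.UC

open Crest.Agent.R151.D624 Crest.Agent.R151.Y Crest.Agent.R151.H

/-- slope-indexed label functions of the upper half planes; `D` = countable dense set of
slopes; for every real slope `s` in `(A,B)` there is a label function of slope `s`, comparable
with the `f p`. -/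
structure UpSys (G : Measure ℝ) (D : Set ℝ) (A B : ℝ) (f : ℝ → ℤ → Environment → ℤ → ℝ) :
    Prop where
  countable : D.Countable
  dense : ∀ x y, A < x → x < y → y < B → ∃ p ∈ D, x < p ∧ p < y
  hl : ∀ p ∈ D, HL G (f p)
  mono : ∀ p ∈ D, ∀ q ∈ D, p < q →
    ∀ᵐ t ∂(iidLaw G), ∀ k x, inc (f q k t) x ≤ inc (f p k t) x
  real : ∀ s, A < s → s < B → ∃ φ : ℤ → Environment → ℤ → ℝ, HL G φ ∧
    (∀ p ∈ D, p < s → (∀ᵐ t ∂(iidLaw G), ∀ k x, inc (φ k t) x ≤ inc (f p k t) x) ∧
      ∀ k x, ∫⁻ t, ENNReal.ofReal (inc (f p k t) x - inc (φ k t) x) ∂(iidLaw G) ≤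
        ENNReal.ofReal (s - p)) ∧
    (∀ q ∈ D, s < q → (∀ᵐ t ∂(iidLaw G), ∀ k x, inc (f q k t) x ≤ inc (φ k t) x) ∧
      ∀ k x, ∫⁻ t, ENNReal.ofReal (inc (φ k t) x - inc (f q k t) x) ∂(iidLaw G) ≤
        ENNReal.ofReal (q - s))

section abstract_lemmas

variable {Ω : Type*} [MeasurableSpace Ω] {P : Measure Ω}

theorem ae_tendsto_zero {a : ℕ → Ω → ℝ} (hm : ∀ n, Measurable (a n))
    (h0 : ∀ᵐ ω ∂P, ∀ n, 0 ≤ a n ω)
    (h : ∀ n, ∫⁻ ω, ENNReal.ofReal (a n ω) ∂P ≤ ENNReal.ofReal ((1 / 2) ^ n)) :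
    ∀ᵐ ω ∂P, Tendsto (fun n => a n ω) atTop (𝓝 0) := by
  have h1 : ∫⁻ ω, ∑' n, ENNReal.ofReal (a n ω) ∂P ≠ ⊤ := by
    rw [lintegral_tsum fun n => (hm n).ennreal_ofReal.aemeasurable]
    refine ne_top_of_le_ne_top ?_ (ENNReal.tsum_le_tsum h)
    rw [← ENNReal.ofReal_tsum_of_nonneg (fun n => by positivity)
      (summable_geometric_of_lt_one (by norm_num) (by norm_num))]
    exact ENNReal.ofReal_ne_top
  have h2 := ae_lt_top (Measurable.tsum fun n => (hm n).ennreal_ofReal) h1
  filter_upwards [h0, h2] with ω hω0 hω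
  have h3 := ENNReal.tendsto_atTop_zero_of_tsum_ne_top hω.ne
  have h4 := (ENNReal.tendsto_toReal ENNReal.zero_ne_top).comp h3
  simp only [ENNReal.toReal_zero] at h4
  refine h4.congr fun n => ?_
  simp only [Function.comp_apply, ENNReal.toReal_ofReal (hω0 n)]

end abstract_lemmas

section events

variable {G : Measure ℝ} {f g : ℤ → Environment → ℤ → ℝ}

theorem measurableSet_com (Hf : HL G f) (Hg : HL G g) (k : ℤ) (w : ℕ) :
    MeasurableSet {t : Environment | Com t (fun k => f k t) (fun k => g k t) k w} := by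
  have h1 : ∀ (N x c : ℤ), MeasurableSet {t : Environment | Opt t k N (f N t) (x, k) c} :=
    fun N x c => HL.measurableSet_Opt Hf (z := (x, k)) (le_refl k) c
  have h2 : ∀ (N x c : ℤ), MeasurableSet {t : Environment | Opt t k N (g N t) (x, k) c} :=
    fun N x c => HL.measurableSet_Opt Hg (z := (x, k)) (le_refl k) c
  have h3 : {t : Environment | Com t (fun k => f k t) (fun k => g k t) k w} =
      ⋃ N : {N : ℤ // k < N}, ⋃ c : ℤ, ⋂ x : {x : ℤ // -(w : ℤ) ≤ x ∧ x ≤ w},
        ({t : Environment | Opt t k N (f N t) (x, k) c} ∩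
          {t : Environment | Opt t k N (g N t) (x, k) c}) := by
    ext t
    rw [Set.mem_iUnion]
    constructor
    · rintro ⟨N, hN, c, hc⟩
      refine ⟨⟨N, hN⟩, Set.mem_iUnion.2 ⟨c, Set.mem_iInter.2 fun x => ?_⟩⟩
      exact hc x.1 x.2.1 x.2.2
    · rintro ⟨N, h⟩
      obtain ⟨c, hc⟩ := Set.mem_iUnion.1 h
      refine ⟨N.1, N.2, c, fun x hx1 hx2 => ?_⟩
      exact Set.mem_iInter.1 hc ⟨x, hx1, hx2⟩
  rw [h3]
  exact MeasurableSet.iUnion fun N => MeasurableSet.iUnion fun c =>
    MeasurableSet.iInter fun x => (h1 N x c).inter (h2 N x c)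

theorem opt_congr_env (Hf : HL G f) {k N : ℤ} (hkN : k < N) {t t' : Environment}
    (h : ∀ e ∈ K.edgesIn (Hp k), t e = t' e) (z : ℤ × ℤ) (c : ℤ) :
    Opt t k N (f N t) z c ↔ Opt t' k N (f N t') z c := by
  have h1 : f N t = f N t' := Hf.dep N t t' fun e he => h e fun z hz => Hp_anti hkN.le (he z hz)
  have h2 : ∀ e ∈ (gH k).edgeSet, t e = t' e := by
    intro e he
    induction e with
    | _ a b =>
      rw [SimpleGraph.mem_edgeSet] at he
      exact h _ (K.mem_edgesIn.2 ⟨(reg_adj.1 he).2.1, (reg_adj.1 he).2.2⟩)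
  unfold Opt
  simp only [Phi_congr hkN h1 h2]

theorem com_congr (Hf : HL G f) (Hg : HL G g) {k : ℤ} {w : ℕ} {t t' : Environment}
    (h : ∀ e ∈ K.edgesIn (Hp k), t e = t' e) :
    Com t (fun k => f k t) (fun k => g k t) k w ↔
      Com t' (fun k => f k t') (fun k => g k t') k w := by
  unfold Com
  constructor
  · rintro ⟨N, hN, c, hc⟩
    refine ⟨N, hN, c, fun x h1 h2 => ?_⟩
    rw [← opt_congr_env Hf hN h, ← opt_congr_env Hg hN h]
    exact hc x h1 h2
  · rintro ⟨N, hN, c, hc⟩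
    refine ⟨N, hN, c, fun x h1 h2 => ?_⟩
    rw [opt_congr_env Hf hN h, opt_congr_env Hg hN h]
    exact hc x h1 h2

end events

namespace UpSys

variable {G : Measure ℝ} [IsProbabilityMeasure G] {D : Set ℝ} {A B : ℝ}
  {f : ℝ → ℤ → Environment → ℤ → ℝ}

/-- non-coalescence event for the label interval `(p,q)` -/
def NC (f : ℝ → ℤ → Environment → ℤ → ℝ) (k : ℤ) (w : ℕ) (p q : ℝ) : Set Environment :=
  {t | ¬ Com t (fun k => f p k t) (fun k => f q k t) k w}

omit [IsProbabilityMeasure G] in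
theorem measurableSet_NC (S : UpSys G D A B f) (k : ℤ) (w : ℕ) {p q : ℝ} (hp : p ∈ D)
    (hq : q ∈ D) : MeasurableSet (NC f k w p q) :=
  (measurableSet_com (S.hl p hp) (S.hl q hq) k w).compl

omit [IsProbabilityMeasure G] in
theorem mono_le (S : UpSys G D A B f) {p q : ℝ} (hp : p ∈ D) (hq : q ∈ D) (hpq : p ≤ q) :
    ∀ᵐ t ∂(iidLaw G), ∀ k x, inc (f q k t) x ≤ inc (f p k t) x := by
  rcases hpq.eq_or_lt with rfl | h
  · exact Eventually.of_forall fun t k x => le_rfl
  · exact S.mono p hp q hq h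

theorem NC_mono (S : UpSys G D A B f) (h0 : G (Set.Iio 0) = 0) (hat : ∀ x, G {x} = 0) (k : ℤ)
    (w : ℕ) {p p' q' q : ℝ} (hp : p ∈ D) (hp' : p' ∈ D) (hq' : q' ∈ D) (hq : q ∈ D)
    (h1 : p ≤ p') (h2 : p' ≤ q') (h3 : q' ≤ q) :
    iidLaw G (NC f k w p' q') ≤ iidLaw G (NC f k w p q) := by
  refine measure_mono_ae ?_
  filter_upwards [(S.hl p hp).ae_fam h0 hat, (S.hl p' hp').ae_fam h0 hat,
    (S.hl q' hq').ae_fam h0 hat, (S.hl q hq).ae_fam h0 hat, S.mono_le hp hp' h1,
    S.mono_le hp' hq' h2, S.mono_le hq' hq h3] with t a1 a2 a3 a4 b1 b2 b3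
  intro hn hc
  exact hn (hc.mono a1 a2 a3 a4 b3 b2 b1)

/-- at a deterministic slope the events `NC` of short intervals are small -/
theorem NC_small (S : UpSys G D A B f) (h0 : G (Set.Iio 0) = 0) (hat : ∀ x, G {x} = 0) (k : ℤ)
    (w : ℕ) {s : ℝ} (hA : A < s) (hB : s < B) {δ : ℝ} (hδ : 0 < δ) :
    ∃ p ∈ D, ∃ q ∈ D, p < s ∧ s < q ∧ iidLaw G (NC f k w p q) ≤ ENNReal.ofReal δ := by
  obtain ⟨φ, hφ, hφp, hφq⟩ := S.real s hA hB
  obtain ⟨hl, hr⟩ := twoSided_of_dense S.dense hA hB
  obtain ⟨p0, hp0, -, hp0s⟩ := hl (s - 1) (by linarith)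
  obtain ⟨q0, hq0, hq0s, -⟩ := hr (s + 1) (by linarith)
  have hpn : ∀ n : ℕ, ∃ p ∈ D, p0 < p ∧ s - (1 / 2) ^ n < p ∧ p < s := by
    intro n
    obtain ⟨p, hp, h1, h2⟩ := hl (max p0 (s - (1 / 2) ^ n)) (max_lt hp0s (by
      have : (0 : ℝ) < (1 / 2) ^ n := by positivity
      linarith))
    exact ⟨p, hp, (le_max_left _ _).trans_lt h1, (le_max_right _ _).trans_lt h1, h2⟩
  have hqn : ∀ n : ℕ, ∃ q ∈ D, q < q0 ∧ q < s + (1 / 2) ^ n ∧ s < q := by
    intro n
    obtain ⟨q, hq, h1, h2⟩ := hr (min q0 (s + (1 / 2) ^ n)) (lt_min hq0s (by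
      have : (0 : ℝ) < (1 / 2) ^ n := by positivity
      linarith))
    exact ⟨q, hq, h2.trans_le (min_le_left _ _), h2.trans_le (min_le_right _ _), h1⟩
  choose p hpD hp1 hp2 hp3 using hpn
  choose q hqD hq1 hq2 hq3 using hqn
  -- convergence of the increments
  have hconvp : ∀ᵐ t ∂(iidLaw G), ∀ N x,
      Tendsto (fun n => inc (f (p n) N t) x) atTop (𝓝 (inc (φ N t) x)) := by
    rw [ae_all_iff]; intro N
    rw [ae_all_iff]; intro x
    have h := ae_tendsto_zero (P := iidLaw G)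
      (a := fun n t => inc (f (p n) N t) x - inc (φ N t) x)
      (fun n => (measurable_inc (F := fun t => f (p n) N t)
        (fun x => (S.hl _ (hpD n)).meas N x) x).sub (measurable_inc (F := fun t => φ N t)
        (fun x => hφ.meas N x) x))
      (by
        rw [ae_all_iff]
        intro n
        filter_upwards [(hφp _ (hpD n) (hp3 n)).1] with t ht
        linarith [ht N x])
      (fun n => ((hφp _ (hpD n) (hp3 n)).2 N x).trans (ENNReal.ofReal_le_ofReal (by
        linarith [hp2 n])))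
    filter_upwards [h] with t ht
    have := ht.add_const (inc (φ N t) x)
    simpa using this
  have hconvq : ∀ᵐ t ∂(iidLaw G), ∀ N x,
      Tendsto (fun n => inc (f (q n) N t) x) atTop (𝓝 (inc (φ N t) x)) := by
    rw [ae_all_iff]; intro N
    rw [ae_all_iff]; intro x
    have h := ae_tendsto_zero (P := iidLaw G)
      (a := fun n t => inc (φ N t) x - inc (f (q n) N t) x)
      (fun n => (measurable_inc (F := fun t => φ N t)
        (fun x => hφ.meas N x) x).sub (measurable_inc (F := fun t => f (q n) N t)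
        (fun x => (S.hl _ (hqD n)).meas N x) x))
      (by
        rw [ae_all_iff]
        intro n
        filter_upwards [(hφq _ (hqD n) (hq3 n)).1] with t ht
        linarith [ht N x])
      (fun n => ((hφq _ (hqD n) (hq3 n)).2 N x).trans (ENNReal.ofReal_le_ofReal (by
        linarith [hq2 n])))
    filter_upwards [h] with t ht
    have := (ht.const_sub (inc (φ N t) x))
    simpa using this
  -- almost surely eventually `Com`
  have hev : ∀ᵐ t ∂(iidLaw G), ∀ᶠ n in atTop,
      Com t (fun k => f (p n) k t) (fun k => f (q n) k t) k w := by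
    have e1 : ∀ᵐ t ∂(iidLaw G), ∀ n, Fam t (fun k => f (p n) k t) := by
      rw [ae_all_iff]
      exact fun n => (S.hl _ (hpD n)).ae_fam h0 hat
    have e2 : ∀ᵐ t ∂(iidLaw G), ∀ n, Fam t (fun k => f (q n) k t) := by
      rw [ae_all_iff]
      exact fun n => (S.hl _ (hqD n)).ae_fam h0 hat
    have e3 : ∀ᵐ t ∂(iidLaw G), ∀ n k x, inc (φ k t) x ≤ inc (f (p n) k t) x := by
      rw [ae_all_iff]
      exact fun n => (hφp _ (hpD n) (hp3 n)).1
    have e4 : ∀ᵐ t ∂(iidLaw G), ∀ n k x, inc (f (p n) k t) x ≤ inc (f p0 k t) x := by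
      rw [ae_all_iff]
      exact fun n => S.mono p0 hp0 _ (hpD n) (hp1 n)
    have e5 : ∀ᵐ t ∂(iidLaw G), ∀ n k x, inc (f (q n) k t) x ≤ inc (φ k t) x := by
      rw [ae_all_iff]
      exact fun n => (hφq _ (hqD n) (hq3 n)).1
    have e6 : ∀ᵐ t ∂(iidLaw G), ∀ n k x, inc (f q0 k t) x ≤ inc (f (q n) k t) x := by
      rw [ae_all_iff]
      exact fun n => S.mono _ (hqD n) q0 hq0 (hq1 n)
    filter_upwards [hφ.ae_fam h0 hat, hφ.ae_sim h0 hat, e1, e2, e3, e4, e5, e6,
      (S.hl _ hp0).ae_fam h0 hat, (S.hl _ hq0).ae_fam h0 hat, hconvp, hconvq] with t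
      a1 a2 b1 b2 b3 b4 b5 b6 c1 c2 d1 d2
    exact eventually_com (k := k) a1 (a2 k) (F := fun n k => f (p n) k t)
      (E := fun n k => f (q n) k t) b1 b2 c1 c2 b3 b4 b5 b6 d1 d2 w
  -- measures tend to zero
  have hlim : Tendsto (fun n => iidLaw G (NC f k w (p n) (q n))) atTop (𝓝 (iidLaw G ∅)) := by
    refine tendsto_measure_of_ae_tendsto_indicator_of_isFiniteMeasure atTop MeasurableSet.empty
      (fun n => S.measurableSet_NC k w (hpD n) (hqD n)) ?_
    filter_upwards [hev] with t ht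
    filter_upwards [ht] with n hn
    simp only [Set.mem_empty_iff_false, iff_false]
    exact fun h => h hn
  rw [measure_empty] at hlim
  obtain ⟨n, hn⟩ := (hlim.eventually_le_const (by simpa using hδ :
    (0 : ℝ≥0∞) < ENNReal.ofReal δ)).exists
  exact ⟨p n, hpD n, q n, hqD n, hp3 n, hq3 n, hn⟩

/-- **UC, almost sure form.** -/
theorem ae_com (S : UpSys G D A B f) (h0 : G (Set.Iio 0) = 0) (hat : ∀ x, G {x} = 0)
    {g : ℝ → Environment → ℤ → ℝ} (hgm : ∀ p ∈ D, ∀ x, Measurable fun t => g p t x) {C : ℝ}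
    (hC : 0 ≤ C)
    (h1 : ∀ p ∈ D, ∀ q ∈ D, p ≤ q → ∀ x,
      ∫⁻ t, ENNReal.ofReal |inc (g p t) x - inc (g q t) x| ∂(iidLaw G) ≤
        ENNReal.ofReal (C * (q - p)))
    {T : Set (Sym2 (ℤ × ℤ))} (hgT : ∀ p ∈ D, ∀ x, DependsOn (fun t => inc (g p t) x) T)
    {h₀ : ℤ} (hT : Disjoint T (K.edgesIn (Hp h₀))) :
    ∀ᵐ t ∂(iidLaw G), ∀ s, A < s → s < B → ContAt D (fun p => g p t) s ∨
      ∀ k, h₀ ≤ k → ∀ w : ℕ, ∃ p ∈ D, ∃ q ∈ D, p < s ∧ s < q ∧
        Com t (fun k => f p k t) (fun k => f q k t) k w := by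
  have key : ∀ᵐ t ∂(iidLaw G), ∀ k : ℤ, ∀ w : ℕ, h₀ ≤ k → ∀ s, A < s → s < B →
      ContAt D (fun p => g p t) s ∨ ∃ p ∈ D, ∃ q ∈ D, p < s ∧ s < q ∧ t ∉ NC f k w p q := by
    rw [ae_all_iff]; intro k
    rw [ae_all_iff]; intro w
    by_cases hk : h₀ ≤ k
    · have hTk : Disjoint T (K.edgesIn (Hp k)) :=
        hT.mono_right fun e he z hz => Hp_anti hk (he z hz)
      have := uc_ae (P := iidLaw G) (D := D) (A := A) (B := B) (C := C) S.dense (f := g)
        (N := NC f k w) hgm hC h1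
        (fun p hp p' hp' q' hq' q hq e1 e2 e3 => S.NC_mono h0 hat k w hp hp' hq' hq e1 e2 e3)
        (fun s hs1 hs2 δ hδ => S.NC_small h0 hat k w hs1 hs2 hδ) ?_
      · filter_upwards [this] with t ht _
        exact ht
      · intro p hp q hq w' κ
        have hind : IndepFun (fun t => tv w' (g p t) (g q t))
            (fun t : Environment => Com t (fun k => f p k t) (fun k => f q k t) k w)
            (iidLaw G) := by
          refine R151.A.indepFun_of_dependsOn G (measurable_tv (hgm p hp) (hgm q hq) w')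
            ?_ (dependsOn_tv (hgT p hp) (hgT q hq) w') ?_ hTk
          · exact measurable_to_prop (by
              have := measurableSet_com (S.hl p hp) (S.hl q hq) k w
              simpa [Set.preimage, Set.mem_singleton_iff] using this)
          · intro t t' htt
            exact propext (com_congr (S.hl p hp) (S.hl q hq) htt)
        have h3 := hind.measure_inter_preimage_eq_mul (Set.Ioi κ) {False} measurableSet_Ioi
          (MeasurableSpace.measurableSet_top)
        have h4 : (fun t : Environment => Com t (fun k => f p k t) (fun k => f q k t) k w) ⁻¹'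
            {False} = NC f k w p q := by
          ext t
          simp [NC]
        rw [h4] at h3
        exact h3.le
    · exact Eventually.of_forall fun t h => absurd h hk
  filter_upwards [key] with t ht s hs1 hs2
  by_cases hc : ContAt D (fun p => g p t) s
  · exact Or.inl hc
  · right
    intro k hk w
    rcases ht k w hk s hs1 hs2 with h | ⟨p, hp, q, hq, e1, e2, e3⟩
    · exact absurd h hc
    · exact ⟨p, hp, q, hq, e1, e2, not_not.1 e3⟩

/-- **UC, coalescence.** Almost surely at every slope `s` in `(A,B)`: either the functions `g`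
(lower half plane) are continuous at `s` or all the upper rays of slope `s` coalesce. -/
theorem coal_up (S : UpSys G D A B f) (h0 : G (Set.Iio 0) = 0) (hat : ∀ x, G {x} = 0)
    {g : ℝ → Environment → ℤ → ℝ} {c σ : ℝ} (hg : MeanFam (iidLaw G) D g c σ)
    {T : Set (Sym2 (ℤ × ℤ))} (hgT : ∀ p ∈ D, ∀ x, DependsOn (fun t => inc (g p t) x) T)
    {h₀ : ℤ} (hT : Disjoint T (K.edgesIn (Hp h₀))) :
    ∀ᵐ t ∂(iidLaw G), ∀ s, A < s → s < B → ContAt D (fun p => g p t) s ∨
      ∀ (i : ℤ) (u u' : ℕ → ℤ × ℤ), IsRay t (gH i) u → IsRay t (gH i) u' →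
        Tendsto (fun n => (u n).2) atTop atTop → Tendsto (fun n => (u' n).2) atTop atTop →
        SlopeU D (fun p k => f p k t) t h₀ s u → SlopeU D (fun p k => f p k t) t h₀ s u' →
        Coal u u' := by
  have hfam : ∀ᵐ t ∂(iidLaw G), ∀ p ∈ D, Fam t (fun k => f p k t) := by
    rw [ae_ball_iff S.countable]
    exact fun p hp => (S.hl p hp).ae_fam h0 hat
  filter_upwards [S.ae_com h0 hat hg.meas zero_le_one hg.lintegral_le hgT hT, hfam,
    ae_nice h0 hat] with t h1 h2 h3 s hs1 hs2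
  rcases h1 s hs1 hs2 with h | h
  · exact Or.inl h
  · right
    intro i u u' hu hu' hup hup' hsu hsu'
    exact coal_of_com h3.nt h3.nonneg h2 h hu hu' hup hup' hsu hsu'

end UpSys

end Crest.Agent.R151.UC
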