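import Crest.Agent.R151.M56f
import Crest.Agent.R151.Q6a
import Crest.Agent.R151.G338h
import Mathlib

-- ▼ part R151/E685F1
section

/-!
# R151 / S0214 part 2, E685F1 — stationarity in the mean of the row kernels (helper685)

* `hkY_ash` : label shift, pointwise: the row at offset `θ - z a` with phases `φ` is the row at offset
  `θ` with phases `fract (φ + z / n0)`, labels shifted by `z`;
* `hkY_stat` : `∫ hkY d (I + z) (s + z) (s' + z) = ∫ hkY d I s s'` (and integrability);
* `sk_eq_Y`, `sk_mean` : `∫ sk d I J L s s' = ∫ hkY d I s s' - ∫ hkY d J (-L) L + (2 L + s - s') ε`.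
-/

set_option autoImplicit false

open MeasureTheory Filter ProbabilityTheory Topology
open Crest.ProbabilityR.FirstPassage

namespace Crest.Agent.R151.E685

open Crest.Agent.R151.K Crest.Agent.R151.Q
open R78 (V Wk IsHwy hc hp stepc hull routes IsOpen shp hullY ptY gapK IsStrip Frame IsPos Back Sep)
open M192 (frame frame_al frame_be al_pos be_pos isStrip ix_cov pos_add_toR)
open B710 (FlatData)
open M56 (nu mg Y_lo Y_up)
open Q (bddBelow_routes)

/-! ### Reindexing highways -/

lemma routes_reindex (t : Environment) (H H' : ℤ → V) (A : Set V) (i j c c' : ℤ) :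
    routes t (fun k => H (k + c)) (fun k => H' (k + c')) A (i - c) (j - c') =
      (fun x => x - hc t H c + hc t H' c') '' routes t H H' A i j := by
  ext x
  constructor
  · rintro ⟨z, w, hz, hw, g, hg, rfl⟩
    refine ⟨hc t H (z + c) + walkCost t g - hc t H' (w + c'), ⟨z + c, w + c', by omega, by omega, g,
      ⟨hg.sub, fun k hk => hg.fst (k - c) ?_, fun k hk => hg.snd (k - c') ?_⟩, rfl⟩, ?_⟩
    · rw [sub_add_cancel]; exact hk
    · rw [sub_add_cancel]; exact hk
    · rw [hc_shift, hc_shift]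
      show hc t H (z + c) + walkCost t g - hc t H' (w + c') - hc t H c + hc t H' c' = _
      ring
  · rintro ⟨_, ⟨z, w, hz, hw, g, hg, rfl⟩, rfl⟩
    have ez : z - c + c = z := by ring
    have ew : w - c' + c' = w := by ring
    refine ⟨z - c, w - c', by omega, by omega,
      g.copy (show H z = H (z - c + c) by rw [ez]) (show H' w = H' (w - c' + c') by rw [ew]),
      ⟨?_, ?_, ?_⟩, ?_⟩
    · intro v hv
      rw [SimpleGraph.Walk.support_copy] at hv
      exact hg.sub v hv
    · intro k hk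
      rw [SimpleGraph.Walk.support_copy] at hk
      exact hg.fst _ hk
    · intro k hk
      rw [SimpleGraph.Walk.support_copy] at hk
      exact hg.snd _ hk
    · have e : walkCost t (g.copy (by rw [ez]) (by rw [ew]) :
          Wk (H (z - c + c)) (H' (w - c' + c'))) = walkCost t g := by simp [walkCost]
      show hc t H z + walkCost t g - hc t H' w - hc t H c + hc t H' c' =
        hc t (fun k => H (k + c)) (z - c) + walkCost t _ - hc t (fun k => H' (k + c')) (w - c')
      rw [e, hc_shift, hc_shift, ez, ew]; linarith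

lemma hull_reindex (t : Environment) (H H' : ℤ → V) (A : Set V) (i j c c' : ℤ)
    (hne : (routes t H H' A i j).Nonempty) (hb : BddBelow (routes t H H' A i j)) :
    hull t (fun k => H (k + c)) (fun k => H' (k + c')) A (i - c) (j - c') =
      hull t H H' A i j - hc t H c + hc t H' c' := by
  unfold hull
  rw [routes_reindex]
  have h1 : (fun x => x - hc t H c + hc t H' c') = OrderIso.addRight (- hc t H c + hc t H' c') := by
    funext x
    simp only [OrderIso.addRight_apply]
    ring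
  rw [h1, ← (OrderIso.addRight (- hc t H c + hc t H' c')).map_csInf' hne hb]
  simp only [OrderIso.addRight_apply]
  ring

lemma hullY_reindex (t : Environment) (φ : V → ℝ) (H H' : ℤ → V) (A : Set V) (i j c c' : ℤ)
    (hne : (routes t H H' A i j).Nonempty) (hb : BddBelow (routes t H H' A i j)) :
    hullY t φ (fun k => H (k + c)) (fun k => H' (k + c')) A (i - c) (j - c') =
      hullY t φ H H' A i j := by
  unfold hullY hp
  rw [hull_reindex t H H' A i j c c' hne hb, hc_shift, hc_shift, sub_add_cancel, sub_add_cancel]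
  ring_nf

variable {μ : ℝ × ℝ → ℝ} {F : FlatData μ} (h : Hwy F)

lemma rg_shift (I : Set ℝ) (z : ℝ) (θ : ℝ × ℝ) :
    rg F ((fun x => x - z) ⁻¹' I) θ = rg F I (θ - z • F.a) := by
  ext v
  have e : F.al (pos (θ - z • F.a) v) = F.al (pos θ v) - z := by
    rw [al_pos, al_pos, map_sub, map_smul, F.al_a, smul_eq_mul, mul_one]; ring
  show F.al (pos θ v) - z ∈ I ↔ F.al (pos (θ - z • F.a) v) ∈ I
  rw [e]

/-- **label shift of the row kernel** -/
theorem hkY_ash (d : ℝ × ℝ) (I : Set ℝ) (s s' z : ℝ) (θ : ℝ × ℝ) (t : Environment) (φ : ℝ × ℝ)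
    (hne : (routes t (h.Lo (θ - z • F.a) t φ) (h.Up d (θ - z • F.a) t φ) (rg F I (θ - z • F.a))
      (h.iL s (θ - z • F.a) t φ) (h.iU d s' (θ - z • F.a) t φ)).Nonempty) (ht : Nn t) :
    h.hkY d ((fun x => x - z) ⁻¹' I) (s + z) (s' + z) θ t
        (Int.fract (φ.1 + z / h.n0), Int.fract (φ.2 + z / h.n0)) =
      h.hkY d I s s' (θ - z • F.a) t φ := by
  obtain ⟨N, hN, hs⟩ := h.ix_ash z s φ.1 θ t
  obtain ⟨N', hN', hs'⟩ := h.ix_ash z s' φ.2 (θ - d) t
  have e1 : h.Lo θ t (Int.fract (φ.1 + z / h.n0), Int.fract (φ.2 + z / h.n0)) =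
      fun k => h.Lo (θ - z • F.a) t φ (k + N) := by
    funext k; exact hN k
  have e2 : h.Up d θ t (Int.fract (φ.1 + z / h.n0), Int.fract (φ.2 + z / h.n0)) =
      fun k => h.Up d (θ - z • F.a) t φ (k + N') := by
    funext k
    have := hN' k
    rw [sub_right_comm] at this
    exact this
  have e3 : h.iL (s + z) θ t (Int.fract (φ.1 + z / h.n0), Int.fract (φ.2 + z / h.n0)) =
      h.iL s (θ - z • F.a) t φ - N := hs s
  have e4 : h.iU d (s' + z) θ t (Int.fract (φ.1 + z / h.n0), Int.fract (φ.2 + z / h.n0)) =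
      h.iU d s' (θ - z • F.a) t φ - N' := by
    have : h.ix s' φ.2 (θ - d - z • F.a) t = h.ix s' φ.2 (θ - z • F.a - d) t := by
      rw [sub_right_comm]
    unfold Hwy.iU
    rw [← this]
    exact hs' s'
  unfold Hwy.hkY
  rw [e1, e2, e3, e4, rg_shift]
  exact hullY_reindex t (phi F) _ _ _ _ _ N N' hne (bddBelow_routes ht _ _ _ _ _)

/-! ### Stationarity in the mean -/

variable {G : Measure ℝ} [IsProbabilityMeasure G]

/-- shift of both phases -/
lemma mp_phases (z : ℝ) : MeasurePreserving (Prod.map (id : (ℝ × ℝ) × Environment → _)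
    (Prod.map (fun x : ℝ => Int.fract (x + z / h.n0)) (fun x : ℝ => Int.fract (x + z / h.n0))))
    (nu G) (nu G) :=
  (MeasurePreserving.id _).prod ((mp_fract _).prod (mp_fract _))

/-- **stationarity in the mean** -/
theorem hkY_stat (h0 : G (Set.Iio 0) = 0) {d : ℝ × ℝ} {I : Set ℝ} (hI : MeasurableSet I)
    {s s' : ℝ} (z : ℝ)
    (hne : ∀ θ t φ, (routes t (h.Lo θ t φ) (h.Up d θ t φ) (rg F I θ)
      (h.iL s θ t φ) (h.iU d s' θ t φ)).Nonempty)
    (hi : Integrable (fun q : ((ℝ × ℝ) × Environment) × (ℝ × ℝ) =>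
      h.hkY d I s s' q.1.1 q.1.2 q.2) (nu G)) :
    Integrable (fun q : ((ℝ × ℝ) × Environment) × (ℝ × ℝ) =>
      h.hkY d ((fun x => x - z) ⁻¹' I) (s + z) (s' + z) q.1.1 q.1.2 q.2) (nu G) ∧
    ∫ q, h.hkY d ((fun x => x - z) ⁻¹' I) (s + z) (s' + z) q.1.1 q.1.2 q.2 ∂(nu G) =
      ∫ q, h.hkY d I s s' q.1.1 q.1.2 q.2 ∂(nu G) := by
  have hI' : MeasurableSet ((fun x : ℝ => x - z) ⁻¹' I) := (measurable_id.sub_const z) hI
  have hinv : ∀ φ, Inv fun θ t => h.hkY d I s s' θ t φ := fun φ => h.hkY_inv d I s s' φ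
  have i1 := integrable_shift_prod (G := G) (ν := UU.prod UU)
    (F := fun θ t φ => h.hkY d I s s' θ t φ) hinv (-(z • F.a)) hi
  have e1 := integral_shift_prod (G := G) (ν := UU.prod UU)
    (F := fun θ t φ => h.hkY d I s s' θ t φ) hinv
    (h.meas_hkY (by fun_prop) (by fun_prop) (by fun_prop) d hI s s') (-(z • F.a))
  simp only [← sub_eq_add_neg] at i1 e1
  have hT := mp_phases (G := G) h z
  have hm : AEStronglyMeasurable (fun q : ((ℝ × ℝ) × Environment) × (ℝ × ℝ) =>
      h.hkY d ((fun x => x - z) ⁻¹' I) (s + z) (s' + z) q.1.1 q.1.2 q.2) (nu G) :=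
    (h.meas_hkY (by fun_prop) (by fun_prop) (by fun_prop) d hI' (s + z)
      (s' + z)).aestronglyMeasurable
  have hae : (fun q : ((ℝ × ℝ) × Environment) × (ℝ × ℝ) =>
      h.hkY d ((fun x => x - z) ⁻¹' I) (s + z) (s' + z) q.1.1 q.1.2
        (Int.fract (q.2.1 + z / h.n0), Int.fract (q.2.2 + z / h.n0))) =ᵐ[nu G]
      fun q => h.hkY d I s s' (q.1.1 - z • F.a) q.1.2 q.2 := by
    filter_upwards [ae_P0_Nn (Ψ := ℝ × ℝ) (ν := UU.prod UU) h0] with q hq
    exact hkY_ash h d I s s' z q.1.1 q.1.2 q.2 (hne _ _ _) hq.1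
  have i2 : Integrable (fun q : ((ℝ × ℝ) × Environment) × (ℝ × ℝ) =>
      h.hkY d ((fun x => x - z) ⁻¹' I) (s + z) (s' + z) q.1.1 q.1.2
        (Int.fract (q.2.1 + z / h.n0), Int.fract (q.2.2 + z / h.n0))) (nu G) :=
    i1.congr hae.symm
  refine ⟨(hT.integrable_comp hm).1 i2, ?_⟩
  rw [← mp_integral hT hm]
  exact (integral_congr_ae hae).trans e1

/-- the sharp kernel in terms of excesses -/
lemma sk_eq_Y (d : ℝ × ℝ) (I J : Set ℝ) (L s s' : ℝ) (θ : ℝ × ℝ) (t : Environment) (φ : ℝ × ℝ) :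
    h.sk d I J L s s' θ t φ = h.hkY d I s s' θ t φ - h.hkY d J (-L) L θ t φ +
      h.Y (-L) s φ.1 θ t + h.Y s' L φ.2 (θ - d) t := by
  unfold Hwy.sk Hwy.hkY Hwy.hk hullY Hwy.Y Hwy.Lo Hwy.Up Hwy.iL Hwy.iU
  ring

/-- **mean of the sharp kernel** -/
theorem sk_mean {ε : ℝ} (hM : HwyMean G h ε) {d : ℝ × ℝ} {I J : Set ℝ} {L s s' : ℝ}
    (hi : Integrable (fun q : ((ℝ × ℝ) × Environment) × (ℝ × ℝ) =>
      h.hkY d I s s' q.1.1 q.1.2 q.2) (nu G))
    (hj : Integrable (fun q : ((ℝ × ℝ) × Environment) × (ℝ × ℝ) =>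
      h.hkY d J (-L) L q.1.1 q.1.2 q.2) (nu G)) :
    Integrable (fun q : ((ℝ × ℝ) × Environment) × (ℝ × ℝ) =>
      h.sk d I J L s s' q.1.1 q.1.2 q.2) (nu G) ∧
    ∫ q, h.sk d I J L s s' q.1.1 q.1.2 q.2 ∂(nu G) =
      ∫ q, h.hkY d I s s' q.1.1 q.1.2 q.2 ∂(nu G) -
        ∫ q, h.hkY d J (-L) L q.1.1 q.1.2 q.2 ∂(nu G) + (2 * L + s - s') * ε := by
  obtain ⟨i1, e1⟩ := Y_lo (h := h) hM (-L) s 0
  obtain ⟨i2, e2⟩ := Y_up (h := h) hM s' L d
  simp only [sub_zero] at i1 e1
  have i3 := ((hi.sub hj).add i1).add i2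
  have e : (fun q : ((ℝ × ℝ) × Environment) × (ℝ × ℝ) => h.sk d I J L s s' q.1.1 q.1.2 q.2) =
      fun q => h.hkY d I s s' q.1.1 q.1.2 q.2 - h.hkY d J (-L) L q.1.1 q.1.2 q.2 +
      h.Y (-L) s q.2.1 q.1.1 q.1.2 + h.Y s' L q.2.2 (q.1.1 - d) q.1.2 := by
    funext q; exact sk_eq_Y h d I J L s s' q.1.1 q.1.2 q.2
  rw [e]
  refine ⟨i3, ?_⟩
  have a1 := integral_add ((hi.sub hj).add i1) i2
  have a2 := integral_add (hi.sub hj) i1
  have a3 := integral_sub hi hj
  simp only [Pi.add_apply, Pi.sub_apply] at a1 a2 a3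
  rw [a1, a2, a3, e1, e2]
  ring

end Crest.Agent.R151.E685
end

-- ▼ part R151/W2

/-!
R151, S0214 part 2: the deterministic algebra of rows (sections 5, 6, 8, 9, 11 of `P2_v2`).

A row between two highways `H` (index type `I`) and `H'` (index type `J`):
`R i j` = excess of the best crossing `i → j`, `p`, `p'` = potentials of the highways
(`Y_H (x → y) = p y - p x`), `a : I` the left end `-L` of `H`, `b : J` the right end `L` of `H'`.
`sharp R p p' a b i j = R i j + (p i - p a) + (p' b - p' j) - R a b`.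
-/

set_option autoImplicit false

namespace Crest.Agent.R151.W

section sharp

variable {I J : Type*}

/-- the gauge-free cost `R#` -/
def sharp (R : I → J → ℝ) (p : I → ℝ) (p' : J → ℝ) (a : I) (b : J) (i : I) (j : J) : ℝ :=
  R i j + (p i - p a) + (p' b - p' j) - R a b

variable {R : I → J → ℝ} {p : I → ℝ} {p' : J → ℝ} {a : I} {b : J}



section order
variable [Preorder I] [Preorder J]

/-- the two concatenation inequalities of a row -/
structure IsRow (R : I → J → ℝ) (p : I → ℝ) (p' : J → ℝ) : Prop where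
  left : ∀ {i' i : I} (j : J), i' ≤ i → R i' j ≤ (p i - p i') + R i j
  right : ∀ (i : I) {j j' : J}, j ≤ j' → R i j' ≤ R i j + (p' j' - p' j)

/-- the Monge property (crossing inequality) of an array -/
def Monge (A : I → J → ℝ) : Prop :=
  ∀ ⦃i i' : I⦄ ⦃j j' : J⦄, i ≤ i' → j ≤ j' → A i j + A i' j' ≤ A i j' + A i' j




theorem Monge.sharp (h : Monge R) : Monge (sharp R p p' a b) := by
  intro i i' j j' hi hj
  have := h hi hj
  unfold W.sharp; linarith

theorem Monge.comp {I' J' : Type*} [Preorder I'] [Preorder J'] {A : I → J → ℝ} (h : Monge A)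
    {f : I' → I} {g : J' → J} (hf : Monotone f) (hg : Monotone g) :
    Monge fun i j => A (f i) (g j) := fun _ _ _ _ hi hj => h (hf hi) (hg hj)

end order

/-- Monge sum 1 (section 9): `Σ_{m<n} a_{m+1,m} ≤ a_{n,0} + Σ_{0<m<n} a_{mm}` (with `n ≥ 1`,
written for `n+1`). -/
theorem Monge.sum_sub {A : ℕ → ℕ → ℝ} (h : Monge A) (n : ℕ) :
    ∑ m ∈ Finset.range (n + 1), A (m + 1) m ≤ A (n + 1) 0 + ∑ m ∈ Finset.range n, A (m + 1) (m + 1) := by
  induction n with
  | zero => simp
  | succ n ih =>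
    rw [Finset.sum_range_succ (fun m => A (m + 1) m) (n + 1),
      Finset.sum_range_succ (fun m => A (m + 1) (m + 1)) n]
    have := h (show n + 1 ≤ n + 2 by omega) (show 0 ≤ n + 1 by omega)
    -- A (n+1) 0 + A (n+2) (n+1) ≤ A (n+1) (n+1) + A (n+2) 0
    have e : n + 1 + 1 = n + 2 := rfl
    rw [e]
    linarith




end sharp

section closeness

/-! ### Section 6: closeness of an outer row `03` and the inner row `12` -/

variable {I0 I1 I2 I3 : Type*}


variable {R03 : I0 → I3 → ℝ} {R12 : I1 → I2 → ℝ} {p0 : I0 → ℝ} {p1 : I1 → ℝ} {p2 : I2 → ℝ}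
  {p3 : I3 → ℝ} {A : I0 → I1 → ℝ} {B : I2 → I3 → ℝ} {l0 : I0} {l1 r1 : I1} {l2 r2 : I2} {r3 : I3}
  {g1 g2 : ℝ}





end closeness

section window

/-! ### Section 8: the window inequality (8.1)

Fences `0, …, m` from left to right; the path goes from fence `m` to fence `0`.
`al l = Y_H(-L → x_l)`, `bl l = Y_{H'}(x'_l → L)`, `V l` = cost of the fence path,
`F l = V l + al l + bl l - G`, `Rl l` = lane restricted cost `x_{l+1} → x'_l`,
`up l`, `uq l` = potential of the fence path `l` at the first hit `p_l` and at the last exit `q_l`.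
-/




end window

section chain

/-! ### (5.2): telescoping along a chain of rows -/



end chain

section infconv

/-! ### 777's form: `R#` from open crossings

`K i j = ⨅ over z ≥ i, w ≤ j of (R° z w + p z - p' w)`; Monge from the crossing inequality of open
crossings. Stated for finite linear orders (windows). -/

variable {I J : Type*} [LinearOrder I] [LinearOrder J] [Finite I] [Finite J]







end infconv

end Crest.Agent.R151.W
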