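import Crest.Agent.R151.X684a
import Mathlib
import Crest.Agent.R151.W3a

-- ▼ part R151/X684b
section

/-!
# R151, block X (helper684), part b: cutting a walk at equidistant columns
-/

set_option autoImplicit false

open MeasureTheory ProbabilityTheory Filter Topology
open Crest.ProbabilityR.FirstPassage
open Crest.Agent.R151.A (shift eShift block sig eX)
open Crest.Agent.R151.K (Nn)

namespace Crest.Agent.R151.X

/-- last visit of column `a` before the first visit of column `b` -/
lemma peel {a b : ℤ} (hab : a ≤ b) {x y : ℤ × ℤ} (w : squareLattice.Walk x y) (hx : x.1 = a)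
    (hy : b ≤ y.1) :
    ∃ (X Z : ℤ × ℤ) (q1 : squareLattice.Walk x X) (q2 : squareLattice.Walk X Z)
      (p : squareLattice.Walk Z y),
      w = (q1.append q2).append p ∧ X.1 = a ∧ Z.1 = b ∧ ∀ e ∈ q2.edges, e ∈ block a b := by
  obtain ⟨Z, w1, w2, h1, h2, h3⟩ := first_hit b w (by omega) hy
  obtain ⟨X, q1, q2, h4, h5, h6⟩ := last_visit a w1 (by omega) (by omega)
  refine ⟨X, Z, q1, q2, w2, by rw [h1, h4], h5, h2, ?_⟩
  intro e he
  refine ⟨h6 e he, h3 e ?_⟩
  rw [h4, SimpleGraph.Walk.edges_append, List.mem_append]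
  exact Or.inr he

/-- cutting a walk at the columns `a + k m`, `k ≤ M` -/
lemma chain (t : Environment) (S : Set (Sym2 (ℤ × ℤ))) (m : ℕ) :
    ∀ (M : ℕ) (a : ℤ) {x y : ℤ × ℤ} (w : squareLattice.Walk x y), x.1 = a →
      a + M * m ≤ y.1 → (∀ e ∈ w.edges, e ∈ S) →
      ∃ (X Z : ℕ → ℤ × ℤ) (c l : ℕ → ℝ), Z 0 = x ∧
        (∀ k ≤ M, (Z k).1 = a + k * m) ∧ (∀ k < M, (X k).1 = a + k * m) ∧
        (∀ k < M, Cr S (Z k) (X k) (l k) t) ∧
        (∀ k < M, Cr (S ∩ block (a + k * m) (a + (k + 1 : ℕ) * m)) (X k) (Z (k + 1)) (c k) t) ∧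
        Cr S (Z M) y (l M) t ∧
        ∑ k ∈ Finset.range M, (l k + c k) + l M = walkCost t w := by
  intro M
  induction M with
  | zero =>
    intro a x y w hx hy hS
    refine ⟨fun _ => x, fun _ => x, fun _ => 0, fun _ => walkCost t w, rfl, ?_, by simp, by simp,
      by simp, ⟨w, hS, le_rfl⟩, by simp⟩
    intro k hk
    obtain rfl : k = 0 := by omega
    simp [hx]
  | succ M ih =>
    intro a x y w hx hy hS
    have hm : (0 : ℤ) ≤ m := by positivity
    have hMm : (0 : ℤ) ≤ M * m := by positivity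
    have hy' : (a + m) + M * m ≤ y.1 := by push_cast at hy; nlinarith
    obtain ⟨X0, Z1, q1, q2, p, h1, h2, h3, h4⟩ := peel (show a ≤ a + m by omega) w hx (by omega)
    have hS1 : ∀ e ∈ q1.edges, e ∈ S := fun e he => hS e (by
      rw [h1, SimpleGraph.Walk.edges_append, SimpleGraph.Walk.edges_append]; simp [he])
    have hS2 : ∀ e ∈ q2.edges, e ∈ S := fun e he => hS e (by
      rw [h1, SimpleGraph.Walk.edges_append, SimpleGraph.Walk.edges_append]; simp [he])
    have hS3 : ∀ e ∈ p.edges, e ∈ S := fun e he => hS e (by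
      rw [h1, SimpleGraph.Walk.edges_append]; simp [he])
    obtain ⟨X, Z, c, l, g1, g2, g3, g4, g5, g6, g7⟩ := ih (a + m) p h3 hy' hS3
    refine ⟨fun k => Nat.casesOn k X0 X, fun k => Nat.casesOn k x Z,
      fun k => Nat.casesOn k (walkCost t q2) c, fun k => Nat.casesOn k (walkCost t q1) l,
      rfl, ?_, ?_, ?_, ?_, ?_, ?_⟩
    · intro k hk
      cases k with
      | zero => simp [hx]
      | succ k =>
        have := g2 k (by omega)
        show (Z k).1 = _
        rw [this]; push_cast; ring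
    · intro k hk
      cases k with
      | zero => simp [h2]
      | succ k =>
        have := g3 k (by omega)
        show (X k).1 = _
        rw [this]; push_cast; ring
    · intro k hk
      cases k with
      | zero => exact ⟨q1, hS1, le_rfl⟩
      | succ k => exact g4 k (by omega)
    · intro k hk
      cases k with
      | zero =>
        show Cr _ X0 (Z 0) (walkCost t q2) t
        rw [g1]
        refine ⟨q2, fun e he => ⟨hS2 e he, ?_⟩, le_rfl⟩
        have := h4 e he
        simpa using this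
      | succ k =>
        have h := g5 k (by omega)
        show Cr _ (X k) (Z (k + 1)) (c k) t
        refine h.mono ?_ le_rfl
        refine Set.inter_subset_inter_right _ (A.block_mono ?_ ?_)
        · push_cast; nlinarith
        · push_cast; nlinarith
    · exact g6
    · rw [Finset.sum_range_succ']
      show ∑ k ∈ Finset.range M, (l k + c k) + (walkCost t q1 + walkCost t q2) + l M = _
      rw [h1, K.walkCost_append, K.walkCost_append, ← g7]
      ring

/-- energies along a cut walk: total lateral variation and positive parts -/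
lemma chain_energy {α β a' δ v : ℝ} {M : ℕ} {s : ℝ} {X Z : ℕ → ℤ × ℤ} {c l : ℕ → ℝ} {y : ℤ × ℤ}
    {tot : ℝ} (hsum : ∑ k ∈ Finset.range M, (l k + c k) + l M = tot)
    (htot : tot ≤ lin α β y - lin α β (Z 0) + v)
    (hl : ∀ k < M, lin α β (X k) - lin α β (Z k) + a' * |ht s (X k) - ht s (Z k)| - δ ≤ l k)
    (hc : ∀ k < M, lin α β (Z (k + 1)) - lin α β (X k) +
      a' * |ht s (Z (k + 1)) - ht s (X k)| - δ ≤ c k)
    (hlM : lin α β y - lin α β (Z M) - δ ≤ l M) :
    a' * ∑ k ∈ Finset.range M, (|ht s (X k) - ht s (Z k)| + |ht s (Z (k + 1)) - ht s (X k)|)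
      ≤ v + (2 * M + 1) * δ ∧
    ∀ (ha : 0 ≤ a'),
    ∑ k ∈ Finset.range M, (c k - (lin α β (Z (k + 1)) - lin α β (X k)) + δ) ≤
      v + (2 * M + 1) * δ := by
  have tele : ∑ k ∈ Finset.range M, (lin α β (Z (k + 1)) - lin α β (Z k)) =
      lin α β (Z M) - lin α β (Z 0) := Finset.sum_range_sub (fun k => lin α β (Z k)) M
  have hs1 : ∑ k ∈ Finset.range M, (l k + c k) ≤
      lin α β (Z M) - lin α β (Z 0) + v + δ := by
    linarith
  constructor
  · have h1 : ∑ k ∈ Finset.range M, ((lin α β (Z (k + 1)) - lin α β (Z k)) +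
        a' * (|ht s (X k) - ht s (Z k)| + |ht s (Z (k + 1)) - ht s (X k)|) - 2 * δ) ≤
        ∑ k ∈ Finset.range M, (l k + c k) := by
      refine Finset.sum_le_sum fun k hk => ?_
      have hk' := Finset.mem_range.1 hk
      have := hl k hk'
      have := hc k hk'
      linarith
    rw [Finset.sum_sub_distrib, Finset.sum_add_distrib, tele, Finset.sum_const, Finset.card_range,
      nsmul_eq_mul, ← Finset.mul_sum] at h1
    nlinarith
  · intro ha
    have h1 : ∑ k ∈ Finset.range M, ((lin α β (Z (k + 1)) - lin α β (Z k)) +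
        (c k - (lin α β (Z (k + 1)) - lin α β (X k)) + δ) - 2 * δ) ≤
        ∑ k ∈ Finset.range M, (l k + c k) := by
      refine Finset.sum_le_sum fun k hk => ?_
      have hk' := Finset.mem_range.1 hk
      have := hl k hk'
      have h3 : 0 ≤ a' * |ht s (X k) - ht s (Z k)| := by positivity
      linarith
    rw [Finset.sum_sub_distrib, Finset.sum_add_distrib, tele, Finset.sum_const, Finset.card_range,
      nsmul_eq_mul] at h1
    nlinarith

end Crest.Agent.R151.X
end

-- ▼ part R151/W4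
section

/-!
R151: counting integer skeletons and the hysteresis lemma (for part 1, step (5)).
-/

set_option autoImplicit false

namespace Crest.Agent.R151.W

open Finset


/-- The same with the sharp base `(1 + e^{-l}) / (1 - e^{-l})`. -/
theorem sum_exp_abs_le' {l : ℝ} (hl : 0 < l) (Gr : Finset ℤ) :
    ∑ g ∈ Gr, Real.exp (-l * |((g : ℤ) : ℝ)|) ≤ (1 + Real.exp (-l)) / (1 - Real.exp (-l)) := by
  have hr0 : 0 ≤ Real.exp (-l) := (Real.exp_pos _).le
  have hr1 : Real.exp (-l) < 1 := by rw [Real.exp_lt_one_iff]; linarith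
  have e : ∀ g : ℤ, Real.exp (-l * |((g : ℤ) : ℝ)|) = Real.exp (-l) ^ g.natAbs := by
    intro g
    have h : |((g : ℤ) : ℝ)| = (g.natAbs : ℝ) := by
      rw [← Int.cast_abs, Int.abs_eq_natAbs, Int.cast_natCast]
    rw [← Real.exp_nat_mul, h, mul_comm]
  simp_rw [e]
  rw [← Finset.sum_filter_add_sum_filter_not Gr (fun g => 0 ≤ g)]
  have h1 : ∑ g ∈ Gr.filter (fun g => 0 ≤ g), Real.exp (-l) ^ g.natAbs ≤
      1 / (1 - Real.exp (-l)) := by
    rw [← Finset.sum_image (f := fun d : ℕ => Real.exp (-l) ^ d) (g := fun g : ℤ => g.natAbs)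
      (by
        intro a ha b hb h
        simp only [Finset.coe_filter, Set.mem_ofPred_eq] at ha hb
        dsimp only at h
        omega)]
    rw [one_div, ← tsum_geometric_of_lt_one hr0 hr1]
    exact (summable_geometric_of_lt_one hr0 hr1).sum_le_tsum _ (fun _ _ => by positivity)
  have h2 : ∑ g ∈ Gr.filter (fun g => ¬ 0 ≤ g), Real.exp (-l) ^ g.natAbs ≤
      Real.exp (-l) * (1 / (1 - Real.exp (-l))) := by
    have : ∀ g ∈ Gr.filter (fun g => ¬ 0 ≤ g), Real.exp (-l) ^ g.natAbs =
        Real.exp (-l) * Real.exp (-l) ^ (g.natAbs - 1) := by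
      intro g hg
      simp only [Finset.mem_filter, not_le] at hg
      have : g.natAbs = (g.natAbs - 1) + 1 := by omega
      conv_lhs => rw [this, pow_succ']
    rw [Finset.sum_congr rfl this, ← Finset.mul_sum]
    refine mul_le_mul_of_nonneg_left ?_ hr0
    rw [← Finset.sum_image (f := fun d : ℕ => Real.exp (-l) ^ d)
      (g := fun g : ℤ => g.natAbs - 1)
      (by
        intro a ha b hb h
        simp only [Finset.coe_filter, Set.mem_ofPred_eq] at ha hb
        dsimp only at h
        omega)]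
    rw [one_div, ← tsum_geometric_of_lt_one hr0 hr1]
    exact (summable_geometric_of_lt_one hr0 hr1).sum_le_tsum _ (fun _ _ => by positivity)
  calc _ ≤ 1 / (1 - Real.exp (-l)) + Real.exp (-l) * (1 / (1 - Real.exp (-l))) := add_le_add h1 h2
    _ = _ := by ring

theorem card_sum_abs_le' {ι : Type*} [Fintype ι] (S : Finset (ι → ℤ)) {K l : ℝ}
    (hl : 0 < l) (hS : ∀ d ∈ S, ∑ i, |((d i : ℤ) : ℝ)| ≤ K) :
    (S.card : ℝ) ≤ Real.exp (l * K) *
      ((1 + Real.exp (-l)) / (1 - Real.exp (-l))) ^ Fintype.card ι := by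
  classical
  set Gr : Finset ℤ := S.biUnion fun d => Finset.univ.image d with hGr
  have hsub : S ⊆ Fintype.piFinset fun _ : ι => Gr := by
    intro d hd
    rw [Fintype.mem_piFinset]
    intro i
    exact Finset.mem_biUnion.2 ⟨d, hd, Finset.mem_image_of_mem _ (Finset.mem_univ i)⟩
  calc (S.card : ℝ) = ∑ d ∈ S, (1 : ℝ) := by simp
    _ ≤ ∑ d ∈ S, Real.exp (l * K) * ∏ i, Real.exp (-l * |((d i : ℤ) : ℝ)|) := by
        refine Finset.sum_le_sum fun d hd => ?_
        rw [← Real.exp_sum, ← Real.exp_add, ← Finset.mul_sum]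
        refine Real.one_le_exp ?_
        have := mul_le_mul_of_nonneg_left (hS d hd) hl.le
        linarith
    _ ≤ ∑ d ∈ Fintype.piFinset fun _ : ι => Gr,
          Real.exp (l * K) * ∏ i, Real.exp (-l * |((d i : ℤ) : ℝ)|) :=
        Finset.sum_le_sum_of_subset_of_nonneg hsub fun d _ _ =>
          mul_nonneg (Real.exp_pos _).le (Finset.prod_nonneg fun i _ => (Real.exp_pos _).le)
    _ = Real.exp (l * K) * ∏ _i : ι, ∑ g ∈ Gr, Real.exp (-l * |((g : ℤ) : ℝ)|) := by
        rw [← Finset.mul_sum, Finset.prod_univ_sum]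
    _ ≤ Real.exp (l * K) * ∏ _i : ι, (1 + Real.exp (-l)) / (1 - Real.exp (-l)) := by
        refine mul_le_mul_of_nonneg_left (Finset.prod_le_prod (fun i _ =>
          Finset.sum_nonneg fun g _ => (Real.exp_pos _).le) fun i _ => ?_) (Real.exp_pos _).le
        exact sum_exp_abs_le' hl Gr
    _ = _ := by rw [Finset.prod_const, Finset.card_univ]

/-- the integer skeletons of total variation at most `K` form a finite set -/
theorem finite_sum_abs_le (ι : Type*) [Fintype ι] (K : ℝ) :
    {d : ι → ℤ | ∑ i, |((d i : ℤ) : ℝ)| ≤ K}.Finite := by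
  classical
  refine (Set.Finite.pi' fun _ : ι => Set.finite_Icc (-⌈|K|⌉) ⌈|K|⌉).subset ?_
  intro d hd i
  have h1 : |((d i : ℤ) : ℝ)| ≤ K :=
    (Finset.single_le_sum (f := fun i => |((d i : ℤ) : ℝ)|) (fun i _ => abs_nonneg _)
      (Finset.mem_univ i)).trans hd
  have h2 : |((d i : ℤ) : ℝ)| ≤ ⌈|K|⌉ := h1.trans ((le_abs_self K).trans (Int.le_ceil _))
  rw [abs_le] at h2
  constructor
  · exact_mod_cast h2.1
  · exact_mod_cast h2.2

/-- the hysteresis follower -/
noncomputable def hyst (x : ℕ → ℝ) : ℕ → ℤ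
  | 0 => 0
  | k + 1 => if |x (k + 1) - (hyst x k : ℝ)| ≤ 1 then hyst x k else round (x (k + 1))

/-- **Hysteresis lemma.** A real sequence starting at `0` is followed within distance `1` by an
integer sequence whose total variation is at most three times that of the real one. -/
theorem exists_hysteresis (x : ℕ → ℝ) (hx : x 0 = 0) :
    ∃ r : ℕ → ℤ, r 0 = 0 ∧ (∀ k, |x k - r k| ≤ 1) ∧
      ∀ n, ∑ k ∈ range n, |((r (k + 1) - r k : ℤ) : ℝ)| ≤
        3 * ∑ k ∈ range n, |x (k + 1) - x k| := by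
  set r : ℕ → ℤ := hyst x with hr
  have hr0 : r 0 = 0 := rfl
  have hrs : ∀ k, r (k + 1) = if |x (k + 1) - (r k : ℝ)| ≤ 1 then r k else round (x (k + 1)) :=
    fun k => rfl
  have h1 : ∀ k, |x k - r k| ≤ 1 := by
    intro k
    cases k with
    | zero => rw [hr0, hx]; simp
    | succ k =>
      rw [hrs]
      split_ifs with h
      · exact h
      · have := abs_sub_round (x (k + 1)); linarith
  refine ⟨r, hr0, h1, fun n => ?_⟩
  have key : ∀ n, ∑ k ∈ range n, |((r (k + 1) - r k : ℤ) : ℝ)| + 3 * max (|x n - r n| - 1 / 2) 0 ≤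
      3 * ∑ k ∈ range n, |x (k + 1) - x k| := by
    intro n
    induction n with
    | zero => simp [hr0, hx]
    | succ n ih =>
      rw [Finset.sum_range_succ, Finset.sum_range_succ (fun k => |x (k + 1) - x k|)]
      have hD : |x (n + 1) - r n| ≤ |x n - r n| + |x (n + 1) - x n| := by
        calc |x (n + 1) - r n| = |(x n - r n) + (x (n + 1) - x n)| := by ring_nf
          _ ≤ _ := abs_add_le _ _
      have hm0 : |x n - r n| - 1 / 2 ≤ max (|x n - r n| - 1 / 2) 0 := le_max_left _ _
      have hm1 : 0 ≤ max (|x n - (r n : ℝ)| - 1 / 2) 0 := le_max_right _ _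
      have ht := abs_nonneg (x (n + 1) - x n)
      by_cases h : |x (n + 1) - (r n : ℝ)| ≤ 1
      · have e : r (n + 1) = r n := by rw [hrs, if_pos h]
        rw [e]
        simp only [sub_self, Int.cast_zero, abs_zero, add_zero]
        have : max (|x (n + 1) - (r n : ℝ)| - 1 / 2) 0 ≤
            max (|x n - (r n : ℝ)| - 1 / 2) 0 + |x (n + 1) - x n| :=
          max_le (by linarith) (by linarith)
        linarith
      · have e : r (n + 1) = round (x (n + 1)) := by rw [hrs, if_neg h]
        rw [e]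
        push Not at h
        have h2 := abs_sub_round (x (n + 1))
        have h3 : max (|x (n + 1) - (round (x (n + 1)) : ℝ)| - 1 / 2) 0 = 0 :=
          max_eq_right (by linarith)
        have h4 : |((round (x (n + 1)) - r n : ℤ) : ℝ)| ≤ |x (n + 1) - r n| + 1 / 2 := by
          push_cast
          calc |(round (x (n + 1)) : ℝ) - r n| =
              |(x (n + 1) - r n) - (x (n + 1) - round (x (n + 1)))| := by ring_nf
            _ ≤ |x (n + 1) - r n| + |x (n + 1) - round (x (n + 1))| := abs_sub _ _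
            _ ≤ _ := by linarith
        rw [h3]
        linarith
  have := key n
  have h2 : 0 ≤ max (|x n - (r n : ℝ)| - 1 / 2) 0 := le_max_right _ _
  linarith

end Crest.Agent.R151.W
end

-- ▼ part R151/X684c
section

/-!
# R151, block X (helper684), part c: union bound over skeletons for independent blocks
-/

set_option autoImplicit false

open MeasureTheory ProbabilityTheory Filter Topology
open Crest.ProbabilityR.FirstPassage
open Crest.Agent.R151.A (shift eShift block sig eX)

namespace Crest.Agent.R151.X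

variable (G : Measure ℝ) [IsProbabilityMeasure G]

/-- number of the events `F 0, …, F (M-1)` that occur -/
noncomputable def cnt (F : ℕ → Set Environment) (M : ℕ) (t : Environment) : ℝ :=
  ∑ k ∈ Finset.range M, (F k).indicator (fun _ => (1 : ℝ)) t

lemma measurable_cnt {S : ℕ → Set (Sym2 (ℤ × ℤ))} {F : ℕ → Set Environment}
    (hF : ∀ k, MeasurableSet[sig (S k)] (F k)) (M : ℕ) :
    Measurable[sig (⋃ j ∈ Finset.range M, S j)] (cnt F M) := by
  unfold cnt
  refine Finset.measurable_fun_sum _ fun k hk => ?_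
  have h1 : MeasurableSet[sig (⋃ j ∈ Finset.range M, S j)] (F k) :=
    sig_mono (Set.subset_biUnion_of_mem (u := fun j => S j) (by simpa using hk)) _ (hF k)
  exact (@measurable_const _ _ _ (sig (⋃ j ∈ Finset.range M, S j)) (1 : ℝ)).indicator h1

lemma exp_neg_indicator (E : Set Environment) (t : Environment) :
    Real.exp (-(E.indicator (fun _ => (1 : ℝ)) t)) =
      1 - (1 - Real.exp (-1)) * E.indicator (fun _ => (1 : ℝ)) t := by
  by_cases h : t ∈ E
  · simp [Set.indicator_of_mem h]
  · simp [Set.indicator_of_notMem h]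

lemma cnt_nonneg (F : ℕ → Set Environment) (M : ℕ) (t : Environment) : 0 ≤ cnt F M t :=
  Finset.sum_nonneg fun k _ => Set.indicator_nonneg (fun _ _ => zero_le_one) t

lemma integral_exp_cnt {S : ℕ → Set (Sym2 (ℤ × ℤ))} {F : ℕ → Set Environment}
    (hF : ∀ k, MeasurableSet[sig (S k)] (F k))
    (hdis : ∀ M : ℕ, Disjoint (⋃ j ∈ Finset.range M, S j) (S M)) {c : ℝ} (hc1 : c ≤ 1)
    (hc : ∀ k, c ≤ (iidLaw G).real (F k)) (M : ℕ) :
    ∫ t, Real.exp (-cnt F M t) ∂(iidLaw G) ≤ (1 - (1 - Real.exp (-1)) * c) ^ M := by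
  have hθ0 : 0 < 1 - Real.exp (-1) := by
    have : Real.exp (-1) < 1 := by rw [Real.exp_lt_one_iff]; norm_num
    linarith
  have hθ1 : 1 - Real.exp (-1) < 1 := by linarith [Real.exp_pos (-1)]
  induction M with
  | zero => simp [cnt]
  | succ M ih =>
    have h1 : ∀ t, Real.exp (-cnt F (M + 1) t) = Real.exp (-cnt F M t) *
        Real.exp (-((F M).indicator (fun _ => (1 : ℝ)) t)) := by
      intro t
      rw [← Real.exp_add]
      congr 1
      unfold cnt
      rw [Finset.sum_range_succ]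
      ring
    have hm1 : Measurable[sig (⋃ j ∈ Finset.range M, S j)] fun t => Real.exp (-cnt F M t) :=
      Real.measurable_exp.comp (measurable_cnt hF M).neg
    have hm2 : Measurable[sig (S M)] fun t : Environment =>
        Real.exp (-((F M).indicator (fun _ => (1 : ℝ)) t)) :=
      Real.measurable_exp.comp
        ((@measurable_const _ _ _ (sig (S M)) (1 : ℝ)).indicator (hF M)).neg
    have hind : IndepFun (fun t => Real.exp (-cnt F M t))
        (fun t => Real.exp (-((F M).indicator (fun _ => (1 : ℝ)) t))) (iidLaw G) := by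
      rw [IndepFun_iff_Indep]
      exact indep_of_indep_of_le_left (indep_of_indep_of_le_right (A.indep_sig G (hdis M))
        hm2.comap_le) hm1.comap_le
    simp_rw [h1]
    rw [hind.integral_fun_mul_eq_mul_integral
      ((hm1.mono (sig_le _) le_rfl).aestronglyMeasurable)
      ((hm2.mono (sig_le _) le_rfl).aestronglyMeasurable)]
    have h2 : ∫ t, Real.exp (-((F M).indicator (fun _ => (1 : ℝ)) t)) ∂(iidLaw G) =
        1 - (1 - Real.exp (-1)) * (iidLaw G).real (F M) := by
      simp_rw [exp_neg_indicator]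
      have hFM : MeasurableSet (F M) := sig_le _ _ (hF M)
      rw [integral_sub (integrable_const _)
        (((integrable_const (1 : ℝ)).indicator hFM).const_mul _), integral_const_mul,
        integral_indicator_const _ hFM]
      simp
    rw [h2, pow_succ]
    have h3 : 1 - (1 - Real.exp (-1)) * (iidLaw G).real (F M) ≤ 1 - (1 - Real.exp (-1)) * c := by
      have := mul_le_mul_of_nonneg_left (hc M) hθ0.le
      linarith
    have h4 : 0 ≤ 1 - (1 - Real.exp (-1)) * (iidLaw G).real (F M) := by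
      have h5 : (iidLaw G).real (F M) ≤ 1 := measureReal_le_one
      nlinarith
    have h5 : 0 ≤ ∫ t, Real.exp (-cnt F M t) ∂(iidLaw G) :=
      integral_nonneg fun t => (Real.exp_pos _).le
    exact mul_le_mul ih h3 h4 (h5.trans ih)

/-- Chernoff bound for the number of occurring events among independent ones -/
lemma prob_cnt_le {S : ℕ → Set (Sym2 (ℤ × ℤ))} {F : ℕ → Set Environment}
    (hF : ∀ k, MeasurableSet[sig (S k)] (F k))
    (hdis : ∀ M : ℕ, Disjoint (⋃ j ∈ Finset.range M, S j) (S M)) {c : ℝ} (hc1 : c ≤ 1)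
    (hc : ∀ k, c ≤ (iidLaw G).real (F k)) (M : ℕ) (K : ℝ) :
    (iidLaw G).real {t | cnt F M t ≤ K} ≤
      Real.exp K * (1 - (1 - Real.exp (-1)) * c) ^ M := by
  have hm : Measurable (cnt F M) := (measurable_cnt hF M).mono (sig_le _) le_rfl
  have hint : Integrable (fun t => Real.exp (-cnt F M t)) (iidLaw G) := by
    refine Integrable.of_bound (Real.measurable_exp.comp hm.neg).aestronglyMeasurable 1 ?_
    refine Eventually.of_forall fun t => ?_
    rw [Real.norm_eq_abs, abs_of_pos (Real.exp_pos _), Real.exp_le_one_iff]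
    linarith [cnt_nonneg F M t]
  have h1 : Real.exp (-K) * (iidLaw G).real {t | cnt F M t ≤ K} ≤
      ∫ t, Real.exp (-cnt F M t) ∂(iidLaw G) := by
    have h2 := mul_meas_ge_le_integral_of_nonneg (μ := iidLaw G)
      (f := fun t => Real.exp (-cnt F M t))
      (Eventually.of_forall fun t => (Real.exp_pos _).le) hint (Real.exp (-K))
    refine le_trans (le_of_eq ?_) h2
    congr 2
    ext t
    simp only [Set.mem_ofPred_eq, Real.exp_le_exp, neg_le_neg_iff]
  have h2 := integral_exp_cnt G hF hdis hc1 hc M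
  have h3 : (iidLaw G).real {t | cnt F M t ≤ K} =
      Real.exp K * (Real.exp (-K) * (iidLaw G).real {t | cnt F M t ≤ K}) := by
    rw [← mul_assoc, ← Real.exp_add]
    simp
  rw [h3]
  exact mul_le_mul_of_nonneg_left (h1.trans h2) (Real.exp_pos _).le

/-- the event that some skeleton of small variation has few failing blocks -/
def SkelEv (F : ℕ → ℤ → Set Environment) (M : ℕ) (V K : ℝ) : Set Environment :=
  {t | ∃ r : ℕ → ℤ, r 0 = 0 ∧ ∑ k ∈ Finset.range M, |((r (k + 1) - r k : ℤ) : ℝ)| ≤ V ∧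
    cnt (fun k => F k (r (k + 1))) M t ≤ K}

/-- the union bound over skeletons -/
lemma prob_skel_le {S : ℕ → Set (Sym2 (ℤ × ℤ))} {F : ℕ → ℤ → Set Environment}
    (hF : ∀ k r, MeasurableSet[sig (S k)] (F k r))
    (hdis : ∀ M : ℕ, Disjoint (⋃ j ∈ Finset.range M, S j) (S M)) {c : ℝ} (hc1 : c ≤ 1)
    (hc : ∀ k r, c ≤ (iidLaw G).real (F k r)) (M : ℕ) {V K l : ℝ} (hl : 0 < l) :
    (iidLaw G).real (SkelEv F M V K) ≤
      Real.exp (l * V) * ((1 + Real.exp (-l)) / (1 - Real.exp (-l))) ^ M *
        (Real.exp K * (1 - (1 - Real.exp (-1)) * c) ^ M) := by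
  classical
  set D : Finset (Fin M → ℤ) := (W.finite_sum_abs_le (Fin M) V).toFinset with hD
  -- the skeleton with increments `d`
  set R : (Fin M → ℤ) → ℕ → ℤ := fun d k =>
    ∑ j : Fin M, if (j : ℕ) < k then d j else 0 with hR
  have hsub : SkelEv F M V K ⊆
      ⋃ d ∈ D, {t | cnt (fun k => F k (R d (k + 1))) M t ≤ K} := by
    rintro t ⟨r, h0, h1, h2⟩
    set d : Fin M → ℤ := fun j => r (j + 1) - r j with hd
    have hRd : ∀ k ≤ M, R d k = r k := by
      intro k hk
      have h3 : R d k = ∑ j ∈ Finset.range M, if j < k then (r (j + 1) - r j) else 0 := by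
        simp only [hR, hd]
        exact Fin.sum_univ_eq_sum_range (fun j => if j < k then (r (j + 1) - r j) else 0) M
      rw [h3, ← Finset.sum_filter]
      have h4 : (Finset.range M).filter (fun j => j < k) = Finset.range k := by
        ext j; simp only [Finset.mem_filter, Finset.mem_range]; omega
      rw [h4, Finset.sum_range_sub, h0, sub_zero]
    have hdD : d ∈ D := by
      rw [hD, Set.Finite.mem_toFinset]
      show ∑ i, |((d i : ℤ) : ℝ)| ≤ V
      have h3 : ∑ i : Fin M, |((d i : ℤ) : ℝ)| =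
          ∑ k ∈ Finset.range M, |((r (k + 1) - r k : ℤ) : ℝ)| :=
        Fin.sum_univ_eq_sum_range (fun k => |((r (k + 1) - r k : ℤ) : ℝ)|) M
      rw [h3]
      exact h1
    simp only [Set.mem_iUnion]
    refine ⟨d, hdD, ?_⟩
    have h5 : cnt (fun k => F k (R d (k + 1))) M t = cnt (fun k => F k (r (k + 1))) M t := by
      unfold cnt
      refine Finset.sum_congr rfl fun k hk => ?_
      show (F k (R d (k + 1))).indicator _ t = (F k (r (k + 1))).indicator _ t
      rw [hRd (k + 1) (by have := Finset.mem_range.1 hk; omega)]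
    simp only [Set.mem_ofPred_eq, h5]
    exact h2
  have hcard := W.card_sum_abs_le' D (K := V) hl (by
    intro d hd
    rw [hD, Set.Finite.mem_toFinset] at hd
    exact hd)
  rw [Fintype.card_fin] at hcard
  have h1 : (iidLaw G).real (SkelEv F M V K) ≤
      ∑ d ∈ D, (iidLaw G).real {t | cnt (fun k => F k (R d (k + 1))) M t ≤ K} :=
    (measureReal_mono hsub (measure_ne_top _ _)).trans (measureReal_biUnion_finset_le _ _)
  have h2 : ∑ d ∈ D, (iidLaw G).real {t | cnt (fun k => F k (R d (k + 1))) M t ≤ K} ≤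
      ∑ _d ∈ D, Real.exp K * (1 - (1 - Real.exp (-1)) * c) ^ M :=
    Finset.sum_le_sum fun d _ =>
      prob_cnt_le G (fun k => hF k (R d (k + 1))) hdis hc1 (fun k => hc k _) M K
  rw [Finset.sum_const, nsmul_eq_mul] at h2
  refine (h1.trans h2).trans ?_
  have hθ0 : 0 < 1 - Real.exp (-1) := by
    have : Real.exp (-1) < 1 := by rw [Real.exp_lt_one_iff]; norm_num
    linarith
  have hθ1 : 1 - Real.exp (-1) < 1 := by linarith [Real.exp_pos (-1)]
  have h3 : 0 ≤ 1 - (1 - Real.exp (-1)) * c := by nlinarith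
  exact mul_le_mul_of_nonneg_right hcard (by positivity)

/-- choice of the constants in the union bound -/
lemma exists_nu {c : ℝ} (hc0 : 0 < c) (hc1 : c ≤ 1) :
    ∃ ν > 0, ν ≤ 1 ∧ ∃ M0 : ℕ, ∀ M : ℕ, M0 ≤ M → ∃ l > 0,
      Real.exp (l * (ν * M)) * ((1 + Real.exp (-l)) / (1 - Real.exp (-l))) ^ M *
        (Real.exp (ν * M) * (1 - (1 - Real.exp (-1)) * c) ^ M) ≤ 1 / 4 := by
  have hθ0 : 0 < 1 - Real.exp (-1) := by
    have : Real.exp (-1) < 1 := by rw [Real.exp_lt_one_iff]; norm_num
    linarith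
  have hθ1 : 1 - Real.exp (-1) < 1 := by linarith [Real.exp_pos (-1)]
  set q : ℝ := 1 - (1 - Real.exp (-1)) * c with hq
  have hq1 : q < 1 := by have : 0 < (1 - Real.exp (-1)) * c := by positivity
                         linarith
  have hq0 : 0 < q := by
    have : (1 - Real.exp (-1)) * c ≤ (1 - Real.exp (-1)) * 1 :=
      mul_le_mul_of_nonneg_left hc1 hθ0.le
    linarith
  -- choose l with (1+e^-l)/(1-e^-l) * q < 1
  have hlim : Tendsto (fun l : ℝ => (1 + Real.exp (-l)) / (1 - Real.exp (-l)) * q) atTop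
      (𝓝 ((1 + 0) / (1 - 0) * q)) := by
    have h1 : Tendsto (fun l : ℝ => Real.exp (-l)) atTop (𝓝 0) :=
      Real.tendsto_exp_neg_atTop_nhds_zero
    exact ((h1.const_add 1).div (h1.const_sub 1) (by norm_num)).mul_const q
  have hev : ∀ᶠ l : ℝ in atTop, (1 + Real.exp (-l)) / (1 - Real.exp (-l)) * q < (1 + q) / 2 := by
    refine hlim.eventually_lt_const ?_
    norm_num
    linarith
  obtain ⟨l, hl1, hl2⟩ := (hev.and (eventually_gt_atTop 0)).exists
  set A : ℝ := (1 + Real.exp (-l)) / (1 - Real.exp (-l)) with hA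
  have hA0 : 0 < A := by
    have : Real.exp (-l) < 1 := by rw [Real.exp_lt_one_iff]; linarith
    rw [hA]
    exact div_pos (by positivity) (by linarith)
  -- choose ν
  have hlim2 : Tendsto (fun ν : ℝ => Real.exp (l * ν + ν) * ((1 + q) / 2)) (𝓝[>] 0)
      (𝓝 (Real.exp (l * 0 + 0) * ((1 + q) / 2))) := by
    have : Continuous fun ν : ℝ => Real.exp (l * ν + ν) * ((1 + q) / 2) := by fun_prop
    exact this.continuousAt.tendsto.mono_left nhdsWithin_le_nhds
  have hev2 : ∀ᶠ ν : ℝ in 𝓝[>] 0, Real.exp (l * ν + ν) * ((1 + q) / 2) < 1 := by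
    refine hlim2.eventually_lt_const ?_
    simp only [mul_zero, add_zero, Real.exp_zero, one_mul]
    linarith
  obtain ⟨ν, hν1, hν2, hν3⟩ := ((hev2.and (Ioo_mem_nhdsGT (show (0 : ℝ) < 1 by norm_num)))).exists
  set ρ : ℝ := Real.exp (l * ν + ν) * (A * q) with hρ
  have hρ1 : ρ < 1 := by
    refine lt_of_le_of_lt ?_ hν1
    exact mul_le_mul_of_nonneg_left hl1.le (Real.exp_pos _).le
  have hρ0 : 0 ≤ ρ := by positivity
  obtain ⟨M0, hM0⟩ := exists_pow_lt_of_lt_one (show (0 : ℝ) < 1 / 4 by norm_num) hρ1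
  refine ⟨ν, hν2, hν3.le, M0, fun M hM => ⟨l, hl2, ?_⟩⟩
  have h1 : Real.exp (l * (ν * M)) * A ^ M * (Real.exp (ν * M) * q ^ M) = ρ ^ M := by
    rw [hρ, mul_pow, mul_pow, ← Real.exp_nat_mul]
    have : Real.exp (M * (l * ν + ν)) = Real.exp (l * (ν * M)) * Real.exp (ν * M) := by
      rw [← Real.exp_add]; congr 1; ring
    rw [this]
    ring
  rw [h1]
  exact (pow_le_pow_of_le_one hρ0 hρ1.le hM).trans hM0.le

end Crest.Agent.R151.X
end

-- ▼ part R151/X684d

/-!
# R151, block X (helper684), part d: from a long good path to a typical good block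
-/

set_option autoImplicit false

open MeasureTheory ProbabilityTheory Filter Topology
open Crest.ProbabilityR.FirstPassage
open Crest.Agent.R151.A (shift eShift block sig eX)
open Crest.Agent.R151.K (Nn)

namespace Crest.Agent.R151.X

lemma Cr_start_mem {S : Set (Sym2 (ℤ × ℤ))} {x y : ℤ × ℤ} {c : ℝ} {t : Environment}
    (h : Cr S x y c t) (hxy : x ≠ y) : ∃ e ∈ S, x ∈ e := by
  obtain ⟨w, h1, -⟩ := h
  cases w with
  | nil => exact absurd rfl hxy
  | @cons _ b _ hadj p => exact ⟨s(x, b), h1 _ (by simp), Sym2.mem_mk_left _ _⟩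

lemma Cr_end_mem {S : Set (Sym2 (ℤ × ℤ))} {x y : ℤ × ℤ} {c : ℝ} {t : Environment}
    (h : Cr S x y c t) (hxy : x ≠ y) : ∃ e ∈ S, y ∈ e :=
  Cr_start_mem h.symm (Ne.symm hxy)

lemma le_of_Cr {S : Set (Sym2 (ℤ × ℤ))} {x y : ℤ × ℤ} {c : ℝ} {t : Environment} (ht : Nn t)
    (h : Cr S x y c t) : passageTime t x y ≤ c := by
  obtain ⟨w, -, h2⟩ := h
  exact (K.pt_le ht w).trans h2

lemma ht_col (s : ℝ) (k z z' : ℤ) : ht s (k, z') - ht s (k, z) = (z' : ℝ) - z := by
  simp only [ht]; ring

lemma lin_col (α β : ℝ) (k z z' : ℤ) :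
    lin α β (k, z') - lin α β (k, z) = β * ((z' : ℝ) - z) := by
  simp only [lin]; ring

/-- crossings of the block of columns `[p, q)` near height `u` with small energy -/
def Blk (s α β u w L v : ℝ) (p q : ℤ) : Set Environment :=
  {t | ∃ x y : ℤ, |ht s (p, x) - u| ≤ L ∧ |ht s (q, y) - u| ≤ L ∧
    CrE α β (sl s u w p q) (p, x) (q, y) v t}

/-- some crossing of the block with energy below the hard wall -/
def HWbad (s α β a u w δ : ℝ) (p q : ℤ) : Set Environment :=
  {t | ∃ x y : ℤ, CrE α β (sl s u w p q) (p, x) (q, y)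
    (a * |ht s (q, y) - ht s (p, x)| - δ) t}

/-- the columns `0, …, N` are regular -/
def ColOK (s β a' u w δ : ℝ) (N : ℕ) : Set Environment :=
  {t | ∀ k : ℤ, 0 ≤ k → k ≤ N → ∀ z z' : ℤ, |ht s (k, z) - u| ≤ w → |ht s (k, z') - u| ≤ w →
    β * ((z' : ℝ) - z) + a' * |(z' : ℝ) - z| - δ ≤ passageTime t (k, z) (k, z')}

/-- good point-to-point crossings -/
def Apt (s α β u w v : ℝ) (n : ℕ) : Set Environment :=
  {t | CrE α β (sl s u w 0 n) (0, ⌊u⌋) (n, ⌊u + s * n⌋) v t}

lemma measurableSet_and_const {m0 : MeasurableSpace Environment} (P Q : Prop)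
    {R : Environment → Prop} (hR : MeasurableSet[m0] {t | R t}) :
    MeasurableSet[m0] {t | P ∧ Q ∧ R t} := by
  by_cases h : P ∧ Q
  · have : {t : Environment | P ∧ Q ∧ R t} = {t | R t} := by
      ext t
      simp only [Set.mem_ofPred_eq]
      tauto
    rw [this]; exact hR
  · have : {t : Environment | P ∧ Q ∧ R t} = ∅ := by
      ext t
      simp only [Set.mem_ofPred_eq, Set.mem_empty_iff_false, iff_false]
      tauto
    rw [this]; exact @MeasurableSet.empty _ m0

lemma measurableSet_Blk (s α β u w L v : ℝ) (p q : ℤ) :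
    MeasurableSet[sig (block p q)] (Blk s α β u w L v p q) := by
  have : Blk s α β u w L v p q = ⋃ x : ℤ, ⋃ y : ℤ,
      {t | |ht s (p, x) - u| ≤ L ∧ |ht s (q, y) - u| ≤ L ∧
        CrE α β (sl s u w p q) (p, x) (q, y) v t} := by
    ext t; simp [Blk]
  rw [this]
  refine MeasurableSet.iUnion fun x => MeasurableSet.iUnion fun y => ?_
  exact measurableSet_and_const _ _ (sig_mono Set.inter_subset_left _
    (measurableSet_CrE α β _ _ _ _))

lemma Blk_shift (s α β u w L v : ℝ) (p q : ℤ) (z : ℤ × ℤ) :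
    shift z ⁻¹' (Blk s α β u w L v p q) =
      Blk s α β (u + ht s z) w L v (p + z.1) (q + z.1) := by
  ext t
  obtain ⟨z1, z2⟩ := z
  simp only [Set.mem_preimage, Blk, Set.mem_ofPred_eq]
  constructor
  · rintro ⟨x, y, h1, h2, h3⟩
    refine ⟨x + z2, y + z2, ?_, ?_, ?_⟩
    · have h4 : ht s (p + z1, x + z2) = ht s (p, x) + ht s (z1, z2) := ht_add s (p, x) (z1, z2)
      have h5 : ht s (p + z1, x + z2) - (u + ht s (z1, z2)) = ht s (p, x) - u := by
        rw [h4]; ring
      rw [h5]; exact h1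
    · have h4 : ht s (q + z1, y + z2) = ht s (q, y) + ht s (z1, z2) := ht_add s (q, y) (z1, z2)
      have h5 : ht s (q + z1, y + z2) - (u + ht s (z1, z2)) = ht s (q, y) - u := by
        rw [h4]; ring
      rw [h5]; exact h2
    · exact (CrE_shift α β (z1, z2) (mem_sl_shift (z1, z2) s u w p q) (p, x) (q, y) v t).1 h3
  · rintro ⟨x, y, h1, h2, h3⟩
    refine ⟨x - z2, y - z2, ?_, ?_, ?_⟩
    · have h4 : ht s (p + z1, x) = ht s (p, x - z2) + ht s (z1, z2) := by
        rw [← ht_add]
        congr 1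
        ext <;> simp
      have h5 : ht s (p + z1, x) - (u + ht s (z1, z2)) = ht s (p, x - z2) - u := by
        rw [h4]; ring
      rw [h5] at h1; exact h1
    · have h4 : ht s (q + z1, y) = ht s (q, y - z2) + ht s (z1, z2) := by
        rw [← ht_add]
        congr 1
        ext <;> simp
      have h5 : ht s (q + z1, y) - (u + ht s (z1, z2)) = ht s (q, y - z2) - u := by
        rw [h4]; ring
      rw [h5] at h2; exact h2
    · refine (CrE_shift α β (z1, z2) (mem_sl_shift (z1, z2) s u w p q) (p, x - z2) (q, y - z2)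
        v t).2 ?_
      have e1 : ((p, x - z2) + (z1, z2) : ℤ × ℤ) = (p + z1, x) := by ext <;> simp
      have e2 : ((q, y - z2) + (z1, z2) : ℤ × ℤ) = (q + z1, y) := by ext <;> simp
      rw [e1, e2]
      exact h3

lemma prob_Blk_shift (G : Measure ℝ) [IsProbabilityMeasure G] (s α β u w L v : ℝ) (p q : ℤ)
    (z : ℤ × ℤ) :
    (iidLaw G).real (Blk s α β (u + ht s z) w L v (p + z.1) (q + z.1)) =
      (iidLaw G).real (Blk s α β u w L v p q) := by
  rw [← Blk_shift]
  simp only [Measure.real]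
  rw [(A.mp_shift G z).measure_preimage
    (sig_le _ _ (measurableSet_Blk s α β u w L v p q)).nullMeasurableSet]

/-- in a good block near the reference height the failure indicator vanishes -/
lemma mem_Blk_of_cross {s α β u w Λ : ℝ} {p q : ℤ} {x y : ℤ × ℤ} {t : Environment} {c ρ : ℝ}
    (hx : x.1 = p) (hy : y.1 = q)
    (hc : Cr (sl s u w p q) x y c t) (h1 : |ht s x - u - ρ| ≤ Λ) (h2 : |ht s y - ht s x| ≤ Λ)
    (h3 : c - (lin α β y - lin α β x) ≤ Λ) (hρ : |ρ| ≤ 2 * w) :
    t ∈ Blk s α β (u + ρ) (3 * w) (2 * Λ) Λ p q := by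
  obtain ⟨x1, x2⟩ := x
  obtain ⟨y1, y2⟩ := y
  simp only at hx hy
  subst hx hy
  refine ⟨x2, y2, ?_, ?_, ?_⟩
  · rw [abs_le] at h1 ⊢
    have h4 : 0 ≤ Λ := (abs_nonneg _).trans h2
    constructor <;> linarith
  · rw [abs_le] at h1 h2 ⊢
    constructor <;> linarith
  · refine hc.mono (sl_mono ?_ le_rfl le_rfl) (by linarith)
    have : |u - (u + ρ)| = |ρ| := by rw [show u - (u + ρ) = -ρ by ring, abs_neg]
    rw [this]
    linarith

/-- the deterministic part of the renormalisation -/
lemma skel_of_path {s α β a u W e δ Λ ν : ℝ} {M m : ℕ} {t : Environment} {yend : ℤ × ℤ} {v : ℝ}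
    (hNn : Nn t) (ha : 0 < a) (hm : 1 ≤ m) (hM : 1 ≤ M) (he : 1 ≤ e) (hW : 1 ≤ W)
    (hδ : δ = e / 100) (hv : v ≤ M * e) (hΛW : Λ ≤ W) (hν : 0 < ν)
    (hΛ : (3 / ν * (2 + 3 / a)) * e ≤ Λ)
    (hy1 : yend.1 = M * m) (hyW : |ht s yend - u| ≤ W)
    (hpath : CrE α β (sl s u W 0 (M * m)) (0, ⌊u⌋) yend v t)
    (hHW : ∀ k < M, t ∉ HWbad s α β a u W δ (k * m) ((k + 1 : ℕ) * m))
    (hcol : t ∈ ColOK s β (a / 2) u W δ (M * m)) :
    t ∈ SkelEv (fun k r => (Blk s α β (u + r * Λ) (3 * W) (2 * Λ) Λ (k * m)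
      ((k + 1 : ℕ) * m))ᶜ) M (ν * M) (ν * M) := by
  obtain ⟨w, hw1, hw2⟩ := hpath
  have hMm : (0 : ℤ) ≤ M * m := by positivity
  obtain ⟨X, Z, c, l, hZ0, hZ1, hX1, hl, hc, hlM, hsum⟩ :=
    chain t (sl s u W 0 (M * m)) m M 0 w rfl (by rw [hy1]; simp) hw1
  have hΛ0 : 0 < Λ := lt_of_lt_of_le (by positivity) hΛ
  -- membership in the tube
  have hstart : |ht s (0, ⌊u⌋) - u| ≤ W := by
    have h1 : ht s (0, ⌊u⌋) = (⌊u⌋ : ℝ) := by simp [ht]
    rw [h1, abs_le]
    constructor
    · linarith [Int.lt_floor_add_one u]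
    · linarith [Int.floor_le u]
  have hne : ∀ k < M, X k ≠ Z (k + 1) := by
    intro k hk h
    have h1 := hX1 k hk
    have h2 := hZ1 (k + 1) (by omega)
    rw [h, h2] at h1
    have h3 : ((k + 1 : ℕ) : ℤ) * m = k * m := by linarith
    push_cast at h3
    have : (m : ℤ) = 0 := by linarith
    omega
  have hXtube : ∀ k < M, |ht s (X k) - u| ≤ W := by
    intro k hk
    obtain ⟨e, he, hxe⟩ := Cr_start_mem (hc k hk) (hne k hk)
    exact he.1.2 _ hxe
  have hZtube : ∀ k ≤ M, |ht s (Z k) - u| ≤ W := by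
    intro k hk
    rcases k with _ | k
    · rw [hZ0]; exact hstart
    · obtain ⟨e, he, hxe⟩ := Cr_end_mem (hc k (by omega)) (hne k (by omega))
      exact he.1.2 _ hxe
  -- lateral pieces
  have hcolXZ : ∀ (k : ℕ) (p q : ℤ × ℤ), k ≤ M → p.1 = k * m → q.1 = k * m →
      |ht s p - u| ≤ W → |ht s q - u| ≤ W →
      lin α β q - lin α β p + a / 2 * |ht s q - ht s p| - δ ≤ passageTime t p q := by
    intro k p q hk hp hq hpW hqW
    obtain ⟨p1, p2⟩ := p
    obtain ⟨q1, q2⟩ := q
    simp only at hp hq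
    subst hp hq
    have h1 := hcol (k * m) (by positivity) (by push_cast; nlinarith) p2 q2 hpW hqW
    rw [ht_col, lin_col]
    exact h1
  have hl' : ∀ k < M, lin α β (X k) - lin α β (Z k) + a / 2 * |ht s (X k) - ht s (Z k)| - δ
      ≤ l k := by
    intro k hk
    refine (hcolXZ k (Z k) (X k) hk.le ?_ ?_ (hZtube k hk.le) (hXtube k hk)).trans
      (le_of_Cr hNn (hl k hk))
    · simpa using hZ1 k hk.le
    · simpa using hX1 k hk
  have hlM' : lin α β yend - lin α β (Z M) - δ ≤ l M := by
    have h1 := (hcolXZ M (Z M) yend le_rfl (by simpa using hZ1 M le_rfl) hy1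
      (hZtube M le_rfl) hyW).trans (le_of_Cr hNn hlM)
    have h2 : 0 ≤ a / 2 * |ht s yend - ht s (Z M)| := by positivity
    linarith
  -- crossings
  have hcr : ∀ k < M, Cr (sl s u W (k * m) ((k + 1 : ℕ) * m)) (X k) (Z (k + 1)) (c k) t := by
    intro k hk
    refine (hc k hk).mono ?_ le_rfl
    rintro e ⟨he1, he2⟩
    exact ⟨by simpa using he2, he1.2⟩
  have hc'' : ∀ k < M, lin α β (Z (k + 1)) - lin α β (X k) +
      a * |ht s (Z (k + 1)) - ht s (X k)| - δ ≤ c k := by
    intro k hk
    by_contra hcon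
    push Not at hcon
    refine hHW k hk ⟨(X k).2, (Z (k + 1)).2, ?_⟩
    have h1 : ((k : ℤ) * m, (X k).2) = X k := by
      have := hX1 k hk
      ext
      · simp only; rw [this]; ring
      · rfl
    have h2 : (((k + 1 : ℕ) : ℤ) * m, (Z (k + 1)).2) = Z (k + 1) := by
      have := hZ1 (k + 1) (by omega)
      ext
      · simp only; rw [this]; ring
      · rfl
    rw [h1, h2]
    exact (hcr k hk).mono le_rfl (by linarith)
  have hc' : ∀ k < M, lin α β (Z (k + 1)) - lin α β (X k) +
      a / 2 * |ht s (Z (k + 1)) - ht s (X k)| - δ ≤ c k := by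
    intro k hk
    have h1 := hc'' k hk
    have h2 : 0 ≤ a / 2 * |ht s (Z (k + 1)) - ht s (X k)| := by positivity
    linarith
  have htot : walkCost t w ≤ lin α β yend - lin α β (Z 0) + v := by rw [hZ0]; exact hw2
  obtain ⟨hTV, hpos⟩ := chain_energy (s := s) hsum htot hl' hc' hlM'
  have hpos' := hpos (by positivity)
  -- numerical bounds
  have hMe : (M : ℝ) ≥ 1 := by exact_mod_cast hM
  have hb : v + (2 * M + 1) * δ ≤ 2 * (M * e) := by
    rw [hδ]; nlinarith
  have hb' : v + (2 * M + 1) * δ ≤ 3 / 2 * (M * e) := by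
    rw [hδ]; nlinarith
  have hTV' : ∑ k ∈ Finset.range M,
      (|ht s (X k) - ht s (Z k)| + |ht s (Z (k + 1)) - ht s (X k)|) ≤ 3 / a * (M * e) := by
    have h1 := hTV.trans hb'
    rw [div_mul_eq_mul_div, le_div_iff₀ ha]
    nlinarith
  -- the scaled entrance heights
  set y : ℕ → ℝ := fun k => Nat.casesOn k 0 fun k => (ht s (X k) - u) / Λ with hy
  obtain ⟨r, hr0, hr1, hr2⟩ := Crest.Agent.R151.W.exists_hysteresis y rfl
  refine ⟨r, hr0, ?_, ?_⟩
  · refine (hr2 M).trans ?_
    have h1 : ∀ n ≤ M, Λ * ∑ k ∈ Finset.range n, |y (k + 1) - y k| ≤ |ht s (Z 0) - u| +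
        ∑ k ∈ Finset.range n,
          (|ht s (X k) - ht s (Z k)| + |ht s (Z (k + 1)) - ht s (X k)|) := by
      intro n hn
      -- stronger form: keep the last crossing
      have key : ∀ n ≤ M, Λ * ∑ k ∈ Finset.range n, |y (k + 1) - y k| +
          |ht s (Z n) - u - Λ * y n| ≤ |ht s (Z 0) - u| +
        ∑ k ∈ Finset.range n,
          (|ht s (X k) - ht s (Z k)| + |ht s (Z (k + 1)) - ht s (X k)|) := by
        intro n
        induction n with
        | zero =>
          intro _
          simp [hy]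
        | succ n ih =>
          intro hn
          have h2 := ih (by omega)
          rw [Finset.sum_range_succ, Finset.sum_range_succ, mul_add]
          have h3 : y (n + 1) = (ht s (X n) - u) / Λ := rfl
          have h4 : Λ * y (n + 1) = ht s (X n) - u := by
            rw [h3]; field_simp
          have h5 : Λ * |y (n + 1) - y n| = |Λ * y (n + 1) - Λ * y n| := by
            rw [← mul_sub, abs_mul, abs_of_pos hΛ0]
          rw [h5, h4]
          have h6 : |ht s (X n) - u - Λ * y n| ≤
              |ht s (X n) - ht s (Z n)| + |ht s (Z n) - u - Λ * y n| := by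
            have : ht s (X n) - u - Λ * y n =
              (ht s (X n) - ht s (Z n)) + (ht s (Z n) - u - Λ * y n) := by ring
            rw [this]
            exact abs_add_le _ _
          have h7 : |ht s (Z (n + 1)) - u - (ht s (X n) - u)| =
              |ht s (Z (n + 1)) - ht s (X n)| := by congr 1; ring
          rw [h7]
          linarith
      have := key n hn
      linarith [abs_nonneg (ht s (Z n) - u - Λ * y n)]
    have h2 := h1 M le_rfl
    have h3 : |ht s (Z 0) - u| ≤ 1 := by
      rw [hZ0]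
      have h1 : ht s (0, ⌊u⌋) = (⌊u⌋ : ℝ) := by simp [ht]
      rw [h1, abs_le]
      constructor
      · linarith [Int.lt_floor_add_one u]
      · linarith [Int.floor_le u]
    have h4 : Λ * ∑ k ∈ Finset.range M, |y (k + 1) - y k| ≤ 1 + 3 / a * (M * e) := by linarith
    have h5 : Λ * (3 * ∑ k ∈ Finset.range M, |y (k + 1) - y k|) ≤ Λ * (ν * M) := by
      have h6 : 3 * (1 + 3 / a * (M * e)) ≤ ν * M * ((3 / ν * (2 + 3 / a)) * e) := by
        have h7 : ν * M * ((3 / ν * (2 + 3 / a)) * e) = 3 * (2 + 3 / a) * (M * e) := by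
          field_simp
        rw [h7]
        have h8 : 1 ≤ (M : ℝ) * e := by nlinarith
        nlinarith [mul_pos (div_pos (by norm_num : (0:ℝ) < 3) ha) (lt_of_lt_of_le one_pos h8)]
      have h7 : ν * M * ((3 / ν * (2 + 3 / a)) * e) ≤ ν * M * Λ :=
        mul_le_mul_of_nonneg_left hΛ (by positivity)
      calc Λ * (3 * ∑ k ∈ Finset.range M, |y (k + 1) - y k|)
          = 3 * (Λ * ∑ k ∈ Finset.range M, |y (k + 1) - y k|) := by ring
        _ ≤ 3 * (1 + 3 / a * (M * e)) := by linarith
        _ ≤ ν * M * Λ := h6.trans h7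
        _ = Λ * (ν * M) := by ring
    exact le_of_mul_le_mul_left h5 hΛ0
  · -- number of failing blocks
    have h1 : ∀ k ∈ Finset.range M,
        ((Blk s α β (u + (r (k + 1) : ℤ) * Λ) (3 * W) (2 * Λ) Λ (k * m)
          ((k + 1 : ℕ) * m))ᶜ).indicator (fun _ => (1 : ℝ)) t ≤
        ((c k - (lin α β (Z (k + 1)) - lin α β (X k)) + δ) +
          (|ht s (X k) - ht s (Z k)| + |ht s (Z (k + 1)) - ht s (X k)|)) / Λ := by
      intro k hk
      have hk' := Finset.mem_range.1 hk
      have hE0 : 0 ≤ c k - (lin α β (Z (k + 1)) - lin α β (X k)) + δ := by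
        have h2 := hc'' k hk'
        have h3 : 0 ≤ a * |ht s (Z (k + 1)) - ht s (X k)| := by positivity
        linarith
      have hδ0 : 0 ≤ δ := by rw [hδ]; positivity
      by_cases hmem : t ∈ Blk s α β (u + (r (k + 1) : ℤ) * Λ) (3 * W) (2 * Λ) Λ (k * m)
          ((k + 1 : ℕ) * m)
      · rw [Set.indicator_of_notMem (by simpa using hmem)]
        exact div_nonneg (add_nonneg hE0 (by positivity)) hΛ0.le
      · rw [Set.indicator_of_mem (by simpa using hmem), le_div_iff₀ hΛ0, one_mul]
        by_contra hcon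
        push Not at hcon
        apply hmem
        have hA : |ht s (Z (k + 1)) - ht s (X k)| ≤ Λ := by
          have := abs_nonneg (ht s (X k) - ht s (Z k))
          linarith
        have hB : c k - (lin α β (Z (k + 1)) - lin α β (X k)) ≤ Λ := by
          have := abs_nonneg (ht s (X k) - ht s (Z k))
          have := abs_nonneg (ht s (Z (k + 1)) - ht s (X k))
          linarith
        have h2 := hr1 (k + 1)
        have h3 : y (k + 1) = (ht s (X k) - u) / Λ := rfl
        have h4 : |ht s (X k) - u - (r (k + 1) : ℤ) * Λ| ≤ Λ := by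
          have h5 : ht s (X k) - u - (r (k + 1) : ℤ) * Λ = Λ * (y (k + 1) - r (k + 1)) := by
            rw [h3]; field_simp
          rw [h5, abs_mul, abs_of_pos hΛ0]
          nlinarith
        refine mem_Blk_of_cross ?_ ?_ (hcr k hk') h4 hA hB ?_
        · simpa using hX1 k hk'
        · simpa using hZ1 (k + 1) (by omega)
        · have h6 := hXtube k hk'
          rw [abs_le] at h4 h6 ⊢
          constructor <;> linarith
    unfold cnt
    refine (Finset.sum_le_sum h1).trans ?_
    rw [← Finset.sum_div, Finset.sum_add_distrib, div_le_iff₀ hΛ0]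
    have h2 : 2 * (M * e) + 3 / a * (M * e) ≤ ν * M * ((3 / ν * (2 + 3 / a)) * e) := by
      have h7 : ν * M * ((3 / ν * (2 + 3 / a)) * e) = 3 * (2 + 3 / a) * (M * e) := by
        field_simp
      rw [h7]
      have h8 : 0 ≤ (M : ℝ) * e := by positivity
      have h9 : 0 ≤ 3 / a * (M * e) := by positivity
      nlinarith
    have h7 : ν * M * ((3 / ν * (2 + 3 / a)) * e) ≤ ν * M * Λ :=
      mul_le_mul_of_nonneg_left hΛ (by positivity)
    linarith [hpos'.trans hb]

end Crest.Agent.R151.X
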