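import Crest.Agent.R151.M51I_Mg
import Crest.Agent.R151.K9b
import Crest.Agent.R151.N5
import Crest.Agent.R151.N6
import Crest.Agent.R151.W5b
import Crest.Agent.R151.K9d
import Mathlib
import Crest.Agent.R151.K9c
import Crest.Agent.R151.A565e
import Crest.Agent.R151.N4
import Crest.Agent.R151.Y635A
import Crest.Agent.R151.K8

-- ▼ part R151/A565j
section

/-!
# R151, block A (helper565): free search and hard wall at a corner of the time constant
-/

set_option autoImplicit false

open MeasureTheory ProbabilityTheory Filter Topology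
open Crest.ProbabilityR.FirstPassage
open Crest.Agent.R151.K Crest.Agent.R151.M51
open scoped ENNReal

namespace Crest.Agent.R151.A

variable {G : Measure ℝ} [IsProbabilityMeasure G] {m : ℝ} {μ : ℝ × ℝ → ℝ} {s p0 q0 a : ℝ}

/-- free search at a corner, upper side -/
theorem aStar_corner (hG : Law213 G) (hM : Mom G m) (hμ : IsTC1 G μ)
    (hc : N.Corner μ s p0 q0 a) :
    N.AStar G (p0 - a * s) (q0 + a) (C1 G + |q0 + a| + 1) := by
  have h1 : AStar G (p0 - a * s) (q0 + a) (C1 G + |q0 + a| + 1) := by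
    refine aStar hG (φ := fun s => μ (1, s)) (s := s) ?_ ?_ ?_ ?_
    · intro s'
      have := hM.ET_tendsto_nat hμ (1, s')
      simp only [ET, fl, mul_one, Int.floor_natCast] at this
      exact this
    · intro x _
      have h2 := hM.mu_le_ET hμ x
      have h3 := hc.upper_le x.1 x.2
      exact h3.trans h2
    · rw [hc.tight]; ring
    · intro ε hε
      have h2 := hc.right
      have h3 : ∀ᶠ d in 𝓝[>] (0 : ℝ), (μ (1, s + d) - (p0 + q0 * (s + d) + a * d)) / d < ε :=
        h2.eventually_lt_const hε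
      have h4 : ∀ᶠ d in 𝓝[>] (0 : ℝ), 0 < d := eventually_mem_nhdsWithin
      obtain ⟨d, h5, h6⟩ := (h3.and h4).exists
      refine ⟨d, h6, ?_⟩
      rw [div_lt_iff₀ h6] at h5
      linarith
  exact h1

/-- free search at a corner, lower side (reflected) -/
theorem aStar_corner_neg (hG : Law213 G) (hM : Mom G m) (hμ : IsTC1 G μ)
    (hc : N.Corner μ s p0 q0 a) :
    N.AStar G (p0 + a * s) (-(q0 - a)) (C1 G + |(-q0) + a| + 1) := by
  have hr : ∀ v : ℝ × ℝ, μ (v.1, -v.2) = μ v := by
    intro v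
    have h1 := hM.mu_neg hμ (v.1, -v.2)
    have h2 := hM.mu_neg_fst hμ (v.1, v.2)
    simp only [Prod.neg_mk, neg_neg] at h1
    rw [← h1, h2]
  have h := aStar_corner hG hM hμ (hc.reflect' hr)
  have e1 : p0 - a * -s = p0 + a * s := by ring
  have e2 : -q0 + a = -(q0 - a) := by ring
  rw [e1] at h
  rw [e2] at h ⊢
  exact h


/-- the hard wall at a corner, for helper684's `HWbad` -/
theorem prob_HWbad_corner (hG : Law213 G) (hM : Mom G m) (hμ : IsTC1 G μ)
    (hc : N.Corner μ s p0 q0 a) {η : ℝ} (hη : 0 < η) {e : ℝ} (he : 0 < e) :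
    ∃ b0 : ℝ, ∀ b : ℝ, b0 ≤ b → ∀ p q : ℤ, p < q → ∀ u : ℝ,
      (iidLaw G).real (X.HWbad s p0 q0 a u b (η * b) p q) ≤ e :=
  N.prob_HWbad_le G (aStar_corner hG hM hμ hc) (aStar_corner_neg hG hM hμ hc) hη he


end Crest.Agent.R151.A
end

-- ▼ part R151/N7
section

/-!
# R151, block N (helper792): the inputs of the no-corner argument for the law of S0213
-/

set_option autoImplicit false

open MeasureTheory ProbabilityTheory Filter Topology
open Crest.ProbabilityR.FirstPassage
open Crest.Agent.R151.K (toR IsTC1 Mom)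
open Crest.Agent.R151.X (HWbad Apt Inputs)
open Crest.Agent.R151.M51 (Law213)
open scoped ENNReal

namespace Crest.Agent.R151.N

variable {G : Measure ℝ} [IsProbabilityMeasure G] {μ : ℝ × ℝ → ℝ} {m s p0 q0 a : ℝ}

lemma mu_low (hM : Mom G m) (hμ : IsTC1 G μ) (L y : ℤ) (hL : 0 ≤ L) :
    μ (0, 1) * L ≤ μ (toR (L, y)) := by
  have hLR : (0 : ℝ) ≤ (L : ℝ) := by exact_mod_cast hL
  have h1 : μ (((L : ℝ), (y : ℝ)) + ((L : ℝ), -(y : ℝ))) ≤
      μ ((L : ℝ), (y : ℝ)) + μ ((L : ℝ), -(y : ℝ)) := hM.mu_add_le hμ _ _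
  have h3 : μ ((L : ℝ), -(y : ℝ)) = μ ((L : ℝ), (y : ℝ)) := by
    have e1 := hM.mu_neg hμ ((L : ℝ), -(y : ℝ))
    have e2 := hM.mu_neg_fst hμ ((L : ℝ), (y : ℝ))
    simp only [Prod.neg_mk, neg_neg] at e1
    rw [← e1]
    exact e2
  have h4 : ((L : ℝ), (y : ℝ)) + ((L : ℝ), -(y : ℝ)) = (2 * (L : ℝ)) • ((1 : ℝ), (0 : ℝ)) := by
    ext <;> simp; ring
  have h5 := hM.mu_smul hμ (c := 2 * (L : ℝ)) (by linarith) (1, 0)
  have h6 : μ ((1 : ℝ), (0 : ℝ)) = μ (0, 1) := by
    have := hM.mu_swap hμ (0, 1)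
    simpa using this
  rw [h4, h5, h3, h6] at h1
  have h7 : toR (L, y) = ((L : ℝ), (y : ℝ)) := rfl
  rw [h7]
  linarith

/-- at a corner `|q0| + a ≤ μ (0, 1)` -/
lemma Corner.col_le (h : Corner μ s p0 q0 a) (hneg : ∀ v, μ (-v) = μ v) :
    |q0| + a ≤ μ (0, 1) := by
  have h1 := h.lower 0 1
  have h2 := h.lower 0 (-1)
  have h3 : μ ((0 : ℝ), (-1 : ℝ)) = μ (0, 1) := by
    have := hneg (0, 1)
    simpa using this
  rw [h3] at h2
  simp only [mul_zero, zero_add, mul_one, sub_zero, abs_one, mul_neg, abs_neg] at h1 h2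
  rcases abs_cases q0 with h4 | h4 <;> rw [h4.1] <;> linarith

/-- the upper bound of the no-corner argument (block UB of helper750) -/
def UB (G : Measure ℝ) (s p0 q0 : ℝ) : Prop :=
  ∀ ε > 0, ∃ N0 : ℕ, ∀ N : ℕ, N0 ≤ N → ∀ u,
    1 - ε ≤ (iidLaw G).real
      (Apt s p0 q0 u ((N : ℝ) ^ (19 / 20 : ℝ)) ((N : ℝ) ^ (19 / 20 : ℝ)) N)

/-- THE INPUTS of the no-corner argument for the law of S0213, from the upper bound -/
theorem inputs_of_corner (hG : Law213 G) [NullSingletonClass G] (hM : Mom G m)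
    (hμ : IsTC1 G μ) (hc : Corner μ s p0 q0 a) (hub : UB G s p0 q0) :
    Inputs G s p0 q0 a where
  nn := hG.h0
  a_pos := hc.a_pos
  hw := by
    intro η hη ε hε
    obtain ⟨b0, hb0⟩ := A.prob_HWbad_corner hG hM hμ hc hη hε
    exact ⟨b0, fun b hb n hn u => hb0 b hb 0 n (by exact_mod_cast hn) u⟩
  col := by
    have hz : G {0} = 0 := measure_singleton 0
    have hN := hM.normLike hμ hz
    have h1 := hc.col_le hN.neg
    have hm : 0 < μ (0, 1) := hN.pos (by simp)
    refine W.col_poly_of hG.h0 hz hm (W.blockRare_of_shape hG.h0 hz (mu_low hM hμ)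
      fun ε hε => hM.uniform_shape_prob hμ (K.locCtl_of_law213 hG) hε) ?_
    linarith [hc.a_pos]
  conn := inputs_conn hG s
  short := inputs_short G s p0 q0
  ac := inputs_ac G hG.h0 s p0 q0
  ub := hub


end Crest.Agent.R151.N
end

-- ▼ part R151/M51J
section

/-!
# R151, block MOM (helper51), part J: inputs of part 1 (no corner) for the general law
-/

set_option autoImplicit false

open MeasureTheory ProbabilityTheory Filter
open scoped ENNReal Topology
open Crest.ProbabilityR.FirstPassage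
open Crest.Agent.R151.K

namespace Crest.Agent.R151.M51

variable {G : Measure ℝ} [IsProbabilityMeasure G]



/-- the hypotheses of block (4), from the two shape statements -/
theorem hyp_213 (hG : Law213 G) (hz : G {0} = 0) {al be s a : ℝ}
    (hlow : ∀ x : ℤ × ℤ, al * x.1 + be * x.2 + a * |x.2 - s * x.1| ≤ ET G x)
    (hup : Tendsto (fun m : ℕ => ET G ((m : ℤ), ⌊s * m⌋) / m) atTop (𝓝 (al + be * s)))
    (ha : 0 < a) : U.Hyp G al be s a where
  h0 := hG.h0
  hI := integrable_pt' hG
  hlow := hlow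
  hup := hup
  ha := ha
  loc1 := loc1_213 hG
  loc2 := loc2_213 hG
  loc3 := loc3_213 hG
  pei := pei213 hG.h0 hz
  dev := dev213 hG hz

end Crest.Agent.R151.M51
end

-- ▼ part R151/S113Z
section

/-!
# R151/Z213 (owner helper113) — final reduction of S0213 ([T1] of #10226)

The swap of the coordinates and the time reversal reduce the non-existence of bigeodesics to the
non-existence of bigeodesics in an upward cone (`ProperUp`), and the choice of the time constant,
its differentiability and the width of the cone are put together: `s0213_of`.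
-/

set_option autoImplicit false

open MeasureTheory Filter Topology
open Crest.ProbabilityR.FirstPassage

namespace Crest.Agent.R151.Z113

open Crest.Agent.R151.K (act mp_act sw pt_act Nn ae_Nn)

variable {G : Measure ℝ} [IsProbabilityMeasure G]






/-- `v` is eventually in the upward cone `|x| ≤ C y` and comes from the downward one. -/
structure ProperUp (C : ℝ) (v : ℤ → ℤ × ℤ) : Prop where
  up : ∀ᶠ n in atTop, |((v n).1 : ℝ)| ≤ C * ((v n).2 : ℝ)
  dn : ∀ᶠ n in atBot, |((v n).1 : ℝ)| ≤ -(C * ((v n).2 : ℝ))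
  tendsto_up : Tendsto (fun n => (v n).2) atTop atTop
  tendsto_dn : Tendsto (fun n => (v n).2) atBot atBot



end Crest.Agent.R151.Z113
end

-- ▼ part R151/X684k

/-!
# R151, part 1 / NOCORNER (helper684), part k: top theorems from the upper bound block

`noCorner_of_ub`, `differentiable_of_ub` (every law of S0213), `differentiable_gamma_of_ub` and
`s0214_of` (S0214 verbatim from the upper bound block and NOFLAT).
-/

set_option autoImplicit false
set_option maxHeartbeats 400000

open MeasureTheory ProbabilityTheory Filter Topology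
open Crest.ProbabilityR.FirstPassage
open Crest.Agent.R151.K Crest.Agent.R151.M51

namespace Crest.Agent.R151.X

variable {G : Measure ℝ} [IsProbabilityMeasure G] {m : ℝ} {μ : ℝ × ℝ → ℝ} {s p0 q0 a : ℝ}

/-- the hypotheses of helper750's block at a corner -/
theorem hyp_of_corner (hG : Law213 G) (hz : G {0} = 0) (hM : Mom G m) (hμ : IsTC1 G μ)
    (hc : N.Corner μ s p0 q0 a) : U.Hyp G p0 q0 s a := by
  refine hyp_213 hG hz ?_ ?_ hc.a_pos
  · intro x
    exact (hc.lower x.1 x.2).trans (hM.mu_le_ET hμ x)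
  · have := hM.ET_tendsto_nat hμ (1, s)
    rw [hc.tight] at this
    refine this.congr fun n => ?_
    congr 2
    simp [fl, mul_comm]

/-- **NOCORNER**, from the upper bound block -/
theorem noCorner_of_ub [NullSingletonClass G] (hG : Law213 G) (hμ : IsTC1 G μ)
    (hub : ∀ al be s a, U.Hyp G al be s a → N.UB G s al be) (s p0 q0 a : ℝ) :
    ¬ N.Corner μ s p0 q0 a := by
  intro hc
  obtain ⟨m, hM⟩ := mom_of_law213 hG
  exact no_corner (N.inputs_of_corner hG hM hμ hc
    (hub _ _ _ _ (hyp_of_corner hG (measure_singleton 0) hM hμ hc)))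

/-- **DIFF**, from the upper bound block: the time constant is differentiable off the origin -/
theorem differentiable_of_ub [NullSingletonClass G] (hG : Law213 G)
    (hμ : IsTC1 G μ) (hub : ∀ al be s a, U.Hyp G al be s a → N.UB G s al be) (v : ℝ × ℝ)
    (hv : v ≠ 0) : DifferentiableAt ℝ μ v := by
  obtain ⟨m, hM⟩ := mom_of_law213 hG
  exact N.differentiableAt_of_noCorner (hM.normLike hμ (measure_singleton 0)) (hM.mu_swap hμ)
    (noCorner_of_ub hG hμ hub) v hv

instance nullSingletonClass_gamma (κ r : ℝ) : NullSingletonClass (gammaMeasure κ r) := by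
  unfold gammaMeasure
  infer_instance

/-- the first half of S0214, from the upper bound block -/
theorem differentiable_gamma_of_ub {κ r : ℝ} (hκ : 0 < κ) (hr : 0 < r)
    (hμ : B710.IsTimeConstant κ r μ)
    (hub : ∀ (G : Measure ℝ) [IsProbabilityMeasure G] (al be s a : ℝ),
      U.Hyp G al be s a → N.UB G s al be) (v : ℝ × ℝ) (hv : v ≠ 0) :
    DifferentiableAt ℝ μ v := by
  have : IsProbabilityMeasure (gammaMeasure κ r) := isProbabilityMeasure_gammaMeasure hκ hr
  have h1 : IsTC1 (gammaMeasure κ r) μ := isTC1_of_isTC (gamma_Iio κ r)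
    (integrable_sq (gamma_Iio κ r) (half_pos hr) (gamma_exp hκ hr)) hμ
  exact differentiable_of_ub (law213_gamma hκ hr) h1 (hub _) v hv

/-- S0214, from the upper bound block and NOFLAT -/
theorem s0214_of
    (hub : ∀ (G : Measure ℝ) [IsProbabilityMeasure G] (al be s a : ℝ),
      U.Hyp G al be s a → N.UB G s al be)
    (hnf : ∀ μ : ℝ × ℝ → ℝ, B710.IsTimeConstant 1 1 μ → B710.NormLike μ → B710.FlatData μ → False)
    (κ r : ℝ) (hκ : 0 < κ) (hr : 0 < r) (μ : ℝ × ℝ → ℝ)
    (hμ : ∀ v : ℝ × ℝ, ∀ᵐ t ∂(iidLaw (ProbabilityTheory.gammaMeasure κ r)),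
      Filter.Tendsto (fun s : ℝ => passageTime t (0, 0) (⌊s * v.1⌋, ⌊s * v.2⌋) / s)
        Filter.atTop (nhds (μ v))) :
    (∀ v : ℝ × ℝ, v ≠ 0 → DifferentiableAt ℝ μ v) ∧
      (κ = 1 → StrictConvex ℝ {v : ℝ × ℝ | μ v ≤ 1}) := by
  have h1 : ∀ v : ℝ × ℝ, v ≠ 0 → DifferentiableAt ℝ μ v :=
    differentiable_gamma_of_ub hκ hr hμ hub
  refine ⟨h1, ?_⟩
  rintro rfl
  exact B710.strictConvex_of_noFlat hnf hr hμ (normLike_gamma one_pos hr hμ) h1

end Crest.Agent.R151.X
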