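import Mathlib
import Crest.Agent.R151.Y635D
import Crest.Agent.R151.Pl8
import Crest.Agent.R151.S113E

/-!
# R151, Y635E: order of half-plane rays and of their Busemann increments (deterministic layer)

`H_k = reg (Up k)`, `L_k = {y = k}`.  Geometry half of the mass argument (G):
* `reachable_Up`, `IsRay.hray`, `IsRay.coal_or_evDisj`;
* `bus_mono_of_endLT`: `v` left of `w` at infinity ⟹ increments of `bus w` ≤ increments of `bus v`;
* `inc_total` (o4): the increments of two rays of `H_k` are totally ordered;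
* bigeodesics: `abs_inc_fU_le` (o1), `fU_total` (o4), `LowCoal`, `tailU_disjoint`, `fU_mono_of_loc`
  (o3), `loc_eq_of_lowCoal` (o6).
-/

set_option autoImplicit false

open Crest.ProbabilityR.FirstPassage
open scoped Classical
open Filter Topology

namespace Crest.Agent.R151.Y

open Crest.Agent.R151 Crest.Agent.R151.SEL

section halfplane

theorem adj_right (a c : ℤ) : squareLattice.Adj (a, c) (a + 1, c) := by
  simp [squareLattice]

theorem adj_up (a c : ℤ) : squareLattice.Adj (a, c) (a, c + 1) := by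
  simp [squareLattice]

theorem reachable_Up {k : ℤ} {x y : ℤ × ℤ} (hx : k ≤ x.2) (hy : k ≤ y.2) :
    (reg (Up k)).Reachable x y := by
  have hor : ∀ (n : ℕ) (a c : ℤ), k ≤ c → (reg (Up k)).Reachable (a, c) (a + n, c) := by
    intro n
    induction n with
    | zero => intro a c _; simp
    | succ n ih =>
      intro a c hc
      refine (ih a c hc).trans (SimpleGraph.Adj.reachable ?_)
      push_cast
      rw [← add_assoc, reg_adj]
      exact ⟨adj_right _ _, hc, hc⟩
  have ver : ∀ (n : ℕ) (a c : ℤ), k ≤ c → (reg (Up k)).Reachable (a, c) (a, c + n) := by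
    intro n
    induction n with
    | zero => intro a c _; simp
    | succ n ih =>
      intro a c hc
      refine (ih a c hc).trans (SimpleGraph.Adj.reachable ?_)
      push_cast
      rw [← add_assoc, reg_adj]
      exact ⟨adj_up _ _, show k ≤ c + n by omega, show k ≤ c + n + 1 by omega⟩
  obtain ⟨a, c⟩ := x
  obtain ⟨b, d⟩ := y
  simp only at hx hy
  have h1 : (reg (Up k)).Reachable (a, c) (b, c) := by
    rcases le_total a b with h | h
    · have := hor (b - a).toNat a c hx
      rwa [show a + ((b - a).toNat : ℤ) = b by omega] at this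
    · have := hor (a - b).toNat b c hx
      rw [show b + ((a - b).toNat : ℤ) = a by omega] at this
      exact this.symm
  have h2 : (reg (Up k)).Reachable (b, c) (b, d) := by
    rcases le_total c d with h | h
    · have := ver (d - c).toNat b c hx
      rwa [show c + ((d - c).toNat : ℤ) = d by omega] at this
    · have := ver (c - d).toNat b d hy
      rw [show d + ((c - d).toNat : ℤ) = c by omega] at this
      exact this.symm
  exact h1.trans h2

variable {t : Environment} {k : ℤ} {v w : ℕ → ℤ × ℤ}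

theorem IsRay.mem_Up (h : IsRay t (reg (Up k)) v) (n : ℕ) : k ≤ (v n).2 := (h.adj n).2.1

theorem IsRay.hray (h : IsRay t (reg (Up k)) v) (ht : ∀ e, 0 < t e) : Pl.HRay k v :=
  ⟨fun n => h.mem_Up n, fun n => (h.adj n).1, Pl.proper_of_injective (h.injective ht)⟩

/-- Two rays of the same graph coalesce or have disjoint tails. -/
theorem IsRay.coal_or_evDisj {H : SimpleGraph (ℤ × ℤ)} (hnt : NoTies t) (ht : ∀ e, 0 ≤ t e)
    (hv : IsRay t H v) (hw : IsRay t H w) : Coal v w ∨ Pl.EvDisj v w := by
  by_cases h : Pl.EvDisj v w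
  · exact Or.inr h
  · refine Or.inl (IsRay.coal_of_frequently hnt ht hv hw fun n => ?_)
    unfold Pl.EvDisj at h
    push Not at h
    obtain ⟨i, hi, j, -, hij⟩ := h n
    exact ⟨i, j, hi, hij⟩

/-- Monotonicity of Busemann increments along the boundary line in the order of ends. -/
theorem bus_mono_of_endLT (ht : ∀ e, 0 < t e) (hv : IsRay t (reg (Up k)) v)
    (hw : IsRay t (reg (Up k)) w) (h : Pl.EndLT v w) {x y : ℤ × ℤ} (hx : x.2 = k) (hy : y.2 = k)
    (hxy : x.1 ≤ y.1) :
    bus t (reg (Up k)) w y - bus t (reg (Up k)) w x ≤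
      bus t (reg (Up k)) v y - bus t (reg (Up k)) v x := by
  have ht0 : ∀ e, 0 ≤ t e := fun e => (ht e).le
  have hxU : x ∈ Up k := hx.ge
  have hyU : y ∈ Up k := hy.ge
  have key := Pl.busemann_mono (t := t) ht0 (R := Up k) (lo := k) (fun z hz => hz) (hv.hray ht)
    (hw.hray ht) h hx hy hxy
    (fun n => (conn_iff_reachable hxU).2 (reachable_Up hxU (hw.mem_Up n)))
    (fun n => (conn_iff_reachable hyU).2 (reachable_Up hyU (hv.mem_Up n)))
    (b := bus t (reg (Up k)) v x - bus t (reg (Up k)) v y)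
    (b' := bus t (reg (Up k)) w x - bus t (reg (Up k)) w y)
    (by
      refine (tendsto_bus_sub ht0 hv (reachable_Up hxU (hv.mem_Up 0))
        (reachable_Up hyU (hv.mem_Up 0))).congr fun n => ?_
      rw [pR_eq_pt hxU, pR_eq_pt hyU])
    (by
      refine (tendsto_bus_sub ht0 hw (reachable_Up hxU (hw.mem_Up 0))
        (reachable_Up hyU (hw.mem_Up 0))).congr fun n => ?_
      rw [pR_eq_pt hxU, pR_eq_pt hyU])
  linarith

/-- Coalescing rays have the same increments (any graph region). -/
theorem bus_inc_eq_of_coal (ht : ∀ e, 0 ≤ t e) (hv : IsRay t (reg (Up k)) v)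
    (hw : IsRay t (reg (Up k)) w) (h : Coal v w) {x y : ℤ × ℤ} (hx : k ≤ x.2) (hy : k ≤ y.2) :
    bus t (reg (Up k)) w y - bus t (reg (Up k)) w x =
      bus t (reg (Up k)) v y - bus t (reg (Up k)) v x :=
  (bus_sub_of_coal ht hv hw h (reachable_Up hy (hv.mem_Up 0))
    (reachable_Up hx (hv.mem_Up 0))).symm

/-- (o4) for rays: the increments along the boundary line of two rays are comparable. The first
alternative holds if `v` is left of `w` at infinity. -/
theorem inc_total (hnt : NoTies t) (ht : ∀ e, 0 ≤ t e) (hv : IsRay t (reg (Up k)) v)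
    (hw : IsRay t (reg (Up k)) w) :
    (∀ x y : ℤ × ℤ, x.2 = k → y.2 = k → x.1 ≤ y.1 →
      bus t (reg (Up k)) w y - bus t (reg (Up k)) w x ≤
        bus t (reg (Up k)) v y - bus t (reg (Up k)) v x) ∨
    (∀ x y : ℤ × ℤ, x.2 = k → y.2 = k → x.1 ≤ y.1 →
      bus t (reg (Up k)) v y - bus t (reg (Up k)) v x ≤
        bus t (reg (Up k)) w y - bus t (reg (Up k)) w x) := by
  have hpos := fun e => hnt.pos ht e
  rcases IsRay.coal_or_evDisj hnt ht hv hw with h | h
  · exact Or.inl fun x y hx hy _ => (bus_inc_eq_of_coal ht hv hw h hx.ge hy.ge).le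
  · rcases Pl.endLT_or (hv.hray hpos) (hw.hray hpos) h with h | h
    · exact Or.inl fun x y hx hy hxy => bus_mono_of_endLT hpos hv hw h hx hy hxy
    · exact Or.inr fun x y hx hy hxy => bus_mono_of_endLT hpos hw hv h hx hy hxy


end halfplane

section bigeodesic

variable {t : Environment} {k : ℤ} {v w : ℤ → ℤ × ℤ}

/-- (o1) -/
theorem abs_inc_fU_le (ht : ∀ e, 0 ≤ t e) (hv : IsBigeodesic t v) (hvU : UpDown v) {x y : ℤ × ℤ}
    (hx : k ≤ x.2) (hy : k ≤ y.2) :
    |fU t k v y - fU t k v x| ≤ pt (reg (Up k)) t x y := by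
  have h := isRay_tailU hv ht hvU k
  rw [abs_sub_comm]
  exact (isLip_bus ht h).abs_sub_le_pt (reachable_Up hx hy)

/-- (o4) -/
theorem fU_total (hnt : NoTies t) (ht : ∀ e, 0 ≤ t e) (hv : IsBigeodesic t v) (hvU : UpDown v)
    (hw : IsBigeodesic t w) (hwU : UpDown w) (k : ℤ) :
    (∀ e, fU t k w (e + 1, k) - fU t k w (e, k) ≤ fU t k v (e + 1, k) - fU t k v (e, k)) ∨
      ∀ e, fU t k v (e + 1, k) - fU t k v (e, k) ≤ fU t k w (e + 1, k) - fU t k w (e, k) := by
  rcases inc_total hnt ht (isRay_tailU hv ht hvU k) (isRay_tailU hw ht hwU k) with h | h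
  · exact Or.inl fun e => h (e, k) (e + 1, k) rfl rfl (by simp)
  · exact Or.inr fun e => h (e, k) (e + 1, k) rfl rfl (by simp)

/-- The lower tails of two two-sided paths coincide. -/
def LowCoal (v w : ℤ → ℤ × ℤ) : Prop := ∃ a b : ℤ, ∀ n : ℕ, v (a - n) = w (b - n)

theorem LowCoal.symm (h : LowCoal v w) : LowCoal w v := by
  obtain ⟨a, b, h⟩ := h
  exact ⟨b, a, fun n => (h n).symm⟩


theorem LowCoal.coal (h : LowCoal v w) (c d : ℤ) :
    Coal (fun n : ℕ => v (c - n)) (fun n : ℕ => w (d - n)) := by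
  obtain ⟨a, b, h⟩ := h
  -- shift both to the common part
  obtain ⟨N, hN⟩ : ∃ N : ℕ, N = (c - a).natAbs + (d - b).natAbs := ⟨_, rfl⟩
  refine ⟨(c - a + N).toNat, (d - b + N).toNat, fun n => ?_⟩
  have key := h (N + n)
  simp only
  rw [show c - (((c - a + N).toNat + n : ℕ) : ℤ) = a - ((N + n : ℕ) : ℤ) by push_cast; omega,
    show d - (((d - b + N).toNat + n : ℕ) : ℤ) = b - ((N + n : ℕ) : ℤ) by push_cast; omega]
  exact key


theorem isBiRay_of_isBigeodesic (ht : ∀ e, 0 < t e) (hv : IsBigeodesic t v) :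
    IsBiRay t squareLattice v := (isBigeodesic_iff ht).1 hv

/-- Bigeodesics with the same lower tail coincide below every common vertex. -/
theorem eq_below (hnt : NoTies t) (ht : ∀ e, 0 ≤ t e) (hv : IsBigeodesic t v)
    (hw : IsBigeodesic t w) (hc : LowCoal v w) {i j : ℤ} (hij : v i = w j) (n : ℕ) :
    v (i - n) = w (j - n) := by
  have hpos := fun e => hnt.pos ht e
  have h1 := (isBiRay_of_isBigeodesic hpos hv).isRay_neg i
  have h2 := (isBiRay_of_isBigeodesic hpos hw).isRay_neg j
  have := IsRay.coal_from hnt ht h1 h2 (hc.coal i j) (i := 0) (j := 0) (by simpa using hij) n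
  simpa using this

/-- Bigeodesics with the same lower tail and different last entrances to `{y ≥ k}` have disjoint
upper tails. -/
theorem tailU_disjoint (hnt : NoTies t) (ht : ∀ e, 0 ≤ t e) (hv : IsBigeodesic t v)
    (hvU : UpDown v) (hw : IsBigeodesic t w) (hwU : UpDown w) (hc : LowCoal v w)
    (hne : tailU k v 0 ≠ tailU k w 0) (n m : ℕ) : tailU k v n ≠ tailU k w m := by
  intro heq
  unfold tailU at heq hne
  have hb := eq_below hnt ht hv hw hc heq
  have key : ∀ {v w : ℤ → ℤ × ℤ} {n m : ℕ}, UpDown v → UpDown w →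
      (∀ l : ℕ, v (entU k v + n - l) = w (entU k w + m - l)) → n ≤ m := by
    intro v w n m hvU hwU h
    by_contra hcon
    have h1 := h (m + 1)
    have h2 := hwU.entU_pred (k := k)
    rw [show entU k w + m - ((m + 1 : ℕ) : ℤ) = entU k w - 1 by push_cast; ring] at h1
    rw [← h1] at h2
    have h3 := hvU.entU_spec (k := k) (i := entU k v + n - ((m + 1 : ℕ) : ℤ)) (by push_cast; omega)
    omega
  have h1 : n = m := le_antisymm (key hvU hwU hb) (key hwU hvU fun l => (hb l).symm)
  subst h1
  apply hne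
  have := hb n
  simpa using this

/-- (o3) the last entrances are ordered ⟹ the upper tails are ordered at infinity. -/
theorem endLT_of_loc (hnt : NoTies t) (ht : ∀ e, 0 ≤ t e) (hv : IsBigeodesic t v)
    (hvU : UpDown v) (hw : IsBigeodesic t w) (hwU : UpDown w) (hc : LowCoal v w)
    (hlt : (tailU k v 0).1 < (tailU k w 0).1) : Pl.EndLT (tailU k v) (tailU k w) := by
  have hpos := fun e => hnt.pos ht e
  have hsv : (tailU k v 0).2 = k := by
    have := hvU.entU_snd (k := k) hv.2.1
    simpa [tailU] using this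
  have hsw : (tailU k w 0).2 = k := by
    have := hwU.entU_snd (k := k) hw.2.1
    simpa [tailU] using this
  exact Pl.endLT_of_start ((isRay_tailU hv ht hvU k).hray hpos)
    ((isRay_tailU hw ht hwU k).hray hpos) hsv hsw hlt.le
    (tailU_disjoint hnt ht hv hvU hw hwU hc fun h => hlt.ne (by rw [h]))

/-- (o3) -/
theorem fU_mono_of_loc (hnt : NoTies t) (ht : ∀ e, 0 ≤ t e) (hv : IsBigeodesic t v)
    (hvU : UpDown v) (hw : IsBigeodesic t w) (hwU : UpDown w) (hc : LowCoal v w)
    (hlt : (tailU k v 0).1 < (tailU k w 0).1) {x y : ℤ × ℤ} (hx : x.2 = k) (hy : y.2 = k)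
    (hxy : x.1 ≤ y.1) : fU t k w y - fU t k w x ≤ fU t k v y - fU t k v x :=
  bus_mono_of_endLT (fun e => hnt.pos ht e) (isRay_tailU hv ht hvU k) (isRay_tailU hw ht hwU k)
    (endLT_of_loc hnt ht hv hvU hw hwU hc hlt) hx hy hxy

theorem inc_fU_mono_of_loc (hnt : NoTies t) (ht : ∀ e, 0 ≤ t e) (hv : IsBigeodesic t v)
    (hvU : UpDown v) (hw : IsBigeodesic t w) (hwU : UpDown w) (hc : LowCoal v w)
    (hlt : (tailU k v 0).1 < (tailU k w 0).1) (e : ℤ) :
    fU t k w (e + 1, k) - fU t k w (e, k) ≤ fU t k v (e + 1, k) - fU t k v (e, k) :=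
  fU_mono_of_loc hnt ht hv hvU hw hwU hc hlt rfl rfl (by simp)

/-- two-sided path coming from below is bounded below on `[a, ∞)` -/
theorem UpDown.exists_lower (hv : UpDown v) (a : ℤ) : ∃ K : ℤ, ∀ m, a ≤ m → K ≤ (v m).2 := by
  obtain ⟨N, hN⟩ := eventually_atTop.1 (hv.1.eventually (eventually_ge_atTop 0))
  obtain ⟨K, hK⟩ : ∃ K : ℤ, ∀ m ∈ Finset.Icc a N, K ≤ (v m).2 := by
    refine ⟨-∑ m ∈ Finset.Icc a N, |(v m).2|, fun m hm => ?_⟩
    have h1 := Finset.single_le_sum (f := fun m => |(v m).2|) (fun i _ => abs_nonneg _) hm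
    have h2 := neg_abs_le (v m).2
    omega
  refine ⟨min K 0, fun m hm => ?_⟩
  rcases le_total m N with h | h
  · exact (min_le_left _ _).trans (hK m (Finset.mem_Icc.2 ⟨hm, h⟩))
  · exact (min_le_right _ _).trans (hN m h)

/-- (o6) Bigeodesics with the same lower tail have the same last entrance point to all low half
planes. -/
theorem loc_eq_of_lowCoal (hvU : UpDown v) (hwU : UpDown w) (hc : LowCoal v w) :
    ∃ K : ℤ, ∀ k, k ≤ K → tailU k v 0 = tailU k w 0 := by
  obtain ⟨a, b, hab⟩ := hc
  obtain ⟨K1, hK1⟩ := UpDown.exists_lower hvU a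
  obtain ⟨K2, hK2⟩ := UpDown.exists_lower hwU b
  refine ⟨min K1 K2, fun k hk => ?_⟩
  have ha : entU k v ≤ a := hvU.entU_le fun i hi => (hk.trans (min_le_left _ _)).trans (hK1 i hi)
  have hb : entU k w ≤ b := hwU.entU_le fun i hi => (hk.trans (min_le_right _ _)).trans (hK2 i hi)
  have key : ∀ {v w : ℤ → ℤ × ℤ} {a b : ℤ}, UpDown v → UpDown w → entU k v ≤ a → entU k w ≤ b →
      (∀ n : ℕ, v (a - n) = w (b - n)) → (∀ i, b ≤ i → k ≤ (w i).2) →
      a - entU k v ≤ b - entU k w := by
    intro v w a b hvU hwU ha hb h hw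
    have h1 : entU k w ≤ b - (a - entU k v) := by
      refine hwU.entU_le fun i hi => ?_
      rcases le_total b i with h2 | h2
      · exact hw i h2
      · have h3 := h (b - i).toNat
        rw [show b - ((b - i).toNat : ℤ) = i by omega] at h3
        rw [← h3]
        exact hvU.entU_spec (by omega)
    omega
  have e1 : b - entU k w = a - entU k v :=
    le_antisymm (key hwU hvU hb ha (fun n => (hab n).symm) fun i hi =>
        (hk.trans (min_le_left _ _)).trans (hK1 i hi))
      (key hvU hwU ha hb hab fun i hi => (hk.trans (min_le_right _ _)).trans (hK2 i hi))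
  have := hab (a - entU k v).toNat
  unfold tailU
  rw [show a - ((a - entU k v).toNat : ℤ) = entU k v by omega,
    show b - ((a - entU k v).toNat : ℤ) = entU k w by omega] at this
  simpa using this

theorem eventually_loc_eq (hvU : UpDown v) (hwU : UpDown w) (hc : LowCoal v w) :
    ∀ᶠ n : ℕ in atTop, tailU (-(n : ℤ)) v 0 = tailU (-(n : ℤ)) w 0 := by
  obtain ⟨K, hK⟩ := loc_eq_of_lowCoal hvU hwU hc
  filter_upwards [eventually_ge_atTop K.natAbs] with n hn
  exact hK _ (by omega)

end bigeodesic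

end Crest.Agent.R151.Y
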