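import Mathlib

-- ▼ part R151/Y96A
section

/-!
# R151, block G (helper96): mass transport on `ℤ` and the vanishing of conserved masses

`mtp` : the mass transport principle for a measure preserving action of `ℤ`.
`mass_vanish` : masses which are transported to points carrying more and more mass, with a law
which does not depend on the level, vanish.
-/

set_option autoImplicit false

open MeasureTheory Filter Topology
open scoped ENNReal

namespace Crest.Agent.R151.Y96

variable {Ω : Type*} [MeasurableSpace Ω] {P : Measure Ω}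

/-- Mass transport principle. -/
theorem mtp (τ : ℤ → Ω → Ω) (mp : ∀ a, MeasurePreserving (τ a) P P)
    (m : Ω → ℤ → ℤ → ℝ≥0∞) (hm : ∀ x y, Measurable fun ω => m ω x y)
    (hcov : ∀ a ω x y, m (τ a ω) x y = m ω (x + a) (y + a)) :
    ∫⁻ ω, ∑' y, m ω 0 y ∂P = ∫⁻ ω, ∑' y, m ω y 0 ∂P := by
  rw [lintegral_tsum fun y => (hm 0 y).aemeasurable,
    lintegral_tsum fun y => (hm y 0).aemeasurable]
  rw [← (Equiv.neg ℤ).tsum_eq fun y => ∫⁻ ω, m ω 0 y ∂P]
  refine tsum_congr fun y => ?_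
  have h : ∀ ω, m ω 0 (-y) = m (τ (-y) ω) y 0 := by
    intro ω
    rw [hcov]
    simp
  simp only [Equiv.neg_apply]
  rw [lintegral_congr h]
  exact (mp (-y)).lintegral_comp (hm y 0)

/-- The integral of a function over the set where it is large tends to zero. -/
theorem tendsto_tail {f : Ω → ℝ≥0∞} (hf : Measurable f) (hfin : ∫⁻ ω, f ω ∂P ≠ ∞) :
    Tendsto (fun A : ℕ => ∫⁻ ω in {ω | (A : ℝ≥0∞) ≤ f ω}, f ω ∂P) atTop (𝓝 0) := by
  have h1 : ∀ A : ℕ, ∫⁻ ω in {ω | (A : ℝ≥0∞) ≤ f ω}, f ω ∂P =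
      ∫⁻ ω, {ω | (A : ℝ≥0∞) ≤ f ω}.indicator f ω ∂P := fun A =>
    (lintegral_indicator (measurableSet_le measurable_const hf) _).symm
  simp only [h1]
  have hlim : Tendsto (fun A : ℕ => ∫⁻ ω, {ω | (A : ℝ≥0∞) ≤ f ω}.indicator f ω ∂P) atTop
      (𝓝 (∫⁻ _, 0 ∂P)) := by
    refine tendsto_lintegral_of_dominated_convergence f
      (fun A => hf.indicator (measurableSet_le measurable_const hf))
      (fun A => Eventually.of_forall fun ω => ?_) hfin ?_
    · exact Set.indicator_le_self' (fun _ _ => zero_le) ω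
    · filter_upwards [ae_lt_top hf hfin] with ω hω
      obtain ⟨n, hn⟩ := ENNReal.exists_nat_gt hω.ne
      refine tendsto_const_nhds.congr' ?_
      filter_upwards [eventually_ge_atTop n] with A hA
      rw [Set.indicator_of_notMem]
      simp only [Set.mem_ofPred_eq, not_le]
      exact hn.trans_le (by exact_mod_cast hA)
  simpa using hlim

theorem mass_vanish [IsFiniteMeasure P] (τ : ℤ → Ω → Ω)
    (mp : ∀ a, MeasurePreserving (τ a) P P)
    (M : Ω → ℤ → ℝ≥0∞) (hM : ∀ x, Measurable fun ω => M ω x)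
    (hMc : ∀ a ω x, M (τ a ω) x = M ω (x + a))
    (π : ℕ → Ω → ℤ → ℤ) (hπ : ∀ n x, Measurable fun ω => π n ω x)
    (hπc : ∀ n a ω x, π n (τ a ω) x = π n ω (x + a) - a)
    (ok : ℕ → Ω → ℤ → Prop) (hok : ∀ n x, MeasurableSet {ω | ok n ω x})
    (hokc : ∀ n a ω x, ok n (τ a ω) x ↔ ok n ω (x + a))
    (MM : ℕ → Ω → ℤ → ℝ≥0∞) (hMM : ∀ n z, Measurable fun ω => MM n ω z)
    (hMMc : ∀ n a ω z, MM n (τ a ω) z = MM n ω (z + a))
    (hlaw : ∀ n, P.map (fun ω => MM n ω 0) = P.map (fun ω => MM 0 ω 0))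
    (hfin : ∫⁻ ω, MM 0 ω 0 ∂P ≠ ∞)
    (h2 : ∀ᵐ ω ∂P, ∀ n, ∑' x, (open Classical in if ok n ω x ∧ π n ω x = 0 then M ω x else 0)
      ≤ MM n ω 0)
    (h3 : ∀ᵐ ω ∂P, M ω 0 ≠ 0 → ∀ A : ℕ, ∀ᶠ n in atTop, ok n ω 0 ∧
      (A : ℝ≥0∞) ≤ MM n ω (π n ω 0)) :
    ∀ᵐ ω ∂P, ∀ x, M ω x = 0 := by
  classical
  -- the tails
  set δ : ℕ → ℝ≥0∞ := fun A => ∫⁻ ω in {ω | (A : ℝ≥0∞) ≤ MM 0 ω 0}, MM 0 ω 0 ∂P with hδ
  have hδ0 : Tendsto δ atTop (𝓝 0) := tendsto_tail (hMM 0 0) hfin
  -- the tail at level n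
  have hδn : ∀ n (A : ℕ), ∫⁻ ω in {ω | (A : ℝ≥0∞) ≤ MM n ω 0}, MM n ω 0 ∂P = δ A := by
    intro n A
    have key : ∀ n, ∫⁻ ω in {ω | (A : ℝ≥0∞) ≤ MM n ω 0}, MM n ω 0 ∂P =
        ∫⁻ x in {x | (A : ℝ≥0∞) ≤ x}, x ∂(P.map fun ω => MM n ω 0) := by
      intro n
      exact (setLIntegral_map (s := {x : ℝ≥0∞ | (A : ℝ≥0∞) ≤ x}) (f := fun x => x)
        (measurableSet_le measurable_const measurable_id) measurable_id (hMM n 0)).symm
    rw [key, hlaw n, ← key]
  -- transport
  have htr : ∀ n (A : ℕ), ∫⁻ ω, (if ok n ω 0 ∧ (A : ℝ≥0∞) ≤ MM n ω (π n ω 0) then M ω 0 else 0) ∂P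
      ≤ δ A := by
    intro n A
    let m : Ω → ℤ → ℤ → ℝ≥0∞ := fun ω x z =>
      if (ok n ω x ∧ π n ω x = z) ∧ (A : ℝ≥0∞) ≤ MM n ω z then M ω x else 0
    have hmm : ∀ x z, Measurable fun ω => m ω x z := by
      intro x z
      refine Measurable.ite ?_ (hM x) measurable_const
      exact ((hok n x).inter (hπ n x (measurableSet_singleton z))).inter
        (measurableSet_le measurable_const (hMM n z))
    have hmc : ∀ a ω x z, m (τ a ω) x z = m ω (x + a) (z + a) := by
      intro a ω x z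
      simp only [m, hokc, hπc, hMMc, hMc]
      have : (π n ω (x + a) - a = z) ↔ (π n ω (x + a) = z + a) := by omega
      simp only [this]
    have h := mtp τ mp m hmm hmc
    have e1 : ∀ ω, ∑' z, m ω 0 z =
        (if ok n ω 0 ∧ (A : ℝ≥0∞) ≤ MM n ω (π n ω 0) then M ω 0 else 0) := by
      intro ω
      rw [tsum_eq_single (π n ω 0)]
      · simp [m]
      · intro z hz
        simp only [m]
        rw [if_neg]
        rintro ⟨⟨-, h⟩, -⟩
        exact hz h.symm
    rw [← lintegral_congr e1, h]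
    have e2 : ∀ᵐ ω ∂P, ∑' x, m ω x 0 ≤ {ω | (A : ℝ≥0∞) ≤ MM n ω 0}.indicator
        (fun ω => MM n ω 0) ω := by
      filter_upwards [h2] with ω hω
      by_cases hA : (A : ℝ≥0∞) ≤ MM n ω 0
      · rw [Set.indicator_of_mem (by exact hA)]
        refine le_trans (ENNReal.tsum_le_tsum fun x => ?_) (hω n)
        simp only [m, hA, and_true]
        exact le_rfl
      · simp [m, hA]
    refine (lintegral_mono_ae e2).trans ?_
    rw [lintegral_indicator (measurableSet_le measurable_const (hMM n 0)), hδn]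
  have hmeas' : ∀ (A : ℕ) n, MeasurableSet {ω | ok n ω 0 ∧ (A : ℝ≥0∞) ≤ MM n ω (π n ω 0)} := by
    intro A n
    have hq : Measurable fun ω => MM n ω (π n ω 0) := by
      have : Measurable fun p : Ω × ℤ => MM n p.1 p.2 :=
        measurable_from_prod_countable_left fun z => hMM n z
      exact this.comp (measurable_id.prodMk (hπ n 0))
    exact (hok n 0).inter (measurableSet_le measurable_const hq)
  -- the first term
  have hfirst : ∀ A : ℕ, Tendsto (fun n => ∫⁻ ω, (if ok n ω 0 ∧ (A : ℝ≥0∞) ≤ MM n ω (π n ω 0)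
      then 0 else min 1 (M ω 0)) ∂P) atTop (𝓝 0) := by
    intro A
    have hmeas := hmeas' A
    have hlim := tendsto_lintegral_of_dominated_convergence (μ := P)
      (F := fun n ω => if ok n ω 0 ∧ (A : ℝ≥0∞) ≤ MM n ω (π n ω 0)
        then 0 else min 1 (M ω 0)) (f := fun _ => 0) (fun _ => 1)
      (fun n => Measurable.ite (hmeas n) measurable_const (measurable_const.min (hM 0)))
      (fun n => Eventually.of_forall fun ω => ?_) ?_ ?_
    · simpa using hlim
    · dsimp only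
      split_ifs
      · exact zero_le
      · exact min_le_left _ _
    · simp
    · filter_upwards [h3] with ω hω
      by_cases h0 : M ω 0 = 0
      · simp [h0]
      · refine tendsto_const_nhds.congr' ?_
        filter_upwards [hω h0 A] with n hn
        rw [if_pos hn]
  have hle : ∀ A : ℕ, ∫⁻ ω, min 1 (M ω 0) ∂P ≤ δ A := by
    intro A
    have hsplit : ∀ n, ∫⁻ ω, min 1 (M ω 0) ∂P ≤
        (∫⁻ ω, (if ok n ω 0 ∧ (A : ℝ≥0∞) ≤ MM n ω (π n ω 0)
      then 0 else min 1 (M ω 0)) ∂P) + δ A := by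
      intro n
      refine le_trans ?_ (add_le_add le_rfl (htr n A))
      rw [← lintegral_add_left (Measurable.ite (hmeas' A n) measurable_const
        (measurable_const.min (hM 0)))]
      refine lintegral_mono fun ω => ?_
      dsimp only
      split_ifs
      · simp
      · simp
    have h := (hfirst A).add_const (δ A)
    rw [zero_add] at h
    exact ge_of_tendsto' h hsplit
  have hzero : ∫⁻ ω, min 1 (M ω 0) ∂P = 0 :=
    le_antisymm (ge_of_tendsto' hδ0 hle) zero_le
  rw [lintegral_eq_zero_iff (measurable_const.min (hM 0))] at hzero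
  have h0 : ∀ᵐ ω ∂P, M ω 0 = 0 := by
    filter_upwards [hzero] with ω hω
    simp only [Pi.zero_apply] at hω
    by_contra hne
    rcases min_choice (1 : ℝ≥0∞) (M ω 0) with h | h
    · rw [h] at hω; exact one_ne_zero hω
    · rw [h] at hω; exact hne hω
  rw [ae_all_iff]
  intro x
  have := (mp x).quasiMeasurePreserving.ae h0
  filter_upwards [this] with ω hω
  rw [hMc, zero_add] at hω
  exact hω

end Crest.Agent.R151.Y96
end

-- ▼ part R151/Y96B
section

/-!
# R151, block G (helper96): recurrence along a covariant successor map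

`mp_theta` : the environment seen from the successor of `0` has the same law (on the event that
`0` is a point of the process).
`frequently_iterate` : recurrence; `exists_sum_ge` : masses sum to infinity along orbits.
-/

set_option autoImplicit false

open MeasureTheory Filter Topology
open scoped ENNReal

namespace Crest.Agent.R151.Y96

variable {Ω : Type*} [MeasurableSpace Ω] {P : Measure Ω}

section

variable (τ : ℤ → Ω → Ω)
  (X : Ω → ℤ → Prop) (succ : Ω → ℤ → ℤ)

/-- the environment seen from the successor of `0` -/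
def theta (ω : Ω) : Ω := τ (succ ω 0) ω

variable {τ X succ}

theorem measurable_theta (mp : ∀ a, MeasurePreserving (τ a) P P)
    (hs : ∀ x, Measurable fun ω => succ ω x) : Measurable (theta τ succ) := by
  intro B hB
  have : theta τ succ ⁻¹' B = ⋃ y, ({ω | succ ω 0 = y} ∩ τ y ⁻¹' B) := by
    ext ω
    simp only [theta, Set.mem_preimage, Set.mem_iUnion, Set.mem_inter_iff, Set.mem_ofPred_eq]
    constructor
    · intro h; exact ⟨_, rfl, h⟩
    · rintro ⟨y, rfl, h⟩; exact h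
  rw [this]
  exact MeasurableSet.iUnion fun y =>
    (hs 0 (measurableSet_singleton y)).inter ((mp y).measurable hB)

theorem iterate_theta (τz : ∀ ω, τ 0 ω = ω) (τadd : ∀ a b ω, τ a (τ b ω) = τ (a + b) ω)
    (hsc : ∀ a ω x, succ (τ a ω) x = succ ω (x + a) - a) (ω : Ω) (n : ℕ) :
    (theta τ succ)^[n] ω = τ ((succ ω)^[n] 0) ω := by
  induction n with
  | zero => simp [τz]
  | succ n ih =>
    rw [Function.iterate_succ_apply', ih, Function.iterate_succ_apply', theta, hsc, τadd]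
    simp

theorem mp_theta [IsFiniteMeasure P] (mp : ∀ a, MeasurePreserving (τ a) P P)
    (τz : ∀ ω, τ 0 ω = ω) (τadd : ∀ a b ω, τ a (τ b ω) = τ (a + b) ω)
    (hX : ∀ x, MeasurableSet {ω | X ω x}) (hs : ∀ x, Measurable fun ω => succ ω x)
    (hXc : ∀ a ω x, X (τ a ω) x ↔ X ω (x + a))
    (hsc : ∀ a ω x, succ (τ a ω) x = succ ω (x + a) - a)
    (hmap : ∀ᵐ ω ∂P, ∀ x, X ω x → X ω (succ ω x))
    (hinj : ∀ᵐ ω ∂P, ∀ x y, X ω x → X ω y → succ ω x = succ ω y → x = y) :
    MeasurePreserving (theta τ succ) (P.restrict {ω | X ω 0}) (P.restrict {ω | X ω 0}) := by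
  classical
  refine ⟨measurable_theta mp hs, ?_⟩
  let N : Ω → ℝ≥0∞ := fun ω => ∑' x, if X ω x ∧ succ ω x = 0 then 1 else 0
  have hN : Measurable N := by
    refine Measurable.tsum fun x => ?_
    exact Measurable.ite ((hX x).inter (hs x (measurableSet_singleton 0)))
      measurable_const measurable_const
  -- the pushforward has density N
  have key : ∀ B, MeasurableSet B →
      P.restrict {ω | X ω 0} (theta τ succ ⁻¹' B) = ∫⁻ ω in B, N ω ∂P := by
    intro B hB
    have hB' : MeasurableSet (theta τ succ ⁻¹' B) := measurable_theta mp hs hB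
    rw [Measure.restrict_apply hB']
    let m : Ω → ℤ → ℤ → ℝ≥0∞ := fun ω x y =>
      if (X ω x ∧ succ ω x = y) ∧ τ y ω ∈ B then 1 else 0
    have hmm : ∀ x y, Measurable fun ω => m ω x y := fun x y =>
      Measurable.ite (((hX x).inter (hs x (measurableSet_singleton y))).inter
        ((mp y).measurable hB)) measurable_const measurable_const
    have hmc : ∀ a ω x y, m (τ a ω) x y = m ω (x + a) (y + a) := by
      intro a ω x y
      simp only [m, hXc, hsc, τadd]
      have : (succ ω (x + a) - a = y) ↔ (succ ω (x + a) = y + a) := by omega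
      simp only [this]
    have h := mtp τ mp m hmm hmc
    have e1 : ∫⁻ ω, ∑' y, m ω 0 y ∂P = P (theta τ succ ⁻¹' B ∩ {ω | X ω 0}) := by
      rw [← lintegral_indicator_one (hB'.inter (hX 0))]
      refine lintegral_congr fun ω => ?_
      rw [tsum_eq_single (succ ω 0)]
      · simp only [m, and_true, Set.indicator_apply, Set.mem_inter_iff, Set.mem_preimage, theta,
          Set.mem_ofPred_eq, Pi.one_apply]
        simp only [and_comm]
      · intro y hy
        simp only [m]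
        rw [if_neg]
        rintro ⟨⟨-, h⟩, -⟩
        exact hy h.symm
    have e2 : ∫⁻ ω, ∑' x, m ω x 0 ∂P = ∫⁻ ω in B, N ω ∂P := by
      rw [← lintegral_indicator hB]
      refine lintegral_congr fun ω => ?_
      by_cases hω : ω ∈ B
      · rw [Set.indicator_of_mem hω]
        simp [m, N, τz, hω]
      · rw [Set.indicator_of_notMem hω]
        simp [m, τz, hω]
    rw [← e1, h, e2]
  -- N is at most the indicator of X
  have hNle : ∀ᵐ ω ∂P, N ω ≤ {ω | X ω 0}.indicator 1 ω := by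
    filter_upwards [hmap, hinj] with ω h1 h2
    by_cases hex : ∃ x, X ω x ∧ succ ω x = 0
    · obtain ⟨x, hx, hx0⟩ := hex
      have h0 : X ω 0 := hx0 ▸ h1 x hx
      rw [Set.indicator_of_mem (by exact h0)]
      simp only [N]
      rw [tsum_eq_single x]
      · simp [hx, hx0]
      · intro y hy
        rw [if_neg]
        rintro ⟨hy1, hy2⟩
        exact hy (h2 y x hy1 hx (hy2.trans hx0.symm))
    · push Not at hex
      simp only [N]
      have : ∀ x, (if X ω x ∧ succ ω x = 0 then (1 : ℝ≥0∞) else 0) = 0 := by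
        intro x
        rw [if_neg]
        rintro ⟨h, h'⟩
        exact hex x h h'
      simp [this]
  have hNeq : N =ᵐ[P] {ω | X ω 0}.indicator 1 := by
    refine ae_eq_of_ae_le_of_lintegral_le hNle ?_ (measurable_one.indicator (hX 0)).aemeasurable ?_
    · have := key Set.univ MeasurableSet.univ
      rw [Measure.restrict_univ] at this
      rw [← this]
      exact measure_ne_top _ _
    · have := key Set.univ MeasurableSet.univ
      rw [Measure.restrict_univ, Set.preimage_univ, Measure.restrict_apply MeasurableSet.univ,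
        Set.univ_inter] at this
      rw [← this, lintegral_indicator_one (hX 0)]
  ext B hB
  rw [Measure.map_apply (measurable_theta mp hs) hB, key B hB,
    lintegral_congr_ae (ae_restrict_of_ae hNeq), Measure.restrict_apply hB,
    ← lintegral_indicator hB, ← lintegral_indicator_one (hB.inter (hX 0))]
  refine lintegral_congr fun ω => ?_
  simp only [Set.indicator_apply, Set.mem_inter_iff, Pi.one_apply]
  by_cases h1 : ω ∈ B <;> by_cases h2 : X ω 0 <;> simp [h1, h2]

/-- Recurrence along the orbits of the successor map. -/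
theorem frequently_iterate [IsFiniteMeasure P] (mp : ∀ a, MeasurePreserving (τ a) P P)
    (τz : ∀ ω, τ 0 ω = ω) (τadd : ∀ a b ω, τ a (τ b ω) = τ (a + b) ω)
    (hX : ∀ x, MeasurableSet {ω | X ω x}) (hs : ∀ x, Measurable fun ω => succ ω x)
    (hXc : ∀ a ω x, X (τ a ω) x ↔ X ω (x + a))
    (hsc : ∀ a ω x, succ (τ a ω) x = succ ω (x + a) - a)
    (hmap : ∀ᵐ ω ∂P, ∀ x, X ω x → X ω (succ ω x))
    (hinj : ∀ᵐ ω ∂P, ∀ x y, X ω x → X ω y → succ ω x = succ ω y → x = y)
    (S : Ω → ℤ → Prop) (hS : MeasurableSet {ω | S ω 0})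
    (hSc : ∀ a ω x, S (τ a ω) x ↔ S ω (x + a)) (hSX : ∀ ω x, S ω x → X ω x) :
    ∀ᵐ ω ∂P, ∀ x, S ω x → ∃ᶠ n : ℕ in atTop, S ω ((succ ω)^[n] x) := by
  have hc := (mp_theta mp τz τadd hX hs hXc hsc hmap hinj).conservative
  have h := hc.ae_mem_imp_frequently_image_mem (s := {ω | S ω 0}) hS.nullMeasurableSet
  rw [ae_restrict_iff' (hX 0)] at h
  have h0 : ∀ᵐ ω ∂P, S ω 0 → ∃ᶠ n : ℕ in atTop, S ω ((succ ω)^[n] 0) := by
    filter_upwards [h] with ω hω hS0
    have := hω (hSX ω 0 hS0) hS0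
    refine this.mono fun n hn => ?_
    rw [iterate_theta τz τadd hsc] at hn
    have := (hSc _ ω 0).1 hn
    rwa [zero_add] at this
  rw [ae_all_iff]
  intro x
  filter_upwards [(mp x).quasiMeasurePreserving.ae h0] with ω hω hSx
  have h1 : S (τ x ω) 0 := by rw [hSc, zero_add]; exact hSx
  have hit : ∀ n : ℕ, (succ (τ x ω))^[n] 0 = (succ ω)^[n] x - x := by
    intro n
    induction n with
    | zero => simp
    | succ n ih =>
      rw [Function.iterate_succ_apply', Function.iterate_succ_apply', ih, hsc]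
      simp
  refine (hω h1).mono fun n hn => ?_
  rw [hit, hSc] at hn
  simpa using hn

/-- Masses sum to infinity along the orbits of the successor map. -/
theorem exists_sum_ge [IsFiniteMeasure P] (mp : ∀ a, MeasurePreserving (τ a) P P)
    (τz : ∀ ω, τ 0 ω = ω) (τadd : ∀ a b ω, τ a (τ b ω) = τ (a + b) ω)
    (hX : ∀ x, MeasurableSet {ω | X ω x}) (hs : ∀ x, Measurable fun ω => succ ω x)
    (hXc : ∀ a ω x, X (τ a ω) x ↔ X ω (x + a))
    (hsc : ∀ a ω x, succ (τ a ω) x = succ ω (x + a) - a)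
    (hmap : ∀ᵐ ω ∂P, ∀ x, X ω x → X ω (succ ω x))
    (hinj : ∀ᵐ ω ∂P, ∀ x y, X ω x → X ω y → succ ω x = succ ω y → x = y)
    (M : Ω → ℤ → ℝ≥0∞) (hM : ∀ x, Measurable fun ω => M ω x)
    (hMc : ∀ a ω x, M (τ a ω) x = M ω (x + a)) (hMX : ∀ ω x, M ω x ≠ 0 → X ω x) :
    ∀ᵐ ω ∂P, ∀ x, M ω x ≠ 0 → ∀ A : ℕ, ∃ J : ℕ,
      (A : ℝ≥0∞) ≤ ∑ j ∈ Finset.range J, M ω ((succ ω)^[j] x) := by
  have h : ∀ k : ℕ, ∀ᵐ ω ∂P, ∀ x, ((k : ℝ≥0∞) + 1)⁻¹ ≤ M ω x →
      ∃ᶠ n : ℕ in atTop, ((k : ℝ≥0∞) + 1)⁻¹ ≤ M ω ((succ ω)^[n] x) := by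
    intro k
    have hpos : ((k : ℝ≥0∞) + 1)⁻¹ ≠ 0 := by simp
    refine frequently_iterate mp τz τadd hX hs hXc hsc hmap hinj
      (fun ω x => ((k : ℝ≥0∞) + 1)⁻¹ ≤ M ω x) (measurableSet_le measurable_const (hM 0)) ?_ ?_
    · intro a ω x
      rw [hMc]
    · intro ω x hx
      refine hMX ω x fun h0 => ?_
      rw [h0] at hx
      exact hpos (le_antisymm hx zero_le)
  rw [← ae_all_iff] at h
  filter_upwards [h] with ω hω x hx A
  obtain ⟨k, hk⟩ := ENNReal.exists_inv_nat_lt hx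
  have hk' : ((k : ℝ≥0∞) + 1)⁻¹ ≤ M ω x := by
    refine le_trans ?_ hk.le
    exact ENNReal.inv_le_inv.2 le_self_add
  have hfreq := hω k x hk'
  -- enough visits
  have hmany : ∀ m : ℕ, ∃ J : ℕ, (m : ℝ≥0∞) * ((k : ℝ≥0∞) + 1)⁻¹ ≤
      ∑ j ∈ Finset.range J, M ω ((succ ω)^[j] x) := by
    intro m
    induction m with
    | zero => exact ⟨0, by simp⟩
    | succ m ih =>
      obtain ⟨J, hJ⟩ := ih
      obtain ⟨n, hnJ, hn⟩ := (frequently_atTop.1 hfreq) J
      refine ⟨n + 1, ?_⟩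
      rw [Finset.sum_range_succ]
      push_cast
      rw [add_mul, one_mul]
      refine add_le_add (hJ.trans ?_) hn
      exact Finset.sum_le_sum_of_subset (Finset.range_mono hnJ)
  obtain ⟨J, hJ⟩ := hmany (A * (k + 1))
  refine ⟨J, le_trans (le_of_eq ?_) hJ⟩
  push_cast
  rw [mul_assoc, ENNReal.mul_inv_cancel (by simp) (by simp), mul_one]

end

end Crest.Agent.R151.Y96
end

-- ▼ part R151/Y96C

/-!
# R151, block G (helper96): the abstract mass argument

`Sys` : a countable family of labels (selected bigeodesics), stationary under `ℤ × ℤ`, with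
slopes, places on every level and increments on every level.
`Sys.same_inc` : almost surely the increments of a label and of its successor agree.
-/

set_option autoImplicit false

open MeasureTheory Filter Topology
open scoped ENNReal

namespace Crest.Agent.R151.Y96

/-- The abstract system of labels. `pres ω i`: the label `i = (x, k)` (number `x` of level `k`) is
present; `slope`: its slope; `loc k`: its place on the level `k`; `inc k ω i e`: the increment of
its function over the edge `e` of the level `k`; `TT k ω e`: the passage time of that edge;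
`succ ω x`: the successor of the label `(x, 0)`. -/
structure Sys (Ω : Type*) [MeasurableSpace Ω] (P : Measure Ω) where
  τ : ℤ × ℤ → Ω → Ω
  τz : ∀ ω, τ 0 ω = ω
  τadd : ∀ a b ω, τ a (τ b ω) = τ (a + b) ω
  mp : ∀ a, MeasurePreserving (τ a) P P
  pres : Ω → ℤ × ℤ → Prop
  slope : Ω → ℤ × ℤ → ℝ
  loc : ℤ → Ω → ℤ × ℤ → ℤ
  inc : ℤ → Ω → ℤ × ℤ → ℤ → ℝ
  TT : ℤ → Ω → ℤ → ℝ
  succ : Ω → ℤ → ℤ
  pres_meas : ∀ i, MeasurableSet {ω | pres ω i}
  slope_meas : ∀ i, Measurable fun ω => slope ω i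
  loc_meas : ∀ k i, Measurable fun ω => loc k ω i
  inc_meas : ∀ k i e, Measurable fun ω => inc k ω i e
  TT_meas : ∀ k e, Measurable fun ω => TT k ω e
  succ_meas : ∀ x, Measurable fun ω => succ ω x
  pres_cov : ∀ a ω i, pres (τ a ω) i ↔ pres ω (i + a)
  slope_cov : ∀ a ω i, slope (τ a ω) i = slope ω (i + a)
  loc_cov : ∀ a k ω i, loc k (τ a ω) i = loc (k + a.2) ω (i + a) - a.1
  inc_cov : ∀ a k ω i e, inc k (τ a ω) i e = inc (k + a.2) ω (i + a) (e + a.1)
  TT_cov : ∀ a k ω e, TT k (τ a ω) e = TT (k + a.2) ω (e + a.1)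
  succ_cov : ∀ (a : ℤ) ω x, succ (τ (a, 0) ω) x = succ ω (x + a) - a
  TT_fin : ∫⁻ ω, ENNReal.ofReal (TT 0 ω 0) ∂P ≠ ∞
  /-- (o1) -/
  inc_le : ∀ᵐ ω ∂P, ∀ k i e, pres ω i → |inc k ω i e| ≤ TT k ω e
  /-- (o2) -/
  slope_lt : ∀ᵐ ω ∂P, ∀ k i j, pres ω i → pres ω j → slope ω i < slope ω j →
    ∀ e, inc k ω j e ≤ inc k ω i e
  /-- (o3) -/
  loc_lt : ∀ᵐ ω ∂P, ∀ k i₀ j₀ e₀, pres ω i₀ → pres ω j₀ → slope ω i₀ = slope ω j₀ →
    inc k ω i₀ e₀ ≠ inc k ω j₀ e₀ → ∀ i j, pres ω i → pres ω j → slope ω i = slope ω i₀ →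
    slope ω j = slope ω i₀ → loc k ω i < loc k ω j → ∀ e, inc k ω j e ≤ inc k ω i e
  /-- (o5) -/
  osc : ∀ᵐ ω ∂P, ∀ i j, pres ω i → pres ω j → slope ω i = slope ω j →
    (∀ e, inc 0 ω j e ≤ inc 0 ω i e) → ∀ n : ℕ,
    ∑' e, ENNReal.ofReal (inc 0 ω i e - inc 0 ω j e) ≤
      ∑' e, ENNReal.ofReal (inc (-n) ω i e - inc (-n) ω j e)
  /-- (o7): the order of the labels does not depend on the level -/
  order : ∀ᵐ ω ∂P, ∀ i j, pres ω i → pres ω j → slope ω i = slope ω j →
    (∀ e, inc 0 ω j e ≤ inc 0 ω i e) → ∀ (n : ℕ) e, inc (-n) ω j e ≤ inc (-n) ω i e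
  /-- (o6) -/
  coal : ∀ᵐ ω ∂P, ∀ i₀ j₀ e₀, pres ω i₀ → pres ω j₀ → slope ω i₀ = slope ω j₀ →
    inc 0 ω i₀ e₀ ≠ inc 0 ω j₀ e₀ → ∀ i j, pres ω i → pres ω j → slope ω i = slope ω i₀ →
    slope ω j = slope ω i₀ → ∀ᶠ n : ℕ in atTop, loc (-n) ω i = loc (-n) ω j
  succ_pres : ∀ᵐ ω ∂P, ∀ x, pres ω (x, 0) → pres ω (succ ω x, 0)
  succ_inj : ∀ᵐ ω ∂P, ∀ x y, pres ω (x, 0) → pres ω (y, 0) → succ ω x = succ ω y → x = y
  succ_slope : ∀ᵐ ω ∂P, ∀ x, pres ω (x, 0) → slope ω (succ ω x, 0) = slope ω (x, 0)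
  succ_le : ∀ᵐ ω ∂P, ∀ x, pres ω (x, 0) → ∀ e, inc 0 ω (succ ω x, 0) e ≤ inc 0 ω (x, 0) e
  succ_next : ∀ᵐ ω ∂P, ∀ x y, pres ω (x, 0) → pres ω (y, 0) → x ≠ y →
    slope ω (x, 0) = slope ω (y, 0) →
    (∀ e, inc 0 ω (y, 0) e ≤ inc 0 ω (succ ω x, 0) e) ∨
      (∀ e, inc 0 ω (x, 0) e ≤ inc 0 ω (succ ω y, 0) e)

namespace Sys

variable {Ω : Type*} [MeasurableSpace Ω] {P : Measure Ω} (S : Sys Ω P)

/-- the set of the increments between two labels of the same slope at the place `z` -/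
def A (k : ℤ) (ω : Ω) (z e : ℤ) : Set ℝ :=
  {r | ∃ i j, S.pres ω i ∧ S.pres ω j ∧ S.loc k ω i = z ∧ S.loc k ω j = z ∧
    S.slope ω i = S.slope ω j ∧ S.inc k ω i e < r ∧ r < S.inc k ω j e}

/-- the mass which the edge `e` sends to the place `z` -/
noncomputable def mm (k : ℤ) (ω : Ω) (z e : ℤ) : ℝ≥0∞ := volume (S.A k ω z e)

/-- the mass at the place `z` -/
noncomputable def MM (k : ℤ) (ω : Ω) (z : ℤ) : ℝ≥0∞ := ∑' e, S.mm k ω z e

theorem isOpen_A (k : ℤ) (ω : Ω) (z e : ℤ) : IsOpen (S.A k ω z e) := by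
  have : S.A k ω z e = ⋃ i, ⋃ j, ⋃ (_ : S.pres ω i ∧ S.pres ω j ∧ S.loc k ω i = z ∧
      S.loc k ω j = z ∧ S.slope ω i = S.slope ω j), Set.Ioo (S.inc k ω i e) (S.inc k ω j e) := by
    ext r
    simp only [A, Set.mem_ofPred_eq, Set.mem_iUnion, Set.mem_Ioo, exists_prop]
    constructor
    · rintro ⟨i, j, h1, h2, h3, h4, h5, h6, h7⟩
      exact ⟨i, j, ⟨h1, h2, h3, h4, h5⟩, h6, h7⟩
    · rintro ⟨i, j, ⟨h1, h2, h3, h4, h5⟩, h6, h7⟩
      exact ⟨i, j, h1, h2, h3, h4, h5, h6, h7⟩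
  rw [this]
  exact isOpen_iUnion fun i => isOpen_iUnion fun j => isOpen_iUnion fun _ => isOpen_Ioo

theorem measurable_mm (k z e : ℤ) : Measurable fun ω => S.mm k ω z e := by
  have hset : MeasurableSet {p : Ω × ℝ | p.2 ∈ S.A k p.1 z e} := by
    have : {p : Ω × ℝ | p.2 ∈ S.A k p.1 z e} = ⋃ i, ⋃ j,
        ((Prod.fst ⁻¹' ({ω | S.pres ω i} ∩ {ω | S.pres ω j} ∩ {ω | S.loc k ω i = z} ∩
          {ω | S.loc k ω j = z} ∩ {ω | S.slope ω i = S.slope ω j})) ∩
          ({p | S.inc k p.1 i e < p.2} ∩ {p | p.2 < S.inc k p.1 j e})) := by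
      ext p
      simp only [A, Set.mem_ofPred_eq, Set.mem_iUnion, Set.mem_inter_iff, Set.mem_preimage]
      constructor
      · rintro ⟨i, j, h1, h2, h3, h4, h5, h6, h7⟩
        exact ⟨i, j, ⟨⟨⟨⟨h1, h2⟩, h3⟩, h4⟩, h5⟩, h6, h7⟩
      · rintro ⟨i, j, ⟨⟨⟨⟨h1, h2⟩, h3⟩, h4⟩, h5⟩, h6, h7⟩
        exact ⟨i, j, h1, h2, h3, h4, h5, h6, h7⟩
    rw [this]
    refine MeasurableSet.iUnion fun i => MeasurableSet.iUnion fun j => ?_
    refine MeasurableSet.inter (measurable_fst ?_) (MeasurableSet.inter ?_ ?_)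
    · refine ((((S.pres_meas i).inter (S.pres_meas j)).inter
        (S.loc_meas k i (measurableSet_singleton z))).inter
        (S.loc_meas k j (measurableSet_singleton z))).inter ?_
      exact measurableSet_eq_fun (S.slope_meas i) (S.slope_meas j)
    · exact measurableSet_lt ((S.inc_meas k i e).comp measurable_fst) measurable_snd
    · exact measurableSet_lt measurable_snd ((S.inc_meas k j e).comp measurable_fst)
  exact measurable_measure_prodMk_left (ν := (volume : Measure ℝ)) hset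

theorem measurable_MM (k z : ℤ) : Measurable fun ω => S.MM k ω z :=
  Measurable.tsum fun e => S.measurable_mm k z e

theorem A_cov (a : ℤ × ℤ) (k : ℤ) (ω : Ω) (z e : ℤ) :
    S.A k (S.τ a ω) z e = S.A (k + a.2) ω (z + a.1) (e + a.1) := by
  ext r
  simp only [A, Set.mem_ofPred_eq, S.pres_cov, S.loc_cov, S.slope_cov, S.inc_cov,
    sub_eq_iff_eq_add]
  constructor
  · rintro ⟨i, j, h⟩
    exact ⟨i + a, j + a, h⟩
  · rintro ⟨i, j, h⟩
    refine ⟨i - a, j - a, ?_⟩
    simpa using h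

theorem mm_cov (a : ℤ × ℤ) (k : ℤ) (ω : Ω) (z e : ℤ) :
    S.mm k (S.τ a ω) z e = S.mm (k + a.2) ω (z + a.1) (e + a.1) := by
  rw [mm, A_cov, ← mm]

theorem MM_cov (a : ℤ × ℤ) (k : ℤ) (ω : Ω) (z : ℤ) :
    S.MM k (S.τ a ω) z = S.MM (k + a.2) ω (z + a.1) := by
  unfold MM
  simp only [mm_cov]
  exact (Equiv.addRight a.1).tsum_eq fun e => S.mm (k + a.2) ω (z + a.1) e

/-- The masses sent by one edge to different places are carried by disjoint sets. -/
theorem disjoint_A : ∀ᵐ ω ∂P, ∀ k z z' e, z ≠ z' → Disjoint (S.A k ω z e) (S.A k ω z' e) := by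
  filter_upwards [S.slope_lt, S.loc_lt] with ω h2 h3 k z z' e hz
  rw [Set.disjoint_left]
  rintro r ⟨i, j, hi, hj, hiz, hjz, hs, h1r, hr1⟩ ⟨i', j', hi', hj', hiz', hjz', hs', h2r, hr2⟩
  rcases lt_trichotomy (S.slope ω i) (S.slope ω i') with hlt | heq | hgt
  · -- the primed increments are smaller
    have h := h2 k i j' hi hj' (by rwa [← hs']) e
    linarith
  · have hne : S.inc k ω i e ≠ S.inc k ω j e := by
      intro h; linarith
    rcases lt_or_gt_of_ne hz with hlt | hgt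
    · have h := h3 k i j e hi hj hs hne i j' hi hj' rfl (by rw [← hs', heq])
        (by rw [hiz, hjz']; exact hlt) e
      linarith
    · have h := h3 k i j e hi hj hs hne i' j hi' hj heq.symm hs.symm
        (by rw [hiz', hjz]; exact hgt) e
      linarith
  · have h := h2 k i' j hi' hj (by rwa [← hs]) e
    linarith

theorem tsum_mm_le : ∀ᵐ ω ∂P, ∀ k e, ∑' z, S.mm k ω z e ≤ ENNReal.ofReal (2 * S.TT k ω e) := by
  filter_upwards [S.disjoint_A, S.inc_le] with ω hd hle k e
  have h1 : ∑' z, S.mm k ω z e = volume (⋃ z, S.A k ω z e) := by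
    rw [measure_iUnion]
    · rfl
    · intro z z' hz
      exact hd k z z' e hz
    · intro z
      exact (S.isOpen_A k ω z e).measurableSet
  rw [h1]
  have h2 : (⋃ z, S.A k ω z e) ⊆ Set.Ioo (-S.TT k ω e) (S.TT k ω e) := by
    intro r hr
    rw [Set.mem_iUnion] at hr
    obtain ⟨z, i, j, hi, hj, -, -, -, h1, h2⟩ := hr
    have a1 := abs_le.1 (hle k i e hi)
    have a2 := abs_le.1 (hle k j e hj)
    exact ⟨by linarith, by linarith⟩
  refine (measure_mono h2).trans ?_
  rw [Real.volume_Ioo]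
  refine ENNReal.ofReal_le_ofReal ?_
  linarith

theorem lintegral_MM : ∫⁻ ω, S.MM 0 ω 0 ∂P ≠ ∞ := by
  have h := mtp (P := P) (fun a : ℤ => S.τ (a, 0)) (fun a => S.mp _) (fun ω x y => S.mm 0 ω x y)
    (fun x y => S.measurable_mm 0 x y) (fun a ω x y => by
      have := S.mm_cov (a, 0) 0 ω x y
      simpa using this)
  unfold MM
  rw [h]
  refine ne_top_of_le_ne_top ?_ (lintegral_mono_ae (g := fun ω =>
    ENNReal.ofReal (2 * S.TT 0 ω 0)) ?_)
  · have : ∀ ω, ENNReal.ofReal (2 * S.TT 0 ω 0) = 2 * ENNReal.ofReal (S.TT 0 ω 0) := by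
      intro ω
      rw [ENNReal.ofReal_mul (by norm_num)]
      simp
    simp only [this]
    rw [lintegral_const_mul _ (S.TT_meas 0 0).ennreal_ofReal]
    exact ENNReal.mul_ne_top (by simp) S.TT_fin
  · filter_upwards [S.tsum_mm_le] with ω hω
    exact hω 0 0

/-- the mass between a label of level `0` and its successor -/
noncomputable def M (ω : Ω) (x : ℤ) : ℝ≥0∞ :=
  open Classical in
  if S.pres ω (x, 0) then ∑' e, ENNReal.ofReal (S.inc 0 ω (x, 0) e - S.inc 0 ω (S.succ ω x, 0) e)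
  else 0

theorem measurable_inc_succ (x e : ℤ) : Measurable fun ω => S.inc 0 ω (S.succ ω x, 0) e := by
  have : Measurable fun p : Ω × ℤ => S.inc 0 p.1 (p.2, 0) e :=
    measurable_from_prod_countable_left fun y => S.inc_meas 0 (y, 0) e
  exact this.comp (measurable_id.prodMk (S.succ_meas x))

theorem measurable_M (x : ℤ) : Measurable fun ω => S.M ω x := by
  unfold M
  refine Measurable.ite (S.pres_meas _) (Measurable.tsum fun e => ?_) measurable_const
  exact ((S.inc_meas 0 (x, 0) e).sub (S.measurable_inc_succ x e)).ennreal_ofReal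

theorem M_cov (a : ℤ) (ω : Ω) (x : ℤ) : S.M (S.τ (a, 0) ω) x = S.M ω (x + a) := by
  unfold M
  have h1 : S.pres (S.τ (a, 0) ω) (x, 0) ↔ S.pres ω (x + a, 0) := by
    rw [S.pres_cov]; simp
  by_cases hp : S.pres ω (x + a, 0)
  · rw [if_pos hp, if_pos (h1.2 hp), ← (Equiv.addRight a).tsum_eq fun e => ENNReal.ofReal
      (S.inc 0 ω (x + a, 0) e - S.inc 0 ω (S.succ ω (x + a), 0) e)]
    refine tsum_congr fun e => ?_
    rw [S.inc_cov, S.inc_cov, S.succ_cov]
    simp
  · rw [if_neg hp, if_neg fun h => hp (h1.1 h)]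

theorem M_ne_zero {ω : Ω} {x : ℤ} (h : S.M ω x ≠ 0) : S.pres ω (x, 0) ∧
    ∃ e, S.inc 0 ω (S.succ ω x, 0) e < S.inc 0 ω (x, 0) e := by
  unfold M at h
  split_ifs at h with hp
  · refine ⟨hp, ?_⟩
    by_contra hcon
    push Not at hcon
    apply h
    rw [ENNReal.tsum_eq_zero]
    intro e
    rw [ENNReal.ofReal_eq_zero]
    linarith [hcon e]
  · exact absurd rfl h

/-- telescoping sums of nonincreasing sequences -/
theorem ofReal_telescope {a : ℕ → ℝ} (ha : ∀ j, a (j + 1) ≤ a j) (J : ℕ) :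
    ∑ j ∈ Finset.range J, ENNReal.ofReal (a j - a (j + 1)) = ENNReal.ofReal (a 0 - a J) := by
  induction J with
  | zero => simp
  | succ J ih =>
    have hanti : a J ≤ a 0 := antitone_nat_of_succ_le ha (Nat.zero_le J)
    rw [Finset.sum_range_succ, ih, ← ENNReal.ofReal_add (by linarith) (by linarith [ha J])]
    congr 1
    ring

/-- The masses between labels at the place `z` of the level `-n` and their successors. -/
theorem tsum_M_le : ∀ᵐ ω ∂P, ∀ (n : ℕ) (z : ℤ), ∑' x : ℤ, (open Classical in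
    if (S.pres ω (x, 0) ∧ S.loc (-n) ω (x, 0) = S.loc (-n) ω (S.succ ω x, 0)) ∧
      S.loc (-n) ω (x, 0) = z then S.M ω x else 0) ≤ S.MM (-n) ω z := by
  classical
  filter_upwards [S.slope_lt, S.osc, S.order, S.succ_pres, S.succ_slope, S.succ_le, S.succ_next]
    with ω hslt hosc hord hpres hsl hle hnext n z
  let good : ℤ → Prop := fun x =>
    (S.pres ω (x, 0) ∧ S.loc (-n) ω (x, 0) = S.loc (-n) ω (S.succ ω x, 0)) ∧
      S.loc (-n) ω (x, 0) = z
  let I : ℤ → ℤ → Set ℝ := fun e x => if good x then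
    Set.Ioo (S.inc (-n) ω (S.succ ω x, 0) e) (S.inc (-n) ω (x, 0) e) else ∅
  have hstep : ∀ x, (if good x then S.M ω x else 0) ≤ ∑' e, volume (I e x) := by
    intro x
    by_cases hx : good x
    · rw [if_pos hx]
      have hp := hx.1.1
      unfold M
      rw [if_pos hp]
      refine (hosc (x, 0) (S.succ ω x, 0) hp (hpres x hp) (hsl x hp).symm (hle x hp) n).trans ?_
      refine le_of_eq (tsum_congr fun e => ?_)
      simp only [I, if_pos hx, Real.volume_Ioo]
    · rw [if_neg hx]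
      exact zero_le
  refine (ENNReal.tsum_le_tsum hstep).trans ?_
  rw [ENNReal.tsum_comm]
  unfold MM
  refine ENNReal.tsum_le_tsum fun e => ?_
  have hdisj : Pairwise (Function.onFun Disjoint (I e)) := by
    intro x y hxy
    simp only [Function.onFun]
    by_cases hx : good x
    swap
    · simp only [I, if_neg hx]; exact Set.empty_disjoint _
    by_cases hy : good y
    swap
    · simp only [I, if_neg hy]; exact Set.disjoint_empty _
    simp only [I, if_pos hx, if_pos hy]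
    have hpx := hx.1.1
    have hpy := hy.1.1
    have hsx := hpres x hpx
    have hsy := hpres y hpy
    rw [Set.disjoint_left]
    rintro r ⟨h1, h2⟩ ⟨h3, h4⟩
    rcases lt_trichotomy (S.slope ω (x, 0)) (S.slope ω (y, 0)) with hlt | heq | hgt
    · have h := hslt (-n) (S.succ ω x, 0) (y, 0) hsx hpy (by rwa [hsl x hpx]) e
      linarith
    · rcases hnext x y hpx hpy hxy heq with h | h
      · have h' := hord (S.succ ω x, 0) (y, 0) hsx hpy (by rw [hsl x hpx, heq]) h n e
        linarith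
      · have h' := hord (S.succ ω y, 0) (x, 0) hsy hpx (by rw [hsl y hpy, heq]) h n e
        linarith
    · have h := hslt (-n) (S.succ ω y, 0) (x, 0) hsy hpx (by rwa [hsl y hpy]) e
      linarith
  have hmeas : ∀ x, MeasurableSet (I e x) := by
    intro x
    simp only [I]
    split_ifs
    · exact measurableSet_Ioo
    · exact MeasurableSet.empty
  rw [← measure_iUnion hdisj hmeas]
  refine measure_mono ?_
  intro r hr
  rw [Set.mem_iUnion] at hr
  obtain ⟨x, hx⟩ := hr
  by_cases hg : good x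
  · simp only [I, if_pos hg] at hx
    exact ⟨(S.succ ω x, 0), (x, 0), hpres x hg.1.1, hg.1.1, by rw [← hg.1.2]; exact hg.2, hg.2,
      hsl x hg.1.1, hx.1, hx.2⟩
  · simp only [I, if_neg hg] at hx
    exact absurd hx (Set.notMem_empty r)

theorem map_MM (n : ℕ) : P.map (fun ω => S.MM (-n) ω 0) = P.map (fun ω => S.MM 0 ω 0) := by
  have h : (fun ω => S.MM (-n) ω 0) = (fun ω => S.MM 0 ω 0) ∘ S.τ (0, -(n : ℤ)) := by
    funext ω
    simp [S.MM_cov]
  rw [h, ← Measure.map_map (S.measurable_MM 0 0) (S.mp _).measurable, (S.mp _).map_eq]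

/-- The masses at the places of the label tend to infinity. -/
theorem eventually_MM [IsFiniteMeasure P] : ∀ᵐ ω ∂P, ∀ x, S.M ω x ≠ 0 → ∀ A : ℕ,
    ∀ᶠ n : ℕ in atTop, (S.pres ω (x, 0) ∧
      S.loc (-n) ω (x, 0) = S.loc (-n) ω (S.succ ω x, 0)) ∧
      (A : ℝ≥0∞) ≤ S.MM (-n) ω (S.loc (-n) ω (x, 0)) := by
  classical
  have hrec := exists_sum_ge (P := P) (τ := fun a : ℤ => S.τ (a, 0))
    (X := fun ω x => S.pres ω (x, 0)) (succ := S.succ) (fun a => S.mp _) (fun ω => S.τz ω)
    (fun a b ω => by rw [S.τadd]; simp) (fun x => S.pres_meas _) S.succ_meas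
    (fun a ω x => by rw [S.pres_cov]; simp) S.succ_cov S.succ_pres S.succ_inj S.M S.measurable_M
    S.M_cov (fun ω x h => (S.M_ne_zero h).1)
  filter_upwards [hrec, S.coal, S.osc, S.order, S.succ_pres, S.succ_slope, S.succ_le] with
    ω hω hcoal hosc hord hpres hsl hle x hx A
  obtain ⟨hp, e₀, he₀⟩ := S.M_ne_zero hx
  obtain ⟨J, hJ⟩ := hω x hx A
  set o : ℕ → ℤ := fun j => (S.succ ω)^[j] x with ho
  have ho0 : o 0 = x := rfl
  have hos : ∀ j, o (j + 1) = S.succ ω (o j) := fun j => Function.iterate_succ_apply' _ _ _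
  have hop : ∀ j, S.pres ω (o j, 0) := by
    intro j
    induction j with
    | zero => exact hp
    | succ j ih => rw [hos]; exact hpres _ ih
  have hosl : ∀ j, S.slope ω (o j, 0) = S.slope ω (x, 0) := by
    intro j
    induction j with
    | zero => rfl
    | succ j ih => rw [hos, hsl _ (hop j), ih]
  have hc := hcoal (x, 0) (S.succ ω x, 0) e₀ hp (hpres x hp) (hsl x hp).symm he₀.ne'
  have hall : ∀ᶠ n : ℕ in atTop, ∀ j ∈ Finset.range (J + 1 + 1),
      S.loc (-n) ω (x, 0) = S.loc (-n) ω (o j, 0) := by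
    rw [Filter.eventually_all_finset]
    intro j _
    exact hc (x, 0) (o j, 0) hp (hop j) rfl (hosl j)
  filter_upwards [hall] with n hn
  refine ⟨⟨hp, ?_⟩, ?_⟩
  · have := hn 1 (by simp)
    rwa [hos, ho0] at this
  · refine hJ.trans ?_
    -- pass to the level -n
    have hlev : ∀ j, S.M ω (o j) ≤ ∑' e, ENNReal.ofReal (S.inc (-n) ω (o j, 0) e -
        S.inc (-n) ω (o (j + 1), 0) e) := by
      intro j
      unfold M
      rw [if_pos (hop j), hos j]
      exact hosc (o j, 0) (S.succ ω (o j), 0) (hop j) (hpres _ (hop j)) (hsl _ (hop j)).symm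
        (hle _ (hop j)) n
    refine (Finset.sum_le_sum fun j _ => hlev j).trans ?_
    rw [← Summable.tsum_finsetSum fun _ _ => ENNReal.summable]
    unfold MM
    refine ENNReal.tsum_le_tsum fun e => ?_
    have hanti : ∀ j, S.inc (-n) ω (o (j + 1), 0) e ≤ S.inc (-n) ω (o j, 0) e := by
      intro j
      rw [hos]
      exact hord (o j, 0) (S.succ ω (o j), 0) (hop j) (hpres _ (hop j)) (hsl _ (hop j)).symm
        (hle _ (hop j)) n e
    rw [ofReal_telescope (a := fun j => S.inc (-n) ω (o j, 0) e) hanti, ho0, mm, ← Real.volume_Ioo]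
    refine measure_mono ?_
    intro r hr
    refine ⟨(o J, 0), (x, 0), hop J, hp, (hn J (by simp)).symm, rfl, hosl J, hr.1, hr.2⟩

/-- **The mass argument**: a label and its successor have the same increments. -/
theorem same_inc [IsFiniteMeasure P] : ∀ᵐ ω ∂P, ∀ x, S.pres ω (x, 0) → ∀ e,
    S.inc 0 ω (S.succ ω x, 0) e = S.inc 0 ω (x, 0) e := by
  classical
  have h := mass_vanish (P := P) (fun a : ℤ => S.τ (a, 0)) (fun a => S.mp _) S.M S.measurable_M
    S.M_cov (fun n ω x => S.loc (-n) ω (x, 0)) (fun n x => S.loc_meas _ _)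
    (fun n a ω x => by rw [S.loc_cov]; simp)
    (fun n ω x => S.pres ω (x, 0) ∧ S.loc (-n) ω (x, 0) = S.loc (-n) ω (S.succ ω x, 0))
    (fun n x => ?_) (fun n a ω x => ?_) (fun n ω z => S.MM (-n) ω z)
    (fun n z => S.measurable_MM _ _) (fun n a ω z => by rw [S.MM_cov]; simp)
    (fun n => ?_) ?_ ?_ ?_
  · filter_upwards [h, S.succ_le] with ω hω hle x hp e
    have h0 := hω x
    unfold M at h0
    rw [if_pos hp, ENNReal.tsum_eq_zero] at h0
    have h1 := h0 e
    rw [ENNReal.ofReal_eq_zero] at h1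
    exact le_antisymm (hle x hp e) (by linarith)
  · refine (S.pres_meas _).inter ?_
    have hm : Measurable fun ω => S.loc (-n) ω (S.succ ω x, 0) := by
      have : Measurable fun p : Ω × ℤ => S.loc (-n) p.1 (p.2, 0) :=
        measurable_from_prod_countable_left fun y => S.loc_meas (-n) (y, 0)
      exact this.comp (measurable_id.prodMk (S.succ_meas x))
    exact measurableSet_eq_fun (S.loc_meas _ _) hm
  · rw [S.pres_cov, S.loc_cov, S.loc_cov, S.succ_cov]
    simp
  · have h0 := S.map_MM n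
    simpa using h0
  · simpa using S.lintegral_MM
  · filter_upwards [S.tsum_M_le] with ω hω n
    convert hω n 0
  · filter_upwards [S.eventually_MM] with ω hω h0 A
    exact hω 0 h0 A

end Sys

end Crest.Agent.R151.Y96
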