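import Crest.Agent.R151.K9d
import Crest.Agent.R151.D411d
import Crest.Agent.R151.K9h
import Crest.Agent.R151.X684k
import Crest.Agent.R151.Pl2
import Mathlib
import Crest.Agent.R151.B710
import Crest.Agent.R151.A565c
import Crest.Agent.R151.K1c
import Crest.Agent.R151.K2b
import Crest.Agent.R151.Y635C
import Crest.Agent.R151.K5
import Crest.Agent.R151.U750f

-- ▼ part R151/Z213
section

/-!
# R151/Z213 — final reduction of S0213 (owner helper890, block T1)

* `rev`, `iso`, `swap` : a bigeodesic stays a bigeodesic under time reversal and lattice automorphisms.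
* `null_of_dir_up` : if almost surely every bigeodesic is, after time reversal and/or the swap of the
  coordinates, of class `PU`, and almost surely no bigeodesic is of class `PU`, then almost surely
  there is no bigeodesic.
* `red213` : S0213 from the inputs of helper684 (differentiability), helper507/821 (uniform shape,
  barriers), helper411 (DIR2+3) and helper96 (no proper bigeodesic).
-/

set_option autoImplicit false

open MeasureTheory Filter ProbabilityTheory
open Crest.ProbabilityR.FirstPassage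

namespace Crest.Agent.R151.Z

open Crest.Agent.R151.K (Nn ae_Nn act sw ng mp_act pt_act pt_symm IsTC1 Mom LocCtl toR l1)

/-- Time reversal. -/
theorem rev {t : Environment} (ht : Nn t) {v : ℤ → ℤ × ℤ} (h : IsBigeodesic t v) :
    IsBigeodesic t (fun n => v (-n)) := by
  obtain ⟨h1, h2, h3⟩ := h
  refine ⟨fun a b hab => ?_, fun i => ?_, fun i j hij => ?_⟩
  · have := h1 hab
    omega
  · have := (h2 (-(i + 1))).symm
    have e : -(i + 1) + 1 = -i := by ring
    rw [e] at this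
    exact this
  · have h4 := h3 (-j) (-i) (by omega)
    rw [pt_symm ht (v (-i)) (v (-j)), ← h4]
    refine Finset.sum_bij (fun k _ => -(k + 1)) ?_ ?_ ?_ ?_
    · intro k hk
      rw [Finset.mem_Ico] at hk ⊢
      omega
    · intro a _ b _ hab
      omega
    · intro b hb
      rw [Finset.mem_Ico] at hb
      exact ⟨-(b + 1), by rw [Finset.mem_Ico]; omega, by ring⟩
    · intro k _
      have e : -(k + 1) + 1 = -k := by ring
      simp only [e]
      rw [Sym2.eq_swap]

/-- Lattice automorphisms. -/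
theorem iso (φ : squareLattice ≃g squareLattice) {t : Environment} {v : ℤ → ℤ × ℤ}
    (h : IsBigeodesic t v) : IsBigeodesic (act φ t) (fun n => φ.symm (v n)) := by
  obtain ⟨h1, h2, h3⟩ := h
  refine ⟨fun a b hab => h1 (φ.symm.injective hab), fun i => φ.symm.map_rel_iff'.2 (h2 i),
    fun i j hij => ?_⟩
  rw [pt_act]
  simp only [act, Sym2.map_mk, RelIso.apply_symm_apply]
  exact h3 i j hij

/-- Swap of the coordinates. -/
theorem swap {t : Environment} {v : ℤ → ℤ × ℤ} (h : IsBigeodesic t v) :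
    IsBigeodesic (act sw t) (fun n => (v n).swap) := iso sw h

variable {G : Measure ℝ} [IsProbabilityMeasure G]

/-- **Final reduction, abstract form.** -/
theorem null_of_dir_up (h0 : G (Set.Iio 0) = 0) (PU : (ℤ → ℤ × ℤ) → Prop)
    (hdir : ∀ᵐ t ∂(iidLaw G), ∀ v, IsBigeodesic t v →
      PU v ∨ PU (fun n => v (-n)) ∨ PU (fun n => (v n).swap) ∨ PU (fun n => (v (-n)).swap))
    (hup : ∀ᵐ t ∂(iidLaw G), ∀ v, IsBigeodesic t v → PU v → False) :
    iidLaw G {t | ∃ v : ℤ → ℤ × ℤ, IsBigeodesic t v} = 0 := by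
  have hsw : ∀ᵐ t ∂(iidLaw G), ∀ v, IsBigeodesic (act sw t) v → PU v → False :=
    (mp_act (G := G) sw).quasiMeasurePreserving.ae hup
  have key : ∀ᵐ t ∂(iidLaw G), ¬ ∃ v : ℤ → ℤ × ℤ, IsBigeodesic t v := by
    filter_upwards [ae_Nn (G := G) h0, hdir, hup, hsw] with t ht hd hu hs
    rintro ⟨v, hv⟩
    rcases hd v hv with h | h | h | h
    · exact hu v hv h
    · exact hu _ (rev ht hv) h
    · exact hs _ (swap hv) h
    · exact hs _ (swap (rev ht hv)) h
  have := ae_iff.1 key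
  simpa using this

end Crest.Agent.R151.Z
end

-- ▼ part R151/Z213b
section

/-!
# R151/Z213b — S0213 from its three remaining inputs (owner helper890, block T1)

`no_bigeodesic` (one law) and `s0213_of_inputs` (verbatim `S0213.result`) from
* `hub`  : 750's upper bound (gives differentiability of `μ` by 684/792),
* `hbar` : 821's barriers,
* `hup`  : 96's theorem "no proper bigeodesic".
-/

set_option autoImplicit false

open MeasureTheory Filter ProbabilityTheory
open Crest.ProbabilityR.FirstPassage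

namespace Crest.Agent.R151.Z

open Crest.Agent.R151.K (IsTC1 Mom LocCtl ae_Nn)
open Crest.Agent.R151.M51 (Law213)
open Crest.Agent.R151.D411 (SmoothNorm ProperUp Barriers UShape exists_properUp)

variable {G : Measure ℝ} [IsProbabilityMeasure G] {m : ℝ} {μ : ℝ × ℝ → ℝ}

theorem smoothNorm [NullSingletonClass G] (hM : Mom G m) (hμ : IsTC1 G μ)
    (hdiff : ∀ v : ℝ × ℝ, v ≠ 0 → DifferentiableAt ℝ μ v) : SmoothNorm μ where
  norm := hM.normLike hμ (measure_singleton 0)
  swap x y := hM.mu_swap hμ (x, y)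
  refl x y := hM.mu_neg_fst hμ (x, y)
  diff := hdiff

/-- **No bigeodesics, one law.** -/
theorem no_bigeodesic [NullSingletonClass G] (hG : Law213 G) (hM : Mom G m) (hμ : IsTC1 G μ)
    (hS : SmoothNorm μ) (hbar : ∀ᵐ t ∂(iidLaw G), Barriers μ t)
    (hup : ∀ C0 : ℝ, 0 < C0 → μ (1, 0) * C0 < μ (C0, 1) →
      ∀ᵐ t ∂(iidLaw G), ∀ v, IsBigeodesic t v → ProperUp C0 v → False) :
    iidLaw G {t | ∃ v : ℤ → ℤ × ℤ, IsBigeodesic t v} = 0 := by
  obtain ⟨C0, hC0, hC1, h⟩ := exists_properUp hS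
  refine null_of_dir_up hG.h0 (ProperUp C0) ?_ (hup C0 hC0 hC1)
  filter_upwards [ae_Nn (G := G) hG.h0, ae_noTies (G := G) (fun x => measure_singleton x),
    hM.as_ushape hμ hG, hbar] with t h1 h2 h3 h4
  exact h t h1 h2 h3 h4

/-- **S0213 verbatim** from the three inputs. -/
theorem s0213_of_inputs
    (hub : ∀ (G : Measure ℝ) [IsProbabilityMeasure G] (al be s a : ℝ),
      U.Hyp G al be s a → N.UB G s al be)
    (hbar : ∀ (G : Measure ℝ) [IsProbabilityMeasure G] [NullSingletonClass G] (m : ℝ)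
      (μ : ℝ × ℝ → ℝ), Law213 G → Mom G m → IsTC1 G μ → SmoothNorm μ →
        ∀ᵐ t ∂(iidLaw G), Barriers μ t)
    (hup : ∀ (G : Measure ℝ) [IsProbabilityMeasure G] [NullSingletonClass G] (m : ℝ)
      (μ : ℝ × ℝ → ℝ), Law213 G → Mom G m → IsTC1 G μ → SmoothNorm μ →
        ∀ C0 : ℝ, 0 < C0 → μ (1, 0) * C0 < μ (C0, 1) →
          ∀ᵐ t ∂(iidLaw G), ∀ v, IsBigeodesic t v → ProperUp C0 v → False)
    (G : Measure ℝ) [IsProbabilityMeasure G] [NullSingletonClass G] (hG : G (Set.Iio 0) = 0)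
    (hmom : ∫⁻ x, ENNReal.ofReal ((⨅ i, x i) ^ 2) ∂(Measure.pi fun _ : Fin 4 => G) < ⊤) :
    iidLaw G {t | ∃ v : ℤ → ℤ × ℤ, IsBigeodesic t v} = 0 := by
  have hL : Law213 G := ⟨hG, hmom⟩
  obtain ⟨m, μ, hM, hμ, -⟩ := K.law213_all hL
  have hdiff : ∀ v : ℝ × ℝ, v ≠ 0 → DifferentiableAt ℝ μ v := fun v hv =>
    X.differentiable_of_ub hL hμ (hub G) v hv
  have hS := smoothNorm hM hμ hdiff
  exact no_bigeodesic hL hM hμ hS (hbar G m μ hL hM hμ hS) (hup G m μ hL hM hμ hS)

end Crest.Agent.R151.Z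
end

-- ▼ part R151/T821a
section

/-!
# R151, block DIR (helper821), part a: sectors at infinity (deterministic planarity)

Four barrier curves from one vertex, one in each open quadrant (inside a cone).  A walk between two
different strict axis regions, both far away, meets one of the barriers.
-/

set_option autoImplicit false

open Crest.ProbabilityR.FirstPassage

namespace Crest.Agent.R151.T821

open Crest.Agent.R151.Pl

/-- cone inside the open quadrant with signs `e1, e2` -/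
def Quad (e1 e2 : ℤ) (s : ℝ) (x : Pt) : Prop :=
  0 < e1 * x.1 ∧ 0 < e2 * x.2 ∧ s * |(x.1 : ℝ)| ≤ |(x.2 : ℝ)| ∧ s * |(x.2 : ℝ)| ≤ |(x.1 : ℝ)|




variable {s : ℝ}





/-- a curve eventually in a quadrant cone which leaves every finite set -/
structure Barrier (e1 e2 : ℤ) (s : ℝ) (γ : ℕ → Pt) : Prop where
  adj : ∀ k, squareLattice.Adj (γ k) (γ (k + 1))
  quad : ∃ k0, ∀ k, k0 ≤ k → Quad e1 e2 s (γ k)
  far : ∀ B : ℤ, ∃ k, B < |(γ k).1| ∧ B < |(γ k).2| ∧ Quad e1 e2 s (γ k)



section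

variable {γ γ' : ℕ → Pt}



end

end Crest.Agent.R151.T821
namespace Crest.Agent.R151.T821.Reg
end Crest.Agent.R151.T821.Reg
end

-- ▼ part R151/T821c
section

/-!
# R151, block DIR (helper821), part c: the norm `μ` (pure real analysis)

`μ` norm-like, symmetric under the symmetries of the square, differentiable off the origin.
-/

set_option autoImplicit false

open Filter Topology Set

namespace Crest.Agent.R151.T821

open Crest.Agent.R151.B710

/-- a symmetric norm which is differentiable off the origin -/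
structure MuD (μ : ℝ × ℝ → ℝ) : Prop where
  norm : NormLike μ
  swap : ∀ v : ℝ × ℝ, μ (v.2, v.1) = μ v
  refl : ∀ v : ℝ × ℝ, μ (v.1, -v.2) = μ v
  diff : ∀ v : ℝ × ℝ, v ≠ 0 → DifferentiableAt ℝ μ v

namespace MuD

variable {μ : ℝ × ℝ → ℝ} (h : MuD μ)
include h

theorem refl1 (v : ℝ × ℝ) : μ (-v.1, v.2) = μ v := by
  have h1 := h.norm.neg (v.1, -v.2)
  rw [h.refl] at h1
  simpa using h1

theorem sw (a b : ℝ) : μ (b, a) = μ (a, b) := h.swap (a, b)
theorem r2 (a b : ℝ) : μ (a, -b) = μ (a, b) := h.refl (a, b)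
theorem r1 (a b : ℝ) : μ (-a, b) = μ (a, b) := h.refl1 (a, b)






theorem pos11 : 0 < μ (1, 1) := h.norm.pos (by simp)

/-- the diagonal functional supports `μ` -/
theorem diag_le (a b : ℝ) : μ (1, 1) / 2 * (a + b) ≤ μ (a, b) := by
  have h1 := h.norm.add (a, b) (b, a)
  rw [h.sw a b] at h1
  rcases le_or_gt 0 (a + b) with hab | hab
  · have h2 : ((a, b) : ℝ × ℝ) + (b, a) = (a + b) • ((1 : ℝ), (1 : ℝ)) := by
      ext <;> simp [add_comm]
    rw [h2, h.norm.smul _ _ hab] at h1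
    linarith
  · have := h.norm.nonneg (a, b)
    have := h.pos11
    nlinarith

/-- a continuous linear functional below `μ` touching it at `v ≠ 0` is the derivative -/
theorem fderiv_eq {v : ℝ × ℝ} (hv : v ≠ 0) (L : ℝ × ℝ →L[ℝ] ℝ) (hL : ∀ w, L w ≤ μ w)
    (hLv : L v = μ v) : fderiv ℝ μ v = L := by
  have h1 : IsLocalMin (fun w => μ w - L w) v := by
    refine Filter.Eventually.of_forall fun w => ?_
    simp only [hLv, sub_self]
    have := hL w
    linarith
  have h2 := h1.fderiv_eq_zero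
  have hd := h.diff v hv
  have h3 : fderiv ℝ (fun w => μ w - L w) v = fderiv ℝ μ v - L := by
    have := (hd.hasFDerivAt.sub L.hasFDerivAt).fderiv
    exact this
  rw [h3] at h2
  exact sub_eq_zero.1 h2

/-- linear functional with given coefficients -/
noncomputable def _root_.Crest.Agent.R151.T821.lf (p q : ℝ) : ℝ × ℝ →L[ℝ] ℝ :=
  p • ContinuousLinearMap.fst ℝ ℝ ℝ + q • ContinuousLinearMap.snd ℝ ℝ ℝ

omit h in
theorem _root_.Crest.Agent.R151.T821.lf_apply (p q : ℝ) (v : ℝ × ℝ) :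
    lf p q v = p * v.1 + q * v.2 := by
  simp [lf]



end MuD

/-- the chosen slope and its properties -/
structure Slope (μ : ℝ × ℝ → ℝ) (s : ℝ) : Prop where
  pos : 0 < s
  lt_one : s < 1
  axis : μ (1, 0) < μ (1, s)
  diag : μ (1, 1) / 2 * (1 + s) < μ (1, s)

namespace MuD

variable {μ : ℝ × ℝ → ℝ} (h : MuD μ)
include h


variable {s : ℝ} (hs : Slope μ s)
include hs





omit hs in
/-- contact at the diagonal, uniform form of the differentiability -/
theorem exists_A {η : ℝ} (hη : 0 < η) : ∃ A : ℝ, 0 < A ∧ ∀ (a b σ : ℝ), 0 ≤ σ →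
    A * (|a| + |b|) ≤ σ →
    μ (a + σ, b + σ) - σ * μ (1, 1) ≤ μ (1, 1) / 2 * (a + b) + η * (|a| + |b|) := by
  have hv : ((1, 1) : ℝ × ℝ) ≠ 0 := by simp
  have hd := (h.diff _ hv).hasFDerivAt
  have e2 := h.fderiv_eq hv (lf (μ (1, 1) / 2) (μ (1, 1) / 2)) (fun w => by
    rw [lf_apply]
    have := h.diag_le w.1 w.2
    linarith) (by
    rw [lf_apply]
    simp only
    linarith)
  rw [e2] at hd
  rw [hasFDerivAt_iff_isLittleO_nhds_zero] at hd
  have h1 := hd.def (show (0 : ℝ) < η by exact hη)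
  rw [Metric.eventually_nhds_iff] at h1
  obtain ⟨δ, hδ, h1⟩ := h1
  refine ⟨2 / δ, by positivity, fun a b σ hσ hA => ?_⟩
  have hab : 0 ≤ |a| + |b| := by positivity
  rcases eq_or_lt_of_le hσ with h0 | h0
  · rw [← h0] at hA ⊢
    have h2 : |a| + |b| = 0 := by
      by_contra hne
      have : 0 < |a| + |b| := lt_of_le_of_ne hab (Ne.symm hne)
      have : 0 < 2 / δ * (|a| + |b|) := by positivity
      linarith
    have ha : a = 0 := abs_eq_zero.1 (by linarith [abs_nonneg a, abs_nonneg b])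
    have hb : b = 0 := abs_eq_zero.1 (by linarith [abs_nonneg a, abs_nonneg b])
    rw [ha, hb]
    have : μ (0 + 0, 0 + 0) = 0 := by
      rw [add_zero]
      exact h.norm.zero
    rw [this]
    simp
  · have h2 := h1 (y := ((a / σ, b / σ) : ℝ × ℝ)) (by
      rw [dist_zero_right, Prod.norm_def, Real.norm_eq_abs, Real.norm_eq_abs, abs_div, abs_div,
        abs_of_pos h0]
      rw [div_mul_eq_mul_div, div_le_iff₀ hδ] at hA
      have e1 : |a| / σ < δ := by
        rw [div_lt_iff₀ h0]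
        have := abs_nonneg b
        rcases eq_or_lt_of_le (abs_nonneg a) with hh | hh
        · rw [← hh]; positivity
        · nlinarith
      have e2 : |b| / σ < δ := by
        rw [div_lt_iff₀ h0]
        have := abs_nonneg a
        rcases eq_or_lt_of_le (abs_nonneg b) with hh | hh
        · rw [← hh]; positivity
        · nlinarith
      exact max_lt e1 e2)
    rw [lf_apply, Prod.norm_def, Real.norm_eq_abs, Real.norm_eq_abs, Real.norm_eq_abs] at h2
    simp only at h2
    have h3 := le_of_abs_le h2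
    have h4 : max |a / σ| |b / σ| ≤ (|a| + |b|) / σ := by
      rw [abs_div, abs_div, abs_of_pos h0, add_div]
      have := div_nonneg (abs_nonneg a) h0.le
      have := div_nonneg (abs_nonneg b) h0.le
      exact max_le (by linarith) (by linarith)
    have h5 : μ (a + σ, b + σ) = σ * μ ((1, 1) + (a / σ, b / σ)) := by
      rw [← h.norm.smul _ _ h0.le]
      congr 1
      ext
      · simp only [Prod.smul_fst, Prod.fst_add, smul_eq_mul]; field_simp; ring
      · simp only [Prod.smul_snd, Prod.snd_add, smul_eq_mul]; field_simp; ring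
    rw [h5]
    have h6 : μ ((1, 1) + (a / σ, b / σ)) ≤ μ (1, 1) + μ (1, 1) / 2 * (a / σ + b / σ)
        + η * ((|a| + |b|) / σ) := by
      have := mul_le_mul_of_nonneg_left h4 hη.le
      linarith
    have h7 := mul_le_mul_of_nonneg_left h6 h0.le
    have h8 : σ * (μ (1, 1) + μ (1, 1) / 2 * (a / σ + b / σ) + η * ((|a| + |b|) / σ))
        = σ * μ (1, 1) + μ (1, 1) / 2 * (a + b) + η * (|a| + |b|) := by
      field_simp
    linarith





end MuD

end Crest.Agent.R151.T821
end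

-- ▼ part R151/T821d
section

/-!
# R151, block DIR (helper821), part d: most targets have small backward defects

One line segment `0, y0, 2 y0, ..`, the target `k y0`; the defects
`d j = T(j y0,(j+1) y0) + T((j+1) y0,k y0) - T(j y0,k y0) ≥ 0` have a small mean and a one-sided
maximal inequality controls all backward sums at once.
-/

set_option autoImplicit false

open MeasureTheory ProbabilityTheory Filter Topology
open Crest.ProbabilityR.FirstPassage
open scoped Classical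

namespace Crest.Agent.R151.T821

/-- bad indices: some backward average exceeds `lam` -/
def BadIdx (d : ℕ → ℝ) (lam : ℝ) (j : ℕ) : Prop :=
  ∃ m, 1 ≤ m ∧ m ≤ j ∧ lam * m < ∑ i ∈ Finset.Ico (j - m) j, d i

/-- one-sided maximal inequality -/
theorem hardy_littlewood {d : ℕ → ℝ} (hd : ∀ i, 0 ≤ d i) {lam : ℝ} (hlam : 0 < lam) (J : ℕ) :
    lam * ((Finset.Icc 1 J).filter (BadIdx d lam)).card ≤ ∑ i ∈ Finset.range J, d i := by
  induction J using Nat.strong_induction_on with
  | _ J ih =>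
    rcases Nat.eq_zero_or_pos J with rfl | hJ
    · simp
    by_cases hb : BadIdx d lam J
    · obtain ⟨m, h1, h2, h3⟩ := hb
      have h4 := ih (J - m) (by omega)
      have h5 : ((Finset.Icc 1 J).filter (BadIdx d lam)).card
          ≤ ((Finset.Icc 1 (J - m)).filter (BadIdx d lam)).card + m := by
        have hsub : (Finset.Icc 1 J).filter (BadIdx d lam) ⊆
            (Finset.Icc 1 (J - m)).filter (BadIdx d lam) ∪ Finset.Ioc (J - m) J := by
          intro j hj
          rw [Finset.mem_filter, Finset.mem_Icc] at hj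
          rw [Finset.mem_union, Finset.mem_filter, Finset.mem_Icc, Finset.mem_Ioc]
          rcases le_or_gt j (J - m) with h | h
          · exact Or.inl ⟨⟨hj.1.1, h⟩, hj.2⟩
          · exact Or.inr ⟨h, hj.1.2⟩
        refine (Finset.card_le_card hsub).trans ((Finset.card_union_le _ _).trans ?_)
        rw [Nat.card_Ioc]
        omega
      have h6 : ∑ i ∈ Finset.range J, d i
          = ∑ i ∈ Finset.range (J - m), d i + ∑ i ∈ Finset.Ico (J - m) J, d i := by
        rw [Finset.range_eq_Ico, Finset.range_eq_Ico,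
          Finset.sum_Ico_consecutive _ (Nat.zero_le _) (Nat.sub_le _ _)]
      rw [h6]
      have h7 : (((Finset.Icc 1 J).filter (BadIdx d lam)).card : ℝ)
          ≤ ((Finset.Icc 1 (J - m)).filter (BadIdx d lam)).card + m := by exact_mod_cast h5
      nlinarith
    · have h4 := ih (J - 1) (by omega)
      have h5 : (Finset.Icc 1 J).filter (BadIdx d lam)
          = (Finset.Icc 1 (J - 1)).filter (BadIdx d lam) := by
        ext j
        simp only [Finset.mem_filter, Finset.mem_Icc]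
        constructor
        · rintro ⟨⟨a, b⟩, c⟩
          refine ⟨⟨a, ?_⟩, c⟩
          rcases Nat.lt_or_ge j J with h | h
          · omega
          · have : j = J := by omega
            rw [this] at c
            exact absurd c hb
        · rintro ⟨⟨a, b⟩, c⟩
          exact ⟨⟨a, by omega⟩, c⟩
      rw [h5]
      refine h4.trans (Finset.sum_le_sum_of_subset_of_nonneg ?_ fun i _ _ => hd i)
      exact Finset.range_mono (Nat.sub_le _ _)

/-- increments over `J` steps are often at least the mean slope -/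
theorem exists_incr {a : ℕ → ℝ} {c δ : ℝ} (ha : Tendsto (fun k : ℕ => a k / k) atTop (𝓝 c))
    (hδ : 0 < δ) {J : ℕ} (hJ : 1 ≤ J) (N : ℕ) :
    ∃ k, N + J ≤ k ∧ J * (c - δ) ≤ a k - a (k - J) := by
  by_contra hcon
  push Not at hcon
  have h1 : ∀ m : ℕ, a (N + m * J) ≤ a N + m * J * (c - δ) := by
    intro m
    induction m with
    | zero => simp
    | succ m ih =>
      have := hcon (N + (m + 1) * J) (by nlinarith)
      have e : N + (m + 1) * J - J = N + m * J := by
        have : (m + 1) * J = m * J + J := by ring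
        omega
      rw [e] at this
      push_cast
      nlinarith
  have h2 : Tendsto (fun m : ℕ => N + m * J) atTop atTop := by
    refine tendsto_atTop_mono (fun m => ?_) tendsto_id
    simp only [id]
    nlinarith
  have h3 := ha.comp h2
  have h4 : Tendsto (fun m : ℕ => ((c - δ) + (a N - N * (c - δ)) / ((N + m * J : ℕ) : ℝ))) atTop
      (𝓝 ((c - δ) + 0)) := by
    refine tendsto_const_nhds.add ?_
    exact tendsto_const_nhds.div_atTop (tendsto_natCast_atTop_atTop.comp h2)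
  have h5 := le_of_tendsto_of_tendsto h3 h4 (by
    filter_upwards [eventually_ge_atTop 1] with m hm
    have hpos : (0 : ℝ) < ((N + m * J : ℕ) : ℝ) := by
      have : 0 < N + m * J := by nlinarith
      exact_mod_cast this
    simp only [Function.comp]
    rw [div_le_iff₀ hpos, add_mul, div_mul_cancel₀ _ hpos.ne']
    have := h1 m
    push_cast
    nlinarith)
  linarith

section target

variable {G : Measure ℝ} [IsProbabilityMeasure G]

/-- small backward defects at the origin up to `R` steps, target `z` -/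
def Ev (y0 : ℤ × ℤ) (lam : ℝ) (R : ℕ) (z : ℤ × ℤ) : Set Environment :=
  {t | ∀ m : ℕ, 1 ≤ m → m ≤ R →
    passageTime t (-((m : ℤ) • y0)) 0 + passageTime t 0 z
      - passageTime t (-((m : ℤ) • y0)) z ≤ lam * m}

theorem measurableSet_Ev (y0 : ℤ × ℤ) (lam : ℝ) (R : ℕ) (z : ℤ × ℤ) :
    MeasurableSet (Ev y0 lam R z) := by
  unfold Ev
  simp only [Set.ofPred_forall]
  refine MeasurableSet.iInter fun m => MeasurableSet.iInter fun _ => MeasurableSet.iInter fun _ => ?_
  exact measurableSet_le (((K.measurable_pt _ _).add (K.measurable_pt _ _)).sub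
    (K.measurable_pt _ _)) measurable_const


/-- the defect -/
noncomputable def dfc (y0 z : ℤ × ℤ) (t : Environment) (j : ℕ) : ℝ :=
  passageTime t ((j : ℤ) • y0) (((j : ℤ) + 1) • y0) + passageTime t (((j : ℤ) + 1) • y0) z
    - passageTime t ((j : ℤ) • y0) z

theorem dfc_nonneg {t : Environment} (ht : K.Nn t) (y0 z : ℤ × ℤ) (j : ℕ) : 0 ≤ dfc y0 z t j := by
  have := K.pt_triangle ht ((j : ℤ) • y0) (((j : ℤ) + 1) • y0) z
  unfold dfc
  linarith

theorem measurable_dfc (y0 z : ℤ × ℤ) (j : ℕ) : Measurable fun t => dfc y0 z t j :=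
  ((K.measurable_pt _ _).add (K.measurable_pt _ _)).sub (K.measurable_pt _ _)

/-- backward sums of defects dominate the defect of the long step -/
theorem le_sum_dfc {t : Environment} (ht : K.Nn t) (y0 z : ℤ × ℤ) {m j : ℕ} (hm : m ≤ j) :
    passageTime t (((j - m : ℕ) : ℤ) • y0) ((j : ℤ) • y0) + passageTime t ((j : ℤ) • y0) z
      - passageTime t (((j - m : ℕ) : ℤ) • y0) z ≤ ∑ i ∈ Finset.Ico (j - m) j, dfc y0 z t i := by
  obtain ⟨a, rfl⟩ := Nat.exists_eq_add_of_le hm
  rw [Nat.add_sub_cancel_left]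
  clear hm
  induction m with
  | zero =>
    simp only [zero_add, Finset.Ico_self, Finset.sum_empty]
    rw [K.pt_self ht]
    linarith
  | succ m ih =>
    have e : m + 1 + a = (m + a) + 1 := by omega
    rw [e, Finset.sum_Ico_succ_top (by omega)]
    have h1 := K.pt_triangle ht ((a : ℤ) • y0) (((m + a : ℕ) : ℤ) • y0)
      ((((m + a : ℕ) : ℤ) + 1) • y0)
    have h2 : (((m + a + 1 : ℕ) : ℤ)) = ((m + a : ℕ) : ℤ) + 1 := by push_cast; ring
    rw [h2]
    unfold dfc at ih ⊢
    linarith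

theorem measurableSet_bad (y0 z : ℤ × ℤ) (lam : ℝ) (j : ℕ) :
    MeasurableSet {t | BadIdx (dfc y0 z t) lam j} := by
  unfold BadIdx
  simp only [Set.ofPred_exists, Set.ofPred_and]
  refine MeasurableSet.iUnion fun m => (MeasurableSet.const _).inter ((MeasurableSet.const _).inter ?_)
  exact measurableSet_lt measurable_const (Finset.measurable_sum _ fun i _ => measurable_dfc y0 z i)

/-- MAIN ESTIMATE of the mean argument -/
theorem good_target (h0 : G (Set.Iio 0) = 0)
    (hint : ∀ x y, Integrable (fun t => passageTime t x y) (iidLaw G))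
    {y0 : ℤ × ℤ} {c δ lam : ℝ}
    (hlim : Tendsto (fun k : ℕ => K.ET G ((k : ℤ) • y0) / k) atTop (𝓝 c))
    (h1 : K.ET G y0 ≤ c + δ) (hδ : 0 < δ) (hlam : 0 < lam) {R : ℕ} (hR : 1 ≤ R) (N : ℕ) :
    ∃ k : ℕ, N ≤ k ∧ 1 - 4 * δ / lam ≤ (iidLaw G).real (Ev y0 lam R ((k : ℤ) • y0)) := by
  obtain ⟨k, hk, hk'⟩ := exists_incr hlim hδ (J := 2 * R) (by omega) (N + 2 * R)
  obtain ⟨J, hJ⟩ : ∃ J, J = 2 * R := ⟨_, rfl⟩
  rw [← hJ] at hk hk'
  obtain ⟨z, hz⟩ : ∃ z : ℤ × ℤ, z = (k : ℤ) • y0 := ⟨_, rfl⟩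
  have hNn := K.ae_Nn (G := G) h0
  -- mean of the defects
  have hmean : ∑ j ∈ Finset.range J, ∫ t, dfc y0 z t j ∂(iidLaw G) ≤ 2 * J * δ := by
    have e : ∀ j : ℕ, ∫ t, dfc y0 z t j ∂(iidLaw G)
        = K.ET G y0 + K.ET G ((((k : ℤ) - (j : ℤ)) - 1) • y0) - K.ET G (((k : ℤ) - (j : ℤ)) • y0) := by
      intro j
      unfold dfc
      have i1 : Integrable (fun t : Environment =>
          passageTime t ((j : ℤ) • y0) (((j : ℤ) + 1) • y0)
            + passageTime t (((j : ℤ) + 1) • y0) z) (iidLaw G) := (hint _ _).add (hint _ _)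
      rw [integral_sub i1 (hint _ _), integral_add (hint _ _) (hint _ _),
        K.integral_pt, K.integral_pt, K.integral_pt, hz]
      congr 2
      · congr 1
        rw [← sub_smul]
        simp
      · congr 1
        rw [← sub_smul]
        ring_nf
      · rw [← sub_smul]
    have key : ∀ n : ℕ, n ≤ k → ∑ j ∈ Finset.range n, ∫ t, dfc y0 z t j ∂(iidLaw G)
        = n * K.ET G y0 + K.ET G (((k - n : ℕ) : ℤ) • y0) - K.ET G ((k : ℤ) • y0) := by
      intro n hn
      induction n with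
      | zero => simp
      | succ n ih =>
        rw [Finset.sum_range_succ, ih (by omega), e n]
        have e1 : ((k - (n + 1) : ℕ) : ℤ) = (k : ℤ) - n - 1 := by omega
        have e2 : ((k - n : ℕ) : ℤ) = (k : ℤ) - n := by omega
        rw [e1, e2]
        push_cast
        ring
    rw [key J (by omega)]
    have hJ0 : (0 : ℝ) ≤ J := Nat.cast_nonneg _
    nlinarith
  -- expected number of bad indices
  have hcard : ∑ j ∈ Finset.Icc 1 J, (iidLaw G).real {t | BadIdx (dfc y0 z t) lam j}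
      ≤ 2 * J * δ / lam := by
    have e1 : ∑ j ∈ Finset.Icc 1 J, (iidLaw G).real {t | BadIdx (dfc y0 z t) lam j}
        = ∫ t, (((Finset.Icc 1 J).filter (BadIdx (dfc y0 z t) lam)).card : ℝ) ∂(iidLaw G) := by
      have e2 : ∀ t, (((Finset.Icc 1 J).filter (BadIdx (dfc y0 z t) lam)).card : ℝ)
          = ∑ j ∈ Finset.Icc 1 J, ({t | BadIdx (dfc y0 z t) lam j}.indicator (fun _ => (1 : ℝ)) t) := by
        intro t
        rw [Finset.card_filter]
        push_cast
        refine Finset.sum_congr rfl fun j _ => ?_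
        simp [Set.indicator_apply]
      simp_rw [e2]
      rw [integral_finsetSum _ fun j _ => (integrable_const (1 : ℝ)).indicator
        (measurableSet_bad y0 z lam j)]
      refine Finset.sum_congr rfl fun j _ => ?_
      rw [integral_indicator_const _ (measurableSet_bad y0 z lam j)]
      simp
    rw [e1, le_div_iff₀ hlam]
    have e3 : (∫ t, (((Finset.Icc 1 J).filter (BadIdx (dfc y0 z t) lam)).card : ℝ) ∂(iidLaw G)) * lam
        = ∫ t, lam * (((Finset.Icc 1 J).filter (BadIdx (dfc y0 z t) lam)).card : ℝ) ∂(iidLaw G) := by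
      rw [integral_const_mul]
      ring
    rw [e3]
    have hdint : ∀ j, Integrable (fun t => dfc y0 z t j) (iidLaw G) := fun j =>
      ((hint _ _).add (hint _ _)).sub (hint _ _)
    have e4 : ∫ t, lam * (((Finset.Icc 1 J).filter (BadIdx (dfc y0 z t) lam)).card : ℝ) ∂(iidLaw G)
        ≤ ∫ t, ∑ j ∈ Finset.range J, dfc y0 z t j ∂(iidLaw G) := by
      refine integral_mono_of_nonneg (Eventually.of_forall fun t => by positivity)
        (integrable_finsetSum _ fun j _ => hdint j) ?_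
      filter_upwards [hNn] with t ht
      exact hardy_littlewood (fun j => dfc_nonneg ht y0 z j) hlam J
    rw [integral_finsetSum _ fun j _ => hdint j] at e4
    exact e4.trans hmean
  -- choose an index in the second half
  obtain ⟨j, hj, hjb⟩ : ∃ j ∈ Finset.Icc (R + 1) J,
      (iidLaw G).real {t | BadIdx (dfc y0 z t) lam j} ≤ 4 * δ / lam := by
    by_contra hcon
    push Not at hcon
    have h2 : ∑ j ∈ Finset.Icc (R + 1) J, (4 * δ / lam)
        < ∑ j ∈ Finset.Icc (R + 1) J, (iidLaw G).real {t | BadIdx (dfc y0 z t) lam j} := by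
      refine Finset.sum_lt_sum_of_nonempty ⟨R + 1, ?_⟩ hcon
      rw [Finset.mem_Icc]
      omega
    have h3 : ∑ j ∈ Finset.Icc (R + 1) J, (iidLaw G).real {t | BadIdx (dfc y0 z t) lam j}
        ≤ ∑ j ∈ Finset.Icc 1 J, (iidLaw G).real {t | BadIdx (dfc y0 z t) lam j} := by
      refine Finset.sum_le_sum_of_subset_of_nonneg ?_ fun _ _ _ => measureReal_nonneg
      exact Finset.Icc_subset_Icc (by omega) le_rfl
    rw [Finset.sum_const, Nat.card_Icc, nsmul_eq_mul] at h2
    have h4 : ((J + 1 - (R + 1) : ℕ) : ℝ) = R := by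
      have : J + 1 - (R + 1) = R := by omega
      rw [this]
    rw [h4] at h2
    have h5 : 2 * (J : ℝ) * δ / lam = R * (4 * δ / lam) := by
      rw [hJ]
      push_cast
      ring
    linarith
  rw [Finset.mem_Icc] at hj
  refine ⟨k - j, by omega, ?_⟩
  -- shift
  have hsub : {t | BadIdx (dfc y0 z t) lam j}ᶜ ∩ {t | K.Nn t} ⊆
      A.shift ((j : ℤ) • y0) ⁻¹' (Ev y0 lam R (((k - j : ℕ) : ℤ) • y0)) := by
    rintro t ⟨ht1, ht2⟩ m hm1 hm2
    have hb : ¬ BadIdx (dfc y0 z t) lam j := ht1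
    unfold BadIdx at hb
    push Not at hb
    have h3 := hb m hm1 (by omega)
    have h4 := le_sum_dfc (show K.Nn t from ht2) y0 z (m := m) (j := j) (by omega)
    rw [A.pt_shift, A.pt_shift, A.pt_shift]
    have e1 : -((m : ℤ) • y0) + (j : ℤ) • y0 = ((j - m : ℕ) : ℤ) • y0 := by
      rw [← neg_smul, ← add_smul]
      congr 1
      omega
    have e2 : ((k - j : ℕ) : ℤ) • y0 + (j : ℤ) • y0 = z := by
      rw [hz, ← add_smul]
      congr 1
      omega
    rw [e1, e2, zero_add]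
    exact h4.trans h3
  have hp : (iidLaw G).real (A.shift ((j : ℤ) • y0) ⁻¹' (Ev y0 lam R (((k - j : ℕ) : ℤ) • y0)))
      = (iidLaw G).real (Ev y0 lam R (((k - j : ℕ) : ℤ) • y0)) :=
    (A.mp_shift G _).measureReal_preimage (measurableSet_Ev _ _ _ _).nullMeasurableSet
  rw [← hp]
  have h6 : 1 - 4 * δ / lam ≤ (iidLaw G).real ({t | BadIdx (dfc y0 z t) lam j}ᶜ) := by
    rw [probReal_compl_eq_one_sub (measurableSet_bad y0 z lam j)]
    linarith
  refine h6.trans ?_
  refine ENNReal.toReal_mono (measure_ne_top _ _) (measure_mono_ae ?_)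
  filter_upwards [hNn] with t ht htb
  exact hsub ⟨htb, ht⟩

end target

end Crest.Agent.R151.T821
end

-- ▼ part R151/T821e
section

/-!
# R151, block DIR (helper821), part e: directions of geodesics towards a far diagonal point
-/

set_option autoImplicit false

open MeasureTheory ProbabilityTheory Filter Topology
open Crest.ProbabilityR.FirstPassage

namespace Crest.Agent.R151.T821

open Crest.Agent.R151.K (toR n1 box dev)

/-- the inputs: shape theorem in mean and almost surely (both end points) -/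
structure ShapeIn (G : Measure ℝ) (μ : ℝ × ℝ → ℝ) : Prop where
  h0 : G (Set.Iio 0) = 0
  int : ∀ x y, Integrable (fun t => passageTime t x y) (iidLaw G)
  mean : ∀ w : ℤ × ℤ, Tendsto (fun k : ℕ => K.ET G ((k : ℤ) • w) / k) atTop (𝓝 (μ (toR w)))
  sh2 : ∀ ε : ℝ, 0 < ε → ∀ᵐ t ∂(iidLaw G), ∀ᶠ n : ℕ in atTop, dev μ n t ≤ ε * n

/-- the diagonal lattice vector with signs -/
def dg (e1 e2 : ℤ) : ℤ × ℤ := (e1, e2)

/-- sign pairs -/
def IsSgn (e : ℤ) : Prop := e = 1 ∨ e = -1

theorem MuD.sgn {μ : ℝ × ℝ → ℝ} (h : MuD μ) {e1 e2 : ℤ} (h1 : IsSgn e1) (h2 : IsSgn e2)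
    (a b : ℝ) : μ ((e1 : ℝ) * a, (e2 : ℝ) * b) = μ (a, b) := by
  rcases h1 with rfl | rfl <;> rcases h2 with rfl | rfl <;>
    simp only [Int.cast_one, Int.cast_neg, one_mul, neg_mul]
  · rw [h.r2]
  · rw [h.r1]
  · rw [h.r1, h.r2]

/-- deviation from the diagonal functional -/
noncomputable def ex (μ : ℝ × ℝ → ℝ) (e1 e2 : ℤ) (y : ℤ × ℤ) : ℝ :=
  μ (toR y) - μ (1, 1) / 2 * ((e1 : ℝ) * y.1 + (e2 : ℝ) * y.2)

section det

variable {μ : ℝ × ℝ → ℝ} {t : Environment}

theorem mem_box_of_n1 {n : ℕ} {x : ℤ × ℤ} (h : n1 x ≤ n) : x ∈ box n := by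
  rw [K.mem_box]
  simp only [n1] at h
  omega

theorem n1_smul_dg {e1 e2 : ℤ} (h1 : IsSgn e1) (h2 : IsSgn e2) (m : ℕ) :
    n1 ((m : ℤ) • dg e1 e2) = 2 * m := by
  rcases h1 with rfl | rfl <;> rcases h2 with rfl | rfl <;> simp [n1, dg] <;> omega

theorem smul_dg_mem_box {e1 e2 : ℤ} (h1 : IsSgn e1) (h2 : IsSgn e2) {m n : ℕ} (h : m ≤ n) :
    -((m : ℤ) • dg e1 e2) ∈ box n := by
  rw [K.mem_box]
  rcases h1 with rfl | rfl <;> rcases h2 with rfl | rfl <;> simp [dg] <;> omega

/-- deterministic step: small backward defects and the shape estimate give the direction -/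
theorem ex_le_of_Ev (hμ : MuD μ) {e1 e2 : ℤ} (h1 : IsSgn e1) (h2 : IsSgn e2) {η A ε lam : ℝ}
    (hη : 0 < η) (hA0 : 0 < A)
    (hA : ∀ (a b σ : ℝ), 0 ≤ σ → A * (|a| + |b|) ≤ σ →
      μ (a + σ, b + σ) - σ * μ (1, 1) ≤ μ (1, 1) / 2 * (a + b) + η / 4 * (|a| + |b|))
    (hε0 : 0 < ε) (hε : 12 * (ε * (A + 2)) ≤ η) (hlam0 : 0 < lam) (hlam : 4 * (lam * (A + 1)) ≤ η)
    {L : ℕ} (hL : 1 ≤ L) {N0 R R' : ℕ} (hRR : A * R' + 1 ≤ R) (ht : K.Nn t)
    (hdev : ∀ n, N0 ≤ n → dev μ n t ≤ ε * n) {z : ℤ × ℤ}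
    (hEv : t ∈ Ev ((L : ℤ) • dg e1 e2) (lam * L) R z) {y : ℤ × ℤ} (hy1 : N0 ≤ n1 y)
    (hy2 : L ≤ n1 y) (hy3 : n1 y ≤ R')
    (hon : passageTime t 0 y + passageTime t y z = passageTime t 0 z) :
    ex μ e1 e2 y ≤ η * n1 y := by
  obtain ⟨n, hn⟩ : ∃ n, n = n1 y := ⟨_, rfl⟩
  rw [← hn] at hy1 hy2 hy3 ⊢
  have hL0 : (0 : ℝ) < L := by exact_mod_cast hL
  have hn0 : (1 : ℝ) ≤ n := by exact_mod_cast hL.trans hy2
  have hnL : (L : ℝ) ≤ n := by exact_mod_cast hy2
  have hL1 : (1 : ℝ) ≤ L := by exact_mod_cast hL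
  obtain ⟨m, hm⟩ : ∃ m : ℕ, m = ⌈A * n / L⌉₊ := ⟨_, rfl⟩
  have hm1 : A * n / L ≤ m := by rw [hm]; exact Nat.le_ceil _
  have hm2 : (m : ℝ) < A * n / L + 1 := by rw [hm]; exact Nat.ceil_lt_add_one (by positivity)
  have hm0 : 1 ≤ m := by
    rw [hm]
    exact Nat.one_le_iff_ne_zero.2 (Nat.ceil_pos.2 (by positivity)).ne'
  have hmL1 : A * n ≤ m * L := by
    rw [div_le_iff₀ hL0] at hm1
    exact hm1
  have hmL2 : (m : ℝ) * L ≤ A * n + L := by
    have := mul_le_mul_of_nonneg_right hm2.le hL0.le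
    rw [add_mul, div_mul_cancel₀ _ hL0.ne'] at this
    linarith
  have hmR : m ≤ R := by
    have h3 : (m : ℝ) ≤ R := by
      have h4 : A * n / L ≤ A * R' := by
        rw [div_le_iff₀ hL0]
        have h5 : (n : ℝ) ≤ R' := by exact_mod_cast hy3
        have h6 : 0 ≤ A * (R' : ℝ) := by positivity
        nlinarith
      linarith
    exact_mod_cast h3
  obtain ⟨n', hn'⟩ : ∃ n' : ℕ, n' = m * L + n := ⟨_, rfl⟩
  have hn'R : (n' : ℝ) ≤ (A + 2) * n := by
    rw [hn']
    push_cast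
    linarith
  have hd := hdev n' (by omega)
  have b0 : (0 : ℤ × ℤ) ∈ box n' := K.zero_mem_box n'
  have by' : y ∈ box n' := mem_box_of_n1 (by omega)
  obtain ⟨x, hx⟩ : ∃ x : ℤ × ℤ, x = -((m : ℤ) • ((L : ℤ) • dg e1 e2)) := ⟨_, rfl⟩
  have hx' : x = -(((m * L : ℕ) : ℤ) • dg e1 e2) := by
    rw [hx, smul_smul]
    push_cast
    rfl
  have bx : x ∈ box n' := by
    rw [hx']
    exact smul_dg_mem_box h1 h2 (by omega)
  have d1 := (K.le_dev μ t b0 by').trans hd
  have d2 := (K.le_dev μ t bx by').trans hd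
  have d3 := (K.le_dev μ t bx b0).trans hd
  rw [abs_le] at d1 d2 d3
  have hE := hEv m hm0 hmR
  rw [← hx] at hE
  have tri := K.pt_triangle ht x y z
  -- values of μ
  have m3 : μ (toR (0 - x)) = (m * L : ℝ) * μ (1, 1) := by
    rw [hx']
    have e : toR (0 - -(((m * L : ℕ) : ℤ) • dg e1 e2))
        = ((e1 : ℝ) * ((m : ℝ) * L), (e2 : ℝ) * ((m : ℝ) * L)) := by
      simp only [toR, dg, zero_sub, neg_neg]
      ext <;> simp [mul_comm]
    rw [e, hμ.sgn h1 h2]
    have : (((m : ℝ) * L, (m : ℝ) * L) : ℝ × ℝ) = ((m : ℝ) * L) • ((1 : ℝ), (1 : ℝ)) := by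
      ext <;> simp
    rw [this, hμ.norm.smul _ _ (by positivity)]
  have e11 : (e1 : ℝ) * e1 = 1 := by rcases h1 with rfl | rfl <;> norm_num
  have e22 : (e2 : ℝ) * e2 = 1 := by rcases h2 with rfl | rfl <;> norm_num
  have ab : |(e1 : ℝ) * y.1| + |(e2 : ℝ) * y.2| = n := by
    rw [hn]
    have a1 : |(e1 : ℝ)| = 1 := by rcases h1 with rfl | rfl <;> norm_num
    have a2 : |(e2 : ℝ)| = 1 := by rcases h2 with rfl | rfl <;> norm_num
    rw [abs_mul, abs_mul, a1, a2, one_mul, one_mul]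
    simp [n1, Nat.cast_natAbs]
  have m2 : μ (toR (y - x)) - (m * L : ℝ) * μ (1, 1) ≤
      μ (1, 1) / 2 * ((e1 : ℝ) * y.1 + (e2 : ℝ) * y.2) + η / 4 * n := by
    have h3 := hA ((e1 : ℝ) * y.1) ((e2 : ℝ) * y.2) (m * L) (by positivity) (by rw [ab]; exact hmL1)
    rw [ab] at h3
    have e : toR (y - x) = ((e1 : ℝ) * ((e1 : ℝ) * y.1 + m * L), (e2 : ℝ) * ((e2 : ℝ) * y.2 + m * L)) := by
      rw [hx']
      simp only [toR, dg]
      ext
      · simp only [Prod.fst_sub, Prod.fst_neg, Prod.smul_fst, smul_eq_mul]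
        push_cast
        linear_combination (-(y.1 : ℝ)) * e11
      · simp only [Prod.snd_sub, Prod.snd_neg, Prod.smul_snd, smul_eq_mul]
        push_cast
        linear_combination (-(y.2 : ℝ)) * e22
    rw [e, hμ.sgn h1 h2]
    exact h3
  have m1 : toR (y - 0) = toR y := by rw [sub_zero]
  rw [m1] at d1
  rw [m3] at d3
  unfold ex
  have s1 : μ (toR y) - μ (1, 1) / 2 * ((e1 : ℝ) * y.1 + (e2 : ℝ) * y.2)
      ≤ η / 4 * n + lam * L * m + 3 * (ε * n') := by linarith
  have s2 : lam * L * m ≤ η / 4 * n := by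
    have h3 : (m : ℝ) * L ≤ (A + 1) * n := by linarith
    have h4 := mul_le_mul_of_nonneg_left h3 hlam0.le
    nlinarith
  have s3 : 3 * (ε * n') ≤ η / 4 * n := by
    have h4 := mul_le_mul_of_nonneg_left hn'R hε0.le
    nlinarith
  have s4 : 0 ≤ η * n := by positivity
  linarith

end det

section prob

variable {G : Measure ℝ} [IsProbabilityMeasure G] {μ : ℝ × ℝ → ℝ}

/-- with probability close to one an almost sure eventual property holds from a fixed index on -/
theorem exists_uniform {p : ℕ → Environment → Prop} (hp : ∀ n, MeasurableSet {t | p n t})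
    (h : ∀ᵐ t ∂(iidLaw G), ∀ᶠ n in atTop, p n t) {κ : ℝ} (hκ : 0 < κ) :
    ∃ N0 : ℕ, 1 - κ ≤ (iidLaw G).real {t | ∀ n, N0 ≤ n → p n t} := by
  have hm : ∀ N : ℕ, MeasurableSet {t | ∀ n, N ≤ n → p n t} := by
    intro N
    simp only [Set.ofPred_forall]
    exact MeasurableSet.iInter fun n => MeasurableSet.iInter fun _ => hp n
  have hmono : Monotone fun N : ℕ => {t | ∀ n, N ≤ n → p n t} := by
    intro N N' hN t ht n hn
    exact ht n (hN.trans hn)
  have h1 := tendsto_measure_iUnion_atTop (μ := iidLaw G) hmono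
  have h2 : iidLaw G (⋃ N : ℕ, {t | ∀ n, N ≤ n → p n t}) = 1 := by
    rw [← (prob_compl_eq_zero_iff (MeasurableSet.iUnion hm))]
    have : ∀ᵐ t ∂(iidLaw G), t ∈ ⋃ N : ℕ, {t | ∀ n, N ≤ n → p n t} := by
      filter_upwards [h] with t ht
      rw [eventually_atTop] at ht
      obtain ⟨N, hN⟩ := ht
      exact Set.mem_iUnion.2 ⟨N, hN⟩
    exact this
  rw [h2] at h1
  have h3 : Tendsto (fun N : ℕ => (iidLaw G).real {t | ∀ n, N ≤ n → p n t}) atTop (𝓝 1) := by
    have := (ENNReal.tendsto_toReal ENNReal.one_ne_top).comp h1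
    rw [ENNReal.toReal_one] at this
    exact this
  obtain ⟨N0, hN0⟩ := (h3.eventually (lt_mem_nhds (show 1 - κ < 1 by linarith))).exists
  exact ⟨N0, hN0.le⟩

/-- DIRECTION CONTROL for geodesics to far points of the diagonal -/
theorem direction_control (hμ : MuD μ) (hS : ShapeIn G μ) {e1 e2 : ℤ} (h1 : IsSgn e1)
    (h2 : IsSgn e2) {η κ : ℝ} (hη : 0 < η) (hκ : 0 < κ) :
    ∃ K0 : ℕ, ∀ R' N : ℕ, ∃ z : ℤ × ℤ, N ≤ n1 z ∧
      1 - κ ≤ (iidLaw G).real {t | ∀ y, K0 ≤ n1 y → n1 y ≤ R' →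
        passageTime t 0 y + passageTime t y z = passageTime t 0 z → ex μ e1 e2 y ≤ η * n1 y} := by
  obtain ⟨A, hA0, hA⟩ := hμ.exists_A (show 0 < η / 4 by positivity)
  obtain ⟨lam, hlam⟩ : ∃ lam, lam = η / (4 * (A + 1)) := ⟨_, rfl⟩
  obtain ⟨ε, hε⟩ : ∃ ε, ε = η / (12 * (A + 2)) := ⟨_, rfl⟩
  have hlam0 : 0 < lam := by rw [hlam]; positivity
  have hε0 : 0 < ε := by rw [hε]; positivity
  have hlam' : 4 * (lam * (A + 1)) ≤ η := by
    rw [hlam]
    apply le_of_eq
    field_simp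
  have hε' : 12 * (ε * (A + 2)) ≤ η := by
    rw [hε]
    apply le_of_eq
    field_simp
  obtain ⟨δ, hδ⟩ : ∃ δ, δ = κ * lam / 8 := ⟨_, rfl⟩
  have hδ0 : 0 < δ := by rw [hδ]; positivity
  -- the step
  have hmean := hS.mean (dg e1 e2)
  obtain ⟨L, hL1, hL2⟩ : ∃ L : ℕ, 1 ≤ L ∧
      K.ET G ((L : ℤ) • dg e1 e2) ≤ L * μ (toR (dg e1 e2)) + L * δ := by
    have h3 := (hmean.eventually (gt_mem_nhds (show μ (toR (dg e1 e2)) < μ (toR (dg e1 e2)) + δ by
      linarith))).and (eventually_ge_atTop 1)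
    obtain ⟨L, h4, h5⟩ := h3.exists
    have hL0 : (0 : ℝ) < L := by exact_mod_cast h5
    refine ⟨L, h5, ?_⟩
    rw [div_lt_iff₀ hL0] at h4
    linarith
  have hL0 : (0 : ℝ) < L := by exact_mod_cast hL1
  obtain ⟨y0, hy0⟩ : ∃ y0 : ℤ × ℤ, y0 = (L : ℤ) • dg e1 e2 := ⟨_, rfl⟩
  have hlim : Tendsto (fun k : ℕ => K.ET G ((k : ℤ) • y0) / k) atTop
      (𝓝 (L * μ (toR (dg e1 e2)))) := by
    have h3 : Tendsto (fun k : ℕ => k * L) atTop atTop :=
      tendsto_atTop_mono (fun k => Nat.le_mul_of_pos_right k hL1) tendsto_id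
    have h4 := (hmean.comp h3).const_mul (L : ℝ)
    refine h4.congr' ?_
    filter_upwards [eventually_ge_atTop 1] with k hk
    have hk0 : (0 : ℝ) < k := by exact_mod_cast hk
    simp only [Function.comp]
    rw [hy0, smul_smul]
    push_cast
    field_simp
  -- uniform shape
  obtain ⟨N0, hN0⟩ := exists_uniform (G := G) (p := fun n t => dev μ n t ≤ ε * n)
    (fun n => measurableSet_le (K.measurable_dev μ n) measurable_const) (hS.sh2 ε hε0)
    (show 0 < κ / 2 by positivity)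
  refine ⟨max N0 L, fun R' N => ?_⟩
  obtain ⟨R, hR1, hR2⟩ : ∃ R : ℕ, 1 ≤ R ∧ A * R' + 1 ≤ R := by
    obtain ⟨R, hR⟩ := exists_nat_ge (A * R' + 1)
    refine ⟨R, ?_, hR⟩
    have : (0 : ℝ) ≤ A * R' := by positivity
    have : (1 : ℝ) ≤ R := by linarith
    exact_mod_cast this
  obtain ⟨k, hk, hkP⟩ := good_target hS.h0 hS.int (y0 := y0) (c := L * μ (toR (dg e1 e2)))
    (δ := L * δ) (lam := lam * L) hlim (by rw [hy0]; exact hL2) (by positivity) (by positivity)
    hR1 N
  refine ⟨(k : ℤ) • y0, ?_, ?_⟩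
  · rw [hy0, smul_smul]
    have := n1_smul_dg h1 h2 (k * L)
    push_cast at this
    rw [this]
    nlinarith
  have hk2 : 1 - κ / 2 ≤ (iidLaw G).real (Ev y0 (lam * L) R ((k : ℤ) • y0)) := by
    have : 4 * (L * δ) / (lam * L) = κ / 2 := by
      rw [hδ]
      field_simp
      ring
    rw [this] at hkP
    exact hkP
  have hmE := measurableSet_Ev y0 (lam * L) R ((k : ℤ) • y0)
  have hmS : MeasurableSet {t : Environment | ∀ n, N0 ≤ n → dev μ n t ≤ ε * n} := by
    simp only [Set.ofPred_forall]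
    exact MeasurableSet.iInter fun n => MeasurableSet.iInter fun _ =>
      measurableSet_le (K.measurable_dev μ n) measurable_const
  have hinter : 1 - κ ≤ (iidLaw G).real (Ev y0 (lam * L) R ((k : ℤ) • y0) ∩
      {t : Environment | ∀ n, N0 ≤ n → dev μ n t ≤ ε * n}) := by
    have e1 := measureReal_union_add_inter (μ := iidLaw G)
      (s := Ev y0 (lam * L) R ((k : ℤ) • y0)) hmS
    have e2 := measureReal_le_one (μ := iidLaw G) (s := Ev y0 (lam * L) R ((k : ℤ) • y0) ∪
      {t : Environment | ∀ n, N0 ≤ n → dev μ n t ≤ ε * n})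
    linarith
  refine hinter.trans ?_
  refine ENNReal.toReal_mono (measure_ne_top _ _) (measure_mono_ae ?_)
  filter_upwards [K.ae_Nn (G := G) hS.h0] with t ht htE y hy1 hy2 hon
  obtain ⟨hE, hD⟩ := htE
  rw [hy0] at hE hon
  exact ex_le_of_Ev hμ h1 h2 hη hA0 hA hε0 hε' hlam0 hlam' hL1 hR2 ht hD hE
    ((le_max_left _ _).trans hy1) ((le_max_right _ _).trans hy1) hy2 hon

end prob

end Crest.Agent.R151.T821
end

-- ▼ part R151/T821f
section

/-!
# R151, block DIR (helper821), part f: barrier rays exist almost surely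
-/

set_option autoImplicit false

open MeasureTheory ProbabilityTheory Filter Topology
open Crest.ProbabilityR.FirstPassage

namespace Crest.Agent.R151.T821

open Crest.Agent.R151
open Crest.Agent.R151.K (toR n1 box dev)
open Crest.Agent.R151.Y (IsRay)

variable {G : Measure ℝ} [IsProbabilityMeasure G] {μ : ℝ × ℝ → ℝ}

/-- almost sure geometric facts about the environment -/
structure GoodEnv (t : Environment) : Prop where
  nn : K.Nn t
  nt : NoTies t
  geo : ∀ x y : ℤ × ℤ, ∃ w : squareLattice.Walk x y, w.IsPath ∧ IsGeo t w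

theorem ae_goodEnv (h0 : G (Set.Iio 0) = 0) (hat : ∀ x, G {x} = 0) :
    ∀ᵐ t ∂(iidLaw G), GoodEnv t := by
  filter_upwards [K.ae_Nn (G := G) h0, ae_noTies (G := G) hat, ae_exists_isGeo (G := G) h0 (hat 0)]
    with t h1 h2 h3
  exact ⟨h1, h2, fun x y => h3 _ le_rfl x y (K.reachable x y)⟩

/-- the direction control event -/
def DirEv (μ : ℝ × ℝ → ℝ) (e1 e2 : ℤ) (η : ℝ) (K0 R' : ℕ) (z : ℤ × ℤ) : Set Environment :=
  {t | ∀ y, K0 ≤ n1 y → n1 y ≤ R' →
    passageTime t 0 y + passageTime t y z = passageTime t 0 z → ex μ e1 e2 y ≤ η * n1 y}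

theorem measurableSet_DirEv (e1 e2 : ℤ) (η : ℝ) (K0 R' : ℕ) (z : ℤ × ℤ) :
    MeasurableSet (DirEv μ e1 e2 η K0 R' z) := by
  unfold DirEv
  simp only [Set.ofPred_forall]
  refine MeasurableSet.iInter fun y => MeasurableSet.iInter fun _ => MeasurableSet.iInter fun _ => ?_
  by_cases h : ex μ e1 e2 y ≤ η * n1 y
  · simp [h]
  · have : {t : Environment | passageTime t 0 y + passageTime t y z = passageTime t 0 z →
        ex μ e1 e2 y ≤ η * n1 y}
        = {t : Environment | passageTime t 0 y + passageTime t y z = passageTime t 0 z}ᶜ := by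
      ext t
      simp [h]
    rw [this]
    exact (measurableSet_eq_fun ((K.measurable_pt _ _).add (K.measurable_pt _ _))
      (K.measurable_pt _ _)).compl

/-- deterministic: infinitely many controlled targets give a controlled ray -/
theorem exists_ray_of_frequently {t : Environment} (ht : GoodEnv t) {e1 e2 : ℤ} {η : ℝ} {K0 : ℕ}
    {z : ℕ → ℤ × ℤ} (hz : ∀ r, r ≤ n1 (z r))
    (hf : ∃ᶠ r in atTop, t ∈ DirEv μ e1 e2 η K0 r (z r)) :
    ∃ v : ℕ → ℤ × ℤ, IsRay t squareLattice v ∧ v 0 = 0 ∧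
      ∀ k, K0 ≤ n1 (v k) → ex μ e1 e2 (v k) ≤ η * n1 (v k) := by
  have hne : (atTop ⊓ 𝓟 {r | t ∈ DirEv μ e1 e2 η K0 r (z r)}).NeBot :=
    Filter.frequently_iff_neBot.1 hf
  obtain ⟨U, hU⟩ : ∃ U : Ultrafilter ℕ, (U : Filter ℕ) ≤
      atTop ⊓ 𝓟 {r | t ∈ DirEv μ e1 e2 η K0 r (z r)} := ⟨Ultrafilter.of _, Ultrafilter.of_le _⟩
  have hU1 : (U : Filter ℕ) ≤ atTop := hU.trans inf_le_left
  have hU2 : ∀ᶠ r in (U : Filter ℕ), t ∈ DirEv μ e1 e2 η K0 r (z r) :=
    (hU.trans inf_le_right) (mem_principal_self _)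
  choose w hwp hw using fun r => ht.geo 0 (z r)
  obtain ⟨v, hv, hv0, hlim⟩ := Y.exists_isRay_of_geo (H := squareLattice)
    (Y.neighborSet_finite le_rfl) ht.nn U w (Eventually.of_forall hw) (fun n => by
      filter_upwards [hU1 (eventually_ge_atTop n)] with r hr
      have h1 := K.n1_le_length (w r)
      rw [sub_zero] at h1
      exact (show n ≤ r from hr).trans ((hz r).trans h1))
  refine ⟨v, hv, hv0, fun k hk => ?_⟩
  obtain ⟨r, ⟨h1, h2⟩, h3⟩ := ((hU2.and (hlim k)).and (hU1 (eventually_ge_atTop (n1 (v k))))).exists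
  refine h1 (v k) hk h3 ?_
  have h4 : v k ∈ (w r).support := by
    rw [← h2 k le_rfl]
    exact (w r).getVert_mem_support k
  have h5 := (hw r).pt_add ht.nn h4
  rw [passageTime_eq_pt, passageTime_eq_pt, passageTime_eq_pt]
  exact h5

/-- controlled rays exist almost surely -/
theorem ae_exists_ray (hμ : MuD μ) (hS : ShapeIn G μ) (hat : ∀ x, G {x} = 0) {e1 e2 : ℤ}
    (h1 : IsSgn e1) (h2 : IsSgn e2) {η : ℝ} (hη : 0 < η) :
    ∀ᵐ t ∂(iidLaw G), ∃ v : ℕ → ℤ × ℤ, IsRay t squareLattice v ∧ v 0 = 0 ∧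
      ∃ K0, ∀ k, K0 ≤ n1 (v k) → ex μ e1 e2 (v k) ≤ η * n1 (v k) := by
  rw [ae_iff]
  refine le_antisymm ?_ zero_le
  refine ENNReal.le_of_forall_pos_le_add fun κ hκ _ => ?_
  rw [zero_add]
  obtain ⟨K0, hK0⟩ := direction_control hμ hS h1 h2 hη (κ := (κ : ℝ)) (by exact_mod_cast hκ)
  choose z hz hP using fun r => hK0 r r
  have hF : Monotone fun n : ℕ => ⋂ r : ℕ, ⋂ _ : n ≤ r, (DirEv μ e1 e2 η K0 r (z r))ᶜ := by
    intro n n' hn t ht
    simp only [Set.mem_iInter] at ht ⊢
    exact fun r hr => ht r (hn.trans hr)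
  have hmeas : iidLaw G (⋃ n : ℕ, ⋂ r : ℕ, ⋂ _ : n ≤ r, (DirEv μ e1 e2 η K0 r (z r))ᶜ) ≤ κ := by
    rw [hF.measure_iUnion]
    refine iSup_le fun n => ?_
    refine (measure_mono (Set.iInter₂_subset n le_rfl)).trans ?_
    have h3 := hP n
    have h4 := probReal_compl_eq_one_sub (μ := iidLaw G) (measurableSet_DirEv (μ := μ) e1 e2 η K0 n (z n))
    have h5 : (iidLaw G).real (DirEv μ e1 e2 η K0 n (z n))ᶜ ≤ κ := by
      rw [h4]
      have : 1 - (κ : ℝ) ≤ (iidLaw G).real (DirEv μ e1 e2 η K0 n (z n)) := h3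
      linarith
    rw [Measure.real] at h5
    have h6 := ENNReal.ofReal_le_ofReal h5
    rw [ENNReal.ofReal_toReal (measure_ne_top _ _), ENNReal.ofReal_coe_nnreal] at h6
    exact h6
  refine le_trans ?_ hmeas
  refine measure_mono_ae ?_
  filter_upwards [ae_goodEnv (G := G) hS.h0 hat] with t ht htbad
  by_contra hcon
  apply htbad
  have hf : ∃ᶠ r in atTop, t ∈ DirEv μ e1 e2 η K0 r (z r) := by
    rw [frequently_atTop]
    intro n
    by_contra h6
    push Not at h6
    apply hcon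
    refine Set.mem_iUnion.2 ⟨n, ?_⟩
    simp only [Set.mem_iInter]
    exact fun r hr => h6 r hr
  obtain ⟨v, hv, hv0, hv1⟩ := exists_ray_of_frequently ht hz hf
  exact ⟨v, hv, hv0, K0, hv1⟩





end Crest.Agent.R151.T821
end

-- ▼ part R151/Z213c

/-!
# R151/Z213c — S0213 from "no proper bigeodesic" (owner helper890)

`hub` from 750's `U.ub`, `hbar` from 821's `ae_exists_ray`; `s0213_of_hup : S0213.result` verbatim
from the single input `hup` (helper96).
-/

set_option autoImplicit false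

open MeasureTheory Filter ProbabilityTheory
open Crest.ProbabilityR.FirstPassage

namespace Crest.Agent.R151.Z

open Crest.Agent.R151.K (IsTC1 Mom LocCtl ae_Nn toR l1 n1)
open Crest.Agent.R151.M51 (Law213)
open Crest.Agent.R151.D411 (SmoothNorm ProperUp Barriers UShape exists_properUp)
open Crest.Agent.R151.T821 (MuD ShapeIn IsSgn ae_exists_ray)

variable {G : Measure ℝ} [IsProbabilityMeasure G] {m : ℝ} {μ : ℝ × ℝ → ℝ}

theorem muD (hM : Mom G m) (hμ : IsTC1 G μ) (hS : SmoothNorm μ) : MuD μ where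
  norm := hS.norm
  swap := hM.mu_swap hμ
  refl v := by
    have h1 := hM.mu_neg_fst hμ (-v)
    have h2 := hM.mu_neg hμ v
    rw [h2] at h1
    simpa using h1
  diff := hS.diff

theorem shapeIn (hG : Law213 G) (hM : Mom G m) (hμ : IsTC1 G μ) : ShapeIn G μ where
  h0 := hG.h0
  int := M51.integrable_pt' hG
  mean w := by
    have h := hM.ET_tendsto_nat hμ (toR w)
    refine h.congr fun k => ?_
    congr 2
    simp only [K.fl, toR, Prod.smul_def, smul_eq_mul]
    ext <;> simp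
    all_goals
      rw [← Int.cast_natCast, ← Int.cast_mul, Int.floor_intCast]
  sh2 ε hε := by
    filter_upwards [hM.as_ushape hμ hG] with t ht
    exact ht ε hε

theorem finite_n1_lt (K : ℕ) : {z : ℤ × ℤ | n1 z < K}.Finite := by
  refine ((Set.finite_Icc (-(K : ℤ)) K).prod (Set.finite_Icc (-(K : ℤ)) K)).subset fun z hz => ?_
  have hz' : z.1.natAbs + z.2.natAbs < K := hz
  rw [Set.mem_prod, Set.mem_Icc, Set.mem_Icc]
  omega

/-- 821's rays give 411's barriers -/
theorem barriers [NullSingletonClass G] (hG : Law213 G) (hM : Mom G m) (hμ : IsTC1 G μ)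
    (hS : SmoothNorm μ) : ∀ᵐ t ∂(iidLaw G), Barriers μ t := by
  have hat : ∀ x, G {x} = 0 := fun x => measure_singleton x
  have key : ∀ e1 e2 : ℤ, IsSgn e1 → IsSgn e2 → ∀ᵐ t ∂(iidLaw G), ∀ i : ℕ,
      ∃ v : ℕ → ℤ × ℤ, Y.IsRay t squareLattice v ∧ v 0 = 0 ∧
        ∃ K0, ∀ k, K0 ≤ n1 (v k) → T821.ex μ e1 e2 (v k) ≤ (1 / ((i : ℝ) + 1)) * n1 (v k) := by
    intro e1 e2 h1 h2
    rw [ae_all_iff]
    intro i
    exact ae_exists_ray (muD hM hμ hS) (shapeIn hG hM hμ) hat h1 h2 (by positivity)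
  filter_upwards [ae_Nn (G := G) hG.h0, ae_noTies (G := G) hat,
    key 1 1 (Or.inl rfl) (Or.inl rfl), key 1 (-1) (Or.inl rfl) (Or.inr rfl),
    key (-1) 1 (Or.inr rfl) (Or.inl rfl), key (-1) (-1) (Or.inr rfl) (Or.inr rfl)]
    with t ht hnt h1 h2 h3 h4
  intro η hη σ τ hσ hτ
  obtain ⟨i, hi⟩ := exists_nat_one_div_lt hη
  have fin : ∀ e1 e2 : ℤ, (∃ v : ℕ → ℤ × ℤ, Y.IsRay t squareLattice v ∧ v 0 = 0 ∧
        ∃ K0, ∀ k, K0 ≤ n1 (v k) → T821.ex μ e1 e2 (v k) ≤ (1 / ((i : ℝ) + 1)) * n1 (v k)) →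
      ∃ b : ℕ → ℤ × ℤ, Y.IsRay t squareLattice b ∧ ∀ᶠ k in atTop,
        μ (toR (b k)) - μ (1, 1) / 2 * ((e1 : ℝ) * (b k).1 + (e2 : ℝ) * (b k).2) ≤
          η * l1 (toR (b k)) := by
    rintro e1 e2 ⟨v, hv, -, K0, hK⟩
    refine ⟨v, hv, ?_⟩
    filter_upwards [eventually_atTop.2
      (hv.eventually_notMem (fun e => hnt.pos ht e) (finite_n1_lt K0))] with k hk
    have hk' : K0 ≤ n1 (v k) := not_lt.1 hk
    have h5 := hK k hk'
    rw [K.l1_toR]
    unfold T821.ex at h5
    have h6 : (1 / ((i : ℝ) + 1)) * n1 (v k) ≤ η * n1 (v k) := by gcongr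
    exact h5.trans h6
  rcases (abs_eq zero_le_one).1 hσ with rfl | rfl <;> rcases (abs_eq zero_le_one).1 hτ with rfl | rfl
  · simpa using fin 1 1 (h1 i)
  · simpa using fin 1 (-1) (h2 i)
  · simpa using fin (-1) 1 (h3 i)
  · simpa using fin (-1) (-1) (h4 i)

/-- **S0213 verbatim** from "no proper bigeodesic". -/
theorem s0213_of_hup
    (hup : ∀ (G : Measure ℝ) [IsProbabilityMeasure G] [NullSingletonClass G] (m : ℝ)
      (μ : ℝ × ℝ → ℝ), Law213 G → Mom G m → IsTC1 G μ → SmoothNorm μ →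
        ∀ C0 : ℝ, 0 < C0 → μ (1, 0) * C0 < μ (C0, 1) →
          ∀ᵐ t ∂(iidLaw G), ∀ v, IsBigeodesic t v → ProperUp C0 v → False)
    (G : Measure ℝ) [IsProbabilityMeasure G] [NullSingletonClass G] (hG : G (Set.Iio 0) = 0)
    (hmom : ∫⁻ x, ENNReal.ofReal ((⨅ i, x i) ^ 2) ∂(Measure.pi fun _ : Fin 4 => G) < ⊤) :
    iidLaw G {t | ∃ v : ℤ → ℤ × ℤ, IsBigeodesic t v} = 0 :=
  s0213_of_inputs (fun _ _ _ _ _ _ H => U.ub H)
    (fun _ _ _ _ _ hL hM hμ hS => barriers hL hM hμ hS) hup G hG hmom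


end Crest.Agent.R151.Z
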