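import Crest.Agent.R151.RFL890B
import Crest.Agent.R151.L763f
import Crest.Agent.R151.L763s
import Crest.Agent.R151.H617f
import Crest.Agent.R151.E39d
import Crest.Agent.R151.Y635F
import Crest.Agent.R151.F592d
import Crest.Agent.R151.Y635E
import Crest.Agent.R151.G785b
import Crest.Agent.R151.Y96D
import Crest.Agent.R151.L763k
import Crest.Agent.R151.SLF856
import Mathlib
import Crest.Prelude.Def_PlanarFPP
import Crest.Agent.R151.S113F
import Crest.Agent.R151.K9e
import Crest.Agent.R151.Y96C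
import Crest.Agent.R151.D411d
import Crest.Agent.R151.Y635I
import Crest.Agent.R151.Z213c

-- ▼ part R151/RFL890C
section

/-!
# R151/RFL890C — the lower label functions (owner helper890)

The lower family of the half plane `Lk k = {y ≤ k}` is the upper family (763's `fl`, `FH`) of the
reflected environment: with `τ` replaced by `-τ` (far point `(-τ N, -N)`)

* `flD f0 τ k t x = fl f0 (-τ) (-k) (N.refl t) x`  (row `k`),
* `FHD f0 τ k t z = FH f0 (-τ) (-k) (N.refl t) (z.1, -z.2)`,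
* `GoodD f0 m1 τ Ns t = Good f0 m1 (-τ) Ns (N.refl t)`.

Every statement of L763e/f is stated here for `{y ≤ k}`.
-/

set_option autoImplicit false

open MeasureTheory Filter Topology
open Crest.ProbabilityR.FirstPassage

namespace Crest.Agent.R151.RFL

open Crest.Agent.R151 Crest.Agent.R151.LIN
open Crest.Agent.R151.K (act sw ng tr mp_act pR Conn edgesIn Nn pR_symm)

/-- the lower half plane `{y ≤ k}` -/
def Lk (k : ℤ) : Set (ℤ × ℤ) := {z | z.2 ≤ k}


theorem mir_Hk (k : ℤ) : Mir ry (Hk (-k)) (Lk k) := mir_up' k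






/-- good environments for the lower family -/
def GoodD (f0 : ℝ → Environment → ℤ → ℝ) (m1 τ : ℝ) (Ns : ℕ → ℕ) (t : Environment) : Prop :=
  Good f0 m1 (-τ) Ns (N.refl t)




section good

variable {m1 : ℝ} {f0 : ℝ → Environment → ℤ → ℝ} {τ : ℝ} {Ns : ℕ → ℕ} {t : Environment}
  {k j : ℤ} {z z' : ℤ × ℤ}

theorem GoodD.nn (h : GoodD f0 m1 τ Ns t) : Nn t := nn_refl.1 (Good.nn h)










end good

/-! ### almost sure statements -/

section ae

variable {G : Measure ℝ} [IsProbabilityMeasure G] {D : Set ℝ} {cc : ℝ → ℝ} {m1 : ℝ}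
  {f0 : ℝ → Environment → ℤ → ℝ} {τ τ' : ℝ}







theorem refl_agree {k : ℤ} {t t' : Environment} (h : ∀ e ∈ edgesIn (Lk k), t e = t' e) :
    ∀ e ∈ edgesIn (Hk (-k)), N.refl t e = N.refl t' e := by
  intro e he
  exact h _ ((mir_Hk k).mem_edgesIn.2 he)



end ae

/-! ### 617's families -/

section families

variable {G : Measure ℝ} [IsProbabilityMeasure G] {D : Set ℝ}

open Crest.Agent.R151.H



end families

end Crest.Agent.R151.RFL
end

-- ▼ part R151/E39e
section

/-!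
# R151, block E39e (helper39): `prob_g3`; from a near tie of the pair functional on the rows
`-1`, `0` to the near tie `NT` on the rows `±(k+1)`
-/

set_option autoImplicit false

open MeasureTheory ProbabilityTheory Set Filter
open scoped ENNReal Topology
open Crest.ProbabilityR.FirstPassage
open Crest.Agent.R151.K

namespace Crest.Agent.R151.E39




/-! ## lower half planes -/

open Crest.Agent.R151 Crest.Agent.R151.Y Crest.Agent.R151.SEL

section lower

theorem reachable_Dn {k : ℤ} {x y : ℤ × ℤ} (hx : x.2 ≤ k) (hy : y.2 ≤ k) :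
    (reg (Dn k)).Reachable x y := by
  have hor : ∀ (n : ℕ) (a c : ℤ), c ≤ k → (reg (Dn k)).Reachable (a, c) (a + n, c) := by
    intro n
    induction n with
    | zero => intro a c _; simp
    | succ n ih =>
      intro a c hc
      refine (ih a c hc).trans (SimpleGraph.Adj.reachable ?_)
      push_cast
      rw [← add_assoc, reg_adj]
      exact ⟨Y.adj_right _ _, hc, hc⟩
  have ver : ∀ (n : ℕ) (a c : ℤ), c + n ≤ k → (reg (Dn k)).Reachable (a, c) (a, c + n) := by
    intro n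
    induction n with
    | zero => intro a c _; simp
    | succ n ih =>
      intro a c hc
      push_cast at hc
      refine (ih a c (by omega)).trans (SimpleGraph.Adj.reachable ?_)
      push_cast
      rw [← add_assoc, reg_adj]
      exact ⟨Y.adj_up _ _, show c + n ≤ k by omega, show c + n + 1 ≤ k by omega⟩
  obtain ⟨a, c⟩ := x
  obtain ⟨b, d⟩ := y
  simp only at hx hy
  have h1 : (reg (Dn k)).Reachable (a, c) (b, c) := by
    rcases le_total a b with h | h
    · have := hor (b - a).toNat a c hx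
      rwa [show a + ((b - a).toNat : ℤ) = b by omega] at this
    · have := hor (a - b).toNat b c hx
      rw [show b + ((a - b).toNat : ℤ) = a by omega] at this
      exact this.symm
  have h2 : (reg (Dn k)).Reachable (b, c) (b, d) := by
    rcases le_total c d with h | h
    · have := ver (d - c).toNat b c (by omega)
      rwa [show c + ((d - c).toNat : ℤ) = d by omega] at this
    · have := ver (c - d).toNat b d (by omega)
      rw [show d + ((c - d).toNat : ℤ) = c by omega] at this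
      exact this.symm
  exact h1.trans h2

variable {t : Environment} {k j : ℤ}

theorem Dn_mono (hjk : j ≤ k) : Dn j ⊆ Dn k := fun _ (hz : _ ≤ j) => show _ ≤ k from hz.trans hjk

theorem sep_Dn (hjk : j ≤ k) :
    Sep (reg (Dn k)) (reg (Dn j)) (Dn j) {z | z.2 = j} := by
  refine ⟨reg_mono (Dn_mono hjk), fun z (hz : z.2 = j) => (show z.2 ≤ j from hz.le), ?_⟩
  intro a b hab hb hbL
  have h1 : b.2 < j := lt_of_le_of_ne hb fun h => hbL h
  have h2 := adj_snd_le hab.1.symm
  have ha : a ∈ Dn j := show a.2 ≤ j by omega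
  exact ⟨⟨hab.1, ha, hb⟩, ha⟩

variable {u : ℕ → ℤ × ℤ}

theorem mem_Dn_of_isRay (h : IsRay t (reg (Dn k)) u) (n : ℕ) : (u n).2 ≤ k := (h.adj n).2.1

/-- Hopf-Lax between two levels, lower half planes. -/
theorem hopfLax_Dn (hjk : j ≤ k) (ht : ∀ e, 0 ≤ t e) (hu : IsRay t (reg (Dn k)) u)
    (huj : ∀ n, (u n).2 ≤ j) {x : ℤ × ℤ} (hx : x.2 ≤ k) (hxj : j ≤ x.2) :
    (∀ z : ℤ, bus t (reg (Dn k)) u x ≤
      pt (reg (Dn k)) t x (z, j) + bus t (reg (Dn j)) u (z, j)) ∧
    ∀ ε > 0, ∃ z : ℤ, pt (reg (Dn k)) t x (z, j) + bus t (reg (Dn j)) u (z, j) <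
      bus t (reg (Dn k)) u x + ε := by
  have h := (sep_Dn hjk).hopfLax_bus ht hu
    (fun n => ⟨(hu.adj n).1, huj n, huj (n + 1)⟩) (fun n => huj n)
    (reachable_Dn hx (mem_Dn_of_isRay hu 0)) (fun hA => le_antisymm hA hxj)
    (fun z (hz : z.2 = j) => reachable_Dn hz.le (huj 0))
  refine ⟨fun z => h.1 (z, j) rfl, fun ε hε => ?_⟩
  have : Nonempty {z : ℤ × ℤ | z.2 = j} := ⟨⟨(0, j), rfl⟩⟩
  obtain ⟨⟨⟨a, b⟩, hz⟩, hlt⟩ := exists_lt_of_ciInf_lt (f := fun z : {z : ℤ × ℤ | z.2 = j} =>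
    pt (reg (Dn k)) t x z + bus t (reg (Dn j)) u z) (a := bus t (reg (Dn k)) u x + ε) (by
      rw [← h.2]
      linarith)
  have hb : b = j := hz
  subst hb
  exact ⟨a, hlt⟩

variable {v : ℤ → ℤ × ℤ}

theorem tailD_eq_tail (hvU : UpDown v) (hjk : j ≤ k) :
    tailD j v = fun n => tailD k v ((entD k v - entD j v).toNat + n) := by
  funext n
  have := hvU.entD_mono hjk
  unfold tailD
  congr 1
  push_cast
  omega

theorem isRay_tailD' (hv : IsBigeodesic t v) (ht : ∀ e, 0 ≤ t e) (hvU : UpDown v)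
    (hjk : j ≤ k) : IsRay t (reg (Dn k)) (tailD j v) := by
  rw [tailD_eq_tail hvU hjk]
  exact (isRay_tailD hv ht hvU k).tail _

theorem tailD_mem (hvU : UpDown v) (n : ℕ) : (tailD j v n).2 ≤ j :=
  hvU.entD_spec (by omega)

theorem fD_sub_eq (hv : IsBigeodesic t v) (ht : ∀ e, 0 ≤ t e) (hvU : UpDown v) (hjk : j ≤ k)
    {x y : ℤ × ℤ} (hx : x.2 ≤ k) (hy : y.2 ≤ k) :
    fD t k v x - fD t k v y =
      bus t (reg (Dn k)) (tailD j v) x - bus t (reg (Dn k)) (tailD j v) y := by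
  have h := isRay_tailD hv ht hvU k
  rw [tailD_eq_tail hvU hjk]
  exact (bus_tail_sub ht h (reachable_Dn hx (mem_Dn_of_isRay h 0))
    (reachable_Dn hy (mem_Dn_of_isRay h 0)) _).symm

theorem bus_tailD_eq (hv : IsBigeodesic t v) (ht : ∀ e, 0 ≤ t e) (hvU : UpDown v) (hjk : j ≤ k)
    {x : ℤ × ℤ} (hx : x.2 ≤ k) :
    bus t (reg (Dn k)) (tailD j v) x = fD t k v x - fD t k v (tailD j v 0) := by
  have h0 : (tailD j v 0).2 ≤ k := (tailD_mem hvU 0).trans hjk
  have := fD_sub_eq hv ht hvU hjk hx h0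
  rw [bus_zero ht (isRay_tailD' hv ht hvU hjk)] at this
  linarith

end lower

section bridge

variable {t : Environment} {v : ℤ → ℤ × ℤ}

/-- value of `fU t k v` at a later entrance point of `v` -/
theorem fU_ent (hv : IsBigeodesic t v) (ht : ∀ e, 0 < t e) (hvU : UpDown v) {k j : ℤ}
    (hkj : k ≤ j) : fU t k v (tailU j v 0) = -passageTime t (tailU k v 0) (tailU j v 0) := by
  have ht0 : ∀ e, 0 ≤ t e := fun e => (ht e).le
  have h1 := isRay_tailU hv ht0 hvU k
  have h2 : tailU j v 0 = tailU k v (entU j v - entU k v).toNat := by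
    rw [tailU_eq_tail hvU hkj]; rfl
  have h3 : IsRay t squareLattice (tailU k v) := isRay_of_isBigeodesic hv ht0 (entU k v)
  rw [h2]
  unfold fU
  rw [bus_ray ht0 h1, passageTime_eq_pt,
    h3.pt_eq_of_le ht0 (reg_le _) (fun n => h1.adj n) (Nat.zero_le _)]

theorem fD_ent (hv : IsBigeodesic t v) (ht : ∀ e, 0 < t e) (hvU : UpDown v) {k j : ℤ}
    (hjk : j ≤ k) : fD t k v (tailD j v 0) = -passageTime t (tailD k v 0) (tailD j v 0) := by
  have ht0 : ∀ e, 0 ≤ t e := fun e => (ht e).le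
  have h1 := isRay_tailD hv ht0 hvU k
  have h2 : tailD j v 0 = tailD k v (entD k v - entD j v).toNat := by
    rw [tailD_eq_tail hvU hjk]; rfl
  have h3 : IsRay t squareLattice (tailD k v) := isRay_of_isBigeodesic_neg hv ht0 (entD k v)
  rw [h2]
  unfold fD
  rw [bus_ray ht0 h1, passageTime_eq_pt,
    h3.pt_eq_of_le ht0 (reg_le _) (fun n => h1.adj n) (Nat.zero_le _)]

/-- localised minimiser of `T(x, .) + f` on a row -/
theorem exists_loc_min {D : ℕ} {x : ℤ} {g : ℤ → ℝ} (h : ∀ w : ℤ, (D : ℤ) < |w - x| → g x ≤ g w) :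
    ∃ w : ℤ, |w - x| ≤ D ∧ ∀ w', g w ≤ g w' := by
  obtain ⟨w, hw, hmin⟩ := Finset.exists_min_image (Finset.Icc (x - D) (x + D)) g
    ⟨x, by rw [Finset.mem_Icc]; constructor <;> omega⟩
  rw [Finset.mem_Icc] at hw
  refine ⟨w, abs_le.2 ⟨by omega, by omega⟩, fun w' => ?_⟩
  by_cases hw' : (D : ℤ) < |w' - x|
  · exact (hmin x (by rw [Finset.mem_Icc]; constructor <;> omega)).trans (h w' hw')
  · rw [not_lt, abs_le] at hw'
    exact hmin w' (by rw [Finset.mem_Icc]; constructor <;> omega)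

/-- **near tie on the rows `-1`, `0` ⟹ near tie `NT` on the rows `±(k+1)`** -/
theorem nt_of_gap (ht : ∀ e, 0 < t e) (hv : IsBigeodesic t v) (hvU : UpDown v) {k D : ℕ}
    {K : ℝ} {x xh : ℤ}
    (hgap : fD t (-1) v (xh, -1) + passageTime t (xh, -1) (x, 0) + fU t 0 v (x, 0) ≤
      passageTime t (tailD (-1) v 0) (tailU 0 v 0) + K)
    (hlu : ∀ w : ℤ, (D : ℤ) < |w - x| →
      passageTime t (x, 0) (x, (k : ℤ) + 1) + fU t ((k : ℤ) + 1) v (x, (k : ℤ) + 1) ≤
      passageTime t (x, 0) (w, (k : ℤ) + 1) + fU t ((k : ℤ) + 1) v (w, (k : ℤ) + 1))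
    (hll : ∀ z : ℤ, (D : ℤ) < |z - x| →
      passageTime t (x, -((k : ℤ) + 1)) (x, 0) +
        fD t (-((k : ℤ) + 1)) v (x, -((k : ℤ) + 1)) ≤
      passageTime t (z, -((k : ℤ) + 1)) (x, 0) +
        fD t (-((k : ℤ) + 1)) v (z, -((k : ℤ) + 1))) :
    NT k D K (fun w => fU t ((k : ℤ) + 1) v (w, (k : ℤ) + 1),
      fun w => fD t (-((k : ℤ) + 1)) v (w, -((k : ℤ) + 1))) x t := by
  have ht0 : ∀ e, 0 ≤ t e := fun e => (ht e).le
  set j : ℤ := (k : ℤ) + 1 with hj
  have hj0 : (0 : ℤ) ≤ j := by omega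
  obtain ⟨w, hw, hwmin⟩ := exists_loc_min
    (g := fun w => passageTime t (x, 0) (w, j) + fU t j v (w, j)) hlu
  obtain ⟨z, hz, hzmin⟩ := exists_loc_min
    (g := fun z => passageTime t (z, -j) (x, 0) + fD t (-j) v (z, -j)) hll
  refine ⟨z, w, hz, hw, fun z' w' => ?_⟩
  -- the upper side
  have hU : passageTime t (x, 0) (w, j) + fU t j v (w, j) ≤
      fU t 0 v (x, 0) + passageTime t (tailU 0 v 0) (tailU j v 0) := by
    have h1 := bus_tailU_eq hv ht0 hvU hj0 (x := (x, 0)) le_rfl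
    rw [fU_ent hv ht hvU hj0] at h1
    have h2 := (hopfLax_Up hj0 ht0 (isRay_tailU' hv ht0 hvU hj0) (fun n => tailU_mem hvU n)
      (x := (x, 0)) le_rfl hj0).2
    refine le_of_forall_pos_le_add fun ε hε => ?_
    obtain ⟨z₁, hz₁⟩ := h2 ε hε
    have h3 : passageTime t (x, 0) (z₁, j) ≤ pt (reg (Up 0)) t (x, 0) (z₁, j) := by
      rw [passageTime_eq_pt]
      exact pt_anti (reg_le _) ht0 (reachable_Up le_rfl hj0)
    have h4 := hwmin z₁
    have h5 : bus t (reg (Up j)) (tailU j v) (z₁, j) = fU t j v (z₁, j) := rfl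
    rw [h5] at hz₁
    linarith
  -- the lower side
  have hD : passageTime t (z, -j) (x, 0) + fD t (-j) v (z, -j) ≤
      fD t (-1) v (xh, -1) + passageTime t (xh, -1) (x, 0) +
        passageTime t (tailD (-1) v 0) (tailD (-j) v 0) := by
    have hj1 : -j ≤ (-1 : ℤ) := by omega
    have h1 := bus_tailD_eq hv ht0 hvU hj1 (x := (xh, -1)) le_rfl
    rw [fD_ent hv ht hvU hj1] at h1
    have h2 := (hopfLax_Dn hj1 ht0 (isRay_tailD' hv ht0 hvU hj1) (fun n => tailD_mem hvU n)
      (x := (xh, -1)) le_rfl hj1).2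
    refine le_of_forall_pos_le_add fun ε hε => ?_
    obtain ⟨z₁, hz₁⟩ := h2 ε hε
    have h3 : passageTime t (xh, -1) (z₁, -j) ≤ pt (reg (Dn (-1))) t (xh, -1) (z₁, -j) := by
      rw [passageTime_eq_pt]
      exact pt_anti (reg_le _) ht0 (reachable_Dn le_rfl hj1)
    have h4 := hzmin z₁
    have h5 : bus t (reg (Dn (-j))) (tailD (-j) v) (z₁, -j) = fD t (-j) v (z₁, -j) := rfl
    have h6 : passageTime t (z₁, -j) (x, 0) ≤
        passageTime t (xh, -1) (z₁, -j) + passageTime t (xh, -1) (x, 0) := by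
      simp only [passageTime_eq_pt]
      rw [pt_comm squareLattice t (xh, -1) (z₁, -j)]
      exact pt_triangle ht0 (R151.K.reachable _ _) (R151.K.reachable _ _)
    rw [h5] at hz₁
    linarith
  -- the middle: the passage time between the two crossing points
  have hbi := (isBigeodesic_iff ht).1 hv
  have e1 : entD (-j) v ≤ entD (-1) v := hvU.entD_mono (by omega)
  have e2 : entD (-1) v ≤ entU 0 v := (hvU.entD_lt_entU (by omega)).le
  have e3 : entU 0 v ≤ entU j v := hvU.entU_mono hj0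
  have hsum : passageTime t (tailD (-1) v 0) (tailD (-j) v 0) +
      passageTime t (tailD (-1) v 0) (tailU 0 v 0) +
      passageTime t (tailU 0 v 0) (tailU j v 0) =
      passageTime t (tailD (-j) v 0) (tailU j v 0) := by
    simp only [passageTime_eq_pt, tailU, tailD, Nat.cast_zero, add_zero, sub_zero]
    rw [pt_comm squareLattice t (v (entD (-1) v)) (v (entD (-j) v)),
      hbi.pt_add e1 e2, hbi.pt_add (e1.trans e2) e3]
  have hpm := hbi.pair_min (Hp := reg (Up j)) (Hm := reg (Dn (-j))) (i := entD (-j) v)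
    (j := entU j v) (p := (z', -j)) (q := (w', j)) ht0 (reg_le _) (reg_le _)
    (hvU.entD_lt_entU (by omega)).le
    (fun n hn => ⟨hv.2.1 n, hvU.entU_spec hn, hvU.entU_spec (by omega)⟩)
    (fun n hn => ⟨hv.2.1 n, hvU.entD_spec hn.le, hvU.entD_spec (by omega)⟩)
    (reachable_Dn le_rfl (hvU.entD_spec le_rfl)) (reachable_Up le_rfl (hvU.entU_spec le_rfl))
  have hpm' : passageTime t (tailD (-j) v 0) (tailU j v 0) ≤
      fD t (-j) v (z', -j) + passageTime t (z', -j) (w', j) + fU t j v (w', j) := by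
    simp only [passageTime_eq_pt, tailU, tailD, Nat.cast_zero, add_zero, sub_zero]
    exact hpm
  unfold Psi
  simp only
  rw [← hj]
  linarith

end bridge

end Crest.Agent.R151.E39
end

-- ▼ part R151/F592e
section

/-!
# R151, F592e (helper592): the successor function in the form needed by `Y96.Sys`

`PField` : measurable covariant active set and total preorder `le`; `PField.toLField` : the strict
order `lt x y := le x y ∧ (¬ le y x ∨ x < y)`.
`sucM` : the successor as a pointwise measurable and covariant function.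
`PField.succ_pres / succ_inj / succ_slope / succ_le / succ_next` : the SUCC properties.
-/

set_option autoImplicit false

namespace Crest.Agent.R151.F592

open Finset MeasureTheory Filter Topology
open scoped Classical ENNReal

section det

variable {ι : Type*}





end det

variable {Ω : Type*} [MeasurableSpace Ω] {μ : Measure Ω}

section closure

theorem mset_and {p q : Ω → Prop} (hp : MeasurableSet {ω | p ω}) (hq : MeasurableSet {ω | q ω}) :
    MeasurableSet {ω | p ω ∧ q ω} := hp.inter hq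

theorem mset_or {p q : Ω → Prop} (hp : MeasurableSet {ω | p ω}) (hq : MeasurableSet {ω | q ω}) :
    MeasurableSet {ω | p ω ∨ q ω} := hp.union hq

theorem mset_not {p : Ω → Prop} (hp : MeasurableSet {ω | p ω}) : MeasurableSet {ω | ¬ p ω} :=
  hp.compl

theorem mset_forall {ι : Type*} [Countable ι] {p : ι → Ω → Prop}
    (hp : ∀ i, MeasurableSet {ω | p i ω}) : MeasurableSet {ω | ∀ i, p i ω} := by
  have : {ω | ∀ i, p i ω} = ⋂ i, {ω | p i ω} := by ext; simp
  rw [this]
  exact MeasurableSet.iInter hp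


theorem mset_imp {p q : Ω → Prop} (hp : MeasurableSet {ω | p ω}) (hq : MeasurableSet {ω | q ω}) :
    MeasurableSet {ω | p ω → q ω} := by
  have : {ω | p ω → q ω} = {ω | ¬ p ω ∨ q ω} := by ext; simp [imp_iff_not_or]
  rw [this]
  exact mset_or (mset_not hp) hq

end closure

/-- a measurable covariant set of labels with an almost surely total preorder -/
structure PField (μ : Measure Ω) (S : ℤ → Ω → Ω) (A : Ω → Set ℤ) (le : Ω → ℤ → ℤ → Prop) :
    Prop where
  mp : ∀ z, MeasurePreserving (S z) μ μ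
  measA : ∀ x, MeasurableSet {ω | x ∈ A ω}
  measle : ∀ x y, MeasurableSet {ω | le ω x y}
  covA : ∀ z ω x, x ∈ A (S z ω) ↔ x + z ∈ A ω
  covle : ∀ z ω x y, le (S z ω) x y ↔ le ω (x + z) (y + z)
  trans : ∀ᵐ ω ∂μ, ∀ x ∈ A ω, ∀ y ∈ A ω, ∀ z ∈ A ω, le ω x y → le ω y z → le ω x z
  tot : ∀ᵐ ω ∂μ, ∀ x ∈ A ω, ∀ y ∈ A ω, le ω x y ∨ le ω y x

/-- the strict order of a preorder with ties broken by the position -/
def ltOf (le : Ω → ℤ → ℤ → Prop) (ω : Ω) (x y : ℤ) : Prop := le ω x y ∧ (¬ le ω y x ∨ x < y)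

variable {S : ℤ → Ω → Ω} {A : Ω → Set ℤ} {le : Ω → ℤ → ℤ → Prop}

namespace PField

theorem measurable_lt (D : PField μ S A le) (x y : ℤ) : MeasurableSet {ω | ltOf le ω x y} :=
  mset_and (D.measle x y) (mset_or (mset_not (D.measle y x)) (MeasurableSet.const (x < y)))

theorem toLField (D : PField μ S A le) : LField μ S A (ltOf le) where
  mp := D.mp
  measA := fun x => (D.measA x).nullMeasurableSet
  measlt := fun x y => (D.measurable_lt x y).nullMeasurableSet
  covA := D.covA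
  covlt := fun z ω x y => by
    unfold ltOf
    rw [D.covle, D.covle]
    have : x < y ↔ x + z < y + z := by omega
    rw [this]
  sto := by
    filter_upwards [D.trans, D.tot] with ω h1 h2
    exact sto_of_preorder h1 h2




variable (D : PField μ S A le)
  (hex : ∀ᵐ ω ∂μ, ∀ x ∈ A ω, ∃ j, IsSucc (A ω) (ltOf le ω) x j)

include D hex







end PField

end Crest.Agent.R151.F592
end

-- ▼ part R151/F592f
section

/-!
# R151, F592f (helper592): SUCC for percolation, part 1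

Rows `a < b`; `pu b v`, `pd a v` places of the last entrance / first exit; `Ps t a b v u w` the pair
functional of the label of `v`; `Ps_min`; `gp` the gap.
`Sel0` : abstract selected family of bigeodesics on the level `0`; `Sel0.toPField`,
`Sel0.gap_cov`, `Sel0.hcyc` (averaged cyclic sums).
-/

set_option autoImplicit false

namespace Crest.Agent.R151.F592

open Finset MeasureTheory Filter Topology
open Crest.ProbabilityR.FirstPassage
open Crest.Agent.R151 Crest.Agent.R151.Y Crest.Agent.R151.SEL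
open scoped Classical ENNReal

section det

variable {t : Environment} {v : ℤ → ℤ × ℤ}

/-- place of the last entrance to `{y ≥ b}` -/
noncomputable def pu (b : ℤ) (v : ℤ → ℤ × ℤ) : ℤ := (v (entU b v)).1

/-- place of the first exit from `{y ≤ a}` -/
noncomputable def pd (a : ℤ) (v : ℤ → ℤ × ℤ) : ℤ := (v (entD a v)).1

/-- pair functional of the label of `v`, rows `a < b` -/
noncomputable def Ps (t : Environment) (a b : ℤ) (v : ℤ → ℤ × ℤ) (u w : ℤ) : ℝ :=
  fD t a v (w, a) + passageTime t (w, a) (u, b) + fU t b v (u, b)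

/-- the gap of `v'` for the label of `v` -/
noncomputable def gp (t : Environment) (a b : ℤ) (v v' : ℤ → ℤ × ℤ) : ℝ :=
  Ps t a b v (pu b v') (pd a v') - Ps t a b v (pu b v) (pd a v)

theorem reachable_Dn {k : ℤ} {x y : ℤ × ℤ} (hx : x.2 ≤ k) (hy : y.2 ≤ k) :
    (reg (Dn k)).Reachable x y := by
  rw [← conn_iff_reachable (by simpa using hx)]
  refine (K.conn_prod (A := Set.univ) (B := Set.Iic k) Set.ordConnected_univ
    Set.ordConnected_Iic ⟨trivial, hx⟩ ⟨trivial, hy⟩).mono ?_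
  intro z hz
  exact hz.2

theorem pu_mk (hv : UpDown v) (hadj : ∀ n, squareLattice.Adj (v n) (v (n + 1))) (b : ℤ) :
    v (entU b v) = (pu b v, b) := by
  have := hv.entU_snd (k := b) hadj
  unfold pu
  exact Prod.ext rfl this

theorem pd_mk (hv : UpDown v) (hadj : ∀ n, squareLattice.Adj (v n) (v (n + 1))) (a : ℤ) :
    v (entD a v) = (pd a v, a) := by
  have := hv.entD_snd (k := a) hadj
  unfold pd
  exact Prod.ext rfl this

theorem fU_pu (ht : ∀ e, 0 ≤ t e) (hv : IsBigeodesic t v) (hvU : UpDown v) (b : ℤ) :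
    fU t b v (pu b v, b) = 0 := by
  rw [← pu_mk hvU hv.2.1 b]
  have h := bus_zero ht (isRay_tailU hv ht hvU b)
  unfold fU
  have e : tailU b v 0 = v (entU b v) := by simp [tailU]
  rwa [e] at h

theorem fD_pd (ht : ∀ e, 0 ≤ t e) (hv : IsBigeodesic t v) (hvU : UpDown v) (a : ℤ) :
    fD t a v (pd a v, a) = 0 := by
  rw [← pd_mk hvU hv.2.1 a]
  have h := bus_zero ht (isRay_tailD hv ht hvU a)
  unfold fD
  have e : tailD a v 0 = v (entD a v) := by simp [tailD]
  rwa [e] at h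

theorem Ps_self (ht : ∀ e, 0 ≤ t e) (hv : IsBigeodesic t v) (hvU : UpDown v) (a b : ℤ) :
    Ps t a b v (pu b v) (pd a v) = passageTime t (v (entD a v)) (v (entU b v)) := by
  unfold Ps
  rw [fU_pu ht hv hvU, fD_pd ht hv hvU, pu_mk hvU hv.2.1 b, pd_mk hvU hv.2.1 a]
  ring

/-- the crossing of `v` minimises its pair functional -/
theorem Ps_min (ht : ∀ e, 0 < t e) (hv : IsBigeodesic t v) (hvU : UpDown v) {a b : ℤ}
    (hab : a < b) (u w : ℤ) : Ps t a b v (pu b v) (pd a v) ≤ Ps t a b v u w := by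
  have ht0 : ∀ e, 0 ≤ t e := fun e => (ht e).le
  rw [Ps_self ht0 hv hvU]
  have hB := isBiRay_of_isBigeodesic ht hv
  have hij : entD a v < entU b v := hvU.entD_lt_entU hab
  have h := hB.pair_min (Hp := reg (Up b)) (Hm := reg (Dn a)) (i := entD a v) (j := entU b v)
    (p := (w, a)) (q := (u, b)) ht0 (reg_le _) (reg_le _) hij.le
    (fun k hk => by
      rw [reg_adj]
      exact ⟨hB.adj k, hvU.entU_spec hk, hvU.entU_spec (by omega)⟩)
    (fun k hk => by
      rw [reg_adj]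
      exact ⟨hB.adj k, hvU.entD_spec (by omega), hvU.entD_spec (by omega)⟩)
    (reachable_Dn (by simp) (by rw [hvU.entD_snd hB.adj]))
    (reachable_Up (by simp) (by rw [hvU.entU_snd hB.adj]))
  rw [← passageTime_eq_pt, ← passageTime_eq_pt] at h
  exact h

theorem gp_nonneg (ht : ∀ e, 0 < t e) (hv : IsBigeodesic t v) (hvU : UpDown v) {a b : ℤ}
    (hab : a < b) (v' : ℤ → ℤ × ℤ) : 0 ≤ gp t a b v v' :=
  sub_nonneg.2 (Ps_min ht hv hvU hab _ _)

theorem gp_self (a b : ℤ) (v : ℤ → ℤ × ℤ) : gp t a b v v = 0 := sub_self _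

/-- telescoping -/
theorem abs_sub_le_sum {F p : ℤ → ℝ} (h : ∀ e, |H.inc F e| ≤ p e) {x y : ℤ} (hxy : x ≤ y) :
    |F x - F y| ≤ ∑ e ∈ Finset.Ico x y, p e := by
  obtain ⟨n, rfl⟩ : ∃ n : ℕ, y = x + n := ⟨(y - x).toNat, by omega⟩
  clear hxy
  induction n with
  | zero => simp
  | succ n ih =>
    have h1 : (Finset.Ico x (x + ((n + 1 : ℕ) : ℤ))) = insert (x + n) (Finset.Ico x (x + n)) := by
      ext e
      simp only [Finset.mem_Ico, Finset.mem_insert]
      push_cast
      omega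
    rw [h1, Finset.sum_insert (by simp)]
    have h2 := h (x + n)
    unfold H.inc at h2
    push_cast
    rw [← add_assoc]
    have h3 := abs_sub_le (F x) (F (x + n)) (F (x + n + 1))
    rw [abs_sub_comm (F (x + n)) (F (x + n + 1))] at h3
    linarith

theorem sum_Ico_mono {p : ℤ → ℝ} (hp : ∀ e, 0 ≤ p e) {x y x' y' : ℤ} (h1 : x' ≤ x) (h2 : y ≤ y') :
    ∑ e ∈ Finset.Ico x y, p e ≤ ∑ e ∈ Finset.Ico x' y', p e :=
  Finset.sum_le_sum_of_subset_of_nonneg (Finset.Ico_subset_Ico h1 h2) fun e _ _ => hp e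

end det

/-- An abstract selected family of bigeodesics on the level `0`: `x ∈ X t` is the place of the last
entrance to `{y ≥ 0}`. -/
structure Sel0 (P : Measure Environment) (γ : ℤ → Environment → ℤ → ℤ × ℤ)
    (X : Environment → Set ℤ) (m0 : ℕ) : Prop where
  measγ : ∀ x n, Measurable fun t => γ x t n
  measX : ∀ x, MeasurableSet {t | x ∈ X t}
  covγ : ∀ z x t n, γ (x + z) t n = γ x (A.shift (z, 0) t) n + (z, 0)
  covX : ∀ z t x, x ∈ X (A.shift (z, 0) t) ↔ x + z ∈ X t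
  mp : ∀ z : ℤ, MeasurePreserving (A.shift (z, 0)) P P
  pos : ∀ᵐ t ∂P, ∀ e, 0 < t e
  big : ∀ᵐ t ∂P, ∀ x ∈ X t, IsBigeodesic t (γ x t)
  ud : ∀ᵐ t ∂P, ∀ x ∈ X t, UpDown (γ x t)
  locU : ∀ᵐ t ∂P, ∀ x ∈ X t, pu 0 (γ x t) = x
  locD : ∀ᵐ t ∂P, ∀ x ∈ X t, |pd (-1) (γ x t) - x| ≤ m0
  tot : ∀ᵐ t ∂P, ∀ x ∈ X t, ∀ y ∈ X t,
    H.LabLe (H.lab t 0 (-1) (γ x t)) (H.lab t 0 (-1) (γ y t)) ∨
      H.LabLe (H.lab t 0 (-1) (γ y t)) (H.lab t 0 (-1) (γ x t))

namespace Sel0

variable {P : Measure Environment} {γ : ℤ → Environment → ℤ → ℤ × ℤ}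
  {X : Environment → Set ℤ} {m0 : ℕ}

/-- the preorder of the labels -/
def le (γ : ℤ → Environment → ℤ → ℤ × ℤ) (t : Environment) (x y : ℤ) : Prop :=
  H.LabLe (H.lab t 0 (-1) (γ x t)) (H.lab t 0 (-1) (γ y t))

theorem γ_add (D : Sel0 P γ X m0) (z x : ℤ) (t : Environment) :
    γ (x + z) t = fun n => γ x (A.shift (z, 0) t) n + (z, 0) :=
  funext fun n => D.covγ z x t n

theorem fU_cov (D : Sel0 P γ X m0) (z x : ℤ) (t : Environment) (k w : ℤ) :
    fU (A.shift (z, 0) t) k (γ x (A.shift (z, 0) t)) (w, k) = fU t k (γ (x + z) t) (w + z, k) := by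
  rw [D.γ_add z x t, ← fU_shift]
  simp

theorem fD_cov (D : Sel0 P γ X m0) (z x : ℤ) (t : Environment) (k w : ℤ) :
    fD (A.shift (z, 0) t) k (γ x (A.shift (z, 0) t)) (w, k) = fD t k (γ (x + z) t) (w + z, k) := by
  rw [D.γ_add z x t, ← fD_shift]
  simp

theorem pu_cov (D : Sel0 P γ X m0) (z x : ℤ) (t : Environment) (k : ℤ) :
    pu k (γ (x + z) t) = pu k (γ x (A.shift (z, 0) t)) + z := by
  unfold pu
  have h := entU_add k (γ x (A.shift (z, 0) t)) (z, 0)
  simp only [add_zero] at h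
  rw [D.γ_add z x t, h]
  rfl

theorem pd_cov (D : Sel0 P γ X m0) (z x : ℤ) (t : Environment) (k : ℤ) :
    pd k (γ (x + z) t) = pd k (γ x (A.shift (z, 0) t)) + z := by
  unfold pd
  have h := entD_add k (γ x (A.shift (z, 0) t)) (z, 0)
  simp only [add_zero] at h
  rw [D.γ_add z x t, h]
  rfl

theorem Ps_cov (D : Sel0 P γ X m0) (z x : ℤ) (t : Environment) (a b u w : ℤ) :
    Ps (A.shift (z, 0) t) a b (γ x (A.shift (z, 0) t)) u w =
      Ps t a b (γ (x + z) t) (u + z) (w + z) := by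
  unfold Ps
  rw [D.fU_cov, D.fD_cov, passageTime_shift]
  simp

theorem gap_cov (D : Sel0 P γ X m0) (z x y : ℤ) (t : Environment) (a b : ℤ) :
    gp (A.shift (z, 0) t) a b (γ x (A.shift (z, 0) t)) (γ y (A.shift (z, 0) t)) =
      gp t a b (γ (x + z) t) (γ (y + z) t) := by
  unfold gp
  rw [D.Ps_cov, D.Ps_cov, D.pu_cov, D.pu_cov, D.pd_cov, D.pd_cov]

theorem le_cov (D : Sel0 P γ X m0) (z x y : ℤ) (t : Environment) :
    le γ (A.shift (z, 0) t) x y ↔ le γ t (x + z) (y + z) := by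
  have hf : ∀ p : ℤ → Prop, (∀ k, p (k + z)) ↔ ∀ k, p k := fun p =>
    ⟨fun h k => by simpa using h (k - z), fun h k => h _⟩
  unfold le H.LabLe H.lab H.inc
  simp only [D.fU_cov, D.fD_cov]
  have e : ∀ k : ℤ, k + 1 + z = k + z + 1 := fun k => by ring
  simp only [e]
  rw [hf fun k => fU t 0 (γ (y + z) t) (k + 1, 0) - fU t 0 (γ (y + z) t) (k, 0) ≤
      fU t 0 (γ (x + z) t) (k + 1, 0) - fU t 0 (γ (x + z) t) (k, 0),
    hf fun k => fD t (-1) (γ (x + z) t) (k + 1, -1) - fD t (-1) (γ (x + z) t) (k, -1) ≤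
      fD t (-1) (γ (y + z) t) (k + 1, -1) - fD t (-1) (γ (y + z) t) (k, -1)]

theorem measurable_fU' (D : Sel0 P γ X m0) (x k : ℤ) (w : ℤ × ℤ) :
    Measurable fun t => fU t k (γ x t) w :=
  measurable_fU (τ := fun t => t) measurable_id (D.measγ x) k w

theorem measurable_fD' (D : Sel0 P γ X m0) (x k : ℤ) (w : ℤ × ℤ) :
    Measurable fun t => fD t k (γ x t) w :=
  measurable_fD (τ := fun t => t) measurable_id (D.measγ x) k w

theorem measurable_pu (D : Sel0 P γ X m0) (x k : ℤ) : Measurable fun t => pu k (γ x t) :=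
  measurable_fst.comp (measurable_eval (f := fun t (m : ℤ) => γ x t m) (fun m => D.measγ x m)
    (measurable_entU (D.measγ x) k))

theorem measurable_pd (D : Sel0 P γ X m0) (x k : ℤ) : Measurable fun t => pd k (γ x t) :=
  measurable_fst.comp (measurable_eval (f := fun t (m : ℤ) => γ x t m) (fun m => D.measγ x m)
    (measurable_entD (D.measγ x) k))

theorem measurable_Ps (D : Sel0 P γ X m0) (x a b u w : ℤ) :
    Measurable fun t => Ps t a b (γ x t) u w :=
  ((D.measurable_fD' x a _).add (by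
    simp_rw [passageTime_eq_pt]
    exact measurable_pt' _ _ _)).add (D.measurable_fU' x b _)

theorem measurable_Ps_uncurry (D : Sel0 P γ X m0) (x a b : ℤ) :
    Measurable fun p : Environment × (ℤ × ℤ) => Ps p.1 a b (γ x p.1) p.2.1 p.2.2 := by
  have h2 : ∀ q : ℤ × ℤ, Measurable fun t => Ps t a b (γ x t) q.1 q.2 := fun q =>
    D.measurable_Ps x a b q.1 q.2
  exact measurable_from_prod_countable_left h2

theorem measurable_Ps_at (D : Sel0 P γ X m0) (x a b y : ℤ) :
    Measurable fun t => Ps t a b (γ x t) (pu b (γ y t)) (pd a (γ y t)) := by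
  have h1 : Measurable fun t => (t, (pu b (γ y t), pd a (γ y t))) :=
    measurable_id.prodMk ((D.measurable_pu y b).prodMk (D.measurable_pd y a))
  have h3 := (D.measurable_Ps_uncurry x a b).comp h1
  exact h3

theorem measurable_gap (D : Sel0 P γ X m0) (x y a b : ℤ) :
    Measurable fun t => gp t a b (γ x t) (γ y t) :=
  (D.measurable_Ps_at x a b y).sub (D.measurable_Ps_at x a b x)

theorem toPField (D : Sel0 P γ X m0) :
    PField P (fun z : ℤ => A.shift (z, 0)) X (le γ) where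
  mp := D.mp
  measA := D.measX
  measle x y := by
    unfold le H.LabLe H.lab H.inc
    refine mset_and (mset_forall fun e => ?_) (mset_forall fun e => ?_)
    · exact measurableSet_le ((D.measurable_fU' y 0 _).sub (D.measurable_fU' y 0 _))
        ((D.measurable_fU' x 0 _).sub (D.measurable_fU' x 0 _))
    · exact measurableSet_le ((D.measurable_fD' x (-1) _).sub (D.measurable_fD' x (-1) _))
        ((D.measurable_fD' y (-1) _).sub (D.measurable_fD' y (-1) _))
  covA := D.covX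
  covle := fun z t x y => D.le_cov z x y t
  trans := Eventually.of_forall fun t x _ y _ z _ h1 h2 => H.LabLe.trans h1 h2
  tot := D.tot

/-- the strict order -/
def lt (γ : ℤ → Environment → ℤ → ℤ × ℤ) : Environment → ℤ → ℤ → Prop := ltOf (le γ)

theorem monotone_fU {t : Environment} {x y : ℤ} (h : le γ t x y) :
    Monotone fun u : ℤ => fU t 0 (γ x t) (u, 0) - fU t 0 (γ y t) (u, 0) := by
  refine monotone_int_of_le_succ fun u => ?_
  have := h.1 u
  simp only [H.lab, H.inc] at this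
  linarith

theorem antitone_fD {t : Environment} {x y : ℤ} (h : le γ t x y) :
    Antitone fun w : ℤ => fD t (-1) (γ x t) (w, -1) - fD t (-1) (γ y t) (w, -1) := by
  refine antitone_int_of_succ_le fun w => ?_
  have := h.2 w
  simp only [H.lab, H.inc] at this
  linarith

/-- upper boundary passage times -/
noncomputable def tU (t : Environment) (e : ℤ) : ℝ := K.pR t (Up 0) (e, 0) (e + 1, 0)

/-- lower boundary passage times -/
noncomputable def tD (t : Environment) (e : ℤ) : ℝ := K.pR t (Dn (-1)) (e, -1) (e + 1, -1)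

/-- pointwise cyclic sum -/
theorem cyc_pointwise (D : Sel0 P γ X m0) : ∀ᵐ t ∂P, ∀ h : ℕ,
    ∑ x ∈ Finset.range h, ∑ j ∈ Finset.range h,
      Set.indicator {t | Nxt (X t) (lt γ t) (Set.Ico 0 (h : ℤ)) x j}
        (fun t => ENNReal.ofReal (gp t (-1) 0 (γ x t) (γ j t))) t ≤
      ENNReal.ofReal (2 * ∑ e ∈ Finset.Ico (0 : ℤ) h, tU t e +
        2 * ∑ e ∈ Finset.Ico (-(m0 : ℤ)) (h + m0), tD t e) := by
  filter_upwards [D.toPField.toLField.sto, D.pos, D.big, D.ud, D.locU, D.locD]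
    with t hsto hpos hbig hud hlU hlD h
  have ht0 : ∀ e, 0 ≤ t e := fun e => (hpos e).le
  have htU : ∀ e, 0 ≤ tU t e := fun e => K.pR_nonneg ht0 _ _ _
  have htD : ∀ e, 0 ≤ tD t e := fun e => K.pR_nonneg ht0 _ _ _
  set W : Set ℤ := Set.Ico 0 (h : ℤ) with hW
  have hfin : (X t ∩ W).Finite := (Set.finite_Ico 0 (h : ℤ)).subset Set.inter_subset_right
  obtain ⟨σ, hbij, hσ⟩ := exists_cyc hsto hfin
  set s : Finset ℤ := hfin.toFinset with hs
  have hsX : ∀ i ∈ s, i ∈ X t := fun i hi => (hfin.mem_toFinset.1 hi).1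
  have hsW : ∀ i ∈ s, i ∈ W := fun i hi => (hfin.mem_toFinset.1 hi).2
  have hcoe : (s : Set ℤ) = X t ∩ W := by rw [hs]; exact hfin.coe_toFinset
  have hbij' : Set.BijOn σ (s : Set ℤ) s := by rw [hcoe]; exact hbij
  -- the double sum is a sum over `s`
  have e1 : ∑ x ∈ Finset.range h, ∑ j ∈ Finset.range h,
      Set.indicator {t | Nxt (X t) (lt γ t) W x j}
        (fun t => ENNReal.ofReal (gp t (-1) 0 (γ x t) (γ j t))) t =
      ∑ x ∈ s, ENNReal.ofReal (gp t (-1) 0 (γ x t) (γ (σ x) t)) := by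
    have h1 : ∀ F : ℤ → ℝ≥0∞, ∑ x ∈ Finset.range h, F x = ∑ x ∈ Finset.Ico (0 : ℤ) h, F x := by
      intro F
      refine Finset.sum_nbij (fun n : ℕ => (n : ℤ)) ?_ ?_ ?_ ?_
      · intro n hn
        simp only [Finset.mem_Ico, Finset.mem_range] at hn ⊢
        omega
      · intro a _ b _ hab
        simpa using hab
      · intro z hz
        simp only [Finset.coe_Ico, Set.mem_Ico] at hz
        refine ⟨z.toNat, ?_, by simp [hz.1]⟩
        simp only [Finset.coe_range, Set.mem_Iio]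
        omega
      · intro n _
        rfl
    rw [h1 fun x => ∑ j ∈ Finset.range h, Set.indicator {t | Nxt (X t) (lt γ t) W x j}
        (fun t => ENNReal.ofReal (gp t (-1) 0 (γ x t) (γ j t))) t]
    have h2 : s ⊆ Finset.Ico (0 : ℤ) h := by
      intro i hi
      have := hsW i hi
      rw [hW, Set.mem_Ico] at this
      rw [Finset.mem_Ico]
      exact this
    rw [← Finset.sum_subset h2]
    · refine Finset.sum_congr rfl fun x hx => ?_
      rw [h1 fun j => Set.indicator {t | Nxt (X t) (lt γ t) W x j}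
        (fun t => ENNReal.ofReal (gp t (-1) 0 (γ x t) (γ j t))) t]
      have hxm : x ∈ X t ∩ W := ⟨hsX x hx, hsW x hx⟩
      have hσx : σ x ∈ X t ∩ W := hbij.mapsTo hxm
      rw [Finset.sum_eq_single_of_mem (σ x)]
      · rw [Set.indicator_of_mem]
        exact (hσ x hxm _).2 rfl
      · have := hσx.2
        rw [hW, Set.mem_Ico] at this
        rw [Finset.mem_Ico]
        exact this
      · intro j _ hj
        refine Set.indicator_of_notMem ?_ _
        intro hN
        exact hj ((hσ x hxm j).1 hN)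
    · intro x _ hx
      refine Finset.sum_eq_zero fun j _ => Set.indicator_of_notMem ?_ _
      intro hN
      exact hx (hfin.mem_toFinset.2 hN.1)
  rw [e1]
  rcases s.eq_empty_or_nonempty with h0 | hne
  · rw [h0]
    simp
  -- top and bottom
  obtain ⟨tp, htp, hmax⟩ := hsto.exists_max s hsX hne
  have hσlt : ∀ i ∈ s, i ≠ tp → lt γ t i (σ i) := by
    intro i hi hit
    have him : i ∈ X t ∩ W := ⟨hsX i hi, hsW i hi⟩
    have hN := (hσ i him _).2 rfl
    rcases hN.2.2 with h1 | h1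
    · exact h1.1
    · exact absurd (hmax i hi hit) (h1 tp (hsW tp htp) (hsX tp htp)).1
  have hkey := cyc_sum_le hsto hsX hbij' htp rfl hσlt
    (fun i u => fU t 0 (γ i t) (u, 0)) (fun i w => fD t (-1) (γ i t) (w, -1))
    (fun u w => passageTime t (w, -1) (u, 0)) (fun i => pu 0 (γ i t)) (fun i => pd (-1) (γ i t))
    (h : ℤ) (-(m0 : ℤ)) (fun i hi => by
      rw [hlU i (hsX i hi)]
      have := hsW i hi
      rw [hW, Set.mem_Ico] at this
      exact this.2.le) (fun i hi => by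
      have h1 := hlD i (hsX i hi)
      have h2 := hsW i hi
      rw [hW, Set.mem_Ico] at h2
      rw [abs_le] at h1
      omega) (fun i _ j _ hij => monotone_fU hij.1) (fun i _ j _ hij => antitone_fD hij.1)
  have e2 : ∑ x ∈ s, ENNReal.ofReal (gp t (-1) 0 (γ x t) (γ (σ x) t)) =
      ENNReal.ofReal (∑ x ∈ s, gp t (-1) 0 (γ x t) (γ (σ x) t)) :=
    (ENNReal.ofReal_sum_of_nonneg fun i hi =>
      gp_nonneg hpos (hbig i (hsX i hi)) (hud i (hsX i hi)) (by norm_num) _).symm
  rw [e2]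
  refine ENNReal.ofReal_le_ofReal ?_
  have e3 : ∑ x ∈ s, gp t (-1) 0 (γ x t) (γ (σ x) t) = ∑ i ∈ s,
      ((fU t 0 (γ i t) (pu 0 (γ (σ i) t), 0) + passageTime t (pd (-1) (γ (σ i) t), -1)
          (pu 0 (γ (σ i) t), 0) + fD t (-1) (γ i t) (pd (-1) (γ (σ i) t), -1)) -
        (fU t 0 (γ i t) (pu 0 (γ i t), 0) + passageTime t (pd (-1) (γ i t), -1)
          (pu 0 (γ i t), 0) + fD t (-1) (γ i t) (pd (-1) (γ i t), -1))) := by
    refine Finset.sum_congr rfl fun i _ => ?_
    unfold gp Ps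
    ring
  rw [e3]
  refine hkey.trans ?_
  -- bounds
  have hbs : σ tp ∈ s := hbij'.mapsTo htp
  set b := σ tp with hb
  have hlab : ∀ i ∈ s, (∀ e, |H.inc (fun u => fU t 0 (γ i t) (u, 0)) e| ≤ tU t e) ∧
      ∀ e, |H.inc (fun w => fD t (-1) (γ i t) (w, -1)) e| ≤ tD t e := by
    intro i hi
    have h1 := fun e => H.inc_lab_le ht0 (hbig i (hsX i hi)) (hud i (hsX i hi)) 0 (-1) e
    exact ⟨fun e => (h1 e).1, fun e => (h1 e).2⟩
  have hbW : 0 ≤ b ∧ b < h := by
    have := hsW b hbs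
    rwa [hW, Set.mem_Ico] at this
  have hpub : pu 0 (γ b t) = b := hlU b (hsX b hbs)
  have hpdb := hlD b (hsX b hbs)
  rw [abs_le] at hpdb
  have a1 := abs_sub_le_sum (hlab tp htp).1 (x := pu 0 (γ b t)) (y := (h : ℤ)) (by omega)
  have a2 := abs_sub_le_sum (hlab b hbs).1 (x := pu 0 (γ b t)) (y := (h : ℤ)) (by omega)
  have a3 := abs_sub_le_sum (hlab tp htp).2 (x := -(m0 : ℤ)) (y := pd (-1) (γ b t)) (by omega)
  have a4 := abs_sub_le_sum (hlab b hbs).2 (x := -(m0 : ℤ)) (y := pd (-1) (γ b t)) (by omega)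
  have b1 := sum_Ico_mono htU (x := pu 0 (γ b t)) (y := (h : ℤ)) (x' := 0) (y' := (h : ℤ))
    (by omega) le_rfl
  have b2 := sum_Ico_mono htD (x := -(m0 : ℤ)) (y := pd (-1) (γ b t)) (x' := -(m0 : ℤ))
    (y' := (h : ℤ) + m0) le_rfl (by omega)
  rw [abs_le] at a1 a2 a3 a4
  linarith [a1.1, a1.2, a2.1, a2.2, a3.1, a3.2, a4.1, a4.2]



variable {G : Measure ℝ} [IsProbabilityMeasure G]

theorem integral_row (hG : M51.Law213 G) {B : Set ℤ} (hB : M51.Thick B) (hB' : B.OrdConnected)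
    {k : ℤ} (hk : k ∈ B) (e : ℤ) :
    Integrable (fun t => K.pR t {z : ℤ × ℤ | z.2 ∈ B} (e, k) (e + 1, k)) (iidLaw G) ∧
      ∫ t, K.pR t {z : ℤ × ℤ | z.2 ∈ B} (e, k) (e + 1, k) ∂(iidLaw G) ≤ K.cM G := by
  have hR := K.regMom_row hG hB hB'
  refine ⟨hR.int _ hk _ hk, ?_⟩
  have h2 := hR.le (e, k) hk (e + 1, k) hk
  have h3 : (K.n1 (((e + 1, k) : ℤ × ℤ) - (e, k)) : ℝ) = 1 := by
    simp [K.n1]
  rwa [h3, mul_one] at h2

theorem integral_tU (hG : M51.Law213 G) (e : ℤ) :
    Integrable (fun t => tU t e) (iidLaw G) ∧ ∫ t, tU t e ∂(iidLaw G) ≤ K.cM G :=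
  integral_row hG (M51.thick_Ici 0) Set.ordConnected_Ici (k := 0) (by simp) e

theorem integral_tD (hG : M51.Law213 G) (e : ℤ) :
    Integrable (fun t => tD t e) (iidLaw G) ∧ ∫ t, tD t e ∂(iidLaw G) ≤ K.cM G :=
  integral_row hG (M51.thick_Iic (-1)) Set.ordConnected_Iic (k := -1) (by simp) e

/-- the averaged cyclic sum -/
theorem hcyc (D : Sel0 (iidLaw G) γ X m0) (hG : M51.Law213 G) (h : ℕ) :
    ∑ x ∈ Finset.range h, ∑ j ∈ Finset.range h,
      ∫⁻ t, Set.indicator {t | Nxt (X t) (lt γ t) (Set.Ico 0 (h : ℤ)) x j}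
        (fun t => ENNReal.ofReal (gp t (-1) 0 (γ x t) (γ j t))) t ∂(iidLaw G) ≤
      ENNReal.ofReal ((4 + 4 * m0) * K.cM G) * h := by
  rcases Nat.eq_zero_or_pos h with rfl | hh
  · simp
  have hmeas : ∀ x j : ℤ, AEMeasurable (fun t => Set.indicator
      {t | Nxt (X t) (lt γ t) (Set.Ico 0 (h : ℤ)) x j}
        (fun t => ENNReal.ofReal (gp t (-1) 0 (γ x t) (γ j t))) t) (iidLaw G) := fun x j =>
    ((D.measurable_gap x j (-1) 0).ennreal_ofReal.aemeasurable).indicator₀
      (D.toPField.toLField.nullMeasurable_nxt _ x j)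
  have e1 : ∑ x ∈ Finset.range h, ∑ j ∈ Finset.range h,
      ∫⁻ t, Set.indicator {t | Nxt (X t) (lt γ t) (Set.Ico 0 (h : ℤ)) x j}
        (fun t => ENNReal.ofReal (gp t (-1) 0 (γ x t) (γ j t))) t ∂(iidLaw G) =
      ∫⁻ t, ∑ x ∈ Finset.range h, ∑ j ∈ Finset.range h,
        Set.indicator {t | Nxt (X t) (lt γ t) (Set.Ico 0 (h : ℤ)) x j}
        (fun t => ENNReal.ofReal (gp t (-1) 0 (γ x t) (γ j t))) t ∂(iidLaw G) := by
    rw [lintegral_finsetSum' (Finset.range h) (f := fun (x : ℕ) t => ∑ j ∈ Finset.range h,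
        Set.indicator {t | Nxt (X t) (lt γ t) (Set.Ico 0 (h : ℤ)) x j}
        (fun t => ENNReal.ofReal (gp t (-1) 0 (γ x t) (γ j t))) t)
        fun x _ => Finset.aemeasurable_fun_sum _ fun j _ => hmeas x j]
    refine Finset.sum_congr rfl fun x _ => ?_
    rw [lintegral_finsetSum' (Finset.range h) (f := fun (j : ℕ) t =>
        Set.indicator {t | Nxt (X t) (lt γ t) (Set.Ico 0 (h : ℤ)) x j}
        (fun t => ENNReal.ofReal (gp t (-1) 0 (γ x t) (γ j t))) t) fun j _ => hmeas x j]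
  rw [e1]
  have hint : Integrable (fun t => 2 * ∑ e ∈ Finset.Ico (0 : ℤ) h, tU t e +
        2 * ∑ e ∈ Finset.Ico (-(m0 : ℤ)) (h + m0), tD t e) (iidLaw G) :=
    ((integrable_finsetSum _ fun e _ => (integral_tU hG e).1).const_mul 2).add
      ((integrable_finsetSum _ fun e _ => (integral_tD hG e).1).const_mul 2)
  have hc0 := K.cM_nonneg G
  calc _ ≤ ∫⁻ t, ENNReal.ofReal (2 * ∑ e ∈ Finset.Ico (0 : ℤ) h, tU t e +
        2 * ∑ e ∈ Finset.Ico (-(m0 : ℤ)) (h + m0), tD t e) ∂(iidLaw G) := by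
        refine lintegral_mono_ae ?_
        filter_upwards [D.cyc_pointwise] with t ht using ht h
    _ = ENNReal.ofReal (∫ t, (2 * ∑ e ∈ Finset.Ico (0 : ℤ) h, tU t e +
        2 * ∑ e ∈ Finset.Ico (-(m0 : ℤ)) (h + m0), tD t e) ∂(iidLaw G)) := by
        rw [ofReal_integral_eq_lintegral_ofReal hint]
        filter_upwards [D.pos] with t hpos
        have ht0 : ∀ e, 0 ≤ t e := fun e => (hpos e).le
        have h1 : 0 ≤ ∑ e ∈ Finset.Ico (0 : ℤ) h, tU t e :=
          Finset.sum_nonneg fun e _ => K.pR_nonneg ht0 _ _ _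
        have h2 : 0 ≤ ∑ e ∈ Finset.Ico (-(m0 : ℤ)) (h + m0), tD t e :=
          Finset.sum_nonneg fun e _ => K.pR_nonneg ht0 _ _ _
        simp only [Pi.zero_apply]
        linarith
    _ ≤ ENNReal.ofReal (((4 + 4 * m0) * K.cM G) * h) := by
        refine ENNReal.ofReal_le_ofReal ?_
        rw [integral_add ((integrable_finsetSum _ fun e _ => (integral_tU hG e).1).const_mul 2)
          ((integrable_finsetSum _ fun e _ => (integral_tD hG e).1).const_mul 2),
          integral_const_mul, integral_const_mul,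
          integral_finsetSum _ fun e _ => (integral_tU hG e).1,
          integral_finsetSum _ fun e _ => (integral_tD hG e).1]
        have h1 := Finset.sum_le_card_nsmul (Finset.Ico (0 : ℤ) h)
          (fun e => ∫ t, tU t e ∂(iidLaw G)) (K.cM G) fun e _ => (integral_tU hG e).2
        have h2 := Finset.sum_le_card_nsmul (Finset.Ico (-(m0 : ℤ)) (h + m0))
          (fun e => ∫ t, tD t e ∂(iidLaw G)) (K.cM G) fun e _ => (integral_tD hG e).2
        rw [Int.card_Ico, nsmul_eq_mul] at h1 h2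
        have c1 : (((h : ℤ) - 0).toNat : ℝ) = h := by simp
        have c2 : ((((h : ℤ) + m0) - -(m0 : ℤ)).toNat : ℝ) = h + 2 * m0 := by
          have : ((h : ℤ) + m0 - -(m0 : ℤ)).toNat = h + 2 * m0 := by omega
          rw [this]
          push_cast
          ring
        rw [c1] at h1
        rw [c2] at h2
        have h3 : (m0 : ℝ) * K.cM G ≤ m0 * K.cM G * h := by
          have : (1 : ℝ) ≤ h := by exact_mod_cast hh
          exact le_mul_of_one_le_right (by positivity) this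
        nlinarith
    _ = ENNReal.ofReal ((4 + 4 * m0) * K.cM G) * h := by
        rw [ENNReal.ofReal_mul (by positivity), ENNReal.ofReal_natCast]

/-- **existence of successors for percolation**; the remaining input is LFE + goodness -/
theorem ae_exists_succ (D : Sel0 (iidLaw G) γ X m0) (hG : M51.Law213 G)
    (hgood : ∀ K : ℝ, 0 < K → ∀ β : ℝ≥0∞, 0 < β → ∃ Gd : Environment → Set ℤ,
      (∀ x, NullMeasurableSet {t | x ∈ Gd t} (iidLaw G)) ∧
      (∀ z t x, x ∈ Gd (A.shift (z, 0) t) ↔ x + z ∈ Gd t) ∧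
      (iidLaw G) {t | (0 : ℤ) ∈ X t ∧ (0 : ℤ) ∉ Gd t} ≤ β ∧
      ∀ᵐ t ∂(iidLaw G), (0 : ℤ) ∈ X t → (0 : ℤ) ∈ Gd t →
        {j : ℤ | j ∈ X t ∧ j ∈ Gd t ∧ gp t (-1) 0 (γ 0 t) (γ j t) ≤ K}.Finite) :
    ∀ᵐ t ∂(iidLaw G), ∀ x ∈ X t, ∃ j, IsSucc (X t) (lt γ t) x j :=
  D.toPField.toLField.ae_exists_succ (gap := fun t x y => gp t (-1) 0 (γ x t) (γ y t))
    (fun x y _ => (measurableSet_le (D.measurable_gap x y (-1) 0)
      measurable_const).nullMeasurableSet)
    (fun z t x y => D.gap_cov z x y t (-1) 0) ENNReal.ofReal_ne_top (D.hcyc hG) hgood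

end Sel0

end Crest.Agent.R151.F592
end

-- ▼ part R151/E39f
section

/-!
# R151, block E39f (helper39), [HG]: LFE + CLASS + goodness ⟹ `hgood` of F592

* `RowFam` : the slope family of one row (upper or lower side);
* `LabSet` : the labels on the rows `±j` with a slope in `(-q, q)`; it is a function of the edges off
  the strip, `classHyp_labSet`;
* `lab_mem_labSet` : the label of a bigeodesic belongs to `LabSet`;
* `hgood_of_rows` : the input `hgood` of `F592.Sel0.ae_exists_succ`.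
-/

set_option autoImplicit false

open MeasureTheory ProbabilityTheory Set Filter
open scoped ENNReal Topology
open Crest.ProbabilityR.FirstPassage

namespace Crest.Agent.R151.E39

open Crest.Agent.R151 Crest.Agent.R151.Y Crest.Agent.R151.SEL Crest.Agent.R151.H

/-- The slope family of one row `j`: functions of the region `R`; `σ = -1` for the upper side,
`σ = 1` for the lower side. -/
structure RowFam (G : Measure ℝ) (D : Set ℝ) (R : Set (ℤ × ℤ)) (j : ℤ) (σ : ℝ)
    (f : ℝ → Environment → ℤ → ℝ) : Prop where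
  mean : MeanFam (iidLaw G) D f 0 σ
  dep : ∀ p ∈ D, ∀ t t' : Environment, (∀ e ∈ K.edgesIn R, t e = t' e) →
    ∀ x, inc (f p t) x = inc (f p t') x
  slope : ∀ p ∈ D, ∀ᵐ t ∂(iidLaw G), HasSlope (f p t) (σ * p)
  cov : ∀ p ∈ D, ∀ᵐ t ∂(iidLaw G), ∀ y : ℤ, G785.IncCov (f p) y t
  cmp : ∀ p ∈ D, ∀ᵐ t ∂(iidLaw G), ∀ u : ℕ → ℤ × ℤ, IsRay t (reg R) u →
    (∀ N : ℤ, ∃ n, N ≤ |(u n).2|) → Cmp (f p t) (fun x => bus t (reg R) u (x, j))

/-- labels on the rows `j`, `-j` with a slope in `(-q, q)` -/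
def LabSet (D : Set ℝ) (q : ℝ) (j : ℤ) (f g : ℝ → Environment → ℤ → ℝ) (t : Environment) :
    Set ((ℤ → ℝ) × (ℤ → ℝ)) :=
  {a | (∃ u, IsRay t (reg (Up j)) u ∧ a.1 = fun x => bus t (reg (Up j)) u (x, j)) ∧
    (∃ u, IsRay t (reg (Dn (-j))) u ∧ a.2 = fun x => bus t (reg (Dn (-j))) u (x, -j)) ∧
    ∃ s, -q < s ∧ s < q ∧ Sand D (fun p => f p t) s a.1 ∧ SandUp D (fun p => g p t) s a.2}

section det

variable {D : Set ℝ} {q : ℝ} {j : ℤ} {f g : ℝ → Environment → ℤ → ℝ} {t t' : Environment}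

lemma reg_edge {R : Set (ℤ × ℤ)} {e : Sym2 (ℤ × ℤ)} (he : e ∈ (reg R).edgeSet) :
    e ∈ K.edgesIn R := by
  induction e with
  | _ x y =>
    rw [SimpleGraph.mem_edgeSet, reg_adj] at he
    intro z hz
    rw [Sym2.mem_iff] at hz
    rcases hz with rfl | rfl
    · exact he.2.1
    · exact he.2.2

lemma bus_congr {V : Type*} {H : SimpleGraph V} {t t' : Sym2 V → ℝ}
    (h : ∀ e ∈ H.edgeSet, t e = t' e) (u : ℕ → V) (x : V) : bus t H u x = bus t' H u x := by
  unfold bus
  simp only [pt_congr h]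

lemma labSet_subset (hf : ∀ p ∈ D, ∀ x, inc (f p t) x = inc (f p t') x)
    (hg : ∀ p ∈ D, ∀ x, inc (g p t) x = inc (g p t') x)
    (hU : ∀ e ∈ K.edgesIn (Up j), t e = t' e) (hD : ∀ e ∈ K.edgesIn (Dn (-j)), t e = t' e) :
    LabSet D q j f g t ⊆ LabSet D q j f g t' := by
  rintro a ⟨⟨u, hu, hau⟩, ⟨u', hu', hau'⟩, s, h1, h2, h3, h4⟩
  have eU : ∀ e ∈ (reg (Up j)).edgeSet, t e = t' e := fun e he => hU e (reg_edge he)
  have eD : ∀ e ∈ (reg (Dn (-j))).edgeSet, t e = t' e := fun e he => hD e (reg_edge he)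
  refine ⟨⟨u, hu.congr eU, ?_⟩, ⟨u', hu'.congr eD, ?_⟩, s, h1, h2,
    ⟨fun p hp hps x => ?_, fun p hp hps x => ?_⟩, ⟨fun p hp hps x => ?_, fun p hp hps x => ?_⟩⟩
  · rw [hau]; funext x; exact bus_congr eU u _
  · rw [hau']; funext x; exact bus_congr eD u' _
  · rw [← hf p hp]; exact h3.le p hp hps x
  · rw [← hf p hp]; exact h3.ge p hp hps x
  · rw [← hg p hp]; exact h4.ge p hp hps x
  · rw [← hg p hp]; exact h4.le p hp hps x

/-- edges off the strip `|y| ≤ k` -/
lemma notMem_strip_of_up {k : ℕ} {e : Sym2 (ℤ × ℤ)} (he : e ∈ K.edgesIn (Up ((k : ℤ) + 1))) :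
    e ∉ strip k := by
  rintro ⟨a, b, rfl, -, ha⟩
  have h1 : (k : ℤ) + 1 ≤ a.2 := he a (by simp)
  rw [abs_le] at ha
  omega

lemma notMem_strip_of_dn {k : ℕ} {e : Sym2 (ℤ × ℤ)}
    (he : e ∈ K.edgesIn (Dn (-((k : ℤ) + 1)))) : e ∉ strip k := by
  rintro ⟨a, b, rfl, -, ha⟩
  have h1 : a.2 ≤ -((k : ℤ) + 1) := he a (by simp)
  rw [abs_le] at ha
  omega

/-- the squeeze of the upper component -/
lemma sqz_up {a : (ℤ → ℝ) × (ℤ → ℝ)} (ha : a ∈ LabSet D q j f g t) {p1 p2 : ℝ} (hp1 : p1 ∈ D)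
    (hp2 : p2 ∈ D) (h1 : p1 ≤ -q) (h2 : q ≤ p2) : G785.Sqz (f p2 t) (f p1 t) a.1 := by
  obtain ⟨-, -, s, hs1, hs2, h3, -⟩ := ha
  exact fun x => ⟨h3.ge p2 hp2 (by linarith) x, h3.le p1 hp1 (by linarith) x⟩

lemma sqz_dn {a : (ℤ → ℝ) × (ℤ → ℝ)} (ha : a ∈ LabSet D q j f g t) {p1 p2 : ℝ} (hp1 : p1 ∈ D)
    (hp2 : p2 ∈ D) (h1 : p1 ≤ -q) (h2 : q ≤ p2) : G785.Sqz (g p1 t) (g p2 t) a.2 := by
  obtain ⟨-, -, s, hs1, hs2, -, h4⟩ := ha
  exact fun x => ⟨h4.ge p1 hp1 (by linarith) x, h4.le p2 hp2 (by linarith) x⟩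

/-- the increments of a comparable pair are ordered by the slopes -/
lemma inc_le_of_cmp {h h' : ℤ → ℝ} {c c' : ℝ} (hh : HasSlope h c) (hh' : HasSlope h' c')
    (hlt : c < c') (hc : Cmp h h') (x : ℤ) : inc h x ≤ inc h' x := by
  rcases hc with hc | hc
  · exact hc x
  · exfalso
    have hle : c' ≤ c := by
      have key : ∀ x : ℤ, 0 ≤ x → h' x - h' 0 ≤ h x - h 0 := by
        intro x hx
        exact G785.inc_le_of_step (p := h') (f := h) (fun y => hc y) hx
      have l1 : Tendsto (fun x : ℤ => (h' x - h' 0) / x) atTop (𝓝 c') := by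
        have := (hh'.add_const (-(h' 0))).top
        simpa [sub_eq_add_neg] using this
      have l2 : Tendsto (fun x : ℤ => (h x - h 0) / x) atTop (𝓝 c) := by
        have := (hh.add_const (-(h 0))).top
        simpa [sub_eq_add_neg] using this
      refine le_of_tendsto_of_tendsto l1 l2 ?_
      filter_upwards [eventually_gt_atTop (0 : ℤ)] with x hx
      have hx' : (0 : ℝ) < x := by exact_mod_cast hx
      exact div_le_div_of_nonneg_right (key x hx.le) hx'.le
    linarith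

lemma tailU_high {v : ℤ → ℤ × ℤ} (hv : UpDown v) (j : ℤ) (N : ℤ) :
    ∃ n, N ≤ |(tailU j v n).2| := by
  have h1 : Tendsto (fun n : ℕ => (tailU j v n).2) atTop atTop :=
    hv.1.comp (tendsto_atTop_add_const_left _ (entU j v) tendsto_natCast_atTop_atTop)
  obtain ⟨n, hn⟩ := (h1.eventually (eventually_ge_atTop N)).exists
  exact ⟨n, hn.trans (le_abs_self _)⟩

lemma tailD_high {v : ℤ → ℤ × ℤ} (hv : UpDown v) (j : ℤ) (N : ℤ) :
    ∃ n, N ≤ |(tailD j v n).2| := by
  have h0 : Tendsto (fun n : ℕ => entD j v - (n : ℤ)) atTop atBot := by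
    refine tendsto_atBot.2 fun b => ?_
    filter_upwards [eventually_ge_atTop (entD j v - b).toNat] with n hn
    omega
  have h1 : Tendsto (fun n : ℕ => (tailD j v n).2) atTop atBot := hv.2.comp h0
  obtain ⟨n, hn⟩ := (h1.eventually (eventually_le_atBot (-N))).exists
  refine ⟨n, le_trans ?_ (neg_le_abs _)⟩
  omega

/-- **the label of a bigeodesic is in `LabSet`** -/
lemma lab_mem_labSet (ht : ∀ e, 0 ≤ t e) {v : ℤ → ℤ × ℤ} (hv : IsBigeodesic t v)
    (hvU : UpDown v) {s : ℝ} (hs1 : -q < s) (hs2 : s < q)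
    (hup : HasSlope (fun x => fU t j v (x, j)) (-s))
    (hdn : HasSlope (fun x => fD t (-j) v (x, -j)) s)
    (hfs : ∀ p ∈ D, HasSlope (f p t) (-1 * p)) (hgs : ∀ p ∈ D, HasSlope (g p t) (1 * p))
    (hfc : ∀ p ∈ D, ∀ u : ℕ → ℤ × ℤ, IsRay t (reg (Up j)) u → (∀ N : ℤ, ∃ n, N ≤ |(u n).2|) →
      Cmp (f p t) (fun x => bus t (reg (Up j)) u (x, j)))
    (hgc : ∀ p ∈ D, ∀ u : ℕ → ℤ × ℤ, IsRay t (reg (Dn (-j))) u →
      (∀ N : ℤ, ∃ n, N ≤ |(u n).2|) → Cmp (g p t) (fun x => bus t (reg (Dn (-j))) u (x, -j))) :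
    lab t j (-j) v ∈ LabSet D q j f g t := by
  have hrU := isRay_tailU hv ht hvU j
  have hrD := isRay_tailD hv ht hvU (-j)
  refine ⟨⟨tailU j v, hrU, rfl⟩, ⟨tailD (-j) v, hrD, rfl⟩, s, hs1, hs2,
    ⟨fun p hp hps x => ?_, fun p hp hps x => ?_⟩, ⟨fun p hp hps x => ?_, fun p hp hps x => ?_⟩⟩
  · exact inc_le_of_cmp hup (hfs p hp) (by linarith)
      (hfc p hp _ hrU (tailU_high hvU j)).symm x
  · exact inc_le_of_cmp (hfs p hp) hup (by linarith)
      (hfc p hp _ hrU (tailU_high hvU j)) x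
  · exact inc_le_of_cmp (hgs p hp) hdn (by linarith)
      (hgc p hp _ hrD (tailD_high hvU (-j))) x
  · exact inc_le_of_cmp hdn (hgs p hp) (by linarith)
      (hgc p hp _ hrD (tailD_high hvU (-j))).symm x

end det

section class_

variable {G : Measure ℝ} [IsProbabilityMeasure G]

/-- lower rays: increments along the boundary line are comparable (by reflection of 635's
`inc_total`) -/
lemma cmp_rays_up {t : Environment} (hnt : NoTies t) (ht : ∀ e, 0 ≤ t e) {j : ℤ}
    {u w : ℕ → ℤ × ℤ} (hu : IsRay t (reg (Up j)) u) (hw : IsRay t (reg (Up j)) w) :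
    Cmp (fun x => bus t (reg (Up j)) u (x, j)) (fun x => bus t (reg (Up j)) w (x, j)) := by
  rcases inc_total hnt ht hu hw with h | h
  · exact Or.inr fun x => h (x, j) (x + 1, j) rfl rfl (by simp)
  · exact Or.inl fun x => h (x, j) (x + 1, j) rfl rfl (by simp)

lemma cmp_rays_dn {t : Environment} (hnt : NoTies t) (ht : ∀ e, 0 ≤ t e) {j : ℤ}
    {u w : ℕ → ℤ × ℤ} (hu : IsRay t (reg (Dn j)) u) (hw : IsRay t (reg (Dn j)) w) :
    Cmp (fun x => bus t (reg (Dn j)) u (x, j)) (fun x => bus t (reg (Dn j)) w (x, j)) := by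
  have hm : RFL.Mir RFL.ry (Up (-j)) (Dn j) := RFL.mir_SEL_up' j
  rw [RFL.isRay_refl hm] at hu hw
  have h := cmp_rays_up (RFL.noTies_refl.2 hnt) (RFL.nonneg_refl.2 ht) hu hw
  have e1 : (fun x => bus t (reg (Dn j)) u (x, j)) = fun x =>
      bus (N.refl t) (reg (Up (-j))) (fun k => ((u k).1, -(u k).2)) (x, -j) := by
    funext x
    rw [RFL.bus_refl hm]
  have e2 : (fun x => bus t (reg (Dn j)) w (x, j)) = fun x =>
      bus (N.refl t) (reg (Up (-j))) (fun k => ((w k).1, -(w k).2)) (x, -j) := by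
    funext x
    rw [RFL.bus_refl hm]
  rw [e1, e2]
  exact h

open Classical in
/-- the slope of a label (junk value if there is none) -/
noncomputable def slOf (D : Set ℝ) (q : ℝ) (f g : ℝ → Environment → ℤ → ℝ) (t : Environment)
    (a : (ℤ → ℝ) × (ℤ → ℝ)) : ℝ :=
  if h : ∃ s, -q < s ∧ s < q ∧ Sand D (fun p => f p t) s a.1 ∧ SandUp D (fun p => g p t) s a.2
  then h.choose else 0

lemma slOf_spec {D : Set ℝ} {q : ℝ} {j : ℤ} {f g : ℝ → Environment → ℤ → ℝ} {t : Environment}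
    {a : (ℤ → ℝ) × (ℤ → ℝ)} (ha : a ∈ LabSet D q j f g t) :
    -q < slOf D q f g t a ∧ slOf D q f g t a < q ∧
      Sand D (fun p => f p t) (slOf D q f g t a) a.1 ∧
      SandUp D (fun p => g p t) (slOf D q f g t a) a.2 := by
  obtain ⟨-, -, h⟩ := ha
  unfold slOf
  rw [dif_pos h]
  exact h.choose_spec

/-- **CLASS for the labels of the rows `±j`** -/
theorem classHyp_labSet [NullSingletonClass G] (hG : M51.Law213 G) {D : Set ℝ} {q : ℝ} {j : ℤ}
    (hj : 1 ≤ j) (hDd : ∀ x y, -q < x → x < y → y < q → ∃ p ∈ D, x < p ∧ p < y)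
    {f g : ℝ → Environment → ℤ → ℝ} (hf : RowFam G D (Up j) j (-1) f)
    (hg : RowFam G D (Dn (-j)) (-j) 1 g) : ClassHyp G (LabSet D q j f g) := by
  have hat : ∀ x, G {x} = 0 := fun x => measure_singleton x
  have hnt := ae_noTies (G := G) hat
  have hnn : ∀ᵐ t ∂(iidLaw G), K.Nn t := K.ae_Nn hG.h0
  have hdis : Disjoint (K.edgesIn (Up j)) (K.edgesIn (Dn (-j))) :=
    disjoint_edges (show -j < j by omega)
  have hc := chain_env G hDd hdis hf.mean hg.mean
    (fun p hp x t t' h => hf.dep p hp t t' h x) (fun p hp x t t' h => hg.dep p hp t t' h x)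
  have htot := labels_total hDd hc (L := LabSet D q j f g) (sl := slOf D q f g)
    (Eventually.of_forall fun t a ha => slOf_spec ha)
    (by
      filter_upwards [hnt, hnn] with t h1 h2 a ha b hb _
      obtain ⟨u, hu, hau⟩ := ha.1
      obtain ⟨w, hw, hbw⟩ := hb.1
      rw [hau, hbw]
      exact cmp_rays_up h1 h2 hu hw)
    (by
      filter_upwards [hnt, hnn] with t h1 h2 a ha b hb _
      obtain ⟨u, hu, hau⟩ := ha.2.1
      obtain ⟨w, hw, hbw⟩ := hb.2.1
      rw [hau, hbw]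
      exact cmp_rays_dn h1 h2 hu hw)
  refine class_rows hG j (-j) htot ?_ one_pos
  filter_upwards [hnn] with t h2 a ha x
  obtain ⟨⟨u, hu, hau⟩, ⟨w, hw, hbw⟩, -⟩ := ha
  rw [hau, hbw]
  exact ⟨abs_inc_le_of_isLip (isLip_bus h2 hu) (by simp [Up]) (by simp [Up]),
    abs_inc_le_of_isLip (isLip_bus h2 hw) (by simp [Dn]) (by simp [Dn])⟩

end class_

section good

variable {G : Measure ℝ} [IsProbabilityMeasure G]

open F592 in
/-- **[HG]** the input `hgood` of `F592.Sel0.ae_exists_succ` -/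
theorem hgood_of_rows [NullSingletonClass G] (hG : M51.Law213 G) {μ : ℝ × ℝ → ℝ} {m : ℝ}
    (hm0 : 0 < m) (hm : ∀ x y : ℝ, m * |x| ≤ μ (x, y))
    (hS : ∀ᵐ t ∂(iidLaw G), ∀ ε > 0, ∀ᶠ n : ℕ in atTop, K.dev μ n t ≤ ε * n)
    {D : Set ℝ} (hDc : D.Countable) (hDm : D ⊆ Ioo (-m) m)
    (hDd : ∀ x y, -m < x → x < y → y < m → ∃ p ∈ D, x < p ∧ p < y)
    (hrows : ∀ j : ℤ, 1 ≤ j → ∃ f g : ℝ → Environment → ℤ → ℝ,
      RowFam G D (Up j) j (-1) f ∧ RowFam G D (Dn (-j)) (-j) 1 g)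
    {γ : ℤ → Environment → ℤ → ℤ × ℤ} {X : Environment → Set ℤ} {m0 : ℕ}
    (S : Sel0 (iidLaw G) γ X m0) (sl : ℤ → Environment → ℝ) (hslm : ∀ x, Measurable (sl x))
    (hslc : ∀ z t x, sl x (A.shift (z, 0) t) = sl (x + z) t)
    (hsl : ∀ᵐ t ∂(iidLaw G), ∀ x ∈ X t, |sl x t| < m ∧ Y96.HasSl t (γ x t) (sl x t)) :
    ∀ κ : ℝ, 0 < κ → ∀ β : ℝ≥0∞, 0 < β → ∃ Gd : Environment → Set ℤ,
      (∀ x, NullMeasurableSet {t | x ∈ Gd t} (iidLaw G)) ∧
      (∀ z t x, x ∈ Gd (A.shift (z, 0) t) ↔ x + z ∈ Gd t) ∧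
      (iidLaw G) {t | (0 : ℤ) ∈ X t ∧ (0 : ℤ) ∉ Gd t} ≤ β ∧
      ∀ᵐ t ∂(iidLaw G), (0 : ℤ) ∈ X t → (0 : ℤ) ∈ Gd t →
        {j : ℤ | j ∈ X t ∧ j ∈ Gd t ∧ gp t (-1) 0 (γ 0 t) (γ j t) ≤ κ}.Finite := by
  intro κ hκ β hβ
  have hnn : ∀ᵐ t ∂(iidLaw G), K.Nn t := K.ae_Nn hG.h0
  -- a real bound
  obtain ⟨e, he, heβ⟩ : ∃ e : ℝ, 0 < e ∧ ENNReal.ofReal (4 * e) ≤ β := by
    rcases eq_or_ne β ⊤ with rfl | hβt
    · exact ⟨1, one_pos, le_top⟩
    · refine ⟨β.toReal / 4, by have := ENNReal.toReal_pos hβ.ne' hβt; linarith, ?_⟩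
      rw [mul_div_cancel₀ _ (by norm_num : (4 : ℝ) ≠ 0), ENNReal.ofReal_toReal hβt]
  -- the bound on the slope
  obtain ⟨c1, hc1m, hc1⟩ : ∃ c1 : ℝ, c1 < m ∧
      (iidLaw G).real {t | (0 : ℤ) ∈ X t → |sl 0 t| ≤ c1}ᶜ ≤ e := by
    have hmeas : ∀ n : ℕ, MeasurableSet {t | (0 : ℤ) ∈ X t → |sl 0 t| ≤ m - 1 / ((n : ℝ) + 1)} := by
      intro n
      exact F592.mset_imp (S.measX 0) (measurableSet_le (hslm 0).abs measurable_const)
    obtain ⟨n0, hn0⟩ := G785.exists_compl_le (iidLaw G)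
      (E := fun n : ℕ => {t | (0 : ℤ) ∈ X t → |sl 0 t| ≤ m - 1 / ((n : ℝ) + 1)}) hmeas
      (fun n n' hnn' t ht h => (ht h).trans (by
        have : (1 : ℝ) / ((n' : ℝ) + 1) ≤ 1 / ((n : ℝ) + 1) :=
          one_div_le_one_div_of_le (by positivity) (by
            have : (n : ℝ) ≤ n' := by exact_mod_cast hnn'
            linarith)
        linarith)) (by
        filter_upwards [hsl] with t ht
        by_cases h0 : (0 : ℤ) ∈ X t
        · have h1 := (ht 0 h0).1
          obtain ⟨n, hn⟩ := exists_nat_one_div_lt (show 0 < m - |sl 0 t| by linarith)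
          exact ⟨n, fun _ => by linarith⟩
        · exact ⟨0, fun h => absurd h h0⟩) he
    exact ⟨m - 1 / ((n0 : ℝ) + 1), by
      have : (0 : ℝ) < 1 / ((n0 : ℝ) + 1) := by positivity
      linarith, hn0 n0 le_rfl⟩
  set q : ℝ := (max c1 0 + m) / 2 with hq
  have hc1q : c1 < q := by
    have := le_max_left c1 0
    rw [hq]; linarith
  have hqm : q < m := by
    have : max c1 0 < m := max_lt hc1m hm0
    rw [hq]; linarith
  have hq0 : 0 < q := by
    have := le_max_right c1 0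
    rw [hq]; linarith
  obtain ⟨p2, hp2, hp2q, -⟩ := hDd q ((q + m) / 2) (by linarith) (by linarith) (by linarith)
  obtain ⟨p1, hp1, -, hp1q⟩ := hDd (-((q + m) / 2)) (-q) (by linarith) (by linarith) (by linarith)
  have hp2m := hDm hp2
  have hp1m := hDm hp1
  -- the constants of LFE
  obtain ⟨a, b, c, hab, hc, hga, hGM⟩ := G785.exists_GM (G := G) hG.h0
  obtain ⟨k0, hk0⟩ := lfe_cov_null_abc (G := G) hG.h0 hab hc hga κ
  obtain ⟨k, hkk0, hke⟩ : ∃ k : ℕ, k0 ≤ k ∧ ((1 : ℝ) / 2) ^ k ≤ e := by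
    have h1 : Tendsto (fun n : ℕ => ((1 : ℝ) / 2) ^ n) atTop (𝓝 0) :=
      tendsto_pow_atTop_nhds_zero_of_lt_one (by norm_num) (by norm_num)
    obtain ⟨n, hn⟩ := ((h1.eventually (ge_mem_nhds he)).and (eventually_ge_atTop k0)).exists
    exact ⟨n, hn.2, hn.1⟩
  set j : ℤ := (k : ℤ) + 1 with hj
  have hj1 : (1 : ℤ) ≤ j := by omega
  obtain ⟨f, g, hf, hg⟩ := hrows j hj1
  set L : Environment → Set ((ℤ → ℝ) × (ℤ → ℝ)) := LabSet D q j f g with hL
  have hclass : ClassHyp G L := classHyp_labSet hG hj1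
    (fun x y hx hxy hy => hDd x y (by linarith) hxy (by linarith)) hf hg
  have hLdep : ∀ t t' : Environment, (∀ e, e ∉ strip k → t e = t' e) → L t = L t' := by
    have key : ∀ t t' : Environment, (∀ e, e ∉ strip k → t e = t' e) → L t ⊆ L t' := by
      intro t t' h
      have hU : ∀ e ∈ K.edgesIn (Up j), t e = t' e := fun e he => h e (notMem_strip_of_up he)
      have hD : ∀ e ∈ K.edgesIn (Dn (-j)), t e = t' e := fun e he => h e (notMem_strip_of_dn he)
      exact labSet_subset (fun p hp x => hf.dep p hp t t' hU x)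
        (fun p hp x => hg.dep p hp t t' hD x) hU hD
    intro t t' h
    exact (key t t' h).antisymm (key t' t fun e he => (h e he).symm)
  -- goodness
  have hsqF : G785.SqzLaw G m (f p2) (f p1) := by
    refine ⟨hf.mean.meas p2 hp2, hf.mean.meas p1 hp1, -1 * p2, -1 * p1, ?_, ?_, ?_, ?_⟩
    · linarith [hp2m.2]
    · linarith [hp1m.1]
    · filter_upwards [hf.slope p2 hp2] with t ht using ht.top
    · filter_upwards [hf.slope p1 hp1] with t ht using ht.bot
  have hsqH : G785.SqzLaw G m (g p1) (g p2) := by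
    refine ⟨hg.mean.meas p1 hp1, hg.mean.meas p2 hp2, 1 * p1, 1 * p2, ?_, ?_, ?_, ?_⟩
    · linarith [hp1m.1]
    · linarith [hp2m.2]
    · filter_upwards [hg.slope p1 hp1] with t ht using ht.top
    · filter_upwards [hg.slope p2 hp2] with t ht using ht.bot
  obtain ⟨C0, hC0, hC0'⟩ := hGM μ m hm0.le hm hS k (f p2) (f p1) (g p1) (g p2) hsqF hsqH 0 e he
  obtain ⟨D0, hD0⟩ := hC0' C0 le_rfl
  set Dn' : ℕ := max D0 1 with hDn'
  have hGMp := hD0 Dn' (le_max_left _ _)
  set GM0 : Set Environment := G785.GM k Dn' C0 c b (f p2) (f p1) (g p1) (g p2) 0 with hGM0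
  have hGM0m : MeasurableSet GM0 := G785.measurableSet_GM (hf.mean.meas p2 hp2)
    (hf.mean.meas p1 hp1) (hg.mean.meas p1 hp1) (hg.mean.meas p2 hp2)
  obtain ⟨C, -, hfin⟩ := hk0 k hkk0 L hLdep hclass C0 Dn' hC0 (le_max_right _ _)
  set Gd : Environment → Set ℤ := fun t => {x | A.shift (x, 0) t ∈ GM0 ∧ |sl x t| ≤ c1} with hGd
  have hGdm : ∀ x, MeasurableSet {t | x ∈ Gd t} := by
    intro x
    exact F592.mset_and ((A.mp_shift G (x, 0)).measurable hGM0m)
      (measurableSet_le (hslm x).abs measurable_const)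
  have hGdc : ∀ z t x, x ∈ Gd (A.shift (z, 0) t) ↔ x + z ∈ Gd t := by
    intro z t x
    simp only [hGd, mem_ofPred_eq, A.shift_shift, hslc, Prod.mk_add_mk, add_zero]
  refine ⟨Gd, fun x => (hGdm x).nullMeasurableSet, hGdc, ?_, ?_⟩
  · -- probability
    have hsub : {t | (0 : ℤ) ∈ X t ∧ (0 : ℤ) ∉ Gd t} ⊆
        GM0ᶜ ∪ {t | (0 : ℤ) ∈ X t → |sl 0 t| ≤ c1}ᶜ := by
      rintro t ⟨h1, h2⟩
      by_cases h3 : t ∈ GM0
      · right
        intro h4
        refine h2 ⟨?_, h4 h1⟩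
        have : A.shift ((0 : ℤ), (0 : ℤ)) t = t := A.shift_zero t
        rwa [this]
      · exact Or.inl h3
    have h1 : (iidLaw G).real {t | (0 : ℤ) ∈ X t ∧ (0 : ℤ) ∉ Gd t} ≤ 4 * e := by
      refine (measureReal_mono hsub).trans ((measureReal_union_le _ _).trans ?_)
      linarith
    rw [← ENNReal.ofReal_toReal (measure_ne_top (iidLaw G) _)]
    exact (ENNReal.ofReal_le_ofReal h1).trans heβ
  · -- finiteness
    set E : ℤ → ℤ → Set Environment := fun x y =>
      {t | x ∈ X t ∧ x ∈ Gd t ∧ y ∈ X t ∧ y ∈ Gd t ∧ gp t (-1) 0 (γ x t) (γ y t) ≤ κ} with hE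
    have hEm : ∀ x y, MeasurableSet (E x y) := fun x y =>
      F592.mset_and (S.measX x) (F592.mset_and (hGdm x) (F592.mset_and (S.measX y)
        (F592.mset_and (hGdm y) (measurableSet_le (S.measurable_gap x y (-1) 0)
          measurable_const))))
    have hEc : ∀ x y, (iidLaw G) (E x y) = (iidLaw G) (E 0 (y - x)) := by
      intro x y
      have h1 : A.shift (x, 0) ⁻¹' (E 0 (y - x)) = E x y := by
        ext t
        simp only [hE, mem_preimage, mem_ofPred_eq, S.covX, hGdc, S.gap_cov, zero_add,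
          sub_add_cancel]
      rw [← h1, (A.mp_shift G (x, 0)).measure_preimage (hEm _ _).nullMeasurableSet]
    have hTwo : ∀ x y, ∀ᵐ t ∂(iidLaw G), t ∈ E x y → Two k Dn' κ C0 c b L x y t := by
      intro x y
      have cF := (ae_ball_iff hDc).2 hf.cmp
      have cG := (ae_ball_iff hDc).2 hg.cmp
      have sF := (ae_ball_iff hDc).2 hf.slope
      have sG := (ae_ball_iff hDc).2 hg.slope
      filter_upwards [hnn, S.pos, S.big, S.ud, S.locU, hsl, cF, cG, sF, sG,
        hf.cov p1 hp1, hf.cov p2 hp2, hg.cov p1 hp1, hg.cov p2 hp2] with t h0 hpos hbig hud hloc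
        hslt hcF hcG hsF hsG i1 i2 i3 i4 htE
      obtain ⟨hxX, hxG, hyX, hyG, hgap⟩ := htE
      have hgoodx : t ∈ G785.GM k Dn' C0 c b (f p2) (f p1) (g p1) (g p2) x :=
        (G785.GM_shift (i2 x) (i1 x) (i3 x) (i4 x)).1 hxG.1
      have hgoody : t ∈ G785.GM k Dn' C0 c b (f p2) (f p1) (g p1) (g p2) y :=
        (G785.GM_shift (i2 y) (i1 y) (i3 y) (i4 y)).1 hyG.1
      have hsx := hslt x hxX
      have habs := abs_le.1 hxG.2
      set v := γ x t with hv
      have hmem : lab t j (-j) v ∈ L t := lab_mem_labSet h0 (hbig x hxX) (hud x hxX)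
        (s := sl x t) (by linarith [habs.1]) (by linarith [habs.2]) (hsx.2.up j) (hsx.2.dn (-j))
        hsF hsG hcF hcG
      have hsqz1 : ∀ a ∈ L t, G785.Sqz (f p2 t) (f p1 t) a.1 := fun a ha =>
        sqz_up ha hp1 hp2 hp1q.le hp2q.le
      have hsqz2 : ∀ a ∈ L t, G785.Sqz (g p1 t) (g p2 t) a.2 := fun a ha =>
        sqz_dn ha hp1 hp2 hp1q.le hp2q.le
      have hNT : ∀ y', t ∈ G785.GM k Dn' C0 c b (f p2) (f p1) (g p1) (g p2) y' → y' ∈ X t →
          gp t (-1) 0 v (γ y' t) ≤ κ → NT k Dn' κ (lab t j (-j) v) y' t := by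
        intro y' hgy hyX' hgp
        have hg1 := hgy.1.1.1
        have hg2 := hgy.1.1.2
        have hk1 : |(k : ℤ) + 1| ≤ (k : ℤ) + 1 := by rw [abs_of_nonneg (by omega)]
        have hk2 : |-((k : ℤ) + 1)| ≤ (k : ℤ) + 1 := by rw [abs_neg]; exact hk1
        have hz1 : |((y', 0) : ℤ × ℤ).1 - y'| ≤ (k : ℤ) := by simp
        have hz2 : |((y', 0) : ℤ × ℤ).2| ≤ (k : ℤ) + 1 := by simp; omega
        refine nt_of_gap (xh := F592.pd (-1) (γ y' t)) hpos (hbig x hxX) (hud x hxX) ?_ ?_ ?_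
        · have h1 : gp t (-1) 0 v (γ y' t) = Ps t (-1) 0 v (pu 0 (γ y' t)) (pd (-1) (γ y' t)) -
              Ps t (-1) 0 v (pu 0 v) (pd (-1) v) := rfl
          rw [h1, Ps_self h0 (hbig x hxX) (hud x hxX), hloc y' hyX'] at hgp
          have h2 : tailD (-1) v 0 = v (entD (-1) v) := by simp [tailD]
          have h3 : tailU 0 v 0 = v (entU 0 v) := by simp [tailU]
          rw [h2, h3]
          unfold Ps at hgp
          linarith
        · intro w hw
          have := G785.G1.loc h0 hg1 hk1 (hsqz1 _ hmem) hz1 hz2 hw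
          simp only [lab] at this
          linarith
        · intro z hz
          have := G785.G1.loc h0 hg2 hk2 (hsqz2 _ hmem) hz1 hz2 hz
          simp only [lab] at this
          rw [K.pt_symm h0 (y', 0), K.pt_symm h0 (y', 0)] at this
          linarith
      refine ⟨lab t j (-j) v, hmem, G785.GM.good hgoodx hsqz1, G785.GM.good hgoody hsqz1,
        hNT x hgoodx hxX ?_, hNT y hgoody hyX hgap⟩
      rw [hv, gp_self]
      exact hκ.le
    obtain ⟨-, hF⟩ := hfin E (fun x y => (hEm x y).nullMeasurableSet) hEc hTwo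
    filter_upwards [hF] with t ht hx0 hg0
    refine ht.subset fun y hy => ?_
    exact ⟨hx0, hg0, hy.1, hy.2.1, hy.2.2⟩

end good

end Crest.Agent.R151.E39
end

-- ▼ part R151/RF890
section

/-!
# R151/RF890 — upper and lower row families from 763's system of line functions (owner helper890)

`S : Sys G μ f0` (763, L763k).  `fP f0 μ p k t x` is the upper label function of the row `k` with slope
`-p`; `gP f0 μ p k t x = fP f0 μ (-p) (-k) (N.refl t) x` is the lower one, with slope `p`.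

* `Sys.rowFam_up`, `Sys.rowFam_dn` : 39's `RowFam` for every level;
* `Sys.hrows` : the input `hrows` of `E39.hgood_of_rows`;
* `Sys.rowHyp_up`, `Sys.rowHyp_dn` : 856's `RowHyp` for every level.
-/

set_option autoImplicit false

open MeasureTheory Filter Topology
open Crest.ProbabilityR.FirstPassage

namespace Crest.Agent.R151.RF

open Crest.Agent.R151 Crest.Agent.R151.LIN Crest.Agent.R151.RFL
open Crest.Agent.R151.SEL (Up Dn)

/-! ### the slope set -/

/-- the rational multiples of `m` in `(-m, m)` -/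
def DS (m : ℝ) : Set ℝ := {p | |p| < m ∧ ∃ q : ℚ, (q : ℝ) * m = p}


theorem DS_sub_Ioo (m : ℝ) : DS m ⊆ Set.Ioo (-m) m := fun _ hp => abs_lt.1 hp.1

theorem DS_sub_Icc (m : ℝ) : DS m ⊆ Set.Icc (-m) m := fun _ hp => abs_le.1 hp.1.le




theorem DS_countable (m : ℝ) : (DS m).Countable := by
  refine (Set.countable_range fun q : ℚ => (q : ℝ) * m).mono ?_
  rintro _ ⟨-, q, rfl⟩
  exact ⟨q, rfl⟩

theorem DS_dense (m : ℝ) : ∀ x y, -m ≤ x → x < y → y ≤ m → ∃ p ∈ DS m, x < p ∧ p < y := by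
  intro x y hx hxy hy
  have hm : 0 < m := by linarith
  obtain ⟨q, hq1, hq2⟩ := exists_rat_btwn (show x / m < y / m by gcongr)
  rw [div_lt_iff₀ hm] at hq1
  rw [lt_div_iff₀ hm] at hq2
  exact ⟨q * m, ⟨abs_lt.2 ⟨by linarith, by linarith⟩, q, rfl⟩, hq1, hq2⟩


/-! ### the lower row functions -/

/-- lower label function of row `k` with slope `p` -/
noncomputable def gP (f0 : ℝ → Environment → ℤ → ℝ) (μ : ℝ × ℝ → ℝ) (p : ℝ) (k : ℤ)
    (t : Environment) (x : ℤ) : ℝ := fP f0 μ (-p) (-k) (N.refl t) x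


theorem mir_Up_Dn (k : ℤ) : Mir ry (Up (-k)) (Dn k) := mir_Hk k


section

variable {G : Measure ℝ} [IsProbabilityMeasure G] {μ : ℝ × ℝ → ℝ}
  {f0 : ℝ → Environment → ℤ → ℝ} (S : Sys G μ f0)
include S

theorem Sys.measG (p : ℝ) (k x : ℤ) : Measurable fun t => gP f0 μ p k t x :=
  (S.measP (-p) (-k) x).comp N.measurable_refl

theorem Sys.depG (p : ℝ) (k : ℤ) {t t' : Environment} (h : ∀ e ∈ K.edgesIn (Dn k), t e = t' e) :
    gP f0 μ p k t = gP f0 μ p k t' := by
  funext x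
  unfold gP
  rw [S.depP (-p) (-k) (refl_agree h)]

theorem Sys.intG {p : ℝ} (hp : |p| < μ (1, 0)) (k x : ℤ) :
    Integrable (fun t => H.inc (gP f0 μ p k t) x) (iidLaw G) :=
  integrable_refl.2 (S.intP (p := -p) (by rwa [abs_neg]) (-k) x)

theorem Sys.meanG {p : ℝ} (hp : |p| < μ (1, 0)) (k x : ℤ) :
    ∫ t, H.inc (gP f0 μ p k t) x ∂(iidLaw G) = p := by
  have h1 := S.meanP (p := -p) (by rwa [abs_neg]) (-k) x
  rw [neg_neg] at h1
  exact (integral_refl (G := G) fun t => H.inc (fP f0 μ (-p) (-k) t) x).trans h1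

theorem Sys.monoG {p q : ℝ} (hp : |p| < μ (1, 0)) (hq : |q| < μ (1, 0)) (hpq : p ≤ q) :
    ∀ᵐ t ∂(iidLaw G), ∀ k x : ℤ, H.inc (gP f0 μ p k t) x ≤ H.inc (gP f0 μ q k t) x := by
  filter_upwards [ae_refl_of (S.monoP (p := -q) (q := -p) (by rwa [abs_neg]) (by rwa [abs_neg])
    (neg_le_neg hpq))] with t ht k x
  exact ht (-k) x

theorem Sys.meanFamG {D : Set ℝ} (hD : ∀ p ∈ D, |p| < μ (1, 0)) (k : ℤ) :
    H.MeanFam (iidLaw G) D (fun p t x => gP f0 μ p k t x) 0 1 where
  sign := Or.inl rfl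
  meas := fun p _ x => Sys.measG S p k x
  int := fun p hp x => Sys.intG S (hD p hp) k x
  mean := fun p hp x => by
    have := Sys.meanG S (hD p hp) k x
    rw [zero_add, one_mul]
    exact this
  mono := fun p hp q hq hpq => by
    filter_upwards [Sys.monoG S (hD p hp) (hD q hq) hpq.le] with t ht x
    have := ht k x
    rw [one_mul, one_mul]
    exact this

theorem Sys.slopeG {p : ℝ} (hp : |p| < μ (1, 0)) :
    ∀ᵐ t ∂(iidLaw G), ∀ k : ℤ, H.HasSlope (gP f0 μ p k t) p := by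
  filter_upwards [ae_refl_of (S.slopeP (p := -p) (by rwa [abs_neg]))] with t ht k
  have := ht (-k)
  rw [neg_neg] at this
  exact this

/-- covariance under all shifts -/
theorem Sys.covG {p : ℝ} (hp : |p| < μ (1, 0)) :
    ∀ᵐ t ∂(iidLaw G), ∀ (a : ℤ × ℤ) (k x : ℤ), gP f0 μ p k (A.shift a t) x =
      gP f0 μ p (k + a.2) t (x + a.1) - gP f0 μ p (k + a.2) t a.1 := by
  filter_upwards [ae_refl_of (S.covP (p := -p) (by rwa [abs_neg]))] with t ht a k x
  have h1 := ht (a.1, -a.2) (-k) x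
  have h2 : N.refl (A.shift a t) = A.shift (a.1, -a.2) (N.refl t) := by
    rw [shift_refl]; simp
  unfold gP
  rw [h2, h1, neg_add]

theorem Sys.incCovG {p : ℝ} (hp : |p| < μ (1, 0)) :
    ∀ᵐ t ∂(iidLaw G), ∀ k y : ℤ, G785.IncCov (gP f0 μ p k) y t := by
  filter_upwards [Sys.covG S hp] with t ht k y w
  have h1 := ht (y, 0) k w
  have h2 := ht (y, 0) k 0
  simp only [add_zero, zero_add] at h1 h2
  rw [h1, h2]
  ring

theorem Sys.cmpG {p : ℝ} (hp : |p| < μ (1, 0)) :
    ∀ᵐ t ∂(iidLaw G), ∀ (k : ℤ) (u : ℕ → ℤ × ℤ), Y.IsRay t (reg (Dn k)) u →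
      (∀ N : ℤ, ∃ n, (u n).2 ≤ N) →
      H.Cmp (gP f0 μ p k t) (fun x => Y.bus t (reg (Dn k)) u (x, k)) := by
  filter_upwards [ae_refl_of (S.cmpP (p := -p) (by rwa [abs_neg]))] with t ht k u hu hN
  have h1 := ht (-k) (fun n => ((u n).1, -(u n).2)) ((isRay_refl (mir_Up_Dn k)).1 hu)
    (fun N => by
      obtain ⟨n, hn⟩ := hN (-N)
      exact ⟨n, by simp only; omega⟩)
  have h2 : (fun x => Y.bus t (reg (Dn k)) u (x, k)) =
      fun x => Y.bus (N.refl t) (reg (Hk (-k))) (fun n => ((u n).1, -(u n).2)) (x, -k) := by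
    funext x
    exact bus_refl (mir_Up_Dn k) t u (x, k)
  rw [h2]
  exact h1

/-! ### rays of unbounded height -/

omit S [IsProbabilityMeasure G] in
theorem high_of_abs {t : Environment} {k : ℤ} {u : ℕ → ℤ × ℤ} (hu : Y.IsRay t (reg (Up k)) u)
    (h : ∀ N : ℤ, ∃ n, N ≤ |(u n).2|) : ∀ N : ℤ, ∃ n, N ≤ (u n).2 := by
  intro N
  obtain ⟨n, hn⟩ := h (max N (|k| + 1))
  refine ⟨n, ?_⟩
  have h1 : k ≤ (u n).2 := (reg_adj.1 (hu.adj n)).2.1
  have h2 := le_max_left N (|k| + 1)
  have h3 := le_max_right N (|k| + 1)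
  have h4 := neg_abs_le k
  rcases abs_cases (u n).2 with ⟨h5, h6⟩ | ⟨h5, h6⟩ <;> omega

omit S [IsProbabilityMeasure G] in
theorem low_of_abs {t : Environment} {k : ℤ} {u : ℕ → ℤ × ℤ} (hu : Y.IsRay t (reg (Dn k)) u)
    (h : ∀ N : ℤ, ∃ n, N ≤ |(u n).2|) : ∀ N : ℤ, ∃ n, (u n).2 ≤ N := by
  intro N
  obtain ⟨n, hn⟩ := h (max (-N) (|k| + 1))
  refine ⟨n, ?_⟩
  have h1 : (u n).2 ≤ k := (reg_adj.1 (hu.adj n)).2.1
  have h2 := le_max_left (-N) (|k| + 1)
  have h3 := le_max_right (-N) (|k| + 1)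
  have h4 := le_abs_self k
  rcases abs_cases (u n).2 with ⟨h5, h6⟩ | ⟨h5, h6⟩ <;> omega

/-! ### 39's `RowFam` -/

theorem Sys.rowFam_up {D : Set ℝ} (hD : ∀ p ∈ D, |p| < μ (1, 0)) (k : ℤ) :
    E39.RowFam G D (Up k) k (-1) (fun p t x => fP f0 μ p k t x) where
  mean := S.meanFamP hD k
  dep := fun p _ t t' h x => by
    have := S.depP p k h
    simp only [H.inc]
    rw [this]
  slope := fun p hp => by
    filter_upwards [S.slopeP (hD p hp)] with t ht
    have := ht k
    rw [neg_one_mul]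
    exact this
  cov := fun p hp => by
    filter_upwards [S.incCovP (hD p hp)] with t ht y
    exact ht k y
  cmp := fun p hp => by
    filter_upwards [S.cmpP (hD p hp)] with t ht u hu hh
    exact ht k u hu (high_of_abs hu hh)

theorem Sys.rowFam_dn {D : Set ℝ} (hD : ∀ p ∈ D, |p| < μ (1, 0)) (k : ℤ) :
    E39.RowFam G D (Dn k) k 1 (fun p t x => gP f0 μ p k t x) where
  mean := Sys.meanFamG S hD k
  dep := fun p _ t t' h x => by
    have := Sys.depG S p k h
    simp only [H.inc]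
    rw [this]
  slope := fun p hp => by
    filter_upwards [Sys.slopeG S (hD p hp)] with t ht
    have := ht k
    rw [one_mul]
    exact this
  cov := fun p hp => by
    filter_upwards [Sys.incCovG S (hD p hp)] with t ht y
    exact ht k y
  cmp := fun p hp => by
    filter_upwards [Sys.cmpG S (hD p hp)] with t ht u hu hh
    exact ht k u hu (low_of_abs hu hh)

/-- the input `hrows` of `E39.hgood_of_rows` -/
theorem Sys.hrows {D : Set ℝ} (hD : ∀ p ∈ D, |p| < μ (1, 0)) (j : ℤ) (_ : 1 ≤ j) :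
    ∃ f g : ℝ → Environment → ℤ → ℝ,
      E39.RowFam G D (Up j) j (-1) f ∧ E39.RowFam G D (Dn (-j)) (-j) 1 g :=
  ⟨_, _, Sys.rowFam_up S hD j, Sys.rowFam_dn S hD (-j)⟩

/-! ### 856's `RowHyp` -/

theorem Sys.rowHyp_up {D : Set ℝ} (hD : ∀ p ∈ D, |p| < μ (1, 0)) (k : ℤ) :
    SLF.RowHyp G D (Up k) k (-1) (fun p t x => fP f0 μ p k t x) :=
  ⟨(Sys.rowFam_up S hD k).mean, (Sys.rowFam_up S hD k).dep, (Sys.rowFam_up S hD k).slope,
    (Sys.rowFam_up S hD k).cmp⟩

theorem Sys.rowHyp_dn {D : Set ℝ} (hD : ∀ p ∈ D, |p| < μ (1, 0)) (k : ℤ) :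
    SLF.RowHyp G D (Dn k) k 1 (fun p t x => gP f0 μ p k t x) :=
  ⟨(Sys.rowFam_dn S hD k).mean, (Sys.rowFam_dn S hD k).dep, (Sys.rowFam_dn S hD k).slope,
    (Sys.rowFam_dn S hD k).cmp⟩

/-- **the row hypotheses for `D = DS (μ (1, 0))`, every level** (input of `SLF.ae_slope_chain`) -/
theorem Sys.rows :
    (∀ k, SLF.RowHyp G (DS (μ (1, 0))) (Up k) k (-1) (fun p t x => fP f0 μ p k t x)) ∧
      ∀ k, SLF.RowHyp G (DS (μ (1, 0))) (Dn k) k 1 (fun p t x => gP f0 μ p k t x) :=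
  ⟨Sys.rowHyp_up S fun _ hp => hp.1, Sys.rowHyp_dn S fun _ hp => hp.1⟩

/-! ### the reflected system, row functions only: 624's `HL` for the reflected family

`gP f0 μ p (-k) (N.refl t) x = fP f0 μ (-p) k t x`, hence the family
`k ↦ gP f0 μ p (-k) ∘ N.refl` satisfies `D624.HL`. -/


end

end Crest.Agent.R151.RF
end

-- ▼ part R151/SLF856b
section

/-!
# R151/SLF856b — the field `grow` of `Y96.Facts` and the assembly of `Facts` (owner helper856)
-/

set_option autoImplicit false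

open Crest.ProbabilityR.FirstPassage
open Filter Set MeasureTheory
open scoped Topology

namespace Crest.Agent.R151.SLF

open Y H K SEL Y96 SL

/-- the norm is at least its horizontal part -/
theorem mu_fst_le {μ : ℝ × ℝ → ℝ} (hμ : D411.SmoothNorm μ) (x y : ℝ) :
    μ (1, 0) * |x| ≤ μ (x, y) := by
  have hy : μ (x, -y) = μ (x, y) := mu_ry hμ.norm hμ.refl x y
  have h1 : μ ((2 * x, 0) : ℝ × ℝ) ≤ μ (x, y) + μ (x, -y) := by
    have := hμ.norm.add (x, y) (x, -y)
    have e : ((x, y) : ℝ × ℝ) + (x, -y) = (2 * x, 0) := by ext <;> simp; ring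
    rwa [e] at this
  have h2 : μ ((2 * x, 0) : ℝ × ℝ) = 2 * |x| * μ (1, 0) := by
    rcases le_total 0 x with hx | hx
    · have := hμ.norm.smul (2 * x) (1, 0) (by positivity)
      simp only [Prod.smul_mk, smul_eq_mul, mul_one, mul_zero] at this
      rw [this, abs_of_nonneg hx]
    · have := hμ.norm.smul (2 * -x) (1, 0) (by linarith)
      simp only [Prod.smul_mk, smul_eq_mul, mul_one, mul_zero] at this
      have e : ((2 * x, 0) : ℝ × ℝ) = (-(2 * -x), 0) := by ext <;> simp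
      rw [e, hμ.refl, this, abs_of_nonpos hx]
  rw [hy] at h1
  linarith

/-- **two row growth** of the passage times -/
theorem grow_of_lShape {μ : ℝ × ℝ → ℝ} (hμ : D411.SmoothNorm μ) {t : Environment}
    (h : LShape μ t) (k j : ℤ) (ε : ℝ) (hε : 0 < ε) :
    ∃ C' : ℝ, ∀ x z : ℤ, μ (1, 0) * |(x : ℝ) - z| - ε * (|(x : ℝ)| + |(z : ℝ)|) - C' ≤
      passageTime t (x, k) (z, j) := by
  have hm : 0 ≤ μ (1, 0) := (hμ.norm.pos (by simp)).le
  obtain ⟨N, hN⟩ := eventually_atTop.1 (h ε hε)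
  refine ⟨ε * (|(k : ℝ)| + |(j : ℝ)| + N) + μ (1, 0) * (2 * N), fun x z => ?_⟩
  have hk := abs_nonneg (k : ℝ)
  have hj := abs_nonneg (j : ℝ)
  have hx := abs_nonneg (x : ℝ)
  have hz := abs_nonneg (z : ℝ)
  have hN0 : (0 : ℝ) ≤ N := Nat.cast_nonneg N
  set n : ℕ := x.natAbs + z.natAbs + k.natAbs + j.natAbs + N with hn
  have hnN : N ≤ n := by omega
  have m1 : ((x, k) : ℤ × ℤ) ∈ box n := by rw [mem_box]; simp only; omega
  have m2 : ((z, j) : ℤ × ℤ) ∈ box n := by rw [mem_box]; simp only; omega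
  have h1 := hN n hnN _ m1 _ m2
  have e1 : toR ((z, j) - (x, k) : ℤ × ℤ) = ((z : ℝ) - x, (j : ℝ) - k) := by
    simp [toR]
  rw [e1] at h1
  have h2 := mu_fst_le hμ ((z : ℝ) - x) ((j : ℝ) - k)
  have h3 : (n : ℝ) = |(x : ℝ)| + |(z : ℝ)| + |(k : ℝ)| + |(j : ℝ)| + N := by
    rw [hn]
    push_cast
    simp only [Nat.cast_natAbs, Int.cast_abs]
  rw [h3] at h1
  rw [abs_sub_comm (z : ℝ) x] at h2
  nlinarith [mul_nonneg hm hN0]

variable {G : Measure ℝ} [IsProbabilityMeasure G]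

/-- **Assembly of `Facts`**: everything except the two coalescence fields comes from the row
families. -/
theorem ae_facts [NullSingletonClass G] {m : ℝ} {μ : ℝ × ℝ → ℝ} (hG : M51.Law213 G)
    (hM : Mom G m) (hμ : IsTC1 G μ) (hN : D411.SmoothNorm μ) {D : Set ℝ} (hDc : D.Countable)
    (hD : ∀ x y, -μ (1, 0) < x → x < y → y < μ (1, 0) → ∃ p ∈ D, x < p ∧ p < y)
    (hsub : D ⊆ Icc (-μ (1, 0)) (μ (1, 0)))
    {f g : ℤ → ℝ → Environment → ℤ → ℝ} (hf : ∀ k, RowHyp G D (Up k) k (-1) (f k))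
    (hg : ∀ k, RowHyp G D (Dn k) k 1 (g k)) {C : ℝ} (hC : 0 < C)
    (hC' : μ (1, 0) * C < μ (C, 1))
    (hucU : ∀ᵐ t ∂(iidLaw G), ∀ v₀ ∈ Big C t, ∀ w₀ ∈ Big C t, ∀ s, HasSl t v₀ s → HasSl t w₀ s →
      (∃ k e, Y96.incU t k v₀ e ≠ Y96.incU t k w₀ e) →
      ∀ v ∈ Big C t, ∀ w ∈ Big C t, HasSl t v s → HasSl t w s → LowCoal v w)
    (hucD : ∀ᵐ t ∂(iidLaw G), ∀ v₀ ∈ Big C t, ∀ w₀ ∈ Big C t, ∀ s, HasSl t v₀ s → HasSl t w₀ s →
      (∃ k e, Y96.incD t k v₀ e ≠ Y96.incD t k w₀ e) →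
      ∀ v ∈ Big C t, ∀ w ∈ Big C t, HasSl t v s → HasSl t w s → HighCoal v w) :
    ∀ᵐ t ∂(iidLaw G), Facts (μ (1, 0)) C t := by
  have hat : ∀ x, G {x} = 0 := fun x => measure_singleton x
  filter_upwards [ae_slope_chain hG hM hμ hN hDc hD hsub hf hg hC hC', hucU, hucD,
    ae_noTies (G := G) hat, ae_Nn (G := G) hG.h0, hM.as_ushape hμ hG] with t t1 t2 t3 t4 t5 t6
  exact
    { nn := t5
      nt := t4
      grow := fun k j ε hε => grow_of_lShape hN (lShape_of_dev t6) k j ε hε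
      slope := t1.2.1
      chain := t1.2.2
      ucU := t2
      ucD := t3 }

end Crest.Agent.R151.SLF
end

-- ▼ part R151/S113G
section

/-!
# R151, SEL G (helper113): slopes and the `Sys` instance of helper96's mass argument

* `slp t k v` : slope of the label function of the path `v` on the row `k`,
  `limsup_n -(f (x+n) - f x) / n`, `x` = place of the last entrance to `{y ≥ k}`; measurable along
  measurable paths and covariant; equal to `s` if `f n / n → -s`.
* `slopeR C R z t` : the slope of `gamR C R z t` on the row of `z`.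
* `SysHyp`, `sysR` : the instance of `Y96.Sys` on `iidLaw G` with all the measurability,
  covariance and (o1), `TT_fin` fields proved.
-/

set_option autoImplicit false

open MeasureTheory Filter Topology
open Crest.ProbabilityR.FirstPassage

namespace Crest.Agent.R151.SEL

open Crest.Agent.R151 Crest.Agent.R151.Y

/-! ## the slope -/

/-- place of the last entrance to the row `k` -/
noncomputable def locU (k : ℤ) (v : ℤ → ℤ × ℤ) : ℤ := (tailU k v 0).1

/-- place of the first exit from the row `k` -/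
noncomputable def locD (k : ℤ) (v : ℤ → ℤ × ℤ) : ℤ := (tailD k v 0).1

/-- increments of the upper label function on the row `k` -/
noncomputable def incU (t : Environment) (k : ℤ) (v : ℤ → ℤ × ℤ) (e : ℤ) : ℝ :=
  fU t k v (e + 1, k) - fU t k v (e, k)

/-- increments of the lower label function on the row `k` -/
noncomputable def incD (t : Environment) (k : ℤ) (v : ℤ → ℤ × ℤ) (e : ℤ) : ℝ :=
  fD t k v (e + 1, k) - fD t k v (e, k)

/-- the slope of the upper label function on the row `k` -/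
noncomputable def slp (t : Environment) (k : ℤ) (v : ℤ → ℤ × ℤ) : ℝ :=
  limsup (fun n : ℕ => -((fU t k v (locU k v + n, k) - fU t k v (locU k v, k)) / n)) atTop

theorem locU_add (k : ℤ) (v : ℤ → ℤ × ℤ) (a : ℤ × ℤ) :
    locU (k + a.2) (fun n => v n + a) = locU k v + a.1 := by
  unfold locU
  rw [tailU_add, Prod.fst_add]


theorem fU_add (a : ℤ × ℤ) (t : Environment) (k x : ℤ) (v : ℤ → ℤ × ℤ) :
    fU t (k + a.2) (fun n => v n + a) (x + a.1, k + a.2) = fU (A.shift a t) k v (x, k) := by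
  exact fU_shift a t k v (x, k)




theorem slp_add (a : ℤ × ℤ) (t : Environment) (k : ℤ) (v : ℤ → ℤ × ℤ) :
    slp t (k + a.2) (fun n => v n + a) = slp (A.shift a t) k v := by
  unfold slp
  congr 1
  funext n
  rw [locU_add, fU_add, show locU k v + a.1 + (n : ℤ) = (locU k v + n) + a.1 by ring, fU_add]

section meas

variable {Ω : Type*} [MeasurableSpace Ω] {γ : Ω → ℤ → ℤ × ℤ} {τ : Ω → Environment}

theorem measurable_locU (hγ : ∀ n, Measurable fun ω => γ ω n) (k : ℤ) :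
    Measurable fun ω => locU k (γ ω) :=
  measurable_fst.comp (measurable_tailU hγ k 0)




theorem measurable_slp (hτ : Measurable τ) (hγ : ∀ n, Measurable fun ω => γ ω n) (k : ℤ) :
    Measurable fun ω => slp (τ ω) k (γ ω) := by
  unfold slp
  have h : ∀ m : ℤ, Measurable fun ω => fU (τ ω) k (γ ω) (locU k (γ ω) + m, k) := fun m =>
    measurable_eval (f := fun ω (x : ℤ) => fU (τ ω) k (γ ω) (x + m, k))
      (fun x => measurable_fU hτ hγ k _) (measurable_locU hγ k)
  refine Measurable.limsup fun n => ?_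
  have h0 := h 0
  simp only [add_zero] at h0
  exact (((h n).sub h0).div_const _).neg

end meas

/-- the slope is `s` as soon as `f n / n → -s` -/
theorem slp_eq {t : Environment} {k : ℤ} {v : ℤ → ℤ × ℤ} {s : ℝ}
    (h : Tendsto (fun n : ℤ => fU t k v (n, k) / n) atTop (𝓝 (-s))) : slp t k v = s := by
  unfold slp
  refine Tendsto.limsup_eq ?_
  obtain ⟨x, hx⟩ : ∃ x, x = locU k v := ⟨_, rfl⟩
  rw [← hx]
  have h1 : Tendsto (fun n : ℕ => x + (n : ℤ)) atTop atTop :=
    tendsto_atTop_add_const_left _ _ tendsto_natCast_atTop_atTop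
  have h2 := h.comp h1
  have h3 : Tendsto (fun n : ℕ => ((x + (n : ℤ) : ℤ) : ℝ) / n) atTop (𝓝 1) := by
    have h4 : Tendsto (fun n : ℕ => (x : ℝ) / n) atTop (𝓝 0) :=
      tendsto_const_nhds.div_atTop tendsto_natCast_atTop_atTop
    have h5 := h4.add_const 1
    rw [zero_add] at h5
    refine h5.congr' ?_
    filter_upwards [eventually_gt_atTop 0] with n hn
    have hn' : (n : ℝ) ≠ 0 := by exact_mod_cast hn.ne'
    push_cast
    field_simp
  have h6 : Tendsto (fun n : ℕ => fU t k v (x, k) / n) atTop (𝓝 0) :=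
    tendsto_const_nhds.div_atTop tendsto_natCast_atTop_atTop
  have h7 := ((h2.mul h3).sub h6).neg
  have e : -(-s * 1 - 0) = s := by ring
  rw [e] at h7
  refine h7.congr' ?_
  filter_upwards [eventually_gt_atTop (max 0 (-x).toNat)] with n hn
  have hn' : (n : ℝ) ≠ 0 := by
    have : 0 < n := lt_of_le_of_lt (le_max_left _ _) hn
    exact_mod_cast this.ne'
  have hn2 : ((x + (n : ℤ) : ℤ) : ℝ) ≠ 0 := by
    have : (-x).toNat < n := lt_of_le_of_lt (le_max_right _ _) hn
    have : x + (n : ℤ) ≠ 0 := by omega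
    exact_mod_cast this
  simp only [Function.comp_apply]
  rw [div_mul_div_cancel₀ hn2, ← sub_div]

/-! ## the selected bigeodesic -/

section gamD

variable (D : ℤ → Set (ℤ × ℤ))

/-- the slope of the selected bigeodesic on the row of its base point -/
noncomputable def slopeD (z : ℤ × ℤ) (t : Environment) : ℝ := slp t z.2 (gamD D z t)

theorem measurable_slopeD (z : ℤ × ℤ) : Measurable fun t => slopeD D z t :=
  measurable_slp (τ := fun t => t) measurable_id (measurable_gamD D z) z.2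

theorem slopeD_add (z a : ℤ × ℤ) (t : Environment) :
    slopeD D (z + a) t = slopeD D z (A.shift a t) := by
  unfold slopeD
  rw [gamD_add', Prod.snd_add, slp_add]

end gamD

/-- the slope of `gamR` -/
noncomputable def slopeR (C : ℝ) (R : ℕ) (z : ℤ × ℤ) (t : Environment) : ℝ :=
  slp t z.2 (gamR C R z t)

theorem measurable_slopeR (C : ℝ) (R : ℕ) (z : ℤ × ℤ) : Measurable fun t => slopeR C R z t :=
  measurable_slopeD _ z

theorem slopeR_add (C : ℝ) (R : ℕ) (z a : ℤ × ℤ) (t : Environment) :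
    slopeR C R (z + a) t = slopeR C R z (A.shift a t) := slopeD_add _ z a t

/-! ## the instance of `Y96.Sys` -/





variable {G : Measure ℝ} [IsProbabilityMeasure G]


/-- the class of paths: bigeodesics of `t` which are `ProperUp C` -/
def Kc (C : ℝ) (t : Environment) (v : ℤ → ℤ × ℤ) : Prop := IsBigeodesic t v ∧ D411.ProperUp C v


theorem kc_gamR {C C' : ℝ} (hC : C < C') {R : ℕ} {z : ℤ × ℤ} {t : Environment}
    (h : CrR C R z t) : Kc C' t (gamR C R z t) :=
  ⟨gamR_bigeodesic h, (gamR_cone h hC).1, (gamR_cone h hC).2, (updown_gamR h).1, (updown_gamR h).2⟩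


/-- The geometric inputs of the mass argument, for the class `Kc C` (almost surely for all paths
of the class at once). -/
structure GeomAE (G : Measure ℝ) (C : ℝ) : Prop where
  /-- the slope does not depend on the row -/
  slp_const : ∀ᵐ t ∂(iidLaw G), ∀ v, Kc C t v → ∀ k, slp t k v = slp t 0 v
  /-- (o2) -/
  slope_lt : ∀ᵐ t ∂(iidLaw G), ∀ v w, Kc C t v → Kc C t w → slp t 0 v < slp t 0 w →
    ∀ k e, incU t k w e ≤ incU t k v e
  /-- (o3) -/
  loc_lt : ∀ᵐ t ∂(iidLaw G), ∀ (k : ℤ) v₀ w₀ (e₀ : ℤ), Kc C t v₀ → Kc C t w₀ →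
    slp t 0 v₀ = slp t 0 w₀ → incU t k v₀ e₀ ≠ incU t k w₀ e₀ →
    ∀ v w, Kc C t v → Kc C t w → slp t 0 v = slp t 0 v₀ → slp t 0 w = slp t 0 v₀ →
    locU k v < locU k w → ∀ e, incU t k w e ≤ incU t k v e
  /-- (o5) -/
  osc : ∀ᵐ t ∂(iidLaw G), ∀ v w, Kc C t v → Kc C t w → slp t 0 v = slp t 0 w →
    (∀ e, incU t 0 w e ≤ incU t 0 v e) → ∀ n : ℕ,
    ∑' e, ENNReal.ofReal (incU t 0 v e - incU t 0 w e) ≤
      ∑' e, ENNReal.ofReal (incU t (-n) v e - incU t (-n) w e)
  /-- (o7) -/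
  order : ∀ᵐ t ∂(iidLaw G), ∀ v w, Kc C t v → Kc C t w → slp t 0 v = slp t 0 w →
    (∀ e, incU t 0 w e ≤ incU t 0 v e) → ∀ (n : ℕ) e, incU t (-n) w e ≤ incU t (-n) v e
  /-- (o6) -/
  coal : ∀ᵐ t ∂(iidLaw G), ∀ v₀ w₀ (e₀ : ℤ), Kc C t v₀ → Kc C t w₀ →
    slp t 0 v₀ = slp t 0 w₀ → incU t 0 v₀ e₀ ≠ incU t 0 w₀ e₀ →
    ∀ v w, Kc C t v → Kc C t w → slp t 0 v = slp t 0 v₀ → slp t 0 w = slp t 0 v₀ →
    ∀ᶠ n : ℕ in atTop, locU (-n) v = locU (-n) w

/-- the data of `sysR`: goodness and successor -/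
structure SysData (G : Measure ℝ) (C : ℝ) (R : ℕ) where
  /-- goodness -/
  Gd : ℤ × ℤ → Environment → Prop
  Gd_meas : ∀ i, MeasurableSet {t | Gd i t}
  Gd_cov : ∀ a t i, Gd i (A.shift a t) ↔ Gd (i + a) t
  /-- the successor of `x` on the row `0` -/
  succ : Environment → ℤ → ℤ
  succ_meas : ∀ x, Measurable fun t => succ t x
  succ_cov : ∀ (a : ℤ) t x, succ (A.shift (a, 0) t) x = succ t (x + a) - a

namespace SysData

variable {C C' : ℝ} {R : ℕ} (H : SysData G C R)

/-- presence -/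
def pres (t : Environment) (i : ℤ × ℤ) : Prop := CrR C R i t ∧ H.Gd i t

/-- the almost sure properties of the successor -/
structure SuccAE (H : SysData G C R) : Prop where
  succ_pres : ∀ᵐ t ∂(iidLaw G), ∀ x, H.pres t (x, 0) → H.pres t (H.succ t x, 0)
  succ_inj : ∀ᵐ t ∂(iidLaw G), ∀ x y, H.pres t (x, 0) → H.pres t (y, 0) →
    H.succ t x = H.succ t y → x = y
  succ_slope : ∀ᵐ t ∂(iidLaw G), ∀ x, H.pres t (x, 0) →
    slopeR C R (H.succ t x, 0) t = slopeR C R (x, 0) t
  succ_le : ∀ᵐ t ∂(iidLaw G), ∀ x, H.pres t (x, 0) → ∀ e,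
    incU t 0 (gamR C R (H.succ t x, 0) t) e ≤ incU t 0 (gamR C R (x, 0) t) e
  succ_next : ∀ᵐ t ∂(iidLaw G), ∀ x y, H.pres t (x, 0) → H.pres t (y, 0) → x ≠ y →
    slopeR C R (x, 0) t = slopeR C R (y, 0) t →
    (∀ e, incU t 0 (gamR C R (y, 0) t) e ≤ incU t 0 (gamR C R (H.succ t x, 0) t) e) ∨
      (∀ e, incU t 0 (gamR C R (x, 0) t) e ≤ incU t 0 (gamR C R (H.succ t y, 0) t) e)

include H in
theorem pres_meas (i : ℤ × ℤ) : MeasurableSet {t | H.pres t i} :=
  (measurableSet_crR C R i).inter (H.Gd_meas i)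




end SysData

end Crest.Agent.R151.SEL
end

-- ▼ part R151/Y96E
section

/-!
# R151, block (Z) (helper96): the system of the upper functions of a covariant family

* `succU`: exactly measurable, exactly covariant successor function;
* `UpFacts F t`: the properties (o1)-(o7) of the upper functions of the family `F`;
* `same_incU`: a label and its successor have the same upper increments on the row `0`.
-/

set_option autoImplicit false

open MeasureTheory Filter Topology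
open scoped ENNReal

namespace Crest.Agent.R151.Y96

open Crest.ProbabilityR.FirstPassage
open Crest.Agent.R151 Crest.Agent.R151.SEL Crest.Agent.R151.Y
open Crest.Agent.R151.F592 (STO IsSucc LField)

section succU

/-- the unique successor (junk value `x`) -/
noncomputable def succU (A : Set ℤ) (lt : ℤ → ℤ → Prop) (x : ℤ) : ℤ := by
  classical exact if h : ∃! j, IsSucc A lt x j then h.choose else x

theorem succU_eq_iff (A : Set ℤ) (lt : ℤ → ℤ → Prop) (x y : ℤ) :
    succU A lt x = y ↔ (IsSucc A lt x y ∧ ∀ j, IsSucc A lt x j → j = y) ∨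
      (x = y ∧ ¬ ∃ j, IsSucc A lt x j ∧ ∀ j', IsSucc A lt x j' → j' = j) := by
  unfold succU
  by_cases h : ∃! j, IsSucc A lt x j
  · rw [dif_pos h]
    have h1 := h.choose_spec
    constructor
    · intro he
      left
      rw [← he]
      exact ⟨h1.1, fun j hj => h1.2 j hj⟩
    · rintro (⟨h2, h3⟩ | ⟨-, h2⟩)
      · exact h3 _ h1.1
      · exact absurd ⟨h.choose, h1.1, fun j' hj' => h1.2 j' hj'⟩ h2
  · rw [dif_neg h]
    constructor
    · intro he
      exact Or.inr ⟨he, h⟩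
    · rintro (⟨h2, h3⟩ | ⟨h2, -⟩)
      · exact absurd ⟨y, h2, h3⟩ h
      · exact h2

theorem succU_eq {A : Set ℤ} {lt : ℤ → ℤ → Prop} (h : STO A lt) {x j : ℤ}
    (hj : IsSucc A lt x j) : succU A lt x = j :=
  (succU_eq_iff A lt x j).2 (Or.inl ⟨hj, fun _ hj' => F592.IsSucc.uniq h hj' hj⟩)

variable {Ω : Type*} [MeasurableSpace Ω] {A : Ω → Set ℤ} {lt : Ω → ℤ → ℤ → Prop}

theorem measurableSet_isSucc (hA : ∀ x, MeasurableSet {ω | x ∈ A ω})
    (hlt : ∀ x y, MeasurableSet {ω | lt ω x y}) (x j : ℤ) :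
    MeasurableSet {ω | IsSucc (A ω) (lt ω) x j} := by
  have : {ω | IsSucc (A ω) (lt ω) x j} = {ω | x ∈ A ω} ∩ ({ω | j ∈ A ω} ∩ ({ω | lt ω x j} ∩
      ⋂ k : ℤ, ({ω | k ∈ A ω}ᶜ ∪ ({ω | lt ω x k} ∩ {ω | lt ω k j})ᶜ))) := by
    ext ω
    simp only [IsSucc, Set.mem_ofPred_eq, Set.mem_inter_iff, Set.mem_iInter, Set.mem_union,
      Set.mem_compl_iff]
    refine and_congr Iff.rfl (and_congr Iff.rfl (and_congr Iff.rfl (forall_congr' fun k => ?_)))
    exact imp_iff_not_or
  rw [this]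
  exact (hA x).inter ((hA j).inter ((hlt x j).inter (MeasurableSet.iInter fun k =>
    (hA k).compl.union ((hlt x k).inter (hlt k j)).compl)))

theorem measurable_succU (hA : ∀ x, MeasurableSet {ω | x ∈ A ω})
    (hlt : ∀ x y, MeasurableSet {ω | lt ω x y}) (x : ℤ) :
    Measurable fun ω => succU (A ω) (lt ω) x := by
  have hS := measurableSet_isSucc hA hlt
  refine measurable_to_countable' fun y => ?_
  have : (fun ω => succU (A ω) (lt ω) x) ⁻¹' {y} =
      ({ω | IsSucc (A ω) (lt ω) x y} ∩ ⋂ j : ℤ, ({ω | IsSucc (A ω) (lt ω) x j}ᶜ ∪ {_ω | j = y})) ∪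
      ({_ω | x = y} ∩ (⋃ j : ℤ, ({ω | IsSucc (A ω) (lt ω) x j} ∩
        ⋂ j' : ℤ, ({ω | IsSucc (A ω) (lt ω) x j'}ᶜ ∪ {_ω | j' = j})))ᶜ) := by
    ext ω
    simp only [Set.mem_preimage, Set.mem_singleton_iff, succU_eq_iff, Set.mem_union,
      Set.mem_inter_iff, Set.mem_iInter, Set.mem_compl_iff, Set.mem_iUnion, Set.mem_ofPred_eq,
      imp_iff_not_or]
  rw [this]
  refine MeasurableSet.union ((hS x y).inter (MeasurableSet.iInter fun j =>
    (hS x j).compl.union (MeasurableSet.const _))) ((MeasurableSet.const _).inter ?_)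
  exact (MeasurableSet.iUnion fun j => (hS x j).inter (MeasurableSet.iInter fun j' =>
    (hS x j').compl.union (MeasurableSet.const _))).compl

omit [MeasurableSpace Ω] in
theorem isSucc_shift {S : ℤ → Ω → Ω} (hcA : ∀ z ω x, x ∈ A (S z ω) ↔ x + z ∈ A ω)
    (hclt : ∀ z ω x y, lt (S z ω) x y ↔ lt ω (x + z) (y + z)) (z : ℤ) (ω : Ω) (x j : ℤ) :
    IsSucc (A (S z ω)) (lt (S z ω)) x j ↔ IsSucc (A ω) (lt ω) (x + z) (j + z) := by
  have hf : ∀ p : ℤ → Prop, (∀ k, p (k + z)) ↔ ∀ k, p k := fun p =>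
    ⟨fun h k => by have := h (k - z); rwa [sub_add_cancel] at this, fun h k => h _⟩
  unfold IsSucc
  simp only [hcA, hclt]
  rw [hf fun k => k ∈ A ω → ¬ (lt ω (x + z) k ∧ lt ω k (j + z))]

omit [MeasurableSpace Ω] in
theorem succU_shift {S : ℤ → Ω → Ω} (hcA : ∀ z ω x, x ∈ A (S z ω) ↔ x + z ∈ A ω)
    (hclt : ∀ z ω x y, lt (S z ω) x y ↔ lt ω (x + z) (y + z)) (z : ℤ) (ω : Ω) (x : ℤ) :
    succU (A (S z ω)) (lt (S z ω)) x = succU (A ω) (lt ω) (x + z) - z := by
  rw [succU_eq_iff]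
  have h := (succU_eq_iff (A ω) (lt ω) (x + z) (succU (A ω) (lt ω) (x + z))).1 rfl
  simp only [isSucc_shift hcA hclt]
  rcases h with ⟨h1, h2⟩ | ⟨h1, h2⟩
  · refine Or.inl ⟨by rwa [sub_add_cancel], fun j hj => ?_⟩
    have := h2 _ hj
    omega
  · refine Or.inr ⟨by omega, ?_⟩
    rintro ⟨j, hj, hj'⟩
    refine h2 ⟨j + z, hj, fun j' hj'' => ?_⟩
    have := hj' (j' - z) (by rwa [sub_add_cancel])
    omega

end succU

/-- The properties of the upper functions of the family `F` in the environment `t`. -/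
structure UpFacts (F : BFam) (t : Environment) : Prop where
  /-- (o1) -/
  inc_le : ∀ k i e, F.pres i t → |incU t k (F.g i t) e| ≤ pt (reg (Up k)) t (e, k) (e + 1, k)
  /-- (o2) -/
  slope_lt : ∀ k i j, F.pres i t → F.pres j t → F.sl i t < F.sl j t →
    ∀ e, incU t k (F.g j t) e ≤ incU t k (F.g i t) e
  /-- (o3) -/
  loc_lt : ∀ k i₀ j₀ e₀, F.pres i₀ t → F.pres j₀ t → F.sl i₀ t = F.sl j₀ t →
    incU t k (F.g i₀ t) e₀ ≠ incU t k (F.g j₀ t) e₀ → ∀ i j, F.pres i t → F.pres j t →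
    F.sl i t = F.sl i₀ t → F.sl j t = F.sl i₀ t →
    (tailU k (F.g i t) 0).1 < (tailU k (F.g j t) 0).1 →
    ∀ e, incU t k (F.g j t) e ≤ incU t k (F.g i t) e
  /-- (o5) -/
  osc : ∀ i j, F.pres i t → F.pres j t → F.sl i t = F.sl j t →
    (∀ e, incU t 0 (F.g j t) e ≤ incU t 0 (F.g i t) e) → ∀ n : ℕ,
    ∑' e, ENNReal.ofReal (incU t 0 (F.g i t) e - incU t 0 (F.g j t) e) ≤
      ∑' e, ENNReal.ofReal (incU t (-n) (F.g i t) e - incU t (-n) (F.g j t) e)
  /-- (o7) -/
  order : ∀ i j, F.pres i t → F.pres j t → F.sl i t = F.sl j t →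
    (∀ e, incU t 0 (F.g j t) e ≤ incU t 0 (F.g i t) e) → ∀ (n : ℕ) e,
    incU t (-n) (F.g j t) e ≤ incU t (-n) (F.g i t) e
  /-- (o6) -/
  coal : ∀ i₀ j₀ e₀, F.pres i₀ t → F.pres j₀ t → F.sl i₀ t = F.sl j₀ t →
    incU t 0 (F.g i₀ t) e₀ ≠ incU t 0 (F.g j₀ t) e₀ → ∀ i j, F.pres i t → F.pres j t →
    F.sl i t = F.sl i₀ t → F.sl j t = F.sl i₀ t →
    ∀ᶠ n : ℕ in atTop, (tailU (-n) (F.g i t) 0).1 = (tailU (-n) (F.g j t) 0).1

theorem lintegral_TT_ne_top {G : Measure ℝ} [IsProbabilityMeasure G] (hG : M51.Law213 G) :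
    ∫⁻ t, ENNReal.ofReal (pt (reg (Up 0)) t (0, 0) (1, 0)) ∂(iidLaw G) ≠ ∞ := by
  have hUr : ({z : ℤ × ℤ | z.2 ∈ Set.Ici (0 : ℤ)} : Set (ℤ × ℤ)) = Up 0 := rfl
  have rU := K.regMom_row hG (M51.thick_Ici 0) Set.ordConnected_Ici
  rw [hUr] at rU
  have h0 : ((0 : ℤ), (0 : ℤ)) ∈ Up 0 := by simp [Up]
  have h1 : ((1 : ℤ), (0 : ℤ)) ∈ Up 0 := by simp [Up]
  have hi := rU.int (0, 0) h0 (1, 0) h1
  have := hi.lintegral_lt_top
  simp only [pR_eq_pt h0] at this
  exact this.ne

section main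

variable {G : Measure ℝ} [IsProbabilityMeasure G] (F : BFam)
  (lt : Environment → ℤ → ℤ → Prop)

/-- the label field on the row `0` -/
theorem lfield (hm : ∀ x y, MeasurableSet {t | lt t x y})
    (hc : ∀ (z : ℤ) t x y, lt (A.shift (z, 0) t) x y ↔ lt t (x + z) (y + z))
    (hsto : ∀ᵐ t ∂(iidLaw G), STO (F.AX t) (lt t)) :
    LField (iidLaw G) (fun z => A.shift (z, 0)) F.AX lt where
  mp _ := A.mp_shift G _
  measA x := (F.measurableSet_AX x).nullMeasurableSet
  measlt x y := (hm x y).nullMeasurableSet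
  covA z t x := F.AX_shift z t x
  covlt := hc
  sto := hsto

variable {F lt}

/-- **upper functions**: a label and its successor have the same increments -/
theorem same_incU (hG : M51.Law213 G) (hm : ∀ x y, MeasurableSet {t | lt t x y})
    (hc : ∀ (z : ℤ) t x y, lt (A.shift (z, 0) t) x y ↔ lt t (x + z) (y + z))
    (hsto : ∀ᵐ t ∂(iidLaw G), STO (F.AX t) (lt t))
    (hup : ∀ᵐ t ∂(iidLaw G), UpFacts F t)
    (hlt : ∀ᵐ t ∂(iidLaw G), ∀ x ∈ F.AX t, ∀ y ∈ F.AX t, lt t x y →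
      (∀ e, incU t 0 (F.g (y, 0) t) e ≤ incU t 0 (F.g (x, 0) t) e) ∧
        F.sl (x, 0) t ≤ F.sl (y, 0) t)
    {B : ℝ} (hB0 : 0 ≤ B) (hB : ∀ᵐ t ∂(iidLaw G), ∀ x ∈ F.AX t, |F.sl (x, 0) t| ≤ B)
    (hsucc : ∀ᵐ t ∂(iidLaw G), ∀ x ∈ F.AX t, ∃ j, IsSucc (F.AX t) (lt t) x j) :
    ∀ᵐ t ∂(iidLaw G), ∀ x j, IsSucc (F.AX t) (lt t) x j → ∀ e,
      incU t 0 (F.g (j, 0) t) e = incU t 0 (F.g (x, 0) t) e := by
  have D := lfield (G := G) F lt hm hc hsto
  have hsl := D.ae_slope_eq (sl := fun t x => F.sl (x, 0) t)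
    (fun x => (F.sl_meas _).aemeasurable)
    (fun z t x => by
      have := F.sl_add (x, 0) (z, 0) t
      simp only [Prod.mk_add_mk, add_zero] at this
      exact this.symm) hB0
    (by filter_upwards [hlt] with t ht x hx y hy h using (ht x hx y hy h).2) hB
  have hAX : ∀ (t : Environment) (x : ℤ), x ∈ F.AX t ↔ F.pres (x, 0) t := fun _ _ => Iff.rfl
  let S : Sys Environment (iidLaw G) :=
    { τ := fun a => A.shift a
      τz := fun t => by simp
      τadd := fun a b t => by rw [A.shift_shift]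
      mp := fun a => A.mp_shift G a
      pres := fun t i => F.pres i t
      slope := fun t i => F.sl i t
      loc := fun k t i => (tailU k (F.g i t) 0).1
      inc := fun k t i e => incU t k (F.g i t) e
      TT := fun k t e => pt (reg (Up k)) t (e, k) (e + 1, k)
      succ := fun t x => succU (F.AX t) (lt t) x
      pres_meas := F.pres_meas
      slope_meas := F.sl_meas
      loc_meas := fun k i => measurable_fst.comp (measurable_tailU (F.g_meas i) k 0)
      inc_meas := fun k i e => F.measurable_incU k i e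
      TT_meas := fun k e => measurable_pt' _ _ _
      succ_meas := fun x => measurable_succU F.measurableSet_AX hm x
      pres_cov := fun a t i => (F.pres_add i a t).symm
      slope_cov := fun a t i => (F.sl_add i a t).symm
      loc_cov := fun a k t i => by
        rw [F.g_add' i a t, tailU_add]
        simp
      inc_cov := fun a k t i e => F.incU_add a t k i e
      TT_cov := fun a k t e => by
        have h1 := pt_shift a t (adj_Up_add k a) (e, k) (e + 1, k)
        have h2 : ((e + 1, k) : ℤ × ℤ) + a = (e + a.1 + 1, k + a.2) := by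
          ext
          · simp only [Prod.fst_add]
            ring
          · rfl
        rw [h2] at h1
        exact h1
      succ_cov := fun z t x => succU_shift (S := fun z => A.shift (z, 0)) F.AX_shift hc z t x
      TT_fin := by
        have := lintegral_TT_ne_top hG
        simpa using this
      inc_le := by filter_upwards [hup] with t ht k i e hi using ht.inc_le k i e hi
      slope_lt := by filter_upwards [hup] with t ht using ht.slope_lt
      loc_lt := by filter_upwards [hup] with t ht using ht.loc_lt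
      osc := by filter_upwards [hup] with t ht using ht.osc
      order := by filter_upwards [hup] with t ht using ht.order
      coal := by filter_upwards [hup] with t ht using ht.coal
      succ_pres := by
        filter_upwards [hsto, hsucc] with t h1 h2 x hx
        obtain ⟨j, hj⟩ := h2 x hx
        rw [succU_eq h1 hj]
        exact hj.2.1
      succ_inj := by
        filter_upwards [hsto, hsucc] with t h1 h2 x y hx hy hxy
        obtain ⟨j, hj⟩ := h2 x hx
        obtain ⟨l, hl⟩ := h2 y hy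
        rw [succU_eq h1 hj, succU_eq h1 hl] at hxy
        subst hxy
        exact F592.IsSucc.inj h1 hj hl
      succ_slope := by
        filter_upwards [hsto, hsucc, hsl] with t h1 h2 h3 x hx
        obtain ⟨j, hj⟩ := h2 x hx
        rw [succU_eq h1 hj]
        exact h3 x j hj
      succ_le := by
        filter_upwards [hsto, hsucc, hlt] with t h1 h2 h3 x hx
        obtain ⟨j, hj⟩ := h2 x hx
        rw [succU_eq h1 hj]
        exact (h3 x hx j hj.2.1 hj.2.2.1).1
      succ_next := by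
        filter_upwards [hsto, hsucc, hlt] with t h1 h2 h3 x y hx hy hxy _
        obtain ⟨j, hj⟩ := h2 x hx
        obtain ⟨l, hl⟩ := h2 y hy
        rw [succU_eq h1 hj, succU_eq h1 hl]
        have key : ∀ {x y j : ℤ}, x ∈ F.AX t → y ∈ F.AX t → lt t x y →
            IsSucc (F.AX t) (lt t) x j →
            ∀ e, incU t 0 (F.g (y, 0) t) e ≤ incU t 0 (F.g (j, 0) t) e := by
          intro x y j hx hy hlxy hj e
          by_cases hjy : j = y
          · rw [hjy]
          · rcases h1.tri j hj.2.1 y hy hjy with h | h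
            · exact (h3 j hj.2.1 y hy h).1 e
            · exact absurd ⟨hlxy, h⟩ (hj.2.2.2 y hy)
        rcases h1.tri x hx y hy hxy with h | h
        · exact Or.inl (key hx hy h hj)
        · exact Or.inr (key hy hx h hl) }
  filter_upwards [S.same_inc, hsto] with t h1 h2 x j hj e
  have := h1 x hj.1 e
  simp only [S] at this
  rwa [succU_eq h2 hj] at this

end main

end Crest.Agent.R151.Y96
end

-- ▼ part R151/Y96F
section

/-!
# R151, block (Z) (helper96): the reflected family and the lower functions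

* `mirror F` : the family `F` seen from the reflected environment;
* `same_both` : a label and its successor have the same upper and the same lower increments.
-/

set_option autoImplicit false

open MeasureTheory Filter Topology
open scoped ENNReal

namespace Crest.Agent.R151.Y96

open Crest.ProbabilityR.FirstPassage
open Crest.Agent.R151 Crest.Agent.R151.SEL Crest.Agent.R151.Y
open Crest.Agent.R151.F592 (STO IsSucc LField)

theorem incD_eq {v : ℤ → ℤ × ℤ} (h : UpDown v) (t : Environment) (k e : ℤ) :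
    incD t k v e = incU (N.refl t) (-k) (rv v) e := by
  unfold incD incU
  rw [RFL.fD_eq h, RFL.fD_eq h]



/-- reflection of the index -/
def rI (i : ℤ × ℤ) : ℤ × ℤ := (i.1, -i.2)

theorem rI_add (i a : ℤ × ℤ) : rI (i + a) = rI i + rI a := by
  ext
  · rfl
  · simp [rI]
    ring

@[simp] theorem rI_rI (i : ℤ × ℤ) : rI (rI i) = i := by
  ext <;> simp [rI]

theorem shift_rI_refl (a : ℤ × ℤ) (t : Environment) :
    A.shift (rI a) (N.refl t) = N.refl (A.shift a t) := by
  have := RFL.shift_refl (rI a) t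
  rw [this]
  simp [rI]

/-- the reflected family -/
noncomputable def mirror (F : BFam) : BFam where
  g i t := rv (F.g (rI i) (N.refl t))
  pres i t := F.pres (rI i) (N.refl t)
  sl i t := -F.sl (rI i) (N.refl t)
  g_meas i n := by
    have h := (F.g_meas (rI i) (-n)).comp N.measurable_refl
    have h2 : Measurable fun z : ℤ × ℤ => ((z.1, -z.2) : ℤ × ℤ) := Measurable.of_discrete
    exact h2.comp h
  pres_meas i := N.measurable_refl (F.pres_meas (rI i))
  sl_meas i := ((F.sl_meas (rI i)).comp N.measurable_refl).neg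
  g_add i a t n := by
    have h := F.g_add (rI i) (rI a) (N.refl t) (-n)
    rw [shift_rI_refl] at h
    change ((F.g (rI (i + a)) (N.refl t) (-n)).1, -(F.g (rI (i + a)) (N.refl t) (-n)).2) =
      ((F.g (rI i) (N.refl (A.shift a t)) (-n)).1,
        -(F.g (rI i) (N.refl (A.shift a t)) (-n)).2) + a
    rw [rI_add, h]
    ext
    · simp [rI]
    · simp [rI]
      ring
  pres_add i a t := by
    have h := F.pres_add (rI i) (rI a) (N.refl t)
    rwa [shift_rI_refl, ← rI_add] at h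
  sl_add i a t := by
    have h := F.sl_add (rI i) (rI a) (N.refl t)
    rw [shift_rI_refl, ← rI_add] at h
    rw [h]

section main

variable {G : Measure ℝ} [IsProbabilityMeasure G] {F : BFam}
  {lt : Environment → ℤ → ℤ → Prop}

theorem mem_mirror_AX (t : Environment) (x : ℤ) : x ∈ (mirror F).AX t ↔ x ∈ F.AX (N.refl t) := by
  change F.pres (x, -0) (N.refl t) ↔ F.pres (x, 0) (N.refl t)
  rw [neg_zero]

theorem mirror_AX (t : Environment) : (mirror F).AX t = F.AX (N.refl t) :=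
  Set.ext fun x => mem_mirror_AX t x

theorem isSucc_swap {A : Set ℤ} {lt : ℤ → ℤ → Prop} {x j : ℤ} :
    IsSucc A (fun a b => lt b a) x j ↔ IsSucc A lt j x := by
  unfold IsSucc
  constructor
  · rintro ⟨h1, h2, h3, h4⟩
    exact ⟨h2, h1, h3, fun k hk h => h4 k hk ⟨h.2, h.1⟩⟩
  · rintro ⟨h1, h2, h3, h4⟩
    exact ⟨h2, h1, h3, fun k hk h => h4 k hk ⟨h.2, h.1⟩⟩

theorem shift_zero_refl (z : ℤ) (t : Environment) :
    N.refl (A.shift (z, 0) t) = A.shift (z, 0) (N.refl t) := by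
  have := shift_rI_refl (z, 0) t
  rw [← this]
  simp [rI]

/-- **lower functions**: a label and its successor have the same increments -/
theorem same_incD (hG : M51.Law213 G) (hm : ∀ x y, MeasurableSet {t | lt t x y})
    (hc : ∀ (z : ℤ) t x y, lt (A.shift (z, 0) t) x y ↔ lt t (x + z) (y + z))
    (hsto : ∀ᵐ t ∂(iidLaw G), STO (F.AX t) (lt t))
    (hUD : ∀ᵐ t ∂(iidLaw G), ∀ i, F.pres i t → UpDown (F.g i t))
    (hup : ∀ᵐ t ∂(iidLaw G), UpFacts (mirror F) t)
    (hlt : ∀ᵐ t ∂(iidLaw G), ∀ x ∈ F.AX t, ∀ y ∈ F.AX t, lt t x y →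
      (∀ e, incD t 0 (F.g (x, 0) t) e ≤ incD t 0 (F.g (y, 0) t) e) ∧
        F.sl (x, 0) t ≤ F.sl (y, 0) t)
    {B : ℝ} (hB0 : 0 ≤ B) (hB : ∀ᵐ t ∂(iidLaw G), ∀ x ∈ F.AX t, |F.sl (x, 0) t| ≤ B)
    (hsucc : ∀ᵐ t ∂(iidLaw G), ∀ x ∈ F.AX t, ∃ j, IsSucc (F.AX t) (lt t) x j) :
    ∀ᵐ t ∂(iidLaw G), ∀ x j, IsSucc (F.AX t) (lt t) x j → ∀ e,
      incD t 0 (F.g (j, 0) t) e = incD t 0 (F.g (x, 0) t) e := by
  have D := lfield (G := G) F lt hm hc hsto
  have hpred := D.ae_exists_pred hsucc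
  have key := same_incU (G := G) (F := mirror F) (lt := fun t x y => lt (N.refl t) y x) hG
    (fun x y => N.measurable_refl (hm y x))
    (fun z t x y => by rw [shift_zero_refl]; exact hc z (N.refl t) y x)
    (by
      filter_upwards [RFL.ae_refl.2 hsto] with t ht
      rw [mirror_AX]
      exact ht.swap)
    hup
    (by
      filter_upwards [RFL.ae_refl.2 hlt, RFL.ae_refl.2 hUD] with t ht hU x hx y hy hxy
      rw [mem_mirror_AX] at hx hy
      obtain ⟨h1, h2⟩ := ht y hy x hx hxy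
      have hgx : (mirror F).g (x, 0) t = rv (F.g (x, 0) (N.refl t)) := by
        change rv (F.g (x, -0) (N.refl t)) = _
        rw [neg_zero]
      have hgy : (mirror F).g (y, 0) t = rv (F.g (y, 0) (N.refl t)) := by
        change rv (F.g (y, -0) (N.refl t)) = _
        rw [neg_zero]
      have e1 : ∀ z ∈ F.AX (N.refl t), ∀ e, incU t 0 (rv (F.g (z, 0) (N.refl t))) e =
          incD (N.refl t) 0 (F.g (z, 0) (N.refl t)) e := by
        intro z hz e
        rw [incD_eq (hU (z, 0) hz), N.refl_refl, neg_zero]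
      constructor
      · intro e
        rw [hgx, hgy, e1 x hx, e1 y hy]
        exact h1 e
      · change -F.sl (x, -0) (N.refl t) ≤ -F.sl (y, -0) (N.refl t)
        rw [neg_zero]
        linarith)
    hB0
    (by
      filter_upwards [RFL.ae_refl.2 hB] with t ht x hx
      rw [mem_mirror_AX] at hx
      change |-F.sl (x, -0) (N.refl t)| ≤ B
      rw [abs_neg, neg_zero]
      exact ht x hx)
    (by
      filter_upwards [RFL.ae_refl.2 hpred] with t ht x hx
      rw [mem_mirror_AX] at hx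
      obtain ⟨j, hj⟩ := ht x hx
      rw [mirror_AX]
      exact ⟨j, isSucc_swap.2 hj⟩)
  have key' := RFL.ae_refl.2 key
  filter_upwards [key', hUD] with t ht hU x j hj e
  have hx := hj.1
  have hj' := hj.2.1
  have h1 := ht j x (by
    rw [mirror_AX, N.refl_refl]
    exact isSucc_swap.2 hj) e
  have e1 : ∀ z ∈ F.AX t, incU (N.refl t) 0 ((mirror F).g (z, 0) (N.refl t)) e =
      incD t 0 (F.g (z, 0) t) e := by
    intro z hz
    rw [incD_eq (hU (z, 0) hz), neg_zero]
    congr 1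
    change rv (F.g (z, -0) (N.refl (N.refl t))) = _
    rw [neg_zero, N.refl_refl]
  rw [e1 x hx, e1 j hj'] at h1
  exact h1.symm

end main

end Crest.Agent.R151.Y96
end

-- ▼ part R151/S113I
section

/-!
# R151, SEL I (helper113): the family `famR C R : Y96.BFam` of the selected bigeodesics
-/

set_option autoImplicit false

open MeasureTheory Filter Topology
open Crest.ProbabilityR.FirstPassage

namespace Crest.Agent.R151.SEL

open Crest.Agent.R151 Crest.Agent.R151.Y

/-- the family of the selected bigeodesics of the cone class -/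
noncomputable def famR (C : ℝ) (R : ℕ) : Y96.BFam where
  g i t := gamR C R i t
  pres i t := CrR C R i t
  sl i t := slopeR C R i t
  g_meas i n := measurable_gamR C R i n
  pres_meas i := measurableSet_crR C R i
  sl_meas i := measurable_slopeR C R i
  g_add i a t n := gamR_add C R i a t n
  pres_add i a t := crR_add C R i a t
  sl_add i a t := slopeR_add C R i a t

variable {C C' : ℝ} {R : ℕ} {i : ℤ × ℤ} {t : Environment}

theorem famR_mem_big (hC : C < C') (h : (famR C R).pres i t) :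
    (famR C R).g i t ∈ Y96.Big C' t := kc_gamR hC h

theorem famR_updown (h : (famR C R).pres i t) : UpDown ((famR C R).g i t) := updown_gamR h

theorem famR_zero (h : (famR C R).pres i t) : (famR C R).g i t 0 = i := gamR_zero h

theorem famR_entU (h : (famR C R).pres i t) : entU i.2 ((famR C R).g i t) = 0 := entU_gamR h


/-- the slope function of the family is the slope -/
theorem famR_sl {s : ℝ} (h : Y96.HasSl t ((famR C R).g i t) s) : (famR C R).sl i t = s := by
  exact slp_eq (h.up i.2).top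


theorem famR_locD (h : (famR C R).pres i t) :
    |((locD (i.2 - 1) ((famR C R).g i t) : ℤ) : ℝ) - i.1| ≤ |C| + R := by
  have hv := famR_updown h
  have hs := gamR_spec h
  obtain ⟨m, hm⟩ : ∃ m, m = entD (i.2 - 1) ((famR C R).g i t) := ⟨_, rfl⟩
  have h1 : (locD (i.2 - 1) ((famR C R).g i t)) = ((famR C R).g i t m).1 := by
    unfold locD tailD
    rw [← hm]
    simp
  have hm2 : ((famR C R).g i t m).2 = i.2 - 1 := by
    rw [hm]
    exact hv.entD_snd hs.2.1.2.1
  have hm0 : m < 0 := by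
    have := hv.entD_lt_entU (k := i.2 - 1) (l := i.2) (by omega)
    rw [← hm, famR_entU h] at this
    exact this
  have h2 := (hs.2.2 m).2.2 hm0
  have h3 := h2.2
  have e1 : (gamR C R i t m).2 = i.2 - 1 := hm2
  simp only [Prod.fst_sub, Prod.snd_sub, e1] at h3
  rw [h1]
  have e2 : |((i.2 - 1 - i.2 : ℤ) : ℝ)| = 1 := by
    have : i.2 - 1 - i.2 = -1 := by ring
    rw [this]
    simp
  rw [e2] at h3
  have h4 : |(((famR C R).g i t m).1 : ℝ) - i.1| ≤ C * 1 + R := by
    have : ((gamR C R i t m).1 - i.1 : ℤ) = (((famR C R).g i t m).1 - i.1 : ℤ) := rfl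
    rw [this] at h3
    push_cast at h3
    exact h3
  have := le_abs_self C
  linarith

variable {G : Measure ℝ} [IsProbabilityMeasure G]

/-- if the selection is a.s. empty at `0` for every `R`, there are no proper bigeodesics -/
theorem ae_big_empty (h : ∀ R, iidLaw G {t | (0 : ℤ) ∈ (famR C R).AX t} = 0) :
    ∀ᵐ t ∂(iidLaw G), ∀ v, v ∉ Y96.Big C t := by
  rw [ae_iff]
  by_contra hcon
  obtain ⟨R, hR⟩ := measure_crR_pos (P := iidLaw G) (C := C)
    (fun a => (A.mp_shift G a).map_eq) (v0 := {t | ¬ ∀ v, v ∉ Y96.Big C t}) hcon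
    (fun t ht => by
      simp only [Set.mem_ofPred_eq, not_forall, not_not] at ht
      obtain ⟨v, hv⟩ := ht
      exact ⟨v, hv.1, ⟨hv.2.2.2.1, hv.2.2.2.2⟩, hv.2.1, hv.2.2.1⟩)
  exact hR (h R)

end Crest.Agent.R151.SEL
end

-- ▼ part R151/S113J
section

/-!
# R151, SEL J (helper113): `famR` as a `Sel0` of helper592
-/

set_option autoImplicit false

open MeasureTheory Filter Topology
open Crest.ProbabilityR.FirstPassage

namespace Crest.Agent.R151.SEL

open Crest.Agent.R151 Crest.Agent.R151.Y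

variable {G : Measure ℝ} [IsProbabilityMeasure G] {m C C' : ℝ} {R : ℕ}

/-- order of labels on all rows implies order on the rows `0`, `-1` -/
theorem labLe_of_LE {t : Environment} {v w : ℤ → ℤ × ℤ} (h : Y96.LE t v w) (k j : ℤ) :
    H.LabLe (H.lab t k j v) (H.lab t k j w) :=
  ⟨fun x => h.1 k x, fun x => h.2 j x⟩

/-- **the selected family is a `Sel0`** -/
theorem sel0_famR (hC : C < C') (hF : ∀ᵐ t ∂(iidLaw G), Y96.Facts m C' t) :
    F592.Sel0 (iidLaw G) (fun x t => (famR C R).g (x, 0) t) (famR C R).AX (⌈|C|⌉₊ + R) where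
  measγ x n := (famR C R).g_meas (x, 0) n
  measX x := (famR C R).measurableSet_AX x
  covγ z x t n := by
    have := (famR C R).g_add (x, 0) (z, 0) t n
    simpa using this
  covX z t x := (famR C R).AX_shift z t x
  mp z := A.mp_shift G (z, 0)
  pos := by
    filter_upwards [hF] with t ht e
    exact ht.nt.pos ht.nn e
  big := by
    filter_upwards with t x hx
    exact gamR_bigeodesic hx
  ud := by
    filter_upwards with t x hx
    exact famR_updown hx
  locU := by
    filter_upwards with t x hx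
    have h1 : entU 0 ((famR C R).g (x, 0) t) = 0 := famR_entU hx
    have h2 : (famR C R).g (x, 0) t 0 = (x, 0) := famR_zero hx
    unfold F592.pu
    rw [h1, h2]
  locD := by
    filter_upwards with t x hx
    have h1 := famR_locD hx
    have h2 : locD (-1) ((famR C R).g (x, 0) t) = F592.pd (-1) ((famR C R).g (x, 0) t) := by
      unfold locD tailD F592.pd
      simp
    have h3 : (((x, 0) : ℤ × ℤ).2 - 1) = -1 := by simp
    rw [h3, h2] at h1
    have h4 : |((F592.pd (-1) ((famR C R).g (x, 0) t) - x : ℤ) : ℝ)| ≤ ((⌈|C|⌉₊ + R : ℕ) : ℝ) := by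
      push_cast
      refine h1.trans ?_
      have := Nat.le_ceil |C|
      linarith
    rw [← Int.cast_abs] at h4
    exact_mod_cast h4
  tot := by
    filter_upwards [hF] with t ht x hx y hy
    rcases ht.le_total (famR_mem_big hC hx) (famR_mem_big hC hy) with h | h
    · exact Or.inl (labLe_of_LE h 0 (-1))
    · exact Or.inr (labLe_of_LE h 0 (-1))

/-- the slopes of the family -/
theorem famR_hasSl (hC : C < C') {t : Environment} (hF : Y96.Facts m C' t) {i : ℤ × ℤ}
    (h : (famR C R).pres i t) :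
    |(famR C R).sl i t| < m ∧ Y96.HasSl t ((famR C R).g i t) ((famR C R).sl i t) := by
  obtain ⟨s, hs, hsl⟩ := hF.slope _ (famR_mem_big hC h)
  rw [famR_sl hsl]
  exact ⟨hs, hsl⟩

end Crest.Agent.R151.SEL
end

-- ▼ part R151/Z213d
section

/-!
# R151/Z213d — S0213 from 763's system of line functions, the two coalescence fields and the end
game (owner helper890)
-/

set_option autoImplicit false

open MeasureTheory Filter ProbabilityTheory
open Crest.ProbabilityR.FirstPassage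

namespace Crest.Agent.R151.Z

open Crest.Agent.R151.K (IsTC1 Mom LocCtl ae_Nn toR l1 n1)
open Crest.Agent.R151.M51 (Law213)
open Crest.Agent.R151.D411 (SmoothNorm ProperUp Barriers UShape exists_properUp)
open Crest.Agent.R151.SEL (famR sel0_famR famR_hasSl famR_mem_big ae_big_empty)
open Crest.Agent.R151.Y (LowCoal)

variable {G : Measure ℝ} [IsProbabilityMeasure G] {m : ℝ} {μ : ℝ × ℝ → ℝ}

/-- the two coalescence fields of `Y96.Facts` -/
def UC (G : Measure ℝ) (C : ℝ) : Prop :=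
  (∀ᵐ t ∂(iidLaw G), ∀ v₀ ∈ Y96.Big C t, ∀ w₀ ∈ Y96.Big C t, ∀ s, Y96.HasSl t v₀ s →
      Y96.HasSl t w₀ s → (∃ k e, Y96.incU t k v₀ e ≠ Y96.incU t k w₀ e) →
      ∀ v ∈ Y96.Big C t, ∀ w ∈ Y96.Big C t, Y96.HasSl t v s → Y96.HasSl t w s →
        LowCoal v w) ∧
    ∀ᵐ t ∂(iidLaw G), ∀ v₀ ∈ Y96.Big C t, ∀ w₀ ∈ Y96.Big C t, ∀ s, Y96.HasSl t v₀ s →
      Y96.HasSl t w₀ s → (∃ k e, Y96.incD t k v₀ e ≠ Y96.incD t k w₀ e) →
      ∀ v ∈ Y96.Big C t, ∀ w ∈ Y96.Big C t, Y96.HasSl t v s → Y96.HasSl t w s →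
        Y96.HighCoal v w

theorem dense_DS (a : ℝ) : ∀ x y, -a < x → x < y → y < a → ∃ p ∈ RF.DS a, x < p ∧ p < y :=
  fun x y hx hxy hy => RF.DS_dense a x y hx.le hxy hy.le

/-- (1) the facts -/
theorem ae_facts_sys [NullSingletonClass G] (hG : Law213 G) (hM : Mom G m) (hμ : IsTC1 G μ)
    (hN : SmoothNorm μ) {f0 : ℝ → Environment → ℤ → ℝ} (S : LIN.Sys G μ f0) {C : ℝ} (hC : 0 < C)
    (hC' : μ (1, 0) * C < μ (C, 1)) (hUC : UC G C) :
    ∀ᵐ t ∂(iidLaw G), Y96.Facts (μ (1, 0)) C t :=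
  SLF.ae_facts hG hM hμ hN (RF.DS_countable _) (dense_DS _) (RF.DS_sub_Icc _)
    (RF.Sys.rows S).1 (RF.Sys.rows S).2 hC hC' hUC.1 hUC.2


/-- there is room for a larger cone -/
theorem exists_cone (hN : SmoothNorm μ) {C : ℝ} (hC : μ (1, 0) * C < μ (C, 1)) :
    ∃ C' : ℝ, C < C' ∧ μ (1, 0) * C' < μ (C', 1) := by
  have h1 : DifferentiableAt ℝ μ (C, 1) := hN.diff _ fun h0 => by simpa using congrArg Prod.snd h0
  have h2 : ContinuousAt (fun x : ℝ => μ (x, 1) - μ (1, 0) * x) C := by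
    refine ContinuousAt.sub ?_ (by fun_prop)
    exact ContinuousAt.comp (f := fun x : ℝ => ((x, 1) : ℝ × ℝ)) (g := μ) h1.continuousAt
      (by fun_prop)
  have h3 : ∀ᶠ x in nhds C, 0 < μ (x, 1) - μ (1, 0) * x :=
    h2.eventually_mem (Ioi_mem_nhds (by linarith))
  have h4 : ∀ᶠ x in nhdsWithin C (Set.Ioi C), 0 < μ (x, 1) - μ (1, 0) * x :=
    nhdsWithin_le_nhds h3
  obtain ⟨x, hx1, hx2⟩ := (h4.and self_mem_nhdsWithin).exists
  exact ⟨x, hx2, by linarith⟩

/-- (3) the end game (helper96), as a statement -/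
def End : Prop :=
  ∀ (G : Measure ℝ) [IsProbabilityMeasure G] [NullSingletonClass G] (m C C' : ℝ) (R : ℕ),
    Law213 G → C < C' → (∀ᵐ t ∂(iidLaw G), Y96.Facts m C' t) →
    (∀ᵐ t ∂(iidLaw G), ∀ x ∈ (famR C R).AX t, ∃ j,
      F592.IsSucc ((famR C R).AX t) (F592.Sel0.lt (fun x t => (famR C R).g (x, 0) t) t) x j) →
    iidLaw G {t | (0 : ℤ) ∈ (famR C R).AX t} = 0



end Crest.Agent.R151.Z
end

-- ▼ part R151/Y96G

/-!
# R151, block (Z) (helper96): end of the proof for one covariant family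

* `upFacts_of`, `upFacts_mirror` : the properties (o1)-(o7) from `Facts`;
* `gp_eq_of_inc` : equal increments on the rows `0`, `-1` give equal gaps;
* `measure_zero_of_fam` : a covariant family of bigeodesics of the class is almost surely empty.
-/

set_option autoImplicit false

open MeasureTheory Filter Topology
open scoped ENNReal

namespace Crest.Agent.R151.Y96

open Crest.ProbabilityR.FirstPassage
open Crest.Agent.R151 Crest.Agent.R151.SEL Crest.Agent.R151.Y
open Crest.Agent.R151.F592 (STO IsSucc LField Sel0 gp Ps pu pd)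

/-- the members of the family are bigeodesics of the class, `sl` is their slope -/
def InClass (F : BFam) (C : ℝ) (t : Environment) : Prop :=
  ∀ i, F.pres i t → F.g i t ∈ Big C t ∧ HasSl t (F.g i t) (F.sl i t)

section det

variable {F : BFam} {m C : ℝ} {t : Environment}

theorem upFacts_of (hF : Facts m C t) (h : InClass F C t) : UpFacts F t where
  inc_le k i e hi := hF.o1 (h i hi).1 k e
  slope_lt k i j hi hj hs e := hF.o2 (h i hi).1 (h j hj).1 (h i hi).2 (h j hj).2 hs k e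
  loc_lt k i₀ j₀ e₀ hi₀ hj₀ hs hne i j hi hj hsi hsj hl e :=
    hF.o3 (h i₀ hi₀).1 (h j₀ hj₀).1 (h i₀ hi₀).2 (hs ▸ (h j₀ hj₀).2) ⟨k, e₀, hne⟩ (h i hi).1
      (h j hj).1 (hsi ▸ (h i hi).2) (hsj ▸ (h j hj).2) hl e
  osc i j hi hj _ hle n := hF.o5' (h i hi).1 (h j hj).1 hle n
  order i j hi hj _ hle n e := hF.o7 (h i hi).1 (h j hj).1 hle n e
  coal i₀ j₀ e₀ hi₀ hj₀ hs hne i j hi hj hsi hsj :=
    hF.o6 (h i₀ hi₀).1 (h j₀ hj₀).1 (h i₀ hi₀).2 (hs ▸ (h j₀ hj₀).2) ⟨0, e₀, hne⟩ (h i hi).1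
      (h j hj).1 (hsi ▸ (h i hi).2) (hsj ▸ (h j hj).2)

theorem inClass_mirror (h : InClass F C (N.refl t)) : InClass (mirror F) C t := by
  intro i hi
  obtain ⟨h1, h2⟩ := h (rI i) hi
  have e1 := big_rv h1
  rw [N.refl_refl] at e1
  have e2 := h2.rv (updown_of_big h1)
  rw [N.refl_refl] at e2
  exact ⟨e1, e2⟩

theorem upFacts_mirror (hF : Facts m C (N.refl t)) (h : InClass F C (N.refl t)) :
    UpFacts (mirror F) t := by
  have := hF.refl
  rw [N.refl_refl] at this
  exact upFacts_of this (inClass_mirror h)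

/-- functions with equal increments differ by a constant -/
theorem exists_const_of_inc {f g : ℤ → ℝ} (h : ∀ e, f (e + 1) - f e = g (e + 1) - g e) :
    ∃ c, ∀ x, f x = g x + c := by
  refine ⟨f 0 - g 0, fun x => ?_⟩
  induction x using Int.induction_on with
  | zero => ring
  | succ n ih =>
    have := h n
    linarith
  | pred n ih =>
    have := h (-(n : ℤ) - 1)
    rw [sub_add_cancel] at this
    linarith

/-- equal increments on the two rows give equal gaps -/
theorem gp_eq_of_inc (ht : ∀ e, 0 < t e) {v w : ℤ → ℤ × ℤ} (hv : IsBigeodesic t v)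
    (hvU : UpDown v) (hw : IsBigeodesic t w) (hwU : UpDown w) {a b : ℤ} (hab : a < b)
    (hU : ∀ e, incU t b v e = incU t b w e) (hD : ∀ e, incD t a v e = incD t a w e)
    (u : ℤ → ℤ × ℤ) : gp t a b v u = gp t a b w u := by
  obtain ⟨c, hc⟩ := exists_const_of_inc (f := fun x => fU t b v (x, b))
    (g := fun x => fU t b w (x, b)) hU
  obtain ⟨d, hd⟩ := exists_const_of_inc (f := fun x => fD t a v (x, a))
    (g := fun x => fD t a w (x, a)) hD
  have key : ∀ x y, Ps t a b v x y = Ps t a b w x y + (c + d) := by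
    intro x y
    unfold Ps
    rw [hc x, hd y]
    ring
  have h1 := F592.Ps_min ht hv hvU hab (pu b w) (pd a w)
  have h2 := F592.Ps_min ht hw hwU hab (pu b v) (pd a v)
  rw [key, key] at h1
  unfold gp
  rw [key, key]
  linarith

theorem labLe_iff {v w : ℤ → ℤ × ℤ} : H.LabLe (H.lab t 0 (-1) v) (H.lab t 0 (-1) w) ↔
    (∀ e, incU t 0 w e ≤ incU t 0 v e) ∧ ∀ e, incD t (-1) v e ≤ incD t (-1) w e := Iff.rfl

/-- the order on the rows `0`, `-1` is the order on all rows -/
theorem le_of_labLe (hF : Facts m C t) {v w : ℤ → ℤ × ℤ} (hv : v ∈ Big C t) (hw : w ∈ Big C t)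
    (h : H.LabLe (H.lab t 0 (-1) v) (H.lab t 0 (-1) w)) : LE t v w := by
  rw [labLe_iff] at h
  exact ⟨hF.incU_le_all hv hw h.1, hF.incD_le_all hw hv h.2⟩

end det

section main

variable {G : Measure ℝ} [IsProbabilityMeasure G]

/-- **END**: a covariant family of bigeodesics of the class is almost surely empty -/
theorem measure_zero_of_fam (hG : M51.Law213 G) (F : BFam) {m C : ℝ} {m0 : ℕ}
    (hFacts : ∀ᵐ t ∂(iidLaw G), Facts m C t) (hcl : ∀ᵐ t ∂(iidLaw G), InClass F C t)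
    (D : Sel0 (iidLaw G) (fun x t => F.g (x, 0) t) F.AX m0)
    (hgood : ∀ K : ℝ, 0 < K → ∀ β : ℝ≥0∞, 0 < β → ∃ Gd : Environment → Set ℤ,
      (∀ x, NullMeasurableSet {t | x ∈ Gd t} (iidLaw G)) ∧
      (∀ z t x, x ∈ Gd (A.shift (z, 0) t) ↔ x + z ∈ Gd t) ∧
      (iidLaw G) {t | (0 : ℤ) ∈ F.AX t ∧ (0 : ℤ) ∉ Gd t} ≤ β ∧
      ∀ᵐ t ∂(iidLaw G), (0 : ℤ) ∈ F.AX t → (0 : ℤ) ∈ Gd t →
        {j : ℤ | j ∈ F.AX t ∧ j ∈ Gd t ∧
          gp t (-1) 0 (F.g (0, 0) t) (F.g (j, 0) t) ≤ K}.Finite) :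
    iidLaw G {t | (0 : ℤ) ∈ F.AX t} = 0 := by
  set γ : ℤ → Environment → ℤ → ℤ × ℤ := fun x t => F.g (x, 0) t with hγ
  have L := D.toPField.toLField
  have hex := D.ae_exists_succ hG hgood
  have hm : ∀ x y, MeasurableSet {t | Sel0.lt γ t x y} := D.toPField.measurable_lt
  have hc : ∀ (z : ℤ) t x y, Sel0.lt γ (A.shift (z, 0) t) x y ↔ Sel0.lt γ t (x + z) (y + z) :=
    L.covlt
  have hord : ∀ᵐ t ∂(iidLaw G), ∀ x ∈ F.AX t, ∀ y ∈ F.AX t, Sel0.lt γ t x y →
      LE t (F.g (x, 0) t) (F.g (y, 0) t) ∧ F.sl (x, 0) t ≤ F.sl (y, 0) t := by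
    filter_upwards [hFacts, hcl] with t hF hc x hx y hy hxy
    have h1 := hc _ hx
    have h2 := hc _ hy
    have hle := le_of_labLe hF h1.1 h2.1 hxy.1
    exact ⟨hle, hF.slope_le h1.2 h2.2 hle⟩
  have hB : ∀ᵐ t ∂(iidLaw G), ∀ x ∈ F.AX t, |F.sl (x, 0) t| ≤ |m| := by
    filter_upwards [hFacts, hcl] with t hF hc x hx
    have h1 := hc _ hx
    exact (hF.abs_lt h1.1 h1.2).le.trans (le_abs_self m)
  have hupm : ∀ᵐ t ∂(iidLaw G), UpFacts (mirror F) t := by
    filter_upwards [RFL.ae_refl.2 hFacts, RFL.ae_refl.2 hcl] with t h1 h2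
    exact upFacts_mirror h1 h2
  have hU := same_incU (F := F) (lt := Sel0.lt γ) hG hm hc L.sto
    (by filter_upwards [hFacts, hcl] with t h1 h2 using upFacts_of h1 h2)
    (by filter_upwards [hord] with t h x hx y hy hxy
        exact ⟨(h x hx y hy hxy).1.1 0, (h x hx y hy hxy).2⟩) (abs_nonneg m) hB hex
  have hD := same_incD (F := F) (lt := Sel0.lt γ) hG hm hc L.sto
    (by filter_upwards [hcl] with t h i hi using updown_of_big (h i hi).1)
    hupm
    (by filter_upwards [hord] with t h x hx y hy hxy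
        exact ⟨(h x hx y hy hxy).1.2 0, (h x hx y hy hxy).2⟩) (abs_nonneg m) hB hex
  refine L.measure_eq_zero_of_ties (gap := fun t x y => gp t (-1) 0 (γ x t) (γ y t)) hex ?_ ?_
    fun β hβ => hgood 1 one_pos β hβ
  · filter_upwards [hU, hD, hFacts, hcl, D.pos] with t hU hD hF hcl hpos x j hj k _
    have hx := hcl _ hj.1
    have hj' := hcl _ hj.2.1
    refine gp_eq_of_inc hpos hx.1.1 (updown_of_big hx.1) hj'.1.1 (updown_of_big hj'.1)
      (by norm_num) (fun e => (hU x j hj e).symm) (fun e => ?_) _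
    exact hF.incD_eq_all hx.1 hj'.1 (k := 0) (fun e => (hD x j hj e).symm) _ e
  · refine Eventually.of_forall fun t x _ => ?_
    rw [F592.gp_self]
    exact zero_le_one

end main

end Crest.Agent.R151.Y96
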