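import Crest.Agent.R151.SLF856
import Crest.Agent.R151.UC290d
import Crest.Agent.R151.B469b
import Mathlib
import Crest.Agent.R151.B469a
import Crest.Agent.R151.SL906A
import Crest.Agent.R151.L763d
import Crest.Agent.R88.Birkhoff
import Crest.Agent.R151.L763h
import Crest.Agent.R151.L763k
import Crest.Agent.R151.Y96G_Mg

-- ▼ part R151/FAuc635
section

/-!
# R151, FAuc635 (helper635): the fields `ucU`, `ucD` of `Y96.Facts` for almost every environment

Inputs: helper290's `UC.UpSys` for the upper row functions `f p k t` (slope `p`, row `k`), helper856's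
`SLF.RowHyp` for the upper rows `fun p t => f p k t` and for the lower rows `g k`.
`ae_ucD`: when the lower label functions of two members of `Big C t` of the same slope differ
somewhere, the upper ends of all members of this slope coalesce; `ae_ucU`: the reflected statement
(only the conclusion is reflected, no family is).
-/

set_option autoImplicit false

open Crest.ProbabilityR.FirstPassage
open Filter Set MeasureTheory
open scoped Topology

namespace Crest.Agent.R151.FAuc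

open Y H K SEL Y96 SL SLF

/-- the literal field `ucD` of `Y96.Facts` -/
def UcD (C : ℝ) (t : Environment) : Prop :=
  ∀ v₀ ∈ Big C t, ∀ w₀ ∈ Big C t, ∀ s, HasSl t v₀ s → HasSl t w₀ s →
    (∃ k e, Y96.incD t k v₀ e ≠ Y96.incD t k w₀ e) →
    ∀ v ∈ Big C t, ∀ w ∈ Big C t, HasSl t v s → HasSl t w s → HighCoal v w

/-- the literal field `ucU` of `Y96.Facts` -/
def UcU (C : ℝ) (t : Environment) : Prop :=
  ∀ v₀ ∈ Big C t, ∀ w₀ ∈ Big C t, ∀ s, HasSl t v₀ s → HasSl t w₀ s →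
    (∃ k e, Y96.incU t k v₀ e ≠ Y96.incU t k w₀ e) →
    ∀ v ∈ Big C t, ∀ w ∈ Big C t, HasSl t v s → HasSl t w s → LowCoal v w

theorem highCoal_of_coal {v w : ℤ → ℤ × ℤ} {k l : ℤ} (h : Coal (tailU k v) (tailU l w)) :
    HighCoal v w := by
  obtain ⟨i, j, h⟩ := h
  refine ⟨entU k v + i, entU l w + j, fun n => ?_⟩
  have := h n
  unfold tailU at this
  push_cast at this
  rw [← add_assoc, ← add_assoc] at this
  exact this

/-- the tail above the row `h₀` has slope `s` in the sense of `UC.SlopeU` -/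
theorem slopeU_of_sand {D : Set ℝ} {f : ℝ → ℤ → ℤ → ℝ} {t : Environment} {v : ℤ → ℤ × ℤ}
    (hvU : UpDown v) {h₀ : ℤ} {s : ℝ}
    (hS : ∀ h, h₀ ≤ h → Sand D (fun p => f p h) s fun x => fU t h v (x, h)) :
    UC.SlopeU D f t h₀ s (tailU h₀ v) := by
  intro h hh
  have e := tailU_eq_tail hvU hh
  refine ⟨(entU h v - entU h₀ v).toNat, fun n => ?_, ?_⟩
  · have e1 := congrFun e n
    rw [← e1]
    exact Y.tailU_mem hvU n
  · rw [← e]
    exact hS h hh

/-- deterministic part -/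
theorem ucD_of {m C : ℝ} {t : Environment} {D : Set ℝ} {f : ℝ → ℤ → ℤ → ℝ}
    {g : ℤ → ℝ → ℤ → ℝ} (ht : ∀ e, 0 ≤ t e)
    (hsand : ∀ v ∈ Big C t, ∀ s, HasSl t v s → (-m < s ∧ s < m) ∧
      ∀ k, Sand D (fun p => f p k) s (fun x => fU t k v (x, k)) ∧
        SandUp D (g k) s fun x => fD t k v (x, k))
    (halt : ∀ k : ℤ, ∀ s, -m < s → s < m → ContAt D (g k) s ∨
      ∀ (i : ℤ) (u u' : ℕ → ℤ × ℤ), IsRay t (reg (Up i)) u → IsRay t (reg (Up i)) u' →
        Tendsto (fun n => (u n).2) atTop atTop → Tendsto (fun n => (u' n).2) atTop atTop →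
        UC.SlopeU D f t (k + 1) s u → UC.SlopeU D f t (k + 1) s u' → Coal u u') :
    UcD C t := by
  rintro v₀ hv₀ w₀ hw₀ s hvs₀ hws₀ ⟨k, e, hke⟩ v hv w hw hvs hws
  obtain ⟨⟨h1, h2⟩, h3⟩ := hsand v₀ hv₀ s hvs₀
  obtain ⟨-, h4⟩ := hsand w₀ hw₀ s hws₀
  rcases halt k s h1 h2 with hc | hc
  · exfalso
    apply hke
    have := (h3 k).2.sandU.inc_eq hc (h4 k).2.sandU e
    simpa only [inc, Y96.incD] using this
  · have hvU := updown_of_big hv
    have hwU := updown_of_big hw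
    have tu : ∀ {v : ℤ → ℤ × ℤ}, UpDown v →
        Tendsto (fun n => (tailU (k + 1) v n).2) atTop atTop := by
      intro v hv
      exact hv.1.comp (tendsto_atTop_add_const_left _ _ tendsto_natCast_atTop_atTop)
    exact highCoal_of_coal (hc (k + 1) (tailU (k + 1) v) (tailU (k + 1) w)
      (isRay_tailU hv.1 ht hvU _) (isRay_tailU hw.1 ht hwU _) (tu hvU) (tu hwU)
      (slopeU_of_sand hvU fun h _ => ((hsand v hv s hvs).2 h).1)
      (slopeU_of_sand hwU fun h _ => ((hsand w hw s hws).2 h).1))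

/-- reflection of the conclusion -/
theorem ucU_of_refl {C : ℝ} {t : Environment} (h : UcD C (N.refl t)) : UcU C t := by
  rintro v₀ hv₀ w₀ hw₀ s hvs₀ hws₀ ⟨k, e, hke⟩ v hv w hw hvs hws
  rw [← highCoal_rv]
  refine h _ (big_rv hv₀) _ (big_rv hw₀) (-s) (hvs₀.rv (updown_of_big hv₀))
    (hws₀.rv (updown_of_big hw₀)) ⟨-k, e, ?_⟩ _ (big_rv hv) _ (big_rv hw)
    (hvs.rv (updown_of_big hv)) (hws.rv (updown_of_big hw))
  rw [incD_refl (updown_of_big hv₀), incD_refl (updown_of_big hw₀)]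
  exact hke

variable {G : Measure ℝ} [IsProbabilityMeasure G]

theorem disjoint_dn_hp (k : ℤ) : Disjoint (edgesIn (Dn k)) (edgesIn (D624.Hp (k + 1))) :=
  (disjoint_edges (k := k + 1) (l := k) (by omega)).symm

/-- **the field `ucD`** -/
theorem ae_ucD [NullSingletonClass G] {m : ℝ} {μ : ℝ × ℝ → ℝ} (hG : M51.Law213 G)
    (hM : Mom G m) (hμ : IsTC1 G μ) (hN : D411.SmoothNorm μ) {D : Set ℝ}
    (hsub : D ⊆ Icc (-μ (1, 0)) (μ (1, 0))) {f : ℝ → ℤ → Environment → ℤ → ℝ}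
    {g : ℤ → ℝ → Environment → ℤ → ℝ} (S : UC.UpSys G D (-μ (1, 0)) (μ (1, 0)) f)
    (hf : ∀ k, RowHyp G D (Up k) k (-1) (fun p t => f p k t))
    (hg : ∀ k, RowHyp G D (Dn k) k 1 (g k)) {C : ℝ} (hC : 0 < C)
    (hC' : μ (1, 0) * C < μ (C, 1)) : ∀ᵐ t ∂(iidLaw G), UcD C t := by
  have hat : ∀ x, G {x} = 0 := fun x => measure_singleton x
  have halt : ∀ᵐ t ∂(iidLaw G), ∀ k : ℤ, ∀ s, -μ (1, 0) < s → s < μ (1, 0) →
      ContAt D (fun p => g k p t) s ∨
      ∀ (i : ℤ) (u u' : ℕ → ℤ × ℤ), IsRay t (reg (Up i)) u → IsRay t (reg (Up i)) u' →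
        Tendsto (fun n => (u n).2) atTop atTop → Tendsto (fun n => (u' n).2) atTop atTop →
        UC.SlopeU D (fun p k => f p k t) t (k + 1) s u →
        UC.SlopeU D (fun p k => f p k t) t (k + 1) s u' → Coal u u' := by
    rw [ae_all_iff]
    intro k
    exact S.coal_up hG.h0 hat (hg k).mean
      (fun p hp x t t' h => (hg k).dep p hp t t' h x) (disjoint_dn_hp k)
  filter_upwards [halt, ae_rowsOK S.countable S.dense hsub (f := fun k p t => f p k t) hf hg,
    ae_envOK_213 hG hM hμ hN] with t h1 h2 h3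
  refine ucD_of (m := μ (1, 0)) (f := fun p k => f p k t) (g := fun k p => g k p t) h3.nonneg
    (fun v hv s hs => ?_) h1
  obtain ⟨h4, h5⟩ := h2.1.sand hN hC hC' h3 hv hs
  exact ⟨abs_lt.1 (h4.trans_lt (slopeAt_lt hN.norm hN.refl hN.diff hC')), h5⟩

/-- **the field `ucU`** -/
theorem ae_ucU [NullSingletonClass G] {m : ℝ} {μ : ℝ × ℝ → ℝ} (hG : M51.Law213 G)
    (hM : Mom G m) (hμ : IsTC1 G μ) (hN : D411.SmoothNorm μ) {D : Set ℝ}
    (hsub : D ⊆ Icc (-μ (1, 0)) (μ (1, 0))) {f : ℝ → ℤ → Environment → ℤ → ℝ}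
    {g : ℤ → ℝ → Environment → ℤ → ℝ} (S : UC.UpSys G D (-μ (1, 0)) (μ (1, 0)) f)
    (hf : ∀ k, RowHyp G D (Up k) k (-1) (fun p t => f p k t))
    (hg : ∀ k, RowHyp G D (Dn k) k 1 (g k)) {C : ℝ} (hC : 0 < C)
    (hC' : μ (1, 0) * C < μ (C, 1)) : ∀ᵐ t ∂(iidLaw G), UcU C t := by
  filter_upwards [RFL.ae_refl_of (ae_ucD hG hM hμ hN hsub S hf hg hC hC')] with t ht
  exact ucU_of_refl ht

end Crest.Agent.R151.FAuc
end

-- ▼ part R151/B469c
section

/-!
# R151, block BUS (helper469), part c: the excess of `μ` outside a facet (analysis)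
-/

set_option autoImplicit false
set_option linter.unusedSectionVars false

open Filter

namespace Crest.Agent.R151.BUS

variable {μ : ℝ × ℝ → ℝ}

section

variable (hμ : B710.NormLike μ)
include hμ

/-- if `μ(u)+μ(v) = μ(u+v)` then `μ` is linear on the cone of `u, v` -/
lemma cone_linear {u v : ℝ × ℝ} (h : μ u + μ v = μ (u + v)) {a b : ℝ} (ha : 0 ≤ a)
    (hb : 0 ≤ b) : μ (a • u + b • v) = a * μ u + b * μ v := by
  refine le_antisymm ?_ ?_
  · refine (hμ.add _ _).trans_eq ?_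
    rw [hμ.smul _ _ ha, hμ.smul _ _ hb]
  · set l := max a b with hl
    have h1 : a ≤ l := le_max_left _ _
    have h2 : b ≤ l := le_max_right _ _
    have h3 : l • (u + v) = (a • u + b • v) + ((l - a) • u + (l - b) • v) := by
      rw [smul_add, sub_smul, sub_smul]
      abel
    have h4 := hμ.add (a • u + b • v) ((l - a) • u + (l - b) • v)
    have h5 := hμ.add ((l - a) • u) ((l - b) • v)
    rw [← h3, hμ.smul _ _ (ha.trans h1), ← h] at h4
    rw [hμ.smul _ _ (by linarith), hμ.smul _ _ (by linarith)] at h5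
    linarith

/-- positivity of the excess to the right of the facet -/
lemma excess_posR {s p s2 : ℝ} (hd : HasDerivAt (fun x : ℝ => μ (x, 1)) p s) (hs : s < s2)
    (hne : μ (s2, 1) ≠ μ (s, 1) + p * (s2 - s)) {q : ℝ × ℝ} (hq : s2 * q.2 ≤ q.1) (hq' : 0 < q.1 - s * q.2) :
    0 < μ q + μ (s, 1) - μ (q + (s, 1)) := by
  by_contra hcon
  have h0 : μ q + μ (s, 1) = μ (q + (s, 1)) := le_antisymm (by linarith) (hμ.add _ _)
  -- affine on `[s, s2]`
  set β := (s2 - s) / (q.1 - s * q.2) with hβ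
  set α := 1 - β * q.2 with hα
  have hβ0 : 0 ≤ β := div_nonneg (by linarith) hq'.le
  have hβ1 : β * (q.1 - s * q.2) = s2 - s := by
    rw [hβ]; field_simp
  have hα0 : 0 ≤ α := by
    have : β * q.2 ≤ 1 := by
      rw [hβ, div_mul_eq_mul_div, div_le_one hq']
      nlinarith
    linarith
  have haff : ∀ r : ℝ, 0 ≤ r → r ≤ 1 →
      μ (s + r * (s2 - s), 1) = (r * β) * μ q + (1 - r + r * α) * μ (s, 1) := by
    intro r hr0 hr1
    rw [← cone_linear hμ h0 (a := r * β) (b := 1 - r + r * α) (by positivity) (by nlinarith)]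
    congr 1
    ext
    · simp only [Prod.fst_add, Prod.smul_fst, smul_eq_mul]
      rw [hα]
      linear_combination (-r) * hβ1
    · simp only [Prod.snd_add, Prod.smul_snd, smul_eq_mul]
      rw [hα]
      ring
  have h2 := haff 1 zero_le_one le_rfl
  have haff' : ∀ r : ℝ, 0 ≤ r → r ≤ 1 →
      μ (s + r * (s2 - s), 1) - μ (s, 1) = r * (μ (s2, 1) - μ (s, 1)) := by
    intro r hr0 hr1
    rw [haff r hr0 hr1]
    rw [show s + 1 * (s2 - s) = s2 by ring] at h2
    rw [h2]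
    ring
  -- the derivative
  have hd2 : Tendsto (fun r : ℝ => (μ (s + r * (s2 - s), 1) - μ (s, 1)) / (r * (s2 - s)))
      (nhdsWithin 0 (Set.Ioi 0)) (nhds p) := by
    have h3 := hasDerivAt_iff_tendsto_slope_zero.1 hd
    have h4 : Tendsto (fun r : ℝ => r * (s2 - s)) (nhdsWithin 0 (Set.Ioi 0))
        (nhdsWithin 0 {0}ᶜ) := by
      refine tendsto_nhdsWithin_iff.2 ⟨?_, ?_⟩
      · have : Tendsto (fun r : ℝ => r * (s2 - s)) (nhds 0) (nhds (0 * (s2 - s))) :=
          tendsto_id.mul_const _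
        rw [zero_mul] at this
        exact this.mono_left nhdsWithin_le_nhds
      · filter_upwards [self_mem_nhdsWithin] with r hr
        have hr' : 0 < r := hr
        have : 0 < r * (s2 - s) := mul_pos hr' (by linarith)
        exact this.ne'
    refine (h3.comp h4).congr fun r => ?_
    simp only [Function.comp, smul_eq_mul]
    rw [div_eq_inv_mul]
  have hd3 : Tendsto (fun r : ℝ => (μ (s + r * (s2 - s), 1) - μ (s, 1)) / (r * (s2 - s)))
      (nhdsWithin 0 (Set.Ioi 0)) (nhds ((μ (s2, 1) - μ (s, 1)) / (s2 - s))) := by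
    refine tendsto_const_nhds.congr' ?_
    filter_upwards [Ioc_mem_nhdsGT (show (0 : ℝ) < 1 by norm_num)] with r hr
    rw [haff' r hr.1.le hr.2]
    have : r ≠ 0 := hr.1.ne'
    have : s2 - s ≠ 0 := by linarith
    field_simp
  have h5 := tendsto_nhds_unique hd2 hd3
  rw [eq_div_iff (by linarith)] at h5
  exact hne (by linarith)

/-- **uniform excess to the right of the facet** on the top side and on the right side -/
theorem excess_right {s p s2 : ℝ} (hd : HasDerivAt (fun x : ℝ => μ (x, 1)) p s) (hs : s < s2)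
    (hne : μ (s2, 1) ≠ μ (s, 1) + p * (s2 - s)) {C : ℝ} (hC : |s| < C) (hC2 : |s2| ≤ C) :
    ∃ η > 0, ∀ q : ℝ × ℝ, (q.2 = 1 ∧ s2 ≤ q.1 ∧ q.1 ≤ C) ∨ (q.1 = C ∧ 0 ≤ q.2 ∧ q.2 ≤ 1) →
      η ≤ μ q + μ (s, 1) - μ (q + (s, 1)) := by
  set K : Set (ℝ × ℝ) := (Set.Icc s2 C ×ˢ {1}) ∪ ({C} ×ˢ Set.Icc 0 1) with hK
  have hKc : IsCompact K := (isCompact_Icc.prod isCompact_singleton).union
    (isCompact_singleton.prod isCompact_Icc)
  have hKn : K.Nonempty := ⟨(C, 1), Or.inr ⟨rfl, by simp⟩⟩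
  have hcont := hμ.continuous
  have hE : ContinuousOn (fun q : ℝ × ℝ => μ q + μ (s, 1) - μ (q + (s, 1))) K := by
    apply Continuous.continuousOn
    fun_prop
  obtain ⟨q0, hq0, hmin⟩ := hKc.exists_isMinOn hKn hE
  have hpos : ∀ q ∈ K, 0 < μ q + μ (s, 1) - μ (q + (s, 1)) := by
    rintro q (⟨h1, h2⟩ | ⟨h1, h2⟩)
    · have h2' : q.2 = 1 := h2
      refine excess_posR hμ hd hs hne (by rw [h2']; linarith [h1.1]) ?_
      rw [h2']
      linarith [h1.1]
    · have h1' : q.1 = C := h1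
      have hs' := abs_lt.1 hC
      have hs2' := abs_le.1 hC2
      refine excess_posR hμ hd hs hne ?_ ?_
      · rw [h1']
        rcases le_total 0 s2 with h | h
        · nlinarith [h2.1, h2.2]
        · have : s2 * q.2 ≤ 0 := mul_nonpos_of_nonpos_of_nonneg h h2.1
          have := (abs_nonneg s).trans_lt hC
          linarith
      · rw [h1']
        rcases le_total 0 s with h | h
        · nlinarith [h2.1, h2.2]
        · have : s * q.2 ≤ 0 := mul_nonpos_of_nonpos_of_nonneg h h2.1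
          have := (abs_nonneg s).trans_lt hC
          linarith
  refine ⟨_, hpos q0 hq0, fun q hq => hmin ?_⟩
  rcases hq with ⟨h1, h2, h3⟩ | ⟨h1, h2, h3⟩
  · exact Or.inl ⟨⟨h2, h3⟩, h1⟩
  · exact Or.inr ⟨h1, ⟨h2, h3⟩⟩

/-- homogeneous form -/
theorem excess_right' {s p s2 : ℝ} (hd : HasDerivAt (fun x : ℝ => μ (x, 1)) p s) (hs : s < s2)
    (hne : μ (s2, 1) ≠ μ (s, 1) + p * (s2 - s)) {C : ℝ} (hC : |s| < C) (hC2 : |s2| ≤ C) :
    ∃ η > 0, ∀ N > 0, ∀ q : ℝ × ℝ, (q.2 = N ∧ s2 * N ≤ q.1 ∧ q.1 ≤ C * N) ∨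
      (q.1 = C * N ∧ 0 ≤ q.2 ∧ q.2 ≤ N) →
      η * N ≤ μ q + N * μ (s, 1) - μ (q + (s * N, N)) := by
  obtain ⟨η, hη, h⟩ := excess_right hμ hd hs hne hC hC2
  refine ⟨η, hη, fun N hN q hq => ?_⟩
  have h1 := h (N⁻¹ • q) (by
    simp only [Prod.smul_fst, Prod.smul_snd, smul_eq_mul]
    rcases hq with ⟨h1, h2, h3⟩ | ⟨h1, h2, h3⟩
    · left
      refine ⟨by rw [h1]; field_simp, ?_, ?_⟩
      · rw [inv_mul_eq_div, le_div_iff₀ hN]; exact h2
      · rw [inv_mul_eq_div, div_le_iff₀ hN]; exact h3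
    · right
      refine ⟨by rw [h1]; field_simp, by positivity, ?_⟩
      rw [inv_mul_eq_div, div_le_one hN]; exact h3)
  have h2 : μ (N⁻¹ • q) = N⁻¹ * μ q := hμ.smul _ _ (by positivity)
  have h3 : μ (N⁻¹ • q + (s, 1)) = N⁻¹ * μ (q + (s * N, N)) := by
    rw [← hμ.smul _ _ (by positivity), smul_add]
    congr 2
    ext <;> simp <;> field_simp
  rw [h2, h3] at h1
  have h4 := mul_le_mul_of_nonneg_right h1 hN.le
  refine h4.trans_eq ?_
  field_simp

omit hμ in
lemma normLike_reflect (hμ : B710.NormLike μ) :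
    B710.NormLike (fun v : ℝ × ℝ => μ (-v.1, v.2)) := by
  refine ⟨?_, ?_, ?_, ?_, ?_⟩
  · intro r v hr
    simp only [Prod.smul_fst, Prod.smul_snd, smul_eq_mul]
    rw [← hμ.smul r _ hr]
    congr 1
    ext <;> simp
  · intro v
    simp only [Prod.fst_neg, Prod.snd_neg]
    rw [← hμ.neg]
    congr 1
    ext <;> simp
  · intro u v
    refine (le_of_eq ?_).trans (hμ.add (-u.1, u.2) (-v.1, v.2))
    congr 1
    ext
    · simp; ring
    · simp
  · obtain ⟨c, hc, h⟩ := hμ.lower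
    exact ⟨c, hc, fun v => by simpa using h (-v.1, v.2)⟩
  · obtain ⟨c, hc, h⟩ := hμ.upper
    exact ⟨c, hc, fun v => by simpa using h (-v.1, v.2)⟩

omit hμ in
lemma hasDerivAt_reflect {s p : ℝ} (hd : HasDerivAt (fun x : ℝ => μ (x, 1)) p s) :
    HasDerivAt (fun x : ℝ => (fun v : ℝ × ℝ => μ (-v.1, v.2)) (x, 1)) (-p) (-s) := by
  have h : HasDerivAt (fun x : ℝ => μ (x, 1)) p (- -s) := by rwa [neg_neg]
  have := h.comp (-s) (hasDerivAt_neg (-s))
  simpa [Function.comp_def] using this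

/-- homogeneous form, left of the facet -/
theorem excess_left' {s p s1 : ℝ} (hd : HasDerivAt (fun x : ℝ => μ (x, 1)) p s) (hs : s1 < s)
    (hne : μ (s1, 1) ≠ μ (s, 1) + p * (s1 - s)) {C : ℝ} (hC : |s| < C) (hC2 : |s1| ≤ C) :
    ∃ η > 0, ∀ N > 0, ∀ q : ℝ × ℝ, (q.2 = N ∧ q.1 ≤ s1 * N ∧ -(C * N) ≤ q.1) ∨
      (q.1 = -(C * N) ∧ 0 ≤ q.2 ∧ q.2 ≤ N) →
      η * N ≤ μ q + N * μ (s, 1) - μ (q + (s * N, N)) := by
  obtain ⟨η, hη, h⟩ := excess_right' (normLike_reflect hμ) (hasDerivAt_reflect hd)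
    (s2 := -s1) (by linarith) (by
      simp only [neg_neg]
      intro h
      exact hne (by linarith)) (C := C) (by rwa [abs_neg]) (by rwa [abs_neg])
  refine ⟨η, hη, fun N hN q hq => ?_⟩
  have := h N hN (-q.1, q.2) (by
    simp only
    rcases hq with ⟨h1, h2, h3⟩ | ⟨h1, h2, h3⟩
    · exact Or.inl ⟨h1, by linarith, by linarith⟩
    · exact Or.inr ⟨by linarith, h2, h3⟩)
  simp only [neg_neg] at this
  refine this.trans_eq ?_
  congr 2
  ext
  · simp; ring
  · simp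

/-- **the excess outside the sector**, both sides -/
theorem excess_out {s p s1 s2 : ℝ} (hd : HasDerivAt (fun x : ℝ => μ (x, 1)) p s) (hs1 : s1 < s)
    (hs2 : s < s2) (hne1 : μ (s1, 1) ≠ μ (s, 1) + p * (s1 - s))
    (hne2 : μ (s2, 1) ≠ μ (s, 1) + p * (s2 - s)) {C : ℝ} (hC : |s| < C) (hC1 : |s1| ≤ C)
    (hC2 : |s2| ≤ C) :
    ∃ η > 0, ∀ N > 0, ∀ q : ℝ × ℝ, (q.2 = N ∧ (q.1 ≤ s1 * N ∨ s2 * N ≤ q.1) ∧ |q.1| ≤ C * N) ∨
      (|q.1| = C * N ∧ 0 ≤ q.2 ∧ q.2 ≤ N) →
      η * N ≤ μ q + N * μ (s, 1) - μ (q + (s * N, N)) := by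
  obtain ⟨η1, hη1, h1⟩ := excess_left' hμ hd hs1 hne1 hC hC1
  obtain ⟨η2, hη2, h2⟩ := excess_right' hμ hd hs2 hne2 hC hC2
  refine ⟨min η1 η2, lt_min hη1 hη2, fun N hN q hq => ?_⟩
  have m1 : min η1 η2 * N ≤ η1 * N := mul_le_mul_of_nonneg_right (min_le_left _ _) hN.le
  have m2 : min η1 η2 * N ≤ η2 * N := mul_le_mul_of_nonneg_right (min_le_right _ _) hN.le
  rcases hq with ⟨a1, a2 | a2, a3⟩ | ⟨a1, a2, a3⟩
  · exact m1.trans (h1 N hN q (Or.inl ⟨a1, a2, (abs_le.1 a3).1⟩))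
  · exact m2.trans (h2 N hN q (Or.inl ⟨a1, a2, (abs_le.1 a3).2⟩))
  · rcases abs_choice q.1 with h | h
    · exact m2.trans (h2 N hN q (Or.inr ⟨by rw [← h, a1], a2, a3⟩))
    · exact m1.trans (h1 N hN q (Or.inr ⟨by linarith, a2, a3⟩))

/-- convexity on the line `y = 1` -/
lemma convexOn_line : ConvexOn ℝ Set.univ (fun x : ℝ => μ (x, 1)) := by
  refine ⟨convex_univ, fun u _ v _ a b ha hb hab => ?_⟩
  have h1 := hμ.convexOn.2 (Set.mem_univ ((u, 1) : ℝ × ℝ)) (Set.mem_univ ((v, 1) : ℝ × ℝ)) ha hb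
    hab
  simp only [Prod.smul_mk, smul_eq_mul, Prod.mk_add_mk, mul_one, hab] at h1 ⊢
  exact h1

lemma tangent_le {s p : ℝ} (hd : HasDerivAt (fun x : ℝ => μ (x, 1)) p s) (x : ℝ) :
    μ (s, 1) + p * (x - s) ≤ μ (x, 1) := by
  have hc := convexOn_line hμ
  rcases lt_trichotomy s x with h | h | h
  · have := hc.le_slope_of_hasDerivAt (Set.mem_univ _) (Set.mem_univ _) h hd
    rw [slope_def_field, le_div_iff₀ (by linarith)] at this
    linarith
  · rw [h]; simp
  · have := hc.slope_le_of_hasDerivAt (Set.mem_univ _) (Set.mem_univ _) h hd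
    rw [slope_def_field, div_le_iff₀ (by linarith)] at this
    linarith


/-- points on the facet have the same derivative -/
lemma deriv_eq_of_affine {s p s' p' : ℝ} (hd : HasDerivAt (fun x : ℝ => μ (x, 1)) p s)
    (hd' : HasDerivAt (fun x : ℝ => μ (x, 1)) p' s') (h : μ (s', 1) = μ (s, 1) + p * (s' - s)) :
    p' = p := by
  have hmin : IsLocalMin (fun x : ℝ => μ (x, 1) - (μ (s, 1) + p * (x - s))) s' := by
    refine Filter.Eventually.of_forall fun x => ?_
    have := tangent_le hμ hd x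
    simp only
    rw [h]
    linarith
  have hd2 : HasDerivAt (fun x : ℝ => μ (x, 1) - (μ (s, 1) + p * (x - s))) (p' - p) s' := by
    have h1 : HasDerivAt (fun x : ℝ => μ (s, 1) + p * (x - s)) p s' := by
      have := ((hasDerivAt_id s').sub_const s).const_mul p |>.const_add (μ (s, 1))
      simpa using this
    exact hd'.sub h1
  have := hmin.hasDerivAt_eq_zero hd2
  linarith

/-- a direction slightly to the right, outside the facet -/
theorem exists_right (hdiff : ∀ x : ℝ, DifferentiableAt ℝ (fun x : ℝ => μ (x, 1)) x) {s p : ℝ}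
    (hd : HasDerivAt (fun x : ℝ => μ (x, 1)) p s) (hp : p < μ (1, 0)) {ε : ℝ} (hε : 0 < ε) :
    ∃ s2 p2 : ℝ, s < s2 ∧ HasDerivAt (fun x : ℝ => μ (x, 1)) p2 s2 ∧ p < p2 ∧ p2 < p + ε ∧
      p2 < μ (1, 0) ∧ μ (s2, 1) ≠ μ (s, 1) + p * (s2 - s) := by
  set φ : ℝ → ℝ := fun x : ℝ => μ (x, 1) with hφ
  -- a point far to the right, above the tangent
  obtain ⟨x1, hx1, hx2⟩ : ∃ x1 > s, μ (s, 1) + p * (x1 - s) < φ x1 := by
    obtain ⟨x1, hx1⟩ : ∃ x1 : ℝ, max (s + 1) (max 1 ((|μ (s, 1) - p * s + μ (0, 1)| + 1) /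
      (μ (1, 0) - p))) < x1 := exists_gt _
    have a1 : s + 1 < x1 := (le_max_left _ _).trans_lt hx1
    have a2 : 1 < x1 := ((le_max_left _ _).trans (le_max_right _ _)).trans_lt hx1
    have a3 : (|μ (s, 1) - p * s + μ (0, 1)| + 1) / (μ (1, 0) - p) < x1 :=
      ((le_max_right _ _).trans (le_max_right _ _)).trans_lt hx1
    rw [div_lt_iff₀ (by linarith)] at a3
    refine ⟨x1, by linarith, ?_⟩
    have h1 : x1 * μ (1, 0) ≤ φ x1 + μ (0, 1) := by
      have h2 := hμ.add (x1, 1) (-((0 : ℝ), (1 : ℝ)))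
      rw [hμ.neg] at h2
      have h3 : ((x1, 1) : ℝ × ℝ) + -((0 : ℝ), (1 : ℝ)) = x1 • ((1 : ℝ), (0 : ℝ)) := by
        ext <;> simp
      rw [h3, hμ.smul _ _ (by linarith)] at h2
      exact h2
    have h2 := le_abs_self (μ (s, 1) - p * s + μ (0, 1))
    nlinarith
  obtain ⟨ξ, hξ, hξ2⟩ := exists_hasDerivAt_eq_slope φ (deriv φ) hx1
    (fun x _ => (hdiff x).continuousAt.continuousWithinAt) (fun x _ => (hdiff x).hasDerivAt)
  have hξp : p < deriv φ ξ := by
    rw [hξ2, lt_div_iff₀ (by linarith)]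
    linarith
  obtain ⟨m0, hm0, hm1⟩ := exists_between (lt_min (lt_min hξp (show p < p + ε by linarith)) hp)
  have hds : deriv φ s = p := hd.deriv
  obtain ⟨s2, hs2, hs2'⟩ := exists_hasDerivWithinAt_eq_of_gt_of_lt (f := φ) (f' := deriv φ)
    hξ.1.le (fun x _ => (hdiff x).hasDerivAt.hasDerivWithinAt) (m := m0) (by rw [hds]; exact hm0)
    (hm1.trans_le ((min_le_left _ _).trans (min_le_left _ _)))
  have hd2 : HasDerivAt φ m0 s2 := by rw [← hs2']; exact (hdiff s2).hasDerivAt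
  refine ⟨s2, m0, hs2.1, hd2, hm0, hm1.trans_le ((min_le_left _ _).trans (min_le_right _ _)),
    hm1.trans_le (min_le_right _ _), fun h => ?_⟩
  have := deriv_eq_of_affine hμ hd hd2 h
  linarith

/-- a direction slightly to the left, outside the facet -/
theorem exists_left (hdiff : ∀ x : ℝ, DifferentiableAt ℝ (fun x : ℝ => μ (x, 1)) x) {s p : ℝ}
    (hd : HasDerivAt (fun x : ℝ => μ (x, 1)) p s) (hp : -μ (1, 0) < p) {ε : ℝ} (hε : 0 < ε) :
    ∃ s1 p1 : ℝ, s1 < s ∧ HasDerivAt (fun x : ℝ => μ (x, 1)) p1 s1 ∧ p1 < p ∧ p - ε < p1 ∧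
      -μ (1, 0) < p1 ∧ μ (s1, 1) ≠ μ (s, 1) + p * (s1 - s) := by
  have h10 : μ (-1, 0) = μ (1, 0) := by
    rw [← hμ.neg]
    congr 1
    ext <;> simp
  obtain ⟨s2, p2, h1, h2, h3, h4, h4', h5⟩ := exists_right (normLike_reflect hμ) (fun x => by
      have := (hasDerivAt_reflect (hdiff (-x)).hasDerivAt).differentiableAt
      rwa [neg_neg] at this) (hasDerivAt_reflect hd) (by
      simp only
      rw [h10]; linarith) hε
  refine ⟨-s2, -p2, by linarith, ?_, by linarith, by linarith, ?_, ?_⟩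
  · have := hasDerivAt_reflect (μ := fun v : ℝ × ℝ => μ (-v.1, v.2)) h2
    simpa using this
  · simp only [h10] at h4'
    linarith
  · intro h
    apply h5
    simp only [neg_neg]
    rw [h]
    ring

end

end Crest.Agent.R151.BUS
end

-- ▼ part R151/B469d
section

/-!
# R151, block BUS (helper469), part d: Hopf-Lax at the first visit of a line, squeeze,
cells on the boundary of a box (deterministic)
-/

set_option autoImplicit false
set_option linter.unusedSectionVars false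

open MeasureTheory Filter ProbabilityTheory
open Crest.ProbabilityR.FirstPassage
open Crest.Agent.R151.K

namespace Crest.Agent.R151.BUS

variable {t : Environment}

/-! ### Hopf-Lax -/




/-! ### cells -/

/-- the cell of `L` points with corner `c` and direction `e` is visited by a near-geodesic
`x → b` -/
def Vis (t : Environment) (R : Set (ℤ × ℤ)) (x b c e : ℤ × ℤ) (L : ℕ) : Prop :=
  ∃ i ≤ L, pR t R x (c + i • e) + pR t R (c + i • e) b ≤ pR t R x b + 2

/-- length of the cell -/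
noncomputable def lenC (t : Environment) (R : Set (ℤ × ℤ)) (c e : ℤ × ℤ) (L : ℕ) : ℝ :=
  ∑ i ∈ Finset.range L, pR t R (c + i • e) (c + (i + 1) • e)


lemma pR_cell_le (ht : Nn t) {R : Set (ℤ × ℤ)} (hRc : ∀ x ∈ R, ∀ y ∈ R, Conn R x y)
    {c e : ℤ × ℤ} {L : ℕ} (hc : ∀ i ≤ L, c + i • e ∈ R) {i : ℕ} (hi : i ≤ L) :
    pR t R c (c + i • e) ≤ lenC t R c e L := by
  have h1 := (pR_chain (R := R) ht (fun i => c + i • e) i (hc 0 (Nat.zero_le _)) (fun j hj =>
    hRc _ (hc j (by omega)) _ (hc (j + 1) (by omega)))).2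
  simp only [zero_smul, add_zero] at h1
  refine h1.trans ?_
  refine Finset.sum_le_sum_of_subset_of_nonneg ?_ fun _ _ _ => pR_nonneg ht _ _ _
  intro j hj
  rw [Finset.mem_range] at hj ⊢
  omega

/-- on a visited cell the corner is nearly on a geodesic -/
lemma Vis.corner (ht : Nn t) {R : Set (ℤ × ℤ)} (hRc : ∀ x ∈ R, ∀ y ∈ R, Conn R x y)
    {x b c e : ℤ × ℤ} {L : ℕ} (hx : x ∈ R) (hb : b ∈ R) (hc : ∀ i ≤ L, c + i • e ∈ R)
    (h : Vis t R x b c e L) :
    pR t R x c + pR t R c b ≤ pR t R x b + 2 + 2 * lenC t R c e L := by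
  obtain ⟨i, hi, h⟩ := h
  have hc0 : c ∈ R := by simpa using hc 0 (Nat.zero_le _)
  have h1 := pR_cell_le ht hRc hc hi
  have h2 := pR_triangle ht (hRc _ hx _ (hc i hi)) (hRc _ (hc i hi) _ hc0)
  have h3 := pR_triangle ht (hRc _ hc0 _ (hc i hi)) (hRc _ (hc i hi) _ hb)
  rw [pR_symm ht R (c + i • e) c] at h2
  linarith

/-- the defect of the shift -/
noncomputable def defect (t : Environment) (R : Set (ℤ × ℤ)) (c v b : ℤ × ℤ) : ℝ :=
  pR t R c (c + v) + pR t R (c + v) b - pR t R c b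

lemma defect_nonneg (ht : Nn t) {R : Set (ℤ × ℤ)} (hRc : ∀ x ∈ R, ∀ y ∈ R, Conn R x y)
    {c v b : ℤ × ℤ} (hc : c ∈ R) (hcv : c + v ∈ R) (hb : b ∈ R) : 0 ≤ defect t R c v b := by
  have := pR_triangle ht (hRc _ hc _ hcv) (hRc _ hcv _ hb)
  unfold defect
  linarith

/-- **the basic inequality** -/
lemma Vis.le_defect (ht : Nn t) {R : Set (ℤ × ℤ)} (hRc : ∀ x ∈ R, ∀ y ∈ R, Conn R x y)
    {x b c e v : ℤ × ℤ} {L : ℕ} (hx : x ∈ R) (hb : b ∈ R) (hcv : c + v ∈ R)
    (hc : ∀ i ≤ L, c + i • e ∈ R) (h : Vis t R x b c e L) :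
    passageTime t x c + passageTime t c (c + v) - pR t R x (c + v) ≤
      defect t R c v b + 2 * lenC t R c e L + 2 := by
  have hc0 : c ∈ R := by simpa using hc 0 (Nat.zero_le _)
  have h1 := h.corner ht hRc hx hb hc
  have h2 := pR_triangle ht (hRc _ hx _ hcv) (hRc _ hcv _ hb)
  have h3 := pt_le_pR ht (hRc _ hx _ hc0)
  have h4 := pt_le_pR ht (hRc _ hc0 _ hcv)
  unfold defect
  linarith

/-! ### the boundary of the box -/

/-- a walk crosses every column between its ends -/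
lemma exists_col {a b : ℤ × ℤ} (γ : squareLattice.Walk a b) {W : ℤ}
    (h : (a.1 ≤ W ∧ W ≤ b.1) ∨ (b.1 ≤ W ∧ W ≤ a.1)) : ∃ u ∈ γ.support, u.1 = W := by
  induction γ with
  | @nil a => exact ⟨a, by simp, by omega⟩
  | @cons a a' b hab γ ih =>
    by_cases haW : a.1 = W
    · exact ⟨a, by simp, haW⟩
    · have h' : (a'.1 ≤ W ∧ W ≤ b.1) ∨ (b.1 ≤ W ∧ W ≤ a'.1) := by
        have := M51.adj_iff.1 hab
        omega
      obtain ⟨u, hu, hu'⟩ := ih h'
      exact ⟨u, by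
        rw [SimpleGraph.Walk.support_cons, List.mem_cons]
        exact Or.inr hu, hu'⟩

/-- the cells on the top side (outside `(z1, z2)`) and on the two sides of the box
`[-W, W] × [0, N]` -/
def cells (z1 z2 W N : ℤ) (L J : ℕ) : Finset ((ℤ × ℤ) × (ℤ × ℤ)) :=
  (((Finset.range (J + 1)).filter fun j : ℕ => z2 + j * L ≤ W).image
      fun j : ℕ => (((z2 + j * L, N) : ℤ × ℤ), ((1, 0) : ℤ × ℤ))) ∪
  (((Finset.range (J + 1)).filter fun j : ℕ => -W ≤ z1 - j * L).image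
      fun j : ℕ => (((z1 - j * L, N) : ℤ × ℤ), ((-1, 0) : ℤ × ℤ))) ∪
  ((((Finset.range (J + 1)).filter fun j : ℕ => ((j * L : ℕ) : ℤ) ≤ N).image
      fun j : ℕ => (((W, j * L) : ℤ × ℤ), ((0, 1) : ℤ × ℤ))) ∪
  (((Finset.range (J + 1)).filter fun j : ℕ => ((j * L : ℕ) : ℤ) ≤ N).image
      fun j : ℕ => (((-W, j * L) : ℤ × ℤ), ((0, 1) : ℤ × ℤ))))

lemma card_cells_le (z1 z2 W N : ℤ) (L J : ℕ) : (cells z1 z2 W N L J).card ≤ 4 * (J + 1) := by
  have h : ∀ (p : ℕ → Prop) [DecidablePred p] (g : ℕ → (ℤ × ℤ) × (ℤ × ℤ)),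
      (((Finset.range (J + 1)).filter p).image g).card ≤ J + 1 := by
    intro p _ g
    refine Finset.card_image_le.trans ((Finset.card_filter_le _ _).trans ?_)
    rw [Finset.card_range]
  unfold cells
  refine (Finset.card_union_le _ _).trans ?_
  have h1 := Finset.card_union_le
    (((Finset.range (J + 1)).filter fun j : ℕ => z2 + j * L ≤ W).image
      fun j : ℕ => (((z2 + j * L, N) : ℤ × ℤ), ((1, 0) : ℤ × ℤ)))
    (((Finset.range (J + 1)).filter fun j : ℕ => -W ≤ z1 - j * L).image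
      fun j : ℕ => (((z1 - j * L, N) : ℤ × ℤ), ((-1, 0) : ℤ × ℤ)))
  have h2 := Finset.card_union_le
    (((Finset.range (J + 1)).filter fun j : ℕ => ((j * L : ℕ) : ℤ) ≤ N).image
      fun j : ℕ => (((W, j * L) : ℤ × ℤ), ((0, 1) : ℤ × ℤ)))
    (((Finset.range (J + 1)).filter fun j : ℕ => ((j * L : ℕ) : ℤ) ≤ N).image
      fun j : ℕ => (((-W, j * L) : ℤ × ℤ), ((0, 1) : ℤ × ℤ)))
  have a1 := h (fun j : ℕ => z2 + j * L ≤ W)
    (fun j : ℕ => (((z2 + j * L, N) : ℤ × ℤ), ((1, 0) : ℤ × ℤ)))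
  have a2 := h (fun j : ℕ => -W ≤ z1 - j * L)
    (fun j : ℕ => (((z1 - j * L, N) : ℤ × ℤ), ((-1, 0) : ℤ × ℤ)))
  have a3 := h (fun j : ℕ => ((j * L : ℕ) : ℤ) ≤ N)
    (fun j : ℕ => (((W, j * L) : ℤ × ℤ), ((0, 1) : ℤ × ℤ)))
  have a4 := h (fun j : ℕ => ((j * L : ℕ) : ℤ) ≤ N)
    (fun j : ℕ => (((-W, j * L) : ℤ × ℤ), ((0, 1) : ℤ × ℤ)))
  omega

lemma cells_geom {z1 z2 W N : ℤ} {L J : ℕ} (hz1 : z1 ≤ W) (hz2 : -W ≤ z2)
    (hW : 0 ≤ W) {c : (ℤ × ℤ) × (ℤ × ℤ)} (hc : c ∈ cells z1 z2 W N L J) :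
    (c.1.2 = N ∧ (c.1.1 ≤ z1 ∨ z2 ≤ c.1.1) ∧ |c.1.1| ≤ W) ∨
      (|c.1.1| = W ∧ 0 ≤ c.1.2 ∧ c.1.2 ≤ N) := by
  simp only [cells, Finset.mem_union, Finset.mem_image, Finset.mem_filter, Finset.mem_range] at hc
  rcases hc with (⟨j, ⟨-, h⟩, rfl⟩ | ⟨j, ⟨-, h⟩, rfl⟩) | (⟨j, ⟨-, h⟩, rfl⟩ | ⟨j, ⟨-, h⟩, rfl⟩)
  · left
    have : (0 : ℤ) ≤ j * L := by positivity
    refine ⟨rfl, Or.inr (by simp only; omega), ?_⟩
    simp only
    rw [abs_le]
    constructor <;> omega
  · left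
    have : (0 : ℤ) ≤ j * L := by positivity
    refine ⟨rfl, Or.inl (by simp only; omega), ?_⟩
    simp only
    rw [abs_le]
    constructor <;> omega
  · right
    push_cast at h
    exact ⟨abs_of_nonneg hW, by positivity, h⟩
  · right
    push_cast at h
    refine ⟨?_, by positivity, h⟩
    simp only [abs_neg]
    exact abs_of_nonneg hW

lemma cells_mem {z1 z2 W N : ℤ} {L J : ℕ} (hN : 0 ≤ N)
    {c : (ℤ × ℤ) × (ℤ × ℤ)} (hc : c ∈ cells z1 z2 W N L J) (i : ℕ) (hi : i ≤ L) :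
    c.1 + i • c.2 ∈ St 0 (N + L) := by
  simp only [cells, Finset.mem_union, Finset.mem_image, Finset.mem_filter, Finset.mem_range] at hc
  rw [mem_St]
  rcases hc with (⟨j, ⟨-, h⟩, rfl⟩ | ⟨j, ⟨-, h⟩, rfl⟩) | (⟨j, ⟨-, h⟩, rfl⟩ | ⟨j, ⟨-, h⟩, rfl⟩)
  · simp only [Prod.snd_add, Prod.smul_mk, smul_zero, add_zero]
    omega
  · simp only [Prod.snd_add, Prod.smul_mk, smul_zero, add_zero]
    omega
  · simp only [Prod.snd_add, Prod.smul_mk, nsmul_eq_mul, mul_one]
    push_cast at h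
    have : (0 : ℤ) ≤ j * L := by positivity
    omega
  · simp only [Prod.snd_add, Prod.smul_mk, nsmul_eq_mul, mul_one]
    push_cast at h
    have : (0 : ℤ) ≤ j * L := by positivity
    omega

lemma cells_unit {z1 z2 W N : ℤ} {L J : ℕ} {c : (ℤ × ℤ) × (ℤ × ℤ)}
    (hc : c ∈ cells z1 z2 W N L J) : n1 c.2 = 1 := by
  simp only [cells, Finset.mem_union, Finset.mem_image, Finset.mem_filter, Finset.mem_range] at hc
  rcases hc with (⟨j, ⟨-, h⟩, rfl⟩ | ⟨j, ⟨-, h⟩, rfl⟩) | (⟨j, ⟨-, h⟩, rfl⟩ | ⟨j, ⟨-, h⟩, rfl⟩) <;>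
    simp [n1]

/-- **covering**: a near-geodesic that leaves the good window visits a cell -/
lemma covering (ht : Nn t) {M N : ℤ} (hN : 0 ≤ N) (hNM : N ≤ M) {x : ℤ} {b : ℤ × ℤ}
    (hb : b ∈ St 0 M) {z1 z2 W : ℤ} {L J : ℕ} (hL : 0 < L) (hx : |x| ≤ W)
    (hJ : 2 * W ≤ J * L) (hJN : N ≤ J * L) (hz1 : -W ≤ z1 ∧ z1 ≤ W)
    (hz2 : -W ≤ z2 ∧ z2 ≤ W) {w : ℤ}
    (hw : w ≤ z1 ∨ z2 ≤ w)
    (h : f t N w x + pR t (St 0 M) (w, N) b ≤ pR t (St 0 M) (x, 0) b + 1) :
    ∃ c ∈ cells z1 z2 W N L J, Vis t (St 0 M) (x, 0) b c.1 c.2 L := by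
  have hRc : ∀ x ∈ St 0 M, ∀ y ∈ St 0 M, Conn (St 0 M) x y := fun x hx y hy => conn_St hx hy
  have hsub : St 0 N ⊆ St 0 M := St_subset le_rfl hNM
  have hxR : ((x, 0) : ℤ × ℤ) ∈ St 0 M := zero_mem_St (by omega)
  have hwR : ((w, N) : ℤ × ℤ) ∈ St 0 M := hsub (top_mem_St hN)
  have hxa := abs_le.1 hx
  have hW : 0 ≤ W := (abs_nonneg x).trans hx
  have hL' : (0 : ℤ) < L := by exact_mod_cast hL
  by_cases hwW : |w| ≤ W
  · have hwa := abs_le.1 hwW
    have h1 : pR t (St 0 M) (x, 0) (w, N) ≤ f t N w x :=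
      pR_anti ht hsub (conn_St (zero_mem_St hN) (top_mem_St hN))
    rcases hw with hw | hw
    · have e1 : (0 : ℤ) ≤ z1 - w := by omega
      have e2 := Int.emod_add_mul_ediv (z1 - w) L
      have e3 := Int.emod_nonneg (z1 - w) hL'.ne'
      have e4 := Int.emod_lt_of_pos (z1 - w) hL'
      have e5 : 0 ≤ (z1 - w) / L := Int.ediv_nonneg e1 hL'.le
      obtain ⟨j, hj⟩ := Int.eq_ofNat_of_zero_le e5
      obtain ⟨i, hi⟩ := Int.eq_ofNat_of_zero_le e3
      rw [hj, hi] at e2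
      rw [hi] at e4
      have hjJ : j ≤ J := by
        by_contra hcon
        have : (J : ℤ) + 1 ≤ j := by exact_mod_cast (by omega : J + 1 ≤ j)
        have h7 := mul_le_mul_of_nonneg_left this hL'.le
        have h8 : (L : ℤ) * J = J * L := mul_comm _ _
        rw [mul_add] at h7
        omega
      refine ⟨((z1 - j * L, N), (-1, 0)), ?_, i, by omega, ?_⟩
      · simp only [cells, Finset.mem_union, Finset.mem_image, Finset.mem_filter,
          Finset.mem_range]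
        refine Or.inl (Or.inr ⟨j, ⟨by omega, ?_⟩, rfl⟩)
        have : (L : ℤ) * j = j * L := mul_comm _ _
        omega
      · have e6 : ((z1 - j * L, N) : ℤ × ℤ) + i • ((-1, 0) : ℤ × ℤ) = (w, N) := by
          have : (L : ℤ) * j = j * L := mul_comm _ _
          ext
          · simp only [Prod.fst_add, Prod.smul_mk, nsmul_eq_mul]
            omega
          · simp only [Prod.snd_add, Prod.smul_mk, smul_zero, add_zero]
        simp only
        rw [e6]
        linarith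
    · have e1 : (0 : ℤ) ≤ w - z2 := by omega
      have e2 := Int.emod_add_mul_ediv (w - z2) L
      have e3 := Int.emod_nonneg (w - z2) hL'.ne'
      have e4 := Int.emod_lt_of_pos (w - z2) hL'
      have e5 : 0 ≤ (w - z2) / L := Int.ediv_nonneg e1 hL'.le
      obtain ⟨j, hj⟩ := Int.eq_ofNat_of_zero_le e5
      obtain ⟨i, hi⟩ := Int.eq_ofNat_of_zero_le e3
      rw [hj, hi] at e2
      rw [hi] at e4
      have hjJ : j ≤ J := by
        by_contra hcon
        have : (J : ℤ) + 1 ≤ j := by exact_mod_cast (by omega : J + 1 ≤ j)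
        have h7 := mul_le_mul_of_nonneg_left this hL'.le
        have h8 : (L : ℤ) * J = J * L := mul_comm _ _
        rw [mul_add] at h7
        omega
      refine ⟨((z2 + j * L, N), (1, 0)), ?_, i, by omega, ?_⟩
      · simp only [cells, Finset.mem_union, Finset.mem_image, Finset.mem_filter,
          Finset.mem_range]
        refine Or.inl (Or.inl ⟨j, ⟨by omega, ?_⟩, rfl⟩)
        have : (L : ℤ) * j = j * L := mul_comm _ _
        omega
      · have e6 : ((z2 + j * L, N) : ℤ × ℤ) + i • ((1, 0) : ℤ × ℤ) = (w, N) := by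
          have : (L : ℤ) * j = j * L := mul_comm _ _
          ext
          · simp only [Prod.fst_add, Prod.smul_mk, nsmul_eq_mul, mul_one]
            omega
          · simp only [Prod.snd_add, Prod.smul_mk, smul_zero, add_zero]
        simp only
        rw [e6]
        linarith
  · obtain ⟨α, hα, hα2⟩ := exists_walk_lt_pR (t := t) (c := f t N w x + 1)
      (conn_St (zero_mem_St hN) (top_mem_St hN) : Conn (St 0 N) (x, 0) (w, N)) (by
        unfold f; linarith)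
    have key : ∀ V : ℤ, (V = W ∨ V = -W) → ((x ≤ V ∧ V ≤ w) ∨ (w ≤ V ∧ V ≤ x)) →
        ∃ c ∈ cells z1 z2 W N L J, Vis t (St 0 M) (x, 0) b c.1 c.2 L := by
      intro V hV hV'
      obtain ⟨u, hu, hu1⟩ := exists_col α (W := V) hV'
      have hu2 := mem_St.1 (hα u hu)
      have h1 := pR_through ht α (fun z hz => hsub (hα z hz)) hu
      have huR := hsub (hα u hu)
      have h2 := pR_triangle ht (hRc _ huR _ hwR) (hRc _ hwR _ hb)
      have h3 : pR t (St 0 M) (x, 0) u + pR t (St 0 M) u b ≤ pR t (St 0 M) (x, 0) b + 2 := by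
        linarith
      have e2 := Int.emod_add_mul_ediv u.2 L
      have e3 := Int.emod_nonneg u.2 hL'.ne'
      have e4 := Int.emod_lt_of_pos u.2 hL'
      have e5 : 0 ≤ u.2 / L := Int.ediv_nonneg hu2.1 hL'.le
      obtain ⟨j, hj⟩ := Int.eq_ofNat_of_zero_le e5
      obtain ⟨i, hi⟩ := Int.eq_ofNat_of_zero_le e3
      rw [hj, hi] at e2
      rw [hi] at e4
      have hjJ : j ≤ J := by
        by_contra hcon
        have : (J : ℤ) + 1 ≤ j := by exact_mod_cast (by omega : J + 1 ≤ j)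
        have h7 := mul_le_mul_of_nonneg_left this hL'.le
        have h8 : (L : ℤ) * J = J * L := mul_comm _ _
        rw [mul_add] at h7
        omega
      have hjN : ((j * L : ℕ) : ℤ) ≤ N := by
        push_cast
        have : (L : ℤ) * j = j * L := mul_comm _ _
        omega
      refine ⟨((V, j * L), (0, 1)), ?_, i, by omega, ?_⟩
      · simp only [cells, Finset.mem_union, Finset.mem_image, Finset.mem_filter,
          Finset.mem_range]
        rcases hV with rfl | rfl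
        · exact Or.inr (Or.inl ⟨j, ⟨by omega, hjN⟩, rfl⟩)
        · exact Or.inr (Or.inr ⟨j, ⟨by omega, hjN⟩, rfl⟩)
      · have e6 : ((V, j * L) : ℤ × ℤ) + i • ((0, 1) : ℤ × ℤ) = u := by
          have : (L : ℤ) * j = j * L := mul_comm _ _
          ext
          · simp only [Prod.fst_add, Prod.smul_mk, smul_zero, add_zero]
            omega
          · simp only [Prod.snd_add, Prod.smul_mk, nsmul_eq_mul, mul_one]
            omega
        simp only
        rw [e6]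
        exact h3
    rcases lt_or_ge W w with hWw | hWw
    · exact key W (Or.inl rfl) (Or.inl ⟨hxa.2, hWw.le⟩)
    · have : w < -W := by
        by_contra hcon
        exact hwW (abs_le.2 ⟨by omega, hWw⟩)
      exact key (-W) (Or.inr rfl) (Or.inr ⟨this.le, hxa.1⟩)

end Crest.Agent.R151.BUS
end

-- ▼ part R151/B469e
section

/-!
# R151, block BUS (helper469), part e: Cesàro bounds for the mean defect
-/

set_option autoImplicit false
set_option linter.unusedSectionVars false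

open MeasureTheory Filter ProbabilityTheory
open Crest.ProbabilityR.FirstPassage
open Crest.Agent.R151.K

namespace Crest.Agent.R151.BUS

/-! ### Cesàro limsup -/

/-- the Cesàro limsup of `a` is at most `δ` -/
def CL (a : ℕ → ℝ) (δ : ℝ) : Prop :=
  ∀ ε > 0, ∃ J0 : ℕ, ∀ J ≥ J0, ∑ M ∈ Finset.range J, a M ≤ (δ + ε) * J

namespace CL

variable {a b : ℕ → ℝ} {δ δ' : ℝ}

lemma add (ha : CL a δ) (hb : CL b δ') : CL (fun M => a M + b M) (δ + δ') := by
  intro ε hε
  obtain ⟨J1, h1⟩ := ha (ε / 2) (half_pos hε)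
  obtain ⟨J2, h2⟩ := hb (ε / 2) (half_pos hε)
  refine ⟨max J1 J2, fun J hJ => ?_⟩
  rw [Finset.sum_add_distrib]
  have e1 := h1 J ((le_max_left _ _).trans hJ)
  have e2 := h2 J ((le_max_right _ _).trans hJ)
  calc _ ≤ (δ + ε / 2) * J + (δ' + ε / 2) * J := add_le_add e1 e2
    _ = _ := by ring

lemma const_mul (ha : CL a δ) {c : ℝ} (hc : 0 ≤ c) : CL (fun M => c * a M) (c * δ) := by
  intro ε hε
  obtain ⟨J1, h1⟩ := ha (ε / (c + 1)) (by positivity)
  refine ⟨J1, fun J hJ => ?_⟩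
  rw [← Finset.mul_sum]
  refine (mul_le_mul_of_nonneg_left (h1 J hJ) hc).trans ?_
  rw [← mul_assoc]
  refine mul_le_mul_of_nonneg_right ?_ (Nat.cast_nonneg J)
  rw [mul_add]
  have : c * (ε / (c + 1)) ≤ ε := by
    rw [mul_div_assoc', div_le_iff₀ (by positivity)]
    nlinarith
  linarith

lemma mono (ha : CL a δ) (h : ∃ M0, ∀ M ≥ M0, b M ≤ a M) : CL b δ := by
  obtain ⟨M0, hM0⟩ := h
  intro ε hε
  obtain ⟨J1, h1⟩ := ha (ε / 2) (half_pos hε)
  set K : ℝ := ∑ M ∈ Finset.range M0, |b M - a M| with hK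
  obtain ⟨J2, h2⟩ := exists_nat_ge (K / (ε / 2))
  refine ⟨max J1 J2, fun J hJ => ?_⟩
  have e1 := h1 J ((le_max_left _ _).trans hJ)
  have e3 : ∑ M ∈ Finset.range J, (b M - a M) ≤ K := by
    have : ∀ J : ℕ, ∑ M ∈ Finset.range J, (b M - a M) ≤ K := by
      intro J
      have h3 : ∑ M ∈ Finset.range J, (b M - a M) ≤
          ∑ M ∈ (Finset.range J).filter (fun M => M < M0), (b M - a M) := by
        rw [← Finset.sum_filter_add_sum_filter_not (Finset.range J) (fun M => M < M0)]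
        have : ∑ M ∈ (Finset.range J).filter (fun M => ¬ M < M0), (b M - a M) ≤ 0 := by
          refine Finset.sum_nonpos fun M hM => ?_
          rw [Finset.mem_filter] at hM
          linarith [hM0 M (not_lt.1 hM.2)]
        linarith
      refine h3.trans ?_
      refine (Finset.sum_le_sum fun M _ => le_abs_self (b M - a M)).trans ?_
      refine Finset.sum_le_sum_of_subset_of_nonneg ?_ fun _ _ _ => abs_nonneg _
      intro M hM
      rw [Finset.mem_filter] at hM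
      rw [Finset.mem_range]
      exact hM.2
    exact this J
  rw [Finset.sum_sub_distrib] at e3
  have e4 : K ≤ ε / 2 * J := by
    have h5 : (J2 : ℝ) ≤ J := by exact_mod_cast (le_max_right _ _).trans hJ
    have := h2.trans h5
    rwa [div_le_iff₀ (half_pos hε), mul_comm] at this
  calc _ ≤ (δ + ε / 2) * J + ε / 2 * J := by linarith
    _ = _ := by ring

lemma of_const (c : ℝ) : CL (fun _ => c) c := by
  intro ε hε
  refine ⟨0, fun J _ => ?_⟩
  rw [Finset.sum_const, Finset.card_range, nsmul_eq_mul]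
  have : 0 ≤ ε * J := by positivity
  linarith

lemma weaken (ha : CL a δ) (h : δ ≤ δ') : CL a δ' := by
  intro ε hε
  obtain ⟨J1, h1⟩ := ha ε hε
  refine ⟨J1, fun J hJ => (h1 J hJ).trans ?_⟩
  gcongr

lemma sum {ι : Type*} (S : Finset ι) {a : ι → ℕ → ℝ} {δ : ι → ℝ}
    (h : ∀ i ∈ S, CL (a i) (δ i)) : CL (fun M => ∑ i ∈ S, a i M) (∑ i ∈ S, δ i) := by
  classical
  induction S using Finset.induction_on with
  | empty => simpa using of_const 0
  | insert i S hi ih =>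
    have h1 := h i (Finset.mem_insert_self _ _)
    have h2 := ih fun j hj => h j (Finset.mem_insert_of_mem hj)
    simp only [Finset.sum_insert hi]
    exact h1.add h2

/-- a good index, arbitrarily large -/
lemma exists_le (ha : CL a δ) {ε : ℝ} (hε : 0 < ε) (M0 : ℕ) : ∃ M ≥ M0, a M ≤ δ + ε := by
  by_contra hcon
  push Not at hcon
  have h1 : CL (fun _ => δ + ε) δ := ha.mono ⟨M0, fun M hM => (hcon M hM).le⟩
  obtain ⟨J0, h2⟩ := h1 (ε / 2) (half_pos hε)
  have h3 := h2 (J0 + 1) (Nat.le_succ _)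
  rw [Finset.sum_const, Finset.card_range, nsmul_eq_mul] at h3
  have h4 : (0 : ℝ) < ((J0 + 1 : ℕ) : ℝ) := by positivity
  nlinarith

/-- telescoping -/
lemma telescope {A : ℕ → ℝ} {φ C : ℝ} (hφ : 0 ≤ φ) {M0 : ℕ} (h : ∀ M ≥ M0, φ * M - C ≤ A M)
    (N : ℕ) : CL (fun M => A (M - N) - A M) (-(N * φ)) := by
  intro ε hε
  set K : ℝ := N * |A 0| + N * |C| + N * (N * φ) with hK
  obtain ⟨J2, h2⟩ := exists_nat_ge (K / ε)
  refine ⟨M0 + N + J2, fun J hJ => ?_⟩
  obtain ⟨J', rfl⟩ : ∃ J', J = J' + N := ⟨J - N, by omega⟩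
  have e1 : ∑ M ∈ Finset.range (J' + N), A (M - N) =
      N * A 0 + ∑ x ∈ Finset.range J', A x := by
    rw [add_comm J' N, Finset.sum_range_add]
    congr 1
    · rw [Finset.sum_congr rfl (g := fun _ => A 0), Finset.sum_const, Finset.card_range,
        nsmul_eq_mul]
      intro x hx
      rw [Finset.mem_range] at hx
      rw [show x - N = 0 by omega]
    · refine Finset.sum_congr rfl fun x _ => ?_
      rw [show N + x - N = x by omega]
  have e2 : ∑ M ∈ Finset.range (J' + N), A M = ∑ x ∈ Finset.range J', A x +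
      ∑ x ∈ Finset.range N, A (J' + x) := Finset.sum_range_add _ _ _
  have e3 : N * (φ * J' - C) ≤ ∑ x ∈ Finset.range N, A (J' + x) := by
    have : ∑ x ∈ Finset.range N, (φ * J' - C) ≤ ∑ x ∈ Finset.range N, A (J' + x) := by
      refine Finset.sum_le_sum fun x _ => ?_
      refine le_trans ?_ (h (J' + x) (by omega))
      push_cast
      have : 0 ≤ φ * x := by positivity
      linarith
    rwa [Finset.sum_const, Finset.card_range, nsmul_eq_mul] at this
  rw [Finset.sum_sub_distrib, e1, e2]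
  have h3 : K ≤ ε * (J' + N : ℕ) := by
    have h5 : (J2 : ℝ) ≤ (J' + N : ℕ) := by exact_mod_cast (by omega : J2 ≤ J' + N)
    have := h2.trans h5
    rwa [div_le_iff₀ hε, mul_comm] at this
  have h4 : (N : ℝ) * A 0 ≤ N * |A 0| := by gcongr; exact le_abs_self _
  have h5 : (N : ℝ) * C ≤ N * |C| := by gcongr; exact le_abs_self _
  have h6 : (-(N * φ) + ε) * ((J' + N : ℕ) : ℝ) =
      ε * (J' + N : ℕ) - N * (φ * J') - N * (N * φ) := by push_cast; ring
  rw [h6]
  have h7 : (N : ℝ) * (φ * J' - C) = N * (φ * J') - N * C := by ring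
  linarith

end CL

/-! ### the mean defect -/

/-- the far target -/
noncomputable def tgt (s : ℝ) (k : ℤ) (M : ℕ) : ℤ × ℤ := (⌊s * M⌋ + k, M)

/-- the shift -/
noncomputable def vN (s : ℝ) (N : ℕ) : ℤ × ℤ := (⌊s * N⌋, N)

lemma tgt_mem (s : ℝ) (k : ℤ) (M : ℕ) : tgt s k M ∈ St 0 M := by
  rw [mem_St]; simp [tgt]

variable {G : Measure ℝ} [IsProbabilityMeasure G] {m : ℝ} {μ : ℝ × ℝ → ℝ}

/-- mean time from `c` to the far target -/
noncomputable def A (G : Measure ℝ) (s : ℝ) (k : ℤ) (c : ℤ × ℤ) (M : ℕ) : ℝ :=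
  ∫ t, pR t (St 0 M) c (tgt s k M) ∂(iidLaw G)

lemma floor_sub_near (s : ℝ) {M N : ℕ} (h : N ≤ M) (k : ℤ) :
    n1 (tgt s k M - vN s N - tgt s k (M - N)) ≤ 1 := by
  have h1 := Int.floor_le (s * M)
  have h2 := Int.lt_floor_add_one (s * M)
  have h3 := Int.floor_le (s * N)
  have h4 := Int.lt_floor_add_one (s * N)
  have h5 := Int.floor_le (s * (M - N : ℕ))
  have h6 := Int.lt_floor_add_one (s * (M - N : ℕ))
  have h7 : ((M - N : ℕ) : ℝ) = M - N := by rw [Nat.cast_sub h]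
  rw [h7] at h5 h6
  have e1 : (-1 : ℝ) < ⌊s * M⌋ - ⌊s * N⌋ - ⌊s * ((M : ℝ) - N)⌋ := by linarith
  have e2 : ((⌊s * M⌋ - ⌊s * N⌋ - ⌊s * ((M : ℝ) - N)⌋ : ℤ) : ℝ) < 2 := by
    push_cast; linarith
  have e1' : (-1 : ℤ) < ⌊s * M⌋ - ⌊s * N⌋ - ⌊s * ((M : ℝ) - N)⌋ := by exact_mod_cast e1
  have e2' : ⌊s * M⌋ - ⌊s * N⌋ - ⌊s * ((M : ℝ) - N)⌋ < (2 : ℤ) := by exact_mod_cast e2
  simp only [n1, tgt, vN, Prod.fst_sub, Prod.snd_sub, h7]
  have : (((M - N : ℕ) : ℕ) : ℤ) = (M : ℤ) - N := by rw [Nat.cast_sub h]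
  rw [this]
  omega

namespace Inp

variable (H : Inp G m μ)
include H

lemma phi_nonneg (s : ℝ) : 0 ≤ μ (s, 1) := H.mom.mu_nonneg H.tc _

lemma A_ge (s : ℝ) (k : ℤ) {c : ℤ × ℤ} {M : ℕ} (hM : 2 ≤ M) (hc : c ∈ St 0 M) :
    μ (s, 1) * M - m * (|(k : ℝ)| + 1 + n1 c) ≤ A G s k c M := by
  have h1 := H.mom.mu_le_ET H.tc (tgt s k M - c)
  have h2 : ET G (tgt s k M - c) = ∫ t, passageTime t c (tgt s k M) ∂(iidLaw G) := by
    rw [integral_pt]
  have h3 : ∫ t, passageTime t c (tgt s k M) ∂(iidLaw G) ≤ A G s k c M := by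
    refine integral_mono_ae (H.mom.int _ _)
      ((H.regMom (by omega)).int _ hc _ (tgt_mem s k M)) ?_
    filter_upwards [H.nn] with t ht
    exact pt_le_pR ht (conn_St hc (tgt_mem s k M))
  have h4 : |μ (toR (tgt s k M - c)) - μ (s * M, M)| ≤ m * (|(k : ℝ)| + 1 + n1 c) := by
    refine (H.mom.abs_mu_sub_le H.tc _ _).trans ?_
    refine mul_le_mul_of_nonneg_left ?_ H.mom.nonneg
    simp only [l1, toR, tgt, Prod.fst_sub, Prod.snd_sub, n1]
    push_cast
    have f1 := Int.floor_le (s * M)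
    have f2 := Int.lt_floor_add_one (s * M)
    have e1 : |(⌊s * M⌋ : ℝ) + k - c.1 - s * M| ≤ 1 + |(k : ℝ)| + |(c.1 : ℝ)| := by
      have := neg_abs_le (k : ℝ)
      have := le_abs_self (k : ℝ)
      have := neg_abs_le (c.1 : ℝ)
      have := le_abs_self (c.1 : ℝ)
      rw [abs_le]
      constructor <;> linarith
    have e2 : |(M : ℝ) - c.2 - M| = |(c.2 : ℝ)| := by
      rw [show (M : ℝ) - c.2 - M = -c.2 by ring, abs_neg]
    rw [e2, Nat.cast_natAbs, Nat.cast_natAbs]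
    push_cast
    linarith
  have h5 : μ (s * M, M) = μ (s, 1) * M := by
    have := H.mom.mu_smul H.tc (Nat.cast_nonneg M) (s, 1)
    rw [mul_comm (μ (s, 1)), ← this]
    congr 1
    ext <;> simp [mul_comm]
  rw [abs_le, h5] at h4
  linarith

/-- the mean time of one step of length `N` -/
lemma step_le (s : ℝ) {c : ℤ × ℤ} {M N : ℕ} (hN : 2 ≤ N) (hc : 0 ≤ c.2)
    (hM : c.2 + N ≤ M) :
    ∫ t, pR t (St 0 M) c (c + vN s N) ∂(iidLaw G) ≤ Phi G N ⌊s * N⌋ := by
  have h1 := integral_pR_act (G := G) (tr c) (St c.2 (c.2 + N)) (0, 0) (vN s N)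
  have h2 : (⇑(tr c) ⁻¹' St c.2 (c.2 + N) : Set (ℤ × ℤ)) = St 0 N := by
    have := preimage_St c.2 (c.2 + N) c.1 c.2
    rw [sub_self, add_sub_cancel_left] at this
    exact this
  rw [h2] at h1
  simp only [tr_apply] at h1
  have h3 : ((0, 0) : ℤ × ℤ) + c = c := zero_add c
  rw [h3, add_comm (vN s N) c] at h1
  have h4 : Phi G N ⌊s * N⌋ = ∫ t, pR t (St c.2 (c.2 + N)) c (c + vN s N) ∂(iidLaw G) := h1
  rw [h4]
  have m1 : c ∈ St c.2 (c.2 + N) := by rw [mem_St]; omega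
  have m2 : c + vN s N ∈ St c.2 (c.2 + N) := by
    rw [mem_St]
    simp only [vN, Prod.snd_add]
    omega
  have hsub : St c.2 (c.2 + N) ⊆ St 0 M := St_subset hc hM
  refine integral_mono_ae ((H.regMom (by omega)).int _ (hsub m1) _ (hsub m2))
    ((H.regMom (by omega)).int _ m1 _ m2) ?_
  filter_upwards [H.nn] with t ht
  exact pR_anti ht hsub (conn_St m1 m2)

/-- after a step of length `N` -/
lemma after_le (s : ℝ) (k : ℤ) {c : ℤ × ℤ} {M N : ℕ} (hc : 0 ≤ c.2)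
    (hM : c.2 + N ≤ M) (hMN : N + 2 ≤ M) :
    ∫ t, pR t (St 0 M) (c + vN s N) (tgt s k M) ∂(iidLaw G) ≤ A G s k c (M - N) + cM G := by
  have m1 : c + vN s N ∈ St N M := by
    rw [mem_St]
    simp only [vN, Prod.snd_add]
    omega
  have m2 : tgt s k M ∈ St N M := by
    rw [mem_St]
    simp only [tgt]
    omega
  have hsub : St N M ⊆ St 0 M := St_subset (by omega) le_rfl
  have hMN' : ((M - N : ℕ) : ℤ) = (M : ℤ) - N := by rw [Nat.cast_sub (by omega)]
  have h1 : ∫ t, pR t (St 0 M) (c + vN s N) (tgt s k M) ∂(iidLaw G) ≤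
      ∫ t, pR t (St N M) (c + vN s N) (tgt s k M) ∂(iidLaw G) := by
    refine integral_mono_ae ((H.regMom (by omega)).int _ (hsub m1) _ (hsub m2))
      ((H.regMom (by omega)).int _ m1 _ m2) ?_
    filter_upwards [H.nn] with t ht
    exact pR_anti ht hsub (conn_St m1 m2)
  have h2 := integral_pR_act (G := G) (tr (vN s N)) (St N M) c (tgt s k M - vN s N)
  have h3 : (⇑(tr (vN s N)) ⁻¹' St N M : Set (ℤ × ℤ)) = St 0 (M - N : ℕ) := by
    have := preimage_St N M (vN s N).1 (vN s N).2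
    rw [show (N : ℤ) - (vN s N).2 = 0 by simp [vN], show (M : ℤ) - (vN s N).2 = (M - N : ℕ) by
      rw [hMN']; rfl] at this
    exact this
  rw [h3] at h2
  simp only [tr_apply, sub_add_cancel] at h2
  rw [← h2] at h1
  refine h1.trans ?_
  have hR := H.regMom (a := 0) (b := (M - N : ℕ)) (by omega)
  have m3 : c ∈ St 0 (M - N : ℕ) := by rw [mem_St]; omega
  have m4 : tgt s k M - vN s N ∈ St 0 (M - N : ℕ) := by
    rw [mem_St]
    simp only [tgt, vN, Prod.snd_sub]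
    omega
  have m5 := tgt_mem s k (M - N)
  have h4 : ∫ t, pR t (St 0 (M - N : ℕ)) c (tgt s k M - vN s N) ∂(iidLaw G) ≤
      ∫ t, (pR t (St 0 (M - N : ℕ)) c (tgt s k (M - N)) +
        pR t (St 0 (M - N : ℕ)) (tgt s k (M - N)) (tgt s k M - vN s N)) ∂(iidLaw G) := by
    refine integral_mono_ae (hR.int _ m3 _ m4) ((hR.int _ m3 _ m5).add (hR.int _ m5 _ m4)) ?_
    filter_upwards [H.nn] with t ht
    exact pR_triangle ht (conn_St m3 m5) (conn_St m5 m4)
  rw [integral_add (hR.int _ m3 _ m5) (hR.int _ m5 _ m4)] at h4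
  have h5 := hR.le _ m5 _ m4
  have h6 : (n1 (tgt s k M - vN s N - tgt s k (M - N)) : ℝ) ≤ 1 := by
    exact_mod_cast floor_sub_near s (by omega) k
  have h7 := mul_le_mul_of_nonneg_left h6 (cM_nonneg G)
  unfold A
  linarith


/-- **Cesàro bound of the mean defect** -/
theorem defect_CL (s : ℝ) (k : ℤ) {c : ℤ × ℤ} {N : ℕ} (hN : 2 ≤ N) (hc : 0 ≤ c.2) :
    CL (fun M => ∫ t, defect t (St 0 M) c (vN s N) (tgt s k M) ∂(iidLaw G))
      (Phi G N ⌊s * N⌋ - N * μ (s, 1) + cM G) := by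
  obtain ⟨y, hy⟩ := Int.eq_ofNat_of_zero_le hc
  have h1 : CL (fun M => A G s k c (M - N) - A G s k c M) (-(N * μ (s, 1))) := by
    refine CL.telescope (H.phi_nonneg s) (C := m * (|(k : ℝ)| + 1 + n1 c)) (M0 := y + 2)
      (fun M hM => H.A_ge s k (by omega) ?_) N
    rw [mem_St]
    omega
  have h2 := (CL.of_const (Phi G N ⌊s * N⌋ + cM G)).add h1
  refine (h2.weaken (le_of_eq (by ring))).mono ⟨y + N + 2, fun M hM => ?_⟩
  have hcM : c.2 + N ≤ M := by omega
  have hR := H.regMom (a := 0) (b := M) (by omega)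
  have m1 : c ∈ St 0 M := by rw [mem_St]; omega
  have m2 : c + vN s N ∈ St 0 M := by
    rw [mem_St]; simp only [vN, Prod.snd_add]; omega
  have m3 := tgt_mem s k M
  have e1 : ∫ t, defect t (St 0 M) c (vN s N) (tgt s k M) ∂(iidLaw G) =
      ∫ t, pR t (St 0 M) c (c + vN s N) ∂(iidLaw G) +
      ∫ t, pR t (St 0 M) (c + vN s N) (tgt s k M) ∂(iidLaw G) - A G s k c M := by
    unfold defect A
    rw [integral_sub _ (hR.int _ m1 _ m3), integral_add (hR.int _ m1 _ m2) (hR.int _ m2 _ m3)]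
    exact (hR.int _ m1 _ m2).add (hR.int _ m2 _ m3)
  have e2 := H.step_le s hN hc hcM
  have e3 := H.after_le s k hc hcM (by omega)
  linarith

end Inp

end Crest.Agent.R151.BUS
end

-- ▼ part R151/B469f
section

/-!
# R151, block BUS (helper469), part f: localisation of the first visit
-/

set_option autoImplicit false
set_option linter.unusedSectionVars false

open MeasureTheory Filter ProbabilityTheory
open Crest.ProbabilityR.FirstPassage
open Crest.Agent.R151.K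

namespace Crest.Agent.R151.BUS

variable {G : Measure ℝ} [IsProbabilityMeasure G] {m : ℝ} {μ : ℝ × ℝ → ℝ}

/-- some near-optimal first visit of the line `N` is outside `(s1 N, s2 N)` -/
def Off (s1 s2 s : ℝ) (k : ℤ) (N M : ℕ) (x : ℤ) : Set Environment :=
  {t | ∃ w : ℤ, ((w : ℝ) ≤ s1 * N ∨ s2 * N ≤ w) ∧
    f t N w x + pR t (St 0 M) (w, N) (tgt s k M) ≤ pR t (St 0 M) (x, 0) (tgt s k M) + 1}



/-- the dominating variable of a cell -/
noncomputable def Zc (μ : ℝ × ℝ → ℝ) (t : Environment) (R : Set (ℤ × ℤ)) (n : ℕ) (x b c e v : ℤ × ℤ)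
    (L : ℕ) (a : ℝ) : ℝ :=
  (3 * dev μ n t + (pR t R x (c + v) - passageTime t x (c + v))) + (defect t R c v b +
    2 * ∑ i ∈ Finset.range L, pR t R (c + i • e) (c + (i + 1) • e) ^ (5 / 4 : ℝ) / a ^ (1 / 4 : ℝ))

lemma lenC_le (t : Environment) (ht : Nn t) (R : Set (ℤ × ℤ)) (c e : ℤ × ℤ) (L : ℕ) {a : ℝ}
    (ha : 0 < a) : lenC t R c e L ≤ a * L +
      ∑ i ∈ Finset.range L, pR t R (c + i • e) (c + (i + 1) • e) ^ (5 / 4 : ℝ) /
        a ^ (1 / 4 : ℝ) := by
  unfold lenC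
  have h : ∑ i ∈ Finset.range L, pR t R (c + i • e) (c + (i + 1) • e) ≤
      ∑ i ∈ Finset.range L, (a + pR t R (c + i • e) (c + (i + 1) • e) ^ (5 / 4 : ℝ) /
        a ^ (1 / 4 : ℝ)) :=
    Finset.sum_le_sum fun i _ => rpow_tail (pR_nonneg ht _ _ _) ha
  rw [Finset.sum_add_distrib, Finset.sum_const, Finset.card_range, nsmul_eq_mul, mul_comm] at h
  exact h

/-- on a visited cell the dominating variable is large -/
lemma Vis.le_Zc {t : Environment} (ht : Nn t) {R : Set (ℤ × ℤ)}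
    (hRc : ∀ x ∈ R, ∀ y ∈ R, Conn R x y) {x b c e v : ℤ × ℤ} {L n : ℕ} (hx : x ∈ R) (hb : b ∈ R)
    (hcv : c + v ∈ R) (hc : ∀ i ≤ L, c + i • e ∈ R) (hxn : x ∈ box n) (hcn : c ∈ box n)
    (hcvn : c + v ∈ box n) {a : ℝ} (ha : 0 < a) (h : Vis t R x b c e L) :
    μ (toR (c - x)) + μ (toR v) - μ (toR (c + v - x)) - 2 - 2 * (a * L) ≤
      Zc μ t R n x b c e v L a := by
  have h1 := h.le_defect ht hRc hx hb hcv hc
  have h2 := lenC_le t ht R c e L ha
  have h3 := le_dev μ t hxn hcn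
  have h4 := le_dev μ t hcn hcvn
  have h5 := le_dev μ t hxn hcvn
  rw [abs_le] at h3 h4 h5
  rw [show c + v - c = v by abel] at h4
  unfold Zc
  linarith

lemma Zc_nonneg (μ : ℝ × ℝ → ℝ) {t : Environment} (ht : Nn t) {R : Set (ℤ × ℤ)}
    (hRc : ∀ x ∈ R, ∀ y ∈ R, Conn R x y) {x b c e v : ℤ × ℤ} {L n : ℕ} (hx : x ∈ R) (hb : b ∈ R)
    (hcv : c + v ∈ R) (hc : c ∈ R) {a : ℝ} (ha : 0 < a) : 0 ≤ Zc μ t R n x b c e v L a := by
  have h1 := dev_nonneg μ n t
  have h2 := pt_le_pR ht (hRc _ hx _ hcv)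
  have h3 := defect_nonneg ht hRc hc hcv hb
  have h4 : 0 ≤ ∑ i ∈ Finset.range L, pR t R (c + i • e) (c + (i + 1) • e) ^ (5 / 4 : ℝ) /
        a ^ (1 / 4 : ℝ) := Finset.sum_nonneg fun i _ => by
    have := pR_nonneg ht R (c + i • e) (c + (i + 1) • e)
    positivity
  unfold Zc
  linarith

namespace Inp

variable (H : Inp G m μ)
include H

/-- mean of the dominating variable -/
lemma int_Zc {R : Set (ℤ × ℤ)} (hR : RegMom G R (cM G)) {x b c e v : ℤ × ℤ} {L n : ℕ}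
    (hx : x ∈ R) (hb : b ∈ R) (hcv : c + v ∈ R) (hc : ∀ i ≤ L, c + i • e ∈ R)
    (he : n1 e = 1) {a : ℝ} (ha : 0 < a) (hdev : Integrable (dev μ n) (iidLaw G)) :
    Integrable (fun t => Zc μ t R n x b c e v L a) (iidLaw G) ∧
    ∫ t, Zc μ t R n x b c e v L a ∂(iidLaw G) ≤
      (3 * ∫ t, dev μ n t ∂(iidLaw G) + (∫ t, pR t R x (c + v) ∂(iidLaw G) -
        μ (toR (c + v - x)))) + (∫ t, defect t R c v b ∂(iidLaw G) +
        2 * (L * (cM G ^ (5 / 4 : ℝ) / a ^ (1 / 4 : ℝ)))) := by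
  have hc0 : c ∈ R := by simpa using hc 0 (Nat.zero_le _)
  have i1 : Integrable (fun t => 3 * dev μ n t) (iidLaw G) := hdev.const_mul 3
  have i2 : Integrable (fun t => pR t R x (c + v) - passageTime t x (c + v)) (iidLaw G) :=
    (hR.int _ hx _ hcv).sub (H.mom.int _ _)
  have i3 : Integrable (fun t => defect t R c v b) (iidLaw G) :=
    ((hR.int _ hc0 _ hcv).add (hR.int _ hcv _ hb)).sub (hR.int _ hc0 _ hb)
  have i4 : ∀ i ∈ Finset.range L, Integrable (fun t => pR t R (c + i • e) (c + (i + 1) • e) ^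
      (5 / 4 : ℝ) / a ^ (1 / 4 : ℝ)) (iidLaw G) := by
    intro i hi
    rw [Finset.mem_range] at hi
    exact (hR.pint _ (hc i (by omega)) _ (hc (i + 1) (by omega))).div_const _
  have i5 : Integrable (fun t => 2 * ∑ i ∈ Finset.range L, pR t R (c + i • e) (c + (i + 1) • e) ^
      (5 / 4 : ℝ) / a ^ (1 / 4 : ℝ)) (iidLaw G) := (integrable_finsetSum _ i4).const_mul 2
  have hI : Integrable (fun t => Zc μ t R n x b c e v L a) (iidLaw G) :=
    (i1.add i2).add (i3.add i5)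
  refine ⟨hI, ?_⟩
  have e1 : ∫ t, Zc μ t R n x b c e v L a ∂(iidLaw G) =
      (∫ t, 3 * dev μ n t ∂(iidLaw G) +
        ∫ t, (pR t R x (c + v) - passageTime t x (c + v)) ∂(iidLaw G)) +
      (∫ t, defect t R c v b ∂(iidLaw G) +
        ∫ t, 2 * ∑ i ∈ Finset.range L, pR t R (c + i • e) (c + (i + 1) • e) ^
      (5 / 4 : ℝ) / a ^ (1 / 4 : ℝ) ∂(iidLaw G)) := by
    have i12 : Integrable (fun t => 3 * dev μ n t +
        (pR t R x (c + v) - passageTime t x (c + v))) (iidLaw G) := i1.add i2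
    have i35 : Integrable (fun t => defect t R c v b + 2 * ∑ i ∈ Finset.range L,
        pR t R (c + i • e) (c + (i + 1) • e) ^ (5 / 4 : ℝ) / a ^ (1 / 4 : ℝ)) (iidLaw G) :=
      i3.add i5
    rw [← integral_add i3 i5, ← integral_add i1 i2, ← integral_add i12 i35]
    rfl
  rw [e1, integral_const_mul, integral_sub (hR.int _ hx _ hcv) (H.mom.int _ _),
    integral_const_mul, integral_finsetSum _ i4]
  have e2 : μ (toR (c + v - x)) ≤ ∫ t, passageTime t x (c + v) ∂(iidLaw G) := by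
    rw [integral_pt]
    exact H.mom.mu_le_ET H.tc _
  have e3 : ∑ i ∈ Finset.range L, ∫ t, pR t R (c + i • e) (c + (i + 1) • e) ^
      (5 / 4 : ℝ) / a ^ (1 / 4 : ℝ) ∂(iidLaw G) ≤
      L * (cM G ^ (5 / 4 : ℝ) / a ^ (1 / 4 : ℝ)) := by
    have : ∀ i ∈ Finset.range L, ∫ t, pR t R (c + i • e) (c + (i + 1) • e) ^
      (5 / 4 : ℝ) / a ^ (1 / 4 : ℝ) ∂(iidLaw G) ≤ cM G ^ (5 / 4 : ℝ) / a ^ (1 / 4 : ℝ) := by
      intro i hi
      rw [Finset.mem_range] at hi
      rw [integral_div]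
      have h1 := hR.ple _ (hc i (by omega)) _ (hc (i + 1) (by omega))
      have h2 : n1 (c + (i + 1) • e - (c + i • e)) = 1 := by
        rw [show c + (i + 1) • e - (c + i • e) = e by rw [succ_nsmul]; abel, he]
      rw [h2, Nat.cast_one, mul_one] at h1
      gcongr
    refine (Finset.sum_le_sum this).trans_eq ?_
    rw [Finset.sum_const, Finset.card_range, nsmul_eq_mul]
  linarith

/-- **probability of a visit**, one cell -/
lemma prob_Vis_le {R : Set (ℤ × ℤ)} (hR : RegMom G R (cM G)) {x b c e v : ℤ × ℤ} {L n : ℕ}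
    (hx : x ∈ R) (hb : b ∈ R) (hcv : c + v ∈ R) (hc : ∀ i ≤ L, c + i • e ∈ R)
    (he : n1 e = 1) {a : ℝ} (ha : 0 < a) (hdev : Integrable (dev μ n) (iidLaw G))
    (hxn : x ∈ box n) (hcn : c ∈ box n) (hcvn : c + v ∈ box n) {θ : ℝ} (hθ : 0 < θ)
    (hex : θ ≤ μ (toR (c - x)) + μ (toR v) - μ (toR (c + v - x)) - 2 - 2 * (a * L)) :
    (iidLaw G).real {t | Vis t R x b c e L} ≤ θ⁻¹ *
      ((3 * ∫ t, dev μ n t ∂(iidLaw G) + (∫ t, pR t R x (c + v) ∂(iidLaw G) -
        μ (toR (c + v - x)))) + (∫ t, defect t R c v b ∂(iidLaw G) +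
        2 * (L * (cM G ^ (5 / 4 : ℝ) / a ^ (1 / 4 : ℝ))))) := by
  obtain ⟨hI, hle⟩ := H.int_Zc hR hx hb hcv hc he ha hdev
  have hc0 : c ∈ R := by simpa using hc 0 (Nat.zero_le _)
  have h1 : (iidLaw G).real {t | Vis t R x b c e L} ≤
      (iidLaw G).real {t | θ ≤ Zc μ t R n x b c e v L a} := by
    refine ENNReal.toReal_mono (measure_ne_top _ _) (measure_mono_ae ?_)
    filter_upwards [H.nn] with t ht hv
    exact hex.trans (Vis.le_Zc ht hR.conn hx hb hcv hc hxn hcn hcvn ha hv)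
  have h2 := mul_meas_ge_le_integral_of_nonneg (μ := iidLaw G)
    (f := fun t => Zc μ t R n x b c e v L a) (by
      filter_upwards [H.nn] with t ht
      exact Zc_nonneg μ ht hR.conn hx hb hcv hc0 ha) hI θ
  rw [inv_mul_eq_div, le_div_iff₀ hθ, mul_comm]
  calc θ * (iidLaw G).real {t | Vis t R x b c e L} ≤
      θ * (iidLaw G).real {t | θ ≤ Zc μ t R n x b c e v L a} := by gcongr
    _ ≤ _ := h2.trans hle

/-- upper shape bound in strips, from the bottom to a point far from both sides -/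
lemma strip_upper {ε : ℝ} (hε : 0 < ε) (C : ℕ) :
    ∃ n0 : ℕ, ∀ n ≥ n0, ∀ x : ℤ, |x| ≤ n → ∀ y ∈ box (C * n), (n : ℤ) ≤ y.2 → ∀ M : ℤ,
      y.2 + n ≤ M → ((x, 0) : ℤ × ℤ) ∈ box (C * n) →
      ∫ t, pR t (St 0 M) (x, 0) y ∂(iidLaw G) ≤ μ (toR (y - (x, 0))) + ε * n := by
  obtain ⟨K, J, n0, hJ, hKJ, hreg⟩ := H.mom.region_upper H.tc H.hz (locCtl_of_law213 H.law) hε C
    (cM_nonneg G)
  refine ⟨n0 + 2, fun n hn x hx y hy hyn M hM hx0 => ?_⟩
  obtain ⟨hnpos, h⟩ := hreg n (by omega)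
  have hK : 0 < K := by omega
  have hK' : (0 : ℤ) < K := by exact_mod_cast hK
  refine (h (x, 0) y hx0 hy (St 0 M) (H.regMom (by omega)) ?_ ?_ ?_).2
  · rw [mem_St]; simp only; omega
  · rw [mem_St]; omega
  · intro i hi1 hi2 z hz
    have e1 : (z.2 - y.2 * i / K).natAbs ≤ J * (n / K) := by
      simp only [n1, ch, Prod.fst_sub, Prod.snd_sub, sub_zero, zero_add] at hz
      omega
    have q1 : ((J * (n / K) : ℕ) : ℤ) ≤ y.2 * i / K := by
      rw [Int.le_ediv_iff_mul_le hK']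
      have a1 : (J * (n / K)) * K ≤ n * i := by
        calc (J * (n / K)) * K = J * (K * (n / K)) := by ring
          _ ≤ J * n := Nat.mul_le_mul_left _ (Nat.mul_div_le n K)
          _ ≤ i * n := Nat.mul_le_mul_right _ hi1
          _ = n * i := mul_comm _ _
      have a2 : (((J * (n / K) : ℕ)) : ℤ) * K ≤ n * i := by exact_mod_cast a1
      refine a2.trans ?_
      exact mul_le_mul_of_nonneg_right hyn (by positivity)
    have q2 : y.2 * i / K ≤ y.2 := by
      have hy0 : 0 ≤ y.2 := by omega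
      have : y.2 * i ≤ y.2 * K := mul_le_mul_of_nonneg_left (by omega) hy0
      calc y.2 * i / K ≤ y.2 * K / K := Int.ediv_le_ediv hK' this
        _ = y.2 := Int.mul_ediv_cancel _ hK'.ne'
    have q3 : ((J * (n / K) : ℕ) : ℤ) ≤ n := by
      have : J * (n / K) ≤ n := by
        calc J * (n / K) ≤ K * (n / K) := Nat.mul_le_mul_right _ (by omega)
          _ ≤ n := Nat.mul_div_le n K
      exact_mod_cast this
    rw [mem_St]
    omega

set_option maxHeartbeats 1600000 in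
/-- **localisation of the first visit**: outside the facet of `s` the probability of a
near-optimal first visit is small, in Cesàro mean over the far target. -/
theorem loc {s p s1 s2 : ℝ} (hd : HasDerivAt (fun x : ℝ => μ (x, 1)) p s) (hs1 : s1 < s)
    (hs2 : s < s2) (hne1 : μ (s1, 1) ≠ μ (s, 1) + p * (s1 - s))
    (hne2 : μ (s2, 1) ≠ μ (s, 1) + p * (s2 - s)) (k x : ℤ) {δ : ℝ} (hδ : 0 < δ) :
    ∃ N1 : ℕ, ∀ N ≥ N1, CL (fun M => (iidLaw G).real (Off s1 s2 s k N M x)) δ := by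
  have hm := H.mom.nonneg
  obtain ⟨C, hC⟩ : ∃ C : ℕ, |s| + |s1| + |s2| + 1 ≤ C := exists_nat_ge _
  have hCs : |s| < C := by linarith [abs_nonneg s1, abs_nonneg s2]
  have hCs1 : |s1| ≤ C := by linarith [abs_nonneg s, abs_nonneg s2]
  have hCs2 : |s2| ≤ C := by linarith [abs_nonneg s1, abs_nonneg s]
  have hC1R : (1 : ℝ) ≤ C := by linarith [abs_nonneg s, abs_nonneg s1, abs_nonneg s2]
  have hC1 : 1 ≤ C := by exact_mod_cast hC1R
  obtain ⟨η, hη, hex⟩ := excess_out H.norm hd hs1 hs2 hne1 hne2 hCs hCs1 hCs2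
  set c5 : ℝ := cM G ^ (5 / 4 : ℝ) with hc5
  have hc5n : 0 ≤ c5 := Real.rpow_nonneg (cM_nonneg G) _
  -- the truncation level
  obtain ⟨a, ha, haq⟩ : ∃ a : ℝ, 0 < a ∧ c5 / a ^ (1 / 4 : ℝ) ≤ η * δ / (384 * C) := by
    have hlim : Tendsto (fun a : ℝ => c5 / a ^ (1 / 4 : ℝ)) atTop
        (nhds 0) := tendsto_const_nhds.div_atTop (tendsto_rpow_atTop (by norm_num))
    obtain ⟨a, h1, h2⟩ := ((hlim.eventually_le_const
      (show (0 : ℝ) < η * δ / (384 * C) by positivity)).and (eventually_gt_atTop 0)).exists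
    exact ⟨a, h2, h1⟩
  set q : ℝ := c5 / a ^ (1 / 4 : ℝ) with hq
  have hq0 : 0 ≤ q := by positivity
  obtain ⟨K, hK⟩ : ∃ K : ℕ, 16 * a / η + 1 ≤ K := exists_nat_ge _
  have hK1 : (1 : ℝ) ≤ K := by
    have : 0 ≤ 16 * a / η := by positivity
    linarith
  have hKpos : 0 < K := by exact_mod_cast (by linarith : (0 : ℝ) < K)
  set J : ℕ := 2 * C * K with hJ
  set ε : ℝ := η * δ / (32 * (J + 1) * (6 * C + 3)) with hε
  have hεpos : 0 < ε := by positivity
  obtain ⟨g0, hg2, hg0⟩ := H.Phi_near hεpos C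
  obtain ⟨n0, hn0⟩ := H.strip_upper hεpos (2 * C)
  obtain ⟨d0, hd0⟩ := H.mom.uniform_shape H.tc (locCtl_of_law213 H.law) hεpos
  obtain ⟨r0, hr0⟩ : ∃ r0 : ℕ, 4 * (m * (2 * |(x : ℝ)| + 2) + 2) / η + (m + cM G) / ε ≤ r0 :=
    exists_nat_ge _
  refine ⟨g0 + n0 + d0 + r0 + K + x.natAbs + 2, fun N hN => ?_⟩
  have hNpos : 0 < N := by omega
  have hNR : (0 : ℝ) < N := by exact_mod_cast hNpos
  have hN1 : (1 : ℝ) ≤ N := by exact_mod_cast hNpos
  have hxN : |x| ≤ (N : ℤ) := by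
    rw [Int.abs_eq_natAbs]; exact_mod_cast (by omega : x.natAbs ≤ N)
  have hr : 4 * (m * (2 * |(x : ℝ)| + 2) + 2) / η + (m + cM G) / ε ≤ N := by
    refine hr0.trans ?_
    exact_mod_cast (by omega : r0 ≤ N)
  have hcM := cM_nonneg G
  have hr1 : 4 * (m * (2 * |(x : ℝ)| + 2) + 2) ≤ η * N := by
    have h1 : 0 ≤ (m + cM G) / ε := by positivity
    have h2 : 4 * (m * (2 * |(x : ℝ)| + 2) + 2) / η ≤ N := by linarith
    rw [div_le_iff₀ hη] at h2
    linarith
  have hr2 : m + cM G ≤ ε * N := by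
    have h1 : 0 ≤ 4 * (m * (2 * |(x : ℝ)| + 2) + 2) / η := by positivity
    have h2 : (m + cM G) / ε ≤ N := by linarith
    rw [div_le_iff₀ hεpos] at h2
    linarith
  set L : ℕ := N / K + 1 with hL
  have hLpos : 0 < L := Nat.succ_pos _
  have hLK : N ≤ L * K := by
    have := Nat.div_add_mod N K
    have := Nat.mod_lt N hKpos
    rw [hL, Nat.add_mul, one_mul, mul_comm (N / K) K]
    omega
  have hLK2 : L * K ≤ 2 * N := by
    have := Nat.mul_div_le N K
    rw [hL, Nat.add_mul, one_mul, mul_comm (N / K) K]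
    omega
  have hLK2R : (L : ℝ) * K ≤ 2 * N := by exact_mod_cast hLK2
  -- `2 a L ≤ η N / 4`
  have haL : 2 * (a * L) ≤ η * N / 4 := by
    have h1 : 16 * a / η ≤ K := by linarith
    rw [div_le_iff₀ hη] at h1
    have h2 : 16 * a * L ≤ K * η * L := mul_le_mul_of_nonneg_right h1 (by positivity)
    have h3 : K * η * L ≤ η * (2 * N) := by
      have := mul_le_mul_of_nonneg_left hLK2R hη.le
      linarith
    linarith
  have hJL : 2 * ((C : ℤ) * N) ≤ J * L := by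
    have h1 : 2 * (C * N) ≤ J * L := by
      rw [hJ]
      calc 2 * (C * N) = 2 * C * N := by ring
        _ ≤ 2 * C * (L * K) := Nat.mul_le_mul_left _ hLK
        _ = 2 * C * K * L := by ring
    exact_mod_cast h1
  have hNC : (N : ℤ) ≤ C * N := by
    have : N ≤ C * N := Nat.le_mul_of_pos_left _ hC1
    exact_mod_cast this
  have hJLN : (N : ℤ) ≤ J * L := by
    have : (0 : ℤ) ≤ C * N := by positivity
    linarith
  -- the window
  set z1 : ℤ := ⌊s1 * N⌋ with hz1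
  set z2 : ℤ := ⌈s2 * N⌉ with hz2
  set W : ℤ := C * N with hW
  have hWR : (W : ℝ) = C * N := by rw [hW]; push_cast; ring
  have hz1b : -W ≤ z1 ∧ z1 ≤ W := by
    have h1 := abs_le.1 hCs1
    constructor
    · rw [hz1, Int.le_floor]
      push_cast
      rw [hWR]
      have := mul_le_mul_of_nonneg_right h1.1 hNR.le
      linarith
    · have h2 := Int.floor_le (s1 * N)
      have h3 := mul_le_mul_of_nonneg_right h1.2 hNR.le
      have : (z1 : ℝ) ≤ W := by rw [hWR]; linarith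
      exact_mod_cast this
  have hz2b : -W ≤ z2 ∧ z2 ≤ W := by
    have h1 := abs_le.1 hCs2
    constructor
    · have h2 := Int.le_ceil (s2 * N)
      have h3 := mul_le_mul_of_nonneg_right h1.1 hNR.le
      have : (-W : ℝ) ≤ z2 := by rw [hWR]; linarith
      exact_mod_cast this
    · rw [hz2, Int.ceil_le]
      rw [hWR]
      have := mul_le_mul_of_nonneg_right h1.2 hNR.le
      linarith
  have hfl1 := Int.floor_le (s * N)
  have hfl2 := Int.lt_floor_add_one (s * N)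
  have hsN : |((⌊s * N⌋ : ℤ) : ℝ)| ≤ C * N := by
    have h1 := neg_abs_le s
    have h2 := le_abs_self s
    have h3 : |s| + 1 ≤ C := by linarith [abs_nonneg s1, abs_nonneg s2]
    have h4 := mul_le_mul_of_nonneg_right h3 hNR.le
    have h5 := mul_le_mul_of_nonneg_right h1 hNR.le
    have h6 := mul_le_mul_of_nonneg_right h2 hNR.le
    rw [abs_le]
    constructor <;> linarith
  have hsNZ : |⌊s * N⌋| ≤ (C : ℤ) * N := by exact_mod_cast hsN
  set v : ℤ × ℤ := vN s N with hv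
  have hvm : |μ (toR v) - N * μ (s, 1)| ≤ m := by
    have h1 := H.abs_mu_sub (⌊s * N⌋ : ℤ) s (N := N) hNR.le
    have h2 : |((⌊s * N⌋ : ℤ) : ℝ) - s * N| ≤ 1 := by
      rw [abs_le]; constructor <;> linarith
    have h3 := mul_le_mul_of_nonneg_left h2 hm
    have h4 : toR v = (((⌊s * N⌋ : ℤ) : ℝ), (N : ℝ)) := by
      simp [toR, hv, vN]
    rw [h4]
    linarith
  -- the cells
  set S := cells z1 z2 W N L J with hS
  have hW0 : 0 ≤ W := by rw [hW]; positivity
  have hgeo : ∀ c ∈ S, (c.1.2 = N ∧ (c.1.1 ≤ z1 ∨ z2 ≤ c.1.1) ∧ |c.1.1| ≤ W) ∨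
      (|c.1.1| = W ∧ 0 ≤ c.1.2 ∧ c.1.2 ≤ N) := fun c hc => cells_geom hz1b.2 hz2b.1 hW0 hc
  have hgeo' : ∀ c ∈ S, 0 ≤ c.1.2 ∧ c.1.2 ≤ N ∧ |c.1.1| ≤ W := by
    intro c hc
    rcases hgeo c hc with ⟨h1, -, h3⟩ | ⟨h1, h2, h3⟩
    · exact ⟨by omega, by omega, h3⟩
    · exact ⟨h2, h3, h1.le⟩
  have hboxc : ∀ c ∈ S, c.1 ∈ box (2 * C * N) ∧ c.1 + v ∈ box (2 * C * N) := by
    intro c hc
    obtain ⟨h1, h2, h3⟩ := hgeo' c hc
    have h4 := abs_le.1 h3
    have h5 := abs_le.1 hsNZ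
    have h6 : ((2 * C * N : ℕ) : ℤ) = 2 * W := by rw [hW]; push_cast; ring
    rw [mem_box, mem_box, h6]
    simp only [hv, vN, Prod.fst_add, Prod.snd_add]
    refine ⟨⟨⟨by omega, by omega⟩, ⟨by omega, by omega⟩⟩,
      ⟨⟨by omega, by omega⟩, ⟨by omega, by omega⟩⟩⟩
  have hxbox : ((x, 0) : ℤ × ℤ) ∈ box (2 * C * N) := by
    have h6 : ((2 * C * N : ℕ) : ℤ) = 2 * W := by rw [hW]; push_cast; ring
    have h4 := abs_le.1 hxN
    rw [mem_box, h6]
    refine ⟨⟨?_, ?_⟩, ⟨?_, ?_⟩⟩ <;> simp only <;> omega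
  -- the excess at the corners
  have hexc : ∀ c ∈ S, η * N / 2 ≤ μ (toR (c.1 - (x, 0))) + μ (toR v) -
      μ (toR (c.1 + v - (x, 0))) - 2 - 2 * (a * L) := by
    intro c hc
    have h1 := hex N hNR (toR c.1) (by
      rcases hgeo c hc with ⟨h1, h2, h3⟩ | ⟨h1, h2, h3⟩
      · left
        refine ⟨?_, ?_, ?_⟩
        · simp only [toR]; rw [h1]; simp
        · rcases h2 with h2 | h2
          · left
            have h5 := Int.floor_le (s1 * N)
            have h6 : (c.1.1 : ℝ) ≤ z1 := by exact_mod_cast h2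
            simp only [toR]
            linarith
          · right
            have h5 := Int.le_ceil (s2 * N)
            have h6 : (z2 : ℝ) ≤ c.1.1 := by exact_mod_cast h2
            simp only [toR]
            linarith
        · simp only [toR]
          rw [← hWR]
          exact_mod_cast h3
      · right
        refine ⟨?_, ?_, ?_⟩
        · simp only [toR]
          rw [← hWR]
          exact_mod_cast h1
        · simp only [toR]; exact_mod_cast h2
        · simp only [toR]; exact_mod_cast h3)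
    have h2 := H.mom.abs_mu_sub_le H.tc (toR (c.1 - (x, 0))) (toR c.1)
    have h3 := H.mom.abs_mu_sub_le H.tc (toR (c.1 + v - (x, 0))) (toR c.1 + (s * N, (N : ℝ)))
    have h4 : l1 (toR (c.1 - (x, 0)) - toR c.1) ≤ |(x : ℝ)| := by
      simp [l1, toR]
    have h5 : l1 (toR (c.1 + v - (x, 0)) - (toR c.1 + (s * N, (N : ℝ)))) ≤ |(x : ℝ)| + 1 := by
      simp only [l1, toR, hv, vN, Prod.fst_add, Prod.snd_add, Prod.fst_sub, Prod.snd_sub]
      push_cast
      rw [show (c.1.1 : ℝ) + ⌊s * N⌋ - x - (c.1.1 + s * N) = -x + (⌊s * N⌋ - s * N) by ring,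
        show (c.1.2 : ℝ) + N - 0 - (c.1.2 + N) = 0 by ring, abs_zero, add_zero]
      refine (abs_add_le _ _).trans ?_
      rw [abs_neg]
      have : |((⌊s * N⌋ : ℤ) : ℝ) - s * N| ≤ 1 := by
        rw [abs_le]; constructor <;> linarith
      linarith
    have h4' := mul_le_mul_of_nonneg_left h4 hm
    have h5' := mul_le_mul_of_nonneg_left h5 hm
    rw [abs_le] at h2 h3 hvm
    nlinarith [abs_nonneg (x : ℝ)]
  -- the bound for one far target
  set θ : ℝ := η * N / 2 with hθ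
  have hθpos : 0 < θ := by positivity
  obtain ⟨hdi, hdE⟩ := hd0 (2 * C * N) (by
    have : N ≤ 2 * C * N := Nat.le_mul_of_pos_left _ (by omega)
    omega)
  set Kc : ℝ := θ⁻¹ * (3 * (ε * (2 * C * N)) + ε * N + 2 * (L * q)) with hKc
  have hbound : ∃ M0, ∀ M ≥ M0, (iidLaw G).real (Off s1 s2 s k N M x) ≤
      ∑ c ∈ S, (θ⁻¹ * (∫ t, defect t (St 0 M) c.1 v (tgt s k M) ∂(iidLaw G)) + Kc) := by
    refine ⟨3 * N + L + 2, fun M hM => ?_⟩
    have hR := H.regMom (a := 0) (b := M) (by omega)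
    have hxR : ((x, 0) : ℤ × ℤ) ∈ St 0 M := zero_mem_St (by omega)
    have hbR := tgt_mem s k M
    have hunion : (iidLaw G).real (Off s1 s2 s k N M x) ≤
        (iidLaw G).real (⋃ c ∈ S, {t | Vis t (St 0 M) (x, 0) (tgt s k M) c.1 c.2 L}) := by
      refine ENNReal.toReal_mono (measure_ne_top _ _) (measure_mono_ae ?_)
      filter_upwards [H.nn] with t ht hoff
      obtain ⟨w, hw, hw2⟩ := hoff
      have hw' : w ≤ z1 ∨ z2 ≤ w := by
        rcases hw with hw | hw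
        · exact Or.inl (Int.le_floor.2 hw)
        · exact Or.inr (Int.ceil_le.2 hw)
      obtain ⟨c, hc, hvis⟩ := covering ht (M := M) (N := N) (by omega) (by omega) hbR hLpos
        (W := W) (hxN.trans hNC) hJL hJLN hz1b hz2b hw' hw2
      exact Set.mem_biUnion hc hvis
    refine hunion.trans ((measureReal_biUnion_finset_le _ _).trans ?_)
    refine Finset.sum_le_sum fun c hc => ?_
    obtain ⟨h1, h2, h3⟩ := hgeo' c hc
    have hcR : ∀ i ≤ L, c.1 + i • c.2 ∈ St 0 M := fun i hi =>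
      St_subset le_rfl (by omega) (cells_mem (show (0 : ℤ) ≤ N by omega) hc i hi)
    have hcvR : c.1 + v ∈ St 0 M := by
      rw [mem_St]
      simp only [hv, vN, Prod.snd_add]
      omega
    have hP := H.prob_Vis_le hR hxR hbR hcvR hcR (cells_unit hc) ha hdi hxbox (hboxc c hc).1
      (hboxc c hc).2 hθpos (hexc c hc)
    refine hP.trans ?_
    have hup := hn0 N (by omega) x hxN (c.1 + v) (hboxc c hc).2 (by
      simp only [hv, vN, Prod.snd_add]; omega) M (by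
      simp only [hv, vN, Prod.snd_add]; omega) hxbox
    rw [hKc, ← mul_add]
    refine mul_le_mul_of_nonneg_left ?_ (by positivity)
    push_cast at hdE
    linarith
  refine CL.mono ?_ hbound
  have hdef : ∀ c ∈ S, CL (fun M => θ⁻¹ * (∫ t, defect t (St 0 M) c.1 v (tgt s k M) ∂(iidLaw G))
      + Kc) (θ⁻¹ * (2 * ε * N) + Kc) := by
    intro c hc
    obtain ⟨h1, h2, h3⟩ := hgeo' c hc
    refine (((H.defect_CL s k (by omega) h1).weaken ?_).const_mul (by positivity)).add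
      (CL.of_const _)
    have h4 := hg0 N (by omega) ⌊s * N⌋ hsNZ s
    have h5 : |((⌊s * N⌋ : ℤ) : ℝ) - s * N| ≤ 1 := by
      rw [abs_le]; constructor <;> linarith
    have h6 := mul_le_mul_of_nonneg_left h5 hm
    rw [abs_le] at h4
    linarith
  refine (CL.sum S hdef).weaken ?_
  rw [Finset.sum_const, nsmul_eq_mul]
  have hcard : (S.card : ℝ) ≤ 4 * (J + 1) := by
    have := card_cells_le z1 z2 W N L J
    exact_mod_cast this
  have hpos : 0 ≤ θ⁻¹ * (2 * ε * N) + Kc := by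
    rw [hKc]
    positivity
  refine (mul_le_mul_of_nonneg_right hcard hpos).trans ?_
  have e1 : 4 * ((J : ℝ) + 1) * (θ⁻¹ * (2 * ε * N) + Kc) =
      8 * (J + 1) * (6 * C + 3) * ε / η + 16 * (J + 1) * L * q / (η * N) := by
    rw [hKc, hθ]
    field_simp
    ring
  rw [e1]
  have e2 : 8 * ((J : ℝ) + 1) * (6 * C + 3) * ε / η = δ / 4 := by
    rw [hε]
    field_simp
    norm_num
  have e3 : 16 * ((J : ℝ) + 1) * L * q / (η * N) ≤ δ / 4 := by
    have h1 : ((J : ℝ) + 1) * L ≤ 6 * C * N := by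
      have h2 : (J : ℝ) + 1 ≤ 3 * C * K := by
        rw [hJ]
        push_cast
        have : (1 : ℝ) ≤ C * K := by nlinarith
        linarith
      have h3 := mul_le_mul_of_nonneg_right h2 (show (0 : ℝ) ≤ L by positivity)
      have h4 := mul_le_mul_of_nonneg_left hLK2R (show (0 : ℝ) ≤ 3 * C by positivity)
      linarith
    rw [div_le_iff₀ (by positivity)]
    rw [le_div_iff₀ (by positivity)] at haq
    have h5 := mul_le_mul_of_nonneg_right h1 hq0
    nlinarith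
  rw [e2]
  linarith

end Inp

end Crest.Agent.R151.BUS
end

-- ▼ part R151/B624c5
section

/-!
# R151, block BUS, part c5: sandwich and `L¹`-Cauchy property of the increments

`BadL s1 s2 N M b x` : some vertex `(w,N)` with `w ≤ s1 N` or `s2 N ≤ w` is almost on an optimal
path from `(x,0)` to `(b,M)` in the strip.  Output `cauchy_D`.
-/

set_option autoImplicit false

open MeasureTheory Filter Topology ProbabilityTheory
open Crest.ProbabilityR.FirstPassage
open Crest.Agent.R151.K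
open scoped ENNReal

namespace Crest.Agent.R151.BUS

variable {t : Environment}

/-- some `(w,N)` outside the window is almost on an optimal path from `(x,0)` to `(b,M)` -/
def BadL (s1 s2 : ℝ) (N M : ℕ) (b x : ℤ) : Set Environment :=
  {t | ∃ w : ℤ, ((w : ℝ) ≤ s1 * N ∨ s2 * N ≤ (w : ℝ)) ∧
    f t N w x + pR t (St 0 M) (w, N) (b, M) < pR t (St 0 M) (x, 0) (b, M) + 1}

theorem measurableSet_BadL (s1 s2 : ℝ) (N M : ℕ) (b x : ℤ) :
    MeasurableSet (BadL s1 s2 N M b x) := by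
  have : BadL s1 s2 N M b x = ⋃ w : ℤ, ⋃ _ : ((w : ℝ) ≤ s1 * N ∨ s2 * N ≤ (w : ℝ)),
      {t | f t N w x + pR t (St 0 M) (w, N) (b, M) < pR t (St 0 M) (x, 0) (b, M) + 1} := by
    ext t
    simp only [BadL, Set.mem_ofPred_eq, Set.mem_iUnion, exists_prop]
  rw [this]
  exact MeasurableSet.iUnion fun w => MeasurableSet.iUnion fun _ =>
    measurableSet_lt ((measurable_f _ _ _).add (measurable_pR _ _ _))
      ((measurable_pR _ _ _).add_const 1)

theorem mem_St_of_le {N M : ℕ} (h : N ≤ M) (w : ℤ) : ((w, (N : ℤ)) : ℤ × ℤ) ∈ St 0 M := by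
  rw [mem_St]; simp only; omega

/-- the almost optimal crossing place -/
theorem exists_cross (ht : Nn t) {s1 s2 : ℝ} {N M : ℕ} (hNM : N ≤ M) {b x : ℤ}
    (hb : t ∉ BadL s1 s2 N M b x) {ε : ℝ} (hε : 0 < ε) (hε1 : ε ≤ 1) :
    ∃ w : ℤ, s1 * N < w ∧ (w : ℝ) < s2 * N ∧
      pR t (St 0 N) (x, 0) (w, N) + pR t (St 0 M) (w, N) (b, M) ≤
        pR t (St 0 M) (x, 0) (b, M) + ε := by
  have hc : Conn (St 0 (M : ℤ)) (x, 0) (b, M) :=
    conn_St (zero_mem_St (by omega)) (top_mem_St (by omega))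
  obtain ⟨γ, hγ, hγc⟩ := exists_walk_lt_pR hc (c := pR t (St 0 M) (x, 0) (b, M) + ε)
    (by linarith)
  obtain ⟨w, α, ρ, h1, h2, h3, h4⟩ := exists_first_hit (N : ℤ) γ (by simp)
    (by simp only; omega)
  have e1 : pR t (St 0 N) (x, 0) (w, N) ≤ walkCost t α :=
    pR_le ht α fun z hz => by
      have := hγ z (h2 z hz)
      rw [mem_St] at this ⊢
      exact ⟨this.1, h1 z hz⟩
  have e2 : pR t (St 0 M) (w, N) (b, M) ≤ walkCost t ρ :=
    pR_le ht ρ fun z hz => hγ z (h3 z hz)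
  have e3 := h4 t
  have e4 : pR t (St 0 N) (x, 0) (w, N) + pR t (St 0 M) (w, N) (b, M) ≤
      pR t (St 0 M) (x, 0) (b, M) + ε := by linarith
  have e5 : ¬ ((w : ℝ) ≤ s1 * N ∨ s2 * N ≤ (w : ℝ)) := fun h => hb ⟨w, h, by
    unfold f
    linarith⟩
  push Not at e5
  exact ⟨w, e5.1, e5.2, e4⟩

theorem f_le_through (ht : Nn t) {N M : ℕ} (hNM : N ≤ M) (b x w : ℤ) :
    f t M b x ≤ f t N w x + pR t (St 0 M) (w, N) (b, M) := by
  have h1 : pR t (St 0 M) (x, 0) (b, M) ≤ pR t (St 0 M) (x, 0) (w, N) +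
      pR t (St 0 M) (w, N) (b, M) :=
    pR_triangle ht (conn_St (zero_mem_St (by omega)) (mem_St_of_le hNM w))
      (conn_St (mem_St_of_le hNM w) (top_mem_St (by omega)))
  have h2 : pR t (St 0 M) (x, 0) (w, N) ≤ pR t (St 0 N) (x, 0) (w, N) :=
    pR_anti ht (St_subset le_rfl (by exact_mod_cast hNM))
      (conn_St (zero_mem_St (by omega)) (top_mem_St (by omega)))
  unfold f
  linarith

theorem D_le_of_notBad (ht : Nn t) {s1 s2 : ℝ} {N M : ℕ} (hNM : N ≤ M) {b x : ℤ}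
    (hb : t ∉ BadL s1 s2 N M b x) {a : ℤ} (ha : (a : ℝ) ≤ s1 * N) : D t M b x ≤ D t N a x := by
  refine le_of_forall_pos_le_add fun ε hε => ?_
  obtain ⟨w, h1, -, h3⟩ := exists_cross ht hNM hb (ε := min ε 1) (lt_min hε one_pos)
    (min_le_right _ _)
  have h4 := f_le_through ht hNM b (x + 1) w
  have h5 : D t N w x ≤ D t N a x := D_anti ht (by omega) (by exact_mod_cast (ha.trans h1.le))
  have h6 := min_le_left ε 1
  unfold D f at *
  linarith

theorem le_D_of_notBad (ht : Nn t) {s1 s2 : ℝ} {N M : ℕ} (hNM : N ≤ M) {b x : ℤ}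
    (hb : t ∉ BadL s1 s2 N M b (x + 1)) {a : ℤ} (ha : s2 * N ≤ (a : ℝ)) :
    D t N a x ≤ D t M b x := by
  refine le_of_forall_pos_le_add fun ε hε => ?_
  obtain ⟨w, -, h2, h3⟩ := exists_cross ht hNM hb (ε := min ε 1) (lt_min hε one_pos)
    (min_le_right _ _)
  have h4 := f_le_through ht hNM b x w
  have h5 : D t N a x ≤ D t N w x := D_anti ht (by omega) (by exact_mod_cast (h2.le.trans ha))
  have h6 := min_le_left ε 1
  unfold D f at *
  linarith

theorem abs_D_le' (ht : Nn t) {N : ℕ} (hN : 2 ≤ N) (z x : ℤ) :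
    |D t N z x| ≤ pR t (St 0 2) (x, 0) (x + 1, 0) := by
  refine (abs_D_le ht (by omega)).trans ?_
  exact pR_anti ht (St_subset le_rfl (by exact_mod_cast hN))
    (conn_St (zero_mem_St (by norm_num)) (zero_mem_St (by norm_num)))

section integral

variable {G : Measure ℝ} [IsProbabilityMeasure G]

theorem integrable_D (h0 : G (Set.Iio 0) = 0)
    {x : ℤ} (hY : Integrable (fun t => pR t (St 0 2) (x, 0) (x + 1, 0)) (iidLaw G)) {N : ℕ}
    (hN : 2 ≤ N) (z : ℤ) : Integrable (fun t => D t N z x) (iidLaw G) := by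
  refine hY.mono' (measurable_D _ _ _).aestronglyMeasurable ?_
  filter_upwards [ae_Nn (G := G) h0] with t ht
  rw [Real.norm_eq_abs]
  exact abs_D_le' ht hN z x

/-- comparison of two levels through a common far level -/
theorem integral_abs_le (h0 : G (Set.Iio 0) = 0)
    {x : ℤ} (hY : Integrable (fun t => pR t (St 0 2) (x, 0) (x + 1, 0)) (iidLaw G))
    {s1 s2 : ℝ} {N M : ℕ} (hN : 2 ≤ N) (hNM : N ≤ M) {a a' z b : ℤ} (ha : (a : ℝ) ≤ s1 * N)
    (ha' : s2 * N ≤ (a' : ℝ)) (haz : a ≤ z) (hza : z ≤ a') :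
    ∫ t, |D t M b x - D t N z x| ∂(iidLaw G) ≤
      ∫ t, (D t N a x - D t N a' x) ∂(iidLaw G) +
        ∫ t in BadL s1 s2 N M b x ∪ BadL s1 s2 N M b (x + 1),
          2 * pR t (St 0 2) (x, 0) (x + 1, 0) ∂(iidLaw G) := by
  classical
  have hM : 2 ≤ M := hN.trans hNM
  set B := BadL s1 s2 N M b x ∪ BadL s1 s2 N M b (x + 1) with hB
  have hBm : MeasurableSet B := (measurableSet_BadL _ _ _ _ _ _).union
    (measurableSet_BadL _ _ _ _ _ _)
  have i1 := integrable_D h0 hY hN a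
  have i2 := integrable_D h0 hY hN a'
  have i3 := integrable_D h0 hY hN z
  have i4 := integrable_D h0 hY hM b
  have iY : Integrable (fun t => 2 * pR t (St 0 2) (x, 0) (x + 1, 0)) (iidLaw G) :=
    hY.const_mul 2
  have e1 : ∫ t, ((D t N a x - D t N a' x) +
      B.indicator (fun t => 2 * pR t (St 0 2) (x, 0) (x + 1, 0)) t) ∂(iidLaw G) =
      ∫ t, (D t N a x - D t N a' x) ∂(iidLaw G) +
        ∫ t, B.indicator (fun t => 2 * pR t (St 0 2) (x, 0) (x + 1, 0)) t ∂(iidLaw G) :=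
    integral_add (i1.sub i2) (iY.indicator hBm)
  rw [← integral_indicator hBm, ← e1]
  refine integral_mono_ae (i4.sub i3).abs ((i1.sub i2).add (iY.indicator hBm)) ?_
  filter_upwards [ae_Nn (G := G) h0] with t ht
  have d1 : D t N a' x ≤ D t N z x := D_anti ht (by omega) hza
  have d2 : D t N z x ≤ D t N a x := D_anti ht (by omega) haz
  show |D t M b x - D t N z x| ≤ (D t N a x - D t N a' x) +
    B.indicator (fun t => 2 * pR t (St 0 2) (x, 0) (x + 1, 0)) t
  by_cases htB : t ∈ B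
  · rw [Set.indicator_of_mem htB]
    have h1 := abs_D_le' ht hM b x
    have h2 := abs_D_le' ht hN z x
    have h3 := abs_sub (D t M b x) (D t N z x)
    linarith
  · rw [Set.indicator_of_notMem htB, add_zero]
    rw [hB, Set.mem_union, not_or] at htB
    have h1 := D_le_of_notBad ht hNM htB.1 ha
    have h2 := le_D_of_notBad ht hNM htB.2 ha'
    rw [abs_le]
    constructor <;> linarith

/-- averages that are eventually small give arbitrarily late small terms -/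
theorem exists_small_term {u : ℕ → ℝ} (hu : ∀ n, 0 ≤ u n) {δ : ℝ} (hδ : 0 < δ)
    (h : ∀ᶠ M0 : ℕ in atTop, ∑ M ∈ Finset.range M0, u M ≤ δ * M0) (K : ℕ) :
    ∃ M, K ≤ M ∧ u M ≤ 2 * δ := by
  by_contra hcon
  push Not at hcon
  obtain ⟨M0, h1, h2⟩ := (h.and (eventually_gt_atTop (2 * K))).exists
  have h3 : ∑ M ∈ Finset.Ico K M0, (2 * δ) ≤ ∑ M ∈ Finset.Ico K M0, u M :=
    Finset.sum_le_sum fun M hM => (hcon M (Finset.mem_Ico.1 hM).1).le
  have h4 : ∑ M ∈ Finset.Ico K M0, u M ≤ ∑ M ∈ Finset.range M0, u M := by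
    refine Finset.sum_le_sum_of_subset_of_nonneg ?_ fun n _ _ => hu n
    intro n hn
    exact Finset.mem_range.2 (Finset.mem_Ico.1 hn).2
  rw [Finset.sum_const, Nat.card_Ico, nsmul_eq_mul, Nat.cast_sub (by omega)] at h3
  have h5 : (2 * K : ℝ) < M0 := by exact_mod_cast h2
  nlinarith


/-- **c5.** `L¹`-Cauchy property of the increments in the direction `s`. -/
theorem cauchy_D (h0 : G (Set.Iio 0) = 0)
    (hY : ∀ x : ℤ, Integrable (fun t => pR t (St 0 2) (x, 0) (x + 1, 0)) (iidLaw G))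
    {s : ℝ} {k : ℤ}
    (hL : ∀ ε : ℝ, 0 < ε → ∃ s1 s2 p1 p2 : ℝ, s1 < s ∧ s < s2 ∧ p2 - p1 < ε ∧
      (∀ x : ℤ, Tendsto (fun N : ℕ => ∫ t, D t N (⌊s1 * N⌋ + 0) x ∂(iidLaw G)) atTop
        (𝓝 (-p1))) ∧
      (∀ x : ℤ, Tendsto (fun N : ℕ => ∫ t, D t N (⌊s2 * N⌋ + 1) x ∂(iidLaw G)) atTop
        (𝓝 (-p2))) ∧
      ∀ δ : ℝ, 0 < δ → ∀ x : ℤ, ∃ N1 : ℕ, ∀ N : ℕ, N1 ≤ N → ∀ᶠ M0 : ℕ in atTop,
        ∑ M ∈ Finset.range M0, (iidLaw G).real (BadL s1 s2 N M (⌊s * M⌋ + k) x) ≤ δ * M0)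
    (x k1 k2 : ℤ) {e : ℝ} (he : 0 < e) : ∃ N0 : ℕ, ∀ N M : ℕ, N0 ≤ N → N0 ≤ M →
      ∫ t, |D t N (⌊s * N⌋ + k1) x - D t M (⌊s * M⌋ + k2) x| ∂(iidLaw G) ≤ e := by
  obtain ⟨s1, s2, p1, p2, hs1, hs2, hφ, hm1, hm2, hbad⟩ := hL (e / 4) (by positivity)
  -- uniform integrability
  set Y : Environment → ℝ := fun t => 2 * pR t (St 0 2) (x, 0) (x + 1, 0) with hYdef
  have iY : Integrable Y (iidLaw G) := (hY x).const_mul 2
  have hfin : ∫⁻ t, ENNReal.ofReal (Y t) ∂(iidLaw G) ≠ ∞ :=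
    ((lintegral_ofReal_le_lintegral_enorm Y).trans_lt iY.2).ne
  obtain ⟨δ, hδ, hδY⟩ := exists_pos_setLIntegral_lt_of_measure_lt hfin
    (ε := ENNReal.ofReal (e / 4)) (by simpa using by positivity)
  obtain ⟨δ', hδ', hδδ⟩ : ∃ δ' : ℝ, 0 < δ' ∧ ENNReal.ofReal (16 * δ') < δ := by
    rcases eq_or_ne δ ∞ with rfl | hne
    · exact ⟨1, one_pos, by simp⟩
    · refine ⟨δ.toReal / 32, by have := ENNReal.toReal_pos hδ.ne' hne; positivity, ?_⟩
      rw [ENNReal.ofReal_lt_iff_lt_toReal (by positivity) hne]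
      have := ENNReal.toReal_pos hδ.ne' hne
      linarith
  have hYnn : ∀ᵐ t ∂(iidLaw G), 0 ≤ Y t := by
    filter_upwards [ae_Nn (G := G) h0] with t ht
    have := pR_nonneg ht (St 0 2) (x, 0) (x + 1, 0)
    simp only [hYdef]
    linarith
  have hUI : ∀ S : Set Environment, (iidLaw G).real S ≤ 16 * δ' →
      ∫ t in S, Y t ∂(iidLaw G) ≤ e / 4 := by
    intro S hS
    have h1 : iidLaw G S < δ := by
      refine lt_of_le_of_lt ?_ hδδ
      rw [← ENNReal.ofReal_toReal (measure_ne_top (iidLaw G) S)]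
      exact ENNReal.ofReal_le_ofReal hS
    have h2 := hδY S h1
    rw [integral_eq_lintegral_of_nonneg_ae (ae_restrict_of_ae hYnn)
      iY.aestronglyMeasurable.restrict]
    exact ENNReal.toReal_le_of_le_ofReal (by positivity) h2.le
  obtain ⟨Na, hNa⟩ := hbad δ' hδ' x
  obtain ⟨Nb, hNb⟩ := hbad δ' hδ' (x + 1)
  -- means of the brackets
  have m3 := (hm1 x).sub (hm2 x)
  have m4 : ∀ᶠ N : ℕ in atTop, ∫ t, D t N (⌊s1 * N⌋ + 0) x ∂(iidLaw G) -
      ∫ t, D t N (⌊s2 * N⌋ + 1) x ∂(iidLaw G) < e / 4 :=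
    m3.eventually (gt_mem_nhds (by linarith))
  -- the target is inside the bracket
  have t0 : ∀ k : ℤ, ∀ᶠ N : ℕ in atTop, ((⌊s1 * N⌋ + 0 : ℤ)) ≤ ⌊s * N⌋ + k ∧
      ⌊s * N⌋ + k ≤ ⌊s2 * N⌋ + 1 := by
    intro k
    have a1 : Tendsto (fun N : ℕ => (s - s1) * (N : ℝ)) atTop atTop :=
      tendsto_natCast_atTop_atTop.const_mul_atTop (by linarith)
    have a2 : Tendsto (fun N : ℕ => (s2 - s) * (N : ℝ)) atTop atTop :=
      tendsto_natCast_atTop_atTop.const_mul_atTop (by linarith)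
    filter_upwards [a1.eventually_ge_atTop (|(k : ℝ)| + 2),
      a2.eventually_ge_atTop (|(k : ℝ)| + 2)] with N h1 h2
    have b1 := Int.floor_le (s1 * N)
    have b2 := Int.lt_floor_add_one (s1 * N)
    have b3 := Int.floor_le (s * N)
    have b4 := Int.lt_floor_add_one (s * N)
    have b5 := Int.floor_le (s2 * N)
    have b6 := Int.lt_floor_add_one (s2 * N)
    have b7 := neg_abs_le (k : ℝ)
    have b8 := le_abs_self (k : ℝ)
    have b9 := abs_nonneg (k : ℝ)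
    refine ⟨?_, ?_⟩
    · have : ((⌊s1 * N⌋ + 0 : ℤ) : ℝ) ≤ ((⌊s * N⌋ + k : ℤ) : ℝ) := by push_cast; linarith
      exact_mod_cast this
    · have : ((⌊s * N⌋ + k : ℤ) : ℝ) ≤ ((⌊s2 * N⌋ + 1 : ℤ) : ℝ) := by push_cast; linarith
      exact_mod_cast this
  obtain ⟨Nc, hNc⟩ := Filter.eventually_atTop.1 (m4.and ((t0 k1).and (t0 k2)))
  refine ⟨max (max Na Nb) (max Nc 2), fun N N' hN hN' => ?_⟩
  have aux : ∀ {n : ℕ}, max (max Na Nb) (max Nc 2) ≤ n → Na ≤ n ∧ Nb ≤ n ∧ Nc ≤ n ∧ 2 ≤ n :=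
    fun h => ⟨((le_max_left _ _).trans (le_max_left _ _)).trans h,
      ((le_max_right _ _).trans (le_max_left _ _)).trans h,
      ((le_max_left _ _).trans (le_max_right _ _)).trans h,
      ((le_max_right _ _).trans (le_max_right _ _)).trans h⟩
  obtain ⟨c1, c2, c3, c4⟩ := aux hN
  obtain ⟨c1', c2', c3', c4'⟩ := aux hN'
  -- a common far level
  obtain ⟨M, hM, hsm⟩ := exists_small_term
    (u := fun M => (iidLaw G).real (BadL s1 s2 N M (⌊s * M⌋ + k) x) +
      (iidLaw G).real (BadL s1 s2 N M (⌊s * M⌋ + k) (x + 1)) +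
      ((iidLaw G).real (BadL s1 s2 N' M (⌊s * M⌋ + k) x) +
      (iidLaw G).real (BadL s1 s2 N' M (⌊s * M⌋ + k) (x + 1)))) (fun n => by positivity)
    (δ := 4 * δ') (by positivity) (by
      filter_upwards [hNa N c1, hNb N c2, hNa N' c1', hNb N' c2'] with M0 g1 g2 g3 g4
      rw [Finset.sum_add_distrib, Finset.sum_add_distrib, Finset.sum_add_distrib]
      linarith) (max N N')
  have hNM : N ≤ M := (le_max_left _ _).trans hM
  have hNM' : N' ≤ M := (le_max_right _ _).trans hM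
  have key : ∀ {n : ℕ} (z : ℤ), 2 ≤ n → Nc ≤ n → n ≤ M → (⌊s1 * n⌋ + 0 : ℤ) ≤ z →
      z ≤ ⌊s2 * n⌋ + 1 → (iidLaw G).real (BadL s1 s2 n M (⌊s * M⌋ + k) x) +
        (iidLaw G).real (BadL s1 s2 n M (⌊s * M⌋ + k) (x + 1)) ≤ 16 * δ' →
      ∫ t, |D t M (⌊s * M⌋ + k) x - D t n z x| ∂(iidLaw G) ≤ e / 2 := by
    intro n z g1 g2 g3 g4 g5 g6
    have h1 := integral_abs_le h0 (hY x) (s1 := s1) (s2 := s2) g1 g3 (a := ⌊s1 * n⌋ + 0)
      (a' := ⌊s2 * n⌋ + 1) (z := z) (b := ⌊s * M⌋ + k)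
      (by rw [add_zero]; exact Int.floor_le _)
      (by push_cast; exact (Int.lt_floor_add_one _).le) g4 g5
    have h2 := (hNc n g2).1
    rw [integral_sub (integrable_D h0 (hY x) g1 _) (integrable_D h0 (hY x) g1 _)] at h1
    have h3 := hUI (BadL s1 s2 n M (⌊s * M⌋ + k) x ∪ BadL s1 s2 n M (⌊s * M⌋ + k) (x + 1))
      ((measureReal_union_le _ _).trans g6)
    linarith
  have r1 : 0 ≤ (iidLaw G).real (BadL s1 s2 N M (⌊s * M⌋ + k) x) +
      (iidLaw G).real (BadL s1 s2 N M (⌊s * M⌋ + k) (x + 1)) := by positivity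
  have r2 : 0 ≤ (iidLaw G).real (BadL s1 s2 N' M (⌊s * M⌋ + k) x) +
      (iidLaw G).real (BadL s1 s2 N' M (⌊s * M⌋ + k) (x + 1)) := by positivity
  have q1 := key (⌊s * N⌋ + k1) c4 c3 hNM (hNc N c3).2.1.1 (hNc N c3).2.1.2 (by linarith)
  have q2 := key (⌊s * N'⌋ + k2) c4' c3' hNM' (hNc N' c3').2.2.1 (hNc N' c3').2.2.2 (by linarith)
  have i1 := integrable_D h0 (hY x) (c4.trans hNM) (⌊s * M⌋ + k)
  have i2 := integrable_D h0 (hY x) c4 (⌊s * N⌋ + k1)
  have i3 := integrable_D h0 (hY x) c4' (⌊s * N'⌋ + k2)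
  have h5 : ∫ t, |D t N (⌊s * N⌋ + k1) x - D t N' (⌊s * N'⌋ + k2) x| ∂(iidLaw G) ≤
      ∫ t, (|D t M (⌊s * M⌋ + k) x - D t N (⌊s * N⌋ + k1) x| +
        |D t M (⌊s * M⌋ + k) x - D t N' (⌊s * N'⌋ + k2) x|) ∂(iidLaw G) := by
    refine integral_mono (i2.sub i3).abs ((i1.sub i2).abs.add (i1.sub i3).abs) fun t => ?_
    have := abs_sub_le (D t N (⌊s * N⌋ + k1) x) (D t M (⌊s * M⌋ + k) x) (D t N' (⌊s * N'⌋ + k2) x)
    rw [abs_sub_comm (D t N (⌊s * N⌋ + k1) x) (D t M (⌊s * M⌋ + k) x)] at this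
    exact this
  have e2 : ∫ t, (|D t M (⌊s * M⌋ + k) x - D t N (⌊s * N⌋ + k1) x| +
      |D t M (⌊s * M⌋ + k) x - D t N' (⌊s * N'⌋ + k2) x|) ∂(iidLaw G) =
      ∫ t, |D t M (⌊s * M⌋ + k) x - D t N (⌊s * N⌋ + k1) x| ∂(iidLaw G) +
        ∫ t, |D t M (⌊s * M⌋ + k) x - D t N' (⌊s * N'⌋ + k2) x| ∂(iidLaw G) :=
    integral_add (i1.sub i2).abs (i1.sub i3).abs
  rw [e2] at h5
  linarith

/-- **c5 in 469's names**, from the localisation statement `loc`. -/
theorem Inp.cauchy_of_loc {m : ℝ} {μ : ℝ × ℝ → ℝ} (H : Inp G m μ)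
    (hdiff : ∀ x : ℝ, DifferentiableAt ℝ (fun x : ℝ => μ (x, 1)) x) {s p : ℝ}
    (hd : HasDerivAt (fun x : ℝ => μ (x, 1)) p s) (hp : |p| < μ (1, 0)) (k : ℤ)
    (hloc : ∀ s1 s2 : ℝ, s1 < s → s < s2 → μ (s1, 1) ≠ μ (s, 1) + p * (s1 - s) →
      μ (s2, 1) ≠ μ (s, 1) + p * (s2 - s) → ∀ (x : ℤ) (d : ℝ), 0 < d → ∃ N1 : ℕ, ∀ N ≥ N1,
        CL (fun M => (iidLaw G).real (BadL s1 s2 N M (⌊s * M⌋ + k) x)) d)
    (k1 k2 x : ℤ) : ∀ e > 0, ∃ N0 : ℕ, ∀ N ≥ N0, ∀ M ≥ N0,
      ∫ t, |D t N (⌊s * N⌋ + k1) x - D t M (⌊s * M⌋ + k2) x| ∂(iidLaw G) ≤ e := by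
  intro e he
  have hn := H.norm
  rw [abs_lt] at hp
  obtain ⟨N0, hN0⟩ := cauchy_D (G := G) H.mom.h0
    (fun x => (H.regMom (a := 0) (b := 2) (by norm_num)).int _ (zero_mem_St (by norm_num)) _
      (zero_mem_St (by norm_num))) (s := s) (k := k) (fun ε hε => by
      obtain ⟨s2, p2, a1, a2, a3, a4, -, a5⟩ := exists_right hn hdiff hd hp.2
        (ε := ε / 2) (by positivity)
      obtain ⟨s1, p1, b1, b2, b3, b4, -, b5⟩ := exists_left hn hdiff hd hp.1
        (ε := ε / 2) (by positivity)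
      refine ⟨s1, s2, p1, p2, b1, a1, by linarith, fun x => ?_, fun x => ?_, fun δ hδ x => ?_⟩
      · have := (H.sg_tendsto b2 (0 - x - 1)).neg
        refine this.congr' ?_
        filter_upwards [eventually_ge_atTop 2] with N hN
        rw [H.integral_D (by exact_mod_cast hN)]
        congr 2
        ring
      · have := (H.sg_tendsto a2 (1 - x - 1)).neg
        refine this.congr' ?_
        filter_upwards [eventually_ge_atTop 2] with N hN
        rw [H.integral_D (by exact_mod_cast hN)]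
        congr 2
        ring
      · obtain ⟨N1, hN1⟩ := hloc s1 s2 b1 a1 b5 a5 x (δ / 2) (by positivity)
        refine ⟨N1, fun N hN => ?_⟩
        obtain ⟨J0, hJ0⟩ := hN1 N hN (δ / 2) (by positivity)
        filter_upwards [eventually_ge_atTop J0] with J hJ
        have := hJ0 J hJ
        rwa [add_halves] at this) x k1 k2 he
  exact ⟨N0, fun N hN M hM => hN0 N M hN hM⟩

end integral

end Crest.Agent.R151.BUS
end

-- ▼ part R151/B906d
section

/-!
# R151, block BUS, part d (helper906): from the `L¹` Cauchy property to the label functions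

`CIn G T p` = conclusion of part (c).  Output, for every real `s ∈ T`: the line function
`f0 G s t : ℤ → ℝ` (everywhere defined limsup along a deterministic subsequence `sub G s`,
measurable, depending exactly on the edges in `Hp`, `f0 G s t 0 = 0`), increments `DF G s x t`,
`LimAt G s (-(p s))`.
-/

set_option autoImplicit false
set_option linter.unusedSectionVars false

open MeasureTheory Filter ProbabilityTheory Topology
open Crest.ProbabilityR.FirstPassage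
open Crest.Agent.R151.K

namespace Crest.Agent.R151.BUS

section abstract

variable {Ω : Type*} [MeasurableSpace Ω] {P : Measure Ω} [IsProbabilityMeasure P]

/-- a common almost surely convergent subsequence -/
theorem exists_subseq {ι : Type*} [Countable ι] {X : ι → ℕ → Ω → ℝ}
    (hm : ∀ i N, AEStronglyMeasurable (X i N) P)
    (hC : ∀ i, ∀ ε : ℝ, 0 < ε → ∃ N0 : ℕ, ∀ N, N0 ≤ N → ∀ M, N0 ≤ M →
      ∫⁻ ω, ‖X i N ω - X i M ω‖ₑ ∂P ≤ ENNReal.ofReal ε) :
    ∃ φ : ℕ → ℕ, StrictMono φ ∧ ∀ i, ∀ᵐ ω ∂P, ∃ l, Tendsto (fun j => X i (φ j) ω) atTop (𝓝 l) := by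
  obtain ⟨e, he⟩ := exists_injective_nat ι
  have hpos : ∀ j : ℕ, (0 : ℝ) < (1 / 2) ^ j := fun j => by positivity
  choose N0 hN0 using fun i j => hC i ((1 / 2) ^ j) (hpos j)
  have hfin : ∀ j : ℕ, {i | e i ≤ j}.Finite := fun j =>
    (Set.finite_Iic j).preimage he.injOn
  let ψ : ℕ → ℕ := fun j => (hfin j).toFinset.sup fun i => N0 i j
  have hψ : ∀ i j, e i ≤ j → N0 i j ≤ ψ j := fun i j hij =>
    Finset.le_sup (f := fun i => N0 i j) ((hfin j).mem_toFinset.2 hij)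
  let φ : ℕ → ℕ := fun j => Nat.rec (ψ 0) (fun j n => max (n + 1) (ψ (j + 1))) j
  have hφs : ∀ j, φ (j + 1) = max (φ j + 1) (ψ (j + 1)) := fun j => rfl
  have hφm : StrictMono φ := strictMono_nat_of_lt_succ fun j => by
    rw [hφs]
    exact lt_of_lt_of_le (Nat.lt_succ_self _) (le_max_left _ _)
  have hφψ : ∀ j, ψ j ≤ φ j := by
    intro j
    cases j with
    | zero => exact le_rfl
    | succ j => rw [hφs]; exact le_max_right _ _
  refine ⟨φ, hφm, fun i => ?_⟩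
  have key := Lp.ae_tendsto_of_cauchy_eLpNorm (μ := P) (p := 1)
    (f := fun j ω => X i (φ (j + e i)) ω) (fun j => hm i _) le_rfl
    (B := fun N => 2 * ENNReal.ofReal ((1 / 2) ^ N)) ?_ ?_
  · filter_upwards [key] with ω hω
    obtain ⟨l, hl⟩ := hω
    exact ⟨l, (tendsto_add_atTop_iff_nat (f := fun j => X i (φ j) ω) (e i)).1 hl⟩
  · rw [ENNReal.tsum_mul_left]
    refine ENNReal.mul_ne_top (by simp) ?_
    rw [← ENNReal.ofReal_tsum_of_nonneg (fun n => by positivity) summable_geometric_two]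
    exact ENNReal.ofReal_ne_top
  · intro N n m hn hm'
    rw [eLpNorm_one_eq_lintegral_enorm]
    have h1 : ∀ j, N ≤ j → N0 i (N + e i) ≤ φ (j + e i) := by
      intro j hj
      exact ((hψ i (N + e i) (by omega)).trans (hφψ _)).trans
        (hφm.monotone (by omega))
    refine lt_of_le_of_lt (hN0 i (N + e i) _ (h1 n hn) _ (h1 m hm')) ?_
    refine lt_of_le_of_lt (ENNReal.ofReal_le_ofReal
      (pow_le_pow_of_le_one (by norm_num) (by norm_num) (Nat.le_add_right N (e i)))) ?_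
    have : (0 : ENNReal) < ENNReal.ofReal ((1 / 2) ^ N) := by
      rw [ENNReal.ofReal_pos]; positivity
    calc ENNReal.ofReal ((1 / 2) ^ N) = 1 * ENNReal.ofReal ((1 / 2) ^ N) := (one_mul _).symm
      _ < 2 * ENNReal.ofReal ((1 / 2) ^ N) := by
        rw [ENNReal.mul_lt_mul_iff_left this.ne' ENNReal.ofReal_ne_top]
        norm_num

/-- limits along a subsequence are `L¹` limits along the whole sequence -/
theorem lintegral_sub_lim_le {X : ℕ → Ω → ℝ} {l : Ω → ℝ} {φ : ℕ → ℕ} (hφ : StrictMono φ)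
    (hm : ∀ N, Measurable (X N)) {N0 : ℕ} {ε : ℝ}
    (hC : ∀ N, N0 ≤ N → ∀ M, N0 ≤ M → ∫⁻ ω, ‖X N ω - X M ω‖ₑ ∂P ≤ ENNReal.ofReal ε)
    (hl : ∀ᵐ ω ∂P, Tendsto (fun j => X (φ j) ω) atTop (𝓝 (l ω))) {N : ℕ} (hN : N0 ≤ N) :
    ∫⁻ ω, ‖X N ω - l ω‖ₑ ∂P ≤ ENNReal.ofReal ε := by
  have h1 : ∫⁻ ω, ‖X N ω - l ω‖ₑ ∂P =
      ∫⁻ ω, liminf (fun j => ‖X N ω - X (φ j) ω‖ₑ) atTop ∂P := by
    refine lintegral_congr_ae ?_
    filter_upwards [hl] with ω hω
    refine (Tendsto.liminf_eq ?_).symm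
    exact (continuous_enorm.tendsto _).comp (tendsto_const_nhds.sub hω)
  rw [h1]
  refine (lintegral_liminf_le fun j => ((hm N).sub (hm _)).enorm).trans ?_
  refine liminf_le_of_frequently_le' ?_
  refine Eventually.frequently ?_
  filter_upwards [eventually_ge_atTop N0] with j hj
  exact hC N hN _ (hj.trans (hφ.id_le j))

end abstract

/-! ### deterministic preliminaries -/



theorem mble_f (N z x : ℤ) : Measurable fun t => f t N z x := measurable_pR _ _ _

theorem mble_D (N z x : ℤ) : Measurable fun t => D t N z x :=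
  (mble_f N z (x + 1)).sub (mble_f N z x)

theorem f_hshift (a : ℤ) (t : Environment) (N z x : ℤ) :
    f (A.shift (a, 0) t) N z x = f t N (z + a) (x + a) := by
  unfold f
  rw [LIN.pR_shift t (a, 0) (R := St 0 N) (R' := St 0 N) (fun u => by
    rw [mem_St, mem_St]; simp)]
  simp

theorem D_hshift (a : ℤ) (t : Environment) (N z x : ℤ) :
    D (A.shift (a, 0) t) N z x = D t N (z + a) (x + a) := by
  unfold D
  rw [f_hshift, f_hshift, show x + 1 + a = x + a + 1 by ring]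

theorem f_depHp {t t' : Environment} (h : ∀ e ∈ edgesIn Hp, t e = t' e) (N z x : ℤ) :
    f t N z x = f t' N z x := by
  unfold f
  refine pR_congr (fun a ha b hb => h _ (mem_edgesIn.2 ⟨?_, ?_⟩)) _ _
  · exact St_subset_Hp ha
  · exact St_subset_Hp hb

/-! ### the line functions -/

/-- limsup of the strip functions along `φ` in direction `s`, normalised at `0` -/
noncomputable def LF (φ : ℕ → ℕ) (s : ℝ) (t : Environment) (x : ℤ) : ℝ :=
  limsup (fun j => f t (φ j) ⌊s * (φ j : ℝ)⌋ x - f t (φ j) ⌊s * (φ j : ℝ)⌋ 0) atTop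

theorem LF_zero (φ : ℕ → ℕ) (s : ℝ) (t : Environment) : LF φ s t 0 = 0 := by
  simp [LF]

theorem measurable_LF (φ : ℕ → ℕ) (s : ℝ) (x : ℤ) : Measurable fun t => LF φ s t x :=
  Measurable.limsup fun _ => (mble_f _ _ _).sub (mble_f _ _ _)

theorem LF_dep (φ : ℕ → ℕ) (s : ℝ) {t t' : Environment} (h : ∀ e ∈ edgesIn Hp, t e = t' e) :
    LF φ s t = LF φ s t' := by
  funext x
  unfold LF
  simp only [f_depHp h]

/-- good subsequences -/
def HasSub (G : Measure ℝ) (s : ℝ) (φ : ℕ → ℕ) : Prop :=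
  StrictMono φ ∧ ∀ k x : ℤ, ∀ᵐ t ∂(iidLaw G),
    ∃ l, Tendsto (fun j => D t (φ j) (⌊s * (φ j : ℝ)⌋ + k) x) atTop (𝓝 l)

open scoped Classical in
/-- the deterministic subsequence of direction `s` -/
noncomputable def sub (G : Measure ℝ) (s : ℝ) : ℕ → ℕ :=
  if h : ∃ φ, HasSub G s φ then h.choose else id

/-- **the line function of direction `s`** -/
noncomputable def f0 (G : Measure ℝ) (s : ℝ) (t : Environment) (x : ℤ) : ℝ := LF (sub G s) s t x

/-- its increments -/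
noncomputable def DF (G : Measure ℝ) (s : ℝ) (x : ℤ) (t : Environment) : ℝ := H.inc (f0 G s t) x

variable (G : Measure ℝ)

theorem f0_zero (s : ℝ) (t : Environment) : f0 G s t 0 = 0 := LF_zero _ _ _

theorem measurable_f0 (s : ℝ) (x : ℤ) : Measurable fun t => f0 G s t x := measurable_LF _ _ _

theorem f0_dep (s : ℝ) {t t' : Environment} (h : ∀ e ∈ edgesIn Hp, t e = t' e) :
    f0 G s t = f0 G s t' := LF_dep _ _ h

theorem measurable_DF (s : ℝ) (x : ℤ) : Measurable (DF G s x) :=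
  (measurable_f0 G s (x + 1)).sub (measurable_f0 G s x)


variable {G}

/-- if all the increments converge along `φ` then they converge to the increments of `LF` -/
theorem tendsto_LF {φ : ℕ → ℕ} {s : ℝ} {t : Environment}
    (h : ∀ x : ℤ, ∃ l, Tendsto (fun j => D t (φ j) ⌊s * (φ j : ℝ)⌋ x) atTop (𝓝 l)) :
    (∀ x, Tendsto (fun j => f t (φ j) ⌊s * (φ j : ℝ)⌋ x - f t (φ j) ⌊s * (φ j : ℝ)⌋ 0) atTop
      (𝓝 (LF φ s t x))) ∧
    ∀ x, Tendsto (fun j => D t (φ j) ⌊s * (φ j : ℝ)⌋ x) atTop (𝓝 (H.inc (LF φ s t) x)) := by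
  have key : ∀ x : ℤ, ∃ l, Tendsto
      (fun j => f t (φ j) ⌊s * (φ j : ℝ)⌋ x - f t (φ j) ⌊s * (φ j : ℝ)⌋ 0) atTop (𝓝 l) := by
    intro x
    induction x using Int.induction_on with
    | zero => exact ⟨0, by simp⟩
    | succ i ih =>
      obtain ⟨l, hl⟩ := ih
      obtain ⟨l', hl'⟩ := h i
      refine ⟨l' + l, (hl'.add hl).congr fun j => ?_⟩
      unfold D
      ring
    | pred i ih =>
      obtain ⟨l, hl⟩ := ih
      obtain ⟨l', hl'⟩ := h (-i - 1)
      refine ⟨l - l', (hl.sub hl').congr fun j => ?_⟩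
      unfold D
      rw [show -(i : ℤ) - 1 + 1 = -i by ring]
      ring
  have h1 : ∀ x, Tendsto (fun j => f t (φ j) ⌊s * (φ j : ℝ)⌋ x - f t (φ j) ⌊s * (φ j : ℝ)⌋ 0)
      atTop (𝓝 (LF φ s t x)) := by
    intro x
    obtain ⟨l, hl⟩ := key x
    have : LF φ s t x = l := hl.limsup_eq
    rw [this]
    exact hl
  refine ⟨h1, fun x => ?_⟩
  refine ((h1 (x + 1)).sub (h1 x)).congr fun j => ?_
  unfold D
  ring

/-- **What we know about the line function of direction `s`** (`c` is its slope). -/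
structure LimAt (G : Measure ℝ) (s c : ℝ) : Prop where
  sub_mono : StrictMono (sub G s)
  lim : ∀ᵐ t ∂(iidLaw G), ∀ k x : ℤ,
    Tendsto (fun j => D t (sub G s j) (⌊s * (sub G s j : ℝ)⌋ + k) x) atTop (𝓝 (DF G s x t))
  L1 : ∀ k x : ℤ, Tendsto (fun N : ℕ => ∫⁻ t, ‖D t N (⌊s * (N : ℝ)⌋ + k) x - DF G s x t‖ₑ
    ∂(iidLaw G)) atTop (𝓝 0)
  int : ∀ x, Integrable (DF G s x) (iidLaw G)
  mean : ∀ x, ∫ t, DF G s x t ∂(iidLaw G) = c

/-- **conclusion of part (c)**: directions `s ∈ T`, slopes `-(p s)` -/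
structure CIn (G : Measure ℝ) (T : Set ℝ) (p : ℝ → ℝ) : Prop where
  int : ∀ᶠ N : ℕ in atTop, ∀ z x : ℤ, Integrable (fun t => D t N z x) (iidLaw G)
  mean : ∀ s ∈ T, ∀ k : ℤ, Tendsto (fun N : ℕ => ∫ t, D t N (⌊s * (N : ℝ)⌋ + k) 0 ∂(iidLaw G))
    atTop (𝓝 (-(p s)))
  cauchy : ∀ s ∈ T, ∀ k : ℤ, ∀ ε : ℝ, 0 < ε → ∃ N0 : ℕ, ∀ N, N0 ≤ N → ∀ M, N0 ≤ M →
    ∫ t, |D t N (⌊s * (N : ℝ)⌋ + k) 0 - D t M ⌊s * (M : ℝ)⌋ 0| ∂(iidLaw G) ≤ ε

section limAt

variable [IsProbabilityMeasure G]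

theorem integral_D_hshift (N z x : ℤ) :
    ∫ t, D t N z x ∂(iidLaw G) = ∫ t, D t N (z - x) 0 ∂(iidLaw G) := by
  have h := (A.mp_shift G (x, 0)).integral_comp'
    (f := MeasurableEquiv.mk (Equiv.mk (A.shift (x, 0)) (A.shift (-x, 0))
      (fun t => by
        rw [A.shift_shift]
        have : ((-x, 0) + (x, 0) : ℤ × ℤ) = 0 := by ext <;> simp
        rw [this, A.shift_zero])
      (fun t => by
        rw [A.shift_shift]
        have : ((x, 0) + (-x, 0) : ℤ × ℤ) = 0 := by ext <;> simp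
        rw [this, A.shift_zero])) (A.measurable_shift _) (A.measurable_shift _))
    (fun t => D t N (z - x) 0)
  rw [← h]
  refine integral_congr_ae (Eventually.of_forall fun t => ?_)
  change D t N z x = D (A.shift (x, 0) t) N (z - x) 0
  rw [D_hshift]
  simp

theorem lintegral_D_hshift (N M z w x : ℤ) :
    ∫⁻ t, ‖D t N z x - D t M w x‖ₑ ∂(iidLaw G) =
      ∫⁻ t, ‖D t N (z - x) 0 - D t M (w - x) 0‖ₑ ∂(iidLaw G) := by
  rw [← (A.mp_shift G (x, 0)).lintegral_comp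
    (f := fun t => ‖D t N (z - x) 0 - D t M (w - x) 0‖ₑ)
    ((mble_D _ _ _).sub (mble_D _ _ _)).enorm]
  refine lintegral_congr fun t => ?_
  rw [D_hshift, D_hshift]
  simp

theorem lint_tri {Ω : Type*} [MeasurableSpace Ω] {P : Measure Ω} {X Y Z : Ω → ℝ}
    (hX : Measurable X) (hY : Measurable Y) :
    ∫⁻ ω, ‖X ω - Z ω‖ₑ ∂P ≤ ∫⁻ ω, ‖X ω - Y ω‖ₑ ∂P + ∫⁻ ω, ‖Y ω - Z ω‖ₑ ∂P := by
  have hm : Measurable fun ω => ‖X ω - Y ω‖ₑ := (hX.sub hY).enorm
  rw [← lintegral_add_left hm]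
  refine lintegral_mono fun ω => ?_
  have : X ω - Z ω = (X ω - Y ω) + (Y ω - Z ω) := by ring
  rw [this]
  exact enorm_add_le _ _

theorem lint_comm {Ω : Type*} [MeasurableSpace Ω] {P : Measure Ω} (X Y : Ω → ℝ) :
    ∫⁻ ω, ‖X ω - Y ω‖ₑ ∂P = ∫⁻ ω, ‖Y ω - X ω‖ₑ ∂P :=
  lintegral_congr fun ω => by rw [← enorm_neg, neg_sub]

variable {T : Set ℝ} {p : ℝ → ℝ} {s : ℝ}

/-- the Cauchy property in `lintegral` form, all base points -/
theorem CIn.cauchy' (h : CIn G T p) (hs : s ∈ T) (k x : ℤ) {ε : ℝ} (hε : 0 < ε) :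
    ∃ N0 : ℕ, ∀ N, N0 ≤ N → ∀ M, N0 ≤ M →
      ∫⁻ t, ‖D t N (⌊s * (N : ℝ)⌋ + k) x - D t M (⌊s * (M : ℝ)⌋) x‖ₑ ∂(iidLaw G) ≤
        ENNReal.ofReal ε := by
  obtain ⟨N1, h1⟩ := h.cauchy s hs (k - x) (ε / 2) (half_pos hε)
  obtain ⟨N2, h2⟩ := h.cauchy s hs (-x) (ε / 2) (half_pos hε)
  obtain ⟨N3, h3⟩ := eventually_atTop.1 h.int
  have conv : ∀ (k : ℤ) (N M : ℕ), N3 ≤ N → N3 ≤ M → ∀ e : ℝ,
      ∫ t, |D t N (⌊s * (N : ℝ)⌋ + k) 0 - D t M ⌊s * (M : ℝ)⌋ 0| ∂(iidLaw G) ≤ e →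
      ∫⁻ t, ‖D t N (⌊s * (N : ℝ)⌋ + k) 0 - D t M ⌊s * (M : ℝ)⌋ 0‖ₑ ∂(iidLaw G) ≤
        ENNReal.ofReal e := by
    intro k N M hN hM e he
    have hi : Integrable (fun t => D t N (⌊s * (N : ℝ)⌋ + k) 0 - D t M ⌊s * (M : ℝ)⌋ 0)
        (iidLaw G) := (h3 N hN _ _).sub (h3 M hM _ _)
    rw [← ofReal_integral_norm_eq_lintegral_enorm hi]
    exact ENNReal.ofReal_le_ofReal he
  refine ⟨max (max N1 N2) N3, fun N hN M hM => ?_⟩
  have a1 : N1 ≤ N := (le_max_left _ _).trans ((le_max_left _ _).trans hN)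
  have a2 : N1 ≤ M := (le_max_left _ _).trans ((le_max_left _ _).trans hM)
  have a3 : N2 ≤ M := (le_max_right _ _).trans ((le_max_left _ _).trans hM)
  have a4 : N3 ≤ N := (le_max_right _ _).trans hN
  have a5 : N3 ≤ M := (le_max_right _ _).trans hM
  rw [lintegral_D_hshift]
  refine (lint_tri (Y := fun t => D t M ⌊s * (M : ℝ)⌋ 0) (mble_D _ _ _)
    (mble_D _ _ _)).trans ?_
  have e1 := conv (k - x) N M a4 a5 _ (h1 N a1 M a2)
  have e2 := conv (-x) M M a5 a5 _ (h2 M a3 M a3)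
  rw [lint_comm (fun t => D t M ⌊s * (M : ℝ)⌋ 0)]
  rw [add_sub_assoc]
  calc _ ≤ ENNReal.ofReal (ε / 2) + ENNReal.ofReal (ε / 2) := add_le_add e1 (by
        rw [sub_eq_add_neg]; exact e2)
    _ = ENNReal.ofReal ε := by
        rw [← ENNReal.ofReal_add (by positivity) (by positivity), add_halves]

/-- each offset gives a Cauchy sequence -/
theorem CIn.cauchy'' (h : CIn G T p) (hs : s ∈ T) (k x : ℤ) {ε : ℝ} (hε : 0 < ε) :
    ∃ N0 : ℕ, ∀ N, N0 ≤ N → ∀ M, N0 ≤ M →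
      ∫⁻ t, ‖D t N (⌊s * (N : ℝ)⌋ + k) x - D t M (⌊s * (M : ℝ)⌋ + k) x‖ₑ ∂(iidLaw G) ≤
        ENNReal.ofReal ε := by
  obtain ⟨N1, h1⟩ := h.cauchy' hs k x (half_pos hε)
  refine ⟨N1, fun N hN M hM => ?_⟩
  refine (lint_tri (Y := fun t => D t M ⌊s * (M : ℝ)⌋ x) (mble_D _ _ _)
    (mble_D _ _ _)).trans ?_
  rw [lint_comm (fun t => D t M ⌊s * (M : ℝ)⌋ x)]
  calc _ ≤ ENNReal.ofReal (ε / 2) + ENNReal.ofReal (ε / 2) :=
        add_le_add (h1 N hN M hM) (h1 M hM M hM)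
    _ = ENNReal.ofReal ε := by
        rw [← ENNReal.ofReal_add (by positivity) (by positivity), add_halves]

theorem CIn.hasSub (h : CIn G T p) (hs : s ∈ T) : HasSub G s (sub G s) := by
  have hex : ∃ φ, HasSub G s φ := by
    obtain ⟨φ, h1, h2⟩ := exists_subseq (P := iidLaw G)
      (X := fun (i : ℤ × ℤ) (N : ℕ) t => D t N (⌊s * (N : ℝ)⌋ + i.1) i.2)
      (fun i N => (mble_D _ _ _).aestronglyMeasurable)
      (fun i ε hε => h.cauchy'' hs i.1 i.2 hε)
    exact ⟨φ, h1, fun k x => h2 (k, x)⟩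
  unfold sub
  rw [dif_pos hex]
  exact hex.choose_spec

theorem enn_zero_of_le {a : ENNReal} (h : ∀ ε : ℝ, 0 < ε → a ≤ ENNReal.ofReal ε) :
    a = 0 := by
  by_contra hne
  have hpos : 0 < a := pos_iff_ne_zero.2 hne
  obtain ⟨b, hb0, hba⟩ := exists_between hpos
  have hbt : b ≠ ⊤ := (hba.trans_le le_top).ne
  have := h b.toReal (ENNReal.toReal_pos hb0.ne' hbt)
  rw [ENNReal.ofReal_toReal hbt] at this
  exact absurd this (not_le.2 hba)

theorem CIn.limAt (h : CIn G T p) (hs : s ∈ T) : LimAt G s (-(p s)) := by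
  have hsub := h.hasSub hs
  have hall : ∀ᵐ t ∂(iidLaw G), ∀ k x : ℤ,
      ∃ l, Tendsto (fun j => D t (sub G s j) (⌊s * (sub G s j : ℝ)⌋ + k) x) atTop (𝓝 l) :=
    ae_all_iff.2 fun k => ae_all_iff.2 fun x => hsub.2 k x
  have h0 : ∀ᵐ t ∂(iidLaw G), ∀ x : ℤ,
      Tendsto (fun j => D t (sub G s j) (⌊s * (sub G s j : ℝ)⌋) x) atTop (𝓝 (DF G s x t)) := by
    filter_upwards [hall] with t ht
    exact (tendsto_LF (φ := sub G s) (s := s) fun x => by simpa using ht 0 x).2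
  -- offsets have the same limit
  have hk : ∀ k x : ℤ, ∀ᵐ t ∂(iidLaw G),
      Tendsto (fun j => D t (sub G s j) (⌊s * (sub G s j : ℝ)⌋ + k) x) atTop
        (𝓝 (DF G s x t)) := by
    intro k x
    set l : Environment → ℝ := fun t =>
      limsup (fun j => D t (sub G s j) (⌊s * (sub G s j : ℝ)⌋ + k) x) atTop with hl
    have hlm : Measurable l := Measurable.limsup fun _ => mble_D _ _ _
    have hlt : ∀ᵐ t ∂(iidLaw G),
        Tendsto (fun j => D t (sub G s j) (⌊s * (sub G s j : ℝ)⌋ + k) x) atTop (𝓝 (l t)) := by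
      filter_upwards [hall] with t ht
      obtain ⟨a, ha⟩ := ht k x
      have : l t = a := ha.limsup_eq
      rwa [this]
    have hz : ∫⁻ t, ‖l t - DF G s x t‖ₑ ∂(iidLaw G) = 0 := by
      refine enn_zero_of_le fun ε hε => ?_
      have hε3 : 0 < ε / 3 := by positivity
      obtain ⟨N1, h1⟩ := h.cauchy'' hs k x hε3
      obtain ⟨N2, h2⟩ := h.cauchy'' hs 0 x hε3
      obtain ⟨N3, h3⟩ := h.cauchy' hs k x hε3
      set N := max (max N1 N2) N3
      have b1 : N1 ≤ N := (le_max_left _ _).trans (le_max_left _ _)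
      have b2 : N2 ≤ N := (le_max_right _ _).trans (le_max_left _ _)
      have b3 : N3 ≤ N := le_max_right _ _
      have c1 := lintegral_sub_lim_le (P := iidLaw G) hsub.1
        (X := fun N t => D t N (⌊s * (N : ℝ)⌋ + k) x) (fun N => mble_D _ _ _) h1 hlt b1
      have c2 := lintegral_sub_lim_le (P := iidLaw G) hsub.1
        (X := fun N t => D t N (⌊s * (N : ℝ)⌋ + 0) x) (l := DF G s x)
        (fun N => mble_D _ _ _) h2 (by simpa using h0.mono fun t ht => ht x) b2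
      have c3 := h3 N b3 N b3
      refine (lint_tri (Y := fun t => D t N (⌊s * (N : ℝ)⌋ + k) x) hlm
        (mble_D _ _ _)).trans ?_
      rw [lint_comm l]
      refine (add_le_add le_rfl (lint_tri (Y := fun t => D t N (⌊s * (N : ℝ)⌋ + 0) x)
        (mble_D _ _ _) (mble_D _ _ _))).trans ?_
      simp only [add_zero] at c2 ⊢
      calc _ ≤ ENNReal.ofReal (ε / 3) + (ENNReal.ofReal (ε / 3) + ENNReal.ofReal (ε / 3)) :=
            add_le_add c1 (add_le_add c3 c2)
        _ = ENNReal.ofReal ε := by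
            rw [← ENNReal.ofReal_add (by positivity) (by positivity),
              ← ENNReal.ofReal_add (by positivity) (by positivity)]
            congr 1
            ring
    have hm : Measurable fun t => ‖l t - DF G s x t‖ₑ := (hlm.sub (measurable_DF G s x)).enorm
    rw [lintegral_eq_zero_iff hm] at hz
    filter_upwards [hz, hlt] with t h1 h2
    have : l t = DF G s x t := by
      have h3 : ‖l t - DF G s x t‖ₑ = 0 := h1
      rw [enorm_eq_zero, sub_eq_zero] at h3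
      exact h3
    rwa [← this]
  have hL1 : ∀ k x : ℤ, Tendsto (fun N : ℕ => ∫⁻ t, ‖D t N (⌊s * (N : ℝ)⌋ + k) x - DF G s x t‖ₑ
      ∂(iidLaw G)) atTop (𝓝 0) := by
    intro k x
    rw [ENNReal.tendsto_atTop_zero]
    intro ε hε
    obtain ⟨e, he0, he⟩ : ∃ e : ℝ, 0 < e ∧ ENNReal.ofReal e ≤ ε := by
      rcases eq_or_ne ε ⊤ with rfl | htop
      · exact ⟨1, one_pos, le_top⟩
      · exact ⟨ε.toReal, ENNReal.toReal_pos hε.ne' htop, (ENNReal.ofReal_toReal htop).le⟩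
    obtain ⟨N1, h1⟩ := h.cauchy'' hs k x he0
    exact ⟨N1, fun N hN => (lintegral_sub_lim_le (P := iidLaw G) hsub.1
      (X := fun N t => D t N (⌊s * (N : ℝ)⌋ + k) x) (fun N => mble_D _ _ _) h1
      (hk k x) hN).trans he⟩
  have hint : ∀ x, Integrable (DF G s x) (iidLaw G) := by
    intro x
    obtain ⟨N, hN1, hN2⟩ := (h.int.and ((hL1 0 x).eventually_lt_const
      (show (0 : ENNReal) < 1 by norm_num))).exists
    have h1 := hN1 (⌊s * (N : ℝ)⌋ + 0) x
    have h2 : Integrable (fun t => D t N (⌊s * (N : ℝ)⌋ + 0) x - DF G s x t) (iidLaw G) :=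
      ⟨((mble_D _ _ _).sub (measurable_DF G s x)).aestronglyMeasurable,
        hN2.trans ENNReal.one_lt_top⟩
    refine (h1.sub h2).congr (Eventually.of_forall fun t => ?_)
    simp
  refine ⟨hsub.1, ae_all_iff.2 fun k => ae_all_iff.2 fun x => hk k x, hL1, hint, fun x => ?_⟩
  have h1 := tendsto_integral_of_L1 (DF G s x) (hint x).aestronglyMeasurable
    (F := fun (N : ℕ) t => D t N (⌊s * (N : ℝ)⌋ + x) x) (l := atTop)
    (h.int.mono fun N hN => hN _ _) (hL1 x x)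
  have h2 : Tendsto (fun N : ℕ => ∫ t, D t N (⌊s * (N : ℝ)⌋ + x) x ∂(iidLaw G)) atTop
      (𝓝 (-(p s))) := by
    refine (h.mean s hs 0).congr fun N => ?_
    rw [integral_D_hshift N (⌊s * (N : ℝ)⌋ + x) x]
    simp
  exact tendsto_nhds_unique h1 h2

end limAt

end Crest.Agent.R151.BUS
end

-- ▼ part R151/B469g
section

/-!
# R151, block BUS (helper469), part g: `CIn` (906) and `Loc` (763) from the localisation
-/

set_option autoImplicit false
set_option linter.unusedSectionVars false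

open MeasureTheory Filter ProbabilityTheory
open Crest.ProbabilityR.FirstPassage
open Crest.Agent.R151.K

namespace Crest.Agent.R151.BUS

variable {G : Measure ℝ} [IsProbabilityMeasure G] {m : ℝ} {μ : ℝ × ℝ → ℝ}

/-- **conclusion of part (c)** in 906's form -/
theorem Inp.cIn (H : Inp G m μ) (h : D411.SmoothNorm μ) : CIn G (LIN.Dir μ) (ph1 μ) where
  int := by
    filter_upwards [eventually_ge_atTop 2] with N hN z x
    exact H.int_D (by exact_mod_cast hN) z x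
  mean := by
    intro s _ k
    have h1 := (H.sg_tendsto (hasDerivAt_ph h s) (k - 1)).neg
    refine h1.congr' ?_
    filter_upwards [eventually_ge_atTop 2] with N hN
    rw [H.integral_D (by exact_mod_cast hN)]
    congr 2
    ring
  cauchy := by
    intro s hs k ε hε
    have hdiff : ∀ x : ℝ, DifferentiableAt ℝ (fun x : ℝ => μ (x, 1)) x :=
      fun x => (hasDerivAt_ph h x).differentiableAt
    obtain ⟨N0, hN0⟩ := H.cauchy_of_loc hdiff (hasDerivAt_ph h s) hs 0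
      (fun s1 s2 h1 h2 h3 h4 x d hd => by
        obtain ⟨N1, hN1⟩ := H.loc (hasDerivAt_ph h s) h1 h2 h3 h4 0 x hd
        refine ⟨N1, fun N hN => (hN1 N hN).mono ⟨0, fun M _ => ?_⟩⟩
        refine ENNReal.toReal_mono (measure_ne_top _ _) (measure_mono ?_)
        rintro t ⟨w, hw, hw2⟩
        exact ⟨w, hw, hw2.le⟩) k 0 0 ε hε
    refine ⟨N0, fun N hN M hM => ?_⟩
    have := hN0 N hN M hM
    rwa [add_zero] at this

/-- **localisation** in 763's form -/
theorem Inp.locAll (H : Inp G m μ) (h : D411.SmoothNorm μ) : LIN.Loc G μ := by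
  intro τ s1 s2 hτ h1 h2 h3 h4
  have key : ∀ δ : ℝ, 0 < δ → ∀ᶠ N : ℕ in atTop, ∃ᶠ M : ℕ in atTop,
      (iidLaw G).real (Off s1 s2 τ 0 N M 0) ≤ δ := by
    intro δ hδ
    obtain ⟨N1, hN1⟩ := H.loc (hasDerivAt_ph h τ) h1 h2 (contact_ne h h3) (contact_ne h h4)
      0 0 (half_pos hδ)
    filter_upwards [eventually_ge_atTop N1] with N hN
    rw [frequently_atTop]
    intro M0
    obtain ⟨M, hM, hM2⟩ := (hN1 N hN).exists_le (half_pos hδ) M0
    exact ⟨M, hM, by linarith⟩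
  have hsp : ∀ N : ℤ, St 0 N = LIN.Sp 0 N := fun N => rfl
  constructor
  · intro δ hδ
    filter_upwards [key δ hδ] with N hN
    refine hN.mono fun M hM => le_trans ?_ hM
    refine ENNReal.toReal_mono (measure_ne_top _ _) (measure_mono ?_)
    rintro t ⟨w, hw, hw2⟩
    refine ⟨w, Or.inl hw, ?_⟩
    simp only [tgt, add_zero]
    exact hw2
  · intro δ hδ
    filter_upwards [key δ hδ] with N hN
    refine hN.mono fun M hM => le_trans ?_ hM
    refine ENNReal.toReal_mono (measure_ne_top _ _) (measure_mono ?_)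
    rintro t ⟨w, hw, hw2⟩
    refine ⟨w, Or.inr hw, ?_⟩
    simp only [tgt, add_zero]
    exact hw2

end Crest.Agent.R151.BUS
end

-- ▼ part R151/B906e
section

/-!
# R151, block BUS, part e (helper906): properties of the line functions `f0 G s`

Everything from `LimAt G s c` (`B906d`):
`anti`, `bound`, `cov`, `strip`, `slope` (Birkhoff), `conv`, `slopeR`, `slopeL` (763's `LineFns`).
-/

set_option autoImplicit false
set_option linter.unusedSectionVars false

open MeasureTheory Filter ProbabilityTheory Topology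
open Crest.ProbabilityR.FirstPassage
open Crest.Agent.R151.K

namespace Crest.Agent.R151.BUS

variable {G : Measure ℝ} [IsProbabilityMeasure G] {s c s' c' : ℝ}

theorem LimAt.lim0 (h : LimAt G s c) : ∀ᵐ t ∂(iidLaw G), ∀ x : ℤ,
    Tendsto (fun j => D t (sub G s j) ⌊s * (sub G s j : ℝ)⌋ x) atTop (𝓝 (DF G s x t)) := by
  filter_upwards [h.lim] with t ht x
  simpa using ht 0 x



/-- bound by the boundary passage time -/
theorem LimAt.bound (h0 : G (Set.Iio 0) = 0) (h : LimAt G s c) :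
    ∀ᵐ t ∂(iidLaw G), ∀ x, |DF G s x t| ≤ pR t Hp (x, 0) (x + 1, 0) := by
  filter_upwards [h.lim0, K.ae_Nn (G := G) h0] with t ht hn x
  refine le_of_forall_pos_le_add fun ε hε => ?_
  obtain ⟨M, hM⟩ := SL9.exists_pt_strip_le (t := t) hn (k := 0) (x := (x, 0)) (y := (x + 1, 0))
    le_rfl le_rfl hε
  have e1 : pR t Hp (x, 0) (x + 1, 0) = pt (reg (SL9.half 0)) t (x, 0) (x + 1, 0) :=
    pR_eq_pt (R := Hp) (show (0 : ℤ) ≤ 0 from le_rfl) t
  rw [e1]
  refine le_of_tendsto (ht x).abs ?_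
  filter_upwards [h.sub_mono.tendsto_atTop.eventually_ge_atTop M.toNat] with j hj
  have hj0 : (0 : ℤ) ≤ (sub G s j : ℤ) := by positivity
  refine (abs_D_le hn hj0).trans ?_
  have e2 : pR t (St 0 (sub G s j)) (x, 0) (x + 1, 0) =
      pt (reg (SL9.strip 0 (sub G s j))) t (x, 0) (x + 1, 0) :=
    pR_eq_pt (R := St 0 (sub G s j)) (zero_mem_St hj0) t
  rw [e2]
  exact hM _ (by omega)

/-- horizontal covariance -/
theorem LimAt.cov (h : LimAt G s c) : ∀ᵐ t ∂(iidLaw G), ∀ a x : ℤ,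
    DF G s x (A.shift (a, 0) t) = DF G s (x + a) t := by
  rw [ae_all_iff]
  intro a
  filter_upwards [h.lim, (A.mp_shift G (a, 0)).quasiMeasurePreserving.ae h.lim0] with t h1 h2 x
  refine tendsto_nhds_unique (h2 x) ((h1 a (x + a)).congr fun j => ?_)
  rw [D_hshift]



/-! ### slopes -/

theorem shift_iter (z : ℤ × ℤ) (n : ℕ) (t : Environment) :
    (A.shift z)^[n] t = A.shift (n • z) t := by
  induction n with
  | zero => simp
  | succ n ih =>
    rw [Function.iterate_succ_apply', ih, A.shift_shift, succ_nsmul']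

theorem sum_inc_neg906 (g : ℤ → ℝ) (n : ℕ) :
    ∑ i ∈ Finset.range n, H.inc g (-1 - i) = g 0 - g (-n) := by
  induction n with
  | zero => simp
  | succ n ih =>
    rw [Finset.sum_range_succ, ih]
    unfold H.inc
    push_cast
    rw [show (-1 - (n : ℤ) + 1) = -n by ring, show (-1 - (n : ℤ)) = -(n + 1) by ring]
    ring

theorem LimAt.slope_top (h : LimAt G s c) : ∀ᵐ t ∂(iidLaw G),
    Tendsto (fun n : ℕ => f0 G s t n / n) atTop (𝓝 c) := by
  have hb := R88.birkhoff_real (ergodic_shift (G := G) (z := (1, 0)) (by simp))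
    (measurable_DF G s 0) (h.int 0)
  filter_upwards [hb, h.cov] with t ht hc
  rw [h.mean] at ht
  refine ht.congr fun n => ?_
  rw [birkhoffSum, inv_mul_eq_div]
  congr 1
  have h1 : ∀ i ∈ Finset.range n, DF G s 0 ((A.shift (1, 0))^[i] t) =
      H.inc (f0 G s t) ((0 : ℤ) + i) := by
    intro i _
    rw [shift_iter]
    have : (i • (1, 0) : ℤ × ℤ) = ((i : ℤ), 0) := by ext <;> simp
    rw [this, hc i 0]
    rfl
  rw [Finset.sum_congr rfl h1, H.sum_inc, f0_zero]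
  simp

theorem LimAt.slope_bot (h : LimAt G s c) : ∀ᵐ t ∂(iidLaw G),
    Tendsto (fun n : ℕ => f0 G s t (-n) / n) atTop (𝓝 (-c)) := by
  have hb := R88.birkhoff_real (ergodic_shift (G := G) (z := (-1, 0)) (by simp))
    (measurable_DF G s (-1)) (h.int (-1))
  filter_upwards [hb, h.cov] with t ht hc
  rw [h.mean] at ht
  refine ht.neg.congr fun n => ?_
  rw [birkhoffSum, inv_mul_eq_div, ← neg_div]
  congr 1
  have h1 : ∀ i ∈ Finset.range n, DF G s (-1) ((A.shift (-1, 0))^[i] t) =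
      H.inc (f0 G s t) (-1 - i) := by
    intro i _
    rw [shift_iter]
    have : (i • (-1, 0) : ℤ × ℤ) = (-(i : ℤ), 0) := by ext <;> simp
    rw [this, hc (-i) (-1)]
    rfl
  rw [Finset.sum_congr rfl h1, sum_inc_neg906, f0_zero]
  ring



/-! ### convergence in probability (763's `LineFns`) -/

theorem LimAt.L1_seq (h : LimAt G s c) (C : ℤ) (z : ℕ → ℤ)
    (hz : ∀ N : ℕ, |z N - ⌊s * (N : ℝ)⌋| ≤ C) (x : ℤ) :
    Tendsto (fun N : ℕ => ∫⁻ t, ‖D t N (z N) x - DF G s x t‖ₑ ∂(iidLaw G)) atTop (𝓝 0) := by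
  have h1 : Tendsto (fun N : ℕ => ∑ k ∈ Finset.Icc (-C) C,
      ∫⁻ t, ‖D t N (⌊s * (N : ℝ)⌋ + k) x - DF G s x t‖ₑ ∂(iidLaw G)) atTop (𝓝 0) := by
    have := tendsto_finsetSum (Finset.Icc (-C) C) fun k _ => h.L1 k x
    simpa using this
  refine tendsto_of_tendsto_of_tendsto_of_le_of_le tendsto_const_nhds h1 (fun _ => zero_le)
    fun N => ?_
  have h2 := hz N
  rw [abs_le] at h2
  have hmem : z N - ⌊s * (N : ℝ)⌋ ∈ Finset.Icc (-C) C := Finset.mem_Icc.2 h2
  refine le_trans (le_of_eq ?_) (Finset.single_le_sum (f := fun k : ℤ =>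
    ∫⁻ t, ‖D t N (⌊s * (N : ℝ)⌋ + k) x - DF G s x t‖ₑ ∂(iidLaw G)) (fun _ _ => zero_le) hmem)
  simp only [add_sub_cancel]

theorem LimAt.L1_f (h : LimAt G s c) (C : ℤ) (z : ℕ → ℤ)
    (hz : ∀ N : ℕ, |z N - ⌊s * (N : ℝ)⌋| ≤ C) (x : ℤ) :
    Tendsto (fun N : ℕ => ∫⁻ t, ‖(f t N (z N) x - f t N (z N) 0) - f0 G s t x‖ₑ ∂(iidLaw G))
      atTop (𝓝 0) := by
  have hm : ∀ (N : ℕ) (x : ℤ), Measurable fun t =>
      ‖(f t N (z N) x - f t N (z N) 0) - f0 G s t x‖ₑ := fun N x =>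
    (((mble_f _ _ _).sub (mble_f _ _ _)).sub (measurable_f0 G s x)).enorm
  induction x using Int.induction_on with
  | zero => simp [f0_zero]
  | succ i ih =>
    have h1 := ih.add (h.L1_seq C z hz i)
    rw [add_zero] at h1
    refine tendsto_of_tendsto_of_tendsto_of_le_of_le tendsto_const_nhds h1 (fun _ => zero_le)
      fun N => ?_
    simp only
    rw [← lintegral_add_left (hm N i)]
    refine lintegral_mono fun t => ?_
    refine le_trans (le_of_eq ?_) (enorm_add_le _ _)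
    congr 1
    unfold D DF H.inc
    ring
  | pred i ih =>
    have h1 := ih.add (h.L1_seq C z hz (-i - 1))
    rw [add_zero] at h1
    refine tendsto_of_tendsto_of_tendsto_of_le_of_le tendsto_const_nhds h1 (fun _ => zero_le)
      fun N => ?_
    simp only
    rw [← lintegral_add_left (hm N (-i))]
    refine lintegral_mono fun t => ?_
    rw [← enorm_neg (D t N (z N) (-i - 1) - DF G s (-i - 1) t)]
    refine le_trans (le_of_eq ?_) (enorm_add_le _ _)
    congr 1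
    unfold D DF H.inc
    rw [show -(i : ℤ) - 1 + 1 = -i by ring]
    ring

theorem gl_eq_f (N : ℕ) (b : ℤ) (t : Environment) (x : ℤ) :
    LIN.gl 0 N b t x = f t N b x - f t N b 0 := rfl

/-- `LineFns.conv` -/
theorem LimAt.conv (h : LimAt G s c) (C : ℤ) (z : ℕ → ℤ)
    (hz : ∀ N : ℕ, |z N - ⌊s * (N : ℝ)⌋| ≤ C) (x : ℤ) (ε : ℝ) (hε : 0 < ε) :
    Tendsto (fun N : ℕ => (iidLaw G).real
      {t | ε ≤ |LIN.gl 0 N (z N) t x - (f0 G s t x - f0 G s t 0)|}) atTop (𝓝 0) := by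
  have h1 := h.L1_f C z hz x
  have hm : ∀ (N : ℕ) (x : ℤ), Measurable fun t =>
      ‖(f t N (z N) x - f t N (z N) 0) - f0 G s t x‖ₑ := fun N x =>
    (((mble_f _ _ _).sub (mble_f _ _ _)).sub (measurable_f0 G s x)).enorm
  have h2 : Tendsto (fun N : ℕ => (iidLaw G)
      {t | ε ≤ |LIN.gl 0 N (z N) t x - (f0 G s t x - f0 G s t 0)|}) atTop (𝓝 0) := by
    have h3 : Tendsto (fun N : ℕ => (∫⁻ t, ‖(f t N (z N) x - f t N (z N) 0) - f0 G s t x‖ₑ
        ∂(iidLaw G)) / ENNReal.ofReal ε) atTop (𝓝 (0 / ENNReal.ofReal ε)) :=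
      ENNReal.Tendsto.div_const h1 (Or.inr (by simpa using hε))
    rw [ENNReal.zero_div] at h3
    refine tendsto_of_tendsto_of_tendsto_of_le_of_le tendsto_const_nhds h3 (fun _ => zero_le)
      fun N => ?_
    have h4 := meas_ge_le_lintegral_div (μ := iidLaw G) (hm N x).aemeasurable
      (show ENNReal.ofReal ε ≠ 0 by simpa using hε) ENNReal.ofReal_ne_top
    refine le_trans (measure_mono fun t ht => ?_) h4
    simp only [Set.mem_ofPred_eq] at ht ⊢
    rw [gl_eq_f, f0_zero, sub_zero] at ht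
    rw [← ofReal_norm]
    exact ENNReal.ofReal_le_ofReal ht
  have h5 := (ENNReal.tendsto_toReal ENNReal.zero_ne_top).comp h2
  simpa [Measure.real, Function.comp_def] using h5

theorem LimAt.slopeR (h : LimAt G s c) :
    ∀ᵐ t ∂(iidLaw G), Tendsto (fun x : ℕ => f0 G s t x / x) atTop (𝓝 c) := h.slope_top

theorem LimAt.slopeL (h : LimAt G s c) :
    ∀ᵐ t ∂(iidLaw G), Tendsto (fun x : ℕ => f0 G s t (-x) / x) atTop (𝓝 (-c)) := h.slope_bot

end Crest.Agent.R151.BUS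
end

-- ▼ part R151/L763m
section

/-!
# R151/L763m — the system of line functions `Sys` from the outputs of the block BUS
(owner helper763)
-/

set_option autoImplicit false

open MeasureTheory Filter Topology
open Crest.ProbabilityR.FirstPassage

namespace Crest.Agent.R151.LIN

open K BUS D411 H

variable {G : Measure ℝ} [IsProbabilityMeasure G] {μ : ℝ × ℝ → ℝ} {m : ℝ}

lemma mu_axis_pos (h : SmoothNorm μ) : 0 < μ (1, 0) := h.norm.pos (by simp)

lemma blockRare_213 (I : Inp G m μ) (h : SmoothNorm μ) : W.BlockRare G (μ (1, 0)) := by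
  refine W.blockRare_of_shape I.mom.h0 I.hz (μ := μ) (fun L y hL => ?_) (fun ε hε => ?_)
  · have := h.axis_le (toR (L, y))
    have e : |(toR (L, y)).1| = (L : ℝ) := by
      simp only [toR]
      exact abs_of_nonneg (by exact_mod_cast hL)
    rwa [e] at this
  · exact I.mom.uniform_shape_prob I.tc (locCtl_of_law213 I.law) hε

/-- **the system of line functions exists** -/
theorem sys_f0 (I : Inp G m μ) (h : SmoothNorm μ) (hat : ∀ x, G {x} = 0)
    (hlim : ∀ s ∈ Dir μ, LimAt G s (-ph1 μ s)) (hloc : Loc G μ) : Sys G μ (f0 G) where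
  smooth := h
  h0 := I.mom.h0
  hat := hat
  hm := mu_axis_pos h
  rare := blockRare_213 I h
  line := lineFns_of_loc h I.mom.h0 (fun τ hτ C z hz x ε hε => (hlim τ hτ).conv C z hz x ε hε)
    (fun τ hτ => (hlim τ hτ).slopeR)
    (fun τ hτ => by have := (hlim τ hτ).slopeL; rwa [neg_neg] at this) hloc
  meas := ⟨fun τ x => measurable_f0 G τ x, fun τ t t' ht => f0_dep G τ ht⟩
  int := fun τ hτ x => (hlim τ hτ).int x
  mean := fun τ hτ x => (hlim τ hτ).mean x

end Crest.Agent.R151.LIN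
end

-- ▼ part R151/Z213e

/-!
# R151/Z213e — the last assembly: `S0213.result` verbatim (owner helper890)

* `sys` : 763's system of line functions from `Inp` (469, 906, 624);
* `upSys` : 290's `UpSys` from `Sys`;
* `uc` : the two coalescence fields (635, 290);
* `endGame` : helper96's end game for 113's family;
* **`s0213`**.
-/

set_option autoImplicit false

open MeasureTheory Filter ProbabilityTheory
open Crest.ProbabilityR.FirstPassage

namespace Crest.Agent.R151.Z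

open Crest.Agent.R151.K (IsTC1 Mom LocCtl ae_Nn toR l1 n1)
open Crest.Agent.R151.M51 (Law213)
open Crest.Agent.R151.D411 (SmoothNorm ProperUp Barriers UShape exists_properUp)
open Crest.Agent.R151.SEL (famR sel0_famR famR_hasSl famR_mem_big ae_big_empty)

/-- the system of line functions -/
theorem sys {G : Measure ℝ} [IsProbabilityMeasure G] [NullSingletonClass G] {m : ℝ}
    {μ : ℝ × ℝ → ℝ} (hG : Law213 G) (hM : Mom G m) (hμ : IsTC1 G μ) (hN : SmoothNorm μ) :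
    LIN.Sys G μ (BUS.f0 G) := by
  have hat : ∀ x, G {x} = 0 := fun x => measure_singleton x
  have I : BUS.Inp G m μ := ⟨hG, hat 0, hM, hμ⟩
  exact LIN.sys_f0 I hN hat (fun s hs => (I.cIn hN).limAt hs) (I.locAll hN)

/-- slope-indexed upper half-plane functions in 290's form -/
theorem upSys {G : Measure ℝ} [IsProbabilityMeasure G] {μ : ℝ × ℝ → ℝ}
    {f0 : ℝ → Environment → ℤ → ℝ} (S : LIN.Sys G μ f0) :
    UC.UpSys G (RF.DS (μ (1, 0))) (-μ (1, 0)) (μ (1, 0)) (LIN.fP f0 μ) where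
  countable := RF.DS_countable _
  dense := dense_DS _
  hl := fun p hp => S.hlP hp.1
  mono := fun p hp q hq hpq => S.monoP hp.1 hq.1 hpq.le
  real := fun s hs1 hs2 => by
    have hs : |s| < μ (1, 0) := abs_lt.2 ⟨hs1, hs2⟩
    have key : ∀ p q : ℝ, |p| < μ (1, 0) → |q| < μ (1, 0) → p ≤ q → ∀ k x : ℤ,
        ∫⁻ t, ENNReal.ofReal (H.inc (LIN.fP f0 μ p k t) x - H.inc (LIN.fP f0 μ q k t) x)
          ∂(iidLaw G) ≤ ENNReal.ofReal (q - p) := by
      intro p q hp hq hpq k x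
      have h1 := H.lintegral_inc_of_le (P := iidLaw G) (F := LIN.fP f0 μ p k)
        (G := LIN.fP f0 μ q k) (x := x) (S.intP hp k x) (S.intP hq k x) (by
          filter_upwards [S.monoP hp hq hpq] with t ht using ht k x)
      rw [S.meanP hp, S.meanP hq] at h1
      have h2 : -p - -q = q - p := by ring
      rw [h2] at h1
      rw [← h1]
      exact lintegral_mono fun t => ENNReal.ofReal_le_ofReal (le_abs_self _)
    exact ⟨LIN.fP f0 μ s, S.hlP hs,
      fun p hp hps => ⟨S.monoP hp.1 hs hps.le, key p s hp.1 hs hps.le⟩,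
      fun q hq hsq => ⟨S.monoP hs hq.1 hsq.le, key s q hs hq.1 hsq.le⟩⟩

/-- the two coalescence fields -/
theorem uc {G : Measure ℝ} [IsProbabilityMeasure G] [NullSingletonClass G] {m : ℝ}
    {μ : ℝ × ℝ → ℝ} (hG : Law213 G) (hM : Mom G m) (hμ : IsTC1 G μ) (hN : SmoothNorm μ)
    {f0 : ℝ → Environment → ℤ → ℝ} (S : LIN.Sys G μ f0) {C : ℝ} (hC : 0 < C)
    (hC' : μ (1, 0) * C < μ (C, 1)) : UC G C :=
  ⟨FAuc.ae_ucU hG hM hμ hN (RF.DS_sub_Icc _) (upSys S) (RF.Sys.rows S).1 (RF.Sys.rows S).2 hC hC',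
    FAuc.ae_ucD hG hM hμ hN (RF.DS_sub_Icc _) (upSys S) (RF.Sys.rows S).1 (RF.Sys.rows S).2 hC hC'⟩

/-- the end game for 113's family -/
theorem measure_famR {G : Measure ℝ} [IsProbabilityMeasure G] [NullSingletonClass G] {m : ℝ}
    {μ : ℝ × ℝ → ℝ} (hG : Law213 G) (hM : Mom G m) (hμ : IsTC1 G μ) (hN : SmoothNorm μ)
    {f0 : ℝ → Environment → ℤ → ℝ} (S : LIN.Sys G μ f0) {C C' : ℝ} (hC : C < C')
    (hF : ∀ᵐ t ∂(iidLaw G), Y96.Facts (μ (1, 0)) C' t) (R : ℕ) :
    iidLaw G {t | (0 : ℤ) ∈ (famR C R).AX t} = 0 := by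
  refine Y96.measure_zero_of_fam hG (famR C R) hF ?_ (sel0_famR (R := R) hC hF) ?_
  · filter_upwards [hF] with t ht i hi
    exact ⟨famR_mem_big hC hi, (famR_hasSl hC ht hi).2⟩
  · refine E39.hgood_of_rows hG S.hm (fun x y => SLF.mu_fst_le hN x y)
      (by
        filter_upwards [hM.as_ushape hμ hG] with t ht ε hε
        exact ht ε hε)
      (RF.DS_countable _) (RF.DS_sub_Ioo _) (dense_DS _)
      (RF.Sys.hrows S fun _ hp => hp.1) (sel0_famR (R := R) hC hF)
      (fun x t => (famR C R).sl (x, 0) t)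
      (fun x => (famR C R).sl_meas (x, 0)) (fun z t x => ?_) ?_
    · have := (famR C R).sl_add (x, 0) (z, 0) t
      simp only [Prod.mk_add_mk, add_zero] at this
      exact this.symm
    · filter_upwards [hF] with t ht x hx
      exact famR_hasSl hC ht hx

/-- **no proper bigeodesic** -/
theorem hup (G : Measure ℝ) [IsProbabilityMeasure G] [NullSingletonClass G] (m : ℝ)
    (μ : ℝ × ℝ → ℝ) (hG : Law213 G) (hM : Mom G m) (hμ : IsTC1 G μ) (hN : SmoothNorm μ)
    (C0 : ℝ) (hC0 : 0 < C0) (hC1 : μ (1, 0) * C0 < μ (C0, 1)) :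
    ∀ᵐ t ∂(iidLaw G), ∀ v, IsBigeodesic t v → ProperUp C0 v → False := by
  have S := sys hG hM hμ hN
  obtain ⟨C', hC', hC2⟩ := exists_cone hN hC1
  have hF := ae_facts_sys hG hM hμ hN S (hC0.trans hC') hC2
    (uc hG hM hμ hN S (hC0.trans hC') hC2)
  have h := ae_big_empty (C := C0) fun R => measure_famR hG hM hμ hN S hC' hF R
  filter_upwards [h] with t ht v hv hv'
  exact ht v ⟨hv, hv'⟩

/-- **`S0213.result` verbatim.** -/
theorem s0213 (G : Measure ℝ) [IsProbabilityMeasure G] [NullSingletonClass G]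
    (hG : G (Set.Iio 0) = 0)
    (hmom : ∫⁻ x, ENNReal.ofReal ((⨅ i, x i) ^ 2) ∂(Measure.pi fun _ : Fin 4 => G) < ⊤) :
    iidLaw G {t | ∃ v : ℤ → ℤ × ℤ, IsBigeodesic t v} = 0 :=
  s0213_of_hup hup G hG hmom

end Crest.Agent.R151.Z
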