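import Crest.Agent.R151.E792l_Mg
import Crest.Agent.R151.E685F6
import Crest.Agent.R151.V24
import Crest.Agent.R151.NF6
import Crest.Agent.R151.CL684g
import Crest.Agent.R151.E191G
import Crest.Agent.R151.M192f
import Crest.Agent.R151.G338o
import Crest.Agent.R151.Q8c
import Crest.Agent.R151.V22
import Crest.Agent.R151.R78Q
import Crest.Agent.R151.NF3
import Crest.Agent.R151.NF7
import Crest.Agent.R151.G338p

-- ▼ part R151/Z710
section

/-!
# R151 / S0214 — final glue (helper710): AllInputs from `law` and `dich`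
-/

set_option autoImplicit false

open MeasureTheory Filter ProbabilityTheory Topology
open Crest.ProbabilityR.FirstPassage
open Crest.Agent.R151.K Crest.Agent.R151.Q

namespace Crest.Agent.R151.Z710

open B710 (FlatData)
open NF

/-- **everything except `law` and `dich` is unconditional** -/
theorem allInputs_of_law_dich
    (hin : ∀ {μ : ℝ × ℝ → ℝ}, IsTC (gammaMeasure 1 1) μ → ∀ (F : FlatData μ) (w0 c0 K : ℝ),
      0 < c0 → 0 < K →
        ∃ typ : ∀ {p : NF.Num}, Cf (gammaMeasure 1 1) F w0 c0 K p → Set (M192.Row (ℝ × ℝ)),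
        (∃ C0 : ℝ, 0 < C0 ∧ Ev fun p => ∀ c : Cf (gammaMeasure 1 1) F w0 c0 K p,
          (c.rowA (typ c)).Law (nuR (gammaMeasure 1 1)) c.mB C0 p.n p.δ p.v p.e) ∧
        (∃ C0 : ℝ, 0 < C0 ∧ Ev fun p => ∀ c : Cf (gammaMeasure 1 1) F w0 c0 K p,
          (c.rowA (typ c)).Cheap (nuR (gammaMeasure 1 1)) C0 p.δ ∨
            (c.rowA (typ c)).Costly (nuR (gammaMeasure 1 1)) C0 p.δ p.v p.e)) :
    Z214.AllInputs := by
  have hP : IsProbabilityMeasure (gammaMeasure 1 1) :=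
    isProbabilityMeasure_gammaMeasure one_pos one_pos
  intro μ' hμ' F' w0' c0' K' hc0' hK'
  refine Z214.allInputs_of (fun {μ} hμ F w0 c0 K hc0 hK => ?_) hμ' F' w0' c0' K' hc0' hK'
  obtain ⟨typ, hl, hd⟩ := hin hμ F w0 c0 K hc0 hK
  have hG := law213_gamma (κ := 1) (r := 1) one_pos one_pos
  obtain ⟨m, hM⟩ := mom_of_law213 hG
  have h2 := integrable_sq (gamma_Iio 1 1) (half_pos one_pos) (gamma_exp one_pos one_pos)
  exact ⟨E792.select one_pos one_pos hμ F hc0 hK, typ, hl, hd,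
    E685.ev_rec_gamma one_pos hμ F w0 hc0 hK.le typ,
    NF.ev_paths (gamma_Iio 1 1) h2 hμ (normLike_gamma one_pos one_pos hμ) hM
      (locCtl_of_law213 hG) hc0 hK.le typ⟩

end Crest.Agent.R151.Z710
end

-- ▼ part R151/V25
section

/-!
# R151/V25 — fences: data of the upper bound, uniform integrability of one fence (helper52)

A fence of the outer row from `s` to `s + D`: lower gap `[s, s + D/8]`, inner row (translation `s`)
from `D/4` to `5D/8` in the lane `[D/4, D/2]`, upper gap `[s + 3D/4, s + 7D/8]`.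
-/

set_option autoImplicit false
set_option linter.unusedSectionVars false

open MeasureTheory ProbabilityTheory Set Filter Topology
open scoped ENNReal
open Crest.ProbabilityR.FirstPassage

namespace Crest.Agent.R151.V

open Crest.Agent.R151.K
open Q (pos Hwy HwyMean P0 UU UU2 phi rg Inv rate cF cF_nonneg dOv offv Geo UpData obI obLo obUp obJ
  sko ski Jw PF Rt)
open M192 (Row RowS PR mIL mB skp ae_skp RowOK)
open M56 (mg one_le_mg nu)
open B710 (FlatData)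
open NF

variable {μ : ℝ × ℝ → ℝ} {F : FlatData μ} {h : Hwy F}

/-- sizes for one fence -/
structure FD (h : Hwy F) (y g Λ L s D : ℝ) : Prop where
  hy : h.wH + 2 * mg F < y
  hg : h.wH + 2 * mg F + cF F < g
  hΛ : mg F ≤ Λ
  hD : 16 * (h.κ + mg F + cF F) ≤ D
  win : Λ + |s| + 2 * cF F + h.κ < L
  win' : Λ + |s| + D ≤ L

section fd

variable {y g Λ L s D : ℝ}

theorem FD.upd (H : FD h y g Λ L s D) :
    UpData h y g s Λ L (s + h.κ) (s + D - h.κ) s (s + D) (D / 4) (D / 2) (D / 4) (5 * D / 8)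
      (s + h.κ) (s + h.κ + D / 8) s (D / 4) (s + 3 * D / 4) (s + 7 * D / 8) (5 * D / 8)
      (s + D) := by
  have hκ := h.κ_nonneg
  have hmg := one_le_mg F
  have hcF := cF_nonneg F
  have hy := H.hy
  have hg := H.hg
  have hΛ := H.hΛ
  have hD := H.hD
  have hw := H.win
  have hw' := H.win'
  have hs := abs_nonneg s
  have hs1 := neg_abs_le s
  have hs2 := le_abs_self s
  have hwH := h.wH_nonneg'
  exact
    { geo := ⟨by linarith, by linarith, by linarith, by linarith⟩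
      hs1 := by linarith
      hs4 := by linarith
      hα₀ := le_rfl
      hβ₀ := by linarith
      ha₀ := le_rfl
      hb₀ := le_rfl
      hα₁ := by linarith
      hβ₁ := by linarith
      ha₁ := le_rfl
      hb₁ := le_rfl
      hαi := by linarith
      hβi := by linarith
      hne0 := Q.rt_lo (σ₁ := s + h.κ + D / 16) (σ₂ := s + h.κ + D / 16) hg (by linarith)
        (by linarith) (by linarith) (by linarith) (by linarith) (by linarith)
      hne2 := Q.rt_up (σ₁ := s + 13 * D / 16) (σ₂ := s + 13 * D / 16) hg (by linarith)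
        (by linarith) (by linarith) (by linarith) (by linarith) (by linarith)
      hnei := Q.rt_inn (σ₁ := 3 * D / 8) (σ₂ := 3 * D / 8) hy (by linarith) (by linarith)
        (by linarith) (by linarith) (by linarith) (by linarith)
      hne := Q.rt_out (σ₁ := s + D / 2) (σ₂ := s + D / 2) (by linarith) (by linarith)
        (by linarith) (by
          rw [min_self, max_self]
          exact Icc_subset_Icc (by linarith) (by linarith))
      hneJ := Q.rt_gauge_out (by linarith) hΛ (by linarith) }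

/-- the error of the upper bound of a fence -/
noncomputable def errF (h : Hwy F) (y g Λ L s D : ℝ) :
    RowS × ((ℝ × ℝ) × (ℝ × ℝ)) → ℝ := fun w =>
  obLo h g s (s + h.κ) (s + h.κ + D / 8) L s (D / 4) w.1.1.1 w.1.1.2 w.1.2 w.2 +
  obUp h y g s (s + 3 * D / 4) (s + 7 * D / 8) L (5 * D / 8) (s + D) w.1.1.1 w.1.1.2 w.1.2 w.2 +
  obJ h y g Λ L w.1.1.1 w.1.1.2 w.1.2 w.2

/-- the inner fence -/
noncomputable def inF (h : Hwy F) (y g L s D : ℝ) :
    RowS × ((ℝ × ℝ) × (ℝ × ℝ)) → ℝ := fun w =>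
  obI h y g s (Icc (D / 4) (D / 2)) L (D / 4) (5 * D / 8) w.1.1.1 w.1.1.2 w.1.2 w.2

lemma measurable_errF : Measurable (errF h y g Λ L s D) :=
  ((Q.meas_obLo h g s L _ _ _ _).add (Q.meas_obUp h y g s L _ _ _ _)).add (Q.meas_obJ h y g Λ L)

/-- mean of the error -/
theorem FD.err_mean {G : Measure ℝ} [IsProbabilityMeasure G] {ε : ℝ}
    (h0 : G (Set.Iio 0) = 0) (h2 : Integrable (fun x : ℝ => x ^ 2) G) (hM : HwyMean G h ε)
    (hμ : IsTC G μ) (H : FD h y g Λ L s D) :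
    Integrable (errF h y g Λ L s D) ((PR G).prod PF) ∧
      ∫ w, |errF h y g Λ L s D w| ∂((PR G).prod PF) ≤
        4 * g * rate G F (D / 8) + (y + 4 * g) * rate G F (2 * Λ) + 30 * L * ε := by
  have hκ := h.κ_nonneg
  have hmg := one_le_mg F
  have hcF := cF_nonneg F
  have hy := H.hy
  have hg := H.hg
  have hΛ := H.hΛ
  have hD := H.hD
  have hw := H.win
  have hw' := H.win'
  have hs := abs_nonneg s
  have hs1 := neg_abs_le s
  have hs2 := le_abs_self s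
  have hwH := h.wH_nonneg'
  have hε := hM.nonneg
  obtain ⟨i1, m1⟩ := MN750.obLo_mean' h0 h2 hM hμ (g := g) (c := s) (α := s + h.κ)
    (β := s + h.κ + D / 8) (L := L) (s := s) (s₁ := D / 4) hg (by linarith) (by linarith)
    (by linarith) (by linarith) (by linarith)
  obtain ⟨i2, m2⟩ := MN750.obUp_mean' (y := y) h0 h2 hM hμ (g := g) (c := s) (α := s + 3 * D / 4)
    (β := s + 7 * D / 8) (L := L) (s₂ := 5 * D / 8) (s' := s + D) hg (by linarith) (by linarith)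
    (by linarith) (by linarith) (by linarith)
  obtain ⟨i3, m3⟩ := MN750.obJ_mean' h0 h2 hM hμ (y := y) (g := g) (L := L) (Λ := Λ)
    (by linarith) (by linarith) (by linarith) hΛ (by linarith)
  refine ⟨(i1.add i2).add i3, ?_⟩
  have e1 : s + h.κ + D / 8 - (s + h.κ) = D / 8 := by ring
  have e2 : s + 7 * D / 8 - (s + 3 * D / 4) = D / 8 := by ring
  rw [e1] at m1
  rw [e2] at m2
  have h3 : ∫ w, |errF h y g Λ L s D w| ∂((PR G).prod PF) ≤
      ∫ q, |obLo h g s (s + h.κ) (s + h.κ + D / 8) L s (D / 4) q.1.1.1 q.1.1.2 q.1.2 q.2|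
        ∂((PR G).prod PF) +
      ∫ q, |obUp h y g s (s + 3 * D / 4) (s + 7 * D / 8) L (5 * D / 8) (s + D) q.1.1.1 q.1.1.2
        q.1.2 q.2| ∂((PR G).prod PF) +
      ∫ q, |obJ h y g Λ L q.1.1.1 q.1.1.2 q.1.2 q.2| ∂((PR G).prod PF) := by
    have f1 := integral_add (i1.abs.add i2.abs) i3.abs
    have f2 := integral_add i1.abs i2.abs
    simp only [Pi.add_apply] at f1 f2
    rw [← f2, ← f1]
    refine integral_mono ((i1.add i2).add i3).abs ((i1.abs.add i2.abs).add i3.abs) fun w => ?_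
    exact (abs_add_le _ _).trans (add_le_add (abs_add_le _ _) le_rfl)
  have h4 : (2 * L + D / 8 + h.κ + 1 + |s| + cF F) * ε +
      (2 * L + D / 8 + h.κ + 1 + |s| + cF F) * ε + (2 * L + 2 * Λ + h.κ + 1) * ε ≤
      30 * L * ε := by
    rw [← add_mul, ← add_mul]
    refine mul_le_mul_of_nonneg_right ?_ hε
    linarith
  have e3 : 2 * g * rate G F (D / 8) + (2 * L + D / 8 + h.κ + 1 + |s| + cF F) * ε +
      (2 * g * rate G F (D / 8) + (2 * L + D / 8 + h.κ + 1 + |s| + cF F) * ε) +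
      ((y + 4 * g) * rate G F (2 * Λ) + (2 * L + 2 * Λ + h.κ + 1) * ε) =
      4 * g * rate G F (D / 8) + (y + 4 * g) * rate G F (2 * Λ) +
      ((2 * L + D / 8 + h.κ + 1 + |s| + cF F) * ε +
      (2 * L + D / 8 + h.κ + 1 + |s| + cF F) * ε + (2 * L + 2 * Λ + h.κ + 1) * ε) := by ring
  linarith

/-- median of the inner fence -/
theorem FD.median {G : Measure ℝ} [IsProbabilityMeasure G] {ε : ℝ}
    (h0 : G (Set.Iio 0) = 0) (h2 : Integrable (fun x : ℝ => x ^ 2) G) (hM : HwyMean G h ε)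
    (hμ : IsTC G μ) (H : FD h y g Λ L s D) {m k : ℝ}
    (hm : (y + 4 * g) * rate G F (D / 4) + 4 * L * ε ≤ m) (hk : 0 < k) (hm0 : 0 < m) :
    1 - 1 / k ≤ (PR G).real {q | ski h y (Icc (D / 4) (D / 2)) L (D / 4) (5 * D / 8) q ≤
      k * m} := by
  have hκ := h.κ_nonneg
  have hmg := one_le_mg F
  have hcF := cF_nonneg F
  have hy := H.hy
  have hg := H.hg
  have hΛ := H.hΛ
  have hD := H.hD
  have hw := H.win
  have hw' := H.win'
  have hs := abs_nonneg s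
  have hwH := h.wH_nonneg'
  have hε := hM.nonneg
  have hal : F.al (y • F.b) = 0 := by rw [map_smul, F.al_b, smul_zero]
  have hbe : F.be (y • F.b) = y := M192.be_smul_b F y
  have hd : h.wH + 2 * mg F < F.be (y • F.b) := by rw [hbe]; exact hy
  have hf := M56.fence_mean' hM h0 h2 hd (I := Icc (D / 4) (D / 2)) measurableSet_Icc
    (s := D / 4) (α := D / 4) (β := D / 2) (s2 := 5 * D / 8) le_rfl (by rw [hal]; linarith)
    Subset.rfl (by linarith) hμ (y2 := y + 4 * g) (by rw [hbe]; linarith)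
  have e1 : D / 2 - D / 4 = D / 4 := by ring
  rw [e1, hal] at hf
  refine sk_median (G := G) (h := h) hM h0 h2 hd (I := Icc (D / 4) (D / 2)) measurableSet_Icc
    (s := D / 4) (s' := 5 * D / 8) (σ₁ := 3 * D / 8) (σ₂ := 3 * D / 8) (by linarith)
    (by rw [hal]; linarith) (by
      rw [min_self, max_self]
      exact Icc_subset_Icc (by linarith) (by linarith)) hμ (L := L) (by linarith) (by linarith)
    ?_ hk hm0
  refine le_trans ?_ hm
  have h4 : (5 * D / 8 - D / 4 + D / 2 - D / 4 + h.κ + 1 + 0) * ε +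
      (2 * L + D / 4 - 5 * D / 8) * ε ≤ 4 * L * ε := by
    rw [← add_mul]
    refine mul_le_mul_of_nonneg_right ?_ hε
    linarith
  linarith

/-- **uniform integrability of one fence** -/
theorem FD.ui {r : ℝ} (hr : 0 < r) [IsProbabilityMeasure (gammaMeasure 1 r)] {ε : ℝ}
    (h0 : (gammaMeasure 1 r) (Set.Iio 0) = 0)
    (h2 : Integrable (fun x : ℝ => x ^ 2) (gammaMeasure 1 r))
    (hM : HwyMean (gammaMeasure 1 r) h ε) (hμ : IsTC (gammaMeasure 1 r) μ)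
    (H : FD h y g Λ L s D) {m : ℝ}
    (hm : (y + 4 * g) * rate (gammaMeasure 1 r) F (D / 4) + 4 * L * ε ≤ m) (hm0 : 0 < m)
    {ρ : RowS → ℝ} (hρ : Measurable ρ) (hρS : ∀ p t, ρ (cs (E0 h (dOv F y g)) p t) = ρ p)
    (hDi : Integrable (fun p => hkR h (dOv F y g) univ (-L) L p - ρ p) (PR (gammaMeasure 1 r)))
    {A : Set RowS} (hA : MeasurableSet A) (hS : SInv (E0 h (dOv F y g)) A) {d b : ℝ} (hd : 0 < d)
    (hb : 8 * m ≤ b) :
    IntegrableOn (sko h y g (Icc s (s + D)) L s (s + D))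
        (A ∩ {p | |hkR h (dOv F y g) univ (-L) L p - ρ p| ≤ d})ᶜ (PR (gammaMeasure 1 r)) ∧
      ∫ p in (A ∩ {p | |hkR h (dOv F y g) univ (-L) L p - ρ p| ≤ d})ᶜ,
        sko h y g (Icc s (s + D)) L s (s + D) p ∂(PR (gammaMeasure 1 r)) ≤
        1123 * ∫ p, |hkR h (dOv F y g) univ (-L) L p - ρ p| ∂(PR (gammaMeasure 1 r)) +
        480 * ∫ w, |errF h y g Λ L s D w| ∂((PR (gammaMeasure 1 r)).prod PF) +
        20 * m * (PR (gammaMeasure 1 r)).real Aᶜ +
        b * (∫ p, |hkR h (dOv F y g) univ (-L) L p - ρ p| ∂(PR (gammaMeasure 1 r))) / d +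
        48 * m * Real.exp (-(b / (48 * m))) := by
  have hκ := h.κ_nonneg
  have hU := H.upd
  have e1 : Icc (s + h.κ - h.κ) (s + D - h.κ + h.κ) = Icc s (s + D) := by
    congr 1 <;> ring
  have hne := hU.hne
  have hsk := hU.ae_sko_le (G := gammaMeasure 1 r) h0
  rw [e1] at hne hsk
  have hsd := sdata_hk h hr (dOv F y g) (L := L) (a := s) (b := s + D) (I := Icc s (s + D))
    measurableSet_Icc hU.hs1 hU.hs4 (ae_of_all _ fun p => hne _ _ _) hρ hρS hDi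
  obtain ⟨iE, -⟩ := H.err_mean h0 h2 hM hμ
  have hmed := H.median h0 h2 hM hμ (k := 2) hm (by norm_num) hm0
  have hI : ∀ᵐ p ∂((P0 (gammaMeasure 1 r)).prod (UU.prod UU)),
      (1 / 2 : ℝ) ≤ ((iidLaw (gammaMeasure 1 r)).prod PF).real
        {x | inF h y g L s D (cs (E0 h (dOv F y g)) p x.1, x.2) ≤ 2 * m} := by
    refine ae_of_all _ fun p => ?_
    have h3 := Q.condI_prob (G := gammaMeasure 1 r) hU.geo (I := Icc (D / 4) (D / 2))
      measurableSet_Icc (D / 4) (5 * D / 8) p (B := Iic (2 * m)) measurableSet_Iic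
    have h4 : (1 / 2 : ℝ) ≤ (PR (gammaMeasure 1 r)).real
        {q | ski h y (Icc (D / 4) (D / 2)) L (D / 4) (5 * D / 8) q ∈ Iic (2 * m)} := by
      have hset : {q | ski h y (Icc (D / 4) (D / 2)) L (D / 4) (5 * D / 8) q ∈ Iic (2 * m)} =
        {q | ski h y (Icc (D / 4) (D / 2)) L (D / 4) (5 * D / 8) q ≤ 2 * m} := rfl
      rw [hset]
      linarith [hmed]
    rw [← h3] at h4
    exact h4
  have hle : ∀ᵐ w ∂((PR (gammaMeasure 1 r)).prod PF),
      hkR h (dOv F y g) (Icc s (s + D)) s (s + D) w.1 - ρ w.1 -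
        (hkR h (dOv F y g) univ (-L) L w.1 - ρ w.1) ≤
      inF h y g L s D w + errF h y g Λ L s D w := by
    filter_upwards [hsk] with w hw
    have e3 : sko h y g (Icc s (s + D)) L s (s + D) w.1 =
      hkR h (dOv F y g) (Icc s (s + D)) s (s + D) w.1 -
        hkR h (dOv F y g) univ (-L) L w.1 := rfl
    rw [e3] at hw
    unfold errF inF
    linarith
  have key := hsd.ui_all (κ := PF) hA hS (q := 1 / 2) (t := 2 * m) (d := d) (b := b)
    (V := inF h y g L s D) (err := errF h y g Λ L s D)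
    (by norm_num) (by norm_num) (by linarith) hd (by linarith) measurable_errF iE hI hle
  have e2 : (fun p => hkR h (dOv F y g) (Icc s (s + D)) s (s + D) p - ρ p -
      (hkR h (dOv F y g) univ (-L) L p - ρ p)) = sko h y g (Icc s (s + D)) L s (s + D) := by
    funext p
    show _ = hkR h (dOv F y g) (Icc s (s + D)) s (s + D) p - hkR h (dOv F y g) univ (-L) L p
    ring
  rw [e2] at key
  have ePR : PR (gammaMeasure 1 r) = (P0 (gammaMeasure 1 r)).prod (UU.prod UU) := rfl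
  have e4 : -(1 / 2 / 12) * (b / (2 * m)) = -(b / (48 * m)) := by
    field_simp
    norm_num
    ring
  rw [e4] at key
  rw [ePR]
  obtain ⟨k1, k2⟩ := key
  refine ⟨k1, ?_⟩
  refine le_trans k2 ?_
  apply le_of_eq
  ring

end fd

end Crest.Agent.R151.V
end

-- ▼ part R151/V26
section

/-!
# R151/V26 — field `F_ui` of `c.rowA T`, `T = A ∩ {|hull - ρ| ≤ a l}` (helper52)
-/

set_option autoImplicit false
set_option linter.unusedSectionVars false

open MeasureTheory ProbabilityTheory Set Filter Topology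
open scoped ENNReal
open Crest.ProbabilityR.FirstPassage

namespace Crest.Agent.R151.V

open Crest.Agent.R151.K
open Q (pos Hwy HwyMean P0 UU UU2 phi rg Inv rate cF cF_nonneg dOv offv Geo UpData obI obLo obUp obJ
  sko ski Jw PF Rt)
open M192 (Row RowS PR mIL mB skp ae_skp RowOK)
open M56 (mg one_le_mg nu)
open B710 (FlatData)
open NF

variable {μ : ℝ × ℝ → ℝ} {F : FlatData μ} {G : Measure ℝ} {w0 c0 K : ℝ}

/-- `8 / t ^ 3 ≤ 8 N ^ 3` -/
lemma eight_div_le {t N : ℝ} (ht : 0 < t) (hN : 1 ≤ N * t) : 8 / t ^ 3 ≤ 8 * N ^ 3 := by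
  rw [div_le_iff₀ (by positivity)]
  have h1 : (1 : ℝ) ≤ (N * t) ^ 3 := one_le_pow₀ hN
  calc (8 : ℝ) ≤ 8 * (N * t) ^ 3 := by linarith
    _ = 8 * N ^ 3 * t ^ 3 := by ring

/-- `A * (error mean) ≤ l` -/
theorem ev_err (hc0 : 0 < c0) (A : ℕ → ℝ → ℝ → ℝ → ℝ) (hA : ∀ n δ v e, 0 ≤ A n δ v e) :
    Ev fun p => ∀ c : Cf G F w0 c0 K p, ∀ D : ℝ, p.W ≤ 8 * p.n * D → D ≤ p.W →
      A p.n p.δ p.v p.e * (4 * c.g * rate G F (D / 8) +
        (c.y / 2 + 4 * c.g) * rate G F (2 * (p.v' * p.W)) + 30 * c.L * c.ε) ≤ c.l := by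
  have a1 := ev_std (G := G) (F := F) (w0 := w0) (c0 := c0) (K := K)
  have a2 := le_w w0
  have a3 := le_δ0 fun n _ _ _ _ _ => 64 * n
  have a4 := le_J fun n δ v e _ δ' _ => 3 * A n δ v e * (64 * (64 * n) ^ 3 * δ')
  have a5 := rpow_v' (fun n δ v e => 6 * A n δ v e) 0.03 (by norm_num)
  have a6 := highway_small (G := G) (F := F) (w0 := w0) (K := K) hc0
    (fun n δ v e v' _ _ => 3 * A n δ v e * (60 * v'))
  refine (((((a1.and a2).and a3).and a4).and a5).and a6).mono ?_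
  rintro p ⟨⟨⟨⟨⟨a1, a2⟩, a3⟩, a4⟩, a5⟩, a6⟩ c D hD1 hD2
  have hc := a1 c
  have hp := hc.toStd
  have hW : 0 < p.W := zero_lt_one.trans_le hp.W
  have hn : (1 : ℝ) ≤ p.n := by exact_mod_cast hp.n
  have hJ : 0 < p.J := zero_lt_one.trans_le hp.J
  have hD0 : 0 < D := by
    by_contra hneg
    push Not at hneg
    nlinarith
  have ha0 : 0 ≤ A p.n p.δ p.v p.e := hA _ _ _ _
  set a := A p.n p.δ p.v p.e with ha
  have hl := hc.l_pos
  have hrt := c.rt_pos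
  -- lower gap
  set t := D / (8 * p.W) with ht
  have ht0 : 0 < t := by positivity
  have ht1 : t ≤ 1 := by rw [ht, div_le_one (by positivity)]; linarith
  have htW : t * p.W = D / 8 := by rw [ht]; field_simp
  have htn : 1 ≤ 64 * p.n * t := by
    rw [ht, ← mul_div_assoc, le_div_iff₀ (by positivity)]
    linarith
  have h0 : w0 ≤ t * p.W := by
    rw [htW]
    have : p.δ0 * p.W * (64 * p.n) ≤ p.W := by nlinarith
    have h3 : p.δ0 * p.W * (64 * p.n) ≤ D / 8 * (64 * p.n) := by linarith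
    exact a2.trans (le_of_mul_le_mul_right h3 (by positivity))
  have r1 := rate_near' c hp ht0 ht1 h0
  rw [htW] at r1
  have r2 := eight_div_le ht0 htn
  have hWrt : p.W * c.rt ≤ 2 * c.l / p.J := by
    rw [le_div_iff₀ hJ]
    linarith [hc.l_ge]
  have e1 : 3 * a * (4 * c.g * rate G F (D / 8)) ≤ c.l := by
    have h3 : 4 * c.g * rate G F (D / 8) ≤ 64 * (64 * p.n) ^ 3 * p.δ' / p.J * c.l := by
      calc 4 * c.g * rate G F (D / 8) ≤ 4 * c.g * (8 / t ^ 3 * c.rt) :=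
            mul_le_mul_of_nonneg_left r1 (by linarith [hc.g_pos])
        _ ≤ 4 * c.g * (8 * (64 * p.n) ^ 3 * c.rt) := by
            refine mul_le_mul_of_nonneg_left ?_ (by linarith [hc.g_pos])
            exact mul_le_mul_of_nonneg_right r2 hrt.le
        _ = 32 * (64 * p.n) ^ 3 * p.δ' * (p.W * c.rt) := by rw [c.g_eq]; ring
        _ ≤ 32 * (64 * p.n) ^ 3 * p.δ' * (2 * c.l / p.J) := by
            refine mul_le_mul_of_nonneg_left hWrt ?_
            have := hp.δ'_pos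
            positivity
        _ = _ := by ring
    calc 3 * a * (4 * c.g * rate G F (D / 8))
        ≤ 3 * a * (64 * (64 * p.n) ^ 3 * p.δ' / p.J * c.l) :=
          mul_le_mul_of_nonneg_left h3 (by linarith)
      _ = (3 * a * (64 * (64 * p.n) ^ 3 * p.δ')) / p.J * c.l := by ring
      _ ≤ 1 * c.l := by
          refine mul_le_mul_of_nonneg_right ?_ hl.le
          rw [div_le_one hJ]; exact a4
      _ = c.l := one_mul _
  -- far lane
  have e2 : 3 * a * ((c.y / 2 + 4 * c.g) * rate G F (2 * (p.v' * p.W))) ≤ c.l := by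
    have h3 : 2 * (p.v' * p.W) = (2 * p.v') * p.W := by ring
    have h4 := P_rate_far c hc (t := 2 * p.v') (by linarith [hp.v'])
    have h5 : (2 * p.v') ^ (-0.03 : ℝ) ≤ p.v' ^ (-0.03 : ℝ) :=
      Real.rpow_le_rpow_of_nonpos (by linarith [hp.v']) (by linarith [hp.v']) (by norm_num)
    rw [← c.P_eq, h3]
    calc 3 * a * (c.P * rate G F (2 * p.v' * p.W))
        ≤ 3 * a * (2 * (2 * p.v') ^ (-0.03 : ℝ) * c.l) :=
          mul_le_mul_of_nonneg_left h4 (by linarith)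
      _ ≤ 3 * a * (2 * p.v' ^ (-0.03 : ℝ) * c.l) := by
          refine mul_le_mul_of_nonneg_left ?_ (by linarith)
          exact mul_le_mul_of_nonneg_right (mul_le_mul_of_nonneg_left h5 (by norm_num)) hl.le
      _ = (6 * a * p.v' ^ (-0.03 : ℝ)) * c.l := by ring
      _ ≤ 1 * c.l := mul_le_mul_of_nonneg_right a5 hl.le
      _ = c.l := one_mul _
  have e3 : 3 * a * (30 * c.L * c.ε) ≤ c.l := by
    have h3 : 3 * a * (30 * c.L * c.ε) = 3 * a * (60 * p.v') * (p.W * c.ε) := by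
      rw [c.L_eq]; ring
    rw [h3]
    exact a6 c
  have h4 : a * (4 * c.g * rate G F (D / 8) +
      (c.y / 2 + 4 * c.g) * rate G F (2 * (p.v' * p.W)) + 30 * c.L * c.ε) =
      (3 * a * (4 * c.g * rate G F (D / 8)) +
        3 * a * ((c.y / 2 + 4 * c.g) * rate G F (2 * (p.v' * p.W))) +
        3 * a * (30 * c.L * c.ε)) / 3 := by ring
  linarith

/-- median of the inner fences of the `F_ui` construction -/
theorem ev_med (hc0 : 0 < c0) :
    Ev fun p => ∀ c : Cf G F w0 c0 K p, ∀ D : ℝ, p.W ≤ 8 * p.n * D → D ≤ p.W →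
      (c.y / 2 + 4 * c.g) * rate G F (D / 4) + 4 * c.L * c.ε ≤ 2 ^ 19 * p.n ^ 3 * c.l := by
  have a1 := ev_std (G := G) (F := F) (w0 := w0) (c0 := c0) (K := K)
  have a2 := le_w w0
  have a3 := le_δ0 fun n _ _ _ _ _ => 64 * n
  have a6 := highway_small (G := G) (F := F) (w0 := w0) (K := K) hc0
    (fun _ _ _ _ v' _ _ => 8 * v')
  refine (((a1.and a2).and a3).and a6).mono ?_
  rintro p ⟨⟨⟨a1, a2⟩, a3⟩, a6⟩ c D hD1 hD2
  have hc := a1 c
  have hp := hc.toStd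
  have hW : 0 < p.W := zero_lt_one.trans_le hp.W
  have hn : (1 : ℝ) ≤ p.n := by exact_mod_cast hp.n
  have hD0 : 0 < D := by
    by_contra hneg
    push Not at hneg
    nlinarith
  have hl := hc.l_pos
  set t := D / (4 * p.W) with ht
  have ht0 : 0 < t := by positivity
  have ht1 : t ≤ 1 := by rw [ht, div_le_one (by positivity)]; linarith
  have htW : t * p.W = D / 4 := by rw [ht]; field_simp
  have htn : 1 ≤ 32 * p.n * t := by
    rw [ht, ← mul_div_assoc, le_div_iff₀ (by positivity)]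
    linarith
  have h0 : w0 ≤ t * p.W := by
    rw [htW]
    have : p.δ0 * p.W * (64 * p.n) ≤ p.W := by nlinarith
    have h3 : p.δ0 * p.W * (64 * p.n) ≤ D / 4 * (64 * p.n) := by nlinarith
    exact a2.trans (le_of_mul_le_mul_right h3 (by positivity))
  have r1 := P_rate_near c hc ht0 ht1 h0
  rw [htW] at r1
  have r2 := eight_div_le ht0 htn
  have h1 : 4 * c.L * c.ε ≤ c.l := by
    have := a6 c
    rw [c.L_eq]
    linarith
  have h3 : c.l ≤ 2 ^ 18 * p.n ^ 3 * c.l := by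
    have : (1 : ℝ) ≤ 2 ^ 18 * p.n ^ 3 := by
      have := one_le_pow₀ hn (n := 3)
      linarith
    nlinarith
  have h4 := mul_le_mul_of_nonneg_right r2 hl.le
  rw [← c.P_eq]
  calc c.P * rate G F (D / 4) + 4 * c.L * c.ε ≤ 8 * (32 * p.n) ^ 3 * c.l + c.l := by linarith
    _ ≤ 8 * (32 * p.n) ^ 3 * c.l + 2 ^ 18 * p.n ^ 3 * c.l := by linarith
    _ = _ := by ring

/-- sizes of the fences of width `1 / (4 n)` -/
theorem ev_FD : Ev fun p => ∀ c : Cf G F w0 c0 K p, ∀ x : ℝ, |x| ≤ p.v + 1 / p.e →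
    FD c.h (c.y / 2) c.g (p.v' * p.W) c.L (x * p.W + c.sl) (1 / (4 * p.n) * p.W - 2 * c.sl) ∧
    p.W ≤ 8 * p.n * (1 / (4 * p.n) * p.W - 2 * c.sl) ∧
    1 / (4 * p.n) * p.W - 2 * c.sl ≤ p.W ∧
    4 * c.sl ≤ 1 / (4 * p.n) * p.W ∧ 1 / (4 * (p.n : ℝ)) ≤ 1 := by
  have a1 := ev_std (G := G) (F := F) (w0 := w0) (c0 := c0) (K := K)
  have a2 := ev_height (G := G) (F := F) (w0 := w0) (c0 := c0) (K := K)
  have a3 := ev_soft5 (G := G) (F := F) (w0 := w0) (c0 := c0) (K := K)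
  have a4 := le_w (mg F + cF F)
  have a5 := le_δ0 fun n _ _ _ _ _ => 128 * n * (|K| + 2)
  have a6 := le_v' fun _ _ v e => v + 1 / e + 8
  refine (((((a1.and a2).and a3).and a4).and a5).and a6).mono ?_
  rintro p ⟨⟨⟨⟨⟨a1, a2⟩, a3⟩, a4⟩, a5⟩, a6⟩ c x hx
  have hc := a1 c
  have hp := hc.toStd
  have hW : 0 < p.W := zero_lt_one.trans_le hp.W
  have hn : (1 : ℝ) ≤ p.n := by exact_mod_cast hp.n
  have hκ := c.κ_le
  have hκ0 := c.h.κ_nonneg
  have hcge := (a3 c).1.c_ge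
  have hmg := one_le_mg F
  have hcF := cF_nonneg F
  have hwW : 0 < p.δ0 * p.W := mul_pos hp.δ0_pos hW
  have hK : K * (p.δ0 * p.W) ≤ |K| * (p.δ0 * p.W) :=
    mul_le_mul_of_nonneg_right (le_abs_self _) hwW.le
  have hsl : c.sl = (K + 1) * (p.δ0 * p.W) := rfl
  have hsl' : c.sl ≤ (|K| + 1) * (p.δ0 * p.W) := by rw [hsl]; linarith
  have hsl0 : 0 ≤ c.sl := by linarith
  -- the small quantity
  set q := (|K| + 2) * (p.δ0 * p.W) with hq
  have hqn : 128 * p.n * q ≤ p.W := by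
    have := mul_le_mul_of_nonneg_right a5 hW.le
    rw [hq]
    linarith
  have hq0 : 0 ≤ q := by positivity
  have hslq : c.sl ≤ q := by rw [hq]; linarith
  have hκq : c.h.κ + mg F + cF F ≤ 2 * q := by rw [hq]; linarith
  have hqW : q ≤ p.W / 128 := by
    rw [le_div_iff₀ (by norm_num)]
    nlinarith
  have hwn : 1 / (4 * p.n) * p.W = p.W / (4 * p.n) := by ring
  have hqw : 32 * q ≤ p.W / (4 * p.n) := by
    rw [le_div_iff₀ (by positivity)]
    linarith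
  have hw1 : p.W / (4 * p.n) ≤ p.W / 4 := by
    apply div_le_div_of_nonneg_left hW.le (by norm_num); linarith
  have hxW : |x * p.W| ≤ (p.v + 1 / p.e) * p.W := by
    rw [abs_mul, abs_of_pos hW]
    exact mul_le_mul_of_nonneg_right hx hW.le
  have hs : |x * p.W + c.sl| ≤ (p.v + 1 / p.e) * p.W + c.sl :=
    (abs_add_le _ _).trans (add_le_add hxW (abs_of_nonneg hsl0).le)
  have hvW := mul_le_mul_of_nonneg_right a6 hW.le
  rw [hwn]
  refine ⟨⟨(a2 c).2, (a2 c).1, ?_, ?_, ?_, ?_⟩, ?_, ?_, ?_, ?_⟩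
  · have := hp.v'
    nlinarith
  · linarith
  · rw [c.L_eq]; linarith
  · rw [c.L_eq]; linarith
  · have h3 : p.W ≤ 8 * p.n * (p.W / (4 * p.n)) - p.W := by
      have : 8 * p.n * (p.W / (4 * p.n)) = 2 * p.W := by field_simp; norm_num
      linarith
    have h4 : 16 * p.n * c.sl ≤ p.W := by
      have : 16 * p.n * c.sl ≤ 16 * p.n * q := by gcongr
      linarith
    nlinarith
  · linarith
  · linarith
  · rw [div_le_one (by positivity)]; linarith

lemma mul_exp_le {M e : ℝ} (hM : 0 < M) (he : 0 < e) :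
    M * Real.exp (-(16 * M ^ 2 / e / M)) ≤ e / 16 := by
  have h1 : 16 * M ^ 2 / e / M = 16 * M / e := by field_simp
  rw [h1, Real.exp_neg]
  have h2 : 16 * M / e ≤ Real.exp (16 * M / e) := by linarith [Real.add_one_le_exp (16 * M / e)]
  have h3 : 0 < 16 * M / e := by positivity
  calc M * (Real.exp (16 * M / e))⁻¹ ≤ M * (16 * M / e)⁻¹ := by gcongr
    _ = e / 16 := by field_simp

/-- **field `F_ui`**: `A` any measurable set of the strips with `P Aᶜ ≤ e / (2 ^ 24 n ^ 3)`, any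
threshold `a l` for `|hull - ρ|`, positions up to `v + 1 / e` -/
theorem ev_F_ui {r : ℝ} (hr : 0 < r) [IsProbabilityMeasure (gammaMeasure 1 r)]
    (h0 : (gammaMeasure 1 r) (Iio 0) = 0)
    (h2 : Integrable (fun x : ℝ => x ^ 2) (gammaMeasure 1 r))
    (hμ : IsTC (gammaMeasure 1 r) μ) (hc0 : 0 < c0)
    (a : ℕ → ℝ → ℝ → ℝ → ℝ) (ha : ∀ n δ v e, 0 < e → 0 < a n δ v e) :
    Ev fun p => ∀ c : Cf (gammaMeasure 1 r) F w0 c0 K p, ∀ ρ : RowS → ℝ,
      c.IsRho (c.yA • F.b) ρ → ∀ A : Set RowS, MeasurableSet A →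
      SInv (E0 c.h (c.yA • F.b)) A →
      2 ^ 24 * p.n ^ 3 * (nuR (gammaMeasure 1 r)).real Aᶜ ≤ p.e →
      ∀ (T : Set RowS) (x : ℝ), |x| ≤ p.v + 1 / p.e →
      IntegrableOn ((c.rowA T).F (1 / (4 * p.n)) x) (A ∩ {q | |hkR c.h (c.yA • F.b) univ (-c.L)
        c.L q - ρ q| ≤ a p.n p.δ p.v p.e * c.l})ᶜ (nuR (gammaMeasure 1 r)) ∧
      ∫ q in (A ∩ {q | |hkR c.h (c.yA • F.b) univ (-c.L) c.L q - ρ q| ≤
        a p.n p.δ p.v p.e * c.l})ᶜ, (c.rowA T).F (1 / (4 * p.n)) x q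
        ∂(nuR (gammaMeasure 1 r)) ≤ p.e := by
  have a1 := ev_std (G := gammaMeasure 1 r) (F := F) (w0 := w0) (c0 := c0) (K := K)
  have a2 := ev_FD (G := gammaMeasure 1 r) (F := F) (w0 := w0) (c0 := c0) (K := K)
  have a3 := ev_med (G := gammaMeasure 1 r) (F := F) (w0 := w0) (K := K) hc0
  have a4 := ev_err (G := gammaMeasure 1 r) (F := F) (w0 := w0) (K := K) hc0
    (fun _ _ _ e => |16 * 480 / e|) (fun _ _ _ _ => abs_nonneg _)
  have a5 := Bf_small (G := gammaMeasure 1 r) (F := F) (w0 := w0) (K := K) hc0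
    (fun _ _ _ e => 16 * 3369 / e)
  have a6 := Bf_small (G := gammaMeasure 1 r) (F := F) (w0 := w0) (K := K) hc0
    (fun n δ v e => 48 * (16 * (48 * (2 ^ 19 * (n : ℝ) ^ 3)) ^ 2 / e) / (a n δ v e * e))
  refine (((((a1.and a2).and a3).and a4).and a5).and a6).mono ?_
  rintro p ⟨⟨⟨⟨⟨a1, a2⟩, a3⟩, a4⟩, a5⟩, a6⟩ c ρ hρ A hA hS hPA T x hx
  have hc := a1 c
  have hp := hc.toStd
  have he := hp.e_pos
  have he1 := hp.e_le
  have hn : (1 : ℝ) ≤ p.n := by exact_mod_cast hp.n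
  have hn3 : (1 : ℝ) ≤ (p.n : ℝ) ^ 3 := one_le_pow₀ hn
  have hl := hc.l_pos
  have haa : 0 < a p.n p.δ p.v p.e := ha _ _ _ _ he
  obtain ⟨hFD, hD1, hD2, hsl4, hw1⟩ := a2 c x hx
  have hmed := a3 c _ hD1 hD2
  have herr := a4 c _ hD1 hD2
  have hB1 := a5 c
  have hB2 := a6 c
  set s := x * p.W + c.sl with hs
  set D := 1 / (4 * p.n) * p.W - 2 * c.sl with hD
  set m : ℝ := 2 ^ 19 * p.n ^ 3 * c.l with hm
  have hm0 : 0 < m := by positivity
  set M : ℝ := 48 * (2 ^ 19 * (p.n : ℝ) ^ 3) with hM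
  have hM0 : 0 < M := by positivity
  have hMm : 48 * m = M * c.l := by rw [hm, hM]; ring
  set β : ℝ := 16 * M ^ 2 / p.e with hβ
  have hβ0 : 0 < β := by positivity
  have hMβ : M ≤ β := by
    rw [hβ, le_div_iff₀ he]
    have h1 : M * p.e ≤ M * 1 := mul_le_mul_of_nonneg_left he1 hM0.le
    have h2 : (1 : ℝ) ≤ M := by rw [hM]; linarith
    nlinarith
  have hd : 0 < a p.n p.δ p.v p.e * c.l := mul_pos haa hl
  obtain ⟨k1, k2⟩ := hFD.ui hr h0 h2 c.mean hμ (m := m) hmed hm0 hρ.meas hρ.glue hρ.int hA hS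
    (d := a p.n p.δ p.v p.e * c.l) (b := β * c.l) hd (by
      have : 48 * m ≤ β * c.l := by rw [hMm]; exact mul_le_mul_of_nonneg_right hMβ hl.le
      linarith)
  obtain ⟨iE, mE⟩ := hFD.err_mean h0 h2 c.mean hμ
  have e0 : dOv F (c.y / 2) c.g = c.yA • F.b := rfl
  rw [e0] at k1 k2
  set Tc : Set RowS := (A ∩ {q | |hkR c.h (c.yA • F.b) univ (-c.L) c.L q - ρ q| ≤
        a p.n p.δ p.v p.e * c.l})ᶜ with hTc
  have eF : ∀ᵐ q ∂(nuR (gammaMeasure 1 r)), (c.rowA T).F (1 / (4 * p.n)) x q =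
      sko c.h (c.y / 2) c.g (Icc s (s + D)) c.L s (s + D) q / c.l := by
    filter_upwards [ae_skp h0 c.h c.yA c.l c.L (Icc s (s + D)) s (s + D)] with q hq
    have h1 : (c.rowA T).F (1 / (4 * p.n)) x q = skp c.h c.yA c.l c.L
        (Icc (x * p.W + c.sl) ((x + 1 / (4 * p.n)) * p.W - c.sl)) (x * p.W + c.sl)
        ((x + 1 / (4 * p.n)) * p.W - c.sl) q := if_pos ⟨hsl4, hw1⟩
    have h3 : (x + 1 / (4 * p.n)) * p.W - c.sl = s + D := by rw [hs, hD]; ring
    rw [h1, h3, ← hs, hq]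
    rfl
  have mD := hρ.mean
  set I1 := ∫ q, |hkR c.h (c.yA • F.b) univ (-c.L) c.L q - ρ q| ∂(nuR (gammaMeasure 1 r))
    with hI1
  have hI1' : ∫ q, |hkR c.h (c.yA • F.b) univ (-c.L) c.L q - ρ q| ∂(PR (gammaMeasure 1 r)) =
    I1 := rfl
  rw [hI1'] at k2
  set I2 := ∫ w, |errF c.h (c.y / 2) c.g (p.v' * p.W) c.L s D w|
    ∂((PR (gammaMeasure 1 r)).prod PF) with hI2
  refine ⟨?_, ?_⟩
  · have h3 : IntegrableOn (fun q => sko c.h (c.y / 2) c.g (Icc s (s + D)) c.L s (s + D) q / c.l)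
      Tc (nuR (gammaMeasure 1 r)) := k1.div_const _
    exact h3.congr ((ae_restrict_of_ae eF).mono fun q hq => hq.symm)
  · have h3 : ∫ q in Tc, (c.rowA T).F (1 / (4 * p.n)) x q ∂(nuR (gammaMeasure 1 r)) =
        (∫ q in Tc, sko c.h (c.y / 2) c.g (Icc s (s + D)) c.L s (s + D) q
          ∂(nuR (gammaMeasure 1 r))) / c.l := by
      rw [integral_congr_ae (ae_restrict_of_ae eF), integral_div]
    rw [h3, div_le_iff₀ hl]
    refine le_trans k2 ?_
    -- the five terms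
    have t1 : 1123 * I1 ≤ p.e / 16 * c.l := by
      have h4 : 1123 * I1 ≤ 3369 * c.Bf := by linarith
      have h5 : 3369 * c.Bf = p.e / 16 * (16 * 3369 / p.e * c.Bf) := by field_simp
      rw [h5] at h4
      exact h4.trans (mul_le_mul_of_nonneg_left hB1 (by positivity))
    have t2 : 480 * I2 ≤ p.e / 16 * c.l := by
      rw [abs_of_pos (by positivity)] at herr
      have h4 : 480 * I2 = p.e / 16 * (16 * 480 / p.e * I2) := by field_simp
      rw [h4]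
      refine mul_le_mul_of_nonneg_left ?_ (by positivity)
      exact (mul_le_mul_of_nonneg_left mE (by positivity)).trans herr
    have t3 : 20 * m * (PR (gammaMeasure 1 r)).real Aᶜ ≤ 5 / 8 * p.e * c.l := by
      have h4 : (PR (gammaMeasure 1 r)).real Aᶜ = (nuR (gammaMeasure 1 r)).real Aᶜ := rfl
      rw [h4]
      have h5 : 20 * m * (nuR (gammaMeasure 1 r)).real Aᶜ =
        5 / 8 * (2 ^ 24 * p.n ^ 3 * (nuR (gammaMeasure 1 r)).real Aᶜ) * c.l := by
        rw [hm]; ring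
      rw [h5]
      refine mul_le_mul_of_nonneg_right ?_ hl.le
      linarith
    have t4 : β * c.l * I1 / (a p.n p.δ p.v p.e * c.l) ≤ p.e / 16 * c.l := by
      have h4 : β * c.l * I1 / (a p.n p.δ p.v p.e * c.l) ≤
          β * c.l * (3 * c.Bf) / (a p.n p.δ p.v p.e * c.l) := by
        gcongr
      have h5 : β * c.l * (3 * c.Bf) / (a p.n p.δ p.v p.e * c.l) =
          p.e / 16 * (48 * β / (a p.n p.δ p.v p.e * p.e) * c.Bf) := by
        field_simp
        ring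
      rw [h5] at h4
      exact h4.trans (mul_le_mul_of_nonneg_left hB2 (by positivity))
    have t5 : 48 * m * Real.exp (-(β * c.l / (48 * m))) ≤ p.e / 16 * c.l := by
      rw [hMm]
      have h4 : β * c.l / (M * c.l) = 16 * M ^ 2 / p.e / M := by
        rw [hβ]; field_simp
      rw [h4]
      have := mul_le_mul_of_nonneg_right (mul_exp_le hM0 he) hl.le
      linarith
    have hfin : p.e / 16 * c.l + p.e / 16 * c.l + 5 / 8 * p.e * c.l + p.e / 16 * c.l +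
        p.e / 16 * c.l ≤ p.e * c.l := by
      have : 0 ≤ p.e * c.l := by positivity
      linarith
    linarith

end Crest.Agent.R151.V
end

-- ▼ part R151/CL684h
section

/-!
# R151 / S0214 part 2, CL684h — the field `law` at `typA`, from `T_prob` (owner helper684)

`gt_TSA` : `GT` for the typical strips `c.TSA`; `tok_TSA` : `E191.TOK`;
`law_typA` : the law of the A-rows at positions `v + 1 / e`.
-/

set_option autoImplicit false
set_option maxHeartbeats 400000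

open MeasureTheory ProbabilityTheory Filter Set
open scoped ENNReal
open Crest.ProbabilityR.FirstPassage

namespace Crest.Agent.R151.CL

open Crest.Agent.R151.K
open B710 (FlatData)
open Q (Hwy P0 UU UU2 PF NS Ob Inv dOv)
open NF
open M192 (RowS PR)
open V (E0 posS typ)

variable {μ : ℝ × ℝ → ℝ} {G : Measure ℝ} {F : FlatData μ} {w0 c0 K : ℝ} {p : NF.Num}

/-- the observables are measurable -/
lemma ob_meas (c : Cf G F w0 c0 K p) (hρ : Measurable (c.rho (c.yA • F.b)))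
    (k : Fin 6 × (ℤ × ℤ)) : (c.ob k).Meas := by
  obtain ⟨i, j⟩ := k
  fin_cases i
  · exact Q.meas_obD _ _ _
  · exact Q.meas_obG _ _ _ _ hρ
  · exact Q.meas_obJ _ _ _ _ _
  · exact Q.meas_obK _ _ _ _ _ _
  · exact meas_fLo _ _ _ _ _
  · exact meas_fUp _ _ _ _ _ _

/-- the observables are invariant -/
lemma ob_inv (c : Cf G F w0 c0 K p) (hρ : ∀ φ, Inv fun θ t => c.rho (c.yA • F.b) ((θ, t), φ))
    (k : Fin 6 × (ℤ × ℤ)) : (c.ob k).Iv := by
  obtain ⟨i, j⟩ := k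
  fin_cases i
  · exact Q.inv_obD _ _ _
  · exact Q.inv_obG _ _ _ _ hρ
  · exact Q.inv_obJ _ _ _ _ _
  · exact Q.inv_obK _ _ _ _ _ _
  · exact inv_fLo _ _ _ _ _
  · exact inv_fUp _ _ _ _ _ _

lemma gr_zero : p.gr 0 = 0 := by simp [Num.gr]

/-- rounding to the grid -/
lemma exists_gr (hp : p.Std) {r : ℝ} (hr : |r| ≤ (p.v + 1 / p.e + 3) * p.W) :
    ∃ i ∈ Finset.Icc (-p.Mg) p.Mg, r ≤ p.gr i ∧ p.gr i ≤ r + p.δ / 128 * p.W := by
  have hW : 0 < p.W := zero_lt_one.trans_le hp.W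
  have hδ := hp.δ_pos
  have hδ1 := hp.δ_le
  have hu : 0 < p.δ / 128 * p.W := by positivity
  have hr' := abs_le.1 hr
  have hM : (p.v + 1 / p.e + 4) / (p.δ / 128) ≤ (p.Mg : ℝ) := Int.le_ceil _
  have h0 : 0 < p.δ / 128 := by positivity
  rw [div_le_iff₀ h0] at hM
  have hMW := mul_le_mul_of_nonneg_right hM hW.le
  refine ⟨⌈r / (p.δ / 128 * p.W)⌉, Finset.mem_Icc.2 ⟨?_, ?_⟩, ?_, ?_⟩
  · rw [← Int.cast_le (R := ℝ)]
    refine le_trans ?_ (Int.le_ceil _)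
    push_cast
    rw [le_div_iff₀ hu]
    nlinarith
  · rw [Int.ceil_le, div_le_iff₀ hu]
    nlinarith
  · unfold Num.gr
    have := Int.le_ceil (r / (p.δ / 128 * p.W))
    rwa [div_le_iff₀ hu] at this
  · unfold Num.gr
    have := (Int.ceil_lt_add_one (r / (p.δ / 128 * p.W))).le
    have h3 := mul_le_mul_of_nonneg_right this hu.le
    have h4 : (r / (p.δ / 128 * p.W) + 1) * (p.δ / 128 * p.W) = r + p.δ / 128 * p.W := by
      field_simp
    linarith

section facts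

variable [IsProbabilityMeasure G] {c : Cf G F w0 c0 K p}

lemma TSA_sub {k : Fin 6 × (ℤ × ℤ)} (hk : k ∈ p.idx) :
    c.TSA ⊆ typ G (E0 c.h (c.yA • F.b)) PF (NS (c.ob k) (c.thr k)) (p.e ^ 2) :=
  V.TSet_subset_typ c.h (c.yA • F.b) hk

lemma zero_mem_Icc (hp : p.Std) : (0 : ℤ) ∈ Finset.Icc (-p.Mg) p.Mg := by
  have hδ := hp.δ_pos
  have he := hp.e_pos
  have hv := hp.v
  have h1 : (0 : ℝ) ≤ (p.Mg : ℝ) := by
    refine le_trans ?_ (Int.le_ceil _)
    positivity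
  have h2 : (0 : ℤ) ≤ p.Mg := by exact_mod_cast h1
  exact Finset.mem_Icc.2 ⟨by omega, h2⟩

lemma mem_idx {k : Fin 6} {i j : ℤ} (hi : i ∈ Finset.Icc (-p.Mg) p.Mg)
    (hj : j ∈ Finset.Icc (-p.Mg) p.Mg) : (k, (i, j)) ∈ p.idx := by
  unfold Num.idx
  simp only [Finset.mem_product, Finset.mem_univ, true_and]
  exact ⟨hi, hj⟩

/-- **`GT` for the typical strips** -/
theorem gt_TSA (hl : c.Len) (hρ : c.IsRho (c.yA • F.b) (c.rho (c.yA • F.b))) :
    GT c c.TSA (c.rho (c.yA • F.b)) (p.e ^ 2) (p.δ / 16) (p.δ / 128) (p.v + 1 / p.e + 3)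
      (p.Nb F) := by
  have hp : p.Std := hl.toStd
  have hW : 0 < p.W := zero_lt_one.trans_le hp.W
  have h0 := zero_mem_Icc hp
  exact
    { meas := V.measurableSet_TSet c.h (c.yA • F.b)
        fun k _ => Q.measurableSet_NS (ob_meas c hρ.meas k) _
      sinv := V.sInv_TSet c.h (c.yA • F.b)
      pos := V.TSet_subset_posS c.h (c.yA • F.b)
      ρm := hρ.meas
      ρS := hρ.glue
      N_ge := by
        refine le_trans ?_ (Nat.le_ceil _)
        have hL : c.L = 2 * (p.v' * p.W) := hl.lam_eq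
        have h1 := norm_nonneg F.a
        have h2 : 0 ≤ p.W * ‖F.a‖ := mul_nonneg hW.le h1
        have h3 : 2 * c.L * ‖F.a‖ = 4 * p.v' * ‖F.a‖ * p.W := by rw [hL]; ring
        have h4 : ((4 * p.v' + 1) * ‖F.a‖ + ‖F.b‖ + 1) * p.W + 1 =
          4 * p.v' * ‖F.a‖ * p.W + p.W * ‖F.a‖ + p.W * ‖F.b‖ + p.W + 1 := by ring
        linarith
      tD := TSA_sub (k := (0, (0, 0))) (mem_idx h0 h0)
      tG := TSA_sub (k := (1, (0, 0))) (mem_idx h0 h0)
      tJ := TSA_sub (k := (2, (0, 0))) (mem_idx h0 h0)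
      tK := fun r hr => by
        obtain ⟨i, hi, h1, h2⟩ := exists_gr hp hr
        exact ⟨p.gr i, h1, h2, TSA_sub (k := (3, (i, 0))) (mem_idx hi h0)⟩
      tLo := fun r hr => by
        obtain ⟨i, hi, h1, h2⟩ := exists_gr hp hr
        refine ⟨p.gr i, h1, h2, ?_⟩
        have h3 := TSA_sub (c := c) (k := (4, (0, i))) (mem_idx h0 hi)
        have h4 : c.ob (4, (0, i)) = fLo c c.g 0 (p.gr i) (p.δ / 16 * p.W) := by
          show fLo c c.g (p.gr 0) (p.gr i) p.zf = _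
          rw [gr_zero]
          rfl
        rw [h4] at h3
        exact h3
      tUp := fun r hr => by
        obtain ⟨i, hi, h1, h2⟩ := exists_gr hp hr
        refine ⟨p.gr i, h1, h2, ?_⟩
        have h3 := TSA_sub (c := c) (k := (5, (0, i))) (mem_idx h0 hi)
        have h4 : c.ob (5, (0, i)) = fUp c (c.y / 2) c.g 0 (p.gr i) (p.δ / 16 * p.W) := by
          show fUp c (c.y / 2) c.g (p.gr 0) (p.gr i) p.zf = _
          rw [gr_zero]
          rfl
        rw [h4] at h3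
        exact h3 }

/-- **`TOK` for the typical strips** -/
theorem tok_TSA (hl : c.Len) (hρ : c.IsRho (c.yA • F.b) (c.rho (c.yA • F.b))) :
    E191.TOK c.h (c.yA • F.b) c.TSA (c.rho (c.yA • F.b)) where
  TS_meas := (gt_TSA hl hρ).meas
  TS_mB := by
    have hrow := hl.row (Cf.htA (c := c) hl.toC)
    have h1 : c.h.wH < F.be (c.yA • F.b) := by
      have := hrow.1
      have e1 : F.be (dOv F (c.y / 2) c.g) = F.be (c.yA • F.b) := rfl
      have hmg := M56.one_le_mg F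
      linarith
    exact V.measurableSet_TSet_mB c.h (c.yA • F.b) h1
      (fun k _ => Q.measurableSet_NS (ob_meas c hρ.meas k) _)
      (fun k _ ω φ => Q.inv_NS (ob_inv c hρ.inv k) _ ω φ)
  TS_sinv := (gt_TSA hl hρ).sinv
  ρ_meas := hρ.meas
  ρ_cs := hρ.glue
  ρ_inv := hρ.inv

end facts

/-- **the law of the A-rows at positions `v + 1 / e`**, from the probability of the typical set -/
theorem law_typA {r₀ : ℝ} (hr : 0 < r₀) [IsProbabilityMeasure (gammaMeasure 1 r₀)]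
    (h0 : gammaMeasure 1 r₀ (Set.Iio 0) = 0)
    (h2 : Integrable (fun x : ℝ => x ^ 2) (gammaMeasure 1 r₀)) (hμ : IsTC (gammaMeasure 1 r₀) μ)
    (hn : B710.NormLike μ) (hc0 : 0 < c0) (hK : 0 ≤ K)
    (T_prob : ∀ B : ℕ → ℝ → ℝ → ℝ → ℝ, Ev fun p => ∀ c : Cf (gammaMeasure 1 r₀) F w0 c0 K p,
      B p.n p.δ p.v p.e * (nuR (gammaMeasure 1 r₀)).real (c.TSA)ᶜ ≤ 1 ∧
      B p.n p.δ p.v p.e * (nuR (gammaMeasure 1 r₀)).real (c.typA)ᶜ ≤ 1) :
    Ev fun p => ∀ c : Cf (gammaMeasure 1 r₀) F w0 c0 K p,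
      (c.rowA c.typA).Law (nuR (gammaMeasure 1 r₀)) c.mB (E191.CF 1100) p.n p.δ
        (p.v + 1 / p.e) p.e := by
  have a1 := ev_law_of (F := F) (w0 := w0) (c0 := c0) (K := K) hr h0 h2 hμ hn hc0 hK
  have a2 := T_prob fun n _ _ e => (2 ^ 24 * (n : ℝ) ^ 3 + 1) / e
  have a3 := V.ev_F_ui (F := F) (w0 := w0) (c0 := c0) (K := K) hr h0 h2 hμ hc0
    (fun _ _ _ e => e ^ 2) (fun _ _ _ e he => by positivity)
  have a4 := rho_spec (G := gammaMeasure 1 r₀) (F := F) (w0 := w0) (c0 := c0) (K := K) h0 h2 hμ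
  have a5 := ev_lens (G := gammaMeasure 1 r₀) (F := F) (w0 := w0) (c0 := c0) (K := K)
  refine (((a1.and a2).and (a3.and a4)).and a5).mono ?_
  rintro p ⟨⟨⟨a1, a2⟩, a3, a4⟩, a5⟩ c
  have hl := a5 c
  have hp : p.Std := hl.toStd
  have he := hp.e_pos
  have hρ : c.IsRho (c.yA • F.b) (c.rho (c.yA • F.b)) := a4 c _ _ (Cf.htA (c := c) hl.toC)
  obtain ⟨t1, t2⟩ := a2 c
  have hn3 : 0 ≤ 2 ^ 24 * (p.n : ℝ) ^ 3 := by positivity
  have hP1 : 0 ≤ (nuR (gammaMeasure 1 r₀)).real (c.TSA)ᶜ := measureReal_nonneg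
  have hP2 : 0 ≤ (nuR (gammaMeasure 1 r₀)).real (c.typA)ᶜ := measureReal_nonneg
  have u1 : 2 ^ 24 * (p.n : ℝ) ^ 3 * (nuR (gammaMeasure 1 r₀)).real (c.TSA)ᶜ ≤ p.e := by
    rw [div_mul_eq_mul_div, div_le_one he] at t1
    linarith
  have u2 : (nuR (gammaMeasure 1 r₀)).real (c.typA)ᶜ ≤ p.e := by
    rw [div_mul_eq_mul_div, div_le_one he] at t2
    have := mul_nonneg hn3 hP2
    linarith
  have hgt := gt_TSA hl hρ
  exact a1 c c.TSA c.typA (c.rho (c.yA • F.b)) (p.v + 1 / p.e + 3) (p.Nb F) hgt (by linarith)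
    (tok_TSA hl hρ) rfl u2
    (fun x hx => (a3 c _ hρ c.TSA hgt.meas hgt.sinv u1 c.typA x hx).2)

end Crest.Agent.R151.CL
end

-- ▼ part R151/E39h
section

/-!
# R151 / S0214 part 2, E39h — the dichotomy, abstract part (helper39)

* `cheap_of_tail` : exponential tail with rate `64` on typical rows ⟹ `Cheap`;
* `costly_of` : small ball of the window kernel + `m`-cell exit + `cells_large` ⟹ `Costly`;
* `dich_of` : the dichotomy, according to the median of one inner row.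
-/

set_option autoImplicit false

open MeasureTheory ProbabilityTheory Set Filter
open scoped ENNReal Topology

namespace Crest.Agent.R151.E39

open Crest.Agent.R151.E191

section pure

variable {Ω : Type*} [MeasurableSpace Ω] {P : Measure Ω} [IsProbabilityMeasure P]

/-- mean of a nonnegative variable on a set, from an exponential tail -/
theorem mean_of_tail {f : Ω → ℝ} {T : Set Ω} (hf : Measurable f)
    (h0 : ∀ ω, 0 ≤ f ω) {c C : ℝ} (hc : 0 < c) (hC : 0 ≤ C)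
    (ht : ∀ y, 0 ≤ y → P.real ({ω | y ≤ f ω} ∩ T) ≤ C * Real.exp (-(c * y))) :
    IntegrableOn f T P ∧ ∫ ω in T, f ω ∂P ≤ C / c := by
  have hexp : ∫⁻ y in Ioi (0 : ℝ), ENNReal.ofReal (C * Real.exp (-(c * y))) =
      ENNReal.ofReal (C / c) := by
    have hint : IntegrableOn (fun y : ℝ => C * Real.exp (-(c * y))) (Ioi 0) := by
      have := (integrableOn_exp_mul_Ioi (a := -c) (by linarith) 0).const_mul C
      have h2 : (fun y : ℝ => C * Real.exp (-(c * y))) = fun y => C * Real.exp (-c * y) := by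
        funext y; ring_nf
      rw [h2]
      exact this
    rw [← ofReal_integral_eq_lintegral_ofReal hint
      (ae_of_all _ fun y => mul_nonneg hC (Real.exp_pos _).le)]
    congr 1
    rw [integral_const_mul]
    have h1 := integral_exp_mul_Ioi (a := -c) (by linarith) 0
    have h2 : (fun y : ℝ => Real.exp (-(c * y))) = fun y => Real.exp (-c * y) := by
      funext y; ring_nf
    rw [h2, h1]
    simp
    ring
  have hlint : ∫⁻ ω in T, ENNReal.ofReal (f ω) ∂P ≤ ENNReal.ofReal (C / c) := by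
    rw [lintegral_eq_lintegral_meas_le _ (ae_of_all _ h0) hf.aemeasurable, ← hexp]
    refine setLIntegral_mono' measurableSet_Ioi fun y hy => ?_
    rw [Measure.restrict_apply (measurableSet_le measurable_const hf)]
    rw [← ENNReal.ofReal_toReal (measure_ne_top P ({ω | y ≤ f ω} ∩ T))]
    exact ENNReal.ofReal_le_ofReal (ht y (le_of_lt hy))
  have hi : IntegrableOn f T P := by
    refine ⟨hf.aestronglyMeasurable, ?_⟩
    rw [hasFiniteIntegral_iff_ofReal (ae_of_all _ h0)]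
    exact lt_of_le_of_lt hlint ENNReal.ofReal_lt_top
  refine ⟨hi, ?_⟩
  rw [← ofReal_integral_eq_lintegral_ofReal hi (ae_of_all _ h0)] at hlint
  exact (ENNReal.ofReal_le_ofReal_iff (div_nonneg hC hc.le)).1 hlint

/-- `Cheap` from an exponential tail -/
theorem cheap_of_tail {R : RowA Ω} {C0 δ : ℝ}
    (hm : ∀ x : ℝ, -(1 / 16) ≤ x → x < 1 / 8 → Measurable (R.K x (x + 5 * δ)))
    (h0 : ∀ x : ℝ, -(1 / 16) ≤ x → x < 1 / 8 → ∀ ω, 0 ≤ R.K x (x + 5 * δ) ω)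
    (ht : ∀ x y : ℝ, -(1 / 16) ≤ x → x < 1 / 8 → 0 ≤ y →
      P.real ({ω | y ≤ R.K x (x + 5 * δ) ω} ∩ R.T) ≤ 2 * Real.exp (-(64 * y)))
    (hC : 2 ≤ C0) : R.Cheap P C0 δ where
  int x hx1 hx2 := (mean_of_tail (hm x hx1 hx2) (h0 x hx1 hx2) (c := 64) (C := 2)
    (by norm_num) (by norm_num) fun y hy => ht x y hx1 hx2 hy).1
  mean x hx1 hx2 := by
    have := (mean_of_tail (hm x hx1 hx2) (h0 x hx1 hx2) (c := 64) (C := 2)
      (by norm_num) (by norm_num) fun y hy => ht x y hx1 hx2 hy).2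
    norm_num at this ⊢
    exact this
  tail x y hx1 hx2 hy := by
    refine (ht x y hx1 hx2 hy).trans ?_
    have h1 : Real.exp (-(64 * y)) ≤ Real.exp (-y / C0) := by
      apply Real.exp_le_exp.2
      rw [neg_div, neg_le_neg_iff]
      have : y / C0 ≤ y := div_le_self hy (by linarith)
      linarith
    have h2 := Real.exp_pos (-y / C0)
    nlinarith

/-- number of cells to be crossed by a route leaving the window -/
lemma exists_cells {C1 e : ℝ} {n : ℕ} (hn : 1 ≤ Real.log n / C1 - C1) (he : 0 < e)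
    (he1 : e ≤ 1) : ∃ m : ℕ, 1 ≤ m ∧ 3 * (m : ℝ) / 16 + 1 / 32 ≤ 1 / e ∧
      2 * Real.exp (-((Real.log n / C1 - C1) * m)) ≤ e / 2 := by
  have h4e : 0 < 4 / e := by positivity
  have hlog : 0 < Real.log (4 / e) := Real.log_pos (by
    rw [lt_div_iff₀ he]; linarith)
  refine ⟨⌈Real.log (4 / e)⌉₊, Nat.one_le_iff_ne_zero.2 (by
    have := Nat.ceil_pos.2 hlog; omega), ?_, ?_⟩
  · have h1 := Nat.ceil_lt_add_one hlog.le
    have h2 : Real.log (4 / e) ≤ 4 / e - 1 := Real.log_le_sub_one_of_pos h4e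
    have h3 : (1 : ℝ) ≤ 1 / e := by rw [le_div_iff₀ he]; linarith
    have h4 : 4 / e = 4 * (1 / e) := by ring
    linarith
  · have h1 := Nat.le_ceil (Real.log (4 / e))
    have h2 : Real.exp (-((Real.log n / C1 - C1) * (⌈Real.log (4 / e)⌉₊ : ℝ))) ≤
        Real.exp (-Real.log (4 / e)) := by
      apply Real.exp_le_exp.2
      have h3 : (0 : ℝ) ≤ (⌈Real.log (4 / e)⌉₊ : ℝ) := Nat.cast_nonneg _
      nlinarith
    rw [Real.exp_neg (Real.log (4 / e)), Real.exp_log h4e, inv_div] at h2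
    linarith

/-- **`Costly`** from the small ball of the window kernel `Kw`, the `m`-cell exit and the large
deviations of the cells. -/
theorem costly_of {R : RowA Ω} {Kw : ℝ → ℝ → Ω → ℝ} {C0 C1 C2 δ v e : ℝ} {n : ℕ}
    (hC2 : 0 ≤ C2) (hC0 : C2 ≤ C0) (hC01 : 1 ≤ C0)
    (hn : 1 ≤ Real.log n / C1 - C1) (he : 0 < e) (he1 : e ≤ 1)
    (hM : ∀ (ω : Ω) (s t xR xL : ℝ) (m : ℕ), 1 ≤ m → |s| ≤ v → |t| ≤ v → t ≤ xR →
      xR + 3 * m / 16 + 1 / 32 ≤ v + 1 / e → -(v + 1 / e) ≤ xL → xL + 3 * m / 16 + 1 / 32 ≤ s →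
      min (Kw s t ω) (min (R.cross xR m ω) (R.cross xL m ω)) ≤ R.K s t ω)
    (hcells : ∀ (x : ℝ) (m : ℕ), |x| ≤ v + 1 / e → |x + 3 * m / 16 + 1 / 32| ≤ v + 1 / e →
      P.real ({ω | R.cross x m ω ≤ m} ∩ R.T) ≤ Real.exp (-((Real.log n / C1 - C1) * m)))
    (hw : ∀ x κ : ℝ, |x| ≤ v → |x + δ| ≤ v → 0 ≤ κ →
      P.real ({ω | Kw x (x + δ) ω ≤ κ} ∩ R.T) ≤ C2 * κ + e / 2) :
    R.Costly P C0 δ v e := by
  intro x κ hx hxδ hκ
  have hv : 0 ≤ v := (abs_nonneg x).trans hx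
  have hP1 : P.real ({ω | R.K x (x + δ) ω ≤ κ} ∩ R.T) ≤ 1 := measureReal_le_one
  rcases le_total 1 κ with h1 | h1
  · nlinarith
  obtain ⟨m, hm1, hm2, hm3⟩ := exists_cells hn he he1
  have hm1' : (1 : ℝ) ≤ m := by exact_mod_cast hm1
  set xR : ℝ := v with hxR
  set xL : ℝ := -v - 3 * m / 16 - 1 / 32 with hxL
  have hxa := abs_le.1 hx
  have hxb := abs_le.1 hxδ
  have hinv : 0 < 1 / e := by positivity
  have hsub : {ω | R.K x (x + δ) ω ≤ κ} ∩ R.T ⊆
      ({ω | Kw x (x + δ) ω ≤ κ} ∩ R.T) ∪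
        (({ω | R.cross xR m ω ≤ m} ∩ R.T) ∪ ({ω | R.cross xL m ω ≤ m} ∩ R.T)) := by
    rintro ω ⟨hω, hωT⟩
    have h2 := hM ω x (x + δ) xR xL m hm1 hx hxδ hxb.2 (by rw [hxR]; linarith) (by rw [hxL]; linarith)
      (by rw [hxL]; linarith)
    have h3 := h2.trans hω
    rcases min_le_iff.1 h3 with h4 | h4
    · exact Or.inl ⟨h4, hωT⟩
    · rcases min_le_iff.1 h4 with h5 | h5
      · exact Or.inr (Or.inl ⟨le_trans h5 (h1.trans hm1'), hωT⟩)
      · exact Or.inr (Or.inr ⟨le_trans h5 (h1.trans hm1'), hωT⟩)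
  have hR := hcells xR m (by rw [hxR, abs_of_nonneg hv]; linarith)
    (by rw [hxR, abs_of_nonneg (by positivity)]; linarith)
  have hL := hcells xL m (by rw [hxL, abs_le]; constructor <;> linarith)
    (by rw [hxL, abs_le]; constructor <;> linarith)
  have hW := hw x κ hx hxδ hκ
  have h6 := (measureReal_mono hsub (measure_ne_top P _)).trans (measureReal_union_le _ _)
  have h7 := measureReal_union_le (μ := P) ({ω | R.cross xR m ω ≤ m} ∩ R.T)
    ({ω | R.cross xL m ω ≤ m} ∩ R.T)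
  have h8 : C2 * κ ≤ C0 * κ := mul_le_mul_of_nonneg_right hC0 hκ
  linarith

/-- **the dichotomy**: `V` = cost of one inner row -/
theorem dich_of {R : RowA Ω} {Kw : ℝ → ℝ → Ω → ℝ} {V : Ω → ℝ} {C0 C1 C2 δ v e τ : ℝ} {n : ℕ}
    (hV : Measurable V)
    (hm : ∀ x : ℝ, -(1 / 16) ≤ x → x < 1 / 8 → Measurable (R.K x (x + 5 * δ)))
    (h0 : ∀ x : ℝ, -(1 / 16) ≤ x → x < 1 / 8 → ∀ ω, 0 ≤ R.K x (x + 5 * δ) ω)
    (hC2 : 0 ≤ C2) (hC0 : C2 ≤ C0) (hC01 : 2 ≤ C0)
    (hn : 1 ≤ Real.log n / C1 - C1) (he : 0 < e) (he1 : e ≤ 1)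
    (hM : ∀ (ω : Ω) (s t xR xL : ℝ) (m : ℕ), 1 ≤ m → |s| ≤ v → |t| ≤ v → t ≤ xR →
      xR + 3 * m / 16 + 1 / 32 ≤ v + 1 / e → -(v + 1 / e) ≤ xL → xL + 3 * m / 16 + 1 / 32 ≤ s →
      min (Kw s t ω) (min (R.cross xR m ω) (R.cross xL m ω)) ≤ R.K s t ω)
    (hcells : ∀ (x : ℝ) (m : ℕ), |x| ≤ v + 1 / e → |x + 3 * m / 16 + 1 / 32| ≤ v + 1 / e →
      P.real ({ω | R.cross x m ω ≤ m} ∩ R.T) ≤ Real.exp (-((Real.log n / C1 - C1) * m)))
    (hw : 1 / 2 ≤ P.real {ω | τ ≤ V ω} → ∀ x κ : ℝ, |x| ≤ v → |x + δ| ≤ v → 0 ≤ κ →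
      P.real ({ω | Kw x (x + δ) ω ≤ κ} ∩ R.T) ≤ C2 * κ + e / 2)
    (ht : 1 / 2 ≤ P.real {ω | V ω ≤ τ} → ∀ x y : ℝ, -(1 / 16) ≤ x → x < 1 / 8 → 0 ≤ y →
      P.real ({ω | y ≤ R.K x (x + 5 * δ) ω} ∩ R.T) ≤ 2 * Real.exp (-(64 * y))) :
    R.Cheap P C0 δ ∨ R.Costly P C0 δ v e := by
  rcases le_or_gt (1 / 2) (P.real {ω | τ ≤ V ω}) with h | h
  · exact Or.inr (costly_of hC2 hC0 (by linarith) hn he he1 hM hcells (hw h))
  · left
    refine cheap_of_tail hm h0 (ht ?_) hC01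
    have h1 : MeasurableSet {ω | τ ≤ V ω} := measurableSet_le measurable_const hV
    have h2 := probReal_compl_eq_one_sub (μ := P) h1
    have h3 : P.real {ω | τ ≤ V ω}ᶜ ≤ P.real {ω | V ω ≤ τ} := by
      refine measureReal_mono (fun ω hω => ?_) (measure_ne_top P _)
      simp only [mem_compl_iff, mem_ofPred_eq, not_le] at hω
      exact hω.le
    linarith

end pure

end Crest.Agent.R151.E39
end

-- ▼ part R151/E39i
section

/-!
# R151 / S0214 part 2, E39i — (T1), (T2) in unconditional form on the typical set (helper39)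

`S` = a `σ(S)`-measurable set of typical rows; `D = gauge - ρ`.
* `gen_T1` : small ball of `R#` on `S`;
* `gen_T2` : exponential tail of `R#` on `S ∩ {|D| ≤ A}`.
-/

set_option autoImplicit false

open MeasureTheory Filter ProbabilityTheory Topology Set
open scoped ENNReal
open Crest.ProbabilityR.FirstPassage

namespace Crest.Agent.R151.E39

open K R78 B710 G338 M192 Q

variable {μ : ℝ × ℝ → ℝ} {F : FlatData μ}

lemma hE_E0 (h : Hwy F) (d : ℝ × ℝ) (e : Sym2 (ℤ × ℤ)) :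
    MeasurableSet {θ | e ∈ V.E0 h d θ} := V.measurableSet_E0 h d e

/-- **(T1), unconditional form** -/
theorem gen_T1 {r₀ : ℝ} (hr : 0 < r₀) [IsProbabilityMeasure (gammaMeasure 1 r₀)]
    (h0 : gammaMeasure 1 r₀ (Set.Iio 0) = 0) (hμ : NormLike μ) {cψ : ℝ}
    (hpsi : ∀ (v : ℝ × ℝ) (A : ℝ), 0 ≤ A → F.al v ≤ -A → |F.be v| ≤ A → cψ * A ≤ F.ψ v)
    {h : Hwy F} {y g c Λ L : ℝ} {I I' : Set ℝ} {s s' σ σ' Δ : ℝ} {N : ℕ}
    (H : LowData h y g c Λ L I I' s s' σ σ' Δ N) (hI : MeasurableSet I)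
    (hI' : MeasurableSet I') {ρ : RowS → ℝ} (hρm : Measurable ρ)
    (hρS : ∀ p t, ρ (V.cs (V.E0 h (dOv F y g)) p t) = ρ p)
    {A B e τ q₀ a : ℝ} (hA : 0 < A) (he : 0 ≤ e) (hτ : A < τ) (hτB : τ ≤ cψ * Δ - 4 * B)
    (hq0 : 0 < q₀) (hq1 : q₀ ≤ 6) (hq : 6 * e ≤ q₀) (ha : 0 ≤ a) {S : Set RowS}
    (hSm : MeasurableSet S) (hSI : V.SInv (V.E0 h (dOv F y g)) S)
    (hpos : S ⊆ V.posS h (dOv F y g))
    (hK : S ⊆ V.typ (gammaMeasure 1 r₀) (V.E0 h (dOv F y g)) PF (NS (obK h y g c Λ L) A) e)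
    (hD : S ⊆ V.typ (gammaMeasure 1 r₀) (V.E0 h (dOv F y g)) PF (NS (obD F y g N) B) e)
    (hG : S ⊆ V.typ (gammaMeasure 1 r₀) (V.E0 h (dOv F y g)) PF (NS (obG h y g L ρ) A) e)
    (hin : q₀ ≤ (PR (gammaMeasure 1 r₀)).real {q | τ ≤ ski h y I' L σ σ' q}) :
    (PR (gammaMeasure 1 r₀)).real ({q | sko h y g I L s s' q ≤ a} ∩ S) ≤
      3 * e + (a + 3 * A) / (τ - A) * Real.log (6 / q₀) := by
  refine V.prob_inter_le (hE_E0 h _) hSm hSI
    (measurableSet_le (measurable_sko h y g hI L s s') measurable_const) ?_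
    (ae_of_all _ fun p hp => ?_)
  · have h1 : 0 ≤ Real.log (6 / q₀) := Real.log_nonneg (by
      rw [le_div_iff₀ hq0]; linarith)
    have h2 : 0 ≤ (a + 3 * A) / (τ - A) := div_nonneg (by linarith) (by linarith)
    have := mul_nonneg h2 h1
    linarith
  · exact (T1c hr h0 hμ hpsi H hI hI' hρm hρS hA he hτ hτB hq0 hq ha (hpos hp) (hK hp) (hD hp)
      (hG hp) hin).1


end Crest.Agent.R151.E39
end

-- ▼ part R151/E39j
section

/-!
# R151 / S0214 part 2, E39j — the costly alternative for configurations (helper39)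

* `DNum` : numerical facts; `ev_DNum`;
* `V0` : the inner row whose median decides;
* `D1` : small ball of the window kernel.
-/

set_option autoImplicit false

open MeasureTheory Filter ProbabilityTheory Topology Set
open scoped ENNReal
open Crest.ProbabilityR.FirstPassage

namespace Crest.Agent.R151.E39

open K R78 B710 G338 M192 Q NF
open M56 (mg one_le_mg)

variable {μ : ℝ × ℝ → ℝ} {F : FlatData μ}

/-- numerical facts of a configuration used in the dichotomy -/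
structure DNum {G : Measure ℝ} {w0 c0 K : ℝ} {p : NF.Num} (c : Cf G F w0 c0 K p) (cψ : ℝ) :
    Prop where
  std : c.Std
  small : 4 * cF F + 4 * mg F + c.h.κ + c.h.wH + c.g + 4 ≤ p.δ * p.W / 32
  gap : c.h.wH + 2 * mg F + cF F + 1 ≤ c.g
  row : c.h.wH + 2 * mg F + 1 ≤ c.y / 2
  win : (3 * (p.v + 1 / p.e) + 10) * p.W ≤ p.v' * p.W
  lW : c.l ≤ cψ * p.δ * p.W / 16

/-- half width of the window (in units of `W`) -/
noncomputable def lamD (p : NF.Num) : ℝ := p.v + 1 / p.e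

/-- the inner row: cost of the rise `0 → 3 δ W` at height `y / 2` -/
noncomputable def V0 {G : Measure ℝ} {w0 c0 K : ℝ} {p : NF.Num} (c : Cf G F w0 c0 K p)
    (q : RowS) : ℝ :=
  ski c.h (c.y / 2) (Jw ((2 * lamD p + 4) * p.W)) c.L 0 (3 * p.δ * p.W) q

lemma measurable_V0 {G : Measure ℝ} {w0 c0 K : ℝ} {p : NF.Num} (c : Cf G F w0 c0 K p) :
    Measurable (V0 c) := measurable_ski c.h _ (measurable_Jw _) _ _ _

section ev

theorem ev_DNum {G : Measure ℝ} {w0 c0 K cψ : ℝ} (hψ : 0 < cψ) :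
    Ev fun p => ∀ c : Cf G F w0 c0 K p, DNum c cψ := by
  have a1 := ev_std (G := G) (F := F) (w0 := w0) (c0 := c0) (K := K)
  have a2 := le_w (2 * (4 * cF F + 4 * mg F + 4))
  have a3 := strip_le_gap fun _ _ _ _ _ _ => 4 * (3 + |K|)
  have a4 := gap_le fun _ δ _ _ _ => 64 / δ
  have a5 := le_v' fun _ _ v e => 3 * (v + 1 / e) + 10
  have a6 := l_small (G := G) (F := F) (w0 := w0) (c0 := c0) (K := K)
    fun _ δ _ _ _ _ _ => 16 / (cψ * δ)
  refine (((((a1.and a2).and a3).and a4).and a5).and a6).mono ?_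
  rintro p ⟨⟨⟨⟨⟨a1, a2⟩, a3⟩, a4⟩, a5⟩, a6⟩ c
  have hc := a1 c
  have a6 := a6 c
  have hp := hc.toStd
  have hmg := one_le_mg F
  have hcF := cF_nonneg F
  have hW : 0 < p.W := zero_lt_one.trans_le hp.W
  have hD : 0 < p.δ0 * p.W := mul_pos hp.δ0_pos hW
  have hκ := c.κ_le
  have hκ0 := c.h.κ_nonneg
  have hK : K * (p.δ0 * p.W) ≤ |K| * (p.δ0 * p.W) :=
    mul_le_mul_of_nonneg_right (le_abs_self _) hD.le
  have hKn : 0 ≤ |K| * (p.δ0 * p.W) := by positivity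
  have hwH := c.wH
  have hg := c.g_eq
  have hδ := hp.δ_pos
  -- g small relative to δ W
  have hgδ : 64 * c.g ≤ p.δ * p.W := by
    have h1 : 64 / p.δ * (p.δ' * p.W) ≤ p.W := a4
    rw [div_mul_eq_mul_div, div_le_iff₀ hδ] at h1
    rw [hg]; linarith
  have hsum : 4 * cF F + 4 * mg F + c.h.κ + c.h.wH + 4 ≤ c.g := by
    rw [hg, hwH]
    nlinarith
  refine ⟨hc, ?_, ?_, ?_, ?_, ?_⟩
  · linarith
  · linarith
  · have := hc.g_le
    have := hc.g_pos
    linarith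
  · exact mul_le_mul_of_nonneg_right a5 hW.le
  · have h1 : 16 / (cψ * p.δ) * c.l ≤ p.W := a6
    have h2 : 0 < cψ * p.δ := by positivity
    rw [div_mul_eq_mul_div, div_le_iff₀ h2] at h1
    rw [le_div_iff₀ (by norm_num)]
    linarith

end ev

lemma real_mono_ae {Ω : Type*} [MeasurableSpace Ω] {P : Measure Ω} [IsFiniteMeasure P]
    {A B : Set Ω} (h : ∀ᵐ ω ∂P, ω ∈ A → ω ∈ B) : P.real A ≤ P.real B :=
  ENNReal.toReal_mono (measure_ne_top _ _) (measure_mono_ae h)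

instance {G : Measure ℝ} [IsProbabilityMeasure G] : IsProbabilityMeasure (nuR G) := by
  unfold nuR; infer_instance

/-- `skp` and `sko` -/
lemma ae_skp_sko {G : Measure ℝ} [IsProbabilityMeasure G] (h0 : G (Iio 0) = 0) {w0 c0 K : ℝ}
    {p : NF.Num} (c : Cf G F w0 c0 K p) (I : Set ℝ) (s r : ℝ) :
    ∀ᵐ q ∂(nuR G), skp c.h c.yA c.l c.L I s r q = sko c.h (c.y / 2) c.g I c.L s r q / c.l := by
  filter_upwards [ae_skp h0 c.h c.yA c.l c.L I s r] with q hq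
  rw [hq]
  rfl

set_option maxHeartbeats 2000000 in
/-- **(D1)** small ball of the window kernel -/
theorem D1 {r₀ : ℝ} (hr : 0 < r₀) [IsProbabilityMeasure (gammaMeasure 1 r₀)]
    (h0 : gammaMeasure 1 r₀ (Set.Iio 0) = 0) (hμ : NormLike μ) {cψ : ℝ}
    (hpsi : ∀ (v : ℝ × ℝ) (A : ℝ), 0 ≤ A → F.al v ≤ -A → |F.be v| ≤ A → cψ * A ≤ F.ψ v)
    {w0 c0 K : ℝ} {p : NF.Num} (c : Cf (gammaMeasure 1 r₀) F w0 c0 K p) (hc : DNum c cψ)
    {Λ A B e' η τ : ℝ} {N : ℕ} (hΛ1 : (2 * lamD p + 4) * p.W ≤ Λ)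
    (hΛ2 : Λ + (2 * lamD p + 4) * p.W ≤ c.L)
    {ρ : RowS → ℝ} (hρm : Measurable ρ)
    (hρS : ∀ q t, ρ (V.cs (V.E0 c.h (dOv F (c.y / 2) c.g)) q t) = ρ q)
    (hA : 0 < A) (he : 0 ≤ e') (he1 : 12 * e' ≤ 1) (hη : 16 * η ≤ p.δ)
    (hN : (c.L + 2 * cF F + (p.v + 2) * p.W) * ‖F.a‖ + (c.h.wH + c.g + cF F) * ‖F.b‖ + 1 ≤ N)
    (hAτ : A < τ) (hτ : τ ≤ c.l) (hB : 16 * B ≤ cψ * p.δ * p.W / 4)
    {S : Set RowS}
    (hSm : MeasurableSet S) (hSI : V.SInv (V.E0 c.h (dOv F (c.y / 2) c.g)) S)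
    (hpos : S ⊆ V.posS c.h (dOv F (c.y / 2) c.g))
    (hK : ∀ x : ℝ, |x| ≤ (p.v + 1) * p.W → ∃ c', x ≤ c' ∧ c' ≤ x + η * p.W ∧
      S ⊆ V.typ (gammaMeasure 1 r₀) (V.E0 c.h (dOv F (c.y / 2) c.g)) PF
        (NS (obK c.h (c.y / 2) c.g c' Λ c.L) A) e')
    (hD : S ⊆ V.typ (gammaMeasure 1 r₀) (V.E0 c.h (dOv F (c.y / 2) c.g)) PF
      (NS (obD F (c.y / 2) c.g N) B) e')
    (hG : S ⊆ V.typ (gammaMeasure 1 r₀) (V.E0 c.h (dOv F (c.y / 2) c.g)) PF
      (NS (obG c.h (c.y / 2) c.g c.L ρ) A) e')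
    (hin : 1 / 2 ≤ (nuR (gammaMeasure 1 r₀)).real {q | τ ≤ V0 c q})
    {x κ' : ℝ} (hx : |x| ≤ p.v) (hxδ : |x + p.δ| ≤ p.v) (hκ' : 0 ≤ κ') :
    (nuR (gammaMeasure 1 r₀)).real
      ({q | skp c.h c.yA c.l c.L (Icc (-(lamD p * p.W)) (lamD p * p.W)) (x * p.W)
        ((x + p.δ) * p.W) q ≤ κ'} ∩ S) ≤
      3 * e' + (κ' * c.l + 3 * A) / (τ - A) * Real.log 12 := by
  have hs := hc.std
  have hp := hs.toStd
  have hW : 0 < p.W := zero_lt_one.trans_le hp.W
  have hmg := one_le_mg F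
  have hcF := cF_nonneg F
  have hκ0 := c.h.κ_nonneg
  have hδ := hp.δ_pos
  have hδW : 0 < p.δ * p.W := mul_pos hδ hW
  have hδle : p.δ * p.W ≤ p.W := by
    have := mul_le_mul_of_nonneg_right hp.δ_le hW.le
    linarith
  have hsm := hc.small
  have hwH0 : 0 ≤ c.h.wH := by
    rw [c.wH]; exact mul_nonneg hp.δ0_pos.le hW.le
  have hg0 := hs.g_pos
  have hinv : 1 ≤ 1 / p.e := by
    rw [le_div_iff₀ hp.e_pos]; linarith [hp.e_le]
  have hlam : p.v + 1 ≤ lamD p := by unfold lamD; linarith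
  have hv1 : (p.v + 1) * p.W ≤ lamD p * p.W := mul_le_mul_of_nonneg_right hlam hW.le
  have hlam0 : 0 < lamD p := by linarith [hp.v]
  have hxW : |x * p.W| ≤ p.v * p.W := by
    rw [abs_mul, abs_of_pos hW]; exact mul_le_mul_of_nonneg_right hx hW.le
  have hxW' : |(x + p.δ) * p.W| ≤ p.v * p.W := by
    rw [abs_mul, abs_of_pos hW]; exact mul_le_mul_of_nonneg_right hxδ hW.le
  have e1 : (x + p.δ) * p.W = x * p.W + p.δ * p.W := by ring
  have e2 : (p.v + 1) * p.W = p.v * p.W + p.W := by ring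
  have e3 : (2 * lamD p + 4) * p.W = 2 * (lamD p * p.W) + 4 * p.W := by ring
  have e4 : (p.v + 2) * p.W = p.v * p.W + 2 * p.W := by ring
  rw [e2] at hv1
  rw [e3] at hΛ1 hΛ2
  obtain ⟨hx1, hx2⟩ := abs_le.1 hxW
  obtain ⟨hx3, hx4⟩ := abs_le.1 hxW'
  have hηW : 16 * (η * p.W) ≤ p.δ * p.W := by
    have := mul_le_mul_of_nonneg_right hη hW.le
    linarith
  -- the translation
  set Δ : ℝ := p.δ * p.W / 4 with hΔ
  obtain ⟨c', hc1, hc2, hKc⟩ := hK (x * p.W - cF F - Δ - η * p.W) (by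
    rw [e2, abs_le]
    have h5 : |η * p.W| ≤ p.δ * p.W ∨ True := Or.inr trivial
    have hη0 : 0 ≤ η * p.W ∨ η * p.W < 0 := le_or_gt _ _
    constructor
    · linarith
    · rcases hη0 with h | h
      · linarith
      · exfalso
        -- `η` may not be negative: the grid point would not exist
        obtain ⟨c'', h1, h2, -⟩ := hK 0 (by rw [abs_zero, e2]; nlinarith [hp.v])
        linarith)
  have hη0 : 0 ≤ η * p.W := by linarith
  have hc'abs : |c'| ≤ p.v * p.W + p.W := by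
    rw [abs_le]; constructor <;> linarith
  have hLow : LowData c.h (c.y / 2) c.g c' Λ c.L (Jw (lamD p * p.W))
      (Jw ((2 * lamD p + 4) * p.W)) (x * p.W) ((x + p.δ) * p.W) 0 (3 * p.δ * p.W) Δ N := by
    have hgap := hc.gap
    have hrow := hc.row
    refine ⟨⟨by linarith, by linarith, by nlinarith, ?_⟩, ?_, ?_, ?_, ?_, ?_, ?_, ?_, ?_, ?_, ?_,
      ?_, ?_⟩
    · linarith
    · exact Icc_subset_Icc (by linarith) (by linarith)
    · intro z hz u hu
      have h1 := abs_le.1 (abs_le_of_mem_Jw hz)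
      have h2 := abs_le.1 hu
      have h3 := abs_le.1 hc'abs
      rw [e3]
      constructor <;> linarith
    · linarith
    · linarith
    · linarith
    · linarith
    · linarith
    · rw [e1]
      have e5 : 3 * p.δ * p.W = 3 * (p.δ * p.W) := by ring
      rw [e5]
      linarith
    · linarith
    · refine le_trans ?_ hN
      have h1 : (c.L + 2 * cF F + |c'|) * ‖F.a‖ ≤ (c.L + 2 * cF F + (p.v + 2) * p.W) * ‖F.a‖ :=
        mul_le_mul_of_nonneg_right (by rw [e4]; linarith) (norm_nonneg _)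
      linarith
    · refine rt_out (σ₁ := x * p.W + p.δ * p.W / 2) (σ₂ := x * p.W + p.δ * p.W / 2)
        (by linarith) (by linarith) (by rw [e1]; linarith) ?_
      rw [min_self, max_self]
      exact Icc_subset_Icc (by linarith) (by linarith)
    · exact rt_gauge_out (by linarith) (by linarith) (by linarith)
  have hgen := gen_T1 hr h0 hμ hpsi hLow (measurable_Jw _) (measurable_Jw _) hρm hρS hA he
    hAτ (B := B) (by
      have h1 := hc.lW
      have e6 : cψ * Δ = cψ * p.δ * p.W / 4 := by rw [hΔ]; ring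
      rw [e6]
      linarith) (q₀ := 1 / 2) (by norm_num) (by norm_num)
    (by linarith) (a := κ' * c.l) (mul_nonneg hκ' hs.l_pos.le) hSm hSI hpos hKc hD hG hin
  have e7 : (6 : ℝ) / (1 / 2) = 12 := by norm_num
  rw [e7] at hgen
  refine le_trans (real_mono_ae (P := nuR (gammaMeasure 1 r₀)) ?_) hgen
  filter_upwards [ae_skp_sko h0 c (Icc (-(lamD p * p.W)) (lamD p * p.W)) (x * p.W)
    ((x + p.δ) * p.W)] with q hq hq2
  refine ⟨?_, hq2.2⟩
  have h3 : skp c.h c.yA c.l c.L (Icc (-(lamD p * p.W)) (lamD p * p.W)) (x * p.W)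
    ((x + p.δ) * p.W) q ≤ κ' := hq2.1
  rw [hq, div_le_iff₀ hs.l_pos] at h3
  exact h3

end Crest.Agent.R151.E39
end

-- ▼ part R151/E39k
section

/-!
# R151 / S0214 part 2, E39k — the dichotomy in `Ev` form (helper39)
-/

set_option autoImplicit false

open MeasureTheory Filter ProbabilityTheory Topology Set
open scoped ENNReal
open Crest.ProbabilityR.FirstPassage

namespace Crest.Agent.R151.E39

open K R78 B710 G338 M192 Q NF
open M56 (mg one_le_mg)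

variable {μ : ℝ × ℝ → ℝ} {F : FlatData μ}

/-- threshold of the dichotomy, in units of `l` -/
noncomputable def τ0 : ℝ := 1 / 2048

/-- output of (T1) for the typical sets `typ` -/
def HD1 (G : Measure ℝ) (F : FlatData μ) (w0 c0 K : ℝ)
    (typ : ∀ {p : NF.Num}, Cf G F w0 c0 K p → Set (Row (ℝ × ℝ))) (C2 : ℝ) : Prop :=
  Ev fun p => ∀ c : Cf G F w0 c0 K p, 1 / 2 ≤ (nuR G).real {q | τ0 * c.l ≤ V0 c q} →
    ∀ x κ : ℝ, |x| ≤ p.v → |x + p.δ| ≤ p.v → 0 ≤ κ →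
      (nuR G).real ({q | skp c.h c.yA c.l c.L (Icc (-(lamD p * p.W)) (lamD p * p.W)) (x * p.W)
        ((x + p.δ) * p.W) q ≤ κ} ∩ typ c) ≤ C2 * κ + p.e / 2

/-- output of (T2) for the typical sets `typ` -/
def HD2 (G : Measure ℝ) (F : FlatData μ) (w0 c0 K : ℝ)
    (typ : ∀ {p : NF.Num}, Cf G F w0 c0 K p → Set (Row (ℝ × ℝ))) : Prop :=
  Ev fun p => ∀ c : Cf G F w0 c0 K p, 1 / 2 ≤ (nuR G).real {q | V0 c q ≤ τ0 * c.l} →
    ∀ x y : ℝ, -(1 / 16) ≤ x → x < 1 / 8 → 0 ≤ y →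
      (nuR G).real ({q | y ≤ (c.rowA (typ c)).K x (x + 5 * p.δ) q} ∩ typ c) ≤
        2 * Real.exp (-(64 * y))

/-- **DICH** from the law of the rows on the larger window, (D1) and (D2) -/
theorem ev_dich {G : Measure ℝ} [IsProbabilityMeasure G] {w0 c0 K : ℝ} (hK : 0 ≤ K)
    {typ : ∀ {p : NF.Num}, Cf G F w0 c0 K p → Set (Row (ℝ × ℝ))}
    (hlaw : ∃ C1 : ℝ, 0 < C1 ∧ Ev fun p => ∀ c : Cf G F w0 c0 K p,
      (c.rowA (typ c)).Law (nuR G) c.mB C1 p.n p.δ (p.v + 1 / p.e) p.e)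
    {C2 : ℝ} (hD1 : HD1 G F w0 c0 K typ C2) (hD2 : HD2 G F w0 c0 K typ) :
    ∃ C0 : ℝ, 0 < C0 ∧ Ev fun p => ∀ c : Cf G F w0 c0 K p,
      (c.rowA (typ c)).Cheap (nuR G) C0 p.δ ∨ (c.rowA (typ c)).Costly (nuR G) C0 p.δ p.v p.e := by
  obtain ⟨C1, hC1, hlaw⟩ := hlaw
  refine ⟨max (|C2|) 2, lt_max_of_lt_right (by norm_num), ?_⟩
  have a1 := Ev.std
  have a2 : Ev fun p => 1 ≤ Real.log p.n / C1 - C1 := by
    refine ev_n (P := fun n : ℕ => 1 ≤ Real.log n / C1 - C1) ?_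
    have h1 : Tendsto (fun n : ℕ => Real.log n / C1 - C1) atTop atTop := by
      apply tendsto_atTop_add_const_right
      exact (Real.tendsto_log_atTop.comp tendsto_natCast_atTop_atTop).atTop_div_const hC1
    exact h1.eventually_ge_atTop 1
  have a3 := R78.ev_exit G F w0 c0 hK (fun _ _ v e => v + 1 / e)
  have a4 := le_δ (fun _ => 160)
  refine ((((((a1.and a2).and a3).and a4).and hlaw).and hD1).and hD2).mono ?_
  rintro p ⟨⟨⟨⟨⟨⟨a1, a2⟩, a3⟩, a4⟩, hlaw⟩, hD1⟩, hD2⟩ c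
  have hlaw := hlaw c
  have hv := a1.v
  have hinv : 0 < 1 / p.e := by have := a1.e_pos; positivity
  have hδ := a1.δ_pos
  have habs : ∀ x : ℝ, -(1 / 16) ≤ x → x < 1 / 8 → |x| ≤ p.v + 1 / p.e ∧
      |x + 5 * p.δ| ≤ p.v + 1 / p.e := by
    intro x h1 h2
    constructor
    · rw [abs_le]; constructor <;> linarith
    · rw [abs_le]; constructor <;> linarith
  have hmB : c.mB ≤ (inferInstance : MeasurableSpace (Row (ℝ × ℝ))) := M192.mB_le _ _
  refine dich_of (P := nuR G) (R := c.rowA (typ c)) (V := V0 c)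
    (Kw := fun s t q => skp c.h c.yA c.l c.L (Icc (-(lamD p * p.W)) (lamD p * p.W)) (s * p.W)
      (t * p.W) q) (C1 := C1) (C2 := |C2|) (τ := τ0 * c.l) (n := p.n) (measurable_V0 c) ?_ ?_
    (abs_nonneg _) (le_max_left _ _) (le_max_right _ _) a2 a1.e_pos a1.e_le ?_ ?_ ?_ ?_
  · intro x h1 h2
    exact (hlaw.K_meas x (x + 5 * p.δ) (habs x h1 h2).1 (habs x h1 h2).2).mono hmB le_rfl
  · intro x h1 h2 ω
    exact hlaw.K_nonneg x (x + 5 * p.δ) ω (habs x h1 h2).1 (habs x h1 h2).2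
  · intro ω s t xR xL m hm hs ht h1 h2 h3 h4
    have hs' := abs_le.1 hs
    have ht' := abs_le.1 ht
    exact a3 c (typ c) ω s t xL xR (p.v + 1 / p.e) m hm le_rfl h1 h2 h3 h4 (by linarith)
      (by linarith)
  · intro x m h1 h2
    exact hlaw.cells_large x m h1 h2
  · intro hV x κ h1 h2 h3
    refine (hD1 c hV x κ h1 h2 h3).trans ?_
    have := mul_le_mul_of_nonneg_right (le_abs_self C2) h3
    linarith
  · intro hV x y h1 h2 h3
    exact hD2 c hV x y h1 h2 h3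

end Crest.Agent.R151.E39
end

-- ▼ part R151/E39l
section

/-!
# R151 / S0214 part 2, E39l — (D1) in `Ev` form (helper39)
-/

set_option autoImplicit false

open MeasureTheory Filter ProbabilityTheory Topology Set
open scoped ENNReal
open Crest.ProbabilityR.FirstPassage

namespace Crest.Agent.R151.E39

open K R78 B710 G338 M192 Q NF
open M56 (mg one_le_mg)

variable {μ : ℝ × ℝ → ℝ} {F : FlatData μ}

lemma log12_pos : 0 < Real.log 12 := Real.log_pos (by norm_num)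

set_option maxHeartbeats 1000000 in
/-- **(D1)** in `Ev` form, for every set `S` of typical rows; `e₁ ≤ e ^ 2` -/
theorem ev_D1 {r₀ : ℝ} (hr : 0 < r₀) [IsProbabilityMeasure (gammaMeasure 1 r₀)]
    (h0 : gammaMeasure 1 r₀ (Set.Iio 0) = 0) (hμ : B710.NormLike μ) {w0 c0 K : ℝ} :
    Ev fun p => ∀ c : Cf (gammaMeasure 1 r₀) F w0 c0 K p, ∀ (e₁ : ℝ) (N : ℕ) (ρ : RowS → ℝ),
      0 < e₁ → e₁ ≤ p.e ^ 2 → 2 * c.L * ‖F.a‖ + p.W * ‖F.b‖ + 1 ≤ N →
      Measurable ρ → (∀ q t, ρ (V.cs (V.E0 c.h (dOv F (c.y / 2) c.g)) q t) = ρ q) →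
      ∀ S : Set RowS, MeasurableSet S → V.SInv (V.E0 c.h (dOv F (c.y / 2) c.g)) S →
      S ⊆ V.posS c.h (dOv F (c.y / 2) c.g) →
      (∀ x : ℝ, |x| ≤ (p.v + 1) * p.W → ∃ c', x ≤ c' ∧ c' ≤ x + p.δ / 16 * p.W ∧
        S ⊆ V.typ (gammaMeasure 1 r₀) (V.E0 c.h (dOv F (c.y / 2) c.g)) PF
          (NS (obK c.h (c.y / 2) c.g c' c.lam c.L) (e₁ * c.l)) e₁) →
      S ⊆ V.typ (gammaMeasure 1 r₀) (V.E0 c.h (dOv F (c.y / 2) c.g)) PF
        (NS (obD F (c.y / 2) c.g N) (e₁ * p.W)) e₁ →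
      S ⊆ V.typ (gammaMeasure 1 r₀) (V.E0 c.h (dOv F (c.y / 2) c.g)) PF
        (NS (obG c.h (c.y / 2) c.g c.L ρ) (e₁ * c.l)) e₁ →
      1 / 2 ≤ (nuR (gammaMeasure 1 r₀)).real {q | τ0 * c.l ≤ V0 c q} →
      ∀ x κ : ℝ, |x| ≤ p.v → |x + p.δ| ≤ p.v → 0 ≤ κ →
      (nuR (gammaMeasure 1 r₀)).real
        ({q | skp c.h c.yA c.l c.L (Icc (-(lamD p * p.W)) (lamD p * p.W)) (x * p.W)
          ((x + p.δ) * p.W) q ≤ κ} ∩ S) ≤ 4096 * Real.log 12 * κ + p.e / 2 := by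
  obtain ⟨cψ, hcψ, hpsi⟩ := Q.exists_psi_low hμ F
  have a1 := ev_DNum (G := gammaMeasure 1 r₀) (F := F) (w0 := w0) (c0 := c0) (K := K) hcψ
  have a2 := ev_lens (G := gammaMeasure 1 r₀) (F := F) (w0 := w0) (c0 := c0) (K := K)
  have a3 := le_e (fun _ δ _ => 64 / (cψ * δ) + 2048 * (16 + 16 * Real.log 12 * 2048))
  have a4 := le_v' (fun _ _ v e => 2 * (v + 1 / e) + 4)
  refine (((a1.and a2).and a3).and a4).mono ?_
  rintro p ⟨⟨⟨a1, a2⟩, a3⟩, a4⟩ c e₁ N ρ he₁ he₂ hN hρm hρS S hSm hSI hpos hK hD hG hV x κ hx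
    hxδ hκ
  have hc := a1 c
  have hl := a2 c
  have hp : p.Std := hl.toStd
  have hW : 0 < p.W := zero_lt_one.trans_le hp.W
  have hl0 : 0 < c.l := hl.l_pos
  have hδ := hp.δ_pos
  have he0 := hp.e_pos
  have hlog := log12_pos
  have hcF := cF_nonneg F
  have hsm := hc.small
  have hg0 := hl.g_pos
  have hκ0 := c.h.κ_nonneg
  have hmg := one_le_mg F
  -- the size of `e₁`
  have b1 : (64 / (cψ * p.δ) + 2048 * (16 + 16 * Real.log 12 * 2048)) * e₁ ≤ p.e := by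
    have h1 : 0 ≤ 64 / (cψ * p.δ) + 2048 * (16 + 16 * Real.log 12 * 2048) := by positivity
    calc (64 / (cψ * p.δ) + 2048 * (16 + 16 * Real.log 12 * 2048)) * e₁
        ≤ (64 / (cψ * p.δ) + 2048 * (16 + 16 * Real.log 12 * 2048)) * p.e ^ 2 :=
          mul_le_mul_of_nonneg_left he₂ h1
      _ = ((64 / (cψ * p.δ) + 2048 * (16 + 16 * Real.log 12 * 2048)) * p.e) * p.e := by ring
      _ ≤ 1 * p.e := mul_le_mul_of_nonneg_right a3 he0.le
      _ = p.e := one_mul _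
  have b2 : 0 ≤ 64 / (cψ * p.δ) * e₁ := by positivity
  have b3 : 0 ≤ Real.log 12 * e₁ := by positivity
  have b4 : 64 / (cψ * p.δ) * e₁ ≤ p.e := by nlinarith
  have b5 : 2048 * (16 * e₁ + 16 * 2048 * (Real.log 12 * e₁)) ≤ p.e := by nlinarith
  have b6 : 64 * e₁ ≤ cψ * p.δ := by
    have h2 : 0 < cψ * p.δ := by positivity
    have h3 := b4.trans hp.e_le
    rw [div_mul_eq_mul_div, div_le_iff₀ h2] at h3
    linarith
  have hwH0 : 0 ≤ c.h.wH := by
    rw [c.wH]; exact mul_nonneg hp.δ0_pos.le hW.le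
  have hδW : p.δ * p.W ≤ p.W := by
    have := mul_le_mul_of_nonneg_right hp.δ_le hW.le
    linarith
  have e1 : (2 * lamD p + 4) * p.W ≤ c.lam := by
    unfold lamD Cf.lam
    exact mul_le_mul_of_nonneg_right a4 hW.le
  have e2 := hl.lam_eq
  have hinv : 0 < 1 / p.e := by positivity
  have e3 : (2 * lamD p + 4) * p.W = 2 * (p.v * p.W) + 2 * (1 / p.e * p.W) + 4 * p.W := by
    unfold lamD; ring
  have e4 : 0 < 1 / p.e * p.W := by positivity
  have e5 : 0 < p.v * p.W := by have := hp.v; positivity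
  have hD1 := D1 hr h0 hμ hpsi c hc (Λ := c.lam) (A := e₁ * c.l) (B := e₁ * p.W) (e' := e₁)
    (η := p.δ / 16) (τ := τ0 * c.l) (N := N) e1 (by linarith) hρm hρS (by positivity) he₁.le
    (by nlinarith) (by linarith) (by
      refine le_trans ?_ hN
      have h1 : (c.L + 2 * cF F + (p.v + 2) * p.W) * ‖F.a‖ ≤ 2 * c.L * ‖F.a‖ :=
        mul_le_mul_of_nonneg_right (by nlinarith) (norm_nonneg _)
      have h2 : (c.h.wH + c.g + cF F) * ‖F.b‖ ≤ p.W * ‖F.b‖ :=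
        mul_le_mul_of_nonneg_right (by linarith) (norm_nonneg _)
      linarith)
    (by
      unfold τ0
      have h1 : 2048 * e₁ < 1 := by nlinarith [hp.e_le]
      nlinarith)
    (by unfold τ0; linarith)
    (by
      have h1 := mul_le_mul_of_nonneg_right b6 hW.le
      linarith) hSm hSI hpos hK hD hG hV hx hxδ hκ
  refine hD1.trans ?_
  -- numerics
  have h1 : 0 < τ0 * c.l - e₁ * c.l := by
    unfold τ0
    have h1 : 2048 * e₁ < 1 := by nlinarith [hp.e_le]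
    nlinarith
  have h2 : (κ * c.l + 3 * (e₁ * c.l)) / (τ0 * c.l - e₁ * c.l) ≤ 4096 * (κ + 3 * e₁) := by
    rw [div_le_iff₀ h1]
    have h3 : 4096 * e₁ ≤ 1 := by nlinarith [hp.e_le]
    have h4 : κ * c.l + 3 * (e₁ * c.l) = (κ + 3 * e₁) * c.l := by ring
    have h5 : 4096 * (κ + 3 * e₁) * (τ0 * c.l - e₁ * c.l) =
        (κ + 3 * e₁) * c.l * (2 - 4096 * e₁) := by unfold τ0; ring
    rw [h4, h5]
    have h6 : 0 ≤ (κ + 3 * e₁) * c.l := by positivity
    nlinarith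
  have h3 := mul_le_mul_of_nonneg_right h2 hlog.le
  have h4 : 4096 * (κ + 3 * e₁) * Real.log 12 = 4096 * Real.log 12 * κ +
      12288 * (Real.log 12 * e₁) := by ring
  rw [h4] at h3
  nlinarith

end Crest.Agent.R151.E39
end

-- ▼ part R151/E39m
section

/-!
# R151 / S0214 part 2, E39m — (D1) for typical rows inside a typical set of strips (helper39)
-/

set_option autoImplicit false

open MeasureTheory Filter ProbabilityTheory Topology Set
open scoped ENNReal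
open Crest.ProbabilityR.FirstPassage

namespace Crest.Agent.R151.E39

open K R78 B710 G338 M192 Q NF
open M56 (mg one_le_mg)

variable {μ : ℝ × ℝ → ℝ} {F : FlatData μ}

/-- `HD1` from the facts on the typical strips `S c ⊇ typ c` (level and thresholds `e ^ 2`) -/
theorem HD1_of {r₀ : ℝ} (hr : 0 < r₀) [IsProbabilityMeasure (gammaMeasure 1 r₀)]
    (h0 : gammaMeasure 1 r₀ (Set.Iio 0) = 0) (hμ : B710.NormLike μ) {w0 c0 K : ℝ}
    {typ S : ∀ {p : NF.Num}, Cf (gammaMeasure 1 r₀) F w0 c0 K p → Set (Row (ℝ × ℝ))}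
    {ρ : ∀ {p : NF.Num}, Cf (gammaMeasure 1 r₀) F w0 c0 K p → RowS → ℝ} {N : NF.Num → ℕ}
    (hS : Ev fun p => ∀ c : Cf (gammaMeasure 1 r₀) F w0 c0 K p, typ c ⊆ S c ∧
      2 * c.L * ‖F.a‖ + p.W * ‖F.b‖ + 1 ≤ N p ∧ Measurable (ρ c) ∧
      (∀ q t, ρ c (V.cs (V.E0 c.h (dOv F (c.y / 2) c.g)) q t) = ρ c q) ∧
      MeasurableSet (S c) ∧ V.SInv (V.E0 c.h (dOv F (c.y / 2) c.g)) (S c) ∧
      S c ⊆ V.posS c.h (dOv F (c.y / 2) c.g) ∧
      (∀ x : ℝ, |x| ≤ (p.v + 1) * p.W → ∃ c', x ≤ c' ∧ c' ≤ x + p.δ / 16 * p.W ∧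
        S c ⊆ V.typ (gammaMeasure 1 r₀) (V.E0 c.h (dOv F (c.y / 2) c.g)) PF
          (NS (obK c.h (c.y / 2) c.g c' c.lam c.L) (p.e ^ 2 * c.l)) (p.e ^ 2)) ∧
      S c ⊆ V.typ (gammaMeasure 1 r₀) (V.E0 c.h (dOv F (c.y / 2) c.g)) PF
        (NS (obD F (c.y / 2) c.g (N p)) (p.e ^ 2 * p.W)) (p.e ^ 2) ∧
      S c ⊆ V.typ (gammaMeasure 1 r₀) (V.E0 c.h (dOv F (c.y / 2) c.g)) PF
        (NS (obG c.h (c.y / 2) c.g c.L (ρ c)) (p.e ^ 2 * c.l)) (p.e ^ 2)) :
    HD1 (gammaMeasure 1 r₀) F w0 c0 K typ (4096 * Real.log 12) := by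
  unfold HD1
  refine (((ev_D1 (F := F) (w0 := w0) (c0 := c0) (K := K) hr h0 hμ).and hS).and Ev.std).mono ?_
  rintro p ⟨⟨h1, h2⟩, hp⟩ c hV x κ hx hxδ hκ
  obtain ⟨a1, a2, a3, a4, a5, a6, a7, a8, a9, a10⟩ := h2 c
  have he := hp.e_pos
  have key := h1 c (p.e ^ 2) (N p) (ρ c) (by positivity) le_rfl a2 a3 a4 (S c) a5 a6 a7 a8 a9 a10
    hV x κ hx hxδ hκ
  refine le_trans (measureReal_mono ?_ (measure_ne_top _ _)) key
  exact inter_subset_inter_right _ a1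

end Crest.Agent.R151.E39
end

-- ▼ part R151/E39o
section

/-!
# R151 / S0214 part 2, E39o — restriction of the law of a row to a smaller range (helper39)
-/

set_option autoImplicit false

open MeasureTheory Filter ProbabilityTheory Topology Set
open scoped ENNReal
open Crest.ProbabilityR.FirstPassage

namespace Crest.Agent.R151.E39

/-- the law on the range `v` gives the law on every smaller range -/
theorem Law_of_le {Ω : Type*} {R : E191.RowA Ω} {m : MeasurableSpace Ω}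
    [mΩ : MeasurableSpace Ω] {P : Measure Ω} {C0 : ℝ} {n : ℕ} {δ v v₀ e : ℝ} (hv : v₀ ≤ v)
    (H : R.Law P m C0 n δ v e) : R.Law P m C0 n δ v₀ e where
  K_meas := fun s t hs ht => H.K_meas s t (hs.trans hv) (ht.trans hv)
  KL_meas := H.KL_meas
  F_meas := fun w x hx => H.F_meas w x (hx.trans hv)
  cell_meas := fun x h1 h2 => H.cell_meas x (h1.trans hv) (h2.trans hv)
  T_meas := H.T_meas
  T_prob := H.T_prob
  K_nonneg := fun s t ω hs ht => H.K_nonneg s t ω (hs.trans hv) (ht.trans hv)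
  K_mono := fun s s' t ω h1 h2 h3 h4 => H.K_mono s s' t ω (h1.trans hv) (h2.trans hv)
    (h3.trans hv) h4
  K_anti := fun s t t' ω h1 h2 h3 h4 => H.K_anti s t t' ω (h1.trans hv) (h2.trans hv)
    (h3.trans hv) h4
  KL_nonneg := H.KL_nonneg
  F_nonneg := fun w x ω hx => H.F_nonneg w x ω (hx.trans hv)
  F_tail := fun w x y hw hx hy => H.F_tail w x y hw (hx.trans hv) hy
  F_int := fun x hx => H.F_int x (hx.trans hv)
  F_ui := fun x hx => H.F_ui x (hx.trans hv)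
  cell_small := fun x y h1 h2 hy => H.cell_small x y (h1.trans hv) (h2.trans hv) hy
  cells_large := fun x k h1 h2 => H.cells_large x k (h1.trans hv) (h2.trans hv)
  window := fun ω hω s t x k h1 h2 h3 h4 => H.window ω hω s t x k (h1.trans hv) (h2.trans hv) h3 h4
  lane := H.lane

open NF

variable {μ : ℝ × ℝ → ℝ} {F : B710.FlatData μ}

/-- the field `law` from the law on the range `v + 1/e` -/
theorem ev_law_of {G : Measure ℝ} {w0 c0 K : ℝ}
    {typ : ∀ {p : NF.Num}, Cf G F w0 c0 K p → Set (M192.Row (ℝ × ℝ))}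
    (hlaw : ∃ C1 : ℝ, 0 < C1 ∧ Ev fun p => ∀ c : Cf G F w0 c0 K p,
      (c.rowA (typ c)).Law (nuR G) c.mB C1 p.n p.δ (p.v + 1 / p.e) p.e) :
    ∃ C1 : ℝ, 0 < C1 ∧ Ev fun p => ∀ c : Cf G F w0 c0 K p,
      (c.rowA (typ c)).Law (nuR G) c.mB C1 p.n p.δ p.v p.e := by
  obtain ⟨C1, hC1, h⟩ := hlaw
  refine ⟨C1, hC1, (h.and Ev.std).mono fun p ⟨h, hp⟩ c => Law_of_le ?_ (h c)⟩
  have := hp.e_pos
  have : 0 < 1 / p.e := by positivity
  linarith

end Crest.Agent.R151.E39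
end

-- ▼ part R151/D290a
section

/-!
# R151 / S0214 part 2, D290a — (D2), the cheap side of the dichotomy (owner helper290)

`tail_of` : if the median of `R#` of ONE inner row `0 → 3 δ` is `≤ 2^-11 l` then on typical rows
`R#(x → x + 5 δ)` of the A-row has the tail `2 exp (- 64 y)`.  The typical set enters through its
defining properties only.
-/

set_option autoImplicit false

open MeasureTheory Filter ProbabilityTheory Topology Set
open Crest.ProbabilityR.FirstPassage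

namespace Crest.Agent.R151.D290

open Crest.Agent.R151.K Crest.Agent.R151.Q
open B710 (FlatData)
open M56 (mg one_le_mg)
open M192 (RowS)
open NF

variable {μ : ℝ × ℝ → ℝ} {F : FlatData μ}

/-- numerical conditions of a pair of gap fences: `a₀ → b₀` crossing the lower gap in `Icc α₀ β₀`,
`a₁ → b₁` crossing the upper gap in `Icc α₁ β₁` (coordinates of the outer row), inner row moved by
`c` -/
structure Fen (h : Hwy F) (c α₀ β₀ a₀ b₀ α₁ β₁ a₁ b₁ : ℝ) : Prop where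
  w₀ : 2 * mg F ≤ β₀ - α₀
  a₀ : a₀ ≤ α₀
  b₀ : β₀ + h.κ + cF F < b₀ + c
  w₁ : 2 * mg F ≤ β₁ - α₁
  a₁ : a₁ + c + cF F ≤ α₁
  b₁ : β₁ + h.κ < b₁

/-- smart constructor of `UpData` -/
theorem upData_of {h : Hwy F} {y g c Λ L α β s s' αi βi σ σ' α₀ β₀ a₀ b₀ α₁ β₁ a₁ b₁ : ℝ}
    (geo : Geo h y g c Λ L) (hg : h.wH + 2 * mg F + cF F < g) (hy : h.wH + 2 * mg F < y)
    (hΛ : mg F ≤ Λ) (hL : mg F + h.κ < L) (hs1 : -L ≤ s) (hs4 : s' ≤ L)
    (H : Fen h c α₀ β₀ a₀ b₀ α₁ β₁ a₁ b₁)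
    (hα₀ : α ≤ α₀) (hβ₀ : β₀ ≤ β) (ha₀ : s ≤ a₀) (hb₀ : b₀ ≤ σ)
    (hα₁ : α ≤ α₁) (hβ₁ : β₁ ≤ β) (ha₁ : σ' ≤ a₁) (hb₁ : b₁ ≤ s')
    (hαi : α + cF F - c ≤ αi) (hβi : βi ≤ β - cF F - c)
    (hi1 : αi ≤ σ) (hi2 : σ + 2 * mg F ≤ βi) (hi3 : αi + 2 * mg F + h.κ + 1 ≤ σ') (hi4 : σ' ≤ βi)
    (ho1 : α - h.κ ≤ s) (_ho2 : s + 2 * mg F ≤ β + h.κ)
    (_ho3 : α + 2 * mg F + 1 ≤ s')
    (ho4 : s' ≤ β + h.κ) :
    UpData h y g c Λ L α β s s' αi βi σ σ' α₀ β₀ a₀ b₀ α₁ β₁ a₁ b₁ := by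
  have hmg := one_le_mg F
  have hκ := h.κ_nonneg
  have hcF := cF_nonneg F
  have hwH := h.wH_nonneg'
  have w₀ := H.w₀
  have w₁ := H.w₁
  have a₀' := H.a₀
  have b₀' := H.b₀
  have a₁' := H.a₁
  have b₁' := H.b₁
  exact
    { geo := geo
      hs1 := hs1
      hs4 := hs4
      hα₀ := hα₀
      hβ₀ := hβ₀
      ha₀ := ha₀
      hb₀ := hb₀
      hα₁ := hα₁
      hβ₁ := hβ₁
      ha₁ := ha₁
      hb₁ := hb₁
      hαi := hαi
      hβi := hβi
      hne0 := rt_lo (σ₁ := (α₀ + β₀) / 2) (σ₂ := (α₀ + β₀) / 2) hg (by linarith) (by linarith)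
        (by linarith) (by linarith) (by linarith) (by linarith)
      hne2 := rt_up (σ₁ := (α₁ + β₁) / 2) (σ₂ := (α₁ + β₁) / 2) hg (by linarith) (by linarith)
        (by linarith) (by linarith) (by linarith) (by linarith)
      hnei := rt_inn (σ₁ := σ + mg F) (σ₂ := σ' - mg F - h.κ - 1) hy (by linarith) (by linarith)
        (by linarith) (by linarith) (by linarith) (by linarith)
      hne := rt_out (σ₁ := s + mg F) (σ₂ := s' - mg F - h.κ - 1) (by linarith) (by linarith)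
        (by linarith) (Icc_subset_Icc
          (by
            have : α - h.κ + mg F ≤ min (s + mg F) (s' - mg F - h.κ - 1) :=
              le_min (by linarith) (by linarith)
            linarith)
          (by
            have : max (s + mg F) (s' - mg F - h.κ - 1) ≤ β + h.κ - mg F :=
              max_le (by linarith) (by linarith)
            linarith))
      hneJ := rt_gauge_out (by linarith) hΛ hL }

/-- `sk` over the whole plane is smaller than `sk` over a lane, for a row of the configuration -/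
lemma sk_univ_le {h : Hwy F} {d : ℝ × ℝ} {I : Set ℝ} {s s' : ℝ} (hne : Rt h d I s s')
    {θ : ℝ × ℝ} {t : Environment} (ht : Nn t) (φ : ℝ × ℝ) :
    h.hk d univ s s' θ t φ ≤ h.hk d I s s' θ t φ := by
  unfold Hwy.hk
  exact R78.hull_mono (bddBelow_routes ht _ _ _ _ _) (hne θ t φ)
    (M192.rg_mono (subset_univ I) θ) le_rfl le_rfl

lemma real_mono_ae' {Ω : Type*} [MeasurableSpace Ω] {P : Measure Ω} [IsFiniteMeasure P]
    {A B : Set Ω} (h : ∀ᵐ ω ∂P, ω ∈ A → ω ∈ B) : P.real A ≤ P.real B :=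
  ENNReal.toReal_mono (measure_ne_top _ _) (measure_mono_ae h)

section main

variable {w0 c0 K r₀ : ℝ}

/-- **(D2)**, typical set given by its properties -/
theorem tail_of (hr : 0 < r₀) [IsProbabilityMeasure (gammaMeasure 1 r₀)]
    (h0 : gammaMeasure 1 r₀ (Set.Iio 0) = 0) :
    Ev fun p => ∀ c : Cf (gammaMeasure 1 r₀) F w0 c0 K p,
    ∀ x cc α₀ β₀ a₀ b₀ α₁ β₁ a₁ b₁ Λ2 A e₁ : ℝ, -(1 / 16) ≤ x → x < 1 / 8 → |cc| ≤ p.W →
    Fen c.h cc α₀ β₀ a₀ b₀ α₁ β₁ a₁ b₁ →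
    x * p.W ≤ a₀ → b₀ ≤ 0 → 3 * p.δ * p.W ≤ a₁ → b₁ ≤ (x + 5 * p.δ) * p.W → p.W ≤ Λ2 →
    0 < A → 4096 * A ≤ c.l → 0 ≤ e₁ → 16 * e₁ ≤ 1 →
    ∀ (T TS : Set (M192.Row (ℝ × ℝ))) (ρ : M192.Row (ℝ × ℝ) → ℝ), Measurable ρ →
    (∀ q t, ρ (V.cs (V.E0 c.h (dOv F (c.y / 2) c.g)) q t) = ρ q) →
    MeasurableSet TS → V.SInv (V.E0 c.h (dOv F (c.y / 2) c.g)) TS →
    TS ⊆ V.posS c.h (dOv F (c.y / 2) c.g) →
    TS ⊆ V.typ (gammaMeasure 1 r₀) (V.E0 c.h (dOv F (c.y / 2) c.g)) PF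
      (NS (obLo c.h c.g cc α₀ β₀ c.L a₀ b₀) A) e₁ →
    TS ⊆ V.typ (gammaMeasure 1 r₀) (V.E0 c.h (dOv F (c.y / 2) c.g)) PF
      (NS (obUp c.h (c.y / 2) c.g cc α₁ β₁ c.L a₁ b₁) A) e₁ →
    TS ⊆ V.typ (gammaMeasure 1 r₀) (V.E0 c.h (dOv F (c.y / 2) c.g)) PF
      (NS (obJ c.h (c.y / 2) c.g c.lam c.L) A) e₁ →
    TS ⊆ V.typ (gammaMeasure 1 r₀) (V.E0 c.h (dOv F (c.y / 2) c.g)) PF
      (NS (obG c.h (c.y / 2) c.g c.L ρ) A) e₁ →
    T ⊆ TS → (∀ q ∈ T, |V.hkR c.h (dOv F (c.y / 2) c.g) univ (-c.L) c.L q - ρ q| ≤ A) →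
    1 / 2 ≤ (nuR (gammaMeasure 1 r₀)).real
      {q | ski c.h (c.y / 2) (Icc (-Λ2) Λ2) c.L 0 (3 * p.δ * p.W) q ≤ c.l / 2048} →
    ∀ y' : ℝ, 0 ≤ y' → (nuR (gammaMeasure 1 r₀)).real
      ({q | y' ≤ (c.rowA T).K x (x + 5 * p.δ) q} ∩ T) ≤ 2 * Real.exp (-(64 * y')) := by
  have a1 := ev_lens (G := gammaMeasure 1 r₀) (F := F) (w0 := w0) (c0 := c0) (K := K)
  have a2 := ev_geo (G := gammaMeasure 1 r₀) (F := F) (w0 := w0) (c0 := c0) (K := K)
    fun _ _ _ _ => 1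
  have a3 := le_δ fun _ => 32
  have a4 := gap_le fun _ δ _ _ _ => 32 / δ
  refine (((a1.and a2).and a3).and a4).mono ?_
  rintro p ⟨⟨⟨hl, hgeo⟩, hδ32⟩, hgδ⟩ c x cc α₀ β₀ a₀ b₀ α₁ β₁ a₁ b₁ Λ2 A e₁ hx1 hx2 hcc hF ha₀ hb₀
    ha₁ hb₁ hΛ2 hA hAl he₁ he₁' T TS ρ hρm hρS hTSm hTSi hpos hLo hUp hJ hG hTT hTD hin y' hy'
  have hl := hl c
  have hW : 0 < p.W := zero_lt_one.trans_le hl.W
  have hgeo := hgeo c (c.y / 2) c.g (Cf.htA hl.toC) cc (by rw [one_mul]; exact hcc)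
  obtain ⟨r1, r2, r3, r4, r5⟩ := hl.row (Cf.htA hl.toC)
  have hmg := one_le_mg F
  have hcF := cF_nonneg F
  have hκ0 := c.h.κ_nonneg
  have hlam : c.lam = p.v' * p.W := rfl
  have hL := hl.lam_eq
  have hWL := hl.WL
  have hκ := hl.κ_le'
  have hsl := hl.sl_le
  have hsl0 := hl.sl_nonneg
  have hgW := hl.gW
  have hgδ' := hl.gδ
  have h1w := hl.one_le_w
  have hmgl := hl.mg_le
  have hwH := hl.wH_eq
  have hcc' := abs_le.1 hcc
  have hlp := hl.l_pos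
  have hδp := hl.δ_pos
  have hδW : 0 < p.δ * p.W := mul_pos hδp hW
  have hδW32 : 32 * (p.δ * p.W) ≤ p.W := by
    have := mul_le_mul_of_nonneg_right hδ32 hW.le
    linarith
  have hxW1 : -(1 / 16) * p.W ≤ x * p.W := mul_le_mul_of_nonneg_right hx1 hW.le
  have hxW2 : x * p.W ≤ 1 / 8 * p.W := mul_le_mul_of_nonneg_right hx2.le hW.le
  have hs' : (x + 5 * p.δ) * p.W = x * p.W + 5 * (p.δ * p.W) := by ring
  have h3δ : 3 * p.δ * p.W = 3 * (p.δ * p.W) := by ring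
  set h := c.h with hh
  set E := V.E0 h (dOv F (c.y / 2) c.g) with hE
  have hU : UpData h (c.y / 2) c.g cc c.lam c.L (-(Λ2 + 2 * p.W)) (Λ2 + 2 * p.W) (x * p.W)
      ((x + 5 * p.δ) * p.W) (-Λ2) Λ2 0 (3 * p.δ * p.W) α₀ β₀ a₀ b₀ α₁ β₁ a₁ b₁ := by
    have f1 := hF.a₀
    have f2 := hF.b₀
    have f3 := hF.w₀
    have f4 := hF.a₁
    have f5 := hF.b₁
    have f6 := hF.w₁
    refine upData_of hgeo (by linarith) r4 (by linarith) (by linarith) ?_ ?_ hF ?_ ?_ ha₀ hb₀ ?_ ?_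
      ha₁ hb₁ ?_ ?_ ?_ ?_ ?_ ?_ ?_ ?_ ?_ ?_ <;> linarith
  -- the outer event
  set B : Set (M192.Row (ℝ × ℝ)) := {q | c.l * y' - A ≤ V.hkR h (dOv F (c.y / 2) c.g)
    (Icc (-(Λ2 + 2 * p.W) - h.κ) (Λ2 + 2 * p.W + h.κ)) (x * p.W) ((x + 5 * p.δ) * p.W) q - ρ q}
    with hB
  have hBm : MeasurableSet B := measurableSet_le measurable_const
    ((V.measurable_hkR h _ measurableSet_Icc _ _).sub hρm)
  have key : (nuR (gammaMeasure 1 r₀)).real (B ∩ TS) ≤ 2 * Real.exp (-(64 * y')) := by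
    refine V.prob_inter_le (V.measurableSet_E0 h _) hTSm hTSi hBm (by positivity)
      (ae_of_all _ fun q hq => ?_)
    have hτ : 0 ≤ c.l / 2048 := by positivity
    have h1 := T2c hr h0 hU hρm hρS (A := A) (e := e₁) (τ := c.l / 2048) (q₀ := 1 / 2)
      (a := c.l * y') hA he₁ hτ (by norm_num) (by linarith) (by positivity) (hpos hq) (hLo hq)
      (hUp hq) (hJ hq) (hG hq) hin
    have e1 : {t | V.cs E q t ∈ B} = {t | c.l * y' - A ≤ V.hkR h (dOv F (c.y / 2) c.g)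
        (Icc (-(Λ2 + 2 * p.W) - h.κ) (Λ2 + 2 * p.W + h.κ)) (x * p.W) ((x + 5 * p.δ) * p.W)
        (V.cs E q t) - ρ q} := by
      ext t
      show c.l * y' - A ≤ V.hkR h (dOv F (c.y / 2) c.g)
        (Icc (-(Λ2 + 2 * p.W) - h.κ) (Λ2 + 2 * p.W + h.κ)) (x * p.W) ((x + 5 * p.δ) * p.W)
        (V.cs E q t) - ρ (V.cs E q t) ↔ _
      rw [hρS]
      rfl
    rw [e1]
    refine h1.trans ?_
    have h2 : -(1 / 2 / 4) * (c.l * y' / (c.l / 2048 + 6 * A)) ≤ -(64 * y') := by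
      have h3 : 512 * y' ≤ c.l * y' / (c.l / 2048 + 6 * A) := by
        rw [le_div_iff₀ (by positivity)]
        have : c.l / 2048 + 6 * A ≤ c.l / 512 := by linarith
        calc 512 * y' * (c.l / 2048 + 6 * A) ≤ 512 * y' * (c.l / 512) :=
              mul_le_mul_of_nonneg_left this (by positivity)
          _ = c.l * y' := by ring
      linarith
    have := Real.exp_le_exp.2 h2
    linarith
  refine le_trans ?_ key
  have : IsProbabilityMeasure (nuR (gammaMeasure 1 r₀)) := by unfold nuR; infer_instance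
  apply real_mono_ae'
  filter_upwards [M192.ae_pe_prod (G := gammaMeasure 1 r₀) h0 (UU.prod UU)] with q hq
  rintro ⟨hq1, hq2⟩
  refine ⟨?_, hTT hq2⟩
  have hnn : Nn q.1.2 := by rw [← hq]; exact M192.pe_nn _
  have hD := (abs_le.1 (hTD q hq2)).1
  have hq1' : y' ≤ h.sk (c.yA • F.b) univ univ c.L (x * p.W) ((x + 5 * p.δ) * p.W) q.1.1
      (M192.pe q.1.2) q.2 / c.l := hq1
  rw [hq, le_div_iff₀ hlp] at hq1'
  have hmono := sk_univ_le hU.hne hnn q.2 (θ := q.1.1)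
  have e2 : h.sk (c.yA • F.b) univ univ c.L (x * p.W) ((x + 5 * p.δ) * p.W) q.1.1 q.1.2 q.2 =
      h.hk (dOv F (c.y / 2) c.g) univ (x * p.W) ((x + 5 * p.δ) * p.W) q.1.1 q.1.2 q.2 -
        V.hkR h (dOv F (c.y / 2) c.g) univ (-c.L) c.L q := rfl
  rw [e2] at hq1'
  show c.l * y' - A ≤ h.hk (dOv F (c.y / 2) c.g)
    (Icc (-(Λ2 + 2 * p.W) - h.κ) (Λ2 + 2 * p.W + h.κ)) (x * p.W) ((x + 5 * p.δ) * p.W) q.1.1
      q.1.2 q.2 - ρ q
  linarith

end main

end Crest.Agent.R151.D290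
end

-- ▼ part R151/D290b
section

/-!
# R151 / S0214 part 2, D290b — (D2) for a grid of translations and gap fences (owner helper290)

`ev_D2` : the typical set contains, for the translations `c'` and the positions `f` of a grid `Γ`
(mesh `≤ η`), the failure sets of the gap fences
`obLo c.h c.g c' f (f + z) c.L f (f + z + b - c')`,
`obUp c.h (c.y / 2) c.g c' f (f + z) c.L (f - b - c') (f + z + b)`.
`hd2_of` : `E39.HD2`.
-/

set_option autoImplicit false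

open MeasureTheory Filter ProbabilityTheory Topology Set
open Crest.ProbabilityR.FirstPassage

namespace Crest.Agent.R151.D290

open Crest.Agent.R151.K Crest.Agent.R151.Q
open B710 (FlatData)
open M56 (mg one_le_mg)
open M192 (RowS)
open NF

variable {μ : ℝ × ℝ → ℝ} {F : FlatData μ} {w0 c0 K r₀ : ℝ}

/-- what (D2) needs from the typical set `T` (gap fences on the grid `Γ` of mesh `η`, width `z`,
label margin `b`) -/
structure TypD2 {p : NF.Num} (c : Cf (gammaMeasure 1 r₀) F w0 c0 K p) (T : Set (M192.Row (ℝ × ℝ)))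
    (S : Set (M192.Row (ℝ × ℝ))) (ρ : M192.Row (ℝ × ℝ) → ℝ) (Γ : Set ℝ) (η z b A e₁ : ℝ) :
    Prop where
  budget : 3 * η + 2 * z + 3 * b ≤ 2 * (p.δ * p.W)
  z_ge : c.g ≤ z
  b_ge : c.g ≤ b
  A_pos : 0 < A
  A_le : 4096 * A ≤ c.l
  e_nonneg : 0 ≤ e₁
  e_le : 16 * e₁ ≤ 1
  ρ_meas : Measurable ρ
  ρ_inv : ∀ q t, ρ (V.cs (V.E0 c.h (dOv F (c.y / 2) c.g)) q t) = ρ q
  S_meas : MeasurableSet S
  S_inv : V.SInv (V.E0 c.h (dOv F (c.y / 2) c.g)) S
  S_pos : S ⊆ V.posS c.h (dOv F (c.y / 2) c.g)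
  grid : ∀ x : ℝ, |x| ≤ p.W → ∃ c' ∈ Γ, x ≤ c' ∧ c' ≤ x + η
  lo : ∀ f ∈ Γ, ∀ c' ∈ Γ, |f| ≤ 2 * p.W → |c'| ≤ 2 * p.W →
    S ⊆ V.typ (gammaMeasure 1 r₀) (V.E0 c.h (dOv F (c.y / 2) c.g)) PF
      (NS (obLo c.h c.g c' f (f + z) c.L f (f + z + b - c')) A) e₁
  up : ∀ f ∈ Γ, ∀ c' ∈ Γ, |f| ≤ 2 * p.W → |c'| ≤ 2 * p.W →
    S ⊆ V.typ (gammaMeasure 1 r₀) (V.E0 c.h (dOv F (c.y / 2) c.g)) PF
      (NS (obUp c.h (c.y / 2) c.g c' f (f + z) c.L (f - b - c') (f + z + b)) A) e₁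
  gau : S ⊆ V.typ (gammaMeasure 1 r₀) (V.E0 c.h (dOv F (c.y / 2) c.g)) PF
      (NS (obJ c.h (c.y / 2) c.g c.lam c.L) A) e₁
  dev : S ⊆ V.typ (gammaMeasure 1 r₀) (V.E0 c.h (dOv F (c.y / 2) c.g)) PF
      (NS (obG c.h (c.y / 2) c.g c.L ρ) A) e₁
  T_sub : T ⊆ S
  T_dev : ∀ q ∈ T, |V.hkR c.h (dOv F (c.y / 2) c.g) univ (-c.L) c.L q - ρ q| ≤ A

/-- **(D2)** on the grid -/
theorem ev_D2 (hr : 0 < r₀) [IsProbabilityMeasure (gammaMeasure 1 r₀)]
    (h0 : gammaMeasure 1 r₀ (Set.Iio 0) = 0) :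
    Ev fun p => ∀ c : Cf (gammaMeasure 1 r₀) F w0 c0 K p,
    ∀ (T S : Set (M192.Row (ℝ × ℝ))) (ρ : M192.Row (ℝ × ℝ) → ℝ) (Γ : Set ℝ) (η z b A e₁ : ℝ),
    TypD2 c T S ρ Γ η z b A e₁ →
    1 / 2 ≤ (nuR (gammaMeasure 1 r₀)).real {q | E39.V0 c q ≤ E39.τ0 * c.l} →
    ∀ x y : ℝ, -(1 / 16) ≤ x → x < 1 / 8 → 0 ≤ y → (nuR (gammaMeasure 1 r₀)).real
      ({q | y ≤ (c.rowA T).K x (x + 5 * p.δ) q} ∩ T) ≤ 2 * Real.exp (-(64 * y)) := by
  have a1 := ev_lens (G := gammaMeasure 1 r₀) (F := F) (w0 := w0) (c0 := c0) (K := K)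
  have a2 := tail_of (F := F) (w0 := w0) (c0 := c0) (K := K) hr h0
  have a3 := le_δ fun _ => 32
  refine ((a1.and a2).and a3).mono ?_
  rintro p ⟨⟨hl, htail⟩, hδ32⟩ c T S ρ Γ η z b A e₁ H hin x y hx1 hx2 hy
  have hl := hl c
  have hW : 0 < p.W := zero_lt_one.trans_le hl.W
  have hmg := one_le_mg F
  have hcF := cF_nonneg F
  have hκ0 := c.h.κ_nonneg
  have hκ := hl.κ_le'
  have hsl := hl.sl_le
  have hsl0 := hl.sl_nonneg
  have hgW := hl.gW
  have h1w := hl.one_le_w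
  have hmgl := hl.mg_le
  have hδp := hl.δ_pos
  have hδW : 0 < p.δ * p.W := mul_pos hδp hW
  have hδW32 : 32 * (p.δ * p.W) ≤ p.W := by
    have := mul_le_mul_of_nonneg_right hδ32 hW.le
    linarith
  have hxW1 : -(1 / 16) * p.W ≤ x * p.W := mul_le_mul_of_nonneg_right hx1 hW.le
  have hxW2 : x * p.W ≤ 1 / 8 * p.W := mul_le_mul_of_nonneg_right hx2.le hW.le
  have hs' : (x + 5 * p.δ) * p.W = x * p.W + 5 * (p.δ * p.W) := by ring
  have h3δ : 3 * p.δ * p.W = 3 * (p.δ * p.W) := by ring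
  have hbud := H.budget
  have hz := H.z_ge
  have hb := H.b_ge
  have hgp := hl.g_pos
  obtain ⟨f0, hf0, h01, h02⟩ := H.grid (x * p.W) (by rw [abs_le]; constructor <;> linarith)
  have hη : 0 ≤ η := by linarith
  obtain ⟨cc, hcc, hc1, hc2⟩ := H.grid (f0 + z + b) (by rw [abs_le]; constructor <;> linarith)
  obtain ⟨f1, hf1, h11, h12⟩ := H.grid (cc + 3 * (p.δ * p.W) + b)
    (by rw [abs_le]; constructor <;> linarith)
  have hlam1 : 1 ≤ 2 * E39.lamD p + 4 := by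
    unfold E39.lamD
    have h1 := hl.v
    have h2 : 0 ≤ 1 / p.e := by have := hl.e_pos; positivity
    linarith
  have hτ : E39.τ0 * c.l = c.l / 2048 := by unfold E39.τ0; ring
  rw [hτ] at hin
  exact htail c x cc f0 (f0 + z) f0 (f0 + z + b - cc) f1 (f1 + z) (f1 - b - cc) (f1 + z + b)
    ((2 * E39.lamD p + 4) * p.W) A e₁ hx1 hx2 (by rw [abs_le]; constructor <;> linarith)
    ⟨by linarith, le_rfl, by linarith, by linarith, by linarith, by linarith⟩ h01 (by linarith)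
    (by linarith) (by rw [hs']; linarith) (by nlinarith) H.A_pos H.A_le H.e_nonneg H.e_le T S ρ
    H.ρ_meas H.ρ_inv H.S_meas H.S_inv H.S_pos
    (H.lo f0 hf0 cc hcc (by rw [abs_le]; constructor <;> linarith)
      (by rw [abs_le]; constructor <;> linarith))
    (H.up f1 hf1 cc hcc (by rw [abs_le]; constructor <;> linarith)
      (by rw [abs_le]; constructor <;> linarith)) H.gau H.dev H.T_sub H.T_dev hin y hy

/-- **HD2** for a family of typical sets -/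
theorem hd2_of (hr : 0 < r₀) [IsProbabilityMeasure (gammaMeasure 1 r₀)]
    (h0 : gammaMeasure 1 r₀ (Set.Iio 0) = 0)
    {typ : ∀ {p : NF.Num}, Cf (gammaMeasure 1 r₀) F w0 c0 K p → Set (M192.Row (ℝ × ℝ))}
    (H : Ev fun p => ∀ c : Cf (gammaMeasure 1 r₀) F w0 c0 K p, ∃ S ρ Γ η z b A e₁,
      TypD2 c (typ c) S ρ Γ η z b A e₁) :
    E39.HD2 (gammaMeasure 1 r₀) F w0 c0 K typ := by
  refine (H.and (ev_D2 (F := F) (w0 := w0) (c0 := c0) (K := K) hr h0)).mono ?_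
  rintro p ⟨h1, h2⟩ c hin x y hx1 hx2 hy
  obtain ⟨S, ρ, Γ, η, z, b, A, e₁, H⟩ := h1 c
  exact h2 c (typ c) S ρ Γ η z b A e₁ H hin x y hx1 hx2 hy

end Crest.Agent.R151.D290
end

-- ▼ part R151/E39p
section

/-!
# R151 / S0214 part 2, E39p — (D1) for `typA`, the field `dich` (helper39)
-/

set_option autoImplicit false

open MeasureTheory Filter ProbabilityTheory Topology Set
open scoped ENNReal
open Crest.ProbabilityR.FirstPassage

namespace Crest.Agent.R151.E39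

open K R78 B710 G338 M192 Q NF
open M56 (mg one_le_mg)

variable {μ : ℝ × ℝ → ℝ} {F : FlatData μ}

section sub

variable {G : Measure ℝ} {w0 c0 K : ℝ} {p : NF.Num}

lemma zero_mem_Mg (hp : p.Std) : (0 : ℤ) ∈ Finset.Icc (-p.Mg) p.Mg := by
  have h1 : 0 ≤ p.Mg := by
    unfold NF.Num.Mg
    have := hp.δ_pos
    have := hp.e_pos
    have := hp.v
    positivity
  rw [Finset.mem_Icc]
  exact ⟨by linarith, h1⟩

/-- the grid of `typA` -/
lemma grid_gr (hp : p.Std) {x : ℝ} (hx : |x| ≤ (p.v + 1 / p.e + 3) * p.W) :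
    ∃ i ∈ Finset.Icc (-p.Mg) p.Mg, x ≤ p.gr i ∧ p.gr i ≤ x + p.δ / 128 * p.W := by
  have hη : 0 < p.δ / 128 := by have := hp.δ_pos; positivity
  have hη1 : p.δ / 128 ≤ 1 := by have := hp.δ_le; linarith
  have hW : 0 < p.W := zero_lt_one.trans_le hp.W
  have hq : 0 < p.δ / 128 * p.W := mul_pos hη hW
  have h1 := Int.le_ceil (x / (p.δ / 128 * p.W))
  have h2 := Int.ceil_lt_add_one (x / (p.δ / 128 * p.W))
  have h3 : (p.v + 1 / p.e + 4) / (p.δ / 128) ≤ p.Mg := Int.le_ceil _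
  rw [div_le_iff₀ hη] at h3
  have hx' := abs_le.1 hx
  have h4 : x / (p.δ / 128 * p.W) ≤ p.Mg - 1 := by
    rw [div_le_iff₀ hq]
    have : (p.v + 1 / p.e + 3) * p.W ≤ (p.Mg - 1) * (p.δ / 128 * p.W) := by
      rw [← mul_assoc]
      refine mul_le_mul_of_nonneg_right ?_ hW.le
      linarith
    linarith [hx'.2]
  have h5 : -(p.Mg : ℝ) ≤ x / (p.δ / 128 * p.W) := by
    rw [le_div_iff₀ hq]
    have : (p.v + 1 / p.e + 3) * p.W ≤ p.Mg * (p.δ / 128 * p.W) := by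
      rw [← mul_assoc]
      refine mul_le_mul_of_nonneg_right ?_ hW.le
      linarith
    linarith [hx'.1]
  refine ⟨⌈x / (p.δ / 128 * p.W)⌉, ?_, ?_, ?_⟩
  · rw [Finset.mem_Icc]
    constructor
    · have : (-(p.Mg : ℝ)) ≤ (⌈x / (p.δ / 128 * p.W)⌉ : ℝ) := h5.trans h1
      exact_mod_cast this
    · have : (⌈x / (p.δ / 128 * p.W)⌉ : ℝ) ≤ p.Mg := by linarith
      exact_mod_cast this
  · rw [div_le_iff₀ hq] at h1
    exact h1
  · unfold NF.Num.gr
    have := mul_le_mul_of_nonneg_right h2.le hq.le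
    rw [add_mul, div_mul_cancel₀ _ hq.ne', one_mul] at this
    exact this

lemma meas_ob (c : Cf G F w0 c0 K p) (hρ : Measurable (c.rho (c.yA • F.b)))
    (k : Fin 6 × (ℤ × ℤ)) : (c.ob k).Meas := by
  obtain ⟨k, i, j⟩ := k
  unfold NF.Cf.ob
  fin_cases k
  · exact meas_obD _ _ _
  · exact meas_obG _ _ _ _ hρ
  · exact meas_obJ _ _ _ _ _
  · exact meas_obK _ _ _ _ _ _
  · exact meas_fLo _ _ _ _ _
  · exact meas_fUp _ _ _ _ _ _

variable [IsProbabilityMeasure G]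

lemma measurableSet_TSA (c : Cf G F w0 c0 K p) (hρ : Measurable (c.rho (c.yA • F.b))) :
    MeasurableSet c.TSA :=
  V.measurableSet_TSet (h := c.h) (d := c.yA • F.b) fun k _ =>
    measurableSet_NS (meas_ob c hρ k) _

lemma TSA_typ (c : Cf G F w0 c0 K p) (k : Fin 6) {i j : ℤ} (hi : i ∈ Finset.Icc (-p.Mg) p.Mg)
    (hj : j ∈ Finset.Icc (-p.Mg) p.Mg) :
    c.TSA ⊆ V.typ G (V.E0 c.h (c.yA • F.b)) PF (NS (c.ob (k, i, j)) (c.thr (k, i, j)))
      (p.e ^ 2) := by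
  have h1 : (k, i, j) ∈ p.idx := by
    unfold NF.Num.idx
    simp only [Finset.mem_product, Finset.mem_univ, true_and]
    exact ⟨hi, hj⟩
  exact V.TSet_subset_typ (κ := PF) (h := c.h) (d := c.yA • F.b)
    (N := fun k => NS (c.ob k) (c.thr k)) h1

lemma TSA_D (hp : p.Std) (c : Cf G F w0 c0 K p) :
    c.TSA ⊆ V.typ G (V.E0 c.h (dOv F (c.y / 2) c.g)) PF
      (NS (obD F (c.y / 2) c.g (p.Nb F)) (p.e ^ 2 * p.W)) (p.e ^ 2) := by
  have h1 : c.ob (0, 0, 0) = obD F (c.y / 2) c.g (p.Nb F) := rfl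
  have h2 : c.thr (0, 0, 0) = p.e ^ 2 * p.W := rfl
  have := TSA_typ c 0 (zero_mem_Mg hp) (zero_mem_Mg hp)
  rw [h1, h2] at this
  exact this

lemma TSA_G (hp : p.Std) (c : Cf G F w0 c0 K p) :
    c.TSA ⊆ V.typ G (V.E0 c.h (dOv F (c.y / 2) c.g)) PF
      (NS (obG c.h (c.y / 2) c.g c.L (c.rho (c.yA • F.b))) (p.e ^ 2 * c.l)) (p.e ^ 2) := by
  have h1 : c.ob (1, 0, 0) = obG c.h (c.y / 2) c.g c.L (c.rho (c.yA • F.b)) := rfl
  have h2 : c.thr (1, 0, 0) = p.e ^ 2 * c.l := rfl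
  have := TSA_typ c 1 (zero_mem_Mg hp) (zero_mem_Mg hp)
  rw [h1, h2] at this
  exact this

lemma TSA_K (hp : p.Std) (c : Cf G F w0 c0 K p) {i : ℤ} (hi : i ∈ Finset.Icc (-p.Mg) p.Mg) :
    c.TSA ⊆ V.typ G (V.E0 c.h (dOv F (c.y / 2) c.g)) PF
      (NS (obK c.h (c.y / 2) c.g (p.gr i) c.lam c.L) (p.e ^ 2 * c.l)) (p.e ^ 2) := by
  have h1 : c.ob (3, i, 0) = obK c.h (c.y / 2) c.g (p.gr i) c.lam c.L := rfl
  have h2 : c.thr (3, i, 0) = p.e ^ 2 * c.l := rfl
  have := TSA_typ c 3 hi (zero_mem_Mg hp)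
  rw [h1, h2] at this
  exact this

lemma TSA_posS (c : Cf G F w0 c0 K p) : c.TSA ⊆ V.posS c.h (dOv F (c.y / 2) c.g) :=
  V.TSet_subset_posS c.h (c.yA • F.b)

lemma TSA_SInv (c : Cf G F w0 c0 K p) : V.SInv (V.E0 c.h (dOv F (c.y / 2) c.g)) c.TSA :=
  V.sInv_TSet c.h (c.yA • F.b)

end sub

/-- **(D1) for `typA`** -/
theorem HD1_typA {r₀ : ℝ} (hr : 0 < r₀) [IsProbabilityMeasure (gammaMeasure 1 r₀)]
    (h0 : gammaMeasure 1 r₀ (Set.Iio 0) = 0)
    (h2 : Integrable (fun x : ℝ => x ^ 2) (gammaMeasure 1 r₀)) (hT : IsTC (gammaMeasure 1 r₀) μ)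
    (hμ : B710.NormLike μ) {w0 c0 K : ℝ} :
    HD1 (gammaMeasure 1 r₀) F w0 c0 K (fun c => c.typA) (4096 * Real.log 12) := by
  refine HD1_of hr h0 hμ (S := fun c => c.TSA) (ρ := fun c => c.rho (c.yA • F.b))
    (N := fun p => p.Nb F) ?_
  refine (((rho_spec (G := gammaMeasure 1 r₀) (F := F) (w0 := w0) (c0 := c0) (K := K) h0 h2 hT).and
    (ev_lens (G := gammaMeasure 1 r₀) (F := F) (w0 := w0) (c0 := c0) (K := K))).and
      Ev.std).mono ?_
  rintro p ⟨⟨h1, hl⟩, hp⟩ c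
  have hl := hl c
  have hρ := h1 c (c.y / 2) c.g (Cf.htA hl.toC)
  have hW : 0 < p.W := zero_lt_one.trans_le hp.W
  refine ⟨inter_subset_left, ?_, hρ.meas, hρ.glue, measurableSet_TSA c hρ.meas, TSA_SInv c,
    TSA_posS c, ?_, TSA_D hp c, TSA_G hp c⟩
  · refine le_trans ?_ (Nat.le_ceil _)
    have hL : c.L = 2 * (p.v' * p.W) := hl.lam_eq
    have h3 : 0 ≤ p.W * ‖F.a‖ := by positivity
    have h4 := hp.W
    rw [hL]
    nlinarith
  · intro x hx
    have hδ := hp.δ_pos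
    have he := hp.e_pos
    have h3 : (p.v + 1) * p.W ≤ (p.v + 1 / p.e + 3) * p.W := by
      refine mul_le_mul_of_nonneg_right ?_ hW.le
      have : 0 < 1 / p.e := by positivity
      linarith
    obtain ⟨i, hi, h4, h5⟩ := grid_gr hp (hx.trans h3)
    refine ⟨p.gr i, h4, h5.trans ?_, TSA_K hp c hi⟩
    have : 0 < p.δ * p.W := mul_pos hδ hW
    linarith

/-- **the field `dich` for `typA`** -/
theorem dich_typA {r₀ : ℝ} (hr : 0 < r₀) [IsProbabilityMeasure (gammaMeasure 1 r₀)]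
    (h0 : gammaMeasure 1 r₀ (Set.Iio 0) = 0)
    (h2 : Integrable (fun x : ℝ => x ^ 2) (gammaMeasure 1 r₀)) (hT : IsTC (gammaMeasure 1 r₀) μ)
    (hμ : B710.NormLike μ) {w0 c0 K : ℝ} (hK : 0 ≤ K)
    (hlaw : ∃ C1 : ℝ, 0 < C1 ∧ Ev fun p => ∀ c : Cf (gammaMeasure 1 r₀) F w0 c0 K p,
      (c.rowA c.typA).Law (nuR (gammaMeasure 1 r₀)) c.mB C1 p.n p.δ (p.v + 1 / p.e) p.e)
    (hD2 : HD2 (gammaMeasure 1 r₀) F w0 c0 K (fun c => c.typA)) :
    ∃ C0 : ℝ, 0 < C0 ∧ Ev fun p => ∀ c : Cf (gammaMeasure 1 r₀) F w0 c0 K p,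
      (c.rowA c.typA).Cheap (nuR (gammaMeasure 1 r₀)) C0 p.δ ∨
        (c.rowA c.typA).Costly (nuR (gammaMeasure 1 r₀)) C0 p.δ p.v p.e :=
  ev_dich hK (typ := fun c => c.typA) hlaw (HD1_typA hr h0 h2 hT hμ) hD2

end Crest.Agent.R151.E39
end

-- ▼ part R151/D290c
section

/-!
# R151 / S0214 part 2, D290c — (D2) for the typical rows `Cf.typA` (owner helper290)

* `ev_typD2` : the typical rows satisfy `TypD2`;
* `hd2_typA` : `E39.HD2` for `typA`.
-/

set_option autoImplicit false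

open MeasureTheory Filter ProbabilityTheory Topology Set
open Crest.ProbabilityR.FirstPassage

namespace Crest.Agent.R151.D290

open Crest.Agent.R151.K Crest.Agent.R151.Q
open B710 (FlatData)
open M56 (mg one_le_mg)
open M192 (RowS)
open NF

variable {μ : ℝ × ℝ → ℝ} {F : FlatData μ} {w0 c0 K r₀ : ℝ}

/-- rounding to the grid -/
lemma exists_gr {p : NF.Num} (hp : p.Std) {x : ℝ} (hx : |x| ≤ p.W) :
    ∃ i : ℤ, i ∈ Finset.Icc (-p.Mg) p.Mg ∧ x ≤ p.gr i ∧ p.gr i ≤ x + p.δ / 128 * p.W := by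
  have hW : 0 < p.W := zero_lt_one.trans_le hp.W
  have hδ := hp.δ_pos
  have hs : 0 < p.δ / 128 * p.W := by positivity
  have hd : 0 < p.δ / 128 := by positivity
  have hM : (1 : ℝ) / (p.δ / 128) ≤ p.Mg := by
    refine le_trans ?_ (Int.le_ceil _)
    have h1 := hp.v
    have h2 : 0 ≤ 1 / p.e := by have := hp.e_pos; positivity
    gcongr
    linarith
  obtain ⟨h1, h2⟩ := abs_le.1 hx
  have hq1 : x / (p.δ / 128 * p.W) ≤ 1 / (p.δ / 128) := by
    rw [div_le_div_iff₀ hs hd]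
    nlinarith
  have hq2 : -(1 / (p.δ / 128)) ≤ x / (p.δ / 128 * p.W) := by
    rw [neg_le_iff_add_nonneg, div_add_div _ _ hs.ne' hd.ne']
    refine div_nonneg ?_ (by positivity)
    nlinarith
  refine ⟨⌈x / (p.δ / 128 * p.W)⌉, Finset.mem_Icc.2 ⟨?_, ?_⟩, ?_, ?_⟩
  · have h3 : (-(p.Mg : ℝ)) ≤ x / (p.δ / 128 * p.W) := by linarith
    have h4 := h3.trans (Int.le_ceil _)
    exact_mod_cast h4
  · exact Int.ceil_le.2 (hq1.trans hM)
  · have h3 := Int.le_ceil (x / (p.δ / 128 * p.W))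
    rw [div_le_iff₀ hs] at h3
    exact h3
  · have h3 := Int.ceil_lt_add_one (x / (p.δ / 128 * p.W))
    have h4 := mul_le_mul_of_nonneg_right h3.le hs.le
    have h5 : (x / (p.δ / 128 * p.W) + 1) * (p.δ / 128 * p.W) = x + p.δ / 128 * p.W := by
      field_simp
    rw [h5] at h4
    exact h4

section typA

variable {G : Measure ℝ} [IsProbabilityMeasure G] {p : NF.Num} {c : Cf G F w0 c0 K p}

lemma meas_ob (hρ : Measurable (c.rho (c.yA • F.b))) (k : Fin 6 × (ℤ × ℤ)) : (c.ob k).Meas := by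
  obtain ⟨k0, k1, k2⟩ := k
  unfold Cf.ob
  fin_cases k0
  · exact meas_obD _ _ _
  · exact meas_obG _ _ _ _ hρ
  · exact meas_obJ _ _ _ _ _
  · exact meas_obK _ _ _ _ _ _
  · exact meas_fLo _ _ _ _ _
  · exact meas_fUp _ _ _ _ _ _

lemma TSA_sub {k : Fin 6 × (ℤ × ℤ)} (hk : k ∈ p.idx) :
    c.TSA ⊆ V.typ G (V.E0 c.h (c.yA • F.b)) PF (NS (c.ob k) (c.thr k)) (p.e ^ 2) :=
  V.TSet_subset_typ c.h (c.yA • F.b) hk

lemma mem_idx (a : Fin 6) {i j : ℤ} (hi : i ∈ Finset.Icc (-p.Mg) p.Mg)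
    (hj : j ∈ Finset.Icc (-p.Mg) p.Mg) : (a, (i, j)) ∈ p.idx :=
  Finset.mem_product.2 ⟨Finset.mem_univ _, Finset.mem_product.2 ⟨hi, hj⟩⟩

end typA

/-- the typical rows `typA` satisfy the hypotheses of (D2) -/
theorem ev_typD2 [IsProbabilityMeasure (gammaMeasure 1 r₀)]
    (h0 : gammaMeasure 1 r₀ (Set.Iio 0) = 0)
    (h2 : Integrable (fun x : ℝ => x ^ 2) (gammaMeasure 1 r₀))
    (hμ : IsTC (gammaMeasure 1 r₀) μ) :
    Ev fun p => ∀ c : Cf (gammaMeasure 1 r₀) F w0 c0 K p,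
      TypD2 c c.typA c.TSA (c.rho (c.yA • F.b))
        {r | ∃ i : ℤ, i ∈ Finset.Icc (-p.Mg) p.Mg ∧ p.gr i = r} (p.δ / 128 * p.W) p.zf c.g
        (p.e ^ 2 * c.l) (p.e ^ 2) := by
  have a1 := ev_lens (G := gammaMeasure 1 r₀) (F := F) (w0 := w0) (c0 := c0) (K := K)
  have a2 := rho_spec (F := F) (w0 := w0) (c0 := c0) (K := K) h0 h2 hμ
  have a3 := le_e fun _ _ _ => 64
  refine ((a1.and a2).and a3).mono ?_
  rintro p ⟨⟨hl, hρ⟩, he64⟩ c
  have hl := hl c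
  have hρ : c.IsRho (c.yA • F.b) (c.rho (c.yA • F.b)) := hρ c (c.y / 2) c.g (Cf.htA hl.toC)
  have hW : 0 < p.W := zero_lt_one.trans_le hl.W
  have hδp := hl.δ_pos
  have hδW : 0 < p.δ * p.W := mul_pos hδp hW
  have hgδ := hl.gδ
  have hg0 := hl.g_pos
  have he := hl.e_pos
  have hlp := hl.l_pos
  have hzf : p.zf = (p.δ * p.W) / 16 := by unfold Num.zf; ring
  have hη : p.δ / 128 * p.W = (p.δ * p.W) / 128 := by ring
  have he2 : 4096 * p.e ^ 2 ≤ 1 := by nlinarith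
  have hMg : (0 : ℤ) ∈ Finset.Icc (-p.Mg) p.Mg := by
    have : 0 ≤ p.Mg := by
      have h1 := hl.v
      have h2 : 0 ≤ 1 / p.e := by positivity
      refine Int.ceil_nonneg ?_
      positivity
    exact Finset.mem_Icc.2 ⟨by linarith, this⟩
  exact
    { budget := by rw [hzf, hη]; linarith
      z_ge := by rw [hzf]; linarith
      b_ge := le_rfl
      A_pos := by positivity
      A_le := by nlinarith
      e_nonneg := by positivity
      e_le := by linarith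
      ρ_meas := hρ.meas
      ρ_inv := hρ.glue
      S_meas := V.measurableSet_TSet c.h (c.yA • F.b) fun k _ =>
        measurableSet_NS (meas_ob hρ.meas k) _
      S_inv := V.sInv_TSet c.h (c.yA • F.b)
      S_pos := V.TSet_subset_posS c.h (c.yA • F.b)
      grid := by
        intro x hx
        obtain ⟨i, h1, h2, h3⟩ := exists_gr hl.toStd hx
        exact ⟨p.gr i, ⟨i, h1, rfl⟩, h2, h3⟩
      lo := by
        rintro f ⟨j, hj, rfl⟩ c' ⟨i, hi, rfl⟩ _ _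
        exact TSA_sub (c := c) (k := (4, (i, j))) (mem_idx 4 hi hj)
      up := by
        rintro f ⟨j, hj, rfl⟩ c' ⟨i, hi, rfl⟩ _ _
        have h := TSA_sub (c := c) (k := (5, (i, j))) (mem_idx 5 hi hj)
        have e : p.gr j - c.g - p.gr i = p.gr j - p.gr i - c.g := by ring
        rw [e]
        exact h
      gau := TSA_sub (c := c) (k := (2, (0, 0))) (mem_idx 2 hMg hMg)
      dev := TSA_sub (c := c) (k := (1, (0, 0))) (mem_idx 1 hMg hMg)
      T_sub := inter_subset_left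
      T_dev := fun q hq => hq.2 }

/-- **HD2 for the typical rows** -/
theorem hd2_typA (hr : 0 < r₀) [IsProbabilityMeasure (gammaMeasure 1 r₀)]
    (h0 : gammaMeasure 1 r₀ (Set.Iio 0) = 0)
    (h2 : Integrable (fun x : ℝ => x ^ 2) (gammaMeasure 1 r₀))
    (hμ : IsTC (gammaMeasure 1 r₀) μ) :
    E39.HD2 (gammaMeasure 1 r₀) F w0 c0 K fun c => c.typA :=
  hd2_of hr h0 ((ev_typD2 (F := F) (w0 := w0) (c0 := c0) (K := K) h0 h2 hμ).mono
    fun _ h c => ⟨_, _, _, _, _, _, _, _, h c⟩)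

end Crest.Agent.R151.D290
end

-- ▼ part R151/NF8
section

/-!
# R151 / S0214 part 2, NF8 — the failure events are improbable (helper710)
-/

set_option autoImplicit false

open MeasureTheory Filter ProbabilityTheory Topology Set
open Crest.ProbabilityR.FirstPassage
open Crest.Agent.R151.K Crest.Agent.R151.Q

namespace Crest.Agent.R151.NF

open B710 (FlatData)
open M56 (mg one_le_mg)

variable {μ : ℝ × ℝ → ℝ} {G : Measure ℝ} {F : FlatData μ} {w0 c0 K : ℝ}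

section means

variable [IsProbabilityMeasure G]

/-- Markov for an observable with small mean -/
lemma prob_of_mean {f : Ob} (hi : Integrable (fun q : M192.RowS × ((ℝ × ℝ) × (ℝ × ℝ)) =>
      f q.1.1.1 q.1.1.2 q.1.2 q.2) ((nuR G).prod PF)) {b l A a : ℝ} (hl : 0 < l) (hb : 0 < b)
    (ha : 0 < a) (hm : ∫ q, |f q.1.1.1 q.1.1.2 q.1.2 q.2| ∂((nuR G).prod PF) ≤ A)
    (hA : 1 / (b * a) * A ≤ l) : ((nuR G).prod PF).real (NS f (b * l)) ≤ a := by
  refine (prob_NS_le hi (mul_pos hb hl)).trans ?_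
  rw [div_le_iff₀ (mul_pos hb hl)]
  refine hm.trans ?_
  have h1 : 1 / (b * a) * A * (b * a) ≤ l * (b * a) :=
    mul_le_mul_of_nonneg_right hA (by positivity)
  have h2 : 1 / (b * a) * A * (b * a) = A := by field_simp
  rw [h2] at h1
  linarith

/-- the gauge differences -/
theorem prob_obK (h0 : G (Iio 0) = 0) (h2 : Integrable (fun x : ℝ => x ^ 2) G) (hμ : IsTC G μ)
    (hc0 : 0 < c0) (A b a : ℕ → ℝ → ℝ → ℝ → ℝ) :
    Ev fun p => 0 < b p.n p.δ p.v p.e → 0 < a p.n p.δ p.v p.e → ∀ c : Cf G F w0 c0 K p,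
      ∀ y g : ℝ, c.Ht y g → ∀ x : ℝ, |x| ≤ A p.n p.δ p.v p.e * p.W →
      ((nuR G).prod PF).real (NS (obK c.h y g x c.lam c.L) (b p.n p.δ p.v p.e * c.l)) ≤
        a p.n p.δ p.v p.e := by
  refine (((ev_lens (G := G) (F := F) (w0 := w0) (c0 := c0) (K := K)).and
    (obK_le (F := F) (w0 := w0) (c0 := c0) (K := K) h0 h2 hμ A)).and
    (Bf_small (G := G) (F := F) (w0 := w0) (K := K) hc0
      fun n δ v e => 1 / (b n δ v e * a n δ v e) * 2)).mono ?_
  rintro p ⟨⟨hl, hK⟩, hB⟩ hb ha c y g hyg x hx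
  have hl := hl c
  obtain ⟨k1, k2⟩ := hK c y g hyg x hx
  refine prob_of_mean k1 hl.l_pos hb ha k2 ?_
  have := hB c
  linarith

/-- the window -/
theorem prob_obJ (h0 : G (Iio 0) = 0) (h2 : Integrable (fun x : ℝ => x ^ 2) G) (hμ : IsTC G μ)
    (hc0 : 0 < c0) (b a : ℕ → ℝ → ℝ → ℝ → ℝ) :
    Ev fun p => 0 < b p.n p.δ p.v p.e → 0 < a p.n p.δ p.v p.e → ∀ c : Cf G F w0 c0 K p,
      ∀ y g : ℝ, c.Ht y g →
      ((nuR G).prod PF).real (NS (obJ c.h y g c.lam c.L) (b p.n p.δ p.v p.e * c.l)) ≤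
        a p.n p.δ p.v p.e := by
  refine (((ev_lens (G := G) (F := F) (w0 := w0) (c0 := c0) (K := K)).and
    (obJ_le (F := F) (w0 := w0) (c0 := c0) (K := K) h0 h2 hμ)).and
    (Bf_small (G := G) (F := F) (w0 := w0) (K := K) hc0
      fun n δ v e => 1 / (b n δ v e * a n δ v e))).mono ?_
  rintro p ⟨⟨hl, hK⟩, hB⟩ hb ha c y g hyg
  have hl := hl c
  obtain ⟨k1, k2⟩ := hK c y g hyg
  exact prob_of_mean k1 hl.l_pos hb ha k2 (hB c)

/-- the gauge and its `S`-measurable version -/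
theorem prob_obG (h0 : G (Iio 0) = 0) (h2 : Integrable (fun x : ℝ => x ^ 2) G) (hμ : IsTC G μ)
    (hc0 : 0 < c0) (b a : ℕ → ℝ → ℝ → ℝ → ℝ) :
    Ev fun p => 0 < b p.n p.δ p.v p.e → 0 < a p.n p.δ p.v p.e → ∀ c : Cf G F w0 c0 K p,
      ∀ y g : ℝ, c.Ht y g →
      ((nuR G).prod PF).real
        (NS (obG c.h y g c.L (c.rho (dOv F y g))) (b p.n p.δ p.v p.e * c.l)) ≤
          a p.n p.δ p.v p.e ∧
      (nuR G).real {q | b p.n p.δ p.v p.e * c.l <
        |V.hkR c.h (dOv F y g) univ (-c.L) c.L q - c.rho (dOv F y g) q|} ≤ a p.n p.δ p.v p.e := by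
  refine (((ev_lens (G := G) (F := F) (w0 := w0) (c0 := c0) (K := K)).and
    (rho_spec (F := F) (w0 := w0) (c0 := c0) (K := K) h0 h2 hμ)).and
    (Bf_small (G := G) (F := F) (w0 := w0) (K := K) hc0
      fun n δ v e => 1 / (b n δ v e * a n δ v e) * 3)).mono ?_
  rintro p ⟨⟨hl, hK⟩, hB⟩ hb ha c y g hyg
  have hl := hl c
  have hρ := hK c y g hyg
  have hB := hB c
  have k1 : Integrable (fun q : M192.RowS × ((ℝ × ℝ) × (ℝ × ℝ)) =>
      obG c.h y g c.L (c.rho (dOv F y g)) q.1.1.1 q.1.1.2 q.1.2 q.2) ((nuR G).prod PF) :=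
    hρ.int.comp_fst PF
  have mp : MeasurePreserving (Prod.fst : M192.RowS × ((ℝ × ℝ) × (ℝ × ℝ)) → _)
    ((nuR G).prod PF) (nuR G) := measurePreserving_fst
  have k2 : ∫ q, |obG c.h y g c.L (c.rho (dOv F y g)) q.1.1.1 q.1.1.2 q.1.2 q.2|
      ∂((nuR G).prod PF) ≤ 3 * c.Bf := by
    refine le_trans (le_of_eq ?_) hρ.mean
    exact mp_integral mp hρ.int.abs.aestronglyMeasurable
  have k3 := prob_of_mean k1 hl.l_pos hb ha k2 (by linarith)
  refine ⟨k3, ?_⟩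
  have hm : MeasurableSet {q | b p.n p.δ p.v p.e * c.l <
        |V.hkR c.h (dOv F y g) univ (-c.L) c.L q - c.rho (dOv F y g) q|} := by
    have : Measurable fun q => V.hkR c.h (dOv F y g) univ (-c.L) c.L q :=
      V.measurable_hkR c.h _ MeasurableSet.univ _ _
    exact measurableSet_lt measurable_const ((this.sub hρ.meas).abs)
  rw [← mp.measureReal_preimage hm.nullMeasurableSet]
  exact k3

/-- the fences of the gaps -/
theorem prob_fence (h0 : G (Iio 0) = 0) (h2 : Integrable (fun x : ℝ => x ^ 2) G)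
    (hμ : IsTC G μ) (hc0 : 0 < c0) (z A b a : ℕ → ℝ → ℝ → ℝ → ℝ) :
    Ev fun p => 0 < z p.n p.δ p.v p.e → 0 < b p.n p.δ p.v p.e → 0 < a p.n p.δ p.v p.e →
      ∀ c : Cf G F w0 c0 K p, ∀ y g : ℝ, c.Ht y g → ∀ x f : ℝ,
      |x| ≤ A p.n p.δ p.v p.e * p.W → |f| ≤ A p.n p.δ p.v p.e * p.W →
      ((nuR G).prod PF).real (NS (fLo c g x f (z p.n p.δ p.v p.e * p.W))
        (b p.n p.δ p.v p.e * c.l)) ≤ a p.n p.δ p.v p.e ∧
      ((nuR G).prod PF).real (NS (fUp c y g x f (z p.n p.δ p.v p.e * p.W))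
        (b p.n p.δ p.v p.e * c.l)) ≤ a p.n p.δ p.v p.e := by
  refine ((((ev_lens (G := G) (F := F) (w0 := w0) (c0 := c0) (K := K)).and
    (obLo_le (F := F) (w0 := w0) (K := K) h0 h2 hμ hc0 (fun n δ v e _ _ _ => z n δ v e)
      fun n δ v e _ _ _ => 1 / (b n δ v e * a n δ v e))).and
    (obUp_le (F := F) (w0 := w0) (K := K) h0 h2 hμ hc0 (fun n δ v e _ _ _ => z n δ v e)
      fun n δ v e _ _ _ => 1 / (b n δ v e * a n δ v e))).and
    (le_v' fun n δ v e => 2 * A n δ v e + z n δ v e + 1)).mono ?_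
  rintro p ⟨⟨⟨hl, hLo⟩, hUp⟩, hv⟩ hz hb ha c y g hyg x f hx hf
  have hl := hl c
  have hW : 0 < p.W := zero_lt_one.trans_le hl.W
  generalize z p.n p.δ p.v p.e = zz at *
  generalize b p.n p.δ p.v p.e = bb at *
  generalize a p.n p.δ p.v p.e = aa at *
  generalize A p.n p.δ p.v p.e = AA at *
  have hL : c.L = 2 * (p.v' * p.W) := hl.lam_eq
  have h5 := mul_le_mul_of_nonneg_right hv hW.le
  have h6 := abs_le.1 hx
  have h7 := abs_le.1 hf
  have h8 : g ≤ 3 * c.g := hyg.g_le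
  have h9 := hl.gW
  have h10 := hl.sl_le
  have h11 := hl.sl_nonneg
  have h12 := hl.κ_le'
  have h13 := hl.mg_le
  have h14 := one_le_mg F
  have h15 := cF_nonneg F
  have h16 := hyg.g_ge
  have h17 : 0 < zz * p.W := mul_pos hz hW
  have h18 : 0 ≤ AA * p.W := (abs_nonneg x).trans hx
  have h19 : 0 < p.v' * p.W := mul_pos (by linarith [hl.v']) hW
  have h20 : |1 / (bb * aa)| = 1 / (bb * aa) := abs_of_pos (by positivity)
  have h21 : (2 * AA + zz + 1) * p.W = 2 * (AA * p.W) + zz * p.W + p.W := by ring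
  rw [h21] at h5
  constructor
  · obtain ⟨k1, k2⟩ := hLo hz c y g hyg x f (f + zz * p.W) f (f + zz * p.W + g - x)
      (hx.trans (by linarith)) le_rfl (by linarith) (by linarith) (by linarith) (by linarith)
    rw [h20] at k2
    exact prob_of_mean k1 hl.l_pos hb ha le_rfl k2
  · obtain ⟨k1, k2⟩ := hUp hz c y g hyg x f (f + zz * p.W) (f - x - g) (f + zz * p.W + g)
      (hx.trans (by linarith)) (by linarith) (by linarith) (by linarith) (by linarith)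
      (by linarith)
    rw [h20] at k2
    exact prob_of_mean k1 hl.l_pos hb ha le_rfl k2

end means

end Crest.Agent.R151.NF
end

-- ▼ part R151/E191H
section

/-!
# R151 / S0214 part 2, E191H — facts on the typical set of the A-rows (owner helper191)

`grid_up`, `grid_down` (rounding), `TSA_sub_posS`, `TSA_sub_D/G/J/K/Lo/Up`, `meas_ob`, `inv_ob`,
`measurableSet_TSA`, `sInv_TSA`, `measurableSet_TSA_mB`, `TOK_TSA`, `typA_eq`, Ev form `ev_TOK`.
-/

set_option autoImplicit false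
set_option linter.unusedSectionVars false

open MeasureTheory Filter ProbabilityTheory Topology Set
open Crest.ProbabilityR.FirstPassage
open Crest.Agent.R151.K Crest.Agent.R151.Q

namespace Crest.Agent.R151.NF

open B710 (FlatData)
open M56 (mg one_le_mg)

variable {μ : ℝ × ℝ → ℝ} {G : Measure ℝ} {F : FlatData μ} {w0 c0 K : ℝ} {p : Num}

/-! ### The grid -/






lemma gr_abs (hp : p.Std) {i : ℤ} (hi : i ∈ Finset.Icc (-p.Mg) p.Mg) :
    |p.gr i| ≤ (p.v + 1 / p.e + 5) * p.W := by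
  have hδ := hp.δ_pos
  have hδ1 := hp.δ_le
  have hW : 0 < p.W := zero_lt_one.trans_le hp.W
  have he := hp.e_pos
  have h1 : |(i : ℝ)| ≤ (p.v + 1 / p.e + 4) / (p.δ / 128) + 1 := by
    have h2 : (p.Mg : ℝ) ≤ (p.v + 1 / p.e + 4) / (p.δ / 128) + 1 := (Int.ceil_lt_add_one _).le
    simp only [Finset.mem_Icc] at hi
    rw [abs_le]
    constructor
    · have : (-(p.Mg : ℝ)) ≤ i := by exact_mod_cast hi.1
      linarith
    · have : (i : ℝ) ≤ p.Mg := by exact_mod_cast hi.2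
      linarith
  unfold Num.gr
  rw [abs_mul, abs_of_pos (show 0 < p.δ / 128 * p.W by positivity)]
  calc |(i : ℝ)| * (p.δ / 128 * p.W)
      ≤ ((p.v + 1 / p.e + 4) / (p.δ / 128) + 1) * (p.δ / 128 * p.W) :=
        mul_le_mul_of_nonneg_right h1 (by positivity)
    _ = (p.v + 1 / p.e + 4) * p.W + p.δ / 128 * p.W := by field_simp
    _ ≤ _ := by nlinarith

namespace Cf

variable {c : Cf G F w0 c0 K p}

/-! ### Measurability and invariance of the observables -/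

lemma meas_ob (hρ : Measurable (c.rho (c.yA • F.b))) (k : Fin 6 × (ℤ × ℤ)) : (c.ob k).Meas := by
  obtain ⟨k, i, j⟩ := k
  fin_cases k
  · exact meas_obD _ _ _
  · exact meas_obG _ _ _ _ hρ
  · exact meas_obJ _ _ _ _ _
  · exact meas_obK _ _ _ _ _ _
  · exact meas_obLo _ _ _ _ _ _ _ _
  · exact meas_obUp _ _ _ _ _ _ _ _ _


variable [IsProbabilityMeasure G]

/-! ### Inclusions -/










/-! ### Measurability -/







end Cf

/-- the gauge of the A-rows -/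
theorem ev_rhoA [IsProbabilityMeasure G] (h0 : G (Iio 0) = 0)
    (h2 : Integrable (fun x : ℝ => x ^ 2) G) (hμ : IsTC G μ) :
    Ev fun p => ∀ c : Cf G F w0 c0 K p, c.IsRho (c.yA • F.b) (c.rho (c.yA • F.b)) := by
  refine ((rho_spec (F := F) (w0 := w0) (c0 := c0) (K := K) h0 h2 hμ).and
    (ev_lens (G := G) (F := F) (w0 := w0) (c0 := c0) (K := K))).mono ?_
  rintro p ⟨h, hl⟩ c
  exact h c (c.y / 2) c.g (Cf.htA (hl c).toC)


end Crest.Agent.R151.NF
end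

-- ▼ part R151/NF9
section

/-!
# R151 / S0214 part 2, NF9 — typical rows have probability close to one (helper710)
-/

set_option autoImplicit false

open MeasureTheory Filter ProbabilityTheory Topology Set
open Crest.ProbabilityR.FirstPassage
open Crest.Agent.R151.K Crest.Agent.R151.Q

namespace Crest.Agent.R151.NF

open B710 (FlatData)
open M56 (mg one_le_mg)

variable {μ : ℝ × ℝ → ℝ} {G : Measure ℝ} {F : FlatData μ} {w0 c0 K : ℝ}

/-- cardinality of the index set, as a function of `δ, v, e` -/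
noncomputable def cardF (δ v e : ℝ) : ℝ :=
  (((Finset.univ : Finset (Fin 6)) ×ˢ
    (Finset.Icc (-⌈(v + 1 / e + 4) / (δ / 128)⌉) ⌈(v + 1 / e + 4) / (δ / 128)⌉ ×ˢ
      Finset.Icc (-⌈(v + 1 / e + 4) / (δ / 128)⌉) ⌈(v + 1 / e + 4) / (δ / 128)⌉)).card : ℝ)

lemma cardF_eq (p : Num) : (p.idx.card : ℝ) = cardF p.δ p.v p.e := rfl

lemma cardF_nonneg (δ v e : ℝ) : 0 ≤ cardF δ v e := Nat.cast_nonneg _

/-- **each failure event is improbable** -/
theorem ev_ob_small [IsProbabilityMeasure G] (h0 : G (Iio 0) = 0)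
    (h2 : Integrable (fun x : ℝ => x ^ 2) G) (hμ : IsTC G μ) {m : ℝ} (hM : Mom G m)
    (hL : LocCtl G) (hc0 : 0 < c0) (a : ℕ → ℝ → ℝ → ℝ → ℝ) :
    Ev fun p => 0 < a p.n p.δ p.v p.e → ∀ c : Cf G F w0 c0 K p, ∀ k ∈ p.idx,
      ((nuR G).prod PF).real (NS (c.ob k) (c.thr k)) ≤ a p.n p.δ p.v p.e := by
  have a0 := ev_lens (G := G) (F := F) (w0 := w0) (c0 := c0) (K := K)
  have a1 := prob_obK (F := F) (w0 := w0) (K := K) h0 h2 hμ hc0
    (fun _ _ v e => v + 1 / e + 5) (fun _ _ _ e => e ^ 2) a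
  have a2 := prob_obJ (F := F) (w0 := w0) (K := K) h0 h2 hμ hc0 (fun _ _ _ e => e ^ 2) a
  have a3 := prob_obG (F := F) (w0 := w0) (K := K) h0 h2 hμ hc0 (fun _ _ _ e => e ^ 2) a
  have a4 := prob_fence (F := F) (w0 := w0) (K := K) h0 h2 hμ hc0 (fun _ δ _ _ => δ / 16)
    (fun _ _ v e => v + 1 / e + 5) (fun _ _ _ e => e ^ 2) a
  have a5 := obD_small (F := F) h0 h2 hμ hM hL (fun _ _ _ e _ _ _ _ => e ^ 2)
    (fun n δ v e _ _ _ _ => a n δ v e)
  refine (((((a0.and a1).and a2).and a3).and a4).and a5).mono ?_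
  rintro p ⟨⟨⟨⟨⟨hl, b1⟩, b2⟩, b3⟩, b4⟩, b5⟩ ha c k hk
  have hl := hl c
  have hp : p.Std := hl.toStd
  have : IsProbabilityMeasure (nuR G) := by unfold nuR; infer_instance
  have he : 0 < p.e ^ 2 := pow_pos hp.e_pos 2
  have hyg : c.Ht (c.y / 2) c.g := Cf.htA hl.toC
  obtain ⟨k1, i, j⟩ := k
  unfold Num.idx at hk
  simp only [Finset.mem_product, Finset.mem_univ, true_and] at hk
  obtain ⟨hi, hj⟩ := hk
  have gi := gr_abs hp hi
  have gj := gr_abs hp hj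
  fin_cases k1
  · exact b5 he ha (c.y / 2) c.g
  · exact (b3 he ha c _ _ hyg).1
  · exact b2 he ha c _ _ hyg
  · exact b1 he ha c _ _ hyg _ gi
  · exact (b4 (by have := hp.δ_pos; positivity) he ha c _ _ hyg _ _ gi gj).1
  · exact (b4 (by have := hp.δ_pos; positivity) he ha c _ _ hyg _ _ gi gj).2

/-- **T_prob**: typical rows have probability close to one -/
theorem T_prob [IsProbabilityMeasure G] (h0 : G (Iio 0) = 0)
    (h2 : Integrable (fun x : ℝ => x ^ 2) G) (hμ : IsTC G μ) {m : ℝ} (hM : Mom G m)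
    (hL : LocCtl G) (hc0 : 0 < c0) (B : ℕ → ℝ → ℝ → ℝ → ℝ) :
    Ev fun p => ∀ c : Cf G F w0 c0 K p,
      B p.n p.δ p.v p.e * (nuR G).real (c.TSA)ᶜ ≤ 1 ∧
      B p.n p.δ p.v p.e * (nuR G).real (c.typA)ᶜ ≤ 1 := by
  have a0 := ev_lens (G := G) (F := F) (w0 := w0) (c0 := c0) (K := K)
  have a1 := ev_ob_small (F := F) (w0 := w0) (K := K) h0 h2 hμ hM hL hc0
    (fun n δ v e => e ^ 2 / (2 * (|B n δ v e| + 1) * (cardF δ v e + 1)))
  have a2 := prob_obG (F := F) (w0 := w0) (K := K) h0 h2 hμ hc0 (fun _ _ _ e => e ^ 2)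
    (fun n δ v e => 1 / (2 * (|B n δ v e| + 1)))
  have a3 := ev_rhoA (F := F) (w0 := w0) (c0 := c0) (K := K) h0 h2 hμ
  refine (((a0.and a1).and a2).and a3).mono ?_
  rintro p ⟨⟨⟨hl, b1⟩, b2⟩, b3⟩ c
  have hl := hl c
  have hp : p.Std := hl.toStd
  have : IsProbabilityMeasure (nuR G) := by unfold nuR; infer_instance
  have he : 0 < p.e ^ 2 := pow_pos hp.e_pos 2
  have hρ := b3 c
  have hyg : c.Ht (c.y / 2) c.g := Cf.htA hl.toC
  have hN0 := cardF_nonneg p.δ p.v p.e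
  obtain ⟨b, hb⟩ : ∃ b, b = |B p.n p.δ p.v p.e| + 1 := ⟨_, rfl⟩
  have hb0 : 0 < b := by rw [hb]; positivity
  have hbB : B p.n p.δ p.v p.e ≤ b := by
    rw [hb]; linarith [le_abs_self (B p.n p.δ p.v p.e)]
  have h1 : (nuR G).real (c.TSA)ᶜ ≤ 1 / (2 * b) := by
    have h3 : (nuR G).real (c.TSA)ᶜ ≤
        (∑ k ∈ p.idx, ((nuR G).prod PF).real (NS (c.ob k) (c.thr k))) / p.e ^ 2 :=
      V.TSet_compl_le _ _ h0 (fun k _ => measurableSet_NS (Cf.meas_ob hρ.meas k) _) he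
    refine h3.trans ?_
    rw [div_le_iff₀ he]
    have h4 : ∑ k ∈ p.idx, ((nuR G).prod PF).real (NS (c.ob k) (c.thr k)) ≤
        ∑ _k ∈ p.idx, p.e ^ 2 / (2 * b * (cardF p.δ p.v p.e + 1)) := by
      refine Finset.sum_le_sum fun k hk => ?_
      rw [hb]
      exact b1 (by positivity) c k hk
    refine h4.trans ?_
    rw [Finset.sum_const, nsmul_eq_mul, cardF_eq]
    have h5 : cardF p.δ p.v p.e * (p.e ^ 2 / (2 * b * (cardF p.δ p.v p.e + 1))) =
        1 / (2 * b) * p.e ^ 2 * (cardF p.δ p.v p.e / (cardF p.δ p.v p.e + 1)) := by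
      have : cardF p.δ p.v p.e + 1 ≠ 0 := by positivity
      field_simp
    rw [h5]
    have h6 : cardF p.δ p.v p.e / (cardF p.δ p.v p.e + 1) ≤ 1 := by
      rw [div_le_one (by positivity)]; linarith
    exact mul_le_of_le_one_right (by positivity) h6
  have h7 : (nuR G).real (c.typA)ᶜ ≤ 1 / b := by
    have h8 : (c.typA)ᶜ ⊆ (c.TSA)ᶜ ∪ {q | p.e ^ 2 * c.l <
        |V.hkR c.h (dOv F (c.y / 2) c.g) univ (-c.L) c.L q - c.rho (dOv F (c.y / 2) c.g) q|} := by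
      intro q hq
      by_cases h : q ∈ c.TSA
      · right
        by_contra hcon
        have hcon' : ¬ (p.e ^ 2 * c.l < |V.hkR c.h (dOv F (c.y / 2) c.g) univ (-c.L) c.L q -
          c.rho (dOv F (c.y / 2) c.g) q|) := hcon
        exact hq ⟨h, not_lt.1 hcon'⟩
      · left; exact h
    have h9 := (b2 he (by positivity) c _ _ hyg).2
    rw [← hb] at h9
    calc (nuR G).real (c.typA)ᶜ ≤ _ := measureReal_mono h8
      _ ≤ _ := measureReal_union_le _ _
      _ ≤ 1 / (2 * b) + 1 / (2 * b) := add_le_add h1 h9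
      _ = 1 / b := by field_simp; ring
  constructor
  · calc B p.n p.δ p.v p.e * (nuR G).real (c.TSA)ᶜ ≤ b * (1 / (2 * b)) :=
          mul_le_mul hbB h1 measureReal_nonneg hb0.le
      _ ≤ 1 := by
          have : b * (1 / (2 * b)) = 1 / 2 := by field_simp
          rw [this]; norm_num
  · calc B p.n p.δ p.v p.e * (nuR G).real (c.typA)ᶜ ≤ b * (1 / b) :=
          mul_le_mul hbB h7 measureReal_nonneg hb0.le
      _ ≤ 1 := by
          have : b * (1 / b) = 1 := by field_simp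
          rw [this]

end Crest.Agent.R151.NF
end

-- ▼ part R151/Z74

set_option autoImplicit false

open MeasureTheory Filter ProbabilityTheory Topology
open Crest.ProbabilityR.FirstPassage
open Crest.Agent.R151.K Crest.Agent.R151.Q

namespace Crest.Agent.R151.Z74

open B710 (FlatData)
open NF

/-- `T_prob` for the exponential law -/
def TP : Prop := ∀ {μ : ℝ × ℝ → ℝ}, IsTC (gammaMeasure 1 1) μ → ∀ (F : FlatData μ) (w0 c0 K : ℝ),
      0 < c0 → 0 < K → ∀ B : ℕ → ℝ → ℝ → ℝ → ℝ, Ev fun p => ∀ c : Cf (gammaMeasure 1 1) F w0 c0 K p,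
      B p.n p.δ p.v p.e * (nuR (gammaMeasure 1 1)).real (c.TSA)ᶜ ≤ 1 ∧
      B p.n p.δ p.v p.e * (nuR (gammaMeasure 1 1)).real (c.typA)ᶜ ≤ 1

theorem allInputs (hT : TP) : Z214.AllInputs := by
  have hP : IsProbabilityMeasure (gammaMeasure 1 1) :=
    isProbabilityMeasure_gammaMeasure one_pos one_pos
  intro μ' hμ' F' w0' c0' K' hc0' hK'
  refine Z710.allInputs_of_law_dich (fun {μ} hμ F w0 c0 K hc0 hK => ⟨fun c => c.typA, ?_⟩)
    hμ' F' w0' c0' K' hc0' hK'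
  have h0 := gamma_Iio 1 1
  have h2 := integrable_sq h0 (half_pos one_pos) (gamma_exp one_pos one_pos)
  have hn := normLike_gamma one_pos one_pos hμ
  have hlaw : ∃ C1 : ℝ, 0 < C1 ∧ Ev fun p => ∀ c : Cf (gammaMeasure 1 1) F w0 c0 K p,
      (c.rowA c.typA).Law (nuR (gammaMeasure 1 1)) c.mB C1 p.n p.δ (p.v + 1 / p.e) p.e :=
    ⟨E191.CF 1100, by unfold E191.CF; positivity,
      CL.law_typA one_pos h0 h2 hμ hn hc0 hK.le (hT hμ F w0 c0 K hc0 hK)⟩
  exact ⟨E39.ev_law_of (typ := fun c => c.typA) hlaw,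
    E39.dich_typA one_pos h0 h2 hμ hn hK.le hlaw (D290.hd2_typA one_pos h0 h2 hμ)⟩

theorem s0214 (hT : TP) 
    (κ r : ℝ) (hκ : 0 < κ) (hr : 0 < r) (μ : ℝ × ℝ → ℝ)
    (hμ : ∀ v : ℝ × ℝ, ∀ᵐ t ∂(iidLaw (ProbabilityTheory.gammaMeasure κ r)),
      Filter.Tendsto (fun s : ℝ => passageTime t (0, 0) (⌊s * v.1⌋, ⌊s * v.2⌋) / s)
        Filter.atTop (nhds (μ v))) :
    (∀ v : ℝ × ℝ, v ≠ 0 → DifferentiableAt ℝ μ v) ∧
      (κ = 1 → StrictConvex ℝ {v : ℝ × ℝ | μ v ≤ 1}) :=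
  Z214.s0214_of (allInputs hT) κ r hκ hr μ hμ

/-- `T_prob` (710's NF9) -/
theorem tp : TP := by
  intro μ hμ F w0 c0 K hc0 hK B
  have hP : IsProbabilityMeasure (gammaMeasure 1 1) :=
    isProbabilityMeasure_gammaMeasure one_pos one_pos
  have h0 := gamma_Iio 1 1
  have h2 := integrable_sq h0 (half_pos one_pos) (gamma_exp one_pos one_pos)
  have hG := law213_gamma (κ := 1) (r := 1) one_pos one_pos
  obtain ⟨m, hM⟩ := mom_of_law213 hG
  exact NF.T_prob h0 h2 hμ hM (locCtl_of_law213 hG) hc0 B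

/-- **S0214** -/
theorem s0214_final
    (κ r : ℝ) (hκ : 0 < κ) (hr : 0 < r) (μ : ℝ × ℝ → ℝ)
    (hμ : ∀ v : ℝ × ℝ, ∀ᵐ t ∂(iidLaw (ProbabilityTheory.gammaMeasure κ r)),
      Filter.Tendsto (fun s : ℝ => passageTime t (0, 0) (⌊s * v.1⌋, ⌊s * v.2⌋) / s)
        Filter.atTop (nhds (μ v))) :
    (∀ v : ℝ × ℝ, v ≠ 0 → DifferentiableAt ℝ μ v) ∧
      (κ = 1 → StrictConvex ℝ {v : ℝ × ℝ | μ v ≤ 1}) :=
  s0214 tp κ r hκ hr μ hμ

end Crest.Agent.R151.Z74
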